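import Mathlib

set_option linter.all false

section

namespace Vale.Agent.P153

open Finset
open scoped FinsetFamily

section Holley

variable {α : Type*} [DistribLattice α]

/-- Weighted Holley inequality. -/
theorem holley_weighted (w₁ w₂ F : α → ℝ) (S T : Finset α)
    (hw₁ : ∀ a, 0 ≤ w₁ a) (hw₂ : ∀ a, 0 ≤ w₂ a) (hF0 : ∀ a, 0 ≤ F a) (hF : Monotone F)
    (hS : ∀ a, a ∉ S → w₁ a = 0) (hT : ∀ a, a ∉ T → w₂ a = 0)
    (hw : ∀ a b, w₁ a * w₂ b ≤ w₁ (a ⊓ b) * w₂ (a ⊔ b)) :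
    (∑ a ∈ S, w₁ a * F a) * (∑ a ∈ T, w₂ a) ≤ (∑ a ∈ S, w₁ a) * ∑ a ∈ T, w₂ a * F a := by
  classical
  have key := four_functions_theorem (fun a => w₁ a * F a) w₂ w₁ (fun a => w₂ a * F a)
    (fun a => mul_nonneg (hw₁ a) (hF0 a)) hw₂ hw₁ (fun a => mul_nonneg (hw₂ a) (hF0 a))
    (by
      intro a b
      have h1 := hw a b
      have h2 : F a ≤ F (a ⊔ b) := hF le_sup_left
      calc w₁ a * F a * w₂ b = (w₁ a * w₂ b) * F a := by ring
        _ ≤ (w₁ (a ⊓ b) * w₂ (a ⊔ b)) * F (a ⊔ b) :=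
            mul_le_mul h1 h2 (hF0 a) (mul_nonneg (hw₁ _) (hw₂ _))
        _ = w₁ (a ⊓ b) * (w₂ (a ⊔ b) * F (a ⊔ b)) := by ring) S T
  refine key.trans (mul_le_mul ?_ ?_ ?_ ?_)
  · calc ∑ a ∈ S ⊼ T, w₁ a = ∑ a ∈ (S ⊼ T) ∩ S, w₁ a := by
          symm
          apply Finset.sum_subset Finset.inter_subset_left
          intro a ha hna
          apply hS
          intro haS
          exact hna (Finset.mem_inter.2 ⟨ha, haS⟩)
      _ ≤ ∑ a ∈ S, w₁ a :=
          Finset.sum_le_sum_of_subset_of_nonneg Finset.inter_subset_right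
            (fun a _ _ => hw₁ a)
  · calc ∑ a ∈ S ⊻ T, w₂ a * F a = ∑ a ∈ (S ⊻ T) ∩ T, w₂ a * F a := by
          symm
          apply Finset.sum_subset Finset.inter_subset_left
          intro a ha hna
          rw [hT a, zero_mul]
          intro haS
          exact hna (Finset.mem_inter.2 ⟨ha, haS⟩)
      _ ≤ ∑ a ∈ T, w₂ a * F a :=
          Finset.sum_le_sum_of_subset_of_nonneg Finset.inter_subset_right
            (fun a _ _ => mul_nonneg (hw₂ a) (hF0 a))
  · exact Finset.sum_nonneg fun a _ => mul_nonneg (hw₂ a) (hF0 a)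
  · exact Finset.sum_nonneg fun a _ => hw₁ a

/-- The average of `F` over the finite set `S`. -/
noncomputable def ev (S : Finset α) (F : α → ℝ) : ℝ := (∑ a ∈ S, F a) / (#S : ℝ)

omit [DistribLattice α] in
theorem ev_add (S : Finset α) (F G : α → ℝ) : ev S (fun a => F a + G a) = ev S F + ev S G := by
  unfold ev
  rw [Finset.sum_add_distrib, add_div]

omit [DistribLattice α] in
theorem ev_sub (S : Finset α) (F G : α → ℝ) : ev S (fun a => F a - G a) = ev S F - ev S G := by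
  unfold ev
  rw [Finset.sum_sub_distrib, sub_div]

omit [DistribLattice α] in
theorem ev_const_mul (S : Finset α) (c : ℝ) (F : α → ℝ) :
    ev S (fun a => c * F a) = c * ev S F := by
  unfold ev
  rw [← Finset.mul_sum, mul_div_assoc]

omit [DistribLattice α] in
theorem ev_const (S : Finset α) (hS : S.Nonempty) (c : ℝ) : ev S (fun _ => c) = c := by
  unfold ev
  have : (#S : ℝ) ≠ 0 := by
    have := hS.card_pos
    (clear * - hS; positivity)
  rw [Finset.sum_const, nsmul_eq_mul]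
  (clear * - this; field_simp)

omit [DistribLattice α] in
theorem ev_mono (S : Finset α) (F G : α → ℝ) (h : ∀ a ∈ S, F a ≤ G a) : ev S F ≤ ev S G := by
  unfold ev
  apply div_le_div_of_nonneg_right (Finset.sum_le_sum h)
  positivity

omit [DistribLattice α] in
theorem ev_nonneg (S : Finset α) (F : α → ℝ) (h : ∀ a ∈ S, 0 ≤ F a) : 0 ≤ ev S F := by
  unfold ev
  apply div_nonneg (Finset.sum_nonneg h)
  positivity

omit [DistribLattice α] in
theorem ev_congr (S : Finset α) (F G : α → ℝ) (h : ∀ a ∈ S, F a = G a) : ev S F = ev S G := by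
  unfold ev
  rw [Finset.sum_congr rfl h]

omit [DistribLattice α] in
/-- Cauchy-Schwarz for the average. -/
theorem ev_abs_le (S : Finset α) (F : α → ℝ) :
    ev S (fun a => |F a|) ≤ √(ev S (fun a => F a ^ 2)) := by
  rcases S.eq_empty_or_nonempty with h | hS
  · subst h
    simp only [ev, sum_empty, card_empty, CharP.cast_eq_zero, div_zero, Real.sqrt_zero, Std.le_refl]
  apply Real.le_sqrt_of_sq_le
  set m := ev S (fun a => |F a|)
  have h0 : 0 ≤ ev S (fun a => (|F a| - m) ^ 2) := ev_nonneg _ _ fun a _ => sq_nonneg _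
  have h1 : ev S (fun a => (|F a| - m) ^ 2)
      = ev S (fun a => F a ^ 2) - 2 * m * m + m ^ 2 := by
    have : (fun a => (|F a| - m) ^ 2) = fun a => (F a ^ 2 - (2 * m) * |F a|) + m ^ 2 := by
      funext a
      have := sq_abs (F a)
      linarith
    rw [this, ev_add, ev_sub, ev_const_mul, ev_const S hS]
  linarith

/-- Holley's inequality for uniform measures on finite sets, the set `S` being below `T`. -/
theorem ev_le_ev (S T : Finset α) (hS : S.Nonempty) (hT : T.Nonempty)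
    (hinf : ∀ a ∈ S, ∀ b ∈ T, a ⊓ b ∈ S) (hsup : ∀ a ∈ S, ∀ b ∈ T, a ⊔ b ∈ T)
    (F : α → ℝ) (hF : Monotone F) : ev S F ≤ ev T F := by
  classical
  -- a bound from below for `F` on everything that matters
  obtain ⟨M, hM⟩ : ∃ M : ℝ, ∀ a ∈ S ∪ T, -M ≤ F a := by
    obtain ⟨b, hb⟩ : ∃ b ∈ S ∪ T, ∀ a ∈ S ∪ T, F b ≤ F a :=
      Finset.exists_min_image _ _ (hS.mono Finset.subset_union_left)
    exact ⟨-F b, fun a ha => by simpa using hb.2 a ha⟩
  let F' : α → ℝ := fun a => max (F a + M) 0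
  have hF' : Monotone F' := fun a b hab => max_le_max (by linarith only [hF hab]) le_rfl
  have hF'0 : ∀ a, 0 ≤ F' a := fun a => le_max_right _ _
  let w₁ : α → ℝ := fun a => if a ∈ S then 1 else 0
  let w₂ : α → ℝ := fun a => if a ∈ T then 1 else 0
  have hw₁ : ∀ a, 0 ≤ w₁ a := fun a => by dsimp [w₁]; split_ifs <;> norm_num
  have hw₂ : ∀ a, 0 ≤ w₂ a := fun a => by dsimp [w₂]; split_ifs <;> norm_num
  have key := holley_weighted w₁ w₂ F' S T hw₁ hw₂ hF'0 hF'
    (fun a ha => by simp [w₁, ha]) (fun a ha => by simp [w₂, ha])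
    (by
      intro a b
      by_cases ha : a ∈ S
      · by_cases hb : b ∈ T
        · simp only [ha, ↓reduceIte, hb, mul_one, hinf a ha b hb, hsup a ha b hb, Std.le_refl, w₁, w₂]
        · have : w₁ a * w₂ b = 0 := by simp [w₂, hb]
          rw [this]
          exact mul_nonneg (hw₁ _) (hw₂ _)
      · have : w₁ a * w₂ b = 0 := by simp [w₁, ha]
        rw [this]
        exact mul_nonneg (hw₁ _) (hw₂ _))
  have e1 : ∑ a ∈ S, w₁ a * F' a = ∑ a ∈ S, (F a + M) := by
    apply Finset.sum_congr rfl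
    intro a ha
    have : 0 ≤ F a + M := by linarith only [hM a (Finset.mem_union_left _ ha)]
    simp only [ha, ↓reduceIte, this, sup_of_le_left, one_mul, w₁, F']
  have e2 : ∑ a ∈ T, w₂ a * F' a = ∑ a ∈ T, (F a + M) := by
    apply Finset.sum_congr rfl
    intro a ha
    have : 0 ≤ F a + M := by linarith only [hM a (Finset.mem_union_right _ ha)]
    simp only [ha, ↓reduceIte, this, sup_of_le_left, one_mul, w₂, F']
  have e3 : ∑ a ∈ S, w₁ a = #S := by
    rw [Finset.sum_congr rfl (fun a ha => by simp [w₁, ha] : ∀ a ∈ S, w₁ a = 1)]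
    simp
  have e4 : ∑ a ∈ T, w₂ a = #T := by
    rw [Finset.sum_congr rfl (fun a ha => by simp [w₂, ha] : ∀ a ∈ T, w₂ a = 1)]
    simp
  rw [e1, e2, e3, e4] at key
  have cS : (0 : ℝ) < #S := by exact_mod_cast hS.card_pos
  have cT : (0 : ℝ) < #T := by exact_mod_cast hT.card_pos
  have h1 : ev S (fun a => F a + M) ≤ ev T (fun a => F a + M) := by
    unfold ev
    rw [div_le_div_iff₀ cS cT]
    linarith only [key]
  rw [ev_add, ev_add, ev_const S hS, ev_const T hT] at h1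
  linarith only [h1]

/-- Positive association (FKG) of the uniform measure on a finite sublattice. -/
theorem ev_mul_ge (S : Finset α) (hS : S.Nonempty)
    (hinf : ∀ a ∈ S, ∀ b ∈ S, a ⊓ b ∈ S) (hsup : ∀ a ∈ S, ∀ b ∈ S, a ⊔ b ∈ S)
    (F G : α → ℝ) (hF : Monotone F) (hG : Monotone G) :
    ev S F * ev S G ≤ ev S (fun a => F a * G a) := by
  classical
  obtain ⟨M, hM⟩ : ∃ M : ℝ, ∀ a ∈ S, -M ≤ F a := by
    obtain ⟨b, hb⟩ : ∃ b ∈ S, ∀ a ∈ S, F b ≤ F a := Finset.exists_min_image _ _ hS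
    exact ⟨-F b, fun a ha => by simpa only [neg_neg] using hb.2 a ha⟩
  obtain ⟨N, hN⟩ : ∃ N : ℝ, ∀ a ∈ S, -N ≤ G a := by
    obtain ⟨b, hb⟩ : ∃ b ∈ S, ∀ a ∈ S, G b ≤ G a := Finset.exists_min_image _ _ hS
    exact ⟨-G b, fun a ha => by simpa only [neg_neg] using hb.2 a ha⟩
  let F' : α → ℝ := fun a => max (F a + M) 0
  let G' : α → ℝ := fun a => max (G a + N) 0
  have hF' : Monotone F' := fun a b hab => max_le_max (by linarith only [hF hab]) le_rfl
  have hF'0 : ∀ a, 0 ≤ F' a := fun a => le_max_right _ _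
  have hG' : Monotone G' := fun a b hab => max_le_max (by linarith only [hG hab]) le_rfl
  have hG'0 : ∀ a, 0 ≤ G' a := fun a => le_max_right _ _
  have hFF : ∀ a ∈ S, F' a = F a + M := fun a ha => max_eq_left (by linarith [hM a ha])
  have hGG : ∀ a ∈ S, G' a = G a + N := fun a ha => max_eq_left (by linarith [hN a ha])
  let w₁ : α → ℝ := fun a => if a ∈ S then 1 else 0
  let w₂ : α → ℝ := fun a => if a ∈ S then G' a else 0
  have hw₁ : ∀ a, 0 ≤ w₁ a := fun a => by dsimp [w₁]; split_ifs <;> norm_num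
  have hw₂ : ∀ a, 0 ≤ w₂ a := fun a => by
    dsimp [w₂]; split_ifs
    · exact hG'0 a
    · exact le_rfl
  have key := holley_weighted w₁ w₂ F' S S hw₁ hw₂ hF'0 hF'
    (fun a ha => by simp [w₁, ha]) (fun a ha => by simp [w₂, ha])
    (by
      intro a b
      by_cases ha : a ∈ S
      · by_cases hb : b ∈ S
        · have := hG' (le_sup_right : b ≤ a ⊔ b)
          simpa only [ha, ↓reduceIte, hb, one_mul, hinf a ha b hb, hsup a ha b hb, ge_iff_le, w₁, w₂] using this
        · have : w₁ a * w₂ b = 0 := by simp [w₂, hb]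
          rw [this]
          exact mul_nonneg (hw₁ _) (hw₂ _)
      · have : w₁ a * w₂ b = 0 := by simp [w₁, ha]
        rw [this]
        exact mul_nonneg (hw₁ _) (hw₂ _))
  have e1 : ∑ a ∈ S, w₁ a * F' a = ∑ a ∈ S, (F a + M) := by
    apply Finset.sum_congr rfl
    intro a ha
    simp [w₁, ha, hFF a ha]
  have e2 : ∑ a ∈ S, w₂ a * F' a = ∑ a ∈ S, (G a + N) * (F a + M) := by
    apply Finset.sum_congr rfl
    intro a ha
    simp [w₂, ha, hFF a ha, hGG a ha]
  have e3 : ∑ a ∈ S, w₁ a = #S := by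
    rw [Finset.sum_congr rfl (fun a ha => by simp [w₁, ha] : ∀ a ∈ S, w₁ a = 1)]
    simp
  have e4 : ∑ a ∈ S, w₂ a = ∑ a ∈ S, (G a + N) := by
    apply Finset.sum_congr rfl
    intro a ha
    simp [w₂, ha, hGG a ha]
  rw [e1, e2, e3, e4] at key
  have cS : (0 : ℝ) < #S := by exact_mod_cast hS.card_pos
  have h1 : ev S (fun a => F a + M) * ev S (fun a => G a + N)
      ≤ ev S (fun a => (G a + N) * (F a + M)) := by
    unfold ev
    rw [div_mul_div_comm, div_le_div_iff₀ (by (clear * - hS; positivity)) cS]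
    nlinarith only [key]
  have h2 : ev S (fun a => (G a + N) * (F a + M))
      = ev S (fun a => F a * G a) + N * ev S F + M * ev S G + M * N := by
    have : (fun a => (G a + N) * (F a + M)) = fun a => ((F a * G a + N * F a) + M * G a) + M * N := by
      funext a; ring
    rw [this, ev_add, ev_add, ev_add, ev_const_mul, ev_const_mul, ev_const S hS]
  rw [ev_add, ev_add, ev_const S hS, ev_const S hS, h2] at h1
  nlinarith only [h1]

end Holley

section Squeeze

variable {α : Type*} [DistribLattice α]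

omit [DistribLattice α] in
/-- Second-moment comparison: if shifting the observable by `c` dominates in both directions, then
the root mean squares around any centre differ by at most `c`. -/
theorem rms_compare (S T : Finset α) (hS : S.Nonempty) (X : α → ℝ) (c : ℝ)
    (hc : 0 ≤ c)
    (hup : ∀ ψ : ℝ → ℝ, Monotone ψ → ev S (fun a => ψ (X a)) ≤ ev T (fun a => ψ (X a + c)))
    (hdn : ∀ ψ : ℝ → ℝ, Antitone ψ → ev S (fun a => ψ (X a)) ≤ ev T (fun a => ψ (X a - c)))
    (m : ℝ) :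
    √(ev S (fun a => (X a - m) ^ 2)) ≤ √(ev T (fun a => (X a - m) ^ 2)) + c := by
  let ψp : ℝ → ℝ := fun t => (max (t - m) c) ^ 2 - c ^ 2
  let ψm : ℝ → ℝ := fun t => (max (-(t - m)) c) ^ 2 - c ^ 2
  have hp : Monotone ψp := by
    intro s t hst
    have h1 : max (s - m) c ≤ max (t - m) c := max_le_max (by linarith) le_rfl
    have h2 : 0 ≤ max (s - m) c := hc.trans (le_max_right _ _)
    dsimp [ψp]
    nlinarith only [h1, h2]
  have hm : Antitone ψm := by
    intro s t hst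
    have h1 : max (-(t - m)) c ≤ max (-(s - m)) c := max_le_max (by linarith) le_rfl
    have h2 : 0 ≤ max (-(t - m)) c := hc.trans (le_max_right _ _)
    dsimp [ψm]
    nlinarith
  have h1 := hup ψp hp
  have h2 := hdn ψm hm
  have e1 : ev S (fun a => (X a - m) ^ 2)
      ≤ c ^ 2 + (ev S (fun a => ψp (X a)) + ev S (fun a => ψm (X a))) := by
    rw [← ev_add, ← ev_const S hS (c ^ 2), ← ev_add]
    apply ev_mono
    intro a _
    dsimp [ψp, ψm]
    rcases le_total (X a - m) c with h | h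
    · rw [max_eq_right h]
      rcases le_total (-(X a - m)) c with h' | h'
      · rw [max_eq_right h']; nlinarith only [h, h']
      · rw [max_eq_left h']; linarith
    · rw [max_eq_left h]
      have h' : -(X a - m) ≤ c := by linarith
      rw [max_eq_right h']; linarith
  have e2 : ev T (fun a => ψp (X a + c)) + ev T (fun a => ψm (X a - c))
      = ev T (fun a => (X a - m) ^ 2) + 2 * c * ev T (fun a => |X a - m|) := by
    rw [← ev_add, ← ev_const_mul, ← ev_add]
    apply ev_congr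
    intro a _
    dsimp [ψp, ψm]
    rcases le_total 0 (X a - m) with h | h
    · rw [abs_of_nonneg h, max_eq_left (by linarith), max_eq_right (by linarith only [h])]
      ring
    · rw [abs_of_nonpos h, max_eq_right (by linarith), max_eq_left (by linarith)]
      ring
  have e3 : ev T (fun a => |X a - m|) ≤ √(ev T (fun a => (X a - m) ^ 2)) :=
    ev_abs_le T (fun a => X a - m)
  have e4 : 0 ≤ ev T (fun a => (X a - m) ^ 2) := ev_nonneg _ _ fun a _ => sq_nonneg _
  rw [Real.sqrt_le_left (by (clear * - hc; positivity))]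
  have e5 := Real.sq_sqrt e4
  nlinarith only [h1, h2, e1, e2, e5, e3, hc]

end Squeeze

section Groups

/-- The product formula inequality `|H| |K| ≤ |H ⊓ K| |L|` for subgroups of a finite group `L`. -/
theorem card_mul_card_le {G : Type*} [Group G] (H K L : Subgroup G) [Finite L]
    (hH : H ≤ L) (hK : K ≤ L) :
    Nat.card H * Nat.card K ≤ Nat.card (H ⊓ K : Subgroup G) * Nat.card L := by
  have hL0 : Nat.card L ≠ 0 := Nat.card_pos.ne'
  have h1 : Nat.card (H ⊓ K : Subgroup G) * K.relIndex H = Nat.card H := by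
    have := Subgroup.relIndex_mul_relIndex (⊥ : Subgroup G) (H ⊓ K) H bot_le inf_le_left
    rwa [Subgroup.relIndex_bot_left, Subgroup.relIndex_bot_left, Subgroup.inf_relIndex_left]
      at this
  have h2 : Nat.card K * K.relIndex L = Nat.card L := by
    have := Subgroup.relIndex_mul_relIndex (⊥ : Subgroup G) K L bot_le hK
    rwa [Subgroup.relIndex_bot_left, Subgroup.relIndex_bot_left] at this
  have h3 : K.relIndex H ≤ K.relIndex L := by
    apply Subgroup.relIndex_le_of_le_right hH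
    intro h0
    rw [h0, mul_zero] at h2
    exact hL0 h2.symm
  calc Nat.card H * Nat.card K
      = Nat.card (H ⊓ K : Subgroup G) * K.relIndex H * Nat.card K := by rw [h1]
    _ ≤ Nat.card (H ⊓ K : Subgroup G) * K.relIndex L * Nat.card K := by (clear * - h3; gcongr)
    _ = Nat.card (H ⊓ K : Subgroup G) * (Nat.card K * K.relIndex L) := by ring
    _ = Nat.card (H ⊓ K : Subgroup G) * Nat.card L := by rw [h2]

end Groups

end Vale.Agent.P153
end

section

/-!
# P153, finite volume: conditional expectations, Markov property, reflections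

Everything is about the uniform law on a finite set `S` of functions `V → X`.
`cE S A F` is the conditional expectation of `F` given the values on `A`.
-/

namespace Vale.Agent.P153.Fv

open Finset

variable {V X : Type*}

/-- `h` and `g` agree on `A` -/
def Agree (A : Set V) (h g : V → X) : Prop := ∀ v ∈ A, h v = g v

theorem Agree.rfl' {A : Set V} {h : V → X} : Agree A h h := fun _ _ => rfl

theorem Agree.symm {A : Set V} {h g : V → X} (p : Agree A h g) : Agree A g h :=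
  fun v hv => (p v hv).symm

theorem Agree.trans {A : Set V} {h g k : V → X} (p : Agree A h g) (q : Agree A g k) :
    Agree A h k := fun v hv => (p v hv).trans (q v hv)

theorem Agree.mono {A B : Set V} {h g : V → X} (hAB : A ⊆ B) (p : Agree B h g) : Agree A h g :=
  fun v hv => p v (hAB hv)

/-- `F` depends only on the values on `A` -/
def Dep (A : Set V) (F : (V → X) → ℝ) : Prop := ∀ h g, Agree A h g → F h = F g

theorem dep_const (A : Set V) (c : ℝ) : Dep (X := X) A (fun _ => c) := fun _ _ _ => rfl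

open Classical in
/-- the members of `S` that agree with `h` on `A` -/
noncomputable def cyl (S : Finset (V → X)) (A : Set V) (h : V → X) : Finset (V → X) :=
  S.filter (fun g => Agree A g h)

theorem mem_cyl {S : Finset (V → X)} {A : Set V} {h g : V → X} :
    g ∈ cyl S A h ↔ g ∈ S ∧ Agree A g h := by
  classical
  simp [cyl]

theorem self_mem_cyl {S : Finset (V → X)} {A : Set V} {h : V → X} (hh : h ∈ S) :
    h ∈ cyl S A h := mem_cyl.2 ⟨hh, Agree.rfl'⟩

theorem cyl_congr {S : Finset (V → X)} {A : Set V} {h g : V → X} (p : Agree A h g) :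
    cyl S A h = cyl S A g := by
  ext k
  rw [mem_cyl, mem_cyl]
  exact ⟨fun q => ⟨q.1, q.2.trans p⟩, fun q => ⟨q.1, q.2.trans p.symm⟩⟩

/-- conditional expectation of `F` given the values on `A`, uniform law on `S` -/
noncomputable def cE (S : Finset (V → X)) (A : Set V) (F : (V → X) → ℝ) (h : V → X) : ℝ :=
  ev (cyl S A h) F

theorem cE_dep (S : Finset (V → X)) (A : Set V) (F : (V → X) → ℝ) : Dep A (cE S A F) := by
  intro h g p
  unfold cE
  rw [cyl_congr p]

theorem cE_congr {S : Finset (V → X)} {A : Set V} {F G : (V → X) → ℝ} (h : V → X)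
    (p : ∀ g ∈ S, Agree A g h → F g = G g) : cE S A F h = cE S A G h := by
  unfold cE
  exact ev_congr _ _ _ fun g hg => p g (mem_cyl.1 hg).1 (mem_cyl.1 hg).2

theorem cE_of_dep {S : Finset (V → X)} {A : Set V} {F : (V → X) → ℝ} (p : Dep A F) {h : V → X}
    (hh : h ∈ S) : cE S A F h = F h := by
  have : cE S A F h = cE S A (fun _ => F h) h := cE_congr h fun g _ hg => p g h hg
  rw [this]
  exact ev_const _ ⟨h, self_mem_cyl hh⟩ _

/-- the conditional expectation is self-adjoint -/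
theorem sum_cE_mul (S : Finset (V → X)) (A : Set V) (F G : (V → X) → ℝ) :
    ∑ h ∈ S, cE S A F h * G h = ∑ h ∈ S, F h * cE S A G h := by
  classical
  have e1 : ∀ h ∈ S, cE S A F h * G h
      = ∑ g ∈ S, if Agree A g h then F g * G h / (#(cyl S A h) : ℝ) else 0 := by
    intro h _
    rw [← Finset.sum_filter]
    unfold cE ev
    rw [div_mul_eq_mul_div, Finset.sum_mul, Finset.sum_div]
    unfold cyl
    rfl
  have e2 : ∀ h ∈ S, F h * cE S A G h
      = ∑ g ∈ S, if Agree A g h then F h * G g / (#(cyl S A h) : ℝ) else 0 := by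
    intro h _
    rw [← Finset.sum_filter]
    unfold cE ev
    rw [mul_div_assoc', Finset.mul_sum, Finset.sum_div]
    unfold cyl
    rfl
  rw [Finset.sum_congr rfl e1, Finset.sum_congr rfl e2, Finset.sum_comm]
  apply Finset.sum_congr rfl
  intro h _
  apply Finset.sum_congr rfl
  intro g _
  by_cases p : Agree A g h
  · rw [if_pos p, if_pos p.symm, cyl_congr p]
  · rw [if_neg p, if_neg fun q => p q.symm]

theorem sum_cE_mul_dep {S : Finset (V → X)} {A : Set V} {F G : (V → X) → ℝ} (p : Dep A G) :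
    ∑ h ∈ S, cE S A F h * G h = ∑ h ∈ S, F h * G h := by
  rw [sum_cE_mul]
  exact Finset.sum_congr rfl fun h hh => by rw [cE_of_dep p hh]

theorem sum_cE (S : Finset (V → X)) (A : Set V) (F : (V → X) → ℝ) :
    ∑ h ∈ S, cE S A F h = ∑ h ∈ S, F h := by
  simpa using sum_cE_mul_dep (S := S) (A := A) (F := F) (dep_const (X := X) A 1)

theorem ev_cE (S : Finset (V → X)) (A : Set V) (F : (V → X) → ℝ) :
    ev S (cE S A F) = ev S F := by
  unfold ev
  rw [sum_cE]

theorem cyl_cyl {S : Finset (V → X)} {A B : Set V} (hAB : A ⊆ B) {h g : V → X}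
    (hg : Agree A g h) : cyl (cyl S A h) B g = cyl S B g := by
  ext k
  rw [mem_cyl, mem_cyl, mem_cyl]
  constructor
  · rintro ⟨⟨h1, _⟩, h3⟩
    exact ⟨h1, h3⟩
  · rintro ⟨h1, h3⟩
    exact ⟨⟨h1, (h3.mono hAB).trans hg⟩, h3⟩

/-- tower property -/
theorem cE_cE {S : Finset (V → X)} {A B : Set V} (hAB : A ⊆ B) (F : (V → X) → ℝ) (h : V → X) :
    cE S A (cE S B F) h = cE S A F h := by
  have e : cE S A (cE S B F) h = ev (cyl S A h) (cE (cyl S A h) B F) := by
    unfold cE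
    apply ev_congr
    intro g hg
    rw [cyl_cyl hAB (mem_cyl.1 hg).2]
  rw [e, ev_cE]
  rfl

/-- `S` is closed under gluing along `A ∩ B` -/
def Glue (S : Finset (V → X)) (A B : Set V) : Prop :=
  ∀ h ∈ S, ∀ g ∈ S, Agree (A ∩ B) h g → ∃ k ∈ S, Agree A k h ∧ Agree B k g

open Classical in
/-- `h` on `A` and `g` off `A` -/
noncomputable def glue (A : Set V) (h g : V → X) : V → X := fun v => if v ∈ A then h v else g v

theorem glue_eq {A B : Set V} (hAB : A ∪ B = Set.univ) {h g k : V → X} (h1 : Agree A k h)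
    (h2 : Agree B k g) : glue A h g = k := by
  classical
  funext v
  unfold glue
  by_cases hv : v ∈ A
  · rw [if_pos hv, h1 v hv]
  · have hv' : v ∈ B := by
      have : v ∈ A ∪ B := hAB ▸ Set.mem_univ v
      exact this.resolve_left hv
    rw [if_neg hv, h2 v hv']

/-- sums over the cylinders over `B` of a function of the values on `A` depend only on the values
on `A ∩ B` -/
theorem sum_cyl_eq {S : Finset (V → X)} {A B : Set V} (hAB : A ∪ B = Set.univ)
    (p : Glue S A B) {F : (V → X) → ℝ} (hF : Dep A F) {h g : V → X} (hh : h ∈ S) (hg : g ∈ S)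
    (q : Agree (A ∩ B) h g) : ∑ k ∈ cyl S B h, F k = ∑ k ∈ cyl S B g, F k := by
  have key : ∀ {h g : V → X}, h ∈ S → g ∈ S → Agree (A ∩ B) h g → ∀ k ∈ cyl S B h,
      Agree A (glue A k g) k ∧ Agree B (glue A k g) g ∧ glue A k g ∈ S := by
    intro h g hh hg q k hk
    obtain ⟨hk, hk'⟩ := mem_cyl.1 hk
    obtain ⟨k', h1, h2, h3⟩ := p k hk g hg
      ((hk'.mono Set.inter_subset_right).trans q)
    have := glue_eq hAB h2 h3
    rw [this]
    exact ⟨h2, h3, h1⟩
  refine Finset.sum_bij' (fun k _ => glue A k g) (fun k _ => glue A k h) ?_ ?_ ?_ ?_ ?_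
  · intro k hk
    obtain ⟨h1, h2, h3⟩ := key hh hg q k hk
    exact mem_cyl.2 ⟨h3, h2⟩
  · intro k hk
    obtain ⟨h1, h2, h3⟩ := key hg hh q.symm k hk
    exact mem_cyl.2 ⟨h3, h2⟩
  · intro k hk
    obtain ⟨h1, h2, h3⟩ := key hh hg q k hk
    exact glue_eq hAB h1.symm (mem_cyl.1 hk).2
  · intro k hk
    obtain ⟨h1, h2, h3⟩ := key hg hh q.symm k hk
    exact glue_eq hAB h1.symm (mem_cyl.1 hk).2
  · intro k hk
    obtain ⟨h1, h2, h3⟩ := key hh hg q k hk
    exact hF _ _ h1.symm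

/-- Markov property -/
theorem markov {S : Finset (V → X)} {A B : Set V} (hAB : A ∪ B = Set.univ)
    (p : Glue S A B) {F : (V → X) → ℝ} (hF : Dep A F) {h : V → X} (hh : h ∈ S) :
    cE S B F h = cE S (A ∩ B) F h := by
  have e : cE S (A ∩ B) F h = cE S (A ∩ B) (cE S B F) h :=
    (cE_cE Set.inter_subset_right F h).symm
  rw [e]
  have e2 : cE S (A ∩ B) (cE S B F) h = cE S (A ∩ B) (fun _ => cE S B F h) h := by
    apply cE_congr
    intro g hg hgh
    unfold cE ev
    rw [sum_cyl_eq hAB p hF hg hh hgh]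
    have := sum_cyl_eq (F := fun _ => (1 : ℝ)) hAB p (dep_const A 1) hg hh hgh
    simp only [sum_const, nsmul_eq_mul, mul_one] at this
    rw [this]
  rw [e2]
  symm
  exact ev_const _ ⟨h, self_mem_cyl hh⟩ _

/-- conditional independence of the two sides -/
theorem sum_mul_eq {S : Finset (V → X)} {A B : Set V} (hAB : A ∪ B = Set.univ)
    (p : Glue S A B) {F G : (V → X) → ℝ} (hF : Dep A F) (hG : Dep B G) :
    ∑ h ∈ S, F h * G h = ∑ h ∈ S, cE S (A ∩ B) F h * cE S (A ∩ B) G h := by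
  calc ∑ h ∈ S, F h * G h = ∑ h ∈ S, cE S B F h * G h := (sum_cE_mul_dep hG).symm
    _ = ∑ h ∈ S, cE S (A ∩ B) F h * G h :=
        Finset.sum_congr rfl fun h hh => by rw [markov hAB p hF hh]
    _ = ∑ h ∈ S, cE S (A ∩ B) F h * cE S (A ∩ B) G h := by
        have h1 := sum_cE_mul_dep (S := S) (A := A ∩ B) (F := G) (G := cE S (A ∩ B) F)
          (cE_dep _ _ _)
        calc ∑ h ∈ S, cE S (A ∩ B) F h * G h = ∑ h ∈ S, G h * cE S (A ∩ B) F h :=
              Finset.sum_congr rfl fun h _ => mul_comm _ _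
          _ = ∑ h ∈ S, cE S (A ∩ B) G h * cE S (A ∩ B) F h := h1.symm
          _ = _ := Finset.sum_congr rfl fun h _ => mul_comm _ _

theorem ev_mul_eq {S : Finset (V → X)} {A B : Set V} (hAB : A ∪ B = Set.univ)
    (p : Glue S A B) {F G : (V → X) → ℝ} (hF : Dep A F) (hG : Dep B G) :
    ev S (fun h => F h * G h) = ev S (fun h => cE S (A ∩ B) F h * cE S (A ∩ B) G h) := by
  unfold ev
  rw [sum_mul_eq hAB p hF hG]

/-! ### reflections -/

/-- reflected observable -/
def rf (θ : V → V) (F : (V → X) → ℝ) : (V → X) → ℝ := fun h => F (h ∘ θ)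

/-- the reflection `θ` is a symmetry of `S` -/
structure Refl (S : Finset (V → X)) (θ : V → V) : Prop where
  inv : ∀ v, θ (θ v) = v
  mem : ∀ h ∈ S, h ∘ θ ∈ S

theorem Refl.comp_comp {S : Finset (V → X)} {θ : V → V} (r : Refl S θ) (h : V → X) :
    (h ∘ θ) ∘ θ = h := by
  funext v
  simp [Function.comp, r.inv v]

theorem sum_rf {S : Finset (V → X)} {θ : V → V} (r : Refl S θ) (F : (V → X) → ℝ) :
    ∑ h ∈ S, rf θ F h = ∑ h ∈ S, F h := by
  refine Finset.sum_bij' (fun h _ => h ∘ θ) (fun h _ => h ∘ θ) ?_ ?_ ?_ ?_ ?_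
  · exact fun h hh => r.mem h hh
  · exact fun h hh => r.mem h hh
  · exact fun h _ => r.comp_comp h
  · exact fun h _ => r.comp_comp h
  · exact fun h _ => rfl

theorem ev_rf {S : Finset (V → X)} {θ : V → V} (r : Refl S θ) (F : (V → X) → ℝ) :
    ev S (rf θ F) = ev S F := by
  unfold ev
  rw [sum_rf r]

theorem Dep.rf {A B : Set V} {θ : V → V} (hθ : ∀ v ∈ A, θ v ∈ B) {F : (V → X) → ℝ}
    (p : Dep A F) : Dep B (rf θ F) := by
  intro h g q
  apply p
  intro v hv
  exact q _ (hθ v hv)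

/-- given the values on the fixed set, an observable and its reflection have the same
conditional expectation -/
theorem cE_rf {S : Finset (V → X)} {θ : V → V} (r : Refl S θ) {R : Set V}
    (hR : ∀ v ∈ R, θ v = v) (F : (V → X) → ℝ) (h : V → X) :
    cE S R (rf θ F) h = cE S R F h := by
  have hm : ∀ g ∈ cyl S R h, g ∘ θ ∈ cyl S R h := by
    intro g hg
    obtain ⟨h1, h2⟩ := mem_cyl.1 hg
    refine mem_cyl.2 ⟨r.mem g h1, fun v hv => ?_⟩
    show g (θ v) = h v
    rw [hR v hv]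
    exact h2 v hv
  have r' : Refl (cyl S R h) θ := ⟨r.inv, hm⟩
  exact ev_rf r' F

/-- reflection identity: `E[E_R F · E_R G] = E[F · θG]` for `F`, `G` on the same side -/
theorem ev_reflect {S : Finset (V → X)} {θ : V → V} (r : Refl S θ) {A B : Set V}
    (hAB : A ∪ B = Set.univ) (p : Glue S A B) (hθ : ∀ v ∈ A, θ v ∈ B)
    (hR : ∀ v ∈ A ∩ B, θ v = v) {F G : (V → X) → ℝ} (hF : Dep A F) (hG : Dep A G) :
    ev S (fun h => F h * rf θ G h)
      = ev S (fun h => cE S (A ∩ B) F h * cE S (A ∩ B) G h) := by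
  rw [ev_mul_eq hAB p hF (hG.rf hθ)]
  apply ev_congr
  intro h _
  rw [cE_rf r hR]

/-! ### association -/

end Vale.Agent.P153.Fv
end

section

/-!
# P153, finite volume: the Lipschitz model on a graph

`Lp adj B` is the set of integer functions with `h v ∈ B v` and `|h v - h w| ≤ 1` for adjacent
`v, w`. All boundary conditions are encoded in `B` (a fixed value `{c}`, free `{0,1}`, no
condition `univ`).
-/

namespace Vale.Agent.P153.Fv

open Finset

variable {V : Type*}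

/-- 1-Lipschitz integer functions with `h v ∈ B v` -/
def Lp (adj : V → V → Prop) (B : V → Set ℤ) : Set (V → ℤ) :=
  {h | (∀ v, h v ∈ B v) ∧ ∀ v w, adj v w → |h v - h w| ≤ 1}

/-- `S` is the set of Lipschitz functions, as a finite set -/
def IsLp (adj : V → V → Prop) (B : V → Set ℤ) (S : Finset (V → ℤ)) : Prop :=
  ∀ h, h ∈ S ↔ h ∈ Lp adj B

theorem finite_of_bdd (U : Finset V) (ζ : V → ℤ) (M : ℤ) :
    {h : V → ℤ | (∀ x, |h x| ≤ M) ∧ ∀ x, x ∉ U → h x = ζ x}.Finite := by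
  classical
  apply Set.Finite.of_finite_image (f := fun h : V → ℤ => fun x : U => h x)
  · apply Set.Finite.subset (s := Set.pi Set.univ (fun _ : U => Set.Icc (-M) M))
    · exact Set.Finite.pi fun _ => Set.finite_Icc _ _
    · rintro g ⟨h, hh, rfl⟩
      intro x _
      exact Set.mem_Icc.2 (abs_le.1 (hh.1 x))
  · intro h hh g hg hhg
    funext x
    by_cases hx : x ∈ U
    · exact congrFun hhg ⟨x, hx⟩
    · rw [hh.2 x hx, hg.2 x hx]

/-- bound along paths -/
theorem Lp.path {adj : V → V → Prop} {B : V → Set ℤ} {h : V → ℤ} (hh : h ∈ Lp adj B)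
    (n : ℕ) (p : ℕ → V) (hp : ∀ i < n, adj (p i) (p (i + 1))) : |h (p n) - h (p 0)| ≤ n := by
  induction n with
  | zero => simp only [sub_self, abs_zero, CharP.cast_eq_zero, Std.le_refl]
  | succ n ih =>
    have h1 := ih fun i hi => hp i (Nat.lt_succ_of_lt hi)
    have h2 := hh.2 _ _ (hp n (Nat.lt_succ_self n))
    have h3 : |h (p (n + 1)) - h (p 0)| ≤ |h (p (n + 1)) - h (p n)| + |h (p n) - h (p 0)| :=
      abs_sub_le _ _ _
    rw [abs_sub_comm] at h2
    push_cast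
    linarith only [h1, h2, h3]

/-- the Lipschitz functions form a finite set if they are fixed off a finite set `U` and every
point of `U` is joined by a path of length at most `N` to a point where they are bounded by `M` -/
theorem finite_Lp {adj : V → V → Prop} {B : V → Set ℤ} (U : Finset V)
    (hU : ∀ v, v ∉ U → (B v).Subsingleton) (M : ℤ) (hM : ∀ v, v ∉ U → ∀ a ∈ B v, |a| ≤ M)
    (N : ℕ) (hN : ∀ v ∈ U, ∃ n ≤ N, ∃ p : ℕ → V, (∀ i < n, adj (p i) (p (i + 1))) ∧ p n = v ∧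
      ∀ a ∈ B (p 0), |a| ≤ M) : (Lp adj B).Finite := by
  classical
  by_cases hne : (Lp adj B).Nonempty
  · obtain ⟨ζ, hζ⟩ := hne
    apply (finite_of_bdd U ζ (M + N)).subset
    intro h hh
    refine ⟨fun x => ?_, fun x hx => hU x hx (hh.1 x) (hζ.1 x)⟩
    by_cases hx : x ∈ U
    · obtain ⟨n, hn, p, hp, rfl, h0⟩ := hN x hx
      have h1 := Lp.path hh n p hp
      have h2 := h0 _ (hh.1 (p 0))
      have h3 : |h (p n)| ≤ |h (p n) - h (p 0)| + |h (p 0)| := by
        have := abs_add_le (h (p n) - h (p 0)) (h (p 0))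
        simpa only [ge_iff_le, sub_add_cancel] using this
      have h4 : (n : ℤ) ≤ N := by exact_mod_cast hn
      linarith only [hn, h1, h2, h3]
    · have := hM x hx _ (hh.1 x)
      have h4 : (0 : ℤ) ≤ N := by (clear * -; positivity)
      linarith only [this]
  · rw [Set.not_nonempty_iff_eq_empty] at hne
    rw [hne]
    exact Set.finite_empty

/-! ### gluing and Markov property -/

/-- no edge joins `A \ B` and `B \ A` -/
def Sep (adj : V → V → Prop) (A B : Set V) : Prop :=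
  A ∪ B = Set.univ ∧ ∀ v, v ∉ B → ∀ w, w ∉ A → ¬ adj v w ∧ ¬ adj w v

theorem IsLp.glue {adj : V → V → Prop} {B : V → Set ℤ} {S : Finset (V → ℤ)}
    (hS : IsLp adj B S) {A C : Set V} (hAC : Sep adj A C) : Glue S A C := by
  classical
  intro h hh g hg q
  have hh' := (hS h).1 hh
  have hg' := (hS g).1 hg
  set k : V → ℤ := fun v => if v ∈ A then h v else g v with hk
  have kA : ∀ v ∈ A, k v = h v := fun v hv => by simp [hk, hv]
  have kC : ∀ v ∈ C, k v = g v := by
    intro v hv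
    by_cases hvA : v ∈ A
    · rw [kA v hvA]
      exact q v ⟨hvA, hv⟩
    · simp [hk, hvA]
  refine ⟨k, (hS k).2 ⟨fun v => ?_, fun v w hvw => ?_⟩, kA, kC⟩
  · by_cases hvA : v ∈ A
    · rw [kA v hvA]
      exact hh'.1 v
    · have hvC : v ∈ C := (hAC.1 ▸ Set.mem_univ v : v ∈ A ∪ C).resolve_left hvA
      rw [kC v hvC]
      exact hg'.1 v
  · by_cases h1 : v ∈ A ∧ w ∈ A
    · rw [kA v h1.1, kA w h1.2]
      exact hh'.2 v w hvw
    · by_cases h2 : v ∈ C ∧ w ∈ C
      · rw [kC v h2.1, kC w h2.2]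
        exact hg'.2 v w hvw
      · exfalso
        have hv : v ∈ A ∪ C := hAC.1 ▸ Set.mem_univ v
        have hw : w ∈ A ∪ C := hAC.1 ▸ Set.mem_univ w
        by_cases hvA : v ∈ A
        · have hwA : w ∉ A := fun hwA => h1 ⟨hvA, hwA⟩
          have hwC : w ∈ C := hw.resolve_left hwA
          have hvC : v ∉ C := fun hvC => h2 ⟨hvC, hwC⟩
          exact (hAC.2 v hvC w hwA).1 hvw
        · have hvC : v ∈ C := hv.resolve_left hvA
          have hwC : w ∉ C := fun hwC => h2 ⟨hvC, hwC⟩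
          exact (hAC.2 w hwC v hvA).2 hvw

/-! ### lattice structure -/

/-! ### symmetries -/

theorem IsLp.refl {adj : V → V → Prop} {B : V → Set ℤ} {S : Finset (V → ℤ)}
    (hS : IsLp adj B S) {θ : V → V} (hθ : ∀ v, θ (θ v) = v)
    (hadj : ∀ v w, adj v w → adj (θ v) (θ w)) (hB : ∀ v, B (θ v) ⊆ B v) : Refl S θ := by
  refine ⟨hθ, fun h hh => ?_⟩
  have hh' := (hS h).1 hh
  refine (hS _).2 ⟨fun v => hB v (hh'.1 (θ v)), fun v w hvw => hh'.2 _ _ (hadj v w hvw)⟩

/-- reflection identity for the Lipschitz model, `E[E_R F · E_R G] = E[F · θG]` -/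
theorem IsLp.reflect {adj : V → V → Prop} {B : V → Set ℤ} {S : Finset (V → ℤ)}
    (hS : IsLp adj B S) {θ : V → V} (hθ : ∀ v, θ (θ v) = v)
    (hadj : ∀ v w, adj v w → adj (θ v) (θ w)) (hB : ∀ v, B (θ v) ⊆ B v) {A C : Set V}
    (hAC : Sep adj A C) (hAθ : ∀ v ∈ A, θ v ∈ C) (hR : ∀ v ∈ A ∩ C, θ v = v)
    {F G : (V → ℤ) → ℝ} (hF : Dep A F) (hG : Dep A G) :
    ev S (fun h => F h * G (h ∘ θ)) = ev S (fun h => cE S (A ∩ C) F h * cE S (A ∩ C) G h) :=
  ev_reflect (hS.refl hθ hadj hB) hAC.1 (hS.glue hAC) hAθ hR hF hG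

/-- Markov property -/
theorem IsLp.markov {adj : V → V → Prop} {B : V → Set ℤ} {S : Finset (V → ℤ)}
    (hS : IsLp adj B S) {A C : Set V} (hAC : Sep adj A C) {F : (V → ℤ) → ℝ} (hF : Dep A F)
    {h : V → ℤ} (hh : h ∈ S) : cE S C F h = cE S (A ∩ C) F h :=
  Fv.markov hAC.1 (hS.glue hAC) hF hh

end Vale.Agent.P153.Fv
end

section

/-!
# P153, block (D)(III)(a): the linear response from two-point functions

Owner: helper376.  Rows: one row here is one step of the positive transfer operator.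
`V j z` = variance of the height difference `h_j(z) - h_0(0)`.
-/

open MeasureTheory ProbabilityTheory Filter Topology Set
open scoped ENNReal Real

namespace Vale.Agent.P153.TwoPt

/-- `|1 - τ e^{iθ}|^2 = (1-τ)^2 + τ (2 - 2 cos θ)`. -/
noncomputable def den (τ θ : ℝ) : ℝ := (1 - τ) ^ 2 + τ * (2 - 2 * Real.cos θ)

/-- Row spectral data: `m k` is the measure `(1-τ^2) ν_k(dτ)` of row momentum `k`. -/
structure Spec (V : ℤ → ℤ → ℝ) (m : Kernel ℝ ℝ) (c κ C k0 : ℝ) : Prop where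
  sfin : IsSFiniteKernel m
  c_pos : 0 < c
  κ_nonneg : 0 ≤ κ
  C_pos : 0 < C
  k0_pos : 0 < k0
  k0_le : k0 ≤ 1
  supp : ∀ᵐ k : ℝ, ∀ᵐ τ ∂(m k), 0 ≤ τ ∧ τ < 1
  mass : ∀ᵐ k : ℝ, |k| < k0 → m k univ ≤ ENNReal.ofReal C
  inv : ∀ᵐ k : ℝ, |k| < k0 → k ≠ 0 →
    ∫⁻ τ, ENNReal.ofReal (1 / (1 - τ) ^ 2) ∂(m k) ≤ ENNReal.ofReal (C / k ^ 2)
  fin : ∫⁻ k in Icc (-π) π, ENNReal.ofReal (1 - Real.cos k) *
    ∫⁻ τ, ENNReal.ofReal (1 / (1 - τ ^ 2)) ∂(m k) ≠ ⊤
  rep : ∀ j z : ℤ, V j z = (1 / π) * ∫ k in Icc (-π) π, ∫ τ,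
    (1 - Real.cos (k * z) * τ ^ j.natAbs) / (1 - τ ^ 2) ∂(m k)
  lim : ∀ ε > 0, ∃ η > 0, ∀ᵐ k : ℝ, |k| < η → k ≠ 0 → ∀ θ : ℝ, |θ| < η →
    |(c ^ 2 * k ^ 2 + θ ^ 2) * (∫ τ, 1 / den τ θ ∂(m k)) - κ| ≤ ε

/-- `a n j x` (row `j`, site `x`) is a discretisation of `f` at scale `L n`. -/
structure Disc (f : ℝ × ℝ → ℝ) (L : ℕ → ℝ) (a : ℕ → ℤ → ℤ → ℝ) (M : ℝ) : Prop where
  M_pos : 0 < M
  L_pos : ∀ n, 1 ≤ L n
  L_top : Tendsto L atTop atTop
  f_cont : Continuous f
  f_supp : HasCompactSupport f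
  supp : ∀ n, ∀ j x : ℤ, (M * L n < |(j : ℝ)| ∨ M * L n < |(x : ℝ)|) → a n j x = 0
  sum_zero : ∀ n, ∑ᶠ p : ℤ × ℤ, a n p.1 p.2 = 0
  close : ∀ ε > 0, ∀ᶠ n in atTop, ∀ j x : ℤ, |L n ^ 2 * a n j x - f (j / L n, x / L n)| ≤ ε
  diff1 : ∀ n, ∀ j x : ℤ, |a n (j + 1) x - 2 * a n j x + a n (j - 1) x| ≤ M / L n ^ 4
  diff2 : ∀ n, ∀ j x : ℤ, |a n j (x + 1) - 2 * a n j x + a n j (x - 1)| ≤ M / L n ^ 4

/-- The Fourier transform of a test function on the plane, `(t, x) ↦ (ω, q)`. -/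
noncomputable def FT (f : ℝ × ℝ → ℝ) (w q : ℝ) : ℂ :=
  ∫ z : ℝ × ℝ, (f z : ℂ) * Complex.exp (Complex.I * ((w * z.1 + q * z.2 : ℝ) : ℂ))

/-- The limiting variance (`κ` times) `(2π)^{-2} ∫∫ |f^|² / (c² q² + ω²)`. -/
noncomputable def sig (c κ : ℝ) (f : ℝ × ℝ → ℝ) : ℝ :=
  κ / (4 * π ^ 2) * ∫ p : ℝ × ℝ, ‖FT f p.1 p.2‖ ^ 2 / (c ^ 2 * p.2 ^ 2 + p.1 ^ 2)

/-- The limiting covariance of `X` and `X'`: `κ (2π)^{-2} Re ∫∫ g^ conj(f^) / (c|q| - iω)`. -/
noncomputable def cov (c κ : ℝ) (g f : ℝ × ℝ → ℝ) : ℝ :=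
  κ / (4 * π ^ 2) * (∫ p : ℝ × ℝ, FT g p.1 p.2 * (starRingEnd ℂ) (FT f p.1 p.2) /
    ((c * |p.2| : ℝ) - Complex.I * (p.1 : ℝ))).re

/-- `C_K(z) = (V_{2K}(z) - V_0(z))/2`, the covariance of the innovations over `K` rows. -/
noncomputable def CK (V : ℤ → ℤ → ℝ) (K : ℕ) (z : ℤ) : ℝ := (V (2 * K) z - V 0 z) / 2

/-- Variance of `X = ∑ a_j(x) h_j(x)` (for `∑ a = 0`). -/
noncomputable def varX (V : ℤ → ℤ → ℝ) (a : ℤ → ℤ → ℝ) : ℝ :=
  -(1 / 2) * ∑ᶠ p : ℤ × ℤ, ∑ᶠ q : ℤ × ℤ, a p.1 p.2 * a q.1 q.2 * V (p.1 - q.1) (p.2 - q.2)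

/-- Covariance of `X` with `X' = ∑_i ∑_x g_i(x) r^i_x`, `g_i(x) = L⁻¹ g(iK/L, x/L)`,
`r^i_x = h_{(i+1)K}(x) - E[h_{(i+1)K}(x)|row iK]`. -/
noncomputable def covXX (V : ℤ → ℤ → ℝ) (a : ℤ → ℤ → ℝ) (K : ℕ) (L : ℝ) (g : ℝ × ℝ → ℝ) : ℝ :=
  ∑ᶠ i : ℤ, ∑ᶠ x : ℤ, L⁻¹ * g (i * K / L, x / L) * ∑ᶠ j : ℤ, ∑ᶠ y : ℤ,
    (if i * K < j then a j y * ((V (j - i * K + K) (y - x) - V (j - i * K - K) (y - x)) / 2) else 0)

/-- Variance of `X'`. -/
noncomputable def varX' (V : ℤ → ℤ → ℝ) (K : ℕ) (L : ℝ) (g : ℝ × ℝ → ℝ) : ℝ :=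
  ∑ᶠ i : ℤ, ∑ᶠ x : ℤ, ∑ᶠ y : ℤ,
    (L⁻¹ * g (i * K / L, x / L)) * (L⁻¹ * g (i * K / L, y / L)) * CK V K (x - y)

/-- (P1) the variance of `X`. -/
def P1Statement : Prop := ∀ (V : ℤ → ℤ → ℝ) (m : Kernel ℝ ℝ) (c κ C k0 : ℝ),
  Spec V m c κ C k0 → ∀ (f : ℝ × ℝ → ℝ) (L : ℕ → ℝ) (a : ℕ → ℤ → ℤ → ℝ) (M : ℝ),
  Disc f L a M → Tendsto (fun n => varX V (a n)) atTop (𝓝 (sig c κ f))

/-- (P2) the covariance of `X` and `X'`. -/
def P2Statement : Prop := ∀ (V : ℤ → ℤ → ℝ) (m : Kernel ℝ ℝ) (c κ C k0 : ℝ),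
  Spec V m c κ C k0 → ∀ (f : ℝ × ℝ → ℝ) (L : ℕ → ℝ) (a : ℕ → ℤ → ℤ → ℝ) (M : ℝ),
  Disc f L a M → ∀ g : ℝ × ℝ → ℝ, Continuous g → HasCompactSupport g → ∀ K : ℕ, 0 < K →
  Tendsto (fun n => covXX V (a n) K (L n) g) atTop (𝓝 (cov c κ g f))

/-- (P3) summability of the covariances of the innovations and the variance of `X'`. -/
def P3Statement : Prop := ∀ (V : ℤ → ℤ → ℝ) (m : Kernel ℝ ℝ) (c κ C k0 : ℝ),
  Spec V m c κ C k0 → ∀ K : ℕ, 0 < K → (∀ z, 0 ≤ CK V K z) → Summable (CK V K)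

def P3bStatement : Prop := ∀ (V : ℤ → ℤ → ℝ) (K : ℕ), 0 < K → (∀ z, 0 ≤ CK V K z) →
  Summable (CK V K) → ∀ L : ℕ → ℝ, (∀ n, 1 ≤ L n) → Tendsto L atTop atTop →
  ∀ g : ℝ × ℝ → ℝ, Continuous g → HasCompactSupport g →
  Tendsto (fun n => varX' V K (L n) g) atTop
    (𝓝 ((∑' z, CK V K z) / K * ∫ z : ℝ × ℝ, g z ^ 2))

/-- (P4) the variance per row of the innovations tends to `κ`. -/
def P4Statement : Prop := ∀ (V : ℤ → ℤ → ℝ) (m : Kernel ℝ ℝ) (c κ C k0 : ℝ),
  Spec V m c κ C k0 → (∀ K : ℕ, 0 < K → ∀ z, 0 ≤ CK V K z) →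
  Tendsto (fun K : ℕ => (∑' z, CK V K z) / K) atTop (𝓝 κ)

/-- (P5) the innovations are complete. -/
def P5Statement : Prop := ∀ (c κ : ℝ), 0 < c → 0 ≤ κ → ∀ f : ℝ × ℝ → ℝ, ContDiff ℝ 2 f →
  HasCompactSupport f → ∫ z, f z = 0 → ∀ ε > 0, ∃ g : ℝ × ℝ → ℝ, Continuous g ∧
    HasCompactSupport g ∧ sig c κ f - 2 * cov c κ g f + κ * ∫ z : ℝ × ℝ, g z ^ 2 ≤ ε

end Vale.Agent.P153.TwoPt
end

section

/-!
# P153, the plane theorem for the uniform Lipschitz model: interface

Vertex `(i, j) : ℤ × ℤ` is the point `i (1, 0) + j (1/2, √3/2)`; row `j` is `{(i, j)}`.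
Internal normalisation: integer heights with steps at most one, `{0,1}` free on the boundary.
Final normalisation (of the problem): odd heights, steps at most two, `±1` on the boundary.
-/

namespace Vale.Agent.P153.GFF

open MeasureTheory ProbabilityTheory Filter Topology

/-- Neighbours in the triangular lattice (same as `P153.Adj`). -/
def Adj (x y : ℤ × ℤ) : Prop :=
  (y.1 - x.1, y.2 - x.2) ∈
    ({(1, 0), (-1, 0), (0, 1), (0, -1), (1, -1), (-1, 1)} : Set (ℤ × ℤ))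

/-- Reflection in row `0`. -/
def th (v : ℤ × ℤ) : ℤ × ℤ := (v.1 + v.2, -v.2)

/-- Rotation by 60 degrees about the origin. -/
def rot (v : ℤ × ℤ) : ℤ × ℤ := (-v.2, v.1 + v.2)

/-- Translation of a recentred field. -/
def shift (t : ℤ × ℤ) (φ : ℤ × ℤ → ℤ) : ℤ × ℤ → ℤ := fun x => φ (x + t) - φ t

/-- The hexagon of radius `n`. -/
noncomputable def hexa (n : ℕ) : Finset (ℤ × ℤ) :=
  (Finset.Icc (-(n : ℤ)) n ×ˢ Finset.Icc (-(n : ℤ)) n).filter fun x => |x.1 + x.2| ≤ n

/-- Boundary condition of the finite region `D`: free in `{0,1}` at the vertices with a neighbour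
outside `D`; the dummy value `0` off `D`. -/
def bc (D : Finset (ℤ × ℤ)) (v : ℤ × ℤ) : Set ℤ :=
  {a | (v ∉ D → a = 0) ∧ ((∃ w, Adj v w ∧ w ∉ D) → a = 0 ∨ a = 1)}

/-- Heights on `D`. -/
def Ht (D : Finset (ℤ × ℤ)) : Set (ℤ × ℤ → ℤ) := Fv.Lp Adj (bc D)

/-- The event that the height differences in `B` are those of `a`. -/
def Pat (B : Finset (ℤ × ℤ)) (a : ℤ × ℤ → ℤ) : Set (ℤ × ℤ → ℤ) :=
  {φ | ∀ x ∈ B, ∀ y ∈ B, φ x - φ y = a x - a y}

/-- `P` is the local limit of the uniform measures on `Ht (D n)`, modulo constants. -/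
def LocLim (P : Measure (ℤ × ℤ → ℤ)) (D : ℕ → Finset (ℤ × ℤ)) : Prop :=
  ∀ (B : Finset (ℤ × ℤ)) (a : ℤ × ℤ → ℤ),
    Tendsto (fun n => ((Ht (D n) ∩ Pat B a).ncard : ℝ) / (Ht (D n)).ncard) atTop
      (𝓝 (P.real (Pat B a)))

/-- Gradient Gibbs property of the uniform model: two admissible patterns on `B` which agree off
`A` (all neighbours of `A` in `B`) are equally likely. -/
def Gibbs (P : Measure (ℤ × ℤ → ℤ)) : Prop :=
  ∀ (A B : Finset (ℤ × ℤ)) (a a' : ℤ × ℤ → ℤ), A ⊆ B → (∀ x ∈ A, ∀ y, Adj x y → y ∈ B) →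
    (∀ x ∈ B, ∀ y ∈ B, Adj x y → |a x - a y| ≤ 1) →
    (∀ x ∈ B, ∀ y ∈ B, Adj x y → |a' x - a' y| ≤ 1) → (∀ x ∈ B, x ∉ A → a x = a' x) →
    P (Pat B a) = P (Pat B a')

/-- Output of block A: the infinite-volume measure (without the strips). -/
structure Plane (P : Measure (ℤ × ℤ → ℤ)) : Prop where
  prob : IsProbabilityMeasure P
  zero : ∀ᵐ φ ∂P, φ 0 = 0
  lip : ∀ᵐ φ ∂P, ∀ x y, Adj x y → |φ x - φ y| ≤ 1
  shift : ∀ t, P.map (shift t) = P
  rot : P.map (fun φ x => φ (rot x)) = P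
  swap : P.map (fun φ x => φ (x.2, x.1)) = P
  rp : ∀ F : (ℤ × ℤ → ℤ) → ℝ, Measurable F → (∃ M, ∀ φ, |F φ| ≤ M) →
    (∀ φ ψ, (∀ x, 0 ≤ x.2 → φ x = ψ x) → F φ = F ψ) → 0 ≤ ∫ φ, F φ * F (fun x => φ (th x)) ∂P
  mix : ∀ (B : Finset (ℤ × ℤ)) (W W' : (ℤ × ℤ → ℤ) → ℝ), Measurable W → Measurable W' →
    (∃ M, ∀ φ, |W φ| ≤ M) → (∃ M, ∀ φ, |W' φ| ≤ M) →
    (∀ φ, W (-φ) = W φ) → (∀ φ, W' (-φ) = W' φ) →
    (∀ φ ψ, (∀ x ∈ B, φ x = ψ x) → W φ = W ψ) → (∀ φ ψ, (∀ x ∈ B, φ x = ψ x) → W' φ = W' ψ) →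
    Tendsto (fun t => ∫ φ, W φ * W' (GFF.shift t φ) ∂P) cofinite (𝓝 ((∫ φ, W φ ∂P) * ∫ φ, W' φ ∂P))
  lim : LocLim P hexa
  gibbs : Gibbs P

/-! ### Two-point function and linear statistics -/

/-- Variance of `h(x) - h(0)`. -/
noncomputable def var2 (P : Measure (ℤ × ℤ → ℤ)) (x : ℤ × ℤ) : ℝ := ∫ φ, ((φ x : ℤ) : ℝ) ^ 2 ∂P

/-- Site `z` of the even row `2 j`, in orthogonal coordinates: the point `(z, √3 j)`. -/
def ev (j z : ℤ) : ℤ × ℤ := (z - j, 2 * j)

/-- Variance function of the even rows, input of `TwoPt`. -/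
noncomputable def Vrow (P : Measure (ℤ × ℤ → ℤ)) (j z : ℤ) : ℝ := var2 P (ev j z)

/-- Output of blocks B, C. -/
def SpecOut (P : Measure (ℤ × ℤ → ℤ)) (κ : ℝ) : Prop :=
  ∃ (m : Kernel ℝ ℝ) (C k0 : ℝ), TwoPt.Spec (Vrow P) m (√3) κ C k0

/-- Output of block D: central limit theorem for the even rows. -/
def RowCLT (P : Measure (ℤ × ℤ → ℤ)) (κ : ℝ) : Prop :=
  ∀ (f : ℝ × ℝ → ℝ) (L : ℕ → ℝ) (a : ℕ → ℤ → ℤ → ℝ) (M : ℝ), ContDiff ℝ 2 f →
    ∫ z, f z = 0 → TwoPt.Disc f L a M →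
    Tendsto (fun n => ∫ φ : ℤ × ℤ → ℤ, Complex.exp (Complex.I *
        ((∑ᶠ p : ℤ × ℤ, a n p.1 p.2 * (φ (ev p.1 p.2) : ℝ) : ℝ) : ℂ)) ∂P) atTop
      (𝓝 (Complex.exp (-((TwoPt.sig (√3) κ f / 2 : ℝ) : ℂ))))

/-! ### The final statement (normalisation of the problem) -/

/-- Odd heights on the finite region `D`: steps at most two, value `±1` at the vertices with a
neighbour outside `D` (dummy value `-1` off `D`). -/
def Odd2 (D : Finset (ℤ × ℤ)) : Set (ℤ × ℤ → ℤ) :=
  {h | (∀ x, Odd (h x)) ∧ (∀ x ∈ D, ∀ y ∈ D, Adj x y → |h x - h y| ≤ 2) ∧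
    (∀ x ∈ D, (∃ y, Adj x y ∧ y ∉ D) → h x = 1 ∨ h x = -1) ∧ ∀ x, x ∉ D → h x = -1}

/-- `P` is the local limit of the uniform measures on `Odd2 (D n)`, modulo constants. -/
def OddLim (P : Measure (ℤ × ℤ → ℤ)) (D : ℕ → Finset (ℤ × ℤ)) : Prop :=
  ∀ (B : Finset (ℤ × ℤ)) (a : ℤ × ℤ → ℤ),
    Tendsto (fun n => ((Odd2 (D n) ∩ Pat B a).ncard : ℝ) / (Odd2 (D n)).ncard) atTop
      (𝓝 (P.real (Pat B a)))

/-- Gradient Gibbs property of the uniform model of odd heights: two admissible patterns on `B`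
which agree off `A` (all neighbours of `A` in `B`) are equally likely. -/
def OddGibbs (P : Measure (ℤ × ℤ → ℤ)) : Prop :=
  ∀ (A B : Finset (ℤ × ℤ)) (a a' : ℤ × ℤ → ℤ), A ⊆ B → (∀ x ∈ A, ∀ y, Adj x y → y ∈ B) →
    (∀ x, Odd (a x)) → (∀ x, Odd (a' x)) →
    (∀ x ∈ B, ∀ y ∈ B, Adj x y → |a x - a y| ≤ 2) →
    (∀ x ∈ B, ∀ y ∈ B, Adj x y → |a' x - a' y| ≤ 2) → (∀ x ∈ B, x ∉ A → a x = a' x) →
    P (Pat B a) = P (Pat B a')

/-- The hat function of the triangular lattice, in lattice coordinates. -/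
noncomputable def hat (s t : ℝ) : ℝ := max 0 (1 - max |s| (max |t| |s + t|))

/-- Extension of `h`, affine on each triangle of the lattice, at the point `z` of the plane. -/
noncomputable def interp (h : ℤ × ℤ → ℤ) (z : ℝ × ℝ) : ℝ :=
  ∑ᶠ v : ℤ × ℤ, (h v : ℝ) * hat (z.1 - z.2 / √3 - v.1) (2 * z.2 / √3 - v.2)

/-- `∫ h_δ f` on the lattice of mesh `δ`. -/
noncomputable def smear (h : ℤ × ℤ → ℤ) (δ : ℝ) (f : ℝ × ℝ → ℝ) : ℝ :=
  ∫ z : ℝ × ℝ, interp h (z.1 / δ, z.2 / δ) * f z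

/-- Smooth compactly supported function on the plane with integral zero. -/
def Test (f : ℝ × ℝ → ℝ) : Prop :=
  ContDiff ℝ ((⊤ : ℕ∞) : WithTop ℕ∞) f ∧ HasCompactSupport f ∧ ∫ x, f x = 0

/-- `G(x,y) = -(2π)⁻¹ log |x - y|`. -/
noncomputable def green (x y : ℝ × ℝ) : ℝ :=
  -(2 * Real.pi)⁻¹ * Real.log (√((x.1 - y.1) ^ 2 + (x.2 - y.2) ^ 2))

/-- Covariance of the Gaussian free field modulo constants. -/
noncomputable def gffCov (f g : ℝ × ℝ → ℝ) : ℝ := ∫ x, ∫ y, green x y * f x * g y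

/-- Euclidean length of a lattice vector. -/
noncomputable def len (x : ℤ × ℤ) : ℝ := √((x.1 : ℝ) ^ 2 + x.1 * x.2 + (x.2 : ℝ) ^ 2)

/-! ### Statements of the remaining analytic steps (owners: see the tasks of P153) -/

/-- Fourier transform on the plane. -/
noncomputable def ftR (f : ℝ × ℝ → ℝ) (p : ℝ × ℝ) : ℂ :=
  ∫ z : ℝ × ℝ, (f z : ℂ) * Complex.exp (Complex.I * ((p.1 * z.1 + p.2 * z.2 : ℝ) : ℂ))

/-- (G1) Fourier energy = logarithmic energy. -/
def G1 : Prop := ∀ f : ℝ × ℝ → ℝ, Test f →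
  Integrable (fun p : ℝ × ℝ => ‖ftR f p‖ ^ 2 / (p.1 ^ 2 + p.2 ^ 2)) ∧
  (4 * Real.pi ^ 2)⁻¹ * ∫ p : ℝ × ℝ, ‖ftR f p‖ ^ 2 / (p.1 ^ 2 + p.2 ^ 2) = gffCov f f

/-- (G2) logarithmic growth of the variance function from the spectral data. -/
def G2 : Prop := ∀ (V : ℤ → ℤ → ℝ) (m : Kernel ℝ ℝ) (c κ C k0 : ℝ), TwoPt.Spec V m c κ C k0 →
  Tendsto (fun p : ℤ × ℤ => V p.1 p.2 / Real.log (√((p.2 : ℝ) ^ 2 + c ^ 2 * (p.1 : ℝ) ^ 2)))
    cofinite (𝓝 (κ / (c * Real.pi)))

/-- (G3) convergence of the characteristic functions gives the convergence in law. -/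
def G3 : Prop := ∀ (P : Measure (ℤ × ℤ → ℤ)) (_ : IsProbabilityMeasure P) (κ : ℝ), 0 ≤ κ →
  (∀ F, Test F → Tendsto (fun δ : ℝ => ∫ φ : ℤ × ℤ → ℤ,
      Complex.exp (Complex.I * ((smear φ δ F : ℝ) : ℂ)) ∂P) (𝓝[>] 0)
      (𝓝 (Complex.exp (-((κ * gffCov F F / 2 : ℝ) : ℂ))))) →
  ∀ (m : ℕ) (f : Fin m → ℝ × ℝ → ℝ), (∀ j, Test (f j)) →
      (Matrix.of (fun i j => κ * gffCov (f i) (f j))).PosSemidef ∧
      TendstoInDistribution (fun (δ : ℝ) (φ : ℤ × ℤ → ℤ) =>
        (WithLp.toLp 2 (fun j => smear φ δ (f j)) : EuclideanSpace ℝ (Fin m))) (𝓝[>] 0)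
        (id : EuclideanSpace ℝ (Fin m) → EuclideanSpace ℝ (Fin m)) (fun _ => P)
        (multivariateGaussian 0 (Matrix.of (fun i j => κ * gffCov (f i) (f j))))

/-- The final theorem. -/
def Main : Prop := ∃ P : Measure (ℤ × ℤ → ℤ), ∃ _ : IsProbabilityMeasure P,
  (∀ᵐ φ ∂P, φ 0 = 0) ∧ OddLim P hexa ∧ OddGibbs P ∧
  (∀ t, P.map (shift t) = P) ∧ P.map (fun φ x => φ (rot x)) = P ∧
  P.map (fun φ x => φ (x.2, x.1)) = P ∧
  ∃ κ : ℝ, 0 ≤ κ ∧
    Tendsto (fun x : ℤ × ℤ => (∫ φ, ((φ x : ℤ) : ℝ) ^ 2 ∂P) / Real.log (len x)) cofinite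
      (𝓝 (κ / Real.pi)) ∧
    ∀ (m : ℕ) (f : Fin m → ℝ × ℝ → ℝ), (∀ j, Test (f j)) →
      (Matrix.of (fun i j => κ * gffCov (f i) (f j))).PosSemidef ∧
      TendstoInDistribution (fun (δ : ℝ) (φ : ℤ × ℤ → ℤ) =>
        (WithLp.toLp 2 (fun j => smear φ δ (f j)) : EuclideanSpace ℝ (Fin m))) (𝓝[>] 0)
        (id : EuclideanSpace ℝ (Fin m) → EuclideanSpace ℝ (Fin m)) (fun _ => P)
        (multivariateGaussian 0 (Matrix.of (fun i j => κ * gffCov (f i) (f j))))

end Vale.Agent.P153.GFF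
end

section

namespace Vale.Agent.P153

/-- Nearest-neighbour adjacency of the triangular lattice; a vertex `x : ℤ × ℤ` stands for the
point `x.1 • (1, 0) + x.2 • (1/2, √3/2)` of the plane. -/
def Adj (x y : ℤ × ℤ) : Prop :=
  (y.1 - x.1, y.2 - x.2) ∈
    ({(1, 0), (-1, 0), (0, 1), (0, -1), (1, -1), (-1, 1)} : Set (ℤ × ℤ))

/-- The height functions of the model: odd-integer functions on the lattice which are equal to the
boundary data `η` off the finite set `D` of interior vertices and whose values at adjacent vertices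
differ by at most two (so by `0` or `2`). -/
def Conf (D : Finset (ℤ × ℤ)) (η : ℤ × ℤ → ℤ) : Set (ℤ × ℤ → ℤ) :=
  {h | (∀ x, Odd (h x)) ∧ (∀ x, x ∉ D → h x = η x) ∧ ∀ x y, Adj x y → |h x - h y| ≤ 2}

end Vale.Agent.P153
end

section

/-!
Connections inside a set of vertices of the triangular lattice.
-/

namespace Vale.Agent.P153.Topo

open Vale.Agent.P153

theorem adj_iff {x y : ℤ × ℤ} : Adj x y ↔
    (y.1 = x.1 + 1 ∧ y.2 = x.2) ∨ (y.1 = x.1 - 1 ∧ y.2 = x.2) ∨
    (y.1 = x.1 ∧ y.2 = x.2 + 1) ∨ (y.1 = x.1 ∧ y.2 = x.2 - 1) ∨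
    (y.1 = x.1 + 1 ∧ y.2 = x.2 - 1) ∨ (y.1 = x.1 - 1 ∧ y.2 = x.2 + 1) := by
  obtain ⟨x1, x2⟩ := x
  obtain ⟨y1, y2⟩ := y
  simp only [Adj, Set.mem_insert_iff, Set.mem_singleton_iff, Prod.mk.injEq]
  (clear * -; omega)

theorem adj_symm {x y : ℤ × ℤ} (h : Adj x y) : Adj y x := by
  rw [adj_iff] at h ⊢
  (clear * - h; omega)

/-- `x` and `y` are joined by a lattice path inside `S` (both end points in `S`). -/
def Conn (S : Set (ℤ × ℤ)) (x y : ℤ × ℤ) : Prop :=
  x ∈ S ∧ Relation.ReflTransGen (fun u v => Adj u v ∧ v ∈ S) x y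

theorem Conn.left_mem {S : Set (ℤ × ℤ)} {x y : ℤ × ℤ} (h : Conn S x y) : x ∈ S := h.1

theorem Conn.right_mem {S : Set (ℤ × ℤ)} {x y : ℤ × ℤ} (h : Conn S x y) : y ∈ S := by
  obtain ⟨hx, h⟩ := h
  induction h with
  | refl => exact hx
  | tail _ h _ => exact h.2

theorem Conn.refl {S : Set (ℤ × ℤ)} {x : ℤ × ℤ} (h : x ∈ S) : Conn S x x :=
  ⟨h, Relation.ReflTransGen.refl⟩

theorem Conn.trans {S : Set (ℤ × ℤ)} {x y z : ℤ × ℤ} (h : Conn S x y) (h' : Conn S y z) :
    Conn S x z :=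
  ⟨h.1, h.2.trans h'.2⟩

theorem Conn.tail {S : Set (ℤ × ℤ)} {x y z : ℤ × ℤ} (h : Conn S x y) (h' : Adj y z)
    (hz : z ∈ S) : Conn S x z :=
  ⟨h.1, h.2.tail ⟨h', hz⟩⟩

theorem Conn.of_adj {S : Set (ℤ × ℤ)} {x y : ℤ × ℤ} (hx : x ∈ S) (hy : y ∈ S)
    (h' : Adj x y) : Conn S x y :=
  (Conn.refl hx).tail h' hy

theorem Conn.symm {S : Set (ℤ × ℤ)} {x y : ℤ × ℤ} (h : Conn S x y) : Conn S y x := by
  obtain ⟨hx, h⟩ := h
  induction h with
  | refl => exact Conn.refl hx
  | @tail b c hb h ih =>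
    have hbS : b ∈ S := ih.left_mem
    exact (Conn.of_adj h.2 hbS (adj_symm h.1)).trans ih

theorem Conn.mono {S T : Set (ℤ × ℤ)} (hST : S ⊆ T) {x y : ℤ × ℤ} (h : Conn S x y) :
    Conn T x y :=
  ⟨hST h.1, Relation.ReflTransGen.mono (fun _ _ h => ⟨h.1, hST h.2⟩) _ _ h.2⟩

/-- Induction along a connection, from its start. -/
theorem Conn.ind {S : Set (ℤ × ℤ)} {x : ℤ × ℤ} (P : ℤ × ℤ → Prop) (h0 : P x)
    (hs : ∀ u v, Conn S x u → Adj u v → v ∈ S → P u → P v) {y : ℤ × ℤ} (h : Conn S x y) :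
    P y := by
  obtain ⟨hx, h⟩ := h
  induction h with
  | refl => exact h0
  | tail hb h ih => exact hs _ _ ⟨hx, hb⟩ h.1 h.2 ih

end Vale.Agent.P153.Topo
end

section

/-!
P153, block A3: the pair (tau, sigma) of the uniform Lipschitz model on the triangular lattice.

Height `h` modulo four is stored as a pair of booleans: first entry (tau) is `true` iff
`h mod 4 ∈ {0, 1}`, second entry (sigma) is `true` iff `h mod 4 ∈ {1, 2}`. Along an edge at most
one of the two changes. `h ↦ 1 - h` is the flip of sigma.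
-/

namespace Vale.Agent.P153.A

open MeasureTheory Filter Topology Relation
open Vale.Agent.P153.GFF (Adj Ht Pat LocLim hexa)
open Vale.Agent.P153.Topo (Conn)

/-- A vertex. -/
abbrev Pt : Type := ℤ × ℤ

/-- A spin configuration. -/
abbrev Sp : Type := Pt → Bool

/-- A configuration of pairs (tau, sigma). -/
abbrev Om : Type := Pt → Bool × Bool

/-- The vertices of `D` all of whose neighbours are in `D`. -/
def inn (D : Finset Pt) : Set Pt := {v | v ∈ D ∧ ∀ w, Adj v w → w ∈ D}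

/-- At most one of the two spins changes along an edge. -/
def Comp (ω : Om) : Prop := ∀ x y, Adj x y → (ω x).1 = (ω y).1 ∨ (ω x).2 = (ω y).2

/-- Configurations on `D`: tau is `true` off the interior, sigma is free on `D`, `false` off `D`. -/
def Cf (D : Finset Pt) : Set Om :=
  {ω | Comp ω ∧ (∀ x, x ∉ inn D → (ω x).1 = true) ∧ ∀ x, x ∉ D → (ω x).2 = false}

/-- `F` depends only on the values on `B`. -/
def Loc {X : Type} (B : Finset Pt) (F : (Pt → X) → ℝ) : Prop :=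
  ∀ ω ω' : Pt → X, (∀ x ∈ B, ω x = ω' x) → F ω = F ω'

/-- Uniform expectation on `Cf D`. -/
noncomputable def E2 (D : Finset Pt) (F : Om → ℝ) : ℝ := (∑ᶠ ω ∈ Cf D, F ω) / (Cf D).ncard

/-- The tau part. -/
def tau (ω : Om) : Sp := fun x => (ω x).1

/-- Pair two spin configurations. -/
def pr (τ σ : Sp) : Om := fun x => (τ x, σ x)

/-- Expectation of a function of tau. -/
noncomputable def E1 (D : Finset Pt) (f : Sp → ℝ) : ℝ := E2 D fun ω => f (tau ω)

/-- The group of the sigma compatible with `τ` on `D` (`+` on `Bool` is `xor`). -/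
def G (D : Finset Pt) (τ : Sp) : AddSubgroup Sp where
  carrier := {s | (∀ x, x ∉ D → s x = false) ∧ ∀ x y, Adj x y → τ x ≠ τ y → s x = s y}
  add_mem' := by
    rintro a b ⟨ha, ha'⟩ ⟨hb, hb'⟩
    refine ⟨fun x hx => ?_, fun x y hxy h => ?_⟩
    · show xor (a x) (b x) = false
      rw [ha x hx, hb x hx]; rfl
    · show xor (a x) (b x) = xor (a y) (b y)
      rw [ha' x y hxy h, hb' x y hxy h]
  zero_mem' := ⟨fun _ _ => rfl, fun _ _ _ _ => rfl⟩
  neg_mem' := fun {a} ha => ha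

/-- Number of sigma compatible with `τ` on `D`. -/
noncomputable def w (D : Finset Pt) (τ : Sp) : ℕ := Nat.card (G D τ)

/-- The admissible tau: `true` off the interior of `D`. -/
def Adm (D : Finset Pt) : Set Sp := {τ | ∀ x, x ∉ inn D → τ x = true}

/-- Translation of a configuration. -/
def tr {X : Type} (z : Pt) (ω : Pt → X) : Pt → X := fun x => ω (x + z)

/-- Flip tau at one vertex. -/
noncomputable def flipAt (x : Pt) (τ : Sp) : Sp := Function.update τ x (!τ x)

/-- Flip sigma everywhere. -/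
def neg (ω : Om) : Om := fun x => ((ω x).1, !(ω x).2)

/-- The square box of radius `R`. -/
noncomputable def bx (R : ℕ) : Finset Pt := Finset.Icc (-(R : ℤ)) R ×ˢ Finset.Icc (-(R : ℤ)) R

/-- `x` and `y` are joined by a path of bichromatic edges (for tau) inside `S`. -/
def Bich (S : Set Pt) (τ : Sp) (x y : Pt) : Prop :=
  ReflTransGen (fun u v => Adj u v ∧ τ u ≠ τ v ∧ u ∈ S ∧ v ∈ S) x y

/-- `x` and `y` both reach the outside of `bx R`, and are not joined inside `bx (R + 1)`. -/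
def Far (R : ℕ) (x y : Pt) : Set Sp :=
  {τ | ¬ Bich (bx (R + 1)) τ x y ∧ (∃ u, u ∉ bx R ∧ Bich (bx (R + 1)) τ x u) ∧
    ∃ u, u ∉ bx R ∧ Bich (bx (R + 1)) τ y u}

/-- The complement of `D` is connected. -/
def Cc (D : Finset Pt) : Prop := ∀ x y, x ∉ D → y ∉ D → Conn ((D : Set Pt)ᶜ) x y

/-! ### Heights -/

/-- Height modulo four, coded by two booleans. -/
def enc (a : ℤ) : Bool × Bool := (decide (a % 4 = 0 ∨ a % 4 = 1), decide (a % 4 = 1 ∨ a % 4 = 2))

/-- The representative in `{0, 1, 2, 3}`. -/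
def cd (p : Bool × Bool) : ℤ := if p.1 then (if p.2 then 1 else 0) else (if p.2 then 2 else 3)

/-- The increment along an edge. -/
def inc (p q : Bool × Bool) : ℤ :=
  if (cd q - cd p) % 4 = 1 then 1 else if (cd q - cd p) % 4 = 3 then -1 else 0

/-- Signed sum from `0` to `n`. -/
noncomputable def Sm (f : ℤ → ℤ) (n : ℤ) : ℤ := ∑ k ∈ Finset.Ico 0 n, f k - ∑ k ∈ Finset.Ico n 0, f k

/-- The height function with value `0` at the origin (sum of the increments, first along the row of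
the origin, then along the other axis). -/
noncomputable def rc (ω : Om) (x : Pt) : ℤ :=
  Sm (fun k => inc (ω (k, 0)) (ω (k + 1, 0))) x.1 +
    Sm (fun k => inc (ω (x.1, k)) (ω (x.1, k + 1))) x.2

/-- Coin average: `σ` uniform among the functions on `B` which are constant on the classes of `r`
(`false` off `B`). -/
noncomputable def coin (B : Finset Pt) (r : Pt → Pt → Prop) (F : Om → ℝ) (τ : Sp) : ℝ :=
  (∑ᶠ t ∈ {t : Sp | (∀ x, x ∉ B → t x = false) ∧ ∀ x ∈ B, ∀ y ∈ B, r x y → t x = t y},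
    F (pr τ t)) /
  ({t : Sp | (∀ x, x ∉ B → t x = false) ∧ ∀ x ∈ B, ∀ y ∈ B, r x y → t x = t y}).ncard

/-! ### The limits -/

/-- `μ` is the local limit of the laws of tau. -/
structure IsMu (μ : Measure Sp) : Prop where
  prob : IsProbabilityMeasure μ
  lim : ∀ (B : Finset Pt) (f : Sp → ℝ), Loc B f → Tendsto (fun D => E1 D f) atTop (𝓝 (∫ τ, f τ ∂μ))

/-- `Q` is the local limit of the laws of (tau, sigma). -/
structure IsQ (Q : Measure Om) : Prop where
  prob : IsProbabilityMeasure Q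
  lim : ∀ (B : Finset Pt) (F : Om → ℝ), Loc B F → Tendsto (fun D => E2 D F) atTop (𝓝 (∫ ω, F ω ∂Q))

end Vale.Agent.P153.A
end

section

/-!
Circuits: the outer boundary of a finite connected set of the triangular lattice is finite,
connected, and separates the set from infinity.
-/

namespace Vale.Agent.P153.Topo

open Relation

theorem conn_row {S : Set (ℤ × ℤ)} {j s t : ℤ} (h : ∀ i, min s t ≤ i → i ≤ max s t → (i, j) ∈ S) :
    Conn S (s, j) (t, j) := by
  have key : ∀ (n : ℕ) (s : ℤ), (∀ i, s ≤ i → i ≤ s + n → (i, j) ∈ S) →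
      Conn S (s, j) (s + n, j) := by
    intro n
    induction n with
    | zero => intro s hs; simpa only [CharP.cast_eq_zero, add_zero] using Conn.refl (hs s le_rfl (by simp))
    | succ n ih =>
      intro s hs
      refine (ih s (fun i h1 h2 => hs i h1 (by push_cast; omega))).tail ?_ ?_
      · rw [adj_iff]; push_cast; omega
      · exact hs _ (by push_cast; omega) le_rfl
  rcases le_total s t with hst | hst
  · have := key (t - s).toNat s (fun i h1 h2 => h i (by omega) (by omega))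
    rwa [show s + ((t - s).toNat : ℤ) = t by omega] at this
  · have := key (s - t).toNat t (fun i h1 h2 => h i (by omega) (by omega))
    rw [show t + ((s - t).toNat : ℤ) = s by omega] at this
    exact this.symm

theorem conn_col {S : Set (ℤ × ℤ)} {i s t : ℤ} (h : ∀ j, min s t ≤ j → j ≤ max s t → (i, j) ∈ S) :
    Conn S (i, s) (i, t) := by
  have key : ∀ (n : ℕ) (s : ℤ), (∀ j, s ≤ j → j ≤ s + n → (i, j) ∈ S) →
      Conn S (i, s) (i, s + n) := by
    intro n
    induction n with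
    | zero => intro s hs; simpa using Conn.refl (hs s le_rfl (by simp))
    | succ n ih =>
      intro s hs
      refine (ih s (fun i h1 h2 => hs i h1 (by push_cast; omega))).tail ?_ ?_
      · rw [adj_iff]; push_cast; omega
      · exact hs _ (by push_cast; omega) le_rfl
  rcases le_total s t with hst | hst
  · have := key (t - s).toNat s (fun i h1 h2 => h i (by omega) (by (clear * - hst h2; omega)))
    rwa [show s + ((t - s).toNat : ℤ) = t by omega] at this
  · have := key (s - t).toNat t (fun i h1 h2 => h i (by omega) (by omega))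
    rw [show t + ((s - t).toNat : ℤ) = s by omega] at this
    exact this.symm

/-- The complement of a box is connected. -/
theorem conn_compl_box {S : Set (ℤ × ℤ)} {N : ℤ} (hS : ∀ x : ℤ × ℤ, N ≤ |x.1| ∨ N ≤ |x.2| → x ∈ S)
    {x : ℤ × ℤ} (hx : N ≤ |x.1| ∨ N ≤ |x.2|) {t : ℤ} (ht : N ≤ t) : Conn S x (t, 0) := by
  have hright : ∀ j s, N ≤ s → Conn S (s, j) (t, 0) := by
    intro j s hs
    have e1 : Conn S (s, j) (t, j) := conn_row (fun i h1 _ => hS _ (Or.inl (by
      have : N ≤ min s t := le_min hs ht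
      exact (this.trans h1).trans (le_abs_self i))))
    exact e1.trans (conn_col (fun l _ _ => hS _ (Or.inl (ht.trans (le_abs_self t)))))
  have hrow : ∀ i j, N ≤ |j| → Conn S (i, j) (t, 0) := by
    intro i j hj
    have e1 : Conn S (i, j) (t, j) := conn_row (fun l _ _ => hS _ (Or.inr hj))
    exact e1.trans (hright j t ht)
  obtain ⟨i, j⟩ := x
  dsimp only at hx
  rcases hx with hi | hj
  · have e1 : Conn S (i, j) (i, |N|) := conn_col (fun l _ _ => hS _ (Or.inl hi))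
    exact e1.trans (hrow i _ (by rw [abs_abs]; exact le_abs_self N))
  · exact hrow i j hj

end Vale.Agent.P153.Topo
end

section

/-!
# P153, two-point part: auxiliary exact statements (concentration, kernels)
-/

open MeasureTheory ProbabilityTheory Filter Topology Set
open scoped ENNReal Real

namespace Vale.Agent.P153.TwoPt

/-- The folded two-point function. -/
noncomputable def Psi (m : Kernel ℝ ℝ) (k θ : ℝ) : ℝ := ∫ τ, 1 / den τ θ ∂(m k)

/-- The causal kernel over `K` rows. -/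
noncomputable def Om (m : Kernel ℝ ℝ) (K : ℕ) (k θ : ℝ) : ℂ :=
  ∫ τ : ℝ, (1 - ((τ : ℂ) * Complex.exp (-(Complex.I * (θ : ℂ)))) ^ K) / (den τ θ : ℂ) ∂(m k)

/-- (CONC) concentration of `m k` at `1 - τ = c |k|`; no intermediate mass. -/
def ConcStatement : Prop := ∀ (V : ℤ → ℤ → ℝ) (m : Kernel ℝ ℝ) (c κ C k0 : ℝ),
  Spec V m c κ C k0 →
  (∀ ε > 0, ∀ A > 0, ∃ η > 0, ∀ᵐ k : ℝ, |k| < η → k ≠ 0 →
    m k {τ | 1 - τ ≤ A * |k| ∧ ε * |k| ≤ abs ((1 - τ) - c * abs k)} ≤ ENNReal.ofReal ε) ∧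
  (∀ ε > 0, ∃ η > 0, ∀ᵐ k : ℝ, |k| < η → k ≠ 0 →
    |(m k {τ | abs ((1 - τ) - c * abs k) < ε * |k|}).toReal - κ| ≤ ε) ∧
  (∀ ε > 0, ∃ A > 0, ∃ η > 0, ∃ η' > 0, ∀ᵐ k : ℝ, |k| < η' → k ≠ 0 →
    m k {τ | A * |k| < 1 - τ ∧ 1 - τ < η} ≤ ENNReal.ofReal ε)

/-- (T) scaling limit of integrals against `m`. -/
def TStatement : Prop := ∀ (V : ℤ → ℤ → ℝ) (m : Kernel ℝ ℝ) (c κ C k0 : ℝ),
  Spec V m c κ C k0 → ∀ L : ℕ → ℝ, (∀ n, 1 ≤ L n) → Tendsto L atTop atTop →
  ∀ᵐ q : ℝ, q ≠ 0 → ∀ (φ : ℕ → ℝ → ℂ) (ψ : ℝ → ℂ) (B : ℝ), (∀ n, Measurable (φ n)) →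
  (∀ n τ, 0 ≤ τ → τ < 1 → ‖φ n τ‖ ≤ B / (L n * (1 - τ))) → ContinuousOn ψ (Ioi 0) →
  (∀ A > 1, TendstoUniformlyOn (fun n E => φ n (1 - E / L n)) ψ atTop (Icc (1 / A) A)) →
  Tendsto (fun n => ∫ τ, φ n τ ∂(m (q / L n))) atTop (𝓝 ((κ : ℂ) * ψ (c * |q|)))

/-- (KB) bounds of the kernels. -/
def KBStatement : Prop := ∀ (V : ℤ → ℤ → ℝ) (m : Kernel ℝ ℝ) (c κ C k0 : ℝ),
  Spec V m c κ C k0 → ∃ C' > 0,
  (∀ᵐ k : ℝ, |k| < k0 → k ≠ 0 → ∀ θ : ℝ, |θ| ≤ π →
    Integrable (fun τ => 1 / den τ θ) (m k) ∧ Psi m k θ ≤ C' / (k ^ 2 + θ ^ 2) ∧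
    ∀ K : ℕ, ‖Om m K k θ‖ ≤ K * C' / Real.sqrt (k ^ 2 + θ ^ 2))

/-- (KL) limits of the kernels. -/
def KLStatement : Prop := ∀ (V : ℤ → ℤ → ℝ) (m : Kernel ℝ ℝ) (c κ C k0 : ℝ),
  Spec V m c κ C k0 → ∀ L : ℕ → ℝ, (∀ n, 1 ≤ L n) → Tendsto L atTop atTop → ∀ K : ℕ,
  ∀ᵐ q : ℝ, q ≠ 0 → ∀ w : ℝ, w ≠ 0 →
    Tendsto (fun n => (L n : ℂ)⁻¹ * Om m K (q / L n) (w / L n)) atTop
      (𝓝 ((κ : ℂ) * K / ((c * |q| : ℝ) - Complex.I * (w : ℝ)))) ∧
    Tendsto (fun n => ((L n) ^ 2)⁻¹ * Psi m (q / L n) (w / L n)) atTop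
      (𝓝 (κ / (c ^ 2 * q ^ 2 + w ^ 2)))

/-- `T_K(z)`: covariance of `E_0 h_K(x) - h_0(x)`. -/
noncomputable def TK (V : ℤ → ℤ → ℝ) (K : ℕ) (z : ℤ) : ℝ := V K z - V (2 * K) z / 2 - V 0 z / 2

/-- (P6) the conditional mean of the increment is negligible (helper342). -/
def P6Statement : Prop := ∀ (V : ℤ → ℤ → ℝ) (m : Kernel ℝ ℝ) (c κ C k0 : ℝ),
  Spec V m c κ C k0 → ∀ ε > 0, ∃ K0 : ℕ, ∀ K ≥ K0, ∃ l0 : ℕ, ∀ l ≥ l0,
    (1 / (l : ℝ)) * ∑ x ∈ Finset.range l, ∑ y ∈ Finset.range l, TK V K ((x : ℤ) - y) ≤ ε * K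

end Vale.Agent.P153.TwoPt
end

section

namespace Vale.Agent.P153

open Finset

/-- Odd functions with steps at most two along edges. -/
def Lip (h : ℤ × ℤ → ℤ) : Prop := (∀ x, Odd (h x)) ∧ ∀ x y, Adj x y → |h x - h y| ≤ 2

theorem Lip.inf {h g : ℤ × ℤ → ℤ} (hh : Lip h) (hg : Lip g) : Lip (h ⊓ g) := by
  refine ⟨fun x => ?_, fun x y hxy => ?_⟩
  · rcases min_choice (h x) (g x) with h1 | h1
    · simpa only [Pi.inf_apply, h1] using hh.1 x
    · simpa only [Pi.inf_apply, h1] using hg.1 x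
  · have := abs_min_sub_min_le_max (h x) (g x) (h y) (g y)
    exact this.trans (max_le (hh.2 x y hxy) (hg.2 x y hxy))

theorem Lip.sup {h g : ℤ × ℤ → ℤ} (hh : Lip h) (hg : Lip g) : Lip (h ⊔ g) := by
  refine ⟨fun x => ?_, fun x y hxy => ?_⟩
  · rcases max_choice (h x) (g x) with h1 | h1
    · simpa only [Pi.sup_apply, h1] using hh.1 x
    · simpa only [Pi.sup_apply, h1] using hg.1 x
  · have := abs_max_sub_max_le_max (h x) (g x) (h y) (g y)
    exact this.trans (max_le (hh.2 x y hxy) (hg.2 x y hxy))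

theorem Adj.symm {x y : ℤ × ℤ} (h : Adj x y) : Adj y x := by
  unfold Adj at *
  simp only [Set.mem_insert_iff, Set.mem_singleton_iff, Prod.mk.injEq] at *
  rcases h with h | h | h | h | h | h <;> omega

theorem adj_right (x : ℤ × ℤ) (k : ℕ) : Adj (x.1 + k, x.2) (x.1 + (k + 1 : ℕ), x.2) := by
  unfold Adj
  simp only [Int.reduceNeg, Nat.cast_add, Nat.cast_one, add_sub_add_left_eq_sub, add_sub_cancel_left, sub_self, Set.mem_insert_iff, Prod.mk.injEq, reduceCtorEq, and_true, one_ne_zero, zero_ne_one, and_self, zero_eq_neg, and_false, Set.mem_singleton_iff, or_self, or_false]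

theorem Lip.bdd {D : Finset (ℤ × ℤ)} {h : ℤ × ℤ → ℤ} (hh : Lip h)
    (hD : ∀ x, x ∉ D → |h x| ≤ 1) (x : ℤ × ℤ) : |h x| ≤ 1 + 2 * (#D : ℤ) := by
  have step : ∀ k : ℕ, |h (x.1 + k, x.2) - h x| ≤ 2 * (k : ℤ) := by
    intro k
    induction k with
    | zero => simp only [CharP.cast_eq_zero, add_zero, Prod.mk.eta, sub_self, abs_zero, mul_zero, Std.le_refl]
    | succ k ih =>
      have h1 := hh.2 _ _ (adj_right x k)
      rw [abs_sub_comm] at h1
      have h2 := abs_add_le (h (x.1 + (k + 1 : ℕ), x.2) - h (x.1 + k, x.2))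
        (h (x.1 + k, x.2) - h x)
      have h3 : h (x.1 + (k + 1 : ℕ), x.2) - h (x.1 + k, x.2) + (h (x.1 + k, x.2) - h x)
        = h (x.1 + (k + 1 : ℕ), x.2) - h x := by ring
      rw [h3] at h2
      push_cast at *
      linarith only [ih, h1, h2]
  have hex : ∃ k : ℕ, k ≤ #D ∧ ((x.1 + k, x.2) : ℤ × ℤ) ∉ D := by
    by_contra hcon
    push Not at hcon
    have hinj : Function.Injective (fun k : ℕ => ((x.1 + k, x.2) : ℤ × ℤ)) := by
      intro a b hab
      simpa only [Prod.mk.injEq, add_right_inj, Nat.cast_inj, and_true] using hab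
    have hsub : (Finset.range (#D + 1)).image (fun k : ℕ => ((x.1 + k, x.2) : ℤ × ℤ)) ⊆ D := by
      intro y hy
      rw [Finset.mem_image] at hy
      obtain ⟨k, hk, rfl⟩ := hy
      exact hcon k (by simpa only [mem_range, Order.lt_add_one_iff] using hk)
    have := Finset.card_le_card hsub
    rw [Finset.card_image_of_injective _ hinj, Finset.card_range] at this
    omega
  obtain ⟨k, hk, hkD⟩ := hex
  have h1 := step k
  have h2 := hD _ hkD
  have hk' : (k : ℤ) ≤ (#D : ℤ) := by exact_mod_cast hk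
  rw [abs_le] at *
  constructor <;> linarith only [hk, h1, h2]

theorem finite_bdd (U : Finset (ℤ × ℤ)) (ζ : ℤ × ℤ → ℤ) (M : ℤ) :
    {h : ℤ × ℤ → ℤ | (∀ x, |h x| ≤ M) ∧ ∀ x, x ∉ U → h x = ζ x}.Finite := by
  apply Set.Finite.of_finite_image (f := fun h : ℤ × ℤ → ℤ => fun x : U => h x)
  · apply Set.Finite.subset (s := Set.pi Set.univ (fun _ : U => Set.Icc (-M) M))
    · exact Set.Finite.pi fun _ => Set.finite_Icc _ _
    · rintro g ⟨h, hh, rfl⟩
      intro x _
      exact abs_le.1 (hh.1 x)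
  · intro h hh g hg hhg
    funext x
    by_cases hx : x ∈ U
    · exact congrFun hhg ⟨x, hx⟩
    · rw [hh.2 x hx, hg.2 x hx]

theorem conf_iff {D : Finset (ℤ × ℤ)} {η h : ℤ × ℤ → ℤ} :
    h ∈ Conf D η ↔ Lip h ∧ ∀ x, x ∉ D → h x = η x := by
  unfold Conf Lip
  show ((∀ x, Odd (h x)) ∧ (∀ x, x ∉ D → h x = η x) ∧ ∀ x y, Adj x y → |h x - h y| ≤ 2) ↔ _
  tauto

theorem finite_conf (D : Finset (ℤ × ℤ)) (η : ℤ × ℤ → ℤ) (hη : ∀ x, η x = 1 ∨ η x = -1) :
    (Conf D η).Finite := by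
  apply (finite_bdd D η (1 + 2 * (#D : ℤ))).subset
  intro h hh
  rw [conf_iff] at hh
  refine ⟨hh.1.bdd (D := D) fun x hx => ?_, hh.2⟩
  rw [hh.2 x hx]
  rcases hη x with h1 | h1 <;> simp [h1]

/-- The ensemble with free signs: absolute value one off `D`, value one off `U`. -/
def Free (D U : Finset (ℤ × ℤ)) : Set (ℤ × ℤ → ℤ) :=
  {h | Lip h ∧ (∀ x, x ∉ D → |h x| = 1) ∧ ∀ x, x ∉ U → h x = 1}

/-- The possible absolute values. -/
def AbsConf (D : Finset (ℤ × ℤ)) : Set (ℤ × ℤ → ℤ) :=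
  {a | Lip a ∧ (∀ x, 1 ≤ a x) ∧ ∀ x, x ∉ D → a x = 1}

theorem finite_free (D U : Finset (ℤ × ℤ)) : (Free D U).Finite := by
  apply (finite_bdd U (fun _ => 1) (1 + 2 * (#D : ℤ))).subset
  intro h hh
  exact ⟨hh.1.bdd (D := D) fun x hx => (hh.2.1 x hx).le, hh.2.2⟩

theorem finite_absConf (D : Finset (ℤ × ℤ)) : (AbsConf D).Finite := by
  apply (finite_bdd D (fun _ => 1) (1 + 2 * (#D : ℤ))).subset
  intro h hh
  exact ⟨hh.1.bdd (D := D) fun x hx => by simp [hh.2.2 x hx], hh.2.2⟩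

/-- The group of sign functions compatible with the absolute value `a`. -/
def SG (U : Finset (ℤ × ℤ)) (a : ℤ × ℤ → ℤ) : Subgroup (ℤ × ℤ → ℤˣ) where
  carrier := {s | (∀ x, x ∉ U → s x = 1) ∧
    ∀ x y, Adj x y → ¬ (a x ≤ 1 ∧ a y ≤ 1) → s x = s y}
  mul_mem' := by
    rintro s t ⟨hs1, hs2⟩ ⟨ht1, ht2⟩
    refine ⟨fun x hx => by simp [hs1 x hx, ht1 x hx], fun x y hxy h => ?_⟩
    simp [hs2 x y hxy h, ht2 x y hxy h]
  one_mem' := by simp
  inv_mem' := by
    rintro s ⟨hs1, hs2⟩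
    refine ⟨fun x hx => by simp [hs1 x hx], fun x y hxy h => ?_⟩
    simp [hs2 x y hxy h]

theorem mem_SG {U : Finset (ℤ × ℤ)} {a : ℤ × ℤ → ℤ} {s : ℤ × ℤ → ℤˣ} :
    s ∈ SG U a ↔ (∀ x, x ∉ U → s x = 1) ∧
      ∀ x y, Adj x y → ¬ (a x ≤ 1 ∧ a y ≤ 1) → s x = s y := Iff.rfl

theorem SG_sup (U : Finset (ℤ × ℤ)) (a b : ℤ × ℤ → ℤ) : SG U (a ⊔ b) = SG U a ⊓ SG U b := by
  ext s
  rw [Subgroup.mem_inf, mem_SG, mem_SG, mem_SG]
  constructor
  · rintro ⟨h1, h2⟩
    refine ⟨⟨h1, fun x y hxy h => h2 x y hxy ?_⟩, ⟨h1, fun x y hxy h => h2 x y hxy ?_⟩⟩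
    · rintro ⟨h3, h4⟩
      simp only [Pi.sup_apply, sup_le_iff] at h3 h4
      exact h ⟨h3.1, h4.1⟩
    · rintro ⟨h3, h4⟩
      simp only [Pi.sup_apply, sup_le_iff] at h3 h4
      exact h ⟨h3.2, h4.2⟩
  · rintro ⟨⟨h1, h2⟩, ⟨_, h4⟩⟩
    refine ⟨h1, fun x y hxy h => ?_⟩
    by_cases h5 : a x ≤ 1 ∧ a y ≤ 1
    · apply h4 x y hxy
      rintro ⟨h6, h7⟩
      apply h
      simp only [Pi.sup_apply, sup_le_iff]
      exact ⟨⟨h5.1, h6⟩, ⟨h5.2, h7⟩⟩
    · exact h2 x y hxy h5

theorem SG_anti (U : Finset (ℤ × ℤ)) {a b : ℤ × ℤ → ℤ} (hab : a ≤ b) : SG U b ≤ SG U a := by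
  intro s hs
  rw [mem_SG] at *
  refine ⟨hs.1, fun x y hxy h => hs.2 x y hxy ?_⟩
  rintro ⟨h1, h2⟩
  exact h ⟨(hab x).trans h1, (hab y).trans h2⟩

theorem finite_SG (U : Finset (ℤ × ℤ)) (a : ℤ × ℤ → ℤ) : ((SG U a : Set (ℤ × ℤ → ℤˣ))).Finite := by
  apply Set.Finite.of_finite_image (f := fun h : ℤ × ℤ → ℤˣ => fun x : U => h x)
  · exact Set.toFinite _
  · intro h hh g hg hhg
    funext x
    by_cases hx : x ∈ U
    · exact congrFun hhg ⟨x, hx⟩
    · rw [hh.1 x hx, hg.1 x hx]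

instance (U : Finset (ℤ × ℤ)) (a : ℤ × ℤ → ℤ) : Finite (SG U a) := (finite_SG U a).to_subtype

/-- Size of the sign group. -/
noncomputable def nSG (U : Finset (ℤ × ℤ)) (a : ℤ × ℤ → ℤ) : ℕ := Nat.card (SG U a)

theorem nSG_mul (U : Finset (ℤ × ℤ)) (a b : ℤ × ℤ → ℤ) :
    nSG U a * nSG U b ≤ nSG U (a ⊓ b) * nSG U (a ⊔ b) := by
  have h := card_mul_card_le (SG U a) (SG U b) (SG U (a ⊓ b)) (SG_anti U inf_le_left)
    (SG_anti U inf_le_right)
  rw [← SG_sup] at h
  unfold nSG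
  rw [mul_comm (Nat.card (SG U (a ⊓ b)))]
  exact h

/-- Finset of sign functions. -/
noncomputable def SGF (U : Finset (ℤ × ℤ)) (a : ℤ × ℤ → ℤ) : Finset (ℤ × ℤ → ℤˣ) :=
  (finite_SG U a).toFinset

theorem mem_SGF {U : Finset (ℤ × ℤ)} {a : ℤ × ℤ → ℤ} {s : ℤ × ℤ → ℤˣ} :
    s ∈ SGF U a ↔ s ∈ SG U a := by
  simp [SGF]

theorem card_SGF (U : Finset (ℤ × ℤ)) (a : ℤ × ℤ → ℤ) : #(SGF U a) = nSG U a := by
  unfold SGF nSG
  rw [← Set.ncard_eq_toFinset_card _ (finite_SG U a)]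
  rfl

open Classical in
/-- Correlation of two signs given the absolute value. -/
theorem sum_SGF (U : Finset (ℤ × ℤ)) (a : ℤ × ℤ → ℤ) (x y : ℤ × ℤ) :
    ∑ s ∈ SGF U a, (((s x : ℤˣ) : ℤ) : ℝ) * (((s y : ℤˣ) : ℤ) : ℝ)
      = if (∀ s ∈ SG U a, s x = s y) then (nSG U a : ℝ) else 0 := by
  split_ifs with h
  · rw [← card_SGF, Finset.card_eq_sum_ones, Nat.cast_sum]
    apply Finset.sum_congr rfl
    intro s hs
    rw [h s (mem_SGF.1 hs)]
    rcases Int.units_eq_one_or (s y) with h1 | h1 <;> simp only [h1, Units.val_neg, Units.val_one, Int.reduceNeg, Int.cast_neg, Int.cast_one, mul_neg, mul_one, neg_neg, Nat.cast_one]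
  · push Not at h
    obtain ⟨t, ht, hxy⟩ := h
    have key : ∑ s ∈ SGF U a, (((s x : ℤˣ) : ℤ) : ℝ) * (((s y : ℤˣ) : ℤ) : ℝ)
        = ∑ s ∈ SGF U a, ((((t * s) x : ℤˣ) : ℤ) : ℝ) * ((((t * s) y : ℤˣ) : ℤ) : ℝ) := by
      symm
      apply Finset.sum_nbij' (fun s => t * s) (fun s => t⁻¹ * s)
      · intro s hs
        exact mem_SGF.2 (mul_mem ht (mem_SGF.1 hs))
      · intro s hs
        exact mem_SGF.2 (mul_mem (inv_mem ht) (mem_SGF.1 hs))
      · intro s _; simp
      · intro s _; simp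
      · intro s _; rfl
    have key2 : ∀ s ∈ SGF U a,
        ((((t * s) x : ℤˣ) : ℤ) : ℝ) * ((((t * s) y : ℤˣ) : ℤ) : ℝ)
          = - ((((s x : ℤˣ) : ℤ) : ℝ) * (((s y : ℤˣ) : ℤ) : ℝ)) := by
      intro s _
      rcases Int.units_eq_one_or (t x) with h1 | h1 <;>
        rcases Int.units_eq_one_or (t y) with h2 | h2
      · exact absurd (h1.trans h2.symm) hxy
      · simp [h1, h2]
      · simp [h1, h2]
      · exact absurd (h1.trans h2.symm) hxy
    rw [Finset.sum_congr rfl key2, Finset.sum_neg_distrib] at key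
    linarith

/-- Finset versions. -/
noncomputable def FreeF (D U : Finset (ℤ × ℤ)) : Finset (ℤ × ℤ → ℤ) := (finite_free D U).toFinset

/-- Finset versions. -/
noncomputable def AbsF (D : Finset (ℤ × ℤ)) : Finset (ℤ × ℤ → ℤ) := (finite_absConf D).toFinset

theorem mem_FreeF {D U : Finset (ℤ × ℤ)} {h : ℤ × ℤ → ℤ} : h ∈ FreeF D U ↔ h ∈ Free D U := by
  simp [FreeF]

theorem mem_AbsF {D : Finset (ℤ × ℤ)} {h : ℤ × ℤ → ℤ} : h ∈ AbsF D ↔ h ∈ AbsConf D := by
  simp [AbsF]

/-- The sign of an odd (nonzero) integer as a unit. -/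
def sgn (n : ℤ) : ℤˣ := if 0 < n then 1 else -1

theorem sgn_mul_abs (n : ℤ) : (sgn n : ℤ) * |n| = n := by
  unfold sgn
  split_ifs with h
  · simp [abs_of_pos h]
  · push Not at h
    simp [abs_of_nonpos h]

theorem odd_ne_zero {n : ℤ} (h : Odd n) : n ≠ 0 := by
  rintro rfl
  exact (by decide : ¬ Odd (0 : ℤ)) h

theorem one_le_abs_of_odd {n : ℤ} (h : Odd n) : 1 ≤ |n| := Int.one_le_abs (odd_ne_zero h)

theorem sgn_units_mul (u : ℤˣ) {n : ℤ} (hn : 1 ≤ n) : sgn ((u : ℤ) * n) = u := by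
  unfold sgn
  rcases Int.units_eq_one_or u with h1 | h1
  · subst h1
    have : 0 < n := by omega
    simp [this]
  · subst h1
    have : ¬ (n < 0) := by omega
    simp [this]

theorem abs_units_mul (u : ℤˣ) {n : ℤ} (hn : 1 ≤ n) : |(u : ℤ) * n| = n := by
  have : 0 ≤ n := by omega
  rcases Int.units_eq_one_or u with h1 | h1 <;> subst h1 <;> simp [abs_of_nonneg this]

/-- Decomposition of the free ensemble into absolute value and signs. -/
theorem sum_free {D U : Finset (ℤ × ℤ)} (hDU : ∀ x ∈ D, x ∈ U) (F : (ℤ × ℤ → ℤ) → ℝ) :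
    ∑ h ∈ FreeF D U, F h = ∑ a ∈ AbsF D, ∑ s ∈ SGF U a, F (fun x => (s x : ℤ) * a x) := by
  rw [Finset.sum_sigma' (AbsF D) (fun a => SGF U a)
    (fun a s => F (fun x => (s x : ℤ) * a x))]
  apply Finset.sum_nbij' (i := fun h : ℤ × ℤ → ℤ =>
      (⟨fun x => |h x|, fun x => sgn (h x)⟩ : (_ : ℤ × ℤ → ℤ) × (ℤ × ℤ → ℤˣ)))
    (j := fun p => fun x => ((p.2 x : ℤˣ) : ℤ) * p.1 x)
  · intro h hh
    rw [mem_FreeF] at hh
    obtain ⟨⟨ho, hl⟩, h1, h2⟩ := hh
    rw [Finset.mem_sigma]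
    refine ⟨mem_AbsF.2 ⟨⟨fun x => ?_, fun x y hxy => ?_⟩, fun x => one_le_abs_of_odd (ho x),
      fun x hx => h1 x hx⟩, mem_SGF.2 (mem_SG.2 ⟨fun x hx => ?_, fun x y hxy hne => ?_⟩)⟩
    · exact odd_abs.2 (ho x)
    · exact (abs_abs_sub_abs_le (h x) (h y)).trans (hl x y hxy)
    · simp only [sgn, h2 x hx, zero_lt_one, ↓reduceIte]
    · have hx := odd_ne_zero (ho x)
      have hy := odd_ne_zero (ho y)
      have hd := hl x y hxy
      have ox := one_le_abs_of_odd (ho x)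
      have oy := one_le_abs_of_odd (ho y)
      simp only [sgn]
      rw [abs_le] at hd
      split_ifs with h3 h4 h4
      · rfl
      · exfalso
        apply hne
        dsimp only
        rw [abs_of_pos h3, abs_of_nonpos (not_lt.1 h4)]
        omega
      · exfalso
        apply hne
        dsimp only
        rw [abs_of_pos h4, abs_of_nonpos (not_lt.1 h3)]
        omega
      · rfl
  · rintro ⟨a, s⟩ hp
    rw [Finset.mem_sigma] at hp
    obtain ⟨ha, hs⟩ := hp
    rw [mem_AbsF] at ha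
    rw [mem_SGF, mem_SG] at hs
    obtain ⟨⟨ho, hl⟩, h1, h2⟩ := ha
    dsimp only at hs ⊢
    rw [mem_FreeF]
    refine ⟨⟨fun x => ?_, fun x y hxy => ?_⟩, fun x hx => ?_, fun x hx => ?_⟩
    · rcases Int.units_eq_one_or (s x) with h3 | h3
      · simpa [h3] using ho x
      · simpa only [h3, Units.val_neg, Units.val_one, Int.reduceNeg, neg_mul, one_mul, odd_neg] using ho x
    · by_cases hc : a x ≤ 1 ∧ a y ≤ 1
      · have e1 : a x = 1 := le_antisymm hc.1 (h1 x)
        have e2 : a y = 1 := le_antisymm hc.2 (h1 y)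
        rcases Int.units_eq_one_or (s x) with h3 | h3 <;>
          rcases Int.units_eq_one_or (s y) with h4 | h4 <;> simp [h3, h4, e1, e2]
      · dsimp only
        rw [hs.2 x y hxy hc]
        rcases Int.units_eq_one_or (s y) with h4 | h4
        · simpa [h4] using hl x y hxy
        · have := hl x y hxy
          rw [abs_sub_comm] at this
          simp only [h4, Units.val_neg, Units.val_one]
          convert this using 2
          ring
    · rw [abs_units_mul _ (h1 x), h2 x hx]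
    · have e1 := h2 x (fun hxD => hx (hDU x hxD))
      dsimp only at e1 ⊢
      rw [hs.1 x hx, e1]
      simp
  · intro h _
    funext x
    exact sgn_mul_abs (h x)
  · rintro ⟨a, s⟩ hp
    rw [Finset.mem_sigma] at hp
    obtain ⟨ha, _⟩ := hp
    rw [mem_AbsF] at ha
    have h1 := ha.2.1
    dsimp only at h1 ⊢
    have e1 : (fun x => |((s x : ℤˣ) : ℤ) * a x|) = a := by
      funext x; exact abs_units_mul _ (h1 x)
    have e2 : (fun x => sgn (((s x : ℤˣ) : ℤ) * a x)) = s := by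
      funext x; exact sgn_units_mul _ (h1 x)
    rw [e1, e2]
  · intro h _
    congr 1
    funext x
    exact (sgn_mul_abs (h x)).symm

open Classical in
/-- The two-point observable in terms of absolute values. -/
noncomputable def G2 (U : Finset (ℤ × ℤ)) (x y : ℤ × ℤ) (a : ℤ × ℤ → ℤ) : ℝ :=
  if (∀ s ∈ SG U a, s x = s y) then ((max (a x) 1 : ℤ) : ℝ) * ((max (a y) 1 : ℤ) : ℝ) else 0

theorem G2_nonneg (U : Finset (ℤ × ℤ)) (x y : ℤ × ℤ) (a : ℤ × ℤ → ℤ) : 0 ≤ G2 U x y a := by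
  unfold G2
  split_ifs
  · apply mul_nonneg
    · exact_mod_cast (zero_le_one.trans (le_max_right (a x) 1))
    · exact_mod_cast (zero_le_one.trans (le_max_right (a y) 1))
  · exact le_rfl

theorem G2_mono (U : Finset (ℤ × ℤ)) (x y : ℤ × ℤ) : Monotone (G2 U x y) := by
  intro a b hab
  by_cases h : ∀ s ∈ SG U a, s x = s y
  · have h' : ∀ s ∈ SG U b, s x = s y := fun s hs => h s (SG_anti U hab hs)
    unfold G2
    rw [if_pos h, if_pos h']
    have h1 : max (a x) 1 ≤ max (b x) 1 := max_le_max (hab x) le_rfl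
    have h2 : max (a y) 1 ≤ max (b y) 1 := max_le_max (hab y) le_rfl
    have h3 : (0 : ℤ) ≤ max (a x) 1 := zero_le_one.trans (le_max_right (a x) 1)
    have h4 : (0 : ℤ) ≤ max (a y) 1 := zero_le_one.trans (le_max_right (a y) 1)
    exact_mod_cast mul_le_mul h1 h2 h4 (h3.trans h1)
  · have : G2 U x y a = 0 := by
      unfold G2
      rw [if_neg h]
    rw [this]
    exact G2_nonneg _ _ _ _

theorem sum_free_two {D U : Finset (ℤ × ℤ)} (hDU : ∀ x ∈ D, x ∈ U) (x y : ℤ × ℤ) :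
    ∑ h ∈ FreeF D U, (h x : ℝ) * (h y : ℝ) = ∑ a ∈ AbsF D, (nSG U a : ℝ) * G2 U x y a := by
  rw [sum_free hDU]
  apply Finset.sum_congr rfl
  intro a ha
  have h1 := (mem_AbsF.1 ha).2.1
  have e : ∀ s ∈ SGF U a, (((s x : ℤˣ) : ℤ) * a x : ℤ) * ((((s y : ℤˣ) : ℤ) * a y : ℤ) : ℝ)
      = ((a x : ℝ) * (a y : ℝ)) * ((((s x : ℤˣ) : ℤ) : ℝ) * (((s y : ℤˣ) : ℤ) : ℝ)) := by
    intro s _
    push_cast
    ring
  rw [Finset.sum_congr rfl e, ← Finset.mul_sum, sum_SGF]
  unfold G2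
  rw [max_eq_left (h1 x), max_eq_left (h1 y)]
  split_ifs
  · ring
  · ring

theorem card_free {D U : Finset (ℤ × ℤ)} (hDU : ∀ x ∈ D, x ∈ U) :
    ((#(FreeF D U) : ℕ) : ℝ) = ∑ a ∈ AbsF D, (nSG U a : ℝ) := by
  have := sum_free hDU (fun _ => (1 : ℝ))
  simp only [Finset.sum_const, nsmul_eq_mul, mul_one, card_SGF] at this
  exact this

theorem nonempty_free (D U : Finset (ℤ × ℤ)) : (FreeF D U).Nonempty := by
  refine ⟨fun _ => 1, mem_FreeF.2 ⟨⟨fun _ => odd_one, fun x y _ => by simp only [sub_self, abs_zero, Nat.ofNat_nonneg]⟩,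
    fun x _ => by simp, fun x _ => rfl⟩⟩

/-- Monotonicity in the domain of the two-point function of the free ensemble. -/
theorem free_two_mono {D' D U : Finset (ℤ × ℤ)} (hD : D' ⊆ D) (hDU : ∀ x ∈ D, x ∈ U)
    (x y : ℤ × ℤ) :
    ev (FreeF D' U) (fun h => (h x : ℝ) * (h y : ℝ))
      ≤ ev (FreeF D U) (fun h => (h x : ℝ) * (h y : ℝ)) := by
  classical
  have hD'U : ∀ x ∈ D', x ∈ U := fun x hx => hDU x (hD hx)
  have c1 : (0 : ℝ) < #(FreeF D' U) := by exact_mod_cast (nonempty_free D' U).card_pos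
  have c2 : (0 : ℝ) < #(FreeF D U) := by exact_mod_cast (nonempty_free D U).card_pos
  unfold ev
  rw [div_le_div_iff₀ c1 c2, sum_free_two hD'U, sum_free_two hDU, card_free hD'U, card_free hDU]
  let w₁ : (ℤ × ℤ → ℤ) → ℝ := fun a => if a ∈ AbsF D' then (nSG U a : ℝ) else 0
  let w₂ : (ℤ × ℤ → ℤ) → ℝ := fun a => if a ∈ AbsF D then (nSG U a : ℝ) else 0
  have hw₁ : ∀ a, 0 ≤ w₁ a := fun a => by dsimp [w₁]; split_ifs <;> positivity
  have hw₂ : ∀ a, 0 ≤ w₂ a := fun a => by dsimp [w₂]; split_ifs <;> positivity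
  have key := holley_weighted w₁ w₂ (G2 U x y) (AbsF D') (AbsF D) hw₁ hw₂
    (G2_nonneg U x y) (G2_mono U x y)
    (fun a ha => by simp [w₁, ha]) (fun a ha => by simp [w₂, ha])
    (by
      intro a b
      by_cases ha : a ∈ AbsF D'
      · by_cases hb : b ∈ AbsF D
        · have hinf : a ⊓ b ∈ AbsF D' := by
            rw [mem_AbsF] at *
            refine ⟨ha.1.inf hb.1, fun z => ?_, fun z hz => ?_⟩
            · exact le_min (ha.2.1 z) (hb.2.1 z)
            · have := ha.2.2 z hz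
              have h2 := hb.2.1 z
              simp only [Pi.inf_apply]
              rw [this]
              exact min_eq_left h2
          have hsup : a ⊔ b ∈ AbsF D := by
            rw [mem_AbsF] at *
            refine ⟨ha.1.sup hb.1, fun z => ?_, fun z hz => ?_⟩
            · exact (ha.2.1 z).trans (le_max_left _ _)
            · have h1 := ha.2.2 z (fun hz' => hz (hD hz'))
              have h2 := hb.2.2 z hz
              simp [h1, h2]
          simp only [w₁, w₂, ha, hb, hinf, hsup, if_true]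
          exact_mod_cast nSG_mul U a b
        · have : w₁ a * w₂ b = 0 := by simp [w₂, hb]
          rw [this]
          exact mul_nonneg (hw₁ _) (hw₂ _)
      · have : w₁ a * w₂ b = 0 := by simp [w₁, ha]
        rw [this]
        exact mul_nonneg (hw₁ _) (hw₂ _))
  have e1 : ∑ a ∈ AbsF D', w₁ a * G2 U x y a = ∑ a ∈ AbsF D', (nSG U a : ℝ) * G2 U x y a := by
    apply Finset.sum_congr rfl
    intro a ha
    simp only [ha, ↓reduceIte, w₁]
  have e2 : ∑ a ∈ AbsF D, w₂ a * G2 U x y a = ∑ a ∈ AbsF D, (nSG U a : ℝ) * G2 U x y a := by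
    apply Finset.sum_congr rfl
    intro a ha
    simp [w₂, ha]
  have e3 : ∑ a ∈ AbsF D', w₁ a = ∑ a ∈ AbsF D', (nSG U a : ℝ) := by
    apply Finset.sum_congr rfl
    intro a ha
    simp [w₁, ha]
  have e4 : ∑ a ∈ AbsF D, w₂ a = ∑ a ∈ AbsF D, (nSG U a : ℝ) := by
    apply Finset.sum_congr rfl
    intro a ha
    simp [w₂, ha]
  rw [e1, e2, e3, e4] at key
  linarith only [key]

/-- The one-point function of the free ensemble vanishes. -/
theorem free_one {D U : Finset (ℤ × ℤ)} (hcl : ∀ x ∈ D, ∀ y, Adj x y → y ∈ U)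
    {z : ℤ × ℤ} (hz : z ∈ U) : ∑ h ∈ FreeF D U, (h z : ℝ) = 0 := by
  have hmem : ∀ h ∈ FreeF D U, (fun x => if x ∈ U then -h x else h x) ∈ FreeF D U := by
    intro h hh
    rw [mem_FreeF] at *
    obtain ⟨⟨ho, hl⟩, h1, h2⟩ := hh
    refine ⟨⟨fun x => ?_, fun x y hxy => ?_⟩, fun x hx => ?_, fun x hx => ?_⟩
    · dsimp only
      split_ifs
      · exact (ho x).neg
      · exact ho x
    · have hd := hl x y hxy
      by_cases hx : x ∈ U <;> by_cases hy : y ∈ U
      · simp only [hx, hy, if_true]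
        rw [abs_sub_comm] at hd
        convert hd using 2
        ring
      · have hxD : x ∉ D := fun hxD => hy (hcl x hxD y hxy)
        have e1 := h1 x hxD
        have e2 := h2 y hy
        simp only [hx, hy, if_true, if_false, e2]
        rcases abs_eq (zero_le_one) |>.1 e1 with e3 | e3 <;> simp [e3]
      · have hyD : y ∉ D := fun hyD => hx (hcl y hyD x hxy.symm)
        have e1 := h1 y hyD
        have e2 := h2 x hx
        simp only [hx, hy, if_true, if_false, e2]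
        rcases abs_eq (zero_le_one) |>.1 e1 with e3 | e3 <;> simp [e3]
      · simp only [hx, hy, if_false]
        exact hd
    · dsimp only
      split_ifs
      · rw [abs_neg]; exact h1 x hx
      · exact h1 x hx
    · simp [hx, h2 x hx]
  have key : ∑ h ∈ FreeF D U, (h z : ℝ) = ∑ h ∈ FreeF D U, (-(h z : ℝ)) := by
    apply Finset.sum_nbij' (fun h => fun x => if x ∈ U then -h x else h x)
      (fun h => fun x => if x ∈ U then -h x else h x) hmem hmem
    · intro h _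
      funext x
      dsimp only
      split_ifs <;> simp
    · intro h _
      funext x
      dsimp only
      split_ifs <;> simp
    · intro h _
      simp [hz]
  rw [Finset.sum_neg_distrib] at key
  linarith

end Vale.Agent.P153
end

section

/-!
# Hausdorff moment theorem (for reflection positivity)

`hausdorff`: a bounded real sequence `c` with both Hankel forms positive semidefinite is the moment
sequence of a finite measure on `[0,1]`.
-/

open MeasureTheory Polynomial Filter Topology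
open scoped NNReal unitInterval

namespace Vale.Agent.P153.RP

/-! ### limits of measures on a compact space -/

theorem exists_limit {E : Type*} [MeasurableSpace E] [TopologicalSpace E] [T2Space E] [BorelSpace E]
    [CompactSpace E] (μ : ℕ → FiniteMeasure E) (M : ℝ≥0) (hM : ∀ n, (μ n).mass = M) :
    ∃ ν : FiniteMeasure E, ν.mass = M ∧ ∀ (f : C(E, ℝ)) (l : ℝ),
      Tendsto (fun n => ∫ x, f x ∂(μ n : Measure E)) atTop (𝓝 l) →
      ∫ x, f x ∂(ν : Measure E) = l := by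
  classical
  have hK := isCompact_setOfPred_finiteMeasure_eq_of_compactSpace E M
  let U : Ultrafilter ℕ := hyperfilter ℕ
  have hU : (U : Filter ℕ) ≤ atTop := Nat.hyperfilter_le_atTop
  obtain ⟨ν, hν, hlim⟩ := hK.ultrafilter_le_nhds (U.map μ) (by
    rw [le_principal_iff]
    exact Filter.Eventually.of_forall (f := (U : Filter ℕ)) hM)
  refine ⟨ν, hν, fun f l hl => ?_⟩
  have h1 : Tendsto μ (U : Filter ℕ) (𝓝 ν) := hlim
  rw [FiniteMeasure.tendsto_iff_forall_integral_tendsto] at h1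
  have h2 := h1 (BoundedContinuousFunction.mkOfCompact f)
  have h3 : Tendsto (fun n => ∫ x, f x ∂(μ n : Measure E)) (U : Filter ℕ) (𝓝 l) := hl.mono_left hU
  exact tendsto_nhds_unique h2 h3

/-! ### positive functionals on polynomials -/

/-- positivity of `L` on `q²` and `X q²`, and boundedness of the moments -/
structure PosL (L : ℝ[X] →ₗ[ℝ] ℝ) : Prop where
  even : ∀ q : ℝ[X], 0 ≤ L (q * q)
  odd : ∀ q : ℝ[X], 0 ≤ L (X * (q * q))
  bdd : ∃ C : ℝ, ∀ n : ℕ, |L (X ^ n)| ≤ C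

variable {L : ℝ[X] →ₗ[ℝ] ℝ}

theorem PosL.pow (h : PosL L) (n : ℕ) (q : ℝ[X]) : 0 ≤ L (X ^ n * (q * q)) := by
  obtain ⟨m, hm⟩ := Nat.even_or_odd' n
  rcases hm with rfl | rfl
  · have := h.even (X ^ m * q)
    convert this using 2
    ring
  · have := h.odd (X ^ m * q)
    convert this using 2
    ring

theorem PosL.bdd_mul (h : PosL L) (p : ℝ[X]) : ∃ C : ℝ, ∀ n : ℕ, |L (X ^ n * p)| ≤ C := by
  induction p using Polynomial.induction_on' with
  | add p q hp hq =>
    obtain ⟨C, hC⟩ := hp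
    obtain ⟨D, hD⟩ := hq
    refine ⟨C + D, fun n => ?_⟩
    rw [mul_add, map_add]
    exact (abs_add_le _ _).trans (add_le_add (hC n) (hD n))
  | monomial k a =>
    obtain ⟨C, hC⟩ := h.bdd
    refine ⟨|a| * C, fun n => ?_⟩
    have : (X : ℝ[X]) ^ n * monomial k a = a • X ^ (n + k) := by
      rw [← C_mul_X_pow_eq_monomial, smul_eq_C_mul]; ring
    rw [this, map_smul, smul_eq_mul, abs_mul]
    exact mul_le_mul_of_nonneg_left (hC _) (abs_nonneg a)

/-- bounded convex sequences are nonincreasing -/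
theorem convex_bdd {A : ℕ → ℝ} (hc : ∀ n, 0 ≤ A n - 2 * A (n + 1) + A (n + 2))
    {C : ℝ} (hb : ∀ n, |A n| ≤ C) : A 1 ≤ A 0 := by
  by_contra hlt
  push Not at hlt
  have hd : ∀ n, A 1 - A 0 ≤ A (n + 1) - A n := by
    intro n
    induction n with
    | zero => simp
    | succ n ih => have := hc n; linarith only [ih, this]
  have hg : ∀ n : ℕ, A 0 + n * (A 1 - A 0) ≤ A n := by
    intro n
    induction n with
    | zero => simp
    | succ n ih =>
      have := hd n
      push_cast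
      linarith only [ih, this]
  obtain ⟨n, hn⟩ := exists_nat_gt ((C - A 0) / (A 1 - A 0))
  have h1 : C - A 0 < n * (A 1 - A 0) := by
    rwa [div_lt_iff₀ (by linarith only [hlt])] at hn
  have h2 := hg n
  have h3 := (abs_le.1 (hb n)).2
  linarith only [h1, h2, h3]

theorem PosL.one_sub (h : PosL L) (q : ℝ[X]) : 0 ≤ L ((1 - X) * (q * q)) := by
  obtain ⟨C, hC⟩ := h.bdd_mul (q * q)
  have := convex_bdd (A := fun n => L (X ^ n * (q * q))) (fun n => by
    have h1 := h.pow n ((1 - X) * q)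
    have h2 : (X : ℝ[X]) ^ n * ((1 - X) * q * ((1 - X) * q)) =
        X ^ n * (q * q) - (2 : ℝ) • (X ^ (n + 1) * (q * q)) + X ^ (n + 2) * (q * q) := by
      rw [smul_eq_C_mul, show (Polynomial.C (2 : ℝ) : ℝ[X]) = 2 from rfl]; ring
    rw [h2, map_add, map_sub, map_smul, smul_eq_mul] at h1
    exact h1) hC
  have h3 : ((1 : ℝ[X]) - X) * (q * q) = X ^ 0 * (q * q) - X ^ 1 * (q * q) := by ring
  rw [h3, map_sub]
  linarith [this]

theorem PosL.shift (h : PosL L) : PosL (L ∘ₗ LinearMap.mulLeft ℝ (X : ℝ[X])) where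
  even q := by simpa only [LinearMap.coe_comp, Function.comp_apply, LinearMap.mulLeft_apply] using h.odd q
  odd q := by
    have := h.pow 2 q
    simp only [LinearMap.comp_apply, LinearMap.mulLeft_apply]
    convert this using 2
    ring
  bdd := by
    obtain ⟨C, hC⟩ := h.bdd
    refine ⟨C, fun n => ?_⟩
    simp only [LinearMap.comp_apply, LinearMap.mulLeft_apply]
    rw [← pow_succ']
    exact hC _

theorem PosL.basic (h : PosL L) (i j : ℕ) : 0 ≤ L (X ^ i * (1 - X) ^ j) := by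
  obtain ⟨a, ha⟩ := Nat.even_or_odd' i
  obtain ⟨b, hb⟩ := Nat.even_or_odd' j
  rcases hb with rfl | rfl
  · have := h.pow i ((1 - X) ^ b)
    convert this using 2
    ring
  · rcases ha with rfl | rfl
    · have := h.one_sub (X ^ a * (1 - X) ^ b)
      convert this using 2
      ring
    · have := h.shift.one_sub (X ^ a * (1 - X) ^ b)
      simp only [LinearMap.comp_apply, LinearMap.mulLeft_apply] at this
      convert this using 2
      ring

theorem PosL.bernstein (h : PosL L) (m ν : ℕ) : 0 ≤ L (bernsteinPolynomial ℝ m ν) := by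
  have : bernsteinPolynomial ℝ m ν = ((m.choose ν : ℕ) : ℝ) • (X ^ ν * (1 - X) ^ (m - ν)) := by
    rw [bernsteinPolynomial, smul_eq_C_mul]
    simp only [mul_assoc, map_natCast]
  rw [this, map_smul, smul_eq_mul]
  exact mul_nonneg (Nat.cast_nonneg _) (h.basic _ _)

/-! ### Bernstein factorial moments -/

theorem bernstein_choose (m i : ℕ) :
    ∑ ν ∈ Finset.range (m + 1), ((ν.choose i : ℕ) : ℝ) • bernsteinPolynomial ℝ m ν =
      ((m.choose i : ℕ) : ℝ) • X ^ i := by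
  by_cases hi : i ≤ m
  · obtain ⟨r, rfl⟩ := Nat.exists_eq_add_of_le hi
    have hsplit : ∑ ν ∈ Finset.range (i + r + 1), ((ν.choose i : ℕ) : ℝ) •
        bernsteinPolynomial ℝ (i + r) ν =
        ∑ k ∈ Finset.range (r + 1), (((i + k).choose i : ℕ) : ℝ) •
          bernsteinPolynomial ℝ (i + r) (i + k) := by
      rw [show i + r + 1 = i + (r + 1) by ring, Finset.sum_range_add]
      have : ∑ x ∈ Finset.range i, ((x.choose i : ℕ) : ℝ) • bernsteinPolynomial ℝ (i + r) x = 0 := by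
        apply Finset.sum_eq_zero
        intro x hx
        rw [Nat.choose_eq_zero_of_lt (Finset.mem_range.1 hx)]
        simp
      rw [this, zero_add]
    rw [hsplit]
    have hterm : ∀ k ∈ Finset.range (r + 1), (((i + k).choose i : ℕ) : ℝ) •
        bernsteinPolynomial ℝ (i + r) (i + k) =
        (((i + r).choose i : ℕ) : ℝ) • (X ^ i * bernsteinPolynomial ℝ r k) := by
      intro k hk
      have hk' : k ≤ r := Nat.lt_succ_iff.1 (Finset.mem_range.1 hk)
      have hch : (i + r).choose (i + k) * (i + k).choose i = (i + r).choose i * r.choose k := by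
        have := Nat.choose_mul (n := i + r) (k := i + k) (s := i) (by omega)
        simpa only [add_tsub_cancel_left] using this
      rw [bernsteinPolynomial, bernsteinPolynomial]
      have e1 : i + r - (i + k) = r - k := by omega
      rw [e1, smul_eq_C_mul, smul_eq_C_mul]
      have hch' : (((i + r).choose (i + k) : ℕ) : ℝ[X]) * (((i + k).choose i : ℕ) : ℝ[X]) =
          (((i + r).choose i : ℕ) : ℝ[X]) * ((r.choose k : ℕ) : ℝ[X]) := by
        exact_mod_cast congrArg (Nat.cast : ℕ → ℝ[X]) hch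
      simp only [map_natCast]
      rw [pow_add]
      linear_combination (X ^ i * X ^ k * (1 - X) ^ (r - k)) * hch'
    rw [Finset.sum_congr rfl hterm, ← Finset.smul_sum, ← Finset.mul_sum, bernsteinPolynomial.sum,
      mul_one]
  · push Not at hi
    rw [Nat.choose_eq_zero_of_lt hi]
    rw [Nat.cast_zero, zero_smul]
    apply Finset.sum_eq_zero
    intro x hx
    rw [Nat.choose_eq_zero_of_lt (by have := Finset.mem_range.1 hx; omega)]
    simp

theorem prod_sub_pow {i : ℕ} {r : ℕ → ℝ} {t e : ℝ} (ht0 : 0 ≤ t) (ht1 : t ≤ 1)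
    (hr0 : ∀ s < i, 0 ≤ r s) (hr1 : ∀ s < i, r s ≤ 1) (he : ∀ s < i, |r s - t| ≤ e) :
    |∏ s ∈ Finset.range i, r s - t ^ i| ≤ i * e := by
  induction i with
  | zero => simp
  | succ i ih =>
    have ih' := ih (fun s hs => hr0 s (by omega)) (fun s hs => hr1 s (by omega))
      (fun s hs => he s (by omega))
    rw [Finset.prod_range_succ, pow_succ]
    have h1 : (∏ s ∈ Finset.range i, r s) * r i - t ^ i * t =
        (∏ s ∈ Finset.range i, r s - t ^ i) * r i + t ^ i * (r i - t) := by ring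
    rw [h1]
    refine (abs_add_le _ _).trans ?_
    rw [abs_mul, abs_mul]
    have h2 : |r i| ≤ 1 := abs_le.2 ⟨by linarith only [hr0 i (by omega)], hr1 i (by omega)⟩
    have h3 : |t ^ i| ≤ 1 := by
      rw [abs_of_nonneg (pow_nonneg ht0 _)]; exact pow_le_one₀ ht0 ht1
    have h4 := he i (by omega)
    have h5 : 0 ≤ e := (abs_nonneg _).trans h4
    calc |∏ s ∈ Finset.range i, r s - t ^ i| * |r i| + |t ^ i| * |r i - t|
        ≤ (i * e) * 1 + 1 * e := by
          apply add_le_add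
          · exact mul_le_mul ih' h2 (abs_nonneg _) ((abs_nonneg _).trans ih')
          · exact mul_le_mul h3 h4 (abs_nonneg _) zero_le_one
      _ = ((i + 1 : ℕ) : ℝ) * e := by push_cast; ring

theorem choose_ratio {i m ν : ℕ} (him : i < m) (hν : ν ≤ m) :
    |((ν.choose i : ℕ) : ℝ) / ((m.choose i : ℕ) : ℝ) - ((ν : ℝ) / m) ^ i| ≤
      i * ((i : ℝ) / ((m : ℝ) - i)) := by
  have hm0 : (0 : ℝ) < m := by exact_mod_cast (by omega : 0 < m)
  have hmi : (0 : ℝ) < (m : ℝ) - i := by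
    have : (i : ℝ) < m := by exact_mod_cast him
    linarith only [this]
  have h1 : ((ν.choose i : ℕ) : ℝ) / ((m.choose i : ℕ) : ℝ) =
      ∏ s ∈ Finset.range i, (((ν - s : ℕ) : ℝ) / ((m - s : ℕ) : ℝ)) := by
    have hf : ((i.factorial : ℕ) : ℝ) ≠ 0 := by exact_mod_cast i.factorial_ne_zero
    have hc : ((m.choose i : ℕ) : ℝ) ≠ 0 := by
      exact_mod_cast (Nat.choose_pos (by omega : i ≤ m)).ne'
    have e1 : ((i.factorial : ℕ) : ℝ) * ((ν.choose i : ℕ) : ℝ) =
        ∏ s ∈ Finset.range i, ((ν - s : ℕ) : ℝ) := by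
      rw [← Nat.cast_mul, ← Nat.descFactorial_eq_factorial_mul_choose,
        Nat.descFactorial_eq_prod_range, Nat.cast_prod]
    have e2 : ((i.factorial : ℕ) : ℝ) * ((m.choose i : ℕ) : ℝ) =
        ∏ s ∈ Finset.range i, ((m - s : ℕ) : ℝ) := by
      rw [← Nat.cast_mul, ← Nat.descFactorial_eq_factorial_mul_choose,
        Nat.descFactorial_eq_prod_range, Nat.cast_prod]
    rw [Finset.prod_div_distrib, ← e1, ← e2]
    field_simp
  rw [h1]
  apply prod_sub_pow
  · (clear * - hm0; positivity)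
  · rw [div_le_one hm0]; exact_mod_cast hν
  · intro s hs; (clear * -; positivity)
  · intro s hs
    have : (0 : ℝ) < ((m - s : ℕ) : ℝ) := by exact_mod_cast (by omega : 0 < m - s)
    rw [div_le_one this]
    exact_mod_cast (by omega : ν - s ≤ m - s)
  · intro s hs
    have hms : (0 : ℝ) < ((m - s : ℕ) : ℝ) := by exact_mod_cast (by omega : 0 < m - s)
    have hms' : ((m - s : ℕ) : ℝ) = (m : ℝ) - s := by
      rw [Nat.cast_sub (by omega)]
    have hsi : (s : ℝ) < i := by exact_mod_cast hs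
    have hs0 : (0 : ℝ) ≤ s := Nat.cast_nonneg s
    have hνm : (ν : ℝ) ≤ m := by exact_mod_cast hν
    have hν0 : (0 : ℝ) ≤ ν := Nat.cast_nonneg ν
    have key : (s : ℝ) / ((m : ℝ) - s) ≤ (i : ℝ) / ((m : ℝ) - i) := by
      apply div_le_div₀ (by linarith only []) hsi.le hmi (by linarith only [hsi])
    rcases le_or_gt s ν with hsν | hsν
    · rw [Nat.cast_sub hsν, hms']
      have hms2 : (0 : ℝ) < (m : ℝ) - s := by linarith only [hmi, hsi]
      have e : ((ν : ℝ) - s) / ((m : ℝ) - s) - (ν : ℝ) / m =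
          -((s * ((m : ℝ) - ν)) / (m * ((m : ℝ) - s))) := by
        field_simp
        ring
      rw [e, abs_neg, abs_of_nonneg (by
        apply div_nonneg (mul_nonneg hs0 (by linarith only [hνm])) (by (clear * - hm0 hms2; positivity)))]
      refine le_trans ?_ key
      rw [div_le_div_iff₀ (by (clear * - hm0 hms2; positivity)) hms2]
      have : s * ((m : ℝ) - ν) ≤ s * m := mul_le_mul_of_nonneg_left (by linarith only []) hs0
      nlinarith only [this, hms2]
    · have : ν - s = 0 := by omega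
      rw [this, Nat.cast_zero, zero_div, zero_sub, abs_neg, abs_of_nonneg (by (clear * - hm0; positivity))]
      refine le_trans ?_ key
      have hνs : (ν : ℝ) ≤ s := by exact_mod_cast hsν.le
      apply div_le_div₀ hs0 hνs (by linarith only [hmi, hsi]) (by linarith only [])

/-! ### the approximating measures -/

/-- the point `ν / m` of `[0,1]` -/
noncomputable def pt (m ν : ℕ) : I :=
  ⟨min 1 ((ν : ℝ) / m), le_min zero_le_one (by positivity), min_le_left _ _⟩

theorem pt_val {m ν : ℕ} (h : ν ≤ m) : ((pt m ν : I) : ℝ) = (ν : ℝ) / m := by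
  show min 1 ((ν : ℝ) / m) = _
  apply min_eq_right
  rcases Nat.eq_zero_or_pos m with rfl | hm
  · simp only [CharP.cast_eq_zero, div_zero, zero_le_one]
  · rw [div_le_one (by exact_mod_cast hm)]; exact_mod_cast h

/-- atomic measure with the Bernstein weights of `L` -/
noncomputable def bmeas (L : ℝ[X] →ₗ[ℝ] ℝ) (m : ℕ) : Measure I :=
  ∑ ν ∈ Finset.range (m + 1), ENNReal.ofReal (L (bernsteinPolynomial ℝ m ν)) •
    Measure.dirac (pt m ν)

instance (L : ℝ[X] →ₗ[ℝ] ℝ) (m : ℕ) : IsFiniteMeasure (bmeas L m) := by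
  unfold bmeas
  constructor
  rw [Measure.finsetSum_apply]
  simp only [Measure.smul_apply, measure_univ, smul_eq_mul, mul_one]
  exact ENNReal.sum_lt_top.2 (fun _ _ => ENNReal.ofReal_lt_top)

theorem PosL.bmeas_univ (h : PosL L) (m : ℕ) : bmeas L m Set.univ = ENNReal.ofReal (L 1) := by
  unfold bmeas
  rw [Measure.finsetSum_apply]
  simp only [Measure.smul_apply, measure_univ, smul_eq_mul, mul_one]
  rw [← ENNReal.ofReal_sum_of_nonneg (fun ν _ => h.bernstein m ν), ← map_sum,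
    bernsteinPolynomial.sum]

theorem PosL.bmeas_integral (h : PosL L) (m : ℕ) (f : C(I, ℝ)) :
    ∫ x, f x ∂(bmeas L m) =
      ∑ ν ∈ Finset.range (m + 1), L (bernsteinPolynomial ℝ m ν) * f (pt m ν) := by
  unfold bmeas
  rw [integral_finsetSum_measure]
  · apply Finset.sum_congr rfl
    intro ν _
    rw [integral_smul_measure, integral_dirac, ENNReal.toReal_ofReal (h.bernstein m ν), smul_eq_mul]
  · intro ν _
    apply Integrable.smul_measure _ ENNReal.ofReal_ne_top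
    exact integrable_dirac (by simp only [enorm_lt_top])

theorem PosL.moment_tendsto (h : PosL L) (i : ℕ) :
    Tendsto (fun m : ℕ => ∑ ν ∈ Finset.range (m + 1),
      L (bernsteinPolynomial ℝ m ν) * ((pt m ν : I) : ℝ) ^ i) atTop (𝓝 (L (X ^ i))) := by
  have hL1 : 0 ≤ L 1 := by simpa only [mul_one] using h.even 1
  have hbound : ∀ m : ℕ, i < m → |∑ ν ∈ Finset.range (m + 1),
      L (bernsteinPolynomial ℝ m ν) * ((pt m ν : I) : ℝ) ^ i - L (X ^ i)| ≤
      L 1 * (i * ((i : ℝ) / ((m : ℝ) - i))) := by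
    intro m hm
    have hc : ((m.choose i : ℕ) : ℝ) ≠ 0 := by
      exact_mod_cast (Nat.choose_pos hm.le).ne'
    have h1 : L (X ^ i) = ∑ ν ∈ Finset.range (m + 1),
        L (bernsteinPolynomial ℝ m ν) * (((ν.choose i : ℕ) : ℝ) / ((m.choose i : ℕ) : ℝ)) := by
      have := congrArg L (bernstein_choose m i)
      rw [map_sum, map_smul, smul_eq_mul] at this
      rw [← mul_right_inj' hc, ← this, Finset.mul_sum]
      apply Finset.sum_congr rfl
      intro ν _
      rw [map_smul, smul_eq_mul]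
      field_simp
    rw [h1, ← Finset.sum_sub_distrib]
    refine (Finset.abs_sum_le_sum_abs _ _).trans ?_
    have h2 : ∀ ν ∈ Finset.range (m + 1), |L (bernsteinPolynomial ℝ m ν) *
        ((pt m ν : I) : ℝ) ^ i - L (bernsteinPolynomial ℝ m ν) *
        (((ν.choose i : ℕ) : ℝ) / ((m.choose i : ℕ) : ℝ))| ≤
        L (bernsteinPolynomial ℝ m ν) * (i * ((i : ℝ) / ((m : ℝ) - i))) := by
      intro ν hν
      have hν' : ν ≤ m := Nat.lt_succ_iff.1 (Finset.mem_range.1 hν)
      rw [← mul_sub, abs_mul, abs_of_nonneg (h.bernstein m ν), pt_val hν', abs_sub_comm]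
      exact mul_le_mul_of_nonneg_left (choose_ratio hm hν') (h.bernstein m ν)
    refine (Finset.sum_le_sum h2).trans ?_
    rw [← Finset.sum_mul, ← map_sum, bernsteinPolynomial.sum]
  rw [tendsto_iff_norm_sub_tendsto_zero]
  have hlim : Tendsto (fun m : ℕ => L 1 * (i * ((i : ℝ) / ((m : ℝ) - i)))) atTop (𝓝 0) := by
    have h1 : Tendsto (fun m : ℕ => (m : ℝ) - i) atTop atTop :=
      tendsto_atTop_add_const_right _ _ tendsto_natCast_atTop_atTop
    have h2 := (h1.const_div_atTop (i : ℝ)).const_mul (i : ℝ)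
    have h3 := h2.const_mul (L 1)
    simpa only [mul_zero] using h3
  refine squeeze_zero' (Eventually.of_forall fun _ => norm_nonneg _) ?_ hlim
  filter_upwards [eventually_gt_atTop i] with m hm
  exact hbound m hm

/-- monomial as a continuous function on `[0,1]` -/
noncomputable def monoI (i : ℕ) : C(I, ℝ) := ⟨fun x => (x : ℝ) ^ i, by fun_prop⟩

/-- **Hausdorff moment theorem**, functional form. -/
theorem PosL.exists_measure (h : PosL L) : ∃ μ : FiniteMeasure I,
    ∀ i : ℕ, ∫ x : I, (x : ℝ) ^ i ∂(μ : Measure I) = L (X ^ i) := by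
  have hL1 : 0 ≤ L 1 := by simpa only [mul_one] using h.even 1
  obtain ⟨ν, -, hν⟩ := exists_limit (E := I) (fun m => ⟨bmeas L m, inferInstance⟩)
    (Real.toNNReal (L 1)) (fun m => by
      show ((bmeas L m) Set.univ).toNNReal = _
      rw [h.bmeas_univ]; rfl)
  refine ⟨ν, fun i => ?_⟩
  have := hν (monoI i) (L (X ^ i)) (by
    have h1 := h.moment_tendsto i
    refine h1.congr (fun m => ?_)
    exact (h.bmeas_integral m (monoI i)).symm)
  exact this

/-- the functional of a real sequence -/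
noncomputable def Lf (c : ℕ → ℝ) : ℝ[X] →ₗ[ℝ] ℝ :=
  Polynomial.lsum fun n => c n • (LinearMap.id : ℝ →ₗ[ℝ] ℝ)

theorem Lf_apply (c : ℕ → ℝ) (p : ℝ[X]) : Lf c p = p.sum fun n a => c n * a := by
  simp only [Lf, lsum_apply, LinearMap.smul_apply, LinearMap.id_coe, id_eq, smul_eq_mul]

theorem Lf_monomial (c : ℕ → ℝ) (n : ℕ) (a : ℝ) : Lf c (monomial n a) = c n * a := by
  rw [Lf_apply, Polynomial.sum_monomial_index]
  simp

theorem Lf_X_pow (c : ℕ → ℝ) (n : ℕ) : Lf c (X ^ n) = c n := by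
  rw [X_pow_eq_monomial, Lf_monomial, mul_one]

theorem Lf_mul (c : ℕ → ℝ) (k : ℕ) (p q : ℝ[X]) :
    Lf c (X ^ k * (p * q)) = ∑ i ∈ p.support, ∑ j ∈ q.support,
      p.coeff i * q.coeff j * c (i + j + k) := by
  conv_lhs => rw [p.as_sum_support, q.as_sum_support]
  rw [Finset.sum_mul_sum, Finset.mul_sum, map_sum]
  apply Finset.sum_congr rfl
  intro i _
  rw [Finset.mul_sum, map_sum]
  apply Finset.sum_congr rfl
  intro j _
  rw [monomial_mul_monomial, X_pow_eq_monomial, monomial_mul_monomial, Lf_monomial]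
  rw [show k + (i + j) = i + j + k by ring]
  ring

/-- **Hausdorff moment theorem** for a bounded sequence with both Hankel forms `≥ 0`. -/
theorem hausdorff (c : ℕ → ℝ) (C : ℝ) (hb : ∀ n, |c n| ≤ C)
    (h0 : ∀ (s : Finset ℕ) (a : ℕ → ℝ), 0 ≤ ∑ i ∈ s, ∑ j ∈ s, a i * a j * c (i + j))
    (h1 : ∀ (s : Finset ℕ) (a : ℕ → ℝ), 0 ≤ ∑ i ∈ s, ∑ j ∈ s, a i * a j * c (i + j + 1)) :
    ∃ μ : FiniteMeasure I, ∀ i : ℕ, ∫ x : I, (x : ℝ) ^ i ∂(μ : Measure I) = c i := by
  have h : PosL (Lf c) := by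
    refine ⟨fun q => ?_, fun q => ?_, ⟨C, fun n => ?_⟩⟩
    · have := Lf_mul c 0 q q
      rw [pow_zero, one_mul] at this
      rw [this]
      exact h0 _ _
    · have := Lf_mul c 1 q q
      rw [pow_one] at this
      rw [this]
      exact h1 _ _
    · rw [Lf_X_pow]; exact hb n
  obtain ⟨μ, hμ⟩ := h.exists_measure
  exact ⟨μ, fun i => by rw [hμ, Lf_X_pow]⟩

end Vale.Agent.P153.RP
end

section

/-!
# Joint spectral representation from reflection positivity

`joint`: a bounded real function `c x j` (`x ∈ ℤ^ι`, `j ∈ ℕ`), even in `x`, positive definite in `x`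
and with both Hankel forms in `j`, is `∫ cos (k·x) τ^j dν(k, τ)` for a finite measure `ν` on
`[-π,π]^ι × [0,1]`.
-/

open MeasureTheory Filter Topology
open scoped NNReal unitInterval

namespace Vale.Agent.P153.RP

variable {ι : Type*} [Fintype ι] [DecidableEq ι]

/-- `k · x` -/
noncomputable def dotk (k : ι → ℝ) (x : ι → ℤ) : ℝ := ∑ i, k i * x i

omit [DecidableEq ι] in
theorem dotk_sub (k : ι → ℝ) (x y : ι → ℤ) : dotk k (x - y) = dotk k x - dotk k y := by
  simp only [dotk, Pi.sub_apply, Int.cast_sub, mul_sub, Finset.sum_sub_distrib]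

omit [DecidableEq ι] in
theorem dotk_add (k : ι → ℝ) (x y : ι → ℤ) : dotk k (x + y) = dotk k x + dotk k y := by
  simp only [dotk, Pi.add_apply, Int.cast_add, mul_add, Finset.sum_add_distrib]

/-- grid momenta -/
noncomputable def kk {K : ℕ} (g : ZMod K) : ℝ := 2 * Real.pi * (g.valMinAbs : ℝ) / K

theorem abs_kk_le {K : ℕ} [NeZero K] (g : ZMod K) : |kk g| ≤ Real.pi := by
  have hK : (0 : ℝ) < K := by exact_mod_cast Nat.pos_of_ne_zero (NeZero.ne K)
  have h := ZMod.natAbs_valMinAbs_le g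
  have h2 : (|(g.valMinAbs : ℝ)|) ≤ (K : ℝ) / 2 := by
    have h3 : ((g.valMinAbs.natAbs : ℕ) : ℝ) ≤ ((K / 2 : ℕ) : ℝ) := by exact_mod_cast h
    have h4 : ((K / 2 : ℕ) : ℝ) ≤ (K : ℝ) / 2 := Nat.cast_div_le
    rw [Nat.cast_natAbs, Int.cast_abs] at h3
    exact h3.trans h4
  rw [kk, abs_div, abs_mul, abs_of_pos hK, abs_of_pos (by positivity : (0 : ℝ) < 2 * Real.pi)]
  rw [div_le_iff₀ hK]
  (clear * - h2; nlinarith [Real.pi_pos])

theorem stdAddChar_kk {K : ℕ} [NeZero K] (g : ZMod K) (t : ℤ) :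
    ZMod.stdAddChar (g * (t : ZMod K)) = Complex.exp (((kk g * t : ℝ) : ℂ) * Complex.I) := by
  have h : g * (t : ZMod K) = ((g.valMinAbs * t : ℤ) : ZMod K) := by
    rw [Int.cast_mul, ZMod.coe_valMinAbs]
  rw [h, ZMod.stdAddChar_coe]
  congr 1
  rw [kk]
  push_cast
  ring

/-- the character sum factors -/
theorem sum_exp (K : ℕ) [NeZero K] (t : ι → ℤ) :
    ∑ g : ι → ZMod K, Complex.exp (((dotk (fun i => kk (g i)) t : ℝ) : ℂ) * Complex.I) =
      if ∀ i, (K : ℤ) ∣ t i then ((K : ℂ)) ^ Fintype.card ι else 0 := by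
  have h1 : ∀ g : ι → ZMod K,
      Complex.exp (((dotk (fun i => kk (g i)) t : ℝ) : ℂ) * Complex.I) =
        ∏ i, ZMod.stdAddChar (g i * (t i : ZMod K)) := by
    intro g
    simp_rw [stdAddChar_kk]
    rw [← Complex.exp_sum]
    congr 1
    rw [dotk, Complex.ofReal_sum, Finset.sum_mul]
  simp_rw [h1]
  have h2 := Finset.prod_univ_sum (fun _ : ι => (Finset.univ : Finset (ZMod K)))
    (fun i (a : ZMod K) => (ZMod.stdAddChar (a * (t i : ZMod K)) : ℂ))
  rw [Fintype.piFinset_univ] at h2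
  rw [← h2]
  have h3 : ∀ i, ∑ a : ZMod K, (ZMod.stdAddChar (a * (t i : ZMod K)) : ℂ) =
      if (K : ℤ) ∣ t i then (K : ℂ) else 0 := by
    intro i
    have := AddChar.sum_mulShift (R := ZMod K) (t i : ZMod K)
      (ZMod.isPrimitive_stdAddChar K)
    rw [this]
    simp only [ZMod.intCast_zmod_eq_zero_iff_dvd, ZMod.card]
    split_ifs <;> simp
  simp_rw [h3]
  by_cases h : ∀ i, (K : ℤ) ∣ t i
  · rw [if_pos h]
    rw [Finset.prod_congr rfl (fun i _ => if_pos (h i))]
    simp only [Finset.prod_const, Finset.card_univ]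
  · rw [if_neg h]
    push Not at h
    obtain ⟨i, hi⟩ := h
    exact Finset.prod_eq_zero (Finset.mem_univ i) (if_neg hi)

theorem sum_cos (K : ℕ) [NeZero K] (t : ι → ℤ) :
    ∑ g : ι → ZMod K, Real.cos (dotk (fun i => kk (g i)) t) =
      if ∀ i, (K : ℤ) ∣ t i then ((K : ℝ)) ^ Fintype.card ι else 0 := by
  have h := congrArg Complex.re (sum_exp K t)
  rw [Complex.re_sum] at h
  simp_rw [Complex.exp_ofReal_mul_I_re] at h
  rw [h]
  split_ifs
  · rw [← Complex.ofReal_natCast, ← Complex.ofReal_pow, Complex.ofReal_re]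
  · simp

/-- the box `[0,N)^ι` -/
noncomputable def box (ι : Type*) [Fintype ι] [DecidableEq ι] (N : ℕ) : Finset (ι → ℤ) :=
  Fintype.piFinset fun _ => Finset.Ico (0 : ℤ) N

theorem mem_box {N : ℕ} {x : ι → ℤ} : x ∈ box ι N ↔ ∀ i, 0 ≤ x i ∧ x i < N := by
  simp only [box, Fintype.mem_piFinset, Finset.mem_Ico]

/-- number of pairs in the box with prescribed difference, normalised -/
noncomputable def fej (N : ℕ) (x : ι → ℤ) : ℝ :=
  ((N : ℝ) ^ Fintype.card ι)⁻¹ * ∑ u ∈ box ι N, ∑ v ∈ box ι N, if u - v = x then (1 : ℝ) else 0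

theorem one_dim_count (N : ℕ) (t : ℤ) (ht : |t| ≤ N) :
    ∑ a ∈ Finset.Ico (0 : ℤ) N, ∑ b ∈ Finset.Ico (0 : ℤ) N, (if a - b = t then (1 : ℝ) else 0) =
      N - |(t : ℝ)| := by
  have h1 : ∀ a ∈ Finset.Ico (0 : ℤ) N,
      ∑ b ∈ Finset.Ico (0 : ℤ) N, (if a - b = t then (1 : ℝ) else 0) =
        if a ∈ Finset.Ico (max 0 t) (min (N : ℤ) (N + t)) then 1 else 0 := by
    intro a ha
    rw [Finset.mem_Ico] at ha
    have : ∀ b : ℤ, (a - b = t) ↔ (a - t = b) := fun b => by constructor <;> intro h <;> linarith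
    simp_rw [this]
    rw [Finset.sum_ite_eq]
    simp only [Finset.mem_Ico]
    congr 1
    apply propext
    constructor
    · rintro ⟨h1, h2⟩
      exact ⟨by omega, by omega⟩
    · rintro ⟨h1, h2⟩
      exact ⟨by omega, by omega⟩
  rw [Finset.sum_congr rfl h1, ← Finset.sum_filter]
  have h2 : Finset.filter (fun a => a ∈ Finset.Ico (max 0 t) (min (N : ℤ) (N + t)))
      (Finset.Ico (0 : ℤ) N) = Finset.Ico (max 0 t) (min (N : ℤ) (N + t)) := by
    ext a
    simp only [Finset.mem_filter, Finset.mem_Ico]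
    constructor
    · rintro ⟨_, h⟩; exact h
    · intro h; exact ⟨⟨by omega, by omega⟩, h⟩
  rw [h2, Finset.sum_const, Int.card_Ico, nsmul_eq_mul, mul_one]
  have h3 : (((min (N : ℤ) (N + t) - max 0 t).toNat : ℕ) : ℤ) = N - |t| := by
    rw [Int.toNat_of_nonneg]
    · rcases le_or_gt 0 t with h | h
      · rw [abs_of_nonneg h]; omega
      · rw [abs_of_neg h]; omega
    · rcases le_or_gt 0 t with h | h
      · rw [abs_of_nonneg h] at ht; omega
      · rw [abs_of_neg h] at ht; omega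
  have h4 : (((min (N : ℤ) (N + t) - max 0 t).toNat : ℕ) : ℝ) = ((N - |t| : ℤ) : ℝ) := by
    exact_mod_cast h3
  rw [h4]
  push_cast
  ring

theorem fej_eq (N : ℕ) (x : ι → ℤ) (hx : ∀ i, |x i| ≤ N) (hN : 0 < N) :
    fej N x = ∏ i, (1 - |(x i : ℝ)| / N) := by
  have hN' : (0 : ℝ) < N := by exact_mod_cast hN
  have h1 : ∑ u ∈ box ι N, ∑ v ∈ box ι N, (if u - v = x then (1 : ℝ) else 0) =
      ∏ i, ∑ a ∈ Finset.Ico (0 : ℤ) N, ∑ b ∈ Finset.Ico (0 : ℤ) N,
        (if a - b = x i then (1 : ℝ) else 0) := by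
    rw [Finset.prod_univ_sum]
    apply Finset.sum_congr rfl
    intro u _
    rw [Finset.prod_univ_sum]
    apply Finset.sum_congr rfl
    intro v _
    by_cases h : u - v = x
    · rw [if_pos h]
      rw [Finset.prod_eq_one]
      intro i _
      rw [if_pos]
      rw [← h]; rfl
    · rw [if_neg h]
      have : ∃ i, u i - v i ≠ x i := by
        by_contra hc
        push Not at hc
        exact h (funext hc)
      obtain ⟨i, hi⟩ := this
      rw [Finset.prod_eq_zero (Finset.mem_univ i)]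
      rw [if_neg hi]
  rw [fej, h1, Finset.prod_congr rfl (fun i _ => one_dim_count N (x i) (hx i))]
  rw [← Finset.card_univ, ← Finset.prod_const, ← Finset.prod_inv_distrib, ← Finset.prod_mul_distrib]
  apply Finset.prod_congr rfl
  intro i _
  field_simp

theorem fej_tendsto (x : ι → ℤ) : Tendsto (fun N => fej N x) atTop (𝓝 1) := by
  have h1 : Tendsto (fun N : ℕ => ∏ i, (1 - |(x i : ℝ)| / (N : ℝ))) atTop (𝓝 (∏ _i : ι, (1 : ℝ))) := by
    apply tendsto_finsetProd
    intro i _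
    have : Tendsto (fun N : ℕ => |(x i : ℝ)| / (N : ℝ)) atTop (𝓝 0) :=
      tendsto_const_div_atTop_nhds_zero_nat _
    simpa only [sub_zero] using (tendsto_const_nhds (x := (1 : ℝ))).sub this
  rw [Finset.prod_const_one] at h1
  refine h1.congr' ?_
  have hfin : ∀ i, ∀ᶠ N : ℕ in atTop, |x i| ≤ (N : ℤ) := by
    intro i
    filter_upwards [eventually_ge_atTop (|x i|).toNat] with N hN
    have : |x i| = (((|x i|).toNat : ℕ) : ℤ) := by
      rw [Int.toNat_of_nonneg (abs_nonneg _)]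
    rw [this]
    exact_mod_cast hN
  filter_upwards [eventually_all.2 hfin, eventually_gt_atTop 0] with N hN hN0
  exact (fej_eq N x hN hN0).symm

/-! ### the theorem -/

/-- hypotheses: even, bounded, positive definite with both Hankel forms -/
structure RPPos (c : (ι → ℤ) → ℕ → ℝ) : Prop where
  even : ∀ x j, c (-x) j = c x j
  bdd : ∃ C, ∀ x j, |c x j| ≤ C
  h0 : ∀ (s : Finset ((ι → ℤ) × ℕ)) (a : (ι → ℤ) × ℕ → ℝ),
    0 ≤ ∑ p ∈ s, ∑ q ∈ s, a p * a q * c (p.1 - q.1) (p.2 + q.2)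
  h1 : ∀ (s : Finset ((ι → ℤ) × ℕ)) (a : (ι → ℤ) × ℕ → ℝ),
    0 ≤ ∑ p ∈ s, ∑ q ∈ s, a p * a q * c (p.1 - q.1) (p.2 + q.2 + 1)

/-- Fejér average of `c · j` at momentum `k` -/
noncomputable def cN (c : (ι → ℤ) → ℕ → ℝ) (N : ℕ) (k : ι → ℝ) (j : ℕ) : ℝ :=
  ((N : ℝ) ^ Fintype.card ι)⁻¹ *
    ∑ u ∈ box ι N, ∑ v ∈ box ι N, c (u - v) j * Real.cos (dotk k (u - v))

variable {c : (ι → ℤ) → ℕ → ℝ}

theorem hankel_aux (N : ℕ) (k : ι → ℝ) (e : ℕ)
    (h : ∀ (s : Finset ((ι → ℤ) × ℕ)) (a : (ι → ℤ) × ℕ → ℝ),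
      0 ≤ ∑ p ∈ s, ∑ q ∈ s, a p * a q * c (p.1 - q.1) (p.2 + q.2 + e))
    (s : Finset ℕ) (b : ℕ → ℝ) :
    0 ≤ ∑ i ∈ s, ∑ j ∈ s, b i * b j * cN c N k (i + j + e) := by
  have hA := h (box ι N ×ˢ s) (fun p => b p.2 * Real.cos (dotk k p.1))
  have hB := h (box ι N ×ˢ s) (fun p => b p.2 * Real.sin (dotk k p.1))
  have key : ∑ i ∈ s, ∑ j ∈ s, b i * b j * cN c N k (i + j + e) =
      ((N : ℝ) ^ Fintype.card ι)⁻¹ *
      (∑ p ∈ box ι N ×ˢ s, ∑ q ∈ box ι N ×ˢ s, (b p.2 * Real.cos (dotk k p.1)) *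
        (b q.2 * Real.cos (dotk k q.1)) * c (p.1 - q.1) (p.2 + q.2 + e) +
      ∑ p ∈ box ι N ×ˢ s, ∑ q ∈ box ι N ×ˢ s, (b p.2 * Real.sin (dotk k p.1)) *
        (b q.2 * Real.sin (dotk k q.1)) * c (p.1 - q.1) (p.2 + q.2 + e)) := by
    rw [← Finset.sum_add_distrib]
    simp_rw [← Finset.sum_add_distrib]
    rw [Finset.sum_product_right]
    rw [Finset.mul_sum]
    apply Finset.sum_congr rfl
    intro i _
    simp_rw [Finset.sum_product_right]
    rw [Finset.sum_comm, Finset.mul_sum]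
    apply Finset.sum_congr rfl
    intro j _
    rw [cN, ← mul_assoc, mul_comm (b i * b j), mul_assoc, Finset.mul_sum]
    congr 1
    apply Finset.sum_congr rfl
    intro u _
    rw [Finset.mul_sum]
    apply Finset.sum_congr rfl
    intro v _
    rw [dotk_sub, Real.cos_sub]
    ring
  rw [key]
  exact mul_nonneg (by (clear * -; positivity)) (add_nonneg hA hB)

theorem RPPos.exists_m (h : RPPos c) (N : ℕ) (k : ι → ℝ) : ∃ μ : FiniteMeasure I,
    ∀ j : ℕ, ∫ x : I, (x : ℝ) ^ j ∂(μ : Measure I) = cN c N k j := by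
  obtain ⟨C, hC⟩ := h.bdd
  apply hausdorff (cN c N k)
    (((N : ℝ) ^ Fintype.card ι)⁻¹ * ∑ u ∈ box ι N, ∑ v ∈ box ι N, C)
  · intro j
    rw [cN, abs_mul, abs_of_nonneg (by positivity : (0 : ℝ) ≤ ((N : ℝ) ^ Fintype.card ι)⁻¹)]
    apply mul_le_mul_of_nonneg_left _ (by positivity)
    refine (Finset.abs_sum_le_sum_abs _ _).trans (Finset.sum_le_sum fun u _ => ?_)
    refine (Finset.abs_sum_le_sum_abs _ _).trans (Finset.sum_le_sum fun v _ => ?_)
    rw [abs_mul]
    calc |c (u - v) j| * |Real.cos (dotk k (u - v))| ≤ C * 1 :=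
          mul_le_mul (hC _ _) (Real.abs_cos_le_one _) (abs_nonneg _)
            ((abs_nonneg _).trans (hC (u - v) j))
      _ = C := mul_one C
  · intro s b
    exact hankel_aux N k 0 h.h0 s b
  · intro s b
    exact hankel_aux N k 1 h.h1 s b

/-- the interval `[-π, π]` -/
abbrev KI : Set ℝ := Set.Icc (-Real.pi) Real.pi

/-- grid point as an element of the compact box -/
noncomputable def gpt {K : ℕ} [NeZero K] (g : ι → ZMod K) : ι → KI :=
  fun i => ⟨kk (g i), abs_le.1 (abs_kk_le (g i))⟩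

/-- approximating measure -/
noncomputable def muN (h : RPPos c) (N : ℕ) : Measure ((ι → KI) × I) :=
  ∑ g : ι → ZMod (2 * (N + 1)),
    ENNReal.ofReal ((((2 * (N + 1) : ℕ) : ℝ) ^ Fintype.card ι)⁻¹) •
      Measure.map (fun τ : I => ((gpt g : ι → KI), τ))
        ((h.exists_m (N + 1) (fun i => kk (g i))).choose : Measure I)

instance (h : RPPos c) (N : ℕ) : IsFiniteMeasure (muN h N) := by
  unfold muN
  constructor
  rw [Measure.finsetSum_apply]
  simp only [Measure.smul_apply, smul_eq_mul]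
  refine ENNReal.sum_lt_top.2 (fun g _ => ENNReal.mul_lt_top ENNReal.ofReal_lt_top ?_)
  exact measure_lt_top _ _

theorem muN_integral (h : RPPos c) (N : ℕ) (f : C((ι → KI) × I, ℝ)) :
    ∫ p, f p ∂(muN h N) = (((2 * (N + 1) : ℕ) : ℝ) ^ Fintype.card ι)⁻¹ *
      ∑ g : ι → ZMod (2 * (N + 1)),
        ∫ τ : I, f (gpt g, τ) ∂((h.exists_m (N + 1) (fun i => kk (g i))).choose : Measure I) := by
  unfold muN
  rw [integral_finsetSum_measure]
  · rw [Finset.mul_sum]
    apply Finset.sum_congr rfl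
    intro g _
    rw [integral_smul_measure, ENNReal.toReal_ofReal (by positivity), smul_eq_mul]
    congr 1
    rw [integral_map]
    · exact (by fun_prop : Measurable fun τ : I => ((gpt g : ι → KI), τ)).aemeasurable
    · exact f.continuous.aestronglyMeasurable
  · intro g _
    apply Integrable.smul_measure _ ENNReal.ofReal_ne_top
    refine Integrable.of_bound (C := ‖f‖) f.continuous.aestronglyMeasurable ?_
    exact Eventually.of_forall fun p => f.norm_coe_le_norm p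

/-- test function `cos (k·x) τ^j` -/
noncomputable def testF (x : ι → ℤ) (j : ℕ) : C((ι → KI) × I, ℝ) :=
  ⟨fun p => Real.cos (dotk (fun i => (p.1 i : ℝ)) x) * (p.2 : ℝ) ^ j, by
    unfold dotk; fun_prop⟩

theorem grid_id (h : RPPos c) (N : ℕ) (x : ι → ℤ) (j : ℕ) (hx : ∀ i, |x i| < (N + 1 : ℤ)) :
    (((2 * (N + 1) : ℕ) : ℝ) ^ Fintype.card ι)⁻¹ *
      ∑ g : ι → ZMod (2 * (N + 1)), Real.cos (dotk (fun i => kk (g i)) x) *
        cN c (N + 1) (fun i => kk (g i)) j = fej (N + 1) x * c x j := by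
  set K : ℕ := 2 * (N + 1) with hK
  have hKpos : (0 : ℝ) < (K : ℝ) ^ Fintype.card ι := by
    have : (0 : ℝ) < K := by rw [hK]; positivity
    positivity
  have h1 : ∑ g : ι → ZMod K, Real.cos (dotk (fun i => kk (g i)) x) *
        cN c (N + 1) (fun i => kk (g i)) j =
      (((N + 1 : ℕ) : ℝ) ^ Fintype.card ι)⁻¹ *
        ∑ u ∈ box ι (N + 1), ∑ v ∈ box ι (N + 1), c (u - v) j *
          ((∑ g : ι → ZMod K, Real.cos (dotk (fun i => kk (g i)) (u - v + x)) +
            ∑ g : ι → ZMod K, Real.cos (dotk (fun i => kk (g i)) (u - v - x))) / 2) := by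
    have : ∀ g : ι → ZMod K, Real.cos (dotk (fun i => kk (g i)) x) *
        cN c (N + 1) (fun i => kk (g i)) j = (((N + 1 : ℕ) : ℝ) ^ Fintype.card ι)⁻¹ *
        ∑ u ∈ box ι (N + 1), ∑ v ∈ box ι (N + 1), c (u - v) j *
          ((Real.cos (dotk (fun i => kk (g i)) (u - v + x)) +
            Real.cos (dotk (fun i => kk (g i)) (u - v - x))) / 2) := by
      intro g
      rw [cN, mul_left_comm, Finset.mul_sum]
      congr 1
      apply Finset.sum_congr rfl
      intro u _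
      rw [Finset.mul_sum]
      apply Finset.sum_congr rfl
      intro v _
      rw [dotk_add, dotk_sub _ (u - v) x, Real.cos_add, Real.cos_sub]
      ring
    rw [Finset.sum_congr rfl (fun g _ => this g), ← Finset.mul_sum, Finset.sum_comm]
    congr 1
    apply Finset.sum_congr rfl
    intro u _
    rw [Finset.sum_comm]
    apply Finset.sum_congr rfl
    intro v _
    rw [← Finset.mul_sum, ← Finset.sum_div, Finset.sum_add_distrib]
  rw [h1]
  have h2 : ∀ u ∈ box ι (N + 1), ∀ v ∈ box ι (N + 1), c (u - v) j *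
          ((∑ g : ι → ZMod K, Real.cos (dotk (fun i => kk (g i)) (u - v + x)) +
            ∑ g : ι → ZMod K, Real.cos (dotk (fun i => kk (g i)) (u - v - x))) / 2) =
        (K : ℝ) ^ Fintype.card ι * (c x j *
          (((if v - u = x then (1 : ℝ) else 0) + (if u - v = x then (1 : ℝ) else 0)) / 2)) := by
    intro u hu v hv
    rw [mem_box] at hu hv
    have hdiv : ∀ w : ι → ℤ, (∀ i, |w i| < (K : ℤ)) → ((∀ i, (K : ℤ) ∣ w i) ↔ w = 0) := by
      intro w hw
      constructor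
      · intro hd
        funext i
        exact Int.eq_zero_of_abs_lt_dvd (hd i) (hw i)
      · rintro rfl i
        exact dvd_zero _
    have hw1 : ∀ i, |(u - v + x) i| < (K : ℤ) := by
      intro i
      have := hu i; have := hv i; have := hx i
      rw [abs_lt] at *
      simp only [Pi.add_apply, Pi.sub_apply, hK]
      push_cast at *
      constructor <;> linarith
    have hw2 : ∀ i, |(u - v - x) i| < (K : ℤ) := by
      intro i
      have := hu i; have := hv i; have := hx i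
      rw [abs_lt] at *
      simp only [Pi.sub_apply, hK]
      push_cast at *
      constructor <;> linarith
    rw [sum_cos, sum_cos]
    have e1 : (∀ i, (K : ℤ) ∣ (u - v + x) i) ↔ v - u = x := by
      rw [hdiv _ hw1]
      constructor
      · intro h; rw [← sub_eq_zero]; rw [← neg_eq_zero]; rw [← h]; abel
      · rintro rfl; abel
    have e2 : (∀ i, (K : ℤ) ∣ (u - v - x) i) ↔ u - v = x := by
      rw [hdiv _ hw2, sub_eq_zero]
    simp only [e1, e2]
    by_cases c1 : v - u = x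
    · by_cases c2 : u - v = x
      · rw [if_pos c1, if_pos c1, if_pos c2, if_pos c2, c2]; ring
      · rw [if_pos c1, if_pos c1, if_neg c2, if_neg c2]
        have : u - v = -x := by rw [← c1]; abel
        rw [this, h.even]; ring
    · by_cases c2 : u - v = x
      · rw [if_neg c1, if_neg c1, if_pos c2, if_pos c2, c2]; ring
      · rw [if_neg c1, if_neg c1, if_neg c2, if_neg c2]; ring
  rw [Finset.sum_congr rfl (fun u hu => Finset.sum_congr rfl (fun v hv => h2 u hu v hv))]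
  simp_rw [← Finset.mul_sum]
  have h3 : ∑ u ∈ box ι (N + 1), ∑ v ∈ box ι (N + 1),
      ((if v - u = x then (1 : ℝ) else 0) + (if u - v = x then (1 : ℝ) else 0)) / 2 =
      ∑ u ∈ box ι (N + 1), ∑ v ∈ box ι (N + 1), (if u - v = x then (1 : ℝ) else 0) := by
    simp_rw [← Finset.sum_div, Finset.sum_add_distrib]
    rw [Finset.sum_comm (f := fun u v => if v - u = x then (1 : ℝ) else 0)]
    ring
  rw [h3, fej, ← mul_assoc, ← mul_assoc, ← mul_assoc]
  have hne : (K : ℝ) ^ Fintype.card ι ≠ 0 := hKpos.ne'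
  have hcancel : ((K : ℝ) ^ Fintype.card ι)⁻¹ * (((N + 1 : ℕ) : ℝ) ^ Fintype.card ι)⁻¹ *
      (K : ℝ) ^ Fintype.card ι = (((N + 1 : ℕ) : ℝ) ^ Fintype.card ι)⁻¹ := by
    rw [mul_comm, ← mul_assoc, mul_inv_cancel₀ hne, one_mul]
  rw [hcancel]
  ring

/-- **Joint spectral representation.** -/
theorem joint (h : RPPos c) : ∃ ν : FiniteMeasure ((ι → KI) × I),
    ∀ x j, ∫ p : (ι → KI) × I, Real.cos (dotk (fun i => (p.1 i : ℝ)) x) * (p.2 : ℝ) ^ j
      ∂(ν : Measure ((ι → KI) × I)) = c x j := by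
  have hval : ∀ (N : ℕ) (x : ι → ℤ) (j : ℕ), (∀ i, |x i| < (N + 1 : ℤ)) →
      ∫ p, testF x j p ∂(muN h N) = fej (N + 1) x * c x j := by
    intro N x j hx
    rw [muN_integral, ← grid_id h N x j hx]
    congr 1
    apply Finset.sum_congr rfl
    intro g _
    have := (h.exists_m (N + 1) (fun i => kk (g i))).choose_spec j
    rw [← this, ← integral_const_mul]
    rfl
  have hfej0 : ∀ N : ℕ, fej (N + 1) (0 : ι → ℤ) = 1 := by
    intro N
    rw [fej_eq _ _ (by intro i; simp only [Pi.zero_apply, abs_zero, Nat.cast_add, Nat.cast_one]; positivity) (by omega)]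
    simp only [Pi.zero_apply, Int.cast_zero, abs_zero, Nat.cast_add, Nat.cast_one, zero_div, sub_zero, Finset.prod_const_one]
  have hmass : ∀ N, (muN h N) Set.univ = ENNReal.ofReal (c 0 0) := by
    intro N
    have h1 := hval N 0 0 (by intro i; simp only [Pi.zero_apply, abs_zero]; positivity)
    rw [hfej0, one_mul] at h1
    have h2 : ∀ p : (ι → KI) × I, testF (0 : ι → ℤ) 0 p = 1 := by
      intro p
      show Real.cos (dotk _ 0) * _ ^ 0 = 1
      simp only [dotk, Pi.zero_apply, Int.cast_zero, mul_zero, Finset.sum_const_zero, Real.cos_zero, pow_zero, mul_one]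
    rw [integral_congr_ae (Eventually.of_forall h2), integral_const, smul_eq_mul, mul_one] at h1
    rw [← h1, Measure.real, ENNReal.ofReal_toReal (measure_ne_top _ _)]
  obtain ⟨ν, -, hν⟩ := exists_limit (E := (ι → KI) × I) (fun N => ⟨muN h N, inferInstance⟩)
    (Real.toNNReal (c 0 0)) (fun N => by
      show ((muN h N) Set.univ).toNNReal = _
      rw [hmass]; rfl)
  refine ⟨ν, fun x j => ?_⟩
  refine hν (testF x j) (c x j) ?_
  have hlim : Tendsto (fun N => fej (N + 1) x * c x j) atTop (𝓝 (1 * c x j)) :=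
    ((fej_tendsto x).comp (tendsto_add_atTop_nat 1)).mul_const _
  rw [one_mul] at hlim
  refine hlim.congr' ?_
  have hfin : ∀ i, ∀ᶠ N : ℕ in atTop, |x i| < (N + 1 : ℤ) := by
    intro i
    filter_upwards [eventually_ge_atTop (|x i|).toNat] with N hN
    have : |x i| = (((|x i|).toNat : ℕ) : ℤ) := by
      rw [Int.toNat_of_nonneg (abs_nonneg _)]
    rw [this]
    have : (((|x i|).toNat : ℕ) : ℤ) ≤ N := by exact_mod_cast hN
    linarith only [hN]
  filter_upwards [eventually_all.2 hfin] with N hN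
  exact (hval N x j hN).symm

end Vale.Agent.P153.RP
end

section

/-!
# Herglotz theorem on `ℤ^ι` (real even positive definite functions)
-/

open MeasureTheory Filter Topology
open scoped NNReal unitInterval

namespace Vale.Agent.P153.RP

variable {ι : Type*} [Fintype ι] [DecidableEq ι]

omit [Fintype ι] [DecidableEq ι] in
theorem psd_bound (C : (ι → ℤ) → ℝ) (heven : ∀ x, C (-x) = C x)
    (h0 : ∀ (s : Finset (ι → ℤ)) (a : (ι → ℤ) → ℝ),
      0 ≤ ∑ p ∈ s, ∑ q ∈ s, a p * a q * C (p - q)) (x : ι → ℤ) : |C x| ≤ C 0 := by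
  classical
  have hC0 : 0 ≤ C 0 := by
    have := h0 {0} (fun _ => 1)
    simpa only [ge_iff_le, mul_one, one_mul, Finset.sum_singleton, sub_zero] using this
  by_cases hx : x = 0
  · rw [hx, abs_of_nonneg hC0]
  · have hx' : (0 : ι → ℤ) ≠ x := fun h => hx h.symm
    have h1 := h0 {0, x} (fun _ => 1)
    have h2 := h0 {0, x} (fun p => if p = 0 then 1 else -1)
    rw [Finset.sum_pair hx', Finset.sum_pair hx', Finset.sum_pair hx'] at h1 h2
    simp only [sub_self, zero_sub, sub_zero, heven, if_true, if_neg hx] at h1 h2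
    rw [abs_le]
    constructor <;> linarith only [h1, h2]

/-- **Herglotz** on `ℤ^ι` for real even functions. -/
theorem herglotz (C : (ι → ℤ) → ℝ) (heven : ∀ x, C (-x) = C x)
    (h0 : ∀ (s : Finset (ι → ℤ)) (a : (ι → ℤ) → ℝ),
      0 ≤ ∑ p ∈ s, ∑ q ∈ s, a p * a q * C (p - q)) :
    ∃ ν : FiniteMeasure (ι → KI),
      ∀ x, ∫ k : ι → KI, Real.cos (dotk (fun i => (k i : ℝ)) x) ∂(ν : Measure (ι → KI)) = C x := by
  have hb := psd_bound C heven h0
  have H : RPPos (fun x j => C x * (if j = 0 then (1 : ℝ) else 0)) := by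
    refine ⟨fun x j => by rw [heven], ⟨C 0, fun x j => ?_⟩, fun s a => ?_, fun s a => ?_⟩
    · split_ifs
      · rw [mul_one]; exact hb x
      · rw [mul_zero, abs_zero]; exact (abs_nonneg _).trans (hb 0)
    · have h1 : ∑ p ∈ s, ∑ q ∈ s, a p * a q * (C (p.1 - q.1) * (if p.2 + q.2 = 0 then (1 : ℝ) else 0)) =
          ∑ p ∈ s.filter (fun p => p.2 = 0), ∑ q ∈ s.filter (fun p => p.2 = 0),
            a p * a q * C (p.1 - q.1) := by
        rw [Finset.sum_filter]
        apply Finset.sum_congr rfl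
        intro p _
        rw [Finset.sum_filter]
        by_cases hp : p.2 = 0
        · rw [if_pos hp]
          apply Finset.sum_congr rfl
          intro q _
          by_cases hq : q.2 = 0
          · rw [if_pos hq, hp, hq, if_pos (by rfl), mul_one]
          · rw [if_neg hq, if_neg (by omega)]; ring
        · rw [if_neg hp]
          apply Finset.sum_eq_zero
          intro q _
          rw [if_neg (by omega)]; ring
      rw [h1]
      have hinj : Set.InjOn (Prod.fst : (ι → ℤ) × ℕ → (ι → ℤ)) (s.filter (fun p => p.2 = 0)) := by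
        rintro ⟨p, i⟩ hp ⟨q, j⟩ hq hpq
        simp only [Finset.coe_filter, Set.mem_ofPred_eq] at hp hq
        simp only at hpq
        rw [hpq, hp.2, hq.2]
      have h2 := h0 ((s.filter (fun p => p.2 = 0)).image Prod.fst) (fun x => a (x, 0))
      rw [Finset.sum_image hinj] at h2
      refine h2.trans (le_of_eq ?_)
      apply Finset.sum_congr rfl
      intro p hp
      rw [Finset.sum_image hinj]
      apply Finset.sum_congr rfl
      intro q hq
      rw [Finset.mem_filter] at hp hq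
      have e1 : (p.1, 0) = p := Prod.ext rfl hp.2.symm
      have e2 : (q.1, 0) = q := Prod.ext rfl hq.2.symm
      rw [e1, e2]
    · apply le_of_eq
      symm
      apply Finset.sum_eq_zero
      intro p _
      apply Finset.sum_eq_zero
      intro q _
      rw [if_neg (by omega)]; ring
  obtain ⟨ν, hν⟩ := joint H
  have hmeas : Measurable (Prod.fst : (ι → KI) × I → (ι → KI)) := measurable_fst
  refine ⟨ν.map Prod.fst, fun x => ?_⟩
  have h1 := hν x 0
  simp only [pow_zero, mul_one, if_true] at h1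
  rw [FiniteMeasure.toMeasure_map, integral_map hmeas.aemeasurable]
  · exact h1
  · apply Continuous.aestronglyMeasurable
    unfold dotk
    fun_prop

end Vale.Agent.P153.RP
end

section

/-!
Potential theory for the Dirichlet Gaussian free field in a bounded open set `D` of the plane.
`V D φ` is the quadratic form `⟨φ, (-Δ_D)⁻¹ φ⟩` of the inverse of the Dirichlet Laplacian, in its
variational form.
-/

namespace Vale.Agent.P145.PT

open MeasureTheory Set Filter Topology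

/-- Smooth functions with compact support contained in `D`. -/
def TestOn (D : Set (ℝ × ℝ)) (φ : ℝ × ℝ → ℝ) : Prop :=
  ContDiff ℝ ((⊤ : ℕ∞) : WithTop ℕ∞) φ ∧ HasCompactSupport φ ∧ tsupport φ ⊆ D

/-- Partial derivative in the first coordinate. -/
noncomputable def dx (ψ : ℝ × ℝ → ℝ) (z : ℝ × ℝ) : ℝ := fderiv ℝ ψ z (1, 0)

/-- Partial derivative in the second coordinate. -/
noncomputable def dy (ψ : ℝ × ℝ → ℝ) (z : ℝ × ℝ) : ℝ := fderiv ℝ ψ z (0, 1)

/-- The Laplacian. -/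
noncomputable def lap (ψ : ℝ × ℝ → ℝ) (z : ℝ × ℝ) : ℝ := dx (dx ψ) z + dy (dy ψ) z

/-- The Dirichlet energy `∫ |∇ψ|²`. -/
noncomputable def energy (ψ : ℝ × ℝ → ℝ) : ℝ := ∫ z, (dx ψ z ^ 2 + dy ψ z ^ 2)

/-- `⟨φ, (-Δ_D)⁻¹ φ⟩ = sup_ψ (2 ∫ φ ψ - ∫ |∇ψ|²)`, `ψ` smooth with compact support in `D`. -/
noncomputable def V (D : Set (ℝ × ℝ)) (φ : ℝ × ℝ → ℝ) : ℝ :=
  ⨆ ψ : {ψ : ℝ × ℝ → ℝ // TestOn D ψ}, (2 * ∫ z, φ z * ψ.1 z) - energy ψ.1

end Vale.Agent.P145.PT
end

section

/-!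
Definitions for the scaling limit of the uniform Lipschitz heights on the triangular lattice in
bounded Jordan domains, with free boundary values `±1`: lattice polygons, the heights in the domain
enclosed by a polygon, and the rescaled height function.

Vertex `(i, j)` is the point `i (1, 0) + j (1/2, √3/2)`. The triangle `(v, false)` has the corners
`v, v + (1, 0), v + (0, 1)`; the triangle `(v, true)` has the corners
`v + (1, 0), v + (0, 1), v + (1, 1)`.
-/

namespace Vale.Agent.P153.F.Dom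

open Finset Filter Topology MeasureTheory ProbabilityTheory
open Vale.Agent.P153.GFF Vale.Agent.P145.PT

/-- A bounded Jordan domain: the image of the open unit disc under a homeomorphism of the plane
(by the theorem of Schoenflies these are exactly the interiors of Jordan curves). -/
def JordanDomain (D : Set (ℝ × ℝ)) : Prop :=
  ∃ Φ : (ℝ × ℝ) ≃ₜ (ℝ × ℝ), D = Φ '' {z | z.1 ^ 2 + z.2 ^ 2 < 1}

/-- A simple closed lattice polygon: a closed path `p 0, p 1, …, p (n - 1), p 0` of nearest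
neighbours of the triangular lattice without repeated vertices. -/
def IsPolygon {n : ℕ} (p : ZMod n → ℤ × ℤ) : Prop :=
  2 < n ∧ Function.Injective p ∧ ∀ i, GFF.Adj (p i) (p (i + 1))

/-- The edge between the lattice points `a` and `b` is an edge of the polygon `p`. -/
def IsEdge {n : ℕ} (p : ZMod n → ℤ × ℤ) (a b : ℤ × ℤ) : Prop :=
  ∃ i, (p i = a ∧ p (i + 1) = b) ∨ (p i = b ∧ p (i + 1) = a)

/-- The finite set `S` of triangles is the set of the triangles enclosed by the polygon `p`: the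
edges of `p` are exactly the edges of the lattice with exactly one of their two sides in `S`. -/
def Encloses {n : ℕ} (p : ZMod n → ℤ × ℤ) (S : Finset ((ℤ × ℤ) × Bool)) : Prop :=
  (∀ v : ℤ × ℤ, IsEdge p v (v + (1, 0)) ↔ ¬ ((v, false) ∈ S ↔ (v - (0, 1), true) ∈ S)) ∧
  (∀ v : ℤ × ℤ, IsEdge p v (v + (0, 1)) ↔ ¬ ((v, false) ∈ S ↔ (v - (1, 0), true) ∈ S)) ∧
  (∀ v : ℤ × ℤ, IsEdge p (v + (1, 0)) (v + (0, 1)) ↔ ¬ ((v, false) ∈ S ↔ (v, true) ∈ S))

/-- The corners of a triangle. -/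
def corners (t : (ℤ × ℤ) × Bool) : Finset (ℤ × ℤ) :=
  if t.2 then {t.1 + (1, 0), t.1 + (0, 1), t.1 + (1, 1)}
  else {t.1, t.1 + (1, 0), t.1 + (0, 1)}

/-- The vertices of the domain: the corners of the enclosed triangles. -/
def verts (S : Finset ((ℤ × ℤ) × Bool)) : Finset (ℤ × ℤ) := S.biUnion corners

/-- The heights of the domain enclosed by `p`: odd, with steps `0` or `±2` between adjacent
vertices, with values `±1` on the polygon (and the dummy value `0` off the domain). -/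
def Heights {n : ℕ} (p : ZMod n → ℤ × ℤ) (S : Finset ((ℤ × ℤ) × Bool)) : Set (ℤ × ℤ → ℤ) :=
  {h | (∀ v ∈ verts S, Odd (h v)) ∧ (∀ i, h (p i) = 1 ∨ h (p i) = -1) ∧
    (∀ v ∈ verts S, ∀ w ∈ verts S, GFF.Adj v w → |h v - h w| = 0 ∨ |h v - h w| = 2) ∧
    ∀ v, v ∉ verts S → h v = 0}

/-- The uniform distribution on the heights. -/
noncomputable def law {n : ℕ} (p : ZMod n → ℤ × ℤ) (S : Finset ((ℤ × ℤ) × Bool)) :
    Measure (ℤ × ℤ → ℤ) :=
  ((Heights p S).ncard : ENNReal)⁻¹ • ∑ᶠ h ∈ Heights p S, Measure.dirac h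

/-- The point of the plane. -/
noncomputable def pt (v : ℤ × ℤ) : ℝ × ℝ := (v.1 + v.2 / 2, √3 / 2 * v.2)

/-- The closed domain `D_δ`: the union of the enclosed triangles of the lattice of mesh `δ`. -/
noncomputable def region (δ : ℝ) (S : Finset ((ℤ × ℤ) × Bool)) : Set (ℝ × ℝ) :=
  {z | ∃ t ∈ S, z ∈ convexHull ℝ ((fun v => δ • pt v) '' (corners t : Set (ℤ × ℤ)))}

open Classical in
/-- `h_δ(φ) = ∫ h_δ(z) φ(z) dz`, where `h_δ` is affine on each triangle of `D_δ` and is extended by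
`0` outside `D_δ`. -/
noncomputable def fld (S : Finset ((ℤ × ℤ) × Bool)) (δ : ℝ) (φ : ℝ × ℝ → ℝ)
    (h : ℤ × ℤ → ℤ) : ℝ :=
  ∫ z : ℝ × ℝ, (if z ∈ region δ S then interp h (z.1 / δ, z.2 / δ) else 0) * φ z

/-- `⟨φ, (-Δ_D)⁻¹ ψ⟩`, by polarisation of the quadratic form `PT.V`. -/
noncomputable def dirCov (D : Set (ℝ × ℝ)) (φ ψ : ℝ × ℝ → ℝ) : ℝ :=
  (V D (fun z => φ z + ψ z) - V D (fun z => φ z - ψ z)) / 4

/-- Lattice polygons `p n` of mesh `δ n → 0` approximating the domain `D`: the vertices of the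
polygons are eventually within any given distance of `D`, and every compact subset of `D` is
eventually enclosed. (Both follow from the uniform convergence of the boundary curves.) -/
structure Approx (D : Set (ℝ × ℝ)) (δ : ℕ → ℝ) (N : ℕ → ℕ) (p : ∀ n, ZMod (N n) → ℤ × ℤ)
    (S : ℕ → Finset ((ℤ × ℤ) × Bool)) : Prop where
  pos : ∀ n, 0 < δ n
  lim : Tendsto δ atTop (𝓝 0)
  poly : ∀ n, IsPolygon (p n)
  encl : ∀ n, Encloses (p n) (S n)
  near : ∀ ε > 0, ∀ᶠ n in atTop, ∀ i, ∃ z ∈ D, dist (δ n • pt (p n i)) z < ε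
  cpt : ∀ K ⊆ D, IsCompact K → ∀ᶠ n in atTop, K ⊆ region (δ n) (S n)

/-- Convergence in law of `(h_δ(φ_j))_j` to the centred Gaussian vector whose covariance is `κ`
times that of the Dirichlet Gaussian free field of `D`. -/
def Conv (κ : ℝ) (D : Set (ℝ × ℝ)) : Prop :=
  ∀ (δ : ℕ → ℝ) (N : ℕ → ℕ) (p : ∀ n, ZMod (N n) → ℤ × ℤ) (S : ℕ → Finset ((ℤ × ℤ) × Bool)),
    Approx D δ N p S →
    ∃ _ : ∀ n, IsProbabilityMeasure (law (p n) (S n)),
      ∀ (k : ℕ) (φ : Fin k → ℝ × ℝ → ℝ), (∀ j, TestOn D (φ j)) →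
        (Matrix.of (fun i j => κ * dirCov D (φ i) (φ j))).PosSemidef ∧
        TendstoInDistribution (fun (n : ℕ) (h : ℤ × ℤ → ℤ) =>
          (WithLp.toLp 2 (fun j => fld (S n) (δ n) (φ j) h) : EuclideanSpace ℝ (Fin k)))
          atTop (id : EuclideanSpace ℝ (Fin k) → EuclideanSpace ℝ (Fin k))
          (fun n => law (p n) (S n))
          (multivariateGaussian 0 (Matrix.of (fun i j => κ * dirCov D (φ i) (φ j))))

end Vale.Agent.P153.F.Dom
end

section

/-!
Basic facts on test functions, integration by parts and the Poincaré inequality.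
-/

namespace Vale.Agent.P145.PT

open MeasureTheory Set Filter Topology

/-- Smooth. -/
abbrev Sm (f : ℝ × ℝ → ℝ) : Prop := ContDiff ℝ ((⊤ : ℕ∞) : WithTop ℕ∞) f

theorem Sm.fd {f : ℝ × ℝ → ℝ} (h : Sm f) (v : ℝ × ℝ) : Sm (fun z => fderiv ℝ f z v) := by
  have h1 : ContDiff ℝ ((⊤ : ℕ∞) : WithTop ℕ∞) (fderiv ℝ f) :=
    h.fderiv_right (m := ((⊤ : ℕ∞) : WithTop ℕ∞)) (by norm_cast)
  exact h1.clm_apply contDiff_const

theorem Sm.dx {f : ℝ × ℝ → ℝ} (h : Sm f) : Sm (dx f) := h.fd (1, 0)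
theorem Sm.dy {f : ℝ × ℝ → ℝ} (h : Sm f) : Sm (dy f) := h.fd (0, 1)
theorem Sm.lap {f : ℝ × ℝ → ℝ} (h : Sm f) : Sm (lap f) := (h.dx.dx).add (h.dy.dy)
theorem Sm.diff {f : ℝ × ℝ → ℝ} (h : Sm f) : Differentiable ℝ f := h.differentiable (by simp)

theorem TestOn.sm {D : Set (ℝ × ℝ)} {f : ℝ × ℝ → ℝ} (h : TestOn D f) : Sm f := h.1
theorem TestOn.cs {D : Set (ℝ × ℝ)} {f : ℝ × ℝ → ℝ} (h : TestOn D f) : HasCompactSupport f := h.2.1
theorem TestOn.cont {D : Set (ℝ × ℝ)} {f : ℝ × ℝ → ℝ} (h : TestOn D f) : Continuous f :=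
  h.1.continuous
theorem TestOn.int {D : Set (ℝ × ℝ)} {f : ℝ × ℝ → ℝ} (h : TestOn D f) : Integrable f :=
  h.cont.integrable_of_hasCompactSupport h.cs

theorem TestOn.mono {D D' : Set (ℝ × ℝ)} {f : ℝ × ℝ → ℝ} (h : TestOn D f) (hD : D ⊆ D') :
    TestOn D' f := ⟨h.1, h.2.1, h.2.2.trans hD⟩

theorem TestOn.zero (D : Set (ℝ × ℝ)) : TestOn D (fun _ => 0) := by
  refine ⟨contDiff_const, ?_, ?_⟩
  · exact HasCompactSupport.zero
  · have : tsupport (fun _ : ℝ × ℝ => (0 : ℝ)) = ∅ := by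
      simp only [tsupport, Function.support_fun_zero, finite_empty, Finite.isClosed, IsClosed.closure_eq]
    rw [this]; exact empty_subset _

theorem TestOn.add {D : Set (ℝ × ℝ)} {f g : ℝ × ℝ → ℝ} (hf : TestOn D f) (hg : TestOn D g) :
    TestOn D (fun z => f z + g z) :=
  ⟨hf.1.add hg.1, hf.2.1.add hg.2.1,
    (tsupport_add f g).trans (union_subset hf.2.2 hg.2.2)⟩

theorem TestOn.mulSm {D : Set (ℝ × ℝ)} {f g : ℝ × ℝ → ℝ} (hf : TestOn D f) (hg : Sm g) :
    TestOn D (fun z => g z * f z) :=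
  ⟨hg.mul hf.1, hf.2.1.mul_left, (tsupport_mul_subset_right).trans hf.2.2⟩

theorem TestOn.smul {D : Set (ℝ × ℝ)} {f : ℝ × ℝ → ℝ} (hf : TestOn D f) (c : ℝ) :
    TestOn D (fun z => c * f z) := hf.mulSm contDiff_const

theorem TestOn.neg {D : Set (ℝ × ℝ)} {f : ℝ × ℝ → ℝ} (hf : TestOn D f) :
    TestOn D (fun z => - f z) := by
  simpa using hf.smul (-1)

theorem TestOn.sub {D : Set (ℝ × ℝ)} {f g : ℝ × ℝ → ℝ} (hf : TestOn D f) (hg : TestOn D g) :
    TestOn D (fun z => f z - g z) := by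
  simpa [sub_eq_add_neg] using hf.add hg.neg

theorem TestOn.fd {D : Set (ℝ × ℝ)} {f : ℝ × ℝ → ℝ} (hf : TestOn D f) (v : ℝ × ℝ) :
    TestOn D (fun z => fderiv ℝ f z v) :=
  ⟨hf.sm.fd v, hf.2.1.fderiv_apply (𝕜 := ℝ) v, (tsupport_fderiv_apply_subset ℝ v).trans hf.2.2⟩

theorem TestOn.dx {D : Set (ℝ × ℝ)} {f : ℝ × ℝ → ℝ} (hf : TestOn D f) : TestOn D (dx f) :=
  hf.fd (1, 0)
theorem TestOn.dy {D : Set (ℝ × ℝ)} {f : ℝ × ℝ → ℝ} (hf : TestOn D f) : TestOn D (dy f) :=
  hf.fd (0, 1)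
theorem TestOn.lap {D : Set (ℝ × ℝ)} {f : ℝ × ℝ → ℝ} (hf : TestOn D f) : TestOn D (lap f) :=
  hf.dx.dx.add hf.dy.dy

theorem dx_add {f g : ℝ × ℝ → ℝ} (hf : Sm f) (hg : Sm g) (z : ℝ × ℝ) :
    dx (fun z => f z + g z) z = dx f z + dx g z := by
  unfold PT.dx
  rw [fderiv_fun_add hf.diff.differentiableAt hg.diff.differentiableAt]; rfl

theorem dy_add {f g : ℝ × ℝ → ℝ} (hf : Sm f) (hg : Sm g) (z : ℝ × ℝ) :
    dy (fun z => f z + g z) z = dy f z + dy g z := by
  unfold PT.dy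
  rw [fderiv_fun_add hf.diff.differentiableAt hg.diff.differentiableAt]; rfl

theorem dx_smul {f : ℝ × ℝ → ℝ} (hf : Sm f) (c : ℝ) (z : ℝ × ℝ) :
    dx (fun z => c * f z) z = c * dx f z := by
  unfold PT.dx
  rw [fderiv_const_mul hf.diff.differentiableAt]; rfl

theorem dy_smul {f : ℝ × ℝ → ℝ} (hf : Sm f) (c : ℝ) (z : ℝ × ℝ) :
    dy (fun z => c * f z) z = c * dy f z := by
  unfold PT.dy
  rw [fderiv_const_mul hf.diff.differentiableAt]; rfl

theorem dx_mul {f g : ℝ × ℝ → ℝ} (hf : Sm f) (hg : Sm g) (z : ℝ × ℝ) :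
    dx (fun z => f z * g z) z = f z * dx g z + dx f z * g z := by
  unfold PT.dx
  rw [fderiv_fun_mul hf.diff.differentiableAt hg.diff.differentiableAt]
  simp only [add_apply, smul_apply, smul_eq_mul, add_right_inj]; ring

theorem dy_mul {f g : ℝ × ℝ → ℝ} (hf : Sm f) (hg : Sm g) (z : ℝ × ℝ) :
    dy (fun z => f z * g z) z = f z * dy g z + dy f z * g z := by
  unfold PT.dy
  rw [fderiv_fun_mul hf.diff.differentiableAt hg.diff.differentiableAt]
  simp only [add_apply, smul_apply, smul_eq_mul, add_right_inj]; ring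

theorem lap_smul {f : ℝ × ℝ → ℝ} (hf : Sm f) (c : ℝ) (z : ℝ × ℝ) :
    lap (fun z => c * f z) z = c * lap f z := by
  unfold PT.lap
  have h1 : PT.dx (fun z => c * f z) = fun z => c * PT.dx f z := by funext w; exact dx_smul hf c w
  have h2 : PT.dy (fun z => c * f z) = fun z => c * PT.dy f z := by funext w; exact dy_smul hf c w
  rw [h1, h2, dx_smul hf.dx, dy_smul hf.dy]; ring

theorem lap_add {f g : ℝ × ℝ → ℝ} (hf : Sm f) (hg : Sm g) (z : ℝ × ℝ) :
    lap (fun z => f z + g z) z = lap f z + lap g z := by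
  unfold PT.lap
  have h1 : PT.dx (fun z => f z + g z) = fun z => PT.dx f z + PT.dx g z := by
    funext w; exact dx_add hf hg w
  have h2 : PT.dy (fun z => f z + g z) = fun z => PT.dy f z + PT.dy g z := by
    funext w; exact dy_add hf hg w
  rw [h1, h2, dx_add hf.dx hg.dx, dy_add hf.dy hg.dy]; ring

/-- Integration by parts. -/
theorem ibp {D : Set (ℝ × ℝ)} {f g : ℝ × ℝ → ℝ} (hf : TestOn D f) (hg : Sm g) (v : ℝ × ℝ) :
    ∫ z, f z * fderiv ℝ g z v = - ∫ z, fderiv ℝ f z v * g z := by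
  refine integral_mul_fderiv_eq_neg_fderiv_mul_of_integrable ?_ ?_ ?_
    (fun x _ => hf.sm.diff x) (fun x _ => hg.diff x)
  · refine Continuous.integrable_of_hasCompactSupport ?_ ?_
    · exact (hf.fd v).cont.mul hg.continuous
    · exact (hf.fd v).cs.mul_right
  · refine Continuous.integrable_of_hasCompactSupport ?_ ?_
    · exact hf.cont.mul (hg.fd v).continuous
    · exact hf.cs.mul_right
  · refine Continuous.integrable_of_hasCompactSupport ?_ ?_
    · exact hf.cont.mul hg.continuous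
    · exact hf.cs.mul_right

theorem TestOn.intMul {D : Set (ℝ × ℝ)} {f g : ℝ × ℝ → ℝ} (hf : TestOn D f) (hg : Continuous g) :
    Integrable (fun z => f z * g z) :=
  Continuous.integrable_of_hasCompactSupport (hf.cont.mul hg) hf.cs.mul_right

theorem TestOn.intMul' {D : Set (ℝ × ℝ)} {f g : ℝ × ℝ → ℝ} (hf : TestOn D f) (hg : Continuous g) :
    Integrable (fun z => g z * f z) :=
  Continuous.integrable_of_hasCompactSupport (hg.mul hf.cont) hf.cs.mul_left

theorem TestOn.intSq {D : Set (ℝ × ℝ)} {f : ℝ × ℝ → ℝ} (hf : TestOn D f) :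
    Integrable (fun z => f z ^ 2) := by
  simpa only [sq] using hf.intMul hf.cont

theorem TestOn.intE {D : Set (ℝ × ℝ)} {f : ℝ × ℝ → ℝ} (hf : TestOn D f) :
    Integrable (fun z => PT.dx f z ^ 2 + PT.dy f z ^ 2) := hf.dx.intSq.add hf.dy.intSq

theorem energy_nonneg (f : ℝ × ℝ → ℝ) : 0 ≤ energy f :=
  integral_nonneg fun z => by positivity

/-- Green's identity `∫ ψ (-Δ u) = ∫ ∇ψ · ∇u`. -/
theorem green_id {D : Set (ℝ × ℝ)} {f g : ℝ × ℝ → ℝ} (hf : TestOn D f) (hg : Sm g) :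
    ∫ z, f z * lap g z = - ∫ z, (PT.dx f z * PT.dx g z + PT.dy f z * PT.dy g z) := by
  have h1 := ibp hf hg.dx (1, 0)
  have h2 := ibp hf hg.dy (0, 1)
  have e1 : ∫ z, f z * lap g z = (∫ z, f z * PT.dx (PT.dx g) z) + ∫ z, f z * PT.dy (PT.dy g) z := by
    rw [← integral_add]
    · congr 1; funext z; unfold PT.lap; ring
    · exact hf.intMul hg.dx.dx.continuous
    · exact hf.intMul hg.dy.dy.continuous
  have e2 : ∫ z, (PT.dx f z * PT.dx g z + PT.dy f z * PT.dy g z)
      = (∫ z, PT.dx f z * PT.dx g z) + ∫ z, PT.dy f z * PT.dy g z := by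
    rw [← integral_add]
    · exact hf.dx.intMul hg.dx.continuous
    · exact hf.dy.intMul hg.dy.continuous
  rw [e1, e2]
  have h1' : ∫ z, f z * PT.dx (PT.dx g) z = - ∫ z, PT.dx f z * PT.dx g z := h1
  have h2' : ∫ z, f z * PT.dy (PT.dy g) z = - ∫ z, PT.dy f z * PT.dy g z := h2
  rw [h1', h2']; ring

theorem energy_eq {D : Set (ℝ × ℝ)} {f : ℝ × ℝ → ℝ} (hf : TestOn D f) :
    energy f = - ∫ z, f z * lap f z := by
  rw [green_id hf hf.sm, neg_neg]; unfold energy
  congr 1; funext z; ring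

end Vale.Agent.P145.PT
end

section

/-!
A linear functional on test functions which is bounded in `L²` is given by an integrable function.
-/

namespace Vale.Agent.P145.PT

open MeasureTheory Set Filter Topology

/-- The space of test functions. -/
def TS (D : Set (ℝ × ℝ)) : Submodule ℝ (ℝ × ℝ → ℝ) where
  carrier := {f | TestOn D f}
  add_mem' := fun hf hg => hf.add hg
  zero_mem' := TestOn.zero D
  smul_mem' := fun c _ hf => hf.smul c

theorem TestOn.memLp {D : Set (ℝ × ℝ)} {f : ℝ × ℝ → ℝ} (hf : TestOn D f) (μ : Measure (ℝ × ℝ))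
    [IsFiniteMeasureOnCompacts μ] (p : ENNReal) : MemLp f p μ :=
  hf.cont.memLp_of_hasCompactSupport hf.cs

/-- A linear functional on the test functions on `D` with `|T θ| ≤ C (∫ θ²)^(1/2)`. -/
structure L2Fn (D : Set (ℝ × ℝ)) (T : (ℝ × ℝ → ℝ) → ℝ) (C : ℝ) : Prop where
  add : ∀ f g, TestOn D f → TestOn D g → T (fun z => f z + g z) = T f + T g
  smul : ∀ (c : ℝ) f, TestOn D f → T (fun z => c * f z) = c * T f
  bd : ∀ f, TestOn D f → |T f| ≤ C * Real.sqrt (∫ z, f z ^ 2)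

theorem rep {D : Set (ℝ × ℝ)} (hD : IsOpen D) (hb : Bornology.IsBounded D)
    {T : (ℝ × ℝ → ℝ) → ℝ} {C : ℝ} (hT : L2Fn D T C) :
    ∃ u : ℝ × ℝ → ℝ, Integrable u ∧ (∀ z, z ∉ D → u z = 0) ∧
      ∀ θ, TestOn D θ → T θ = ∫ z, u z * θ z := by
  classical
  set μ : Measure (ℝ × ℝ) := volume.restrict D with hμ
  have hfin : volume D < ⊤ := hb.measure_lt_top
  have : IsFiniteMeasure μ := ⟨by rw [hμ, Measure.restrict_apply_univ]; exact hfin⟩
  let j : TS D →ₗ[ℝ] Lp ℝ 2 μ :=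
    { toFun := fun f => (TestOn.memLp f.2 μ 2).toLp f.1
      map_add' := fun f g => rfl
      map_smul' := fun c f => rfl }
  let T' : TS D →ₗ[ℝ] ℝ :=
    { toFun := fun f => T f.1
      map_add' := fun f g => hT.add f.1 g.1 f.2 g.2
      map_smul' := fun c f => hT.smul c f.1 f.2 }
  obtain ⟨K, hK0, hK⟩ : ∃ K : ℝ, 0 ≤ K ∧ ∀ f : TS D, |T' f| ≤ K * ‖j f‖ := by
    refine ⟨|C|, abs_nonneg _, fun f => ?_⟩
    have h1 : |T' f| ≤ C * Real.sqrt (∫ z, f.1 z ^ 2) := hT.bd f.1 f.2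
    have hf : MemLp f.1 2 μ := TestOn.memLp f.2 μ 2
    have h2 : ∫ z, f.1 z ^ 2 = ∫ z, f.1 z ^ 2 ∂μ := by
      rw [hμ, setIntegral_eq_integral_of_forall_compl_eq_zero]
      intro z hz
      have : f.1 z = 0 := by
        by_contra h
        exact hz (f.2.2.2 (subset_tsupport _ h))
      simp [this]
    have h3 : ∫ z, f.1 z ^ 2 ∂μ = ‖j f‖ ^ 2 := by
      rw [← real_inner_self_eq_norm_sq, L2.inner_def]
      refine integral_congr_ae ?_
      filter_upwards [MemLp.coeFn_toLp hf] with z hz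
      have hz' : (j f : ℝ × ℝ → ℝ) z = f.1 z := hz
      rw [hz']
      simp only [sq, inner_self_eq_norm_sq_to_K, Real.norm_eq_abs, Real.ringHom_apply, abs_mul_abs_self]
    rw [h2, h3, Real.sqrt_sq (norm_nonneg _)] at h1
    exact h1.trans (mul_le_mul_of_nonneg_right (le_abs_self _) (norm_nonneg _))
  have hker : LinearMap.ker j ≤ LinearMap.ker T' := by
    intro f hf
    rw [LinearMap.mem_ker] at hf ⊢
    have := hK f
    rw [hf, norm_zero, mul_zero] at this
    exact abs_eq_zero.1 (le_antisymm this (abs_nonneg _))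
  let T2 : LinearMap.range j →ₗ[ℝ] ℝ :=
    ((LinearMap.ker j).liftQ T' hker).comp (LinearMap.quotKerEquivRange j).symm.toLinearMap
  have hT2 : ∀ f : TS D, T2 ⟨j f, LinearMap.mem_range_self j f⟩ = T' f := by
    intro f
    have : (LinearMap.quotKerEquivRange j).symm ⟨j f, LinearMap.mem_range_self j f⟩
        = Submodule.Quotient.mk f := by
      rw [LinearEquiv.symm_apply_eq]; rfl
    simp only [T2, LinearMap.comp_apply, LinearEquiv.coe_coe, this]
    rfl
  have hT2b : ∀ x : LinearMap.range j, ‖T2 x‖ ≤ K * ‖x‖ := by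
    rintro ⟨x, f, rfl⟩
    rw [hT2 f]; exact hK f
  obtain ⟨g, hg, -⟩ := _root_.exists_extension_norm_eq (LinearMap.range j)
    (LinearMap.mkContinuous T2 K hT2b)
  set v : Lp ℝ 2 μ := (InnerProductSpace.toDual ℝ (Lp ℝ 2 μ)).symm g with hv
  have hvi : Integrable (v : ℝ × ℝ → ℝ) μ := (Lp.memLp v).integrable (by norm_num)
  refine ⟨D.indicator v, ?_, fun z hz => indicator_of_notMem hz _, fun θ hθ => ?_⟩
  · rw [integrable_indicator_iff hD.measurableSet]; exact hvi
  · have e1 : T θ = g (j ⟨θ, hθ⟩) := by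
      have := hg ⟨j ⟨θ, hθ⟩, LinearMap.mem_range_self j _⟩
      rw [this]
      exact (hT2 ⟨θ, hθ⟩).symm
    have e2 : g (j ⟨θ, hθ⟩) = inner ℝ v (j ⟨θ, hθ⟩) := by
      rw [hv, InnerProductSpace.toDual_symm_apply]
    rw [e1, e2, L2.inner_def]
    have e3 : ∀ z, D.indicator v z * θ z = D.indicator (fun z => v z * θ z) z := by
      intro z
      by_cases hz : z ∈ D <;> simp [hz]
    simp_rw [e3]
    rw [integral_indicator hD.measurableSet]
    refine integral_congr_ae ?_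
    have e4 : (j ⟨θ, hθ⟩ : ℝ × ℝ → ℝ) =ᵐ[μ] θ :=
      MemLp.coeFn_toLp (TestOn.memLp hθ μ 2)
    filter_upwards [e4] with z hz
    rw [hz]
    simp only [RCLike.inner_apply, Real.ringHom_apply, mul_comm]

end Vale.Agent.P145.PT
end

section

/-!
The crossing lemma in a parallelogram: a path from left to right meets every path from bottom
to top.
-/

namespace Vale.Agent.P153.Topo

open Vale.Agent.P153

/-- The step `u v` passes from column `z.1` to column `z.1 + 1` (or back) above `z`. -/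
def above (u v z : ℤ × ℤ) : ZMod 2 :=
  if (u.1 = z.1 ∧ v.1 = z.1 + 1 ∧ z.2 < u.2) ∨ (v.1 = z.1 ∧ u.1 = z.1 + 1 ∧ z.2 < v.2)
    then 1 else 0

/-- `1` on the part of column `i` strictly above height `j`. -/
def col (i j : ℤ) (x : ℤ × ℤ) : ZMod 2 := if x.1 = i ∧ j < x.2 then 1 else 0

/-- `1` on the columns up to `i`. -/
def lft (i : ℤ) (x : ℤ × ℤ) : ZMod 2 := if x.1 ≤ i then 1 else 0

theorem z2_add_self (a : ZMod 2) : a + a = 0 := by
  revert a; decide

theorem above_up {u v z : ℤ × ℤ} (hu : u ≠ (z.1, z.2 + 1)) (hv : v ≠ (z.1, z.2 + 1)) :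
    above u v z = above u v (z.1, z.2 + 1) := by
  obtain ⟨u1, u2⟩ := u
  obtain ⟨v1, v2⟩ := v
  obtain ⟨z1, z2⟩ := z
  simp only [ne_eq, Prod.mk.injEq] at hu hv
  simp only [above]
  congr 1
  apply propext
  omega

theorem above_right {u v z : ℤ × ℤ} (huv : Adj u v) (hu : u ≠ z) (hv : v ≠ z)
    (hu' : u ≠ (z.1 + 1, z.2)) (hv' : v ≠ (z.1 + 1, z.2)) :
    above u v z + above u v (z.1 + 1, z.2) = col (z.1 + 1) z.2 u + col (z.1 + 1) z.2 v := by
  obtain ⟨u1, u2⟩ := u
  obtain ⟨v1, v2⟩ := v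
  obtain ⟨z1, z2⟩ := z
  rw [adj_iff] at huv
  simp only [ne_eq, Prod.mk.injEq] at hu hv hu' hv' huv
  simp only [above, col]
  rcases huv with h | h | h | h | h | h <;> obtain ⟨rfl, rfl⟩ := h <;>
    split_ifs <;> first | rfl | (exfalso; omega)

theorem above_diag {u v z : ℤ × ℤ} (huv : Adj u v) (hu : u ≠ z) (hv : v ≠ z)
    (hu' : u ≠ (z.1 + 1, z.2 - 1)) (hv' : v ≠ (z.1 + 1, z.2 - 1)) :
    above u v z + above u v (z.1 + 1, z.2 - 1) =
      col (z.1 + 1) (z.2 - 1) u + col (z.1 + 1) (z.2 - 1) v := by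
  obtain ⟨u1, u2⟩ := u
  obtain ⟨v1, v2⟩ := v
  obtain ⟨z1, z2⟩ := z
  rw [adj_iff] at huv
  simp only [ne_eq, Prod.mk.injEq] at hu hv hu' hv' huv
  simp only [above, col]
  rcases huv with h | h | h | h | h | h <;> obtain ⟨rfl, rfl⟩ := h <;>
    split_ifs <;> first | rfl | (exfalso; omega)

theorem above_low {u v z : ℤ × ℤ} (huv : Adj u v)
    (hu : u.1 = z.1 → z.2 < u.2) (hv : v.1 = z.1 → z.2 < v.2) :
    above u v z = lft z.1 u + lft z.1 v := by
  obtain ⟨u1, u2⟩ := u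
  obtain ⟨v1, v2⟩ := v
  obtain ⟨z1, z2⟩ := z
  rw [adj_iff] at huv
  simp only at hu hv huv
  simp only [above, lft]
  rcases huv with h | h | h | h | h | h <;> obtain ⟨rfl, rfl⟩ := h <;>
    split_ifs <;> first | rfl | (exfalso; omega)

/-- **Parity of a path.** For a path in `A` from `x` to `u` there is a function (the parity of
the number of steps of the path above a vertex) which is constant along steps off `A`, up to
explicit contributions of the two end points. -/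
theorem exists_parity {A : Set (ℤ × ℤ)} {x u : ℤ × ℤ} (h : Conn A x u) :
    ∃ U : ℤ × ℤ → ZMod 2,
      (∀ z, (z.1, z.2 + 1) ∉ A → U z = U (z.1, z.2 + 1)) ∧
      (∀ z, z ∉ A → (z.1 + 1, z.2) ∉ A →
        U z + U (z.1 + 1, z.2) = col (z.1 + 1) z.2 x + col (z.1 + 1) z.2 u) ∧
      (∀ z, z ∉ A → (z.1 + 1, z.2 - 1) ∉ A →
        U z + U (z.1 + 1, z.2 - 1) = col (z.1 + 1) (z.2 - 1) x + col (z.1 + 1) (z.2 - 1) u) ∧
      (∀ z, (∀ w ∈ A, w.1 = z.1 → w.2 ≤ z.2) → U z = 0) ∧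
      (∀ z, (∀ w ∈ A, w.1 = z.1 → z.2 < w.2) → U z = lft z.1 x + lft z.1 u) := by
  refine Conn.ind (S := A) (fun u => ∃ U : ℤ × ℤ → ZMod 2,
      (∀ z, (z.1, z.2 + 1) ∉ A → U z = U (z.1, z.2 + 1)) ∧
      (∀ z, z ∉ A → (z.1 + 1, z.2) ∉ A →
        U z + U (z.1 + 1, z.2) = col (z.1 + 1) z.2 x + col (z.1 + 1) z.2 u) ∧
      (∀ z, z ∉ A → (z.1 + 1, z.2 - 1) ∉ A →
        U z + U (z.1 + 1, z.2 - 1) = col (z.1 + 1) (z.2 - 1) x + col (z.1 + 1) (z.2 - 1) u) ∧
      (∀ z, (∀ w ∈ A, w.1 = z.1 → w.2 ≤ z.2) → U z = 0) ∧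
      (∀ z, (∀ w ∈ A, w.1 = z.1 → z.2 < w.2) → U z = lft z.1 x + lft z.1 u)) ?_ ?_ h
  · refine ⟨fun _ => 0, fun z _ => rfl, fun z _ _ => ?_, fun z _ _ => ?_, fun z _ => rfl,
      fun z _ => ?_⟩ <;> simp [z2_add_self]
  · rintro u v hu huv hv ⟨U, h1, h2, h3, h4, h5⟩
    have huA := hu.right_mem
    refine ⟨fun z => U z + above u v z, ?_, ?_, ?_, ?_, ?_⟩
    · intro z hz
      dsimp only
      rw [h1 z hz, above_up (z := z) (fun h => hz (h ▸ huA)) (fun h => hz (h ▸ hv))]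
    · intro z hz hz'
      have e1 := h2 z hz hz'
      have e2 := above_right (z := z) huv (fun h => hz (h ▸ huA)) (fun h => hz (h ▸ hv))
        (fun h => hz' (h ▸ huA)) (fun h => hz' (h ▸ hv))
      have e3 := z2_add_self (col (z.1 + 1) z.2 u)
      dsimp only
      linear_combination e1 + e2 + e3
    · intro z hz hz'
      have e1 := h3 z hz hz'
      have e2 := above_diag (z := z) huv (fun h => hz (h ▸ huA)) (fun h => hz (h ▸ hv))
        (fun h => hz' (h ▸ huA)) (fun h => hz' (h ▸ hv))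
      have e3 := z2_add_self (col (z.1 + 1) (z.2 - 1) u)
      dsimp only
      linear_combination e1 + e2 + e3
    · intro z hz
      dsimp only
      rw [h4 z hz, zero_add, above, if_neg]
      have := hz u huA
      have := hz v hv
      omega
    · intro z hz
      have e1 := h5 z hz
      have e2 := above_low (z := z) huv (hz u huA) (hz v hv)
      have e3 := z2_add_self (lft z.1 u)
      dsimp only
      linear_combination e1 + e2 + e3

/-- **Crossing lemma.** In the parallelogram `[a, b] × [c, d]` a path of `A` from the left side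
to the right side and a path of `B` from the bottom to the top have a common vertex. -/
theorem cross {A B : Set (ℤ × ℤ)} {a b c d : ℤ}
    (hA : ∀ z ∈ A, a ≤ z.1 ∧ z.1 ≤ b ∧ c ≤ z.2 ∧ z.2 ≤ d)
    (hB : ∀ z ∈ B, a ≤ z.1 ∧ z.1 ≤ b ∧ c ≤ z.2 ∧ z.2 ≤ d)
    {x x' y y' : ℤ × ℤ} (hx : Conn A x x') (hxa : x.1 = a) (hxb : x'.1 = b)
    (hy : Conn B y y') (hyc : y.2 = c) (hyd : y'.2 = d) : ∃ z, z ∈ A ∧ z ∈ B := by
  by_contra hno
  push Not at hno
  set A' : Set (ℤ × ℤ) := insert (b + 1, x'.2) A with hA'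
  have hBA : ∀ z ∈ B, z ∉ A' := by
    intro z hz hz'
    rcases hz' with rfl | hz'
    · have := (hB _ hz).2.1
      simp only [add_le_iff_nonpos_right, Int.reduceLE] at this
    · exact hno z hz' hz
  have hconn : Conn A' x (b + 1, x'.2) := by
    refine (hx.mono (Set.subset_insert _ _)).tail ?_ (Set.mem_insert _ _)
    rw [adj_iff]
    left
    exact ⟨by rw [hxb], rfl⟩
  obtain ⟨U, h1, h2, h3, h4, h5⟩ := exists_parity hconn
  have key : ∀ z, Conn B y z → U z = 1 := by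
    intro z hz
    refine Conn.ind (S := B) (fun z => U z = 1) ?_ ?_ hz
    · have hyB := hy.left_mem
      have hyr := hB y hyB
      rw [h5 y]
      · simp only [lft]
        rw [if_pos (by omega), if_neg (by omega)]
        decide
      · intro w hw hwy
        rcases hw with rfl | hw
        · exfalso
          have : b + 1 = y.1 := hwy
          omega
        · have hwr := hA w hw
          rcases lt_or_eq_of_le hwr.2.2.1 with h | h
          · omega
          · exfalso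
            exact hno w hw (by
              have : w = y := Prod.ext hwy (by omega)
              rw [this]; exact hyB)
    · intro u v hu huv hv ih
      have huB := hu.right_mem
      have hur := hB u huB
      have hvr := hB v hv
      have huA := hBA u huB
      have hvA := hBA v hv
      obtain ⟨u1, u2⟩ := u
      obtain ⟨v1, v2⟩ := v
      rw [adj_iff] at huv
      dsimp only at huv hur hvr
      have fin2 : ∀ s t : ZMod 2, s + t = 0 → s = 1 → t = 1 := by decide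
      have fin2' : ∀ s t : ZMod 2, s + t = 0 → t = 1 → s = 1 := by decide
      have hx1 : x.1 = a := hxa
      rcases huv with h | h | h | h | h | h <;> obtain ⟨rfl, rfl⟩ := h
      · refine fin2 _ _ ?_ ih
        rw [h2 (u1, v2) huA hvA]
        simp only [col]
        rw [if_neg (by omega), if_neg (by omega)]
        rfl
      · have e : (u1 - 1 + 1, v2) = (u1, v2) := by simp
        refine fin2' _ _ ?_ ih
        have := h2 (u1 - 1, v2) hvA (by rw [e]; exact huA)
        dsimp only at this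
        rw [e] at this
        rw [this]
        simp only [col]
        rw [if_neg (by omega), if_neg (by omega)]
        rfl
      · rw [← h1 (v1, u2) hvA]
        exact ih
      · have e : (v1, u2 - 1 + 1) = (v1, u2) := by simp
        have := h1 (v1, u2 - 1) (by dsimp only; rw [e]; exact huA)
        dsimp only at this
        rw [this, e]
        exact ih
      · refine fin2 _ _ ?_ ih
        rw [h3 (u1, u2) huA hvA]
        simp only [col]
        rw [if_neg (by omega), if_neg (by omega)]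
        rfl
      · have e : (u1 - 1 + 1, u2 + 1 - 1) = (u1, u2) := by simp
        refine fin2' _ _ ?_ ih
        have := h3 (u1 - 1, u2 + 1) hvA (by dsimp only; rw [e]; exact huA)
        dsimp only at this
        rw [e] at this
        rw [this]
        simp only [col]
        rw [if_neg (by omega), if_neg (by omega)]
        rfl
  have hy1 := key y' hy
  have hy'r := hB y' hy.right_mem
  rw [h4 y'] at hy1
  · exact zero_ne_one hy1
  · intro w hw hwy
    rcases hw with rfl | hw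
    · exfalso
      have : b + 1 = y'.1 := hwy
      omega
    · have := hA w hw
      omega

end Vale.Agent.P153.Topo
end

section

/-!
Block S of the six-vertex GFF theorem: the problem-level statement. Time runs in the first
coordinate (columns), the ring is the second coordinate. `Sum.inl (x, y)` is the horizontal edge
between the faces `(x, y - 1)` and `(x, y)`; `Sum.inr (x, y)` is the vertical edge between the
faces `(x - 1, y)` and `(x, y)`.
-/

namespace Vale.Agent.P152.GFF.S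

open Finset Filter Topology MeasureTheory ProbabilityTheory


/-- Smooth compactly supported function on the plane with integral zero. -/
def Test (f : ℝ × ℝ → ℝ) : Prop := ContDiff ℝ ((⊤ : ℕ∞) : WithTop ℕ∞) f ∧ HasCompactSupport f ∧ ∫ x, f x = 0

/-- Rescaled height: `h_δ(x) = h(⌊x₁/δ⌋, ⌊x₂/δ⌋)`. -/
noncomputable def hd (h : ℤ × ℤ → ℤ) (δ : ℝ) (x : ℝ × ℝ) : ℝ := (h (⌊x.1 / δ⌋, ⌊x.2 / δ⌋) : ℝ)

/-- `G(x,y) = -(2π)⁻¹ log |x - y|`. -/
noncomputable def green (x y : ℝ × ℝ) : ℝ :=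
  -(2 * Real.pi)⁻¹ * Real.log (Real.sqrt ((x.1 - y.1) ^ 2 + (x.2 - y.2) ^ 2))

/-- Covariance of the Gaussian free field modulo constants. -/
noncomputable def gffCov (f g : ℝ × ℝ → ℝ) : ℝ := ∫ x, ∫ y, green x y * f x * g y

/-- `∫ h_δ f`. -/
noncomputable def hint (h : ℤ × ℤ → ℤ) (δ : ℝ) (f : ℝ × ℝ → ℝ) : ℝ := ∫ x, hd h δ x * f x

end Vale.Agent.P152.GFF.S
end

section

/-!
Block S, items S3 and S4: the integral of the rescaled height against a derivative, by summation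
by parts over the cells.
-/

namespace Vale.Agent.P152.GFF.S

open Finset Filter Topology MeasureTheory ProbabilityTheory

/-- The cell of the face `v`. -/
def hcell (δ : ℝ) (v : ℤ × ℤ) : Set (ℝ × ℝ) :=
  Set.Ico (δ * v.1) (δ * (v.1 + 1)) ×ˢ Set.Ico (δ * v.2) (δ * (v.2 + 1))

/-- The box of faces `[-N,N]²`. -/
noncomputable def hbox (N : ℕ) : Finset (ℤ × ℤ) := Finset.Icc (-(N : ℤ)) N ×ˢ Finset.Icc (-(N : ℤ)) N

lemma hcell_meas (δ : ℝ) (v : ℤ × ℤ) : MeasurableSet (hcell δ v) :=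
  measurableSet_Ico.prod measurableSet_Ico

lemma mem_hcell {δ : ℝ} (hδ : 0 < δ) (v : ℤ × ℤ) (x : ℝ × ℝ) :
    x ∈ hcell δ v ↔ (⌊x.1 / δ⌋, ⌊x.2 / δ⌋) = v := by
  obtain ⟨a, b⟩ := v
  obtain ⟨s, t⟩ := x
  simp only [hcell, Set.mem_prod, Set.mem_Ico, Prod.mk.injEq, Int.floor_eq_iff, le_div_iff₀ hδ,
    div_lt_iff₀ hδ]
  constructor
  · rintro ⟨⟨h1, h2⟩, h3, h4⟩
    exact ⟨⟨by linarith [mul_comm δ (a : ℝ)], by linarith only [h2]⟩,
      by linarith [mul_comm δ (b : ℝ)], by linarith [mul_comm δ ((b : ℝ) + 1)]⟩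
  · rintro ⟨⟨h1, h2⟩, h3, h4⟩
    exact ⟨⟨by linarith [mul_comm δ (a : ℝ)], by linarith [mul_comm δ ((a : ℝ) + 1)]⟩,
      by linarith [mul_comm δ (b : ℝ)], by linarith [mul_comm δ ((b : ℝ) + 1)]⟩

/-- An index is in the box as soon as its cell, or the corner of its cell, meets `[-R,R]`. -/
lemma idx_mem {δ R t : ℝ} (hδ : 0 < δ) {N : ℕ} (hN : R / δ + 1 ≤ N) (ht : |t| ≤ R) {a : ℤ}
    (h1 : δ * a ≤ t) (h2 : t ≤ δ * (a + 1)) : a ∈ Finset.Icc (-(N : ℤ)) N := by
  have h3 : R ≤ δ * (N - 1) := by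
    have : R / δ ≤ N - 1 := by linarith
    rw [div_le_iff₀ hδ] at this
    linarith only [this]
  rw [abs_le] at ht
  rw [Finset.mem_Icc]
  constructor
  · have h4 : δ * (-(N : ℝ)) ≤ δ * a := by linarith
    have h5 := le_of_mul_le_mul_left h4 hδ
    exact_mod_cast h5
  · have h4 : δ * (a : ℝ) ≤ δ * N := by linarith
    have h5 := le_of_mul_le_mul_left h4 hδ
    exact_mod_cast h5

/-- The integral of the rescaled height as a sum over the cells. -/
lemma hint_cells (h : ℤ × ℤ → ℤ) {δ : ℝ} (hδ : 0 < δ) {F : ℝ × ℝ → ℝ} (hF : Integrable F)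
    {R : ℝ} (hR : ∀ x : ℝ × ℝ, F x ≠ 0 → |x.1| ≤ R ∧ |x.2| ≤ R) {N : ℕ} (hN : R / δ + 1 ≤ N) :
    hint h δ F = ∑ v ∈ hbox N, (h v : ℝ) * ∫ x in hcell δ v, F x := by
  have key : ∀ x, hd h δ x * F x =
      ∑ v ∈ hbox N, (hcell δ v).indicator (fun x => (h v : ℝ) * F x) x := by
    intro x
    by_cases hx : F x = 0
    · rw [hx, mul_zero]
      symm
      refine Finset.sum_eq_zero fun v _ => ?_
      by_cases hv : x ∈ hcell δ v
      · rw [Set.indicator_of_mem hv, hx, mul_zero]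
      · rw [Set.indicator_of_notMem hv]
    · have hx' := (mem_hcell hδ (⌊x.1 / δ⌋, ⌊x.2 / δ⌋) x).2 rfl
      have hxm := hx'
      simp only [hcell, Set.mem_prod, Set.mem_Ico] at hx'
      have hmem : (⌊x.1 / δ⌋, ⌊x.2 / δ⌋) ∈ hbox N := by
        refine Finset.mem_product.2 ⟨?_, ?_⟩
        · exact idx_mem hδ hN (hR x hx).1 hx'.1.1 hx'.1.2.le
        · exact idx_mem hδ hN (hR x hx).2 hx'.2.1 hx'.2.2.le
      rw [Finset.sum_eq_single_of_mem _ hmem, Set.indicator_of_mem hxm]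
      · rfl
      · intro v _ hv
        refine Set.indicator_of_notMem (fun hc => hv ?_) _
        exact ((mem_hcell hδ v x).1 hc).symm
  unfold hint
  simp_rw [key]
  rw [integral_finsetSum]
  · refine Finset.sum_congr rfl fun v _ => ?_
    rw [integral_indicator (hcell_meas δ v), integral_const_mul]
  · intro v _
    exact (hF.const_mul _).indicator (hcell_meas δ v)

lemma cell_zero {δ : ℝ} (hδ : 0 < δ) {R : ℝ} {N : ℕ} (hN : R / δ + 1 ≤ N) {g : ℝ × ℝ → ℝ}
    (hg : ∀ x : ℝ × ℝ, g x ≠ 0 → |x.1| ≤ R ∧ |x.2| ≤ R) {v : ℤ × ℤ} (hv : v ∉ hbox N) :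
    ∫ x in hcell δ v, g x = 0 := by
  refine setIntegral_eq_zero_of_forall_eq_zero fun x hx => ?_
  by_contra hne
  obtain ⟨h3, h4⟩ := hg _ hne
  simp only [hcell, Set.mem_prod, Set.mem_Ico] at hx
  exact hv (Finset.mem_product.2 ⟨idx_mem hδ hN h3 hx.1.1 hx.1.2.le,
    idx_mem hδ hN h4 hx.2.1 hx.2.2.le⟩)

end Vale.Agent.P152.GFF.S
end

section

/-!
P152, block S, S10b, S10c: integrability of the Green function, bilinearity and symmetry of the
covariance of the free field.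
-/

namespace Vale.Agent.P152.GFF.S

open Finset Filter Topology MeasureTheory ProbabilityTheory

/-! ### Integrability of the Green function -/

/-- The logarithm of the norm cut off at radius `M`. -/
noncomputable def S10_phi (M : ℝ) (z : ℝ × ℝ) : ℝ :=
  if |z.1| ≤ M ∧ |z.2| ≤ M then |Real.log (Real.sqrt (z.1 ^ 2 + z.2 ^ 2))| else 0

lemma S10_log_bound {M : ℝ} (hM : 1 ≤ M) {z : ℝ × ℝ} (h0 : z.1 ≠ 0) (h1 : |z.1| ≤ M)
    (h2 : |z.2| ≤ M) :
    |Real.log (Real.sqrt (z.1 ^ 2 + z.2 ^ 2))| ≤ |Real.log z.1| + Real.log (2 * M) := by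
  have ha : 0 < |z.1| := abs_pos.mpr h0
  have hr1 : |z.1| ≤ Real.sqrt (z.1 ^ 2 + z.2 ^ 2) := by
    apply Real.abs_le_sqrt
    nlinarith only []
  have hr0 : 0 < Real.sqrt (z.1 ^ 2 + z.2 ^ 2) := ha.trans_le hr1
  have hr2 : Real.sqrt (z.1 ^ 2 + z.2 ^ 2) ≤ 2 * M := by
    rw [Real.sqrt_le_left (by linarith only [hM])]
    have e1 : z.1 ^ 2 ≤ M ^ 2 := by
      rw [← sq_abs z.1]
      exact pow_le_pow_left₀ (abs_nonneg _) h1 2
    have e2 : z.2 ^ 2 ≤ M ^ 2 := by
      rw [← sq_abs z.2]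
      exact pow_le_pow_left₀ (abs_nonneg _) h2 2
    nlinarith only [e1, e2]
  have hlM : 0 ≤ Real.log (2 * M) := Real.log_nonneg (by linarith only [hM])
  rcases le_total 1 (Real.sqrt (z.1 ^ 2 + z.2 ^ 2)) with h | h
  · rw [abs_of_nonneg (Real.log_nonneg h)]
    have := Real.log_le_log hr0 hr2
    have := abs_nonneg (Real.log z.1)
    linarith
  · rw [abs_of_nonpos (Real.log_nonpos hr0.le h)]
    have e3 : Real.log |z.1| ≤ Real.log (Real.sqrt (z.1 ^ 2 + z.2 ^ 2)) :=
      Real.log_le_log ha hr1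
    rw [Real.log_abs] at e3
    have e4 : -Real.log z.1 ≤ |Real.log z.1| := neg_le_abs _
    linarith only [hlM, e3, e4]

lemma S10_phi_integrable {M : ℝ} (hM : 1 ≤ M) : Integrable (S10_phi M) := by
  have hI : MeasurableSet {t : ℝ | |t| ≤ M} :=
    measurableSet_le continuous_abs.measurable measurable_const
  have hset : {t : ℝ | |t| ≤ M} = Set.Icc (-M) M := by
    ext t
    simp only [Set.mem_ofPred_eq, Set.mem_Icc, abs_le]
  have hlog : IntegrableOn (fun t : ℝ => |Real.log t| + Real.log (2 * M)) {t : ℝ | |t| ≤ M} := by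
    rw [hset]
    have h1 : IntegrableOn Real.log (Set.Icc (-M) M) := by
      have h2 : IntervalIntegrable Real.log volume (-M) M := intervalIntegral.intervalIntegrable_log'
      rwa [intervalIntegrable_iff_integrableOn_Icc_of_le (by linarith)] at h2
    exact h1.abs.add (integrableOn_const (by rw [Real.volume_Icc]; exact ENNReal.ofReal_ne_top))
  have hone : IntegrableOn (fun _ : ℝ => (1 : ℝ)) {t : ℝ | |t| ≤ M} := by
    rw [hset]
    exact integrableOn_const (by rw [Real.volume_Icc]; exact ENNReal.ofReal_ne_top)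
  have hprod : Integrable (fun z : ℝ × ℝ =>
      {t : ℝ | |t| ≤ M}.indicator (fun t : ℝ => |Real.log t| + Real.log (2 * M)) z.1 *
        {t : ℝ | |t| ≤ M}.indicator (fun _ : ℝ => (1 : ℝ)) z.2) (volume.prod volume) :=
    (hlog.integrable_indicator hI).mul_prod (hone.integrable_indicator hI)
  have hmeas : Measurable (S10_phi M) := by
    unfold S10_phi
    refine Measurable.ite ?_ ?_ measurable_const
    · exact (measurableSet_le (continuous_abs.measurable.comp measurable_fst)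
        measurable_const).inter (measurableSet_le (continuous_abs.measurable.comp measurable_snd)
        measurable_const)
    · fun_prop
  refine Integrable.mono' hprod hmeas.aestronglyMeasurable ?_
  have hne : ∀ᵐ z : ℝ × ℝ, z.1 ≠ 0 := by
    have h0 : (volume : Measure (ℝ × ℝ)) ({(0 : ℝ)} ×ˢ Set.univ) = 0 := by
      rw [Measure.volume_eq_prod, Measure.prod_prod]
      simp
    refine measure_mono_null (fun z hz => ?_) h0
    simp only [Set.mem_compl_iff, Set.mem_ofPred_eq, not_not] at hz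
    exact ⟨hz, Set.mem_univ _⟩
  filter_upwards [hne] with z hz
  unfold S10_phi
  by_cases h : |z.1| ≤ M ∧ |z.2| ≤ M
  · rw [if_pos h, Set.indicator_of_mem (show z.1 ∈ {t : ℝ | |t| ≤ M} from h.1),
      Set.indicator_of_mem (show z.2 ∈ {t : ℝ | |t| ≤ M} from h.2), mul_one, Real.norm_eq_abs,
      abs_abs]
    exact S10_log_bound hM hz h.1 h.2
  · rw [if_neg h, norm_zero]
    have hlM : 0 ≤ Real.log (2 * M) := Real.log_nonneg (by linarith only [hM])
    refine mul_nonneg (Set.indicator_nonneg (fun t _ => ?_) _)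
      (Set.indicator_nonneg (fun t _ => zero_le_one) _)
    (clear * - hlM; positivity)

lemma S10_green_comm (x y : ℝ × ℝ) : green x y = green y x := by
  unfold green
  rw [show (x.1 - y.1) ^ 2 = (y.1 - x.1) ^ 2 by ring,
    show (x.2 - y.2) ^ 2 = (y.2 - x.2) ^ 2 by ring]

/-- S10b. Integrability of the Green function against bounded compactly supported functions. -/
theorem green_integrable {f g : ℝ × ℝ → ℝ} (hf : Continuous f) (hg : Continuous g)
    (cf : HasCompactSupport f) (cg : HasCompactSupport g) :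
    Integrable (fun p : (ℝ × ℝ) × (ℝ × ℝ) => green p.1 p.2 * f p.1 * g p.2) := by
  obtain ⟨Cf, hCf⟩ := cf.exists_bound_of_continuous hf
  obtain ⟨Rf, hRf⟩ := (Metric.isBounded_iff_subset_closedBall 0).mp cf.isCompact.isBounded
  obtain ⟨Rg, hRg⟩ := (Metric.isBounded_iff_subset_closedBall 0).mp cg.isCompact.isBounded
  set M : ℝ := max 1 (Rf + Rg) with hM
  have hM1 : 1 ≤ M := le_max_left _ _
  have hM2 : Rf + Rg ≤ M := le_max_right _ _
  have hCf0 : 0 ≤ Cf := (norm_nonneg _).trans (hCf 0)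
  have hgi : Integrable (fun y => |g y|) := (hg.integrable_of_hasCompactSupport cg).abs
  have : (volume : Measure (ℝ × ℝ)).IsAddHaarMeasure :=
    Measure.prod.instIsAddHaarMeasure volume volume
  have hconv : Integrable (fun p : (ℝ × ℝ) × (ℝ × ℝ) => |g p.2| * S10_phi M (p.1 - p.2))
      (volume.prod volume) :=
    hgi.convolution_integrand (ContinuousLinearMap.mul ℝ ℝ) (S10_phi_integrable hM1)
  have hdom := hconv.const_mul ((2 * Real.pi)⁻¹ * Cf)
  refine Integrable.mono' hdom ?_ (Filter.Eventually.of_forall fun p => ?_)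
  · have hgr : Measurable fun p : (ℝ × ℝ) × (ℝ × ℝ) => green p.1 p.2 := by
      unfold green
      fun_prop
    exact ((hgr.mul (hf.measurable.comp measurable_fst)).mul
      (hg.measurable.comp measurable_snd)).aestronglyMeasurable
  · have hpi : 0 ≤ (2 * Real.pi)⁻¹ := by positivity
    have hphi0 : 0 ≤ S10_phi M (p.1 - p.2) := by
      unfold S10_phi
      split_ifs
      · exact abs_nonneg _
      · exact le_refl _
    by_cases hfz : f p.1 = 0
    · rw [hfz, mul_zero, zero_mul, norm_zero]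
      (clear * - hCf0 hphi0; positivity)
    by_cases hgz : g p.2 = 0
    · rw [hgz, mul_zero, norm_zero]
      (clear * - hCf0 hphi0; positivity)
    have hx : p.1 ∈ tsupport f := subset_tsupport f hfz
    have hy : p.2 ∈ tsupport g := subset_tsupport g hgz
    have hx' : ‖p.1‖ ≤ Rf := by
      have := hRf hx
      rwa [Metric.mem_closedBall, dist_zero_right] at this
    have hy' : ‖p.2‖ ≤ Rg := by
      have := hRg hy
      rwa [Metric.mem_closedBall, dist_zero_right] at this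
    have hd : ‖p.1 - p.2‖ ≤ M := (norm_sub_le _ _).trans (by linarith only [hM2, hx', hy'])
    have hd1 : |(p.1 - p.2).1| ≤ M := (norm_fst_le (p.1 - p.2)).trans hd
    have hd2 : |(p.1 - p.2).2| ≤ M := (norm_snd_le (p.1 - p.2)).trans hd
    have e1 : S10_phi M (p.1 - p.2) =
        |Real.log (Real.sqrt ((p.1.1 - p.2.1) ^ 2 + (p.1.2 - p.2.2) ^ 2))| := by
      unfold S10_phi
      rw [if_pos ⟨hd1, hd2⟩]
      rfl
    have e2 : ‖green p.1 p.2‖ = (2 * Real.pi)⁻¹ * S10_phi M (p.1 - p.2) := by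
      rw [e1]
      unfold green
      rw [norm_mul, norm_neg, Real.norm_eq_abs, abs_of_nonneg hpi, Real.norm_eq_abs]
    rw [norm_mul, norm_mul, e2]
    calc (2 * Real.pi)⁻¹ * S10_phi M (p.1 - p.2) * ‖f p.1‖ * ‖g p.2‖
        ≤ (2 * Real.pi)⁻¹ * S10_phi M (p.1 - p.2) * Cf * ‖g p.2‖ := by
          refine mul_le_mul_of_nonneg_right ?_ (norm_nonneg _)
          exact mul_le_mul_of_nonneg_left (hCf _) (by (clear * - hphi0; positivity))
      _ = (2 * Real.pi)⁻¹ * Cf * (|g p.2| * S10_phi M (p.1 - p.2)) := by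
          rw [Real.norm_eq_abs]
          ring

/-- The covariance as an integral over the product. -/
theorem S10_gffCov_eq_prod {f g : ℝ × ℝ → ℝ} (hf : Continuous f) (hg : Continuous g)
    (cf : HasCompactSupport f) (cg : HasCompactSupport g) :
    gffCov f g = ∫ p : (ℝ × ℝ) × (ℝ × ℝ), green p.1 p.2 * f p.1 * g p.2 := by
  have h := green_integrable hf hg cf cg
  unfold gffCov
  rw [Measure.volume_eq_prod] at h ⊢
  exact (integral_prod _ h).symm

/-- S10c. Bilinearity and symmetry. -/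
theorem gffCov_symm {f g : ℝ × ℝ → ℝ} (hf : Continuous f) (hg : Continuous g)
    (cf : HasCompactSupport f) (cg : HasCompactSupport g) : gffCov f g = gffCov g f := by
  have h := green_integrable hf hg cf cg
  rw [Measure.volume_eq_prod] at h
  unfold gffCov
  rw [integral_integral_swap h]
  refine integral_congr_ae (Filter.Eventually.of_forall fun x => ?_)
  refine integral_congr_ae (Filter.Eventually.of_forall fun y => ?_)
  simp only
  rw [S10_green_comm x y]
  ring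

theorem gffCov_add {f g h : ℝ × ℝ → ℝ} (hf : Continuous f) (hg : Continuous g)
    (hh : Continuous h) (cf : HasCompactSupport f) (cg : HasCompactSupport g)
    (ch : HasCompactSupport h) :
    gffCov (fun x => f x + g x) h = gffCov f h + gffCov g h := by
  rw [S10_gffCov_eq_prod (f := fun x => f x + g x) (hf.add hg) hh (cf.add cg) ch,
    S10_gffCov_eq_prod hf hh cf ch,
    S10_gffCov_eq_prod hg hh cg ch, ← integral_add (green_integrable hf hh cf ch)
      (green_integrable hg hh cg ch)]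
  refine integral_congr_ae (Filter.Eventually.of_forall fun p => ?_)
  simp only
  ring

end Vale.Agent.P152.GFF.S
end
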