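import Mathlib

set_option linter.all false

section

namespace Vale.Agent.P153

open Finset

/-- lattice steps -/
def Step (x y : ℤ × ℤ) : Prop :=
  (y.1 = x.1 + 1 ∧ y.2 = x.2) ∨ (y.1 = x.1 - 1 ∧ y.2 = x.2) ∨
  (y.1 = x.1 ∧ y.2 = x.2 + 1) ∨ (y.1 = x.1 ∧ y.2 = x.2 - 1) ∨
  (y.1 = x.1 + 1 ∧ y.2 = x.2 - 1) ∨ (y.1 = x.1 - 1 ∧ y.2 = x.2 + 1)

end Vale.Agent.P153
end

section

/-!
Bichromatic connections in the triangular lattice, hexagonal boxes, and a colouring of a hexagonal
box which is connected by bichromatic edges and is attached to three prescribed outer vertices.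
-/

namespace Vale.Agent.P153.BK

open Relation

/-- The edge `x y` is bichromatic for `τ`. -/
def Bi (τ : ℤ × ℤ → Bool) (x y : ℤ × ℤ) : Prop := Step x y ∧ τ x ≠ τ y

/-- `x` and `y` are joined by bichromatic edges inside `A` (or equal). -/
def Con (τ : ℤ × ℤ → Bool) (A : Set (ℤ × ℤ)) (x y : ℤ × ℤ) : Prop :=
  ReflTransGen (fun u v => Bi τ u v ∧ u ∈ A ∧ v ∈ A) x y

theorem Bi.symm {τ : ℤ × ℤ → Bool} {x y : ℤ × ℤ} (h : Bi τ x y) : Bi τ y x :=
  ⟨by have := h.1; unfold Step at this ⊢; rcases this with this | this | this | this | this | this <;> omega, h.2.symm⟩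

section Con

variable {τ τ' : ℤ × ℤ → Bool} {A B : Set (ℤ × ℤ)} {x y z : ℤ × ℤ}

theorem Con.refl (τ : ℤ × ℤ → Bool) (A : Set (ℤ × ℤ)) (x : ℤ × ℤ) : Con τ A x x :=
  ReflTransGen.refl

theorem Con.trans (h : Con τ A x y) (h' : Con τ A y z) : Con τ A x z := ReflTransGen.trans h h'

theorem Con.symm (h : Con τ A x y) : Con τ A y x := by
  induction h with
  | refl => exact ReflTransGen.refl
  | tail _ hbc ih => exact ReflTransGen.head ⟨hbc.1.symm, hbc.2.2, hbc.2.1⟩ ih

theorem Con.mono (h : Con τ A x y) (hAB : A ⊆ B) : Con τ B x y :=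
  ReflTransGen.mono (fun _ _ h => ⟨h.1, hAB h.2.1, hAB h.2.2⟩) _ _ h

theorem Con.single (h : Bi τ x y) (hx : x ∈ A) (hy : y ∈ A) : Con τ A x y :=
  ReflTransGen.single ⟨h, hx, hy⟩

theorem Con.right_mem (h : Con τ A x y) (hx : x ∈ A) : y ∈ A := by
  induction h with
  | refl => exact hx
  | tail _ hbc _ => exact hbc.2.2

theorem Con.congr (h : Con τ A x y) (hA : ∀ z ∈ A, τ z = τ' z) : Con τ' A x y :=
  ReflTransGen.mono (fun u v h => ⟨⟨h.1.1, by rw [← hA u h.2.1, ← hA v h.2.2]; exact h.1.2⟩,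
    h.2⟩) _ _ h

theorem con_equivalence (τ : ℤ × ℤ → Bool) (A : Set (ℤ × ℤ)) : Equivalence (Con τ A) :=
  ⟨Con.refl τ A, Con.symm, Con.trans⟩

/-- A connection inside `A` either stays in `B` or meets a vertex of `A ∩ B` all of whose initial
part lies in `B` and which has a neighbour in `A \ B`. -/
theorem Con.exit (h : Con τ A x y) (hx : x ∈ B) : Con τ (A ∩ B) x y ∨
    ∃ u v, Con τ (A ∩ B) x u ∧ u ∈ B ∧ Bi τ u v ∧ v ∉ B ∧ u ∈ A ∧ v ∈ A := by
  induction h with
  | refl => exact Or.inl (Con.refl _ _ _)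
  | @tail b c hab hbc ih =>
    rcases ih with h | h
    · have hb : b ∈ B := by
        rcases ReflTransGen.cases_tail h with rfl | ⟨d, -, hd⟩
        · exact hx
        · exact hd.2.2.2
      by_cases hc : c ∈ B
      · exact Or.inl (h.trans (Con.single hbc.1 ⟨hbc.2.1, hb⟩ ⟨hbc.2.2, hc⟩))
      · exact Or.inr ⟨b, c, h, hb, hbc.1, hc, hbc.2.1, hbc.2.2⟩
    · exact Or.inr h

end Con

/-- The hexagon of radius `n` around the origin. -/
def H (n : ℤ) : Set (ℤ × ℤ) :=
  {x | -n ≤ x.1 ∧ x.1 ≤ n ∧ -n ≤ x.2 ∧ x.2 ≤ n ∧ -n ≤ x.1 + x.2 ∧ x.1 + x.2 ≤ n}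

theorem mem_H {n : ℤ} {x : ℤ × ℤ} : x ∈ H n ↔
    -n ≤ x.1 ∧ x.1 ≤ n ∧ -n ≤ x.2 ∧ x.2 ≤ n ∧ -n ≤ x.1 + x.2 ∧ x.1 + x.2 ≤ n := Iff.rfl

/-- Stripes with one flipped vertex. -/
def pat (ε : Bool) (v x : ℤ × ℤ) : Bool := xor (xor ε (decide (x.2 % 2 = 1))) (decide (x = v))

theorem pat_row {ε : Bool} {v x y : ℤ × ℤ} (h : y.2 = x.2 + 1 ∨ y.2 = x.2 - 1) (hx : x ≠ v)
    (hy : y ≠ v) : pat ε v x ≠ pat ε v y := by
  have e : decide (y.2 % 2 = 1) = !decide (x.2 % 2 = 1) := by
    rw [← decide_not]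
    congr 1
    apply propext
    (clear * - h; omega)
  simp only [pat, hx, hy, decide_false, Bool.xor_false, e]
  cases ε <;> cases decide (x.2 % 2 = 1) <;> simp

theorem pat_flip {ε : Bool} {v y : ℤ × ℤ} (h : y.2 = v.2) (hy : y ≠ v) :
    pat ε v v ≠ pat ε v y := by
  simp only [pat, hy, decide_false, Bool.xor_false, h, decide_true]
  cases ε <;> cases decide (v.2 % 2 = 1) <;> simp

variable {n : ℤ} {ε : Bool} {v : ℤ × ℤ} {τ : ℤ × ℤ → Bool}

/-- One step towards the middle row. -/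
theorem con_down (hn : 2 ≤ n) (hτ : ∀ x ∈ H n, τ x = pat ε v x) {x : ℤ × ℤ} (hx : x ∈ H n)
    (h0 : x.2 ≠ 0) : ∃ y ∈ H n, y.2.natAbs < x.2.natAbs ∧ Con τ (H n) x y := by
  -- away from `v`
  have main : ∀ x ∈ H n, x.2 ≠ 0 → x ≠ v →
      ∃ y ∈ H n, y.2.natAbs < x.2.natAbs ∧ Con τ (H n) x y := by
    intro x hx h0 hxv
    obtain ⟨p, q⟩ := x
    rw [mem_H] at hx
    simp only at hx h0
    rcases lt_or_gt_of_ne h0 with hq | hq
    · -- lower half
      by_cases hv : ((p, q + 1) : ℤ × ℤ) = v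
      · have hmem : ((p - 1, q + 1) : ℤ × ℤ) ∈ H n := by rw [mem_H]; simp only; omega
        refine ⟨(p - 1, q + 1), hmem, by simp only; omega, Con.single ⟨?_, ?_⟩ ?_ hmem⟩
        · simp only [Step, add_eq_left, one_ne_zero, and_false, sub_eq_self, and_true, false_and, and_self, or_true]
        · rw [hτ _ (by rw [mem_H]; simp only; omega), hτ _ hmem]
          refine pat_row (Or.inl rfl) hxv ?_
          rw [← hv]; simp
        · rw [mem_H]; simp only; omega
      · have hmem : ((p, q + 1) : ℤ × ℤ) ∈ H n := by rw [mem_H]; simp only; omega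
        refine ⟨(p, q + 1), hmem, by simp only; omega, Con.single ⟨?_, ?_⟩ ?_ hmem⟩
        · simp only [Step, left_eq_add, one_ne_zero, add_eq_left, and_self, and_false, true_and, false_and, and_true, false_or, true_or, or_true]
        · rw [hτ _ (by rw [mem_H]; simp only; omega), hτ _ hmem]
          exact pat_row (Or.inl rfl) hxv hv
        · rw [mem_H]; simp only; omega
    · by_cases hv : ((p, q - 1) : ℤ × ℤ) = v
      · have hmem : ((p + 1, q - 1) : ℤ × ℤ) ∈ H n := by rw [mem_H]; simp only; omega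
        refine ⟨(p + 1, q - 1), hmem, by simp only; omega, Con.single ⟨?_, ?_⟩ ?_ hmem⟩
        · simp only [Step, sub_eq_self, one_ne_zero, and_false, add_eq_left, false_and, and_true, and_self, true_or, or_true]
        · rw [hτ _ (by rw [mem_H]; simp only; omega), hτ _ hmem]
          refine pat_row (Or.inr rfl) hxv ?_
          rw [← hv]; simp
        · rw [mem_H]; simp only; omega
      · have hmem : ((p, q - 1) : ℤ × ℤ) ∈ H n := by rw [mem_H]; simp only; omega
        refine ⟨(p, q - 1), hmem, by simp only; omega, Con.single ⟨?_, ?_⟩ ?_ hmem⟩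
        · simp [Step]
        · rw [hτ _ (by rw [mem_H]; simp only; omega), hτ _ hmem]
          exact pat_row (Or.inr rfl) hxv hv
        · rw [mem_H]; simp only; omega
  by_cases hxv : x = v
  · -- first move along the row
    obtain ⟨u, hu, hrow, huv, hst⟩ : ∃ u ∈ H n, u.2 = x.2 ∧ u ≠ x ∧ Step x u := by
      obtain ⟨p, q⟩ := x
      rw [mem_H] at hx
      simp only at hx h0
      by_cases hc : ((p + 1, q) : ℤ × ℤ) ∈ H n
      · exact ⟨(p + 1, q), hc, rfl, by simp, by unfold Step; simp⟩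
      · refine ⟨(p - 1, q), ?_, rfl, by simp, by unfold Step; simp⟩
        rw [mem_H] at hc ⊢; simp only at hc ⊢; omega
    obtain ⟨y, hy, hlt, hcon⟩ := main u hu (by rw [hrow]; exact h0) (by rw [← hxv]; exact huv)
    refine ⟨y, hy, by rw [← hrow]; exact hlt, Con.trans (Con.single ⟨hst, ?_⟩ hx hu) hcon⟩
    rw [hτ _ hx, hτ _ hu]
    subst hxv
    exact pat_flip hrow huv
  · exact main x hx h0 hxv

/-- Two neighbours in the middle row. -/
theorem con_mid (hτ : ∀ x ∈ H n, τ x = pat ε v x) {a : ℤ} (h1 : -n ≤ a) (h2 : a < n) :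
    Con τ (H n) (a, 0) (a + 1, 0) := by
  have m0 : ((a, 0) : ℤ × ℤ) ∈ H n := by rw [mem_H]; simp only; omega
  have m1 : ((a + 1, 0) : ℤ × ℤ) ∈ H n := by rw [mem_H]; simp only; omega
  have m2 : ((a, 1) : ℤ × ℤ) ∈ H n := by rw [mem_H]; simp only; omega
  have m3 : ((a + 1, -1) : ℤ × ℤ) ∈ H n := by rw [mem_H]; simp only; omega
  by_cases hv0 : ((a, 0) : ℤ × ℤ) = v
  · refine Con.single ⟨by unfold Step; simp only [and_self, and_true, add_eq_left, one_ne_zero, zero_add, zero_ne_one, zero_sub, Int.reduceNeg, zero_eq_neg, and_false, or_self, or_false, true_or], ?_⟩ m0 m1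
    rw [hτ _ m0, hτ _ m1]
    subst hv0
    exact pat_flip rfl (by simp)
  by_cases hv1 : ((a + 1, 0) : ℤ × ℤ) = v
  · refine Con.single ⟨by unfold Step; simp only [and_self, and_true, add_eq_left, one_ne_zero, zero_add, zero_ne_one, zero_sub, Int.reduceNeg, zero_eq_neg, and_false, or_self, or_false, true_or], ?_⟩ m0 m1
    rw [hτ _ m0, hτ _ m1]
    subst hv1
    exact (pat_flip (v := (a + 1, 0)) (y := (a, 0)) rfl hv0).symm
  by_cases hv2 : ((a, 1) : ℤ × ℤ) = v
  · have hv3 : ((a + 1, -1) : ℤ × ℤ) ≠ v := by rw [← hv2]; simp only [Int.reduceNeg, ne_eq, Prod.mk.injEq, add_eq_left, one_ne_zero, reduceCtorEq, and_self, not_false_eq_true]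
    refine (Con.single (y := (a + 1, -1)) ⟨by unfold Step; simp, ?_⟩ m0 m3).trans
      (Con.single ⟨by unfold Step; simp, ?_⟩ m3 m1)
    · rw [hτ _ m0, hτ _ m3]; exact pat_row (Or.inr (by simp)) hv0 hv3
    · rw [hτ _ m3, hτ _ m1]; exact pat_row (Or.inl (by simp)) hv3 hv1
  · refine (Con.single (y := (a, 1)) ⟨by unfold Step; simp only [left_eq_add, one_ne_zero, and_self, and_false, zero_add, zero_sub, Int.reduceNeg, reduceCtorEq, and_true, false_or, true_or, or_true], ?_⟩ m0 m2).trans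
      (Con.single ⟨by unfold Step; simp, ?_⟩ m2 m1)
    · rw [hτ _ m0, hτ _ m2]; exact pat_row (Or.inl (by simp)) hv0 hv2
    · rw [hτ _ m2, hτ _ m1]; exact pat_row (Or.inr (by simp)) hv2 hv1

/-- Stripes with one flip are connected. -/
theorem pat_con (hn : 2 ≤ n) (hτ : ∀ x ∈ H n, τ x = pat ε v x) {x : ℤ × ℤ} (hx : x ∈ H n) :
    Con τ (H n) x (0, 0) := by
  have row : ∀ (k : ℕ) (a : ℤ), -n ≤ a → a ≤ n → (n - a).toNat = k →
      Con τ (H n) (a, 0) (n, 0) := by
    intro k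
    induction k with
    | zero => intro a h1 h2 h3; have : a = n := by omega
              subst this; exact Con.refl _ _ _
    | succ k ih =>
      intro a h1 h2 h3
      exact (con_mid hτ h1 (by omega)).trans (ih (a + 1) (by omega) (by omega) (by omega))
  have row0 : ∀ a : ℤ, -n ≤ a → a ≤ n → Con τ (H n) (a, 0) (0, 0) := fun a h1 h2 =>
    (row _ a h1 h2 rfl).trans (row _ 0 (by omega) (by omega) rfl).symm
  have main : ∀ (k : ℕ) (x : ℤ × ℤ), x ∈ H n → x.2.natAbs ≤ k → Con τ (H n) x (0, 0) := by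
    intro k
    induction k with
    | zero =>
      intro x hx h
      obtain ⟨p, q⟩ := x
      have hq : q = 0 := by simp only at h; omega
      subst hq
      rw [mem_H] at hx; simp only at hx
      exact row0 p (by omega) (by omega)
    | succ k ih =>
      intro x hx h
      by_cases h0 : x.2 = 0
      · exact ih x hx (by omega)
      · obtain ⟨y, hy, hlt, hc⟩ := con_down hn hτ hx h0
        exact hc.trans (ih y hy (by omega))
  exact main _ x hx le_rfl

end Vale.Agent.P153.BK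
end

section

/-!
# Characteristic function form of the martingale central limit theorem

`Y j` is `F (j+1)`-measurable, `V j` is `F j`-measurable and nonnegative.  If the conditional
characteristic functions of `Y j` are close to `exp (-V j / 2)` and `∑ V j` is close to `s`,
then the characteristic function of `∑ Y j` is close to `exp (-s / 2)`.
-/

namespace Vale.Agent.P153.CLT

open MeasureTheory Filter Finset
open scoped Topology

variable {Ω : Type*} {mΩ : MeasurableSpace Ω} {μ : Measure Ω}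

/-- `exp (i x)`. -/
noncomputable def ei (x : ℝ) : ℂ := Complex.exp (Complex.I * x)

lemma norm_ei (x : ℝ) : ‖ei x‖ = 1 := by
  unfold ei
  rw [mul_comm]
  exact Complex.norm_exp_ofReal_mul_I x

lemma ei_add (x y : ℝ) : ei (x + y) = ei x * ei y := by
  unfold ei
  rw [← Complex.exp_add]
  push_cast
  ring_nf

lemma ei_zero : ei 0 = 1 := by simp [ei]

lemma continuous_ei : Continuous ei := by
  unfold ei
  fun_prop

lemma measurable_ei : Measurable ei := continuous_ei.measurable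

lemma integrable_of_norm_le [IsFiniteMeasure μ] {E : Type*} [NormedAddCommGroup E] {f : Ω → E}
    (hf : AEStronglyMeasurable f μ) (C : ℝ) (h : ∀ ω, ‖f ω‖ ≤ C) : Integrable f μ :=
  Integrable.of_bound hf C (ae_of_all _ h)

/-- Pulling a bounded measurable factor out of an integral. -/
lemma integral_mul_condExp [IsProbabilityMeasure μ] {m : MeasurableSpace Ω} (hm : m ≤ mΩ)
    {Z f : Ω → ℂ} (hZ : StronglyMeasurable[m] Z) (C : ℝ) (hZC : ∀ ω, ‖Z ω‖ ≤ C)
    (hf : Integrable f μ) :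
    ∫ ω, Z ω * f ω ∂μ = ∫ ω, Z ω * (μ[f | m]) ω ∂μ := by
  have h1 := condExp_stronglyMeasurable_bilin_of_bound (μ := μ) (ContinuousLinearMap.mul ℝ ℂ)
    hm hZ hf C (ae_of_all _ hZC)
  simp only [ContinuousLinearMap.mul_apply'] at h1
  rw [← integral_condExp hm (f := fun ω => Z ω * f ω)]
  exact integral_congr_ae h1

/-- One step. -/
lemma step [IsProbabilityMeasure μ] {m : MeasurableSpace Ω} (hm : m ≤ mΩ)
    {Z : Ω → ℂ} (hZ : StronglyMeasurable[m] Z) (C : ℝ) (hZC : ∀ ω, ‖Z ω‖ ≤ C)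
    {Y : Ω → ℝ} (hY : Measurable[mΩ] Y) {e : Ω → ℂ} (he : StronglyMeasurable[m] e)
    (he1 : ∀ ω, ‖e ω‖ ≤ 1) :
    ‖∫ ω, Z ω * ei (Y ω) ∂μ - ∫ ω, Z ω * e ω ∂μ‖ ≤
      C * ∫ ω, ‖(μ[fun ω => ei (Y ω) | m]) ω - e ω‖ ∂μ := by
  have hC : 0 ≤ C := by
    obtain ⟨ω⟩ : Nonempty Ω := by
      by_contra h
      rw [not_nonempty_iff] at h
      have h1 := measure_univ (μ := μ)
      rw [Set.univ_eq_empty_iff.2 h, measure_empty] at h1
      exact zero_ne_one h1
    exact (norm_nonneg _).trans (hZC ω)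
  have hYi : Integrable (fun ω => ei (Y ω)) μ :=
    integrable_of_norm_le (measurable_ei.comp hY).aestronglyMeasurable 1
      (fun ω => (norm_ei _).le)
  have hei : Integrable e μ :=
    integrable_of_norm_le (he.mono hm).aestronglyMeasurable 1 he1
  have hZb : Integrable Z μ := integrable_of_norm_le (hZ.mono hm).aestronglyMeasurable C hZC
  have hc : Integrable (μ[fun ω => ei (Y ω) | m]) μ := integrable_condExp
  rw [integral_mul_condExp hm hZ C hZC hYi]
  have i1 : Integrable (fun ω => Z ω * (μ[fun ω => ei (Y ω) | m]) ω) μ :=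
    hc.bdd_mul (hZ.mono hm).aestronglyMeasurable (ae_of_all _ hZC)
  have i2 : Integrable (fun ω => Z ω * e ω) μ :=
    hei.bdd_mul (hZ.mono hm).aestronglyMeasurable (ae_of_all _ hZC)
  rw [← integral_sub i1 i2]
  refine (norm_integral_le_integral_norm _).trans ?_
  rw [← integral_const_mul]
  refine integral_mono_of_nonneg (ae_of_all _ fun ω => norm_nonneg _)
    ((hc.sub hei).norm.const_mul C) (ae_of_all _ fun ω => ?_)
  simp only
  rw [← mul_sub, norm_mul]
  exact mul_le_mul_of_nonneg_right (hZC ω) (norm_nonneg _)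

/-- The exponential weights `exp (i S_j + W_j / 2)`. -/
noncomputable def zz (Y V : ℕ → Ω → ℝ) (j : ℕ) (ω : Ω) : ℂ :=
  ei (∑ i ∈ range j, Y i ω) * ((Real.exp ((∑ i ∈ range j, V i ω) / 2) : ℝ) : ℂ)

lemma zz_zero (Y V : ℕ → Ω → ℝ) (ω : Ω) : zz Y V 0 ω = 1 := by simp only [zz, range_zero, sum_empty, ei_zero, zero_div, Real.exp_zero, Complex.ofReal_one, mul_one]

/-- The case of bounded total conditional variance. -/
lemma mart_bdd [IsProbabilityMeasure μ] (F : ℕ → MeasurableSpace Ω) (hF : ∀ j, F j ≤ mΩ)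
    (hmono : Monotone F) (Y V : ℕ → Ω → ℝ) (hY : ∀ j, Measurable[F (j + 1)] (Y j))
    (hV : ∀ j, Measurable[F j] (V j)) (hV0 : ∀ j ω, 0 ≤ V j ω) (B : ℝ) (J : ℕ)
    (hB : ∀ ω, ∑ i ∈ range J, V i ω ≤ B) :
    ‖∫ ω, zz Y V J ω ∂μ - 1‖ ≤ Real.exp (B / 2) *
      ∑ j ∈ range J, ∫ ω, ‖(μ[fun ω => ei (Y j ω) | F j]) ω -
        ((Real.exp (-(V j ω) / 2) : ℝ) : ℂ)‖ ∂μ := by
  have key : ∀ j, j ≤ J → ‖∫ ω, zz Y V j ω ∂μ - 1‖ ≤ Real.exp (B / 2) *
      ∑ j ∈ range j, ∫ ω, ‖(μ[fun ω => ei (Y j ω) | F j]) ω -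
        ((Real.exp (-(V j ω) / 2) : ℝ) : ℂ)‖ ∂μ := by
    intro j
    induction j with
    | zero =>
      intro _
      simp only [zz_zero, integral_const, probReal_univ, one_smul, sub_self, norm_zero, range_zero, Complex.ofReal_exp, Complex.ofReal_div, Complex.ofReal_neg, Complex.ofReal_ofNat, sum_empty, mul_zero, Std.le_refl]
    | succ j ih =>
      intro hj
      have ih := ih (by omega)
      -- the predictable factor
      set Z : Ω → ℂ := fun ω => ei (∑ i ∈ range j, Y i ω) *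
        ((Real.exp ((∑ i ∈ range (j + 1), V i ω) / 2) : ℝ) : ℂ) with hZdef
      have hSm : Measurable[F j] (fun ω => ∑ i ∈ range j, Y i ω) := by
        refine Finset.measurable_sum _ fun i hi => ?_
        exact (hY i).mono (hmono (by have := mem_range.1 hi; omega)) le_rfl
      have hWm : Measurable[F j] (fun ω => ∑ i ∈ range (j + 1), V i ω) := by
        refine Finset.measurable_sum _ fun i hi => ?_
        exact (hV i).mono (hmono (by have := mem_range.1 hi; omega)) le_rfl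
      have hZm : Measurable[F j] Z := by
        refine Measurable.mul ?_ ?_
        · exact measurable_ei.comp hSm
        · exact Complex.measurable_ofReal.comp (Real.measurable_exp.comp (hWm.div_const 2))
      have hZs : StronglyMeasurable[F j] Z := hZm.stronglyMeasurable
      have hWB : ∀ ω, ∑ i ∈ range (j + 1), V i ω ≤ B := by
        intro ω
        refine le_trans ?_ (hB ω)
        exact Finset.sum_le_sum_of_subset_of_nonneg
          (Finset.range_subset_range.2 (by omega)) (fun i _ _ => hV0 i ω)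
      have hZC : ∀ ω, ‖Z ω‖ ≤ Real.exp (B / 2) := by
        intro ω
        simp only [hZdef]
        rw [norm_mul, norm_ei, one_mul, Complex.norm_real, Real.norm_eq_abs,
          abs_of_pos (Real.exp_pos _)]
        exact Real.exp_le_exp.2 (by have := hWB ω; (clear * - this; linarith))
      have hst := step (μ := μ) (hF j) hZs (Real.exp (B / 2)) hZC ((hY j).mono (hF (j + 1)) le_rfl)
        (e := fun ω => ((Real.exp (-(V j ω) / 2) : ℝ) : ℂ))
        ((Complex.measurable_ofReal.comp (Real.measurable_exp.comp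
          ((hV j).neg.div_const 2))).stronglyMeasurable)
        (fun ω => by
          rw [Complex.norm_real, Real.norm_eq_abs, abs_of_pos (Real.exp_pos _)]
          rw [Real.exp_le_one_iff]
          have := hV0 j ω
          linarith only [this])
      have e1 : ∀ ω, Z ω * ei (Y j ω) = zz Y V (j + 1) ω := by
        intro ω
        simp only [hZdef, zz]
        rw [Finset.sum_range_succ (fun i => Y i ω), ei_add]
        ring
      have e2 : ∀ ω, Z ω * ((Real.exp (-(V j ω) / 2) : ℝ) : ℂ) = zz Y V j ω := by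
        intro ω
        simp only [hZdef, zz]
        rw [Finset.sum_range_succ (fun i => V i ω), mul_assoc, ← Complex.ofReal_mul,
          ← Real.exp_add]
        congr 3
        ring
      simp only [e1, e2] at hst
      rw [Finset.sum_range_succ, mul_add]
      calc ‖∫ ω, zz Y V (j + 1) ω ∂μ - 1‖
          = ‖(∫ ω, zz Y V j ω ∂μ - 1) + (∫ ω, zz Y V (j + 1) ω ∂μ - ∫ ω, zz Y V j ω ∂μ)‖ := by
            congr 1
            ring
        _ ≤ _ := (norm_add_le _ _).trans (add_le_add ih hst)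
  exact key J le_rfl

lemma abs_one_sub_exp_half_le {x : ℝ} (hx : x ≤ 1) : |1 - Real.exp (x / 2)| ≤ |x| := by
  rcases le_total x 0 with h | h
  · have h1 : Real.exp (x / 2) ≤ 1 := Real.exp_le_one_iff.2 (by linarith only [h])
    have h2 := Real.add_one_le_exp (x / 2)
    rw [abs_of_nonneg (by linarith only [h1]), abs_of_nonpos h]
    linarith only [h, h2]
  · have h1 : 1 ≤ Real.exp (x / 2) := Real.one_le_exp (by linarith only [h])
    have h2 := Real.add_one_le_exp (-(x / 2))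
    have h3 : Real.exp (x / 2) * Real.exp (-(x / 2)) = 1 := by
      rw [← Real.exp_add]
      simp
    have h4 : Real.exp (x / 2) ≤ 2 := by
      nlinarith only [hx, h2, h3]
    have h5 : Real.exp (x / 2) - 1 ≤ x := by
      nlinarith only [h2, h3, h4, h1]
    rw [abs_of_nonpos (by linarith only [h1]), abs_of_nonneg h]
    linarith only [h5]

/-- Martingale central limit theorem in characteristic function form, with explicit error. -/
theorem mart_clt [IsProbabilityMeasure μ] (F : ℕ → MeasurableSpace Ω) (hF : ∀ j, F j ≤ mΩ)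
    (hmono : Monotone F) (Y V : ℕ → Ω → ℝ) (hY : ∀ j, Measurable[F (j + 1)] (Y j))
    (hV : ∀ j, Measurable[F j] (V j)) (hV0 : ∀ j ω, 0 ≤ V j ω)
    (hVi : ∀ j, Integrable (V j) μ) (s : ℝ) (hs : 0 ≤ s) (J : ℕ) :
    ‖∫ ω, ei (∑ j ∈ range J, Y j ω) ∂μ - ((Real.exp (-s / 2) : ℝ) : ℂ)‖ ≤
      2 * ∑ j ∈ range J, ∫ ω, ‖(μ[fun ω => ei (Y j ω) | F j]) ω -
        ((Real.exp (-(V j ω) / 2) : ℝ) : ℂ)‖ ∂μ +
      (s + 4) * ∫ ω, |∑ j ∈ range J, V j ω - s| ∂μ := by
  classical
  set A : ℕ → Set Ω := fun j => {ω | ∑ i ∈ range (j + 1), V i ω ≤ s + 1} with hA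
  have hAm : ∀ j, MeasurableSet[F j] (A j) := by
    intro j
    have hWm : Measurable[F j] (fun ω => ∑ i ∈ range (j + 1), V i ω) := by
      refine Finset.measurable_sum _ fun i hi => ?_
      exact (hV i).mono (hmono (by have := mem_range.1 hi; omega)) le_rfl
    exact hWm measurableSet_Iic
  set Y' : ℕ → Ω → ℝ := fun j => (A j).indicator (Y j) with hY'
  set V' : ℕ → Ω → ℝ := fun j => (A j).indicator (V j) with hV'
  have hY'm : ∀ j, Measurable[F (j + 1)] (Y' j) := fun j =>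
    (hY j).indicator (hmono (Nat.le_succ j) _ (hAm j))
  have hV'm : ∀ j, Measurable[F j] (V' j) := fun j => (hV j).indicator (hAm j)
  have hV'0 : ∀ j ω, 0 ≤ V' j ω := fun j ω => Set.indicator_nonneg (fun ω _ => hV0 j ω) ω
  have hV'le : ∀ j ω, V' j ω ≤ V j ω := fun j ω => Set.indicator_le_self' (fun ω _ => hV0 j ω) ω
  -- total truncated variance
  have hB : ∀ ω j, ∑ i ∈ range j, V' i ω ≤ s + 1 := by
    intro ω j
    induction j with
    | zero => simp only [range_zero, sum_empty]; linarith only [hs]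
    | succ j ih =>
      by_cases h : ω ∈ A j
      · refine le_trans (Finset.sum_le_sum fun i _ => hV'le i ω) ?_
        exact h
      · rw [Finset.sum_range_succ]
        have : V' j ω = 0 := Set.indicator_of_notMem h _
        linarith only [ih, this]
  have h1 := mart_bdd (μ := μ) F hF hmono Y' V' hY'm hV'm hV'0 (s + 1) J (fun ω => hB ω J)
  -- comparison of the conditional errors
  have hcomp : ∀ j, ∫ ω, ‖(μ[fun ω => ei (Y' j ω) | F j]) ω -
        ((Real.exp (-(V' j ω) / 2) : ℝ) : ℂ)‖ ∂μ ≤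
      ∫ ω, ‖(μ[fun ω => ei (Y j ω) | F j]) ω - ((Real.exp (-(V j ω) / 2) : ℝ) : ℂ)‖ ∂μ := by
    intro j
    have hYi : Integrable (fun ω => ei (Y j ω)) μ :=
      integrable_of_norm_le (measurable_ei.comp ((hY j).mono (hF _) le_rfl)).aestronglyMeasurable
        1 (fun ω => (norm_ei _).le)
    have e0 : (fun ω => ei (Y' j ω)) =
        (fun ω => (A j).indicator (fun _ => (1 : ℂ)) ω * ei (Y j ω) +
          (A j)ᶜ.indicator (fun _ => (1 : ℂ)) ω) := by
      funext ω
      by_cases h : ω ∈ A j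
      · simp [hY', h]
      · simp [hY', h, ei_zero]
    have hind : StronglyMeasurable[F j] ((A j).indicator (fun _ => (1 : ℂ))) :=
      stronglyMeasurable_const.indicator (hAm j)
    have hindc : StronglyMeasurable[F j] ((A j)ᶜ.indicator (fun _ => (1 : ℂ))) :=
      stronglyMeasurable_const.indicator (hAm j).compl
    have hindb : ∀ ω, ‖(A j).indicator (fun _ => (1 : ℂ)) ω‖ ≤ 1 := by
      intro ω
      by_cases h : ω ∈ A j <;> simp [h]
    have hindcb : ∀ ω, ‖(A j)ᶜ.indicator (fun _ => (1 : ℂ)) ω‖ ≤ 1 := by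
      intro ω
      by_cases h : ω ∈ A j <;> simp [h]
    have hci : Integrable ((A j)ᶜ.indicator (fun _ => (1 : ℂ))) μ :=
      integrable_of_norm_le (hindc.mono (hF j)).aestronglyMeasurable 1 hindcb
    have hpi : Integrable (fun ω => (A j).indicator (fun _ => (1 : ℂ)) ω * ei (Y j ω)) μ :=
      hYi.bdd_mul (hind.mono (hF j)).aestronglyMeasurable (ae_of_all _ hindb)
    have c1 : μ[fun ω => ei (Y' j ω) | F j] =ᵐ[μ] fun ω =>
        (A j).indicator (fun _ => (1 : ℂ)) ω * (μ[fun ω => ei (Y j ω) | F j]) ω +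
          (A j)ᶜ.indicator (fun _ => (1 : ℂ)) ω := by
      rw [e0]
      have a1 := condExp_add hpi hci (F j)
      have a2 := condExp_stronglyMeasurable_bilin_of_bound (μ := μ) (ContinuousLinearMap.mul ℝ ℂ)
        (hF j) hind hYi 1 (ae_of_all _ hindb)
      simp only [ContinuousLinearMap.mul_apply'] at a2
      have a3 := condExp_of_stronglyMeasurable (hF j) hindc hci
      filter_upwards [a1, a2] with ω b1 b2
      have b1' : (μ[fun ω => (A j).indicator (fun _ => (1 : ℂ)) ω * ei (Y j ω) +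
          (A j)ᶜ.indicator (fun _ => (1 : ℂ)) ω | F j]) ω =
          (μ[fun ω => (A j).indicator (fun _ => (1 : ℂ)) ω * ei (Y j ω) | F j]) ω +
          (μ[(A j)ᶜ.indicator (fun _ => (1 : ℂ)) | F j]) ω := b1
      rw [b1', b2, a3]
    have hm1 : Integrable (fun ω => ‖(μ[fun ω => ei (Y j ω) | F j]) ω -
        ((Real.exp (-(V j ω) / 2) : ℝ) : ℂ)‖) μ := by
      refine (integrable_condExp.sub ?_).norm
      refine integrable_of_norm_le (E := ℂ) ?_ 1 ?_
      · exact (Complex.measurable_ofReal.comp (Real.measurable_exp.comp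
          (((hV j).mono (hF j) le_rfl).neg.div_const 2))).aestronglyMeasurable
      · intro ω
        rw [Complex.norm_real, Real.norm_eq_abs, abs_of_pos (Real.exp_pos _),
          Real.exp_le_one_iff]
        have := hV0 j ω
        linarith only [this]
    refine integral_mono_of_nonneg (ae_of_all _ fun ω => norm_nonneg _) hm1 ?_
    filter_upwards [c1] with ω hc
    rw [hc]
    by_cases h : ω ∈ A j
    · simp only [h, Set.indicator_of_mem, one_mul, Set.mem_compl_iff, not_true_eq_false, not_false_eq_true, Set.indicator_of_notMem, add_zero, hV', Complex.ofReal_exp, Complex.ofReal_div, Complex.ofReal_neg, Complex.ofReal_ofNat, Std.le_refl]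
    · simp only [h, not_false_eq_true, Set.indicator_of_notMem, zero_mul, Set.mem_compl_iff, Set.indicator_of_mem, zero_add, hV', neg_zero, zero_div, Real.exp_zero, Complex.ofReal_one, sub_self, norm_zero, Complex.ofReal_exp, Complex.ofReal_div, Complex.ofReal_neg, Complex.ofReal_ofNat, norm_nonneg]
  have hsum : ∑ j ∈ range J, ∫ ω, ‖(μ[fun ω => ei (Y' j ω) | F j]) ω -
        ((Real.exp (-(V' j ω) / 2) : ℝ) : ℂ)‖ ∂μ ≤
      ∑ j ∈ range J, ∫ ω, ‖(μ[fun ω => ei (Y j ω) | F j]) ω -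
        ((Real.exp (-(V j ω) / 2) : ℝ) : ℂ)‖ ∂μ := Finset.sum_le_sum fun j _ => hcomp j
  set E1 := ∑ j ∈ range J, ∫ ω, ‖(μ[fun ω => ei (Y j ω) | F j]) ω -
        ((Real.exp (-(V j ω) / 2) : ℝ) : ℂ)‖ ∂μ with hE1
  have hE1' : 0 ≤ E1 := Finset.sum_nonneg fun j _ => integral_nonneg fun ω => norm_nonneg _
  -- measurability and integrability of totals
  have hWm : Measurable[mΩ] (fun ω => ∑ i ∈ range J, V i ω) :=
    Finset.measurable_sum _ fun i _ => (hV i).mono (hF i) le_rfl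
  have hSm : Measurable[mΩ] (fun ω => ∑ i ∈ range J, Y i ω) :=
    Finset.measurable_sum _ fun i _ => (hY i).mono (hF _) le_rfl
  have hS'm : Measurable[mΩ] (fun ω => ∑ i ∈ range J, Y' i ω) :=
    Finset.measurable_sum _ fun i _ => (hY'm i).mono (hF _) le_rfl
  have hW'm : Measurable[mΩ] (fun ω => ∑ i ∈ range J, V' i ω) :=
    Finset.measurable_sum _ fun i _ => (hV'm i).mono (hF i) le_rfl
  have hWi : Integrable (fun ω => ∑ i ∈ range J, V i ω) μ :=
    integrable_finsetSum _ fun i _ => hVi i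
  have hdi : Integrable (fun ω => |∑ i ∈ range J, V i ω - s|) μ :=
    (hWi.sub (integrable_const s)).abs
  -- pointwise comparison
  have hpt : ∀ ω, ‖ei (∑ i ∈ range J, Y i ω) - ei (∑ i ∈ range J, Y' i ω)‖ ≤
      2 * |∑ i ∈ range J, V i ω - s| := by
    intro ω
    by_cases h : ∑ i ∈ range J, V i ω ≤ s + 1
    · have : ∀ i ∈ range J, Y' i ω = Y i ω := by
        intro i hi
        have hmem : ω ∈ A i := by
          show ∑ k ∈ range (i + 1), V k ω ≤ s + 1
          refine le_trans ?_ h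
          exact Finset.sum_le_sum_of_subset_of_nonneg
            (Finset.range_subset_range.2 (by have := mem_range.1 hi; omega))
            (fun i _ _ => hV0 i ω)
        exact Set.indicator_of_mem hmem _
      rw [Finset.sum_congr rfl this]
      simp only [sub_self, norm_zero, Nat.ofNat_pos, mul_nonneg_iff_of_pos_left, abs_nonneg]
    · push Not at h
      have h2 : 1 ≤ |∑ i ∈ range J, V i ω - s| := by
        rw [abs_of_pos (by linarith only [h])]
        linarith only [h]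
      calc _ ≤ ‖ei (∑ i ∈ range J, Y i ω)‖ + ‖ei (∑ i ∈ range J, Y' i ω)‖ := norm_sub_le _ _
        _ = 2 := by rw [norm_ei, norm_ei]; norm_num
        _ ≤ _ := by linarith only [h2]
  have hpt2 : ∀ ω, |∑ i ∈ range J, V' i ω - s| ≤ (s + 2) * |∑ i ∈ range J, V i ω - s| := by
    intro ω
    by_cases h : ∑ i ∈ range J, V i ω ≤ s + 1
    · have : ∀ i ∈ range J, V' i ω = V i ω := by
        intro i hi
        have hmem : ω ∈ A i := by
          show ∑ k ∈ range (i + 1), V k ω ≤ s + 1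
          refine le_trans ?_ h
          exact Finset.sum_le_sum_of_subset_of_nonneg
            (Finset.range_subset_range.2 (by have := mem_range.1 hi; omega))
            (fun i _ _ => hV0 i ω)
        exact Set.indicator_of_mem hmem _
      rw [Finset.sum_congr rfl this]
      have := abs_nonneg (∑ i ∈ range J, V i ω - s)
      nlinarith only [this, hs]
    · push Not at h
      have h2 : 1 ≤ |∑ i ∈ range J, V i ω - s| := by
        rw [abs_of_pos (by linarith only [h])]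
        linarith only [h]
      have h3 : 0 ≤ ∑ i ∈ range J, V' i ω := Finset.sum_nonneg fun i _ => hV'0 i ω
      have h4 := hB ω J
      have h5 : |∑ i ∈ range J, V' i ω - s| ≤ s + 1 := by
        rw [abs_le]
        constructor <;> linarith only [h3, hs, h4]
      nlinarith only [h2, h5, hs]
  -- first comparison
  have hS1 : Integrable (fun ω => ei (∑ i ∈ range J, Y i ω)) μ :=
    integrable_of_norm_le (measurable_ei.comp hSm).aestronglyMeasurable 1 fun ω => (norm_ei _).le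
  have hS2 : Integrable (fun ω => ei (∑ i ∈ range J, Y' i ω)) μ :=
    integrable_of_norm_le (measurable_ei.comp hS'm).aestronglyMeasurable 1 fun ω => (norm_ei _).le
  have g1 : ‖∫ ω, ei (∑ i ∈ range J, Y i ω) ∂μ - ∫ ω, ei (∑ i ∈ range J, Y' i ω) ∂μ‖ ≤
      2 * ∫ ω, |∑ i ∈ range J, V i ω - s| ∂μ := by
    rw [← integral_sub hS1 hS2, ← integral_const_mul]
    refine (norm_integral_le_integral_norm _).trans ?_
    exact integral_mono_of_nonneg (ae_of_all _ fun ω => norm_nonneg _) (hdi.const_mul 2)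
      (ae_of_all _ hpt)
  -- second comparison
  have hzi : Integrable (fun ω => zz Y' V' J ω) μ := by
    refine integrable_of_norm_le (E := ℂ) ?_ (Real.exp ((s + 1) / 2)) ?_
    · refine Measurable.aestronglyMeasurable ?_
      exact (measurable_ei.comp hS'm).mul (Complex.measurable_ofReal.comp
        (Real.measurable_exp.comp (hW'm.div_const 2)))
    · intro ω
      unfold zz
      rw [norm_mul, norm_ei, one_mul, Complex.norm_real, Real.norm_eq_abs,
          abs_of_pos (Real.exp_pos _)]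
      exact Real.exp_le_exp.2 (by have := hB ω J; linarith only [this])
  have hes : ‖((Real.exp (-s / 2) : ℝ) : ℂ)‖ = Real.exp (-s / 2) := by
    rw [Complex.norm_real, Real.norm_eq_abs, abs_of_pos (Real.exp_pos _)]
  have g2 : ‖∫ ω, ei (∑ i ∈ range J, Y' i ω) ∂μ -
      ((Real.exp (-s / 2) : ℝ) : ℂ) * ∫ ω, zz Y' V' J ω ∂μ‖ ≤
      (s + 2) * ∫ ω, |∑ i ∈ range J, V i ω - s| ∂μ := by
    rw [← integral_const_mul, ← integral_sub hS2 (hzi.const_mul _), ← integral_const_mul]
    refine (norm_integral_le_integral_norm _).trans ?_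
    refine integral_mono_of_nonneg (ae_of_all _ fun ω => norm_nonneg _) (hdi.const_mul _)
      (ae_of_all _ fun ω => ?_)
    have e1 : ei (∑ i ∈ range J, Y' i ω) - ((Real.exp (-s / 2) : ℝ) : ℂ) * zz Y' V' J ω =
        ei (∑ i ∈ range J, Y' i ω) *
          ((1 - Real.exp ((∑ i ∈ range J, V' i ω - s) / 2) : ℝ) : ℂ) := by
      unfold zz
      have : Real.exp ((∑ i ∈ range J, V' i ω - s) / 2) =
          Real.exp (-s / 2) * Real.exp ((∑ i ∈ range J, V' i ω) / 2) := by
        rw [← Real.exp_add]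
        congr 1
        ring
      rw [this]
      push_cast
      ring
    simp only
    rw [e1, norm_mul, norm_ei, one_mul, Complex.norm_real, Real.norm_eq_abs]
    refine (abs_one_sub_exp_half_le ?_).trans (hpt2 ω)
    have := hB ω J
    linarith only [this]
  have g3 : ‖((Real.exp (-s / 2) : ℝ) : ℂ) * ∫ ω, zz Y' V' J ω ∂μ -
      ((Real.exp (-s / 2) : ℝ) : ℂ)‖ ≤ 2 * E1 := by
    have : ((Real.exp (-s / 2) : ℝ) : ℂ) * ∫ ω, zz Y' V' J ω ∂μ -
      ((Real.exp (-s / 2) : ℝ) : ℂ) =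
      ((Real.exp (-s / 2) : ℝ) : ℂ) * (∫ ω, zz Y' V' J ω ∂μ - 1) := by ring
    rw [this, norm_mul, hes]
    calc Real.exp (-s / 2) * ‖∫ ω, zz Y' V' J ω ∂μ - 1‖
        ≤ Real.exp (-s / 2) * (Real.exp ((s + 1) / 2) * E1) := by
          refine mul_le_mul_of_nonneg_left ?_ (Real.exp_pos _).le
          exact h1.trans (mul_le_mul_of_nonneg_left hsum (Real.exp_pos _).le)
      _ = Real.exp (1 / 2) * E1 := by
          rw [← mul_assoc, ← Real.exp_add]
          congr 2
          ring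
      _ ≤ 2 * E1 := by
          refine mul_le_mul_of_nonneg_right ?_ hE1'
          have a1 := abs_one_sub_exp_half_le (le_refl (1 : ℝ))
          rw [abs_one] at a1
          have a2 := (abs_le.1 a1).1
          linarith only [a2]
  calc ‖∫ ω, ei (∑ j ∈ range J, Y j ω) ∂μ - ((Real.exp (-s / 2) : ℝ) : ℂ)‖
      = ‖(∫ ω, ei (∑ i ∈ range J, Y i ω) ∂μ - ∫ ω, ei (∑ i ∈ range J, Y' i ω) ∂μ) +
        ((∫ ω, ei (∑ i ∈ range J, Y' i ω) ∂μ -
          ((Real.exp (-s / 2) : ℝ) : ℂ) * ∫ ω, zz Y' V' J ω ∂μ) +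
        (((Real.exp (-s / 2) : ℝ) : ℂ) * ∫ ω, zz Y' V' J ω ∂μ -
          ((Real.exp (-s / 2) : ℝ) : ℂ)))‖ := by
        congr 1
        ring
    _ ≤ 2 * ∫ ω, |∑ i ∈ range J, V i ω - s| ∂μ +
        ((s + 2) * ∫ ω, |∑ i ∈ range J, V i ω - s| ∂μ + 2 * E1) :=
        (norm_add_le _ _).trans (add_le_add g1 ((norm_add_le _ _).trans (add_le_add g2 g3)))
    _ = _ := by ring

end Vale.Agent.P153.CLT
end

section

/-!
# Conditional Newman inequality

For a family of bounded random variables which is positively associated given a sigma-algebra,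
the conditional characteristic function of a sum is close to the product of the conditional
characteristic functions of block sums; the error is the sum of the conditional covariances
between different blocks.
-/

namespace Vale.Agent.P153.CLT

open MeasureTheory Filter Finset
open scoped Topology

variable {Ω : Type*} {mΩ : MeasurableSpace Ω} {μ : Measure Ω}

/-- Conditional positive association (continuous monotone test functions). -/
def CondAssoc (μ : Measure[mΩ] Ω) (m : MeasurableSpace Ω) {ι : Type*} (r : ι → Ω → ℝ) : Prop :=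
  ∀ f g : (ι → ℝ) → ℝ, Continuous f → Continuous g → Monotone f → Monotone g →
    (fun ω => (μ[fun ω => f (fun i => r i ω) | m]) ω * (μ[fun ω => g (fun i => r i ω) | m]) ω)
      ≤ᵐ[μ] μ[fun ω => f (fun i => r i ω) * g (fun i => r i ω) | m]

/-- Conditional covariance. -/
noncomputable def ccov (μ : Measure[mΩ] Ω) (m : MeasurableSpace Ω) (X Y : Ω → ℝ) : Ω → ℝ :=
  fun ω => (μ[fun ω => X ω * Y ω | m]) ω - (μ[X | m]) ω * (μ[Y | m]) ω

/-- Bounded measurable real function. -/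
def BM (X : Ω → ℝ) : Prop := Measurable[mΩ] X ∧ ∃ C, ∀ ω, |X ω| ≤ C

lemma BM.add {X Y : Ω → ℝ} (hX : BM (mΩ := mΩ) X) (hY : BM (mΩ := mΩ) Y) :
    BM (mΩ := mΩ) (fun ω => X ω + Y ω) := by
  obtain ⟨h1, C, hC⟩ := hX
  obtain ⟨h2, D, hD⟩ := hY
  exact ⟨h1.add h2, C + D, fun ω => (abs_add_le _ _).trans (add_le_add (hC ω) (hD ω))⟩

lemma BM.mul {X Y : Ω → ℝ} (hX : BM (mΩ := mΩ) X) (hY : BM (mΩ := mΩ) Y) :
    BM (mΩ := mΩ) (fun ω => X ω * Y ω) := by
  obtain ⟨h1, C, hC⟩ := hX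
  obtain ⟨h2, D, hD⟩ := hY
  refine ⟨h1.mul h2, C * D, fun ω => ?_⟩
  rw [abs_mul]
  exact mul_le_mul (hC ω) (hD ω) (abs_nonneg _) ((abs_nonneg _).trans (hC ω))

lemma BM.const (c : ℝ) : BM (mΩ := mΩ) (fun _ : Ω => c) :=
  ⟨measurable_const, |c|, fun _ => le_rfl⟩

lemma BM.sum {ι : Type*} (s : Finset ι) {X : ι → Ω → ℝ} (hX : ∀ i ∈ s, BM (mΩ := mΩ) (X i)) :
    BM (mΩ := mΩ) (fun ω => ∑ i ∈ s, X i ω) := by
  classical
  induction s using Finset.induction_on with
  | empty => simpa using BM.const (mΩ := mΩ) (Ω := Ω) 0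
  | insert a s ha ih =>
    simp only [Finset.sum_insert ha]
    exact (hX a (mem_insert_self _ _)).add (ih fun i hi => hX i (mem_insert_of_mem hi))

lemma BM.integrable [IsFiniteMeasure μ] {X : Ω → ℝ} (hX : BM (mΩ := mΩ) X) : Integrable X μ := by
  obtain ⟨h1, C, hC⟩ := hX
  exact integrable_of_norm_le h1.aestronglyMeasurable C hC

lemma BM.comp_cont {X : Ω → ℝ} (hX : BM (mΩ := mΩ) X) {u : ℝ → ℝ} (hu : Continuous u) {C : ℝ}
    (hC : ∀ x, |u x| ≤ C) : BM (mΩ := mΩ) (fun ω => u (X ω)) :=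
  ⟨hu.measurable.comp hX.1, C, fun _ => hC _⟩

/-- Expansion of the conditional covariance of `P + σ U` and `Q + τ W`. -/
lemma ccov_expand [IsProbabilityMeasure μ] (m : MeasurableSpace Ω) {P U Q W : Ω → ℝ}
    (hP : BM (mΩ := mΩ) P) (hU : BM (mΩ := mΩ) U) (hQ : BM (mΩ := mΩ) Q) (hW : BM (mΩ := mΩ) W)
    (σ τ : ℝ) :
    ccov μ m (fun ω => P ω + σ * U ω) (fun ω => Q ω + τ * W ω) =ᵐ[μ] fun ω =>
      ccov μ m P Q ω + τ * ccov μ m P W ω + σ * ccov μ m U Q ω + σ * τ * ccov μ m U W ω := by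
  have lin1 : ∀ (X Z : Ω → ℝ) (c : ℝ), BM (mΩ := mΩ) X → BM (mΩ := mΩ) Z →
      μ[fun ω => X ω + c * Z ω | m] =ᵐ[μ] fun ω => (μ[X | m]) ω + c * (μ[Z | m]) ω := by
    intro X Z c hX hZ
    have h1 : (fun ω => X ω + c * Z ω) = X + c • Z := by
      funext ω
      simp
    rw [h1]
    filter_upwards [condExp_add (hX.integrable (μ := μ)) ((hZ.integrable (μ := μ)).smul c) m,
      condExp_smul (μ := μ) c Z m] with ω h2 h3
    rw [h2, Pi.add_apply, h3, Pi.smul_apply, smul_eq_mul]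
  have hPQ := hP.mul hQ
  have hPW := hP.mul hW
  have hUQ := hU.mul hQ
  have hUW := hU.mul hW
  have e : (fun ω => (P ω + σ * U ω) * (Q ω + τ * W ω)) = fun ω =>
      ((fun ω => (fun ω => P ω * Q ω) ω + τ * (fun ω => P ω * W ω) ω) ω +
        σ * (fun ω => (fun ω => U ω * Q ω) ω + τ * (fun ω => U ω * W ω) ω) ω) := by
    funext ω
    ring
  have b1 : BM (mΩ := mΩ) (fun ω => P ω * Q ω + τ * (P ω * W ω)) :=
    hPQ.add ((BM.const τ).mul hPW)
  have b2 : BM (mΩ := mΩ) (fun ω => U ω * Q ω + τ * (U ω * W ω)) :=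
    hUQ.add ((BM.const τ).mul hUW)
  have l1 := lin1 P U σ hP hU
  have l2 := lin1 Q W τ hQ hW
  have l3 := lin1 _ _ σ b1 b2
  have l4 := lin1 _ _ τ hPQ hPW
  have l5 := lin1 _ _ τ hUQ hUW
  have l3' : μ[fun ω => (P ω + σ * U ω) * (Q ω + τ * W ω) | m] =ᵐ[μ] fun ω =>
      (μ[fun ω => P ω * Q ω + τ * (P ω * W ω) | m]) ω +
        σ * (μ[fun ω => U ω * Q ω + τ * (U ω * W ω) | m]) ω := by
    rw [e]
    exact l3
  filter_upwards [l1, l2, l3', l4, l5] with ω h1 h2 h3 h4 h5
  simp only [ccov]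
  rw [h1, h2, h3, h4, h5]
  ring

variable {ι : Type*}

lemma monotone_lin_add {s : Finset ι} {g : ι → ℝ} {u : ℝ → ℝ} (hu : LipschitzWith 1 u) {σ : ℝ}
    (hσ : |σ| ≤ 1) :
    Monotone (fun x : ι → ℝ => ∑ i ∈ s, |g i| * x i + σ * u (∑ i ∈ s, g i * x i)) := by
  intro x y hxy
  simp only
  have h1 : |u (∑ i ∈ s, g i * y i) - u (∑ i ∈ s, g i * x i)| ≤
      ∑ i ∈ s, |g i| * y i - ∑ i ∈ s, |g i| * x i := by
    have := hu.dist_le_mul (∑ i ∈ s, g i * y i) (∑ i ∈ s, g i * x i)
    rw [Real.dist_eq, Real.dist_eq] at this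
    refine this.trans ?_
    rw [← Finset.sum_sub_distrib, ← Finset.sum_sub_distrib]
    simp only [NNReal.coe_one, one_mul]
    refine (Finset.abs_sum_le_sum_abs _ _).trans (Finset.sum_le_sum fun i _ => ?_)
    rw [← mul_sub, abs_mul, abs_of_nonneg (sub_nonneg.2 (hxy i)), mul_sub]
  have h2 : |σ * (u (∑ i ∈ s, g i * y i) - u (∑ i ∈ s, g i * x i))| ≤
      ∑ i ∈ s, |g i| * y i - ∑ i ∈ s, |g i| * x i := by
    rw [abs_mul]
    calc _ ≤ 1 * |u (∑ i ∈ s, g i * y i) - u (∑ i ∈ s, g i * x i)| :=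
          mul_le_mul_of_nonneg_right hσ (abs_nonneg _)
      _ ≤ _ := by rw [one_mul]; exact h1
  have h3 := (abs_le.1 h2).1
  rw [mul_sub] at h3
  linarith only [h3]

/-- Absolute linear statistic. -/
def aL (g : ι → ℝ) (r : ι → Ω → ℝ) (s : Finset ι) (ω : Ω) : ℝ := ∑ i ∈ s, |g i| * r i ω

/-- Linear statistic. -/
def lL (g : ι → ℝ) (r : ι → Ω → ℝ) (s : Finset ι) (ω : Ω) : ℝ := ∑ i ∈ s, g i * r i ω

lemma bm_aL {g : ι → ℝ} {r : ι → Ω → ℝ} (hr : ∀ i, BM (mΩ := mΩ) (r i)) (s : Finset ι) :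
    BM (mΩ := mΩ) (aL g r s) := BM.sum s fun i _ => (BM.const _).mul (hr i)

lemma bm_lL {g : ι → ℝ} {r : ι → Ω → ℝ} (hr : ∀ i, BM (mΩ := mΩ) (r i)) (s : Finset ι) :
    BM (mΩ := mΩ) (lL g r s) := BM.sum s fun i _ => (BM.const _).mul (hr i)

/-- Newman's inequality for Lipschitz functions of linear statistics. -/
lemma abs_ccov_le [Fintype ι] [IsProbabilityMeasure μ] (m : MeasurableSpace Ω) {g : ι → ℝ} {r : ι → Ω → ℝ}
    (hr : ∀ i, BM (mΩ := mΩ) (r i)) (hA : CondAssoc μ m r) (s t : Finset ι) {u v : ℝ → ℝ}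
    (hu : LipschitzWith 1 u) (hv : LipschitzWith 1 v) (hub : ∀ x, |u x| ≤ 1)
    (hvb : ∀ x, |v x| ≤ 1) :
    ∀ᵐ ω ∂μ, |ccov μ m (fun ω => u (lL g r s ω)) (fun ω => v (lL g r t ω)) ω| ≤
      ccov μ m (aL g r s) (aL g r t) ω := by
  have hP := bm_aL (mΩ := mΩ) (g := g) hr s
  have hQ := bm_aL (mΩ := mΩ) (g := g) hr t
  have hU := (bm_lL (mΩ := mΩ) (g := g) hr s).comp_cont hu.continuous hub
  have hW := (bm_lL (mΩ := mΩ) (g := g) hr t).comp_cont hv.continuous hvb
  have pos : ∀ σ τ : ℝ, |σ| ≤ 1 → |τ| ≤ 1 → ∀ᵐ ω ∂μ, 0 ≤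
      ccov μ m (fun ω => aL g r s ω + σ * u (lL g r s ω))
        (fun ω => aL g r t ω + τ * v (lL g r t ω)) ω := by
    intro σ τ hσ hτ
    have hc1 : Continuous (fun x : ι → ℝ =>
        ∑ i ∈ s, |g i| * x i + σ * u (∑ i ∈ s, g i * x i)) := by
      have := hu.continuous
      fun_prop
    have hc2 : Continuous (fun x : ι → ℝ =>
        ∑ i ∈ t, |g i| * x i + τ * v (∑ i ∈ t, g i * x i)) := by
      have := hv.continuous
      fun_prop
    have := hA _ _ hc1 hc2 (monotone_lin_add hu hσ) (monotone_lin_add hv hτ)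
    filter_upwards [this] with ω h
    simp only [ccov]
    exact sub_nonneg.2 h
  have p1 := pos 1 1 (by norm_num) (by norm_num)
  have p2 := pos (-1) (-1) (by norm_num) (by norm_num)
  have p3 := pos 1 (-1) (by norm_num) (by norm_num)
  have p4 := pos (-1) 1 (by norm_num) (by norm_num)
  have q1 := ccov_expand (μ := μ) m hP hU hQ hW 1 1
  have q2 := ccov_expand (μ := μ) m hP hU hQ hW (-1) (-1)
  have q3 := ccov_expand (μ := μ) m hP hU hQ hW 1 (-1)
  have q4 := ccov_expand (μ := μ) m hP hU hQ hW (-1) 1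
  filter_upwards [p1, p2, p3, p4, q1, q2, q3, q4] with ω a1 a2 a3 a4 b1 b2 b3 b4
  rw [b1] at a1
  rw [b2] at a2
  rw [b3] at a3
  rw [b4] at a4
  rw [abs_le]
  constructor <;> linarith only [a1, a2, a3, a4]

lemma condExp_re (m : MeasurableSpace Ω) {f : Ω → ℂ} (hf : Integrable f μ) :
    ∀ᵐ ω ∂μ, ((μ[f | m]) ω).re = (μ[fun ω => (f ω).re | m]) ω := by
  filter_upwards [Complex.reCLM.comp_condExp_comm (m := m) hf] with ω h
  exact h

lemma condExp_im (m : MeasurableSpace Ω) {f : Ω → ℂ} (hf : Integrable f μ) :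
    ∀ᵐ ω ∂μ, ((μ[f | m]) ω).im = (μ[fun ω => (f ω).im | m]) ω := by
  filter_upwards [Complex.imCLM.comp_condExp_comm (m := m) hf] with ω h
  exact h

lemma ei_re (x : ℝ) : (ei x).re = Real.cos x := by
  unfold ei
  rw [mul_comm, Complex.exp_ofReal_mul_I_re]

lemma ei_im (x : ℝ) : (ei x).im = Real.sin x := by
  unfold ei
  rw [mul_comm, Complex.exp_ofReal_mul_I_im]

lemma integrable_ei [IsProbabilityMeasure μ] {X : Ω → ℝ} (hX : Measurable[mΩ] X) :
    Integrable (fun ω => ei (X ω)) μ :=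
  integrable_of_norm_le (measurable_ei.comp hX).aestronglyMeasurable 1 fun _ => (norm_ei _).le

lemma norm_condExp_le_one [IsProbabilityMeasure μ] {m : MeasurableSpace Ω} (hm : m ≤ mΩ)
    {f : Ω → ℂ} (hf : ∀ ω, ‖f ω‖ ≤ 1) (hfi : Integrable f μ) :
    ∀ᵐ ω ∂μ, ‖(μ[f | m]) ω‖ ≤ 1 := by
  have h1 := norm_condExp_le (μ := μ) (m := m) f
  have h2 : μ[fun ω => ‖f ω‖ | m] ≤ᵐ[μ] μ[fun _ => (1 : ℝ) | m] :=
    condExp_mono hfi.norm (integrable_const 1) (ae_of_all _ hf)
  rw [condExp_const hm] at h2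
  filter_upwards [h1, h2] with ω a b
  exact a.trans b

/-- Complex form of Newman's inequality for two disjoint blocks. -/
lemma norm_ccov_ei_le [Fintype ι] [IsProbabilityMeasure μ] (m : MeasurableSpace Ω) {g : ι → ℝ}
    {r : ι → Ω → ℝ} (hr : ∀ i, BM (mΩ := mΩ) (r i)) (hA : CondAssoc μ m r) (s t : Finset ι) :
    ∀ᵐ ω ∂μ, ‖(μ[fun ω => ei (lL g r s ω) * ei (lL g r t ω) | m]) ω -
      (μ[fun ω => ei (lL g r s ω) | m]) ω * (μ[fun ω => ei (lL g r t ω) | m]) ω‖ ≤
      4 * ccov μ m (aL g r s) (aL g r t) ω := by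
  have hLs := bm_lL (mΩ := mΩ) (g := g) hr s
  have hLt := bm_lL (mΩ := mΩ) (g := g) hr t
  have hc1 : ∀ x, |Real.cos x| ≤ 1 := Real.abs_cos_le_one
  have hs1 : ∀ x, |Real.sin x| ≤ 1 := Real.abs_sin_le_one
  have k1 := abs_ccov_le (μ := μ) (g := g) m hr hA s t Real.lipschitzWith_cos
    Real.lipschitzWith_cos hc1 hc1
  have k2 := abs_ccov_le (μ := μ) (g := g) m hr hA s t Real.lipschitzWith_sin
    Real.lipschitzWith_sin hs1 hs1
  have k3 := abs_ccov_le (μ := μ) (g := g) m hr hA s t Real.lipschitzWith_cos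
    Real.lipschitzWith_sin hc1 hs1
  have k4 := abs_ccov_le (μ := μ) (g := g) m hr hA s t Real.lipschitzWith_sin
    Real.lipschitzWith_cos hs1 hc1
  have i1 : Integrable (fun ω => ei (lL g r s ω)) μ := integrable_ei hLs.1
  have i2 : Integrable (fun ω => ei (lL g r t ω)) μ := integrable_ei hLt.1
  have i3 : Integrable (fun ω => ei (lL g r s ω) * ei (lL g r t ω)) μ := by
    have : (fun ω => ei (lL g r s ω) * ei (lL g r t ω)) =
        fun ω => ei (lL g r s ω + lL g r t ω) := by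
      funext ω
      rw [ei_add]
    rw [this]
    exact integrable_ei (hLs.1.add hLt.1)
  have cc := (hLs.comp_cont Real.continuous_cos hc1).mul (hLt.comp_cont Real.continuous_cos hc1)
  have ss := (hLs.comp_cont Real.continuous_sin hs1).mul (hLt.comp_cont Real.continuous_sin hs1)
  have cs := (hLs.comp_cont Real.continuous_cos hc1).mul (hLt.comp_cont Real.continuous_sin hs1)
  have sc := (hLs.comp_cont Real.continuous_sin hs1).mul (hLt.comp_cont Real.continuous_cos hc1)
  have r3 := condExp_re m i3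
  have m3 := condExp_im m i3
  simp only [Complex.mul_re, Complex.mul_im, ei_re, ei_im] at r3 m3
  have r3' := condExp_sub (cc.integrable (μ := μ)) (ss.integrable (μ := μ)) m
  have m3' := condExp_add (cs.integrable (μ := μ)) (sc.integrable (μ := μ)) m
  have r1 := condExp_re m i1
  have m1 := condExp_im m i1
  have r2 := condExp_re m i2
  have m2 := condExp_im m i2
  simp only [ei_re, ei_im] at r1 m1 r2 m2
  filter_upwards [k1, k2, k3, k4, r3, m3, r3', m3', r1, m1, r2, m2] with ω k1 k2 k3 k4 r3 m3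
    r3' m3' r1 m1 r2 m2
  refine (Complex.norm_le_abs_re_add_abs_im _).trans ?_
  rw [Complex.sub_re, Complex.sub_im, Complex.mul_re, Complex.mul_im, r1, m1, r2, m2, r3, m3]
  have r3'' : (μ[fun ω => Real.cos (lL g r s ω) * Real.cos (lL g r t ω) -
      Real.sin (lL g r s ω) * Real.sin (lL g r t ω) | m]) ω =
      (μ[fun ω => Real.cos (lL g r s ω) * Real.cos (lL g r t ω) | m]) ω -
      (μ[fun ω => Real.sin (lL g r s ω) * Real.sin (lL g r t ω) | m]) ω := r3'
  have m3'' : (μ[fun ω => Real.cos (lL g r s ω) * Real.sin (lL g r t ω) +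
      Real.sin (lL g r s ω) * Real.cos (lL g r t ω) | m]) ω =
      (μ[fun ω => Real.cos (lL g r s ω) * Real.sin (lL g r t ω) | m]) ω +
      (μ[fun ω => Real.sin (lL g r s ω) * Real.cos (lL g r t ω) | m]) ω := m3'
  rw [r3'', m3'']
  simp only [ccov] at k1 k2 k3 k4 ⊢
  obtain ⟨k1a, k1b⟩ := abs_le.1 k1
  obtain ⟨k2a, k2b⟩ := abs_le.1 k2
  obtain ⟨k3a, k3b⟩ := abs_le.1 k3
  obtain ⟨k4a, k4b⟩ := abs_le.1 k4
  have e1 : ∀ a b c : ℝ, |a| ≤ 2 * c → |b| ≤ 2 * c → |a| + |b| ≤ 4 * c := by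
    intro a b c h1 h2
    linarith only [h1, h2]
  apply e1
  · rw [abs_le]
    constructor <;> linarith only [k1a, k2b, k1b, k2a]
  · rw [abs_le]
    constructor <;> linarith only [k3a, k4a, k3b, k4b]

end Vale.Agent.P153.CLT
end

section

/-!
# The Newman property and its invariance under measurable shifts
-/

namespace Vale.Agent.P153.CLT

open MeasureTheory Filter Finset
open scoped Topology

variable {Ω : Type*} {mΩ : MeasurableSpace Ω} {μ : Measure Ω}
variable {ι : Type*}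

/-- The Newman property of a family given a sigma-algebra. -/
structure NP (μ : Measure[mΩ] Ω) (m : MeasurableSpace Ω) (r : ι → Ω → ℝ) : Prop where
  ineq : ∀ (g : ι → ℝ) (s t : Finset ι), ∀ᵐ ω ∂μ,
    ‖(μ[fun ω => ei (lL g r s ω) * ei (lL g r t ω) | m]) ω -
      (μ[fun ω => ei (lL g r s ω) | m]) ω * (μ[fun ω => ei (lL g r t ω) | m]) ω‖ ≤
      4 * ccov μ m (aL g r s) (aL g r t) ω
  nn : ∀ i j, ∀ᵐ ω ∂μ, 0 ≤ ccov μ m (r i) (r j) ω

lemma CondAssoc.np [Fintype ι] [IsProbabilityMeasure μ] {m : MeasurableSpace Ω}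
    {r : ι → Ω → ℝ} (hr : ∀ i, BM (mΩ := mΩ) (r i)) (hA : CondAssoc μ m r) : NP μ m r where
  ineq := fun g s t => norm_ccov_ei_le m hr hA s t
  nn := by
    intro i j
    have h := hA (fun x => x i) (fun x => x j) (continuous_apply i) (continuous_apply j)
      (fun x y h => h i) (fun x y h => h j)
    filter_upwards [h] with ω h1
    simp only [ccov]
    exact sub_nonneg.2 h1

/-- Linearity of the conditional expectation with a measurable shift. -/
lemma condExp_sub_meas [IsProbabilityMeasure μ] {m : MeasurableSpace Ω} (hm : m ≤ mΩ)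
    {X c : Ω → ℝ} (hX : BM (mΩ := mΩ) X) (hc : Measurable[m] c) (hcb : BM (mΩ := mΩ) c) :
    ∀ᵐ ω ∂μ, (μ[fun ω => X ω - c ω | m]) ω = (μ[X | m]) ω - c ω := by
  have h1 := condExp_sub (μ := μ) hX.integrable hcb.integrable m
  have h2 := condExp_of_stronglyMeasurable (μ := μ) hm hc.stronglyMeasurable hcb.integrable
  filter_upwards [h1] with ω a
  have a' : (μ[fun ω => X ω - c ω | m]) ω = (μ[X | m]) ω - (μ[c | m]) ω := a
  rw [a', h2]

/-- Pulling out a bounded measurable real factor. -/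
lemma condExp_mul_meas [IsProbabilityMeasure μ] {m : MeasurableSpace Ω} 
    {X c : Ω → ℝ} (hX : BM (mΩ := mΩ) X) (hc : Measurable[m] c) (hcb : BM (mΩ := mΩ) c) :
    ∀ᵐ ω ∂μ, (μ[fun ω => c ω * X ω | m]) ω = c ω * (μ[X | m]) ω := by
  have h1 := condExp_mul_of_stronglyMeasurable_left (μ := μ) hc.stronglyMeasurable
    ((hcb.mul hX).integrable (μ := μ)) (hX.integrable (μ := μ))
  filter_upwards [h1] with ω a
  exact a

lemma ccov_shift [IsProbabilityMeasure μ] {m : MeasurableSpace Ω} (hm : m ≤ mΩ)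
    {X Y c d : Ω → ℝ} (hX : BM (mΩ := mΩ) X) (hY : BM (mΩ := mΩ) Y)
    (hc : Measurable[m] c) (hcb : BM (mΩ := mΩ) c) (hd : Measurable[m] d)
    (hdb : BM (mΩ := mΩ) d) :
    ∀ᵐ ω ∂μ, ccov μ m (fun ω => X ω - c ω) (fun ω => Y ω - d ω) ω = ccov μ m X Y ω := by
  have h1 := condExp_sub_meas (μ := μ) hm hX hc hcb
  have h2 := condExp_sub_meas (μ := μ) hm hY hd hdb
  have h3 := condExp_mul_meas (μ := μ) hX hd hdb
  have h4 := condExp_mul_meas (μ := μ) hY hc hcb
  have h5 := condExp_of_stronglyMeasurable (μ := μ) hm (hc.mul hd).stronglyMeasurable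
    ((hcb.mul hdb).integrable (μ := μ))
  have e : (fun ω => (X ω - c ω) * (Y ω - d ω)) =
      (((fun ω => X ω * Y ω) - (fun ω => d ω * X ω)) - (fun ω => c ω * Y ω)) +
        (fun ω => c ω * d ω) := by
    funext ω
    simp only [Pi.add_apply, Pi.sub_apply]
    ring
  have i1 := (hX.mul hY).integrable (μ := μ)
  have i2 := (hdb.mul hX).integrable (μ := μ)
  have i3 := (hcb.mul hY).integrable (μ := μ)
  have i4 := (hcb.mul hdb).integrable (μ := μ)
  have k1 := condExp_add (μ := μ) ((i1.sub i2).sub i3) i4 m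
  have k2 := condExp_sub (μ := μ) (i1.sub i2) i3 m
  have k3 := condExp_sub (μ := μ) i1 i2 m
  filter_upwards [h1, h2, h3, h4, k1, k2, k3] with ω h1 h2 h3 h4 k1 k2 k3
  simp only [ccov]
  have k0 : (μ[fun ω => (X ω - c ω) * (Y ω - d ω) | m]) ω =
      (μ[fun ω => X ω * Y ω | m]) ω - d ω * (μ[X | m]) ω - c ω * (μ[Y | m]) ω + c ω * d ω := by
    rw [e, k1, Pi.add_apply, k2, Pi.sub_apply, k3, Pi.sub_apply, h3, h4]
    have : (μ[fun ω => c ω * d ω | m]) = fun ω => c ω * d ω := h5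
    rw [this]
  rw [k0, h1, h2]
  ring

lemma lL_sub (g : ι → ℝ) (X c : ι → Ω → ℝ) (s : Finset ι) (ω : Ω) :
    lL g (fun i ω => X i ω - c i ω) s ω = lL g X s ω - lL g c s ω := by
  simp only [lL]
  rw [← Finset.sum_sub_distrib]
  exact Finset.sum_congr rfl fun i _ => by ring

lemma aL_sub (g : ι → ℝ) (X c : ι → Ω → ℝ) (s : Finset ι) (ω : Ω) :
    aL g (fun i ω => X i ω - c i ω) s ω = aL g X s ω - aL g c s ω := by
  simp only [aL]
  rw [← Finset.sum_sub_distrib]
  exact Finset.sum_congr rfl fun i _ => by ring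

lemma ei_sub (x y : ℝ) : ei (x - y) = ei (-y) * ei x := by
  rw [← ei_add]
  congr 1
  ring

/-- The Newman property is invariant under bounded measurable shifts. -/
theorem NP.sub [IsProbabilityMeasure μ] {m : MeasurableSpace Ω} (hm : m ≤ mΩ)
    {X c : ι → Ω → ℝ} (hX : ∀ i, BM (mΩ := mΩ) (X i)) (hc : ∀ i, Measurable[m] (c i))
    (hcb : ∀ i, BM (mΩ := mΩ) (c i)) (h : NP μ m X) :
    NP μ m (fun i ω => X i ω - c i ω) where
  nn := by
    intro i j
    filter_upwards [ccov_shift (μ := μ) hm (hX i) (hX j) (hc i) (hcb i) (hc j) (hcb j),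
      h.nn i j] with ω h1 h2
    have h1' : ccov μ m ((fun i ω => X i ω - c i ω) i) ((fun i ω => X i ω - c i ω) j) ω =
      ccov μ m (X i) (X j) ω := h1
    rw [h1']
    exact h2
  ineq := by
    intro g s t
    have hLs := bm_lL (mΩ := mΩ) (g := g) hX s
    have hLt := bm_lL (mΩ := mΩ) (g := g) hX t
    have hcs : Measurable[m] (lL g c s) := Finset.measurable_sum _ fun i _ => (hc i).const_mul _
    have hct : Measurable[m] (lL g c t) := Finset.measurable_sum _ fun i _ => (hc i).const_mul _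
    have has : Measurable[m] (aL g c s) := Finset.measurable_sum _ fun i _ => (hc i).const_mul _
    have hat : Measurable[m] (aL g c t) := Finset.measurable_sum _ fun i _ => (hc i).const_mul _
    have k1 := ccov_shift (μ := μ) hm (bm_aL (mΩ := mΩ) (g := g) hX s)
      (bm_aL (mΩ := mΩ) (g := g) hX t) has (bm_aL hcb s) hat (bm_aL hcb t)
    have es : aL g (fun i ω => X i ω - c i ω) s = fun ω => aL g X s ω - aL g c s ω :=
      funext fun ω => aL_sub g X c s ω
    have et : aL g (fun i ω => X i ω - c i ω) t = fun ω => aL g X t ω - aL g c t ω :=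
      funext fun ω => aL_sub g X c t ω
    have i1 : Integrable (fun ω => ei (lL g X s ω)) μ := integrable_ei hLs.1
    have i2 : Integrable (fun ω => ei (lL g X t ω)) μ := integrable_ei hLt.1
    have i3 : Integrable (fun ω => ei (lL g X s ω) * ei (lL g X t ω)) μ := by
      have : (fun ω => ei (lL g X s ω) * ei (lL g X t ω)) =
          fun ω => ei (lL g X s ω + lL g X t ω) := by
        funext ω
        rw [ei_add]
      rw [this]
      exact integrable_ei (hLs.1.add hLt.1)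
    have z1 : StronglyMeasurable[m] (fun ω => ei (-lL g c s ω)) :=
      (measurable_ei.comp hcs.neg).stronglyMeasurable
    have z2 : StronglyMeasurable[m] (fun ω => ei (-lL g c t ω)) :=
      (measurable_ei.comp hct.neg).stronglyMeasurable
    have z3 : StronglyMeasurable[m] (fun ω => ei (-lL g c s ω) * ei (-lL g c t ω)) := z1.mul z2
    have b1 := condExp_stronglyMeasurable_bilin_of_bound (μ := μ) (ContinuousLinearMap.mul ℝ ℂ)
      hm z1 i1 1 (ae_of_all _ fun ω => (norm_ei _).le)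
    have b2 := condExp_stronglyMeasurable_bilin_of_bound (μ := μ) (ContinuousLinearMap.mul ℝ ℂ)
      hm z2 i2 1 (ae_of_all _ fun ω => (norm_ei _).le)
    have b3 := condExp_stronglyMeasurable_bilin_of_bound (μ := μ) (ContinuousLinearMap.mul ℝ ℂ)
      hm z3 i3 1 (ae_of_all _ fun ω => by rw [norm_mul, norm_ei, norm_ei]; norm_num)
    simp only [ContinuousLinearMap.mul_apply'] at b1 b2 b3
    have e1 : (fun ω => ei (lL g (fun i ω => X i ω - c i ω) s ω)) =
        fun ω => ei (-lL g c s ω) * ei (lL g X s ω) := by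
      funext ω
      rw [lL_sub, ei_sub]
    have e2 : (fun ω => ei (lL g (fun i ω => X i ω - c i ω) t ω)) =
        fun ω => ei (-lL g c t ω) * ei (lL g X t ω) := by
      funext ω
      rw [lL_sub, ei_sub]
    have e3 : (fun ω => ei (lL g (fun i ω => X i ω - c i ω) s ω) *
        ei (lL g (fun i ω => X i ω - c i ω) t ω)) =
        fun ω => (ei (-lL g c s ω) * ei (-lL g c t ω)) * (ei (lL g X s ω) * ei (lL g X t ω)) := by
      funext ω
      rw [lL_sub, lL_sub, ei_sub, ei_sub]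
      ring
    rw [e1, e2, e3, es, et]
    filter_upwards [k1, b1, b2, b3, h.ineq g s t] with ω k1 b1 b2 b3 hh
    rw [k1, b1, b2, b3]
    refine le_trans (le_of_eq ?_) hh
    have : ∀ a b A B C : ℂ, ‖a‖ = 1 → ‖b‖ = 1 → ‖a * b * A - a * B * (b * C)‖ = ‖A - B * C‖ := by
      intro a b A B C ha hb
      have e : a * b * A - a * B * (b * C) = a * b * (A - B * C) := by ring
      rw [e, norm_mul, norm_mul, ha, hb]
      ring
    exact this _ _ _ _ _ (norm_ei _) (norm_ei _)

end Vale.Agent.P153.CLT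
end

section

/-! P153, (P5): Plancherel on the plane and density of Fourier transforms of test functions. -/

open MeasureTheory FourierTransform Set Filter Topology
open scoped Real SchwartzMap ContDiff RealInnerProductSpace

namespace Vale.Agent.P153.TwoPt.P5

/-- the Euclidean plane -/
abbrev E : Type := WithLp 2 (ℝ × ℝ)

/-- the Fourier transform of a complex test function on the plane -/
noncomputable def FTc (f : ℝ × ℝ → ℂ) (w q : ℝ) : ℂ :=
  ∫ z : ℝ × ℝ, f z * Complex.exp (Complex.I * ((w * z.1 + q * z.2 : ℝ) : ℂ))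

/-- the scaling factor -/
noncomputable def sc : ℝ := -(2 * π)⁻¹

lemma sc_ne : sc ≠ 0 := by unfold sc; simp only [mul_inv_rev, ne_eq, neg_eq_zero, mul_eq_zero, inv_eq_zero, Real.pi_ne_zero, OfNat.ofNat_ne_zero, or_self, not_false_eq_true]

lemma integral_E {F : Type*} [NormedAddCommGroup F] [NormedSpace ℝ F] (f : E → F) :
    ∫ x : ℝ × ℝ, f (WithLp.toLp 2 x) = ∫ v : E, f v :=
  (WithLp.volume_preserving_toLp ℝ ℝ).integral_comp
    (MeasurableEquiv.toLp 2 (ℝ × ℝ)).measurableEmbedding f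

lemma FTc_eq (f : ℝ × ℝ → ℂ) (p : ℝ × ℝ) :
    FTc f p.1 p.2 = 𝓕 (fun v : E => f (WithLp.ofLp v)) (WithLp.toLp 2 (sc • p)) := by
  rw [Real.fourier_eq', ← integral_E]
  unfold FTc
  refine integral_congr_ae (ae_of_all _ fun z => ?_)
  simp only [WithLp.prod_inner_apply, smul_eq_mul]
  rw [mul_comm]
  congr 2
  have h : (inner ℝ z.1 (sc * p.1) + inner ℝ z.2 (sc * p.2) : ℝ) =
      sc * (p.1 * z.1 + p.2 * z.2) := by
    simp only [RCLike.inner_apply, Real.ringHom_apply]; ring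
  simp only [Prod.smul_fst, Prod.smul_snd, smul_eq_mul]
  rw [h]
  have h2 : (-2 * π * (sc * (p.1 * z.1 + p.2 * z.2)) : ℝ) = p.1 * z.1 + p.2 * z.2 := by
    unfold sc
    field_simp
  rw [h2]
  ring

lemma integral_scaled {F : Type*} [NormedAddCommGroup F] [NormedSpace ℝ F] (f : E → F) :
    ∫ p : ℝ × ℝ, f (WithLp.toLp 2 (sc • p)) = (4 * π ^ 2) • ∫ v : E, f v := by
  have h := Measure.integral_comp_smul (volume : Measure (ℝ × ℝ))
    (fun x => f (WithLp.toLp 2 x)) sc
  rw [h, integral_E]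
  congr 1
  have : Module.finrank ℝ (ℝ × ℝ) = 2 := by simp
  rw [this]
  unfold sc
  rw [neg_sq, inv_pow, inv_inv, abs_of_nonneg (by positivity)]
  ring

lemma norm_sq_Lp {α : Type*} [MeasurableSpace α] {μ : Measure α} (f : Lp ℂ 2 μ) :
    ‖f‖ ^ 2 = ∫ x, ‖f x‖ ^ 2 ∂μ := by
  have h := (Lp.memLp f).eLpNorm_eq_integral_rpow_norm (by norm_num) (by norm_num)
  rw [Lp.norm_def, h, ENNReal.toReal_ofReal (by positivity)]
  simp only [ENNReal.toReal_ofNat, Real.rpow_ofNat]
  have h0 : 0 ≤ ∫ x, ‖f x‖ ^ 2 ∂μ := integral_nonneg fun x => by positivity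
  rw [← Real.rpow_natCast, ← Real.rpow_mul h0]
  norm_num

/-- the norm of a difference of two classes -/
lemma norm_sq_toLp_sub {α : Type*} [MeasurableSpace α] {μ : Measure α} (f g : Lp ℂ 2 μ)
    (F G : α → ℂ) (hF : f =ᵐ[μ] F) (hG : g =ᵐ[μ] G) :
    ‖f - g‖ ^ 2 = ∫ x, ‖F x - G x‖ ^ 2 ∂μ := by
  rw [norm_sq_Lp]
  refine integral_congr_ae ?_
  filter_upwards [Lp.coeFn_sub f g, hF, hG] with x e1 e2 e3
  rw [e1, Pi.sub_apply, e2, e3]

/-- Plancherel for the difference of a Schwartz function and a class. -/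
lemma fourier_sub_norm (H : 𝓢(E, ℂ)) (G : Lp (α := E) ℂ 2 volume) :
    ‖(𝓕 H).toLp 2 volume - 𝓕 G‖ = ‖G - H.toLp 2 volume‖ := by
  have k0 : 𝓕 (H.toLp 2 volume) = (𝓕 H).toLp 2 volume := SchwartzMap.toLp_fourier_eq H
  have e2 : (𝓕 H).toLp 2 volume - 𝓕 G = Lp.fourierTransformₗᵢ E ℂ (H.toLp 2 volume - G) := by
    rw [map_sub, ← k0]
    rfl
  rw [e2, LinearIsometryEquiv.norm_map, ← norm_neg, neg_sub]

/-- a test function on the plane, as a Schwartz function on the Euclidean plane -/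
lemma toE {h : ℝ × ℝ → ℂ} (hs : HasCompactSupport h) (hc : ContDiff ℝ ∞ h) :
    ∃ H : 𝓢(E, ℂ), ∀ v : E, H v = h (WithLp.ofLp v) := by
  have hs' : HasCompactSupport (fun v : E => h (WithLp.ofLp v)) :=
    hs.comp_homeomorph (WithLp.homeomorphProd 2 ℝ ℝ)
  have hc' : ContDiff ℝ ∞ (fun v : E => h (WithLp.ofLp v)) :=
    hc.comp (WithLp.prodContinuousLinearEquiv 2 ℝ ℝ ℝ).contDiff
  exact ⟨hs'.toSchwartzMap hc', fun v => rfl⟩

/-- Plancherel for test functions -/
theorem plancherel {h : ℝ × ℝ → ℂ} (hs : HasCompactSupport h) (hc : ContDiff ℝ ∞ h) :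
    ∫ p : ℝ × ℝ, ‖FTc h p.1 p.2‖ ^ 2 = 4 * π ^ 2 * ∫ z : ℝ × ℝ, ‖h z‖ ^ 2 := by
  obtain ⟨H, hH⟩ := toE hs hc
  have h1 : (fun v : E => h (WithLp.ofLp v)) = H := by ext v; exact (hH v).symm
  simp only [FTc_eq, h1]
  rw [integral_scaled (fun v : E => ‖𝓕 (H : E → ℂ) v‖ ^ 2)]
  have h2 := SchwartzMap.integral_norm_sq_fourier H
  rw [SchwartzMap.fourier_coe] at h2
  rw [h2, ← integral_E, smul_eq_mul]
  simp only [hH]

/-- **Density.** Every square integrable function on the plane is approximated in `L²` by Fourier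
transforms of test functions. -/
theorem approx {W : ℝ × ℝ → ℂ} (hWm : Measurable W) (hW : Integrable fun p => ‖W p‖ ^ 2) {ε : ℝ}
    (hε : 0 < ε) : ∃ h : ℝ × ℝ → ℂ, HasCompactSupport h ∧ ContDiff ℝ ∞ h ∧
      Integrable (fun p : ℝ × ℝ => ‖FTc h p.1 p.2 - W p‖ ^ 2) ∧
      ∫ p : ℝ × ℝ, ‖FTc h p.1 p.2 - W p‖ ^ 2 ≤ ε := by
  set U : E → ℂ := fun v => W (sc⁻¹ • WithLp.ofLp v) with hU
  have hofm : Measurable (fun v : E => (WithLp.ofLp v : ℝ × ℝ)) :=
    (MeasurableEquiv.toLp 2 (ℝ × ℝ)).symm.measurable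
  have hUm : Measurable U := hWm.comp ((measurable_const_smul sc⁻¹).comp hofm)
  have hUi : Integrable fun v => ‖U v‖ ^ 2 := by
    have h1 : Integrable (fun x : ℝ × ℝ => ‖W (sc⁻¹ • x)‖ ^ 2) :=
      Integrable.comp_smul (f := fun x : ℝ × ℝ => ‖W x‖ ^ 2) hW (inv_ne_zero sc_ne)
    exact (WithLp.volume_preserving_ofLp ℝ ℝ).integrable_comp_of_integrable h1
  have hU2 : MemLp U 2 volume := (memLp_two_iff_integrable_sq_norm hUm.aestronglyMeasurable).2 hUi
  set G := 𝓕⁻ (hU2.toLp U) with hG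
  have hδ : 0 < √(ε / (4 * π ^ 2)) := Real.sqrt_pos.2 (by positivity)
  obtain ⟨h₀, hs, hc, hle⟩ := MemLp.exist_eLpNorm_sub_le (p := 2) (μ := volume) (by simp) (by simp)
    (Lp.memLp G) hδ
  set H : 𝓢(E, ℂ) := hs.toSchwartzMap hc with hH
  have k1 : ‖G - H.toLp 2 volume‖ ≤ √(ε / (4 * π ^ 2)) := by
    rw [Lp.norm_def]
    refine ENNReal.toReal_le_of_le_ofReal hδ.le ?_
    refine le_trans (le_of_eq ?_) hle
    refine eLpNorm_congr_ae ?_
    filter_upwards [Lp.coeFn_sub G (H.toLp 2 volume), H.coeFn_toLp 2 volume] with v e1 e2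
    rw [e1, Pi.sub_apply, Pi.sub_apply, e2]
    rfl
  have k2 : ‖(𝓕 H).toLp 2 volume - hU2.toLp U‖ ≤ √(ε / (4 * π ^ 2)) := by
    have e1 : 𝓕 G = hU2.toLp U := by rw [hG, fourier_fourierInv_eq]
    rw [← e1, fourier_sub_norm]
    exact k1
  have hHi : Integrable fun v : E => ‖(𝓕 H) v - U v‖ ^ 2 := by
    have m1 : MemLp (fun v : E => (𝓕 H) v - U v) 2 volume := ((𝓕 H).memLp 2 volume).sub hU2
    exact (memLp_two_iff_integrable_sq_norm m1.1).1 m1
  have k3 : ∫ v : E, ‖(𝓕 H) v - U v‖ ^ 2 ≤ ε / (4 * π ^ 2) := by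
    rw [← norm_sq_toLp_sub _ _ _ _ ((𝓕 H).coeFn_toLp 2 volume) hU2.coeFn_toLp,
      ← Real.sq_sqrt (show (0 : ℝ) ≤ ε / (4 * π ^ 2) by (clear * - hε; positivity))]
    exact pow_le_pow_left₀ (norm_nonneg _) k2 2
  -- back to the plane
  have hs2 : HasCompactSupport (fun z : ℝ × ℝ => h₀ (WithLp.toLp 2 z)) :=
    hs.comp_homeomorph (WithLp.homeomorphProd 2 ℝ ℝ).symm
  have hc2 : ContDiff ℝ ∞ (fun z : ℝ × ℝ => h₀ (WithLp.toLp 2 z)) :=
    hc.comp (WithLp.prodContinuousLinearEquiv 2 ℝ ℝ ℝ).symm.contDiff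
  have hF : ∀ p : ℝ × ℝ, ‖FTc (fun z : ℝ × ℝ => h₀ (WithLp.toLp 2 z)) p.1 p.2 - W p‖ ^ 2 =
      ‖(𝓕 H) (WithLp.toLp 2 (sc • p)) - U (WithLp.toLp 2 (sc • p))‖ ^ 2 := by
    intro p
    rw [FTc_eq, SchwartzMap.fourier_coe]
    congr 3
    simp only [hU]
    rw [smul_smul, inv_mul_cancel₀ sc_ne, one_smul]
  refine ⟨_, hs2, hc2, ?_, ?_⟩
  · simp only [hF]
    have h1 : Integrable (fun x : ℝ × ℝ => ‖(𝓕 H) (WithLp.toLp 2 x) - U (WithLp.toLp 2 x)‖ ^ 2) :=
      (WithLp.volume_preserving_toLp ℝ ℝ).integrable_comp_of_integrable hHi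
    exact Integrable.comp_smul (f := fun x : ℝ × ℝ =>
      ‖(𝓕 H) (WithLp.toLp 2 x) - U (WithLp.toLp 2 x)‖ ^ 2) h1 sc_ne
  · simp only [hF]
    have hsc := integral_scaled (fun v : E => ‖(𝓕 H : 𝓢(E, ℂ)) v - U v‖ ^ 2)
    rw [hsc, smul_eq_mul]
    have hpos : (0 : ℝ) ≤ 4 * π ^ 2 := by positivity
    refine (mul_le_mul_of_nonneg_left k3 hpos).trans (le_of_eq ?_)
    have hne : (4 * π ^ 2 : ℝ) ≠ 0 := by positivity
    rw [mul_div_cancel₀ _ hne]

end Vale.Agent.P153.TwoPt.P5
end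

section

/-!
# Averages of a summable kernel over blocks
-/

namespace Vale.Agent.P153.Asm

open Filter Finset
open scoped Topology

/-- Number of pairs of sites of a block of length `l` at distance `z`. -/
def npair (l : ℕ) (z : ℤ) : ℕ :=
  ((range l ×ˢ range l).filter fun p => (p.1 : ℤ) - (p.2 : ℤ) = z).card

lemma npair_le (l : ℕ) (z : ℤ) : npair l z ≤ l := by
  unfold npair
  have h1 : ((range l ×ˢ range l).filter fun p => (p.1 : ℤ) - (p.2 : ℤ) = z).card ≤
      (range l).card := by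
    refine Finset.card_le_card_of_injOn Prod.fst ?_ ?_
    · intro p hp
      have := (Finset.mem_filter.1 hp).1
      exact (Finset.mem_product.1 this).1
    · intro p hp q hq hpq
      have h1 := (Finset.mem_filter.1 (Finset.mem_coe.1 hp)).2
      have h2 := (Finset.mem_filter.1 (Finset.mem_coe.1 hq)).2
      ext
      · exact hpq
      · have h3 : p.1 = q.1 := hpq
        rw [h3] at h1
        have : (p.2 : ℤ) = q.2 := by linarith only [h1, h2]
        exact_mod_cast this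
  simpa only [ge_iff_le, card_range] using h1

lemma le_npair (l : ℕ) (z : ℤ) : l - z.natAbs ≤ npair l z := by
  unfold npair
  rw [← Finset.card_range (l - z.natAbs)]
  refine Finset.card_le_card_of_injOn (fun k => (k + z.toNat, k + (-z).toNat)) ?_ ?_
  · intro k hk
    rw [Finset.mem_coe, Finset.mem_range] at hk
    rw [Finset.mem_coe, Finset.mem_filter, Finset.mem_product, Finset.mem_range, Finset.mem_range]
    simp only
    refine ⟨⟨by omega, by omega⟩, ?_⟩
    push_cast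
    have := Int.toNat_sub_toNat_neg z
    linarith only [this]
  · intro k _ k' _ hkk
    have := congrArg Prod.fst hkk
    simp only at this
    omega

lemma sum_pairs (c : ℤ → ℝ) (l : ℕ) :
    ∑ x ∈ range l, ∑ y ∈ range l, c ((x : ℤ) - y) = ∑' z, c z * npair l z := by
  have h0 : ∀ z, z ∉ Finset.Icc (-(l : ℤ)) l → c z * npair l z = 0 := by
    intro z hz
    have : npair l z = 0 := by
      unfold npair
      rw [Finset.card_eq_zero, Finset.filter_eq_empty_iff]
      intro p hp h1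
      rw [Finset.mem_product, Finset.mem_range, Finset.mem_range] at hp
      exact hz (Finset.mem_Icc.2 ⟨by omega, by omega⟩)
    rw [this]
    simp
  rw [tsum_eq_sum h0, ← Finset.sum_product']
  have h1 : ∀ z, c z * (npair l z : ℝ) =
      ∑ p ∈ range l ×ˢ range l, if (p.1 : ℤ) - (p.2 : ℤ) = z then c z else 0 := by
    intro z
    rw [← Finset.sum_filter, Finset.sum_const, nsmul_eq_mul, mul_comm]
    rfl
  simp only [h1]
  rw [Finset.sum_comm]
  refine Finset.sum_congr rfl fun p hp => ?_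
  rw [Finset.mem_product, Finset.mem_range, Finset.mem_range] at hp
  rw [Finset.sum_ite_eq]
  rw [if_pos (Finset.mem_Icc.2 ⟨by omega, by omega⟩)]

/-- Block averages of a summable kernel. -/
theorem cesaro {c : ℤ → ℝ} (hc : Summable c) (h0 : ∀ z, 0 ≤ c z) :
    Tendsto (fun l : ℕ => (1 / (l : ℝ)) * ∑ x ∈ range l, ∑ y ∈ range l, c ((x : ℤ) - y)) atTop
      (𝓝 (∑' z, c z)) := by
  have e : ∀ l : ℕ, (1 / (l : ℝ)) * ∑ x ∈ range l, ∑ y ∈ range l, c ((x : ℤ) - y) =
      ∑' z, c z * ((npair l z : ℝ) / l) := by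
    intro l
    rw [sum_pairs, ← tsum_mul_left]
    exact tsum_congr fun z => by ring
  simp only [e]
  refine tendsto_tsum_of_dominated_convergence hc ?_ ?_
  · intro z
    have h1 : Tendsto (fun l : ℕ => (npair l z : ℝ) / l) atTop (𝓝 1) := by
      have h2 : Tendsto (fun l : ℕ => 1 - (z.natAbs : ℝ) / l) atTop (𝓝 (1 - 0)) :=
        tendsto_const_nhds.sub (tendsto_const_nhds.div_atTop tendsto_natCast_atTop_atTop)
      rw [sub_zero] at h2
      refine tendsto_of_tendsto_of_tendsto_of_le_of_le' h2 tendsto_const_nhds ?_ ?_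
      · filter_upwards [eventually_gt_atTop 0] with l hl
        have hl' : (0 : ℝ) < l := by exact_mod_cast hl
        rw [le_div_iff₀ hl', sub_mul, one_mul, div_mul_cancel₀ _ hl'.ne']
        have h3 := le_npair l z
        have h4 : (l : ℝ) ≤ npair l z + z.natAbs := by
          have : l ≤ npair l z + z.natAbs := by omega
          exact_mod_cast this
        linarith only [h4]
      · filter_upwards [eventually_gt_atTop 0] with l hl
        have hl' : (0 : ℝ) < l := by exact_mod_cast hl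
        rw [div_le_one hl']
        exact_mod_cast npair_le l z
    simpa only [mul_one] using h1.const_mul (c z)
  · refine Eventually.of_forall fun l z => ?_
    rw [Real.norm_eq_abs, abs_mul, abs_of_nonneg (h0 z)]
    have h1 : |(npair l z : ℝ) / l| ≤ 1 := by
      rw [abs_of_nonneg (by positivity)]
      rcases Nat.eq_zero_or_pos l with rfl | hl
      · simp only [CharP.cast_eq_zero, div_zero, zero_le_one]
      · have hl' : (0 : ℝ) < l := by exact_mod_cast hl
        rw [div_le_one hl']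
        exact_mod_cast npair_le l z
    exact mul_le_of_le_one_right (h0 z) h1

/-- The averages are at most the sum. -/
theorem cesaro_le {c : ℤ → ℝ} (hc : Summable c) (h0 : ∀ z, 0 ≤ c z) (l : ℕ) :
    ∑ x ∈ range l, ∑ y ∈ range l, c ((x : ℤ) - y) ≤ l * ∑' z, c z := by
  rw [sum_pairs, ← tsum_mul_left]
  refine Summable.tsum_le_tsum (fun z => ?_) ?_ (hc.mul_left _)
  · rw [mul_comm]
    exact mul_le_mul_of_nonneg_right (by exact_mod_cast npair_le l z) (h0 z)
  · refine Summable.of_nonneg_of_le (fun z => mul_nonneg (h0 z) (Nat.cast_nonneg _))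
      (fun z => ?_) (hc.mul_left (l : ℝ))
    rw [mul_comm]
    exact mul_le_mul_of_nonneg_right (by exact_mod_cast npair_le l z) (h0 z)

end Vale.Agent.P153.Asm
end

section

/-!
# B5: from a density with a row representation to isotropy.  Definitions.

Physical momenta `z = k_x + i k_y : ℂ`, rows of the triangular lattice parallel to the real axis,
`θ = √3 k_y` is the phase of the translation by two rows.
-/

open MeasureTheory Filter Topology Set

namespace Vale.Agent.P153.Iso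

/-- `|1 - τ e^{iθ}|^2 = (1-τ)^2 + τ (2 - 2 cos θ)` (same as `TwoPt.den`). -/
noncomputable def den (τ θ : ℝ) : ℝ := (1 - τ) ^ 2 + τ * (2 - 2 * Real.cos θ)

/-- `e^{iπ/3}`. -/
noncomputable def om : ℂ := ⟨1 / 2, √3 / 2⟩

/-- The folded row density `∫ 1/|1-τ e^{iθ}|² dm_x(τ)`, `θ = √3 y`. -/
noncomputable def Psi (m : ℝ → Measure ℝ) (x y : ℝ) : ℝ := ∫ τ, 1 / den τ (√3 * y) ∂(m x)

/-- Input of B5. -/
structure DensHyp (φ : ℂ → ℝ) (m : ℝ → Measure ℝ) (C ρ : ℝ) : Prop where
  rho_pos : 0 < ρ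
  meas : Measurable φ
  nonneg : ∀ z, 0 ≤ φ z
  bdd : ∀ᵐ z : ℂ, ‖z‖ < ρ → ‖z‖ ^ 2 * φ z ≤ C
  rot : ∀ᵐ z : ℂ, φ (om * z) = φ z
  refl : ∀ᵐ z : ℂ, φ ((starRingEnd ℂ) z) = φ z
  supp : ∀ᵐ x : ℝ, ∀ᵐ τ ∂(m x), 0 ≤ τ ∧ τ < 1
  fin : ∀ᵐ x : ℝ, |x| < ρ → m x univ ≠ ⊤
  rep : ∀ᵐ z : ℂ, ‖z‖ < ρ → |φ z - Psi m z.re z.im| ≤ C

/-- Output of B5: the two-point function is asymptotically isotropic. -/
def IsoOut (φ : ℂ → ℝ) (κ : ℝ) : Prop :=
  ∀ ε, 0 < ε → ∃ r0, 0 < r0 ∧ ∀ᵐ z : ℂ, z ≠ 0 → ‖z‖ < r0 → |‖z‖ ^ 2 * φ z - κ| ≤ ε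

/-- Target theorem of B5. -/
def B5Statement : Prop := ∀ (φ : ℂ → ℝ) (m : ℝ → Measure ℝ) (C ρ : ℝ),
  DensHyp φ m C ρ → ∃ κ, 0 ≤ κ ∧ IsoOut φ κ ∧
    (∀ ε, 0 < ε → ∃ η, 0 < η ∧ ∀ᵐ k : ℝ, |k| < η → k ≠ 0 → ∀ θ : ℝ, |θ| < η →
      |(3 * k ^ 2 + θ ^ 2) * (∫ τ, 1 / den τ θ ∂(m k)) - 3 * κ| ≤ ε)

end Vale.Agent.P153.Iso
end

section

/-!
# B5, part 1: the row kernel `1 / den τ θ`
-/

open MeasureTheory Filter Topology Set

namespace Vale.Agent.P153.Iso

theorem den_eq (τ θ : ℝ) : den τ θ = (τ - Real.cos θ) ^ 2 + Real.sin θ ^ 2 := by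
  unfold den
  have := Real.sin_sq_add_cos_sq θ
  linarith

theorem sin_sq_le_den (τ θ : ℝ) : Real.sin θ ^ 2 ≤ den τ θ := by
  rw [den_eq]; nlinarith only []

theorem den_pos {τ θ : ℝ} (hθ : Real.sin θ ≠ 0) : 0 < den τ θ :=
  lt_of_lt_of_le (by positivity) (sin_sq_le_den τ θ)

theorem den_pos' {τ θ : ℝ} (h0 : 0 ≤ τ) (h1 : τ < 1) : 0 < den τ θ := by
  unfold den
  have : 0 ≤ 2 - 2 * Real.cos θ := by linarith [Real.cos_le_one θ]
  have h2 : 0 < (1 - τ) ^ 2 := by have : 0 < 1 - τ := by linarith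
                                  positivity
  nlinarith only [h2, h0, this]

/-- `den` increases with `θ ∈ [0, π]`. -/
theorem den_mono {τ θ θ' : ℝ} (h0 : 0 ≤ τ) (hθ : 0 ≤ θ) (hθθ : θ ≤ θ') (hθ' : θ' ≤ Real.pi) :
    den τ θ ≤ den τ θ' := by
  unfold den
  have : Real.cos θ' ≤ Real.cos θ := Real.cos_le_cos_of_nonneg_of_le_pi hθ hθ' hθθ
  nlinarith only [h0, this]

/-- `X / den` increases with `θ`. -/
theorem ratio_mono {τ θ θ' : ℝ} (h0 : 0 ≤ τ) (h1 : τ < 1) (hθ : 0 ≤ θ) (hθθ : θ ≤ θ')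
    (hθ' : θ' ≤ Real.pi) :
    (2 - 2 * Real.cos θ) * (1 / den τ θ) ≤ (2 - 2 * Real.cos θ') * (1 / den τ θ') := by
  have hc : Real.cos θ' ≤ Real.cos θ := Real.cos_le_cos_of_nonneg_of_le_pi hθ hθ' hθθ
  have p1 := den_pos' (θ := θ) h0 h1
  have p2 := den_pos' (θ := θ') h0 h1
  rw [mul_one_div, mul_one_div, div_le_div_iff₀ p1 p2]
  unfold den
  have hX : 0 ≤ 2 - 2 * Real.cos θ := by linarith only [Real.cos_le_one θ]
  nlinarith only [hc]

/-- `sin b / b ≤ sin a / a`. -/
theorem sin_ratio {a b : ℝ} (ha : 0 < a) (hab : a ≤ b) (hb : b ≤ Real.pi) :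
    Real.sin b * a ≤ Real.sin a * b := by
  have hc := strictConcaveOn_sin_Icc.concaveOn
  have hb0 : 0 < b := lt_of_lt_of_le ha hab
  have m0 : (0:ℝ) ∈ Icc 0 Real.pi := ⟨le_rfl, Real.pi_pos.le⟩
  have mb : b ∈ Icc 0 Real.pi := ⟨hb0.le, hb⟩
  have c1 : 0 ≤ 1 - a / b := by rw [sub_nonneg, div_le_one hb0]; exact hab
  have c2 : 0 ≤ a / b := by positivity
  have h := hc.2 m0 mb c1 c2 (by ring)
  simp only [smul_eq_mul, mul_zero, Real.sin_zero, zero_add] at h
  rw [div_mul_cancel₀ a (ne_of_gt hb0)] at h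
  have h2 := mul_le_mul_of_nonneg_right h hb0.le
  have h3 : a / b * Real.sin b * b = Real.sin b * a := by field_simp
  linarith only [h2, h3]

theorem X_eq (θ : ℝ) : 2 - 2 * Real.cos θ = 4 * Real.sin (θ / 2) ^ 2 := by
  have h1 := Real.cos_sq' (θ / 2)
  have h2 := Real.cos_two_mul (θ / 2)
  have h3 : 2 * (θ / 2) = θ := by ring
  rw [h3] at h2
  rw [h2, h1]; ring

/-- `X(θ') / X(θ) ≤ (θ' / θ)²`. -/
theorem X_ratio {θ θ' : ℝ} (hθ : 0 < θ) (hθθ : θ ≤ θ') (hθ' : θ' ≤ Real.pi) :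
    (2 - 2 * Real.cos θ') * θ ^ 2 ≤ (2 - 2 * Real.cos θ) * θ' ^ 2 := by
  rw [X_eq, X_eq]
  have h := sin_ratio (a := θ / 2) (b := θ' / 2) (by linarith) (by linarith)
    (by linarith [Real.pi_pos])
  have h0 : 0 ≤ Real.sin (θ' / 2) :=
    Real.sin_nonneg_of_nonneg_of_le_pi (by linarith only [hθ, hθθ]) (by linarith only [hθ, hθθ, hθ'])
  have h1 : Real.sin (θ' / 2) * θ ≤ Real.sin (θ / 2) * θ' := by linarith
  have h2 := pow_le_pow_left₀ (mul_nonneg h0 hθ.le) h1 2
  linarith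

section measure

variable {μ : Measure ℝ}

theorem integrable_den [IsFiniteMeasure μ] {θ : ℝ} (hθ : Real.sin θ ≠ 0) :
    Integrable (fun τ => 1 / den τ θ) μ := by
  refine Integrable.of_bound (C := 1 / Real.sin θ ^ 2) ?_ ?_
  · apply Measurable.aestronglyMeasurable
    unfold den
    fun_prop
  · refine Eventually.of_forall fun τ => ?_
    rw [Real.norm_of_nonneg (one_div_nonneg.2 (den_pos hθ).le)]
    exact one_div_le_one_div_of_le (by positivity) (sin_sq_le_den τ θ)

theorem psi_nonneg {θ : ℝ} (hs : ∀ᵐ τ ∂μ, 0 ≤ τ ∧ τ < 1) : 0 ≤ ∫ τ, 1 / den τ θ ∂μ := by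
  apply integral_nonneg_of_ae
  filter_upwards [hs] with τ hτ
  exact one_div_nonneg.2 (den_pos' hτ.1 hτ.2).le

theorem psi_anti [IsFiniteMeasure μ] (hs : ∀ᵐ τ ∂μ, 0 ≤ τ ∧ τ < 1) {θ θ' : ℝ} (hθ : 0 < θ)
    (hθθ : θ ≤ θ') (hθ' : θ' < Real.pi) :
    ∫ τ, 1 / den τ θ' ∂μ ≤ ∫ τ, 1 / den τ θ ∂μ := by
  have s1 : Real.sin θ ≠ 0 := (Real.sin_pos_of_pos_of_lt_pi hθ (by linarith)).ne'
  have s2 : Real.sin θ' ≠ 0 := (Real.sin_pos_of_pos_of_lt_pi (by linarith) hθ').ne'
  refine integral_mono_ae (integrable_den s2) (integrable_den s1) ?_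
  filter_upwards [hs] with τ hτ
  exact one_div_le_one_div_of_le (den_pos' hτ.1 hτ.2) (den_mono hτ.1 hθ.le hθθ hθ'.le)

theorem psi_ratio [IsFiniteMeasure μ] (hs : ∀ᵐ τ ∂μ, 0 ≤ τ ∧ τ < 1) {θ θ' : ℝ} (hθ : 0 < θ)
    (hθθ : θ ≤ θ') (hθ' : θ' < Real.pi) :
    (2 - 2 * Real.cos θ) * ∫ τ, 1 / den τ θ ∂μ ≤
      (2 - 2 * Real.cos θ') * ∫ τ, 1 / den τ θ' ∂μ := by
  have s1 : Real.sin θ ≠ 0 := (Real.sin_pos_of_pos_of_lt_pi hθ (by linarith)).ne'
  have s2 : Real.sin θ' ≠ 0 := (Real.sin_pos_of_pos_of_lt_pi (by linarith) hθ').ne'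
  rw [← integral_const_mul, ← integral_const_mul]
  refine integral_mono_ae ((integrable_den s1).const_mul _) ((integrable_den s2).const_mul _) ?_
  filter_upwards [hs] with τ hτ
  exact ratio_mono hτ.1 hτ.2 hθ.le hθθ hθ'.le

/-- `Ψ(θ) ≤ (θ'/θ)² Ψ(θ')`. -/
theorem psi_le [IsFiniteMeasure μ] (hs : ∀ᵐ τ ∂μ, 0 ≤ τ ∧ τ < 1) {θ θ' : ℝ} (hθ : 0 < θ)
    (hθθ : θ ≤ θ') (hθ' : θ' < Real.pi) :
    ∫ τ, 1 / den τ θ ∂μ ≤ (θ' / θ) ^ 2 * ∫ τ, 1 / den τ θ' ∂μ := by
  have h1 := psi_ratio hs hθ hθθ hθ'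
  have h2 := X_ratio hθ hθθ hθ'.le
  have hX : 0 < 2 - 2 * Real.cos θ := by
    rw [X_eq]
    have : 0 < Real.sin (θ / 2) :=
      Real.sin_pos_of_pos_of_lt_pi (by linarith only [hθ]) (by linarith only [hθ, hθθ, hθ'])
    positivity
  have h0 := psi_nonneg (θ := θ') hs
  set A := ∫ τ, 1 / den τ θ ∂μ
  set B := ∫ τ, 1 / den τ θ' ∂μ
  have h3 : (2 - 2 * Real.cos θ) * (A * θ ^ 2) ≤ (2 - 2 * Real.cos θ) * (θ' ^ 2 * B) := by
    calc (2 - 2 * Real.cos θ) * (A * θ ^ 2) = ((2 - 2 * Real.cos θ) * A) * θ ^ 2 := by ring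
      _ ≤ ((2 - 2 * Real.cos θ') * B) * θ ^ 2 := mul_le_mul_of_nonneg_right h1 (by positivity)
      _ = ((2 - 2 * Real.cos θ') * θ ^ 2) * B := by ring
      _ ≤ ((2 - 2 * Real.cos θ) * θ' ^ 2) * B := mul_le_mul_of_nonneg_right h2 h0
      _ = _ := by ring
  have h4 := le_of_mul_le_mul_left h3 hX
  rw [div_pow, div_mul_eq_mul_div, le_div_iff₀ (by positivity)]
  exact h4

end measure

end Vale.Agent.P153.Iso
end

section

/-!
# B5, part 3: the upper density (limsup of ball averages)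
-/

open MeasureTheory Filter Topology Set Metric
open scoped ENNReal

namespace Vale.Agent.P153.Iso

/-- Ball average. -/
noncomputable def av (φ : ℂ → ℝ) (z : ℂ) (s : ℝ) : ℝ≥0∞ :=
  (∫⁻ w in closedBall z s, ENNReal.ofReal (φ w)) / volume (closedBall z s)

/-- Upper density. -/
noncomputable def ub (φ : ℂ → ℝ) (z : ℂ) : ℝ≥0∞ := limsup (fun s => av φ z s) (𝓝[>] 0)

theorem vol_ball_ne_zero (z : ℂ) {s : ℝ} (hs : 0 < s) : volume (closedBall z s) ≠ 0 :=
  (measure_closedBall_pos volume z hs).ne'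

theorem vol_ball_ne_top (z : ℂ) (s : ℝ) : volume (closedBall z s) ≠ ∞ := measure_closedBall_lt_top.ne

theorem av_add {φ : ℂ → ℝ} {z v : ℂ} {s : ℝ} :
    av φ (z + v) s = (∫⁻ w in closedBall z s, ENNReal.ofReal (φ (w + v))) / volume (closedBall z s) := by
  unfold av
  congr 1
  · rw [← lintegral_indicator measurableSet_closedBall, ← lintegral_indicator measurableSet_closedBall,
      ← lintegral_add_right_eq_self _ v]
    apply lintegral_congr
    intro w
    by_cases hw : w ∈ closedBall z s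
    · have : w + v ∈ closedBall (z + v) s := by
        rw [mem_closedBall] at hw ⊢
        rwa [dist_add_right]
      rw [indicator_of_mem hw, indicator_of_mem this]
    · have : w + v ∉ closedBall (z + v) s := by
        rw [mem_closedBall] at hw ⊢
        rwa [dist_add_right]
      rw [indicator_of_notMem hw, indicator_of_notMem this]
  · rw [Measure.addHaar_closedBall_center volume (z + v) s, Measure.addHaar_closedBall_center volume z s]

/-- Translation inequality. -/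
theorem ub_add_le {φ : ℂ → ℝ} {z v : ℂ} {a b : ℝ≥0∞} {s0 : ℝ} (hs0 : 0 < s0) (ha : a ≠ ∞)
    (hm : Measurable φ)
    (h : ∀ᵐ w : ℂ, w ∈ closedBall z s0 →
      ENNReal.ofReal (φ (w + v)) ≤ a * ENNReal.ofReal (φ w) + b) :
    ub φ (z + v) ≤ a * ub φ z + b := by
  have hav : ∀ s, 0 < s → s ≤ s0 → av φ (z + v) s ≤ a * av φ z s + b := by
    intro s hs hss
    rw [av_add]
    have h1 : ∫⁻ w in closedBall z s, ENNReal.ofReal (φ (w + v)) ≤
        ∫⁻ w in closedBall z s, (a * ENNReal.ofReal (φ w) + b) := by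
      apply setLIntegral_mono_ae
      · exact ((hm.ennreal_ofReal.const_mul a).add_const b).aemeasurable
      · filter_upwards [h] with w hw hws
        exact hw (closedBall_subset_closedBall hss hws)
    have h2 : ∫⁻ w in closedBall z s, (a * ENNReal.ofReal (φ w) + b) =
        a * (∫⁻ w in closedBall z s, ENNReal.ofReal (φ w)) + b * volume (closedBall z s) := by
      rw [lintegral_add_right _ measurable_const, lintegral_const_mul _ hm.ennreal_ofReal,
        lintegral_const, Measure.restrict_apply_univ]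
    rw [h2] at h1
    calc (∫⁻ w in closedBall z s, ENNReal.ofReal (φ (w + v))) / volume (closedBall z s)
        ≤ (a * (∫⁻ w in closedBall z s, ENNReal.ofReal (φ w)) + b * volume (closedBall z s)) /
            volume (closedBall z s) := by (clear * - h1; gcongr)
      _ = a * av φ z s + b := by
          rw [ENNReal.add_div, mul_div_assoc]
          congr 1
          rw [mul_div_assoc, ENNReal.div_self (vol_ball_ne_zero z hs) (vol_ball_ne_top z s),
            mul_one]
  have hev : ∀ᶠ s in 𝓝[>] (0:ℝ), av φ (z + v) s ≤ a * av φ z s + b := by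
    filter_upwards [Ioo_mem_nhdsGT hs0] with s hs
    exact hav s hs.1 hs.2.le
  unfold ub
  calc limsup (fun s => av φ (z + v) s) (𝓝[>] 0)
      ≤ limsup (fun s => a * av φ z s + b) (𝓝[>] 0) := limsup_le_limsup hev
    _ = a * limsup (fun s => av φ z s) (𝓝[>] 0) + b := by
        have hmono : Monotone fun x : ℝ≥0∞ => a * x + b := by
          intro x y hxy
          simp only
          (clear * - hxy; gcongr)
        have hcont : Continuous fun x : ℝ≥0∞ => a * x + b :=
          (ENNReal.continuous_const_mul ha).add continuous_const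
        exact (hmono.map_limsup_of_continuousAt (F := 𝓝[>] (0:ℝ)) (fun s => av φ z s)
          hcont.continuousAt).symm

/-- Upper bound. -/
theorem ub_le {φ : ℂ → ℝ} {z : ℂ} {b : ℝ≥0∞} {s0 : ℝ} (hs0 : 0 < s0)
    (h : ∀ᵐ w : ℂ, w ∈ closedBall z s0 → ENNReal.ofReal (φ w) ≤ b) : ub φ z ≤ b := by
  have hev : ∀ᶠ s in 𝓝[>] (0:ℝ), av φ z s ≤ b := by
    filter_upwards [Ioo_mem_nhdsGT hs0] with s hs
    unfold av
    apply ENNReal.div_le_of_le_mul
    calc ∫⁻ w in closedBall z s, ENNReal.ofReal (φ w) ≤ ∫⁻ w in closedBall z s, b := by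
          apply setLIntegral_mono_ae measurable_const.aemeasurable
          filter_upwards [h] with w hw hws
          exact hw (closedBall_subset_closedBall hs.2.le hws)
      _ = b * volume (closedBall z s) := by rw [lintegral_const, Measure.restrict_apply_univ]
  unfold ub
  calc limsup (fun s => av φ z s) (𝓝[>] 0) ≤ limsup (fun _ => b) (𝓝[>] (0:ℝ)) :=
        limsup_le_limsup hev
    _ = b := limsup_const b

/-- Invariance under isometries. -/
theorem ub_isometry {φ : ℂ → ℝ} (hm : Measurable φ) (T : ℂ ≃ₗᵢ[ℝ] ℂ)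
    (h : ∀ᵐ w : ℂ, φ (T w) = φ w) (z : ℂ) : ub φ (T z) = ub φ z := by
  unfold ub
  congr 1
  funext s
  unfold av
  have hmp : MeasurePreserving T volume volume := T.measurePreserving
  have hpre : T ⁻¹' (closedBall (T z) s) = closedBall z s := T.preimage_closedBall (T z) s |>.trans (by simp only [LinearIsometryEquiv.symm_apply_apply])
  congr 1
  · rw [← hmp.setLIntegral_comp_preimage measurableSet_closedBall hm.ennreal_ofReal, hpre]
    apply lintegral_congr_ae
    filter_upwards [ae_restrict_of_ae h] with w hw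
    rw [hw]
  · rw [Measure.addHaar_closedBall_center volume (T z) s, Measure.addHaar_closedBall_center volume z s]

/-- Lebesgue differentiation. -/
theorem ub_eq_ae {φ : ℂ → ℝ} (hm : Measurable φ) (hnn : ∀ z, 0 ≤ φ z) {ρ : ℝ}
    (hb : ∀ η, 0 < η → ∃ M : ℝ, ∀ᵐ w : ℂ, η < ‖w‖ → ‖w‖ < ρ → φ w ≤ M) :
    ∀ᵐ z : ℂ, 0 < ‖z‖ → ‖z‖ < ρ → ub φ z = ENNReal.ofReal (φ z) := by
  set A : ℕ → Set ℂ := fun n => {w | 1 / ((n:ℝ) + 1) < ‖w‖ ∧ ‖w‖ < ρ} with hA
  have hAo : ∀ n, IsOpen (A n) := fun n =>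
    (isOpen_lt continuous_const continuous_norm).inter (isOpen_lt continuous_norm continuous_const)
  have hAm : ∀ n, MeasurableSet (A n) := fun n => (hAo n).measurableSet
  have hint : ∀ n, Integrable ((A n).indicator φ) := by
    intro n
    obtain ⟨M, hM⟩ := hb (1 / ((n:ℝ) + 1)) (by (clear * -; positivity))
    rw [integrable_indicator_iff (hAm n)]
    have hfin : volume (A n) < ∞ := by
      refine lt_of_le_of_lt (measure_mono (t := closedBall 0 ρ) ?_) measure_closedBall_lt_top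
      intro w hw
      rw [mem_closedBall, dist_zero_right]
      exact hw.2.le
    haveI : IsFiniteMeasure (volume.restrict (A n)) := ⟨by rwa [Measure.restrict_apply_univ]⟩
    refine Integrable.of_bound (C := M) hm.aestronglyMeasurable ?_
    rw [ae_restrict_iff' (hAm n)]
    filter_upwards [hM] with w hw hwA
    rw [Real.norm_of_nonneg (hnn w)]
    exact hw hwA.1 hwA.2
  have hL : ∀ n, ∀ᵐ z : ℂ, Tendsto (fun s => ⨍ y in closedBall z s, (A n).indicator φ y)
      (𝓝[>] (0:ℝ)) (𝓝 ((A n).indicator φ z)) := by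
    intro n
    filter_upwards [IsUnifLocDoublingMeasure.ae_tendsto_average volume (hint n).locallyIntegrable 1]
      with z hz
    refine hz (fun _ => z) (fun s => s) tendsto_id ?_
    filter_upwards [self_mem_nhdsWithin] with s hs
    simp only [one_mul]
    exact mem_closedBall_self (le_of_lt hs)
  rw [← ae_all_iff] at hL
  filter_upwards [hL] with z hz h0 h1
  obtain ⟨n, hn⟩ := exists_nat_one_div_lt h0
  have hzA : z ∈ A n := ⟨hn, h1⟩
  have hlim := hz n
  rw [indicator_of_mem hzA] at hlim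
  obtain ⟨s0, hs0, hsub⟩ := Metric.isOpen_iff.1 (hAo n) z hzA
  have hlim2 : Tendsto (fun s => av φ z s) (𝓝[>] (0:ℝ)) (𝓝 (ENNReal.ofReal (φ z))) := by
    refine (ENNReal.tendsto_ofReal hlim).congr' ?_
    filter_upwards [Ioo_mem_nhdsGT hs0] with s hs
    have hss : closedBall z s ⊆ A n := (closedBall_subset_ball hs.2).trans hsub
    unfold av
    rw [setAverage_eq, smul_eq_mul]
    have e1 : ∫ y in closedBall z s, (A n).indicator φ y = ∫ y in closedBall z s, φ y := by
      apply setIntegral_congr_fun measurableSet_closedBall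
      intro y hy
      exact indicator_of_mem (hss hy) φ
    have hi : IntegrableOn φ (closedBall z s) := by
      have := (hint n).integrableOn (s := closedBall z s)
      refine this.congr_fun ?_ measurableSet_closedBall
      intro y hy
      exact indicator_of_mem (hss hy) φ
    rw [e1, ENNReal.ofReal_mul (by (clear * -; positivity)),
      ofReal_integral_eq_lintegral_ofReal hi (Eventually.of_forall hnn),
      ENNReal.div_eq_inv_mul]
    congr 1
    rw [measureReal_def, ENNReal.ofReal_inv_of_pos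
      (ENNReal.toReal_pos (vol_ball_ne_zero z hs.1) (vol_ball_ne_top z s)),
      ENNReal.ofReal_toReal (vol_ball_ne_top z s)]
  exact hlim2.limsup_eq

end Vale.Agent.P153.Iso
end

section

/-! P145, block F-A: Gaussian sums over the even integers. -/

namespace Vale.Agent.P145.FA

open Filter Topology

lemma summable_exp_sq : Summable (fun n : ℤ => Real.exp (-((n : ℝ) ^ 2))) := by
  have h1 : Summable (fun n : ℕ => Real.exp (-((n : ℝ)))) := Real.summable_exp_neg_nat
  refine Summable.of_nat_of_neg ?_ ?_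
  · refine Summable.of_nonneg_of_le (fun n => (Real.exp_pos _).le) (fun n => ?_) h1
    refine Real.exp_le_exp.2 ?_
    push_cast
    have : (n : ℝ) ≤ (n : ℝ) ^ 2 := by
      have h : n ≤ n ^ 2 := Nat.le_self_pow (by norm_num) n
      exact_mod_cast h
    linarith only [this]
  · refine Summable.of_nonneg_of_le (fun n => (Real.exp_pos _).le) (fun n => ?_) h1
    refine Real.exp_le_exp.2 ?_
    push_cast
    have : (n : ℝ) ≤ (n : ℝ) ^ 2 := by
      have h : n ≤ n ^ 2 := Nat.le_self_pow (by norm_num) n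
      exact_mod_cast h
    rw [neg_sq]
    linarith only [this]

/-- Gaussian sums over the even integers. -/
theorem gauss_sum : ∃ C : ℝ, 0 ≤ C ∧ ∀ K : ℝ, 1 ≤ K → ∀ t : ℝ,
    Summable (fun k : ℤ => Real.exp (-((t + 2 * k) ^ 2 / K ^ 2))) ∧
    |∑' k : ℤ, Real.exp (-((t + 2 * k) ^ 2 / K ^ 2)) - K * √Real.pi / 2| ≤
      C * (K * Real.exp (-K ^ 2)) := by
  set T : ℝ := ∑' n : ℤ, Real.exp (-((n : ℝ) ^ 2)) with hT
  have hT0 : 0 ≤ T := tsum_nonneg fun n => (Real.exp_pos _).le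
  refine ⟨√Real.pi / 2 * T, by positivity, fun K hK t => ?_⟩
  have hK0 : 0 < K := by linarith only [hK]
  have hpi := Real.pi_pos
  set a : ℝ := 4 / (Real.pi * K ^ 2) with ha
  have ha0 : 0 < a := by positivity
  set b : ℝ := -(2 * t) / (Real.pi * K ^ 2) with hb
  have haC : 0 < (a : ℂ).re := by rw [Complex.ofReal_re]; exact ha0
  have key := Complex.tsum_exp_neg_quadratic haC (b : ℂ)
  have hterm : ∀ n : ℤ, Complex.exp (-(Real.pi : ℂ) * (a : ℂ) * (n : ℂ) ^ 2
      + 2 * (Real.pi : ℂ) * (b : ℂ) * (n : ℂ)) =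
      ((Real.exp (t ^ 2 / K ^ 2) * Real.exp (-((t + 2 * n) ^ 2 / K ^ 2)) : ℝ) : ℂ) := by
    intro n
    rw [← Real.exp_add, Complex.ofReal_exp]
    congr 1
    rw [ha, hb]
    push_cast
    field_simp
    ring
  have hterm2 : ∀ n : ℤ, ‖Complex.exp (-(Real.pi : ℂ) / (a : ℂ) * ((n : ℂ) +
      Complex.I * (b : ℂ)) ^ 2)‖ = Real.exp (t ^ 2 / K ^ 2) *
        Real.exp (-(Real.pi ^ 2 * K ^ 2 / 4 * n ^ 2)) := by
    intro n
    rw [Complex.norm_exp, ← Real.exp_add]
    congr 1
    have e : -(Real.pi : ℂ) / (a : ℂ) * ((n : ℂ) + Complex.I * (b : ℂ)) ^ 2 =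
        (((-Real.pi / a) * ((n : ℝ) ^ 2 - b ^ 2) : ℝ) : ℂ) +
          (((-Real.pi / a) * (2 * n * b) : ℝ) : ℂ) * Complex.I := by
      push_cast
      have := Complex.I_sq
      linear_combination (-(Real.pi : ℂ) / (a : ℂ) * (b : ℂ) ^ 2) * this
    rw [e]
    simp only [Complex.add_re, Complex.ofReal_re, Complex.mul_re, Complex.ofReal_im,
      Complex.I_re, Complex.I_im, mul_zero, zero_mul, sub_zero, mul_one]
    rw [ha, hb]
    field_simp
    ring
  have hK2 : (1 : ℝ) ≤ K ^ 2 := one_le_pow₀ hK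
  have hpi2 : (2 : ℝ) ≤ Real.pi ^ 2 / 4 := by nlinarith only [Real.pi_gt_three]
  have hexp : ∀ n : ℤ, n ≠ 0 → Real.exp (-(Real.pi ^ 2 * K ^ 2 / 4 * n ^ 2)) ≤
      Real.exp (-K ^ 2) * Real.exp (-((n : ℝ) ^ 2)) := by
    intro n hn
    rw [← Real.exp_add]
    refine Real.exp_le_exp.2 ?_
    have h1 : (1 : ℝ) ≤ (n : ℝ) ^ 2 := by
      have : (1 : ℤ) ≤ n ^ 2 := by
        have := sq_pos_of_ne_zero hn
        omega
      exact_mod_cast this
    have h2 : 2 * (K ^ 2 * (n : ℝ) ^ 2) ≤ Real.pi ^ 2 / 4 * (K ^ 2 * (n : ℝ) ^ 2) :=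
      mul_le_mul_of_nonneg_right hpi2 (by (clear * - hK hn; positivity))
    nlinarith only [hK2, h1, h2]
  have hsumT := summable_exp_sq
  have hsumN : Summable (fun n : ℤ => Real.exp (-(Real.pi ^ 2 * K ^ 2 / 4 * n ^ 2))) := by
    refine Summable.of_nonneg_of_le (fun n => (Real.exp_pos _).le) (fun n => ?_) hsumT
    by_cases hn : n = 0
    · subst hn; simp
    · refine (hexp n hn).trans ?_
      have : Real.exp (-K ^ 2) ≤ 1 := Real.exp_le_one_iff.2 (by nlinarith only [])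
      exact mul_le_of_le_one_left (Real.exp_pos _).le this
  -- summability of the left side
  have hsumL : Summable (fun k : ℤ => Real.exp (-((t + 2 * k) ^ 2 / K ^ 2))) := by
    have h0 : Summable (fun n : ℤ => Complex.exp (-(Real.pi : ℂ) * (a : ℂ) * (n : ℂ) ^ 2
      + 2 * (Real.pi : ℂ) * (b : ℂ) * (n : ℂ))) := by
      have h1 := (summable_jacobiTheta₂_term_iff ((b : ℂ) / Complex.I)
        (Complex.I * (a : ℂ))).2 (by
          rw [Complex.mul_im, Complex.I_re, Complex.I_im, Complex.ofReal_re]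
          simpa only [Complex.ofReal_im, mul_zero, one_mul, zero_add] using ha0)
      refine h1.congr fun n => ?_
      unfold jacobiTheta₂_term
      congr 1
      have hI : Complex.I ≠ 0 := Complex.I_ne_zero
      field_simp
      have := Complex.I_sq
      linear_combination ((n : ℂ) ^ 2 * (a : ℂ)) * this
    have h2 : Summable (fun n : ℤ => ((Real.exp (t ^ 2 / K ^ 2) *
        Real.exp (-((t + 2 * n) ^ 2 / K ^ 2)) : ℝ) : ℂ)) := by
      simpa only [hterm] using h0
    have h3 := (Complex.summable_ofReal.1 h2).mul_left (Real.exp (t ^ 2 / K ^ 2))⁻¹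
    refine h3.congr fun n => ?_
    rw [← mul_assoc, inv_mul_cancel₀ (Real.exp_pos _).ne', one_mul]
  refine ⟨hsumL, ?_⟩
  have hsqa : (1 : ℂ) / (a : ℂ) ^ (1 / 2 : ℂ) = ((K * √Real.pi / 2 : ℝ) : ℂ) := by
    have e1 : (a : ℂ) ^ (1 / 2 : ℂ) = ((a ^ (1 / 2 : ℝ) : ℝ) : ℂ) := by
      rw [Complex.ofReal_cpow ha0.le]
      push_cast
      rfl
    have e2 : a ^ (1 / 2 : ℝ) = 2 / (K * √Real.pi) := by
      rw [← Real.sqrt_eq_rpow, ha, Real.sqrt_div (by norm_num), Real.sqrt_mul hpi.le,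
        Real.sqrt_sq hK0.le, show (4 : ℝ) = 2 ^ 2 by norm_num, Real.sqrt_sq (by norm_num),
        mul_comm]
    rw [e1, e2]
    push_cast
    have : (√Real.pi : ℂ) ≠ 0 := by
      exact_mod_cast (Real.sqrt_pos.2 hpi).ne'
    have hK' : (K : ℂ) ≠ 0 := by exact_mod_cast hK0.ne'
    field_simp
  set z : ℤ → ℂ := fun n => Complex.exp (-(Real.pi : ℂ) / (a : ℂ) * ((n : ℂ) +
      Complex.I * (b : ℂ)) ^ 2) with hz
  have hz0 : z 0 = ((Real.exp (t ^ 2 / K ^ 2) : ℝ) : ℂ) := by
    rw [hz]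
    simp only
    rw [Complex.ofReal_exp]
    congr 1
    have := Complex.I_sq
    rw [ha, hb]
    push_cast
    have hK' : (K : ℂ) ≠ 0 := by exact_mod_cast hK0.ne'
    have hp' : (Real.pi : ℂ) ≠ 0 := by exact_mod_cast hpi.ne'
    field_simp
    ring_nf
    simp only [Complex.I_sq]
    ring
  have hzn : ∀ n, ‖z n‖ = Real.exp (t ^ 2 / K ^ 2) *
        Real.exp (-(Real.pi ^ 2 * K ^ 2 / 4 * n ^ 2)) := hterm2
  have hzs : Summable z := by
    refine Summable.of_norm ?_
    simp only [hzn]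
    exact hsumN.mul_left _
  have hL : ((Real.exp (t ^ 2 / K ^ 2) * ∑' k : ℤ, Real.exp (-((t + 2 * k) ^ 2 / K ^ 2)) : ℝ) : ℂ)
      = ((K * √Real.pi / 2 : ℝ) : ℂ) * ∑' n, z n := by
    rw [← hsqa, ← key, ← tsum_mul_left, Complex.ofReal_tsum]
    exact tsum_congr fun n => (hterm n).symm
  have hdiff : ((Real.exp (t ^ 2 / K ^ 2) * (∑' k : ℤ, Real.exp (-((t + 2 * k) ^ 2 / K ^ 2))
      - K * √Real.pi / 2) : ℝ) : ℂ) = ((K * √Real.pi / 2 : ℝ) : ℂ) *
        (∑' n, z n - z 0) := by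
    rw [mul_sub ((K * √Real.pi / 2 : ℝ) : ℂ), ← hL, hz0]
    push_cast
    ring
  have hrest : ∑' n, z n - z 0 = ∑' n : ℤ, (if n = 0 then 0 else z n) := by
    rw [hzs.tsum_eq_add_tsum_ite 0]
    ring
  have hnorm : ‖∑' n : ℤ, (if n = 0 then (0 : ℂ) else z n)‖ ≤
      Real.exp (t ^ 2 / K ^ 2) * (Real.exp (-K ^ 2) * T) := by
    rw [hT, ← tsum_mul_left, ← tsum_mul_left]
    refine tsum_of_norm_bounded ((hsumT.mul_left _).mul_left _).hasSum fun n => ?_
    split_ifs with h
    · rw [norm_zero]; positivity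
    · rw [hzn]
      exact mul_le_mul_of_nonneg_left (hexp n h) (Real.exp_pos _).le
  have hcpos : 0 < K * √Real.pi / 2 := by positivity
  have hfin : Real.exp (t ^ 2 / K ^ 2) * |∑' k : ℤ, Real.exp (-((t + 2 * k) ^ 2 / K ^ 2))
      - K * √Real.pi / 2| = K * √Real.pi / 2 *
        ‖∑' n : ℤ, (if n = 0 then (0 : ℂ) else z n)‖ := by
    have h := congrArg norm hdiff
    rw [hrest, norm_mul ((K * √Real.pi / 2 : ℝ) : ℂ), Complex.norm_real, Complex.norm_real,
      Real.norm_eq_abs, Real.norm_eq_abs, abs_mul, abs_of_pos (Real.exp_pos _),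
      abs_of_pos hcpos] at h
    exact h
  have h5 : Real.exp (t ^ 2 / K ^ 2) * |∑' k : ℤ, Real.exp (-((t + 2 * k) ^ 2 / K ^ 2))
      - K * √Real.pi / 2| ≤ Real.exp (t ^ 2 / K ^ 2) * (√Real.pi / 2 * T *
        (K * Real.exp (-K ^ 2))) := by
    rw [hfin]
    calc K * √Real.pi / 2 * ‖∑' n : ℤ, (if n = 0 then (0 : ℂ) else z n)‖
        ≤ K * √Real.pi / 2 * (Real.exp (t ^ 2 / K ^ 2) * (Real.exp (-K ^ 2) * T)) :=
          mul_le_mul_of_nonneg_left hnorm (by positivity)
      _ = _ := by ring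
  exact le_of_mul_le_mul_left h5 (Real.exp_pos _)

end Vale.Agent.P145.FA
end

section

/-!
# Discrete Prékopa–Leindler inequality (Klartag–Lehec): dimension one

If `f x * g y ≤ h ⌊(x+y)/2⌋ * k ⌈(x+y)/2⌉`, the same holds for the partial sums.
-/

namespace Vale.Agent.P153.F.PL

open Finset

theorem core_norm {a b e c r : ℝ} (e0 : 0 ≤ e) (a1 : a ≤ 1) (b1 : b ≤ 1)
    (e1 : e ≤ 1) (c1 : c ≤ 1) (r0 : 0 ≤ r) (r1 : r < 1) (k1 : 1 - a ≤ (1 - e) * r)
    (k2 : 1 - b ≤ (1 - e) * r) (k3 : (1 - a) * (1 - b) ≤ (1 - e) * (1 - c) * r)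
    (k4 : a * b ≤ e * c * r) : False := by
  have s1 : (1 - e) * r ≤ 1 - e := mul_le_of_le_one_right (by linarith only [e1]) r1.le
  have ae : e ≤ a := by linarith only [k1, s1]
  have be : e ≤ b := by linarith
  rcases eq_or_lt_of_le e1 with hee | hee
  · subst hee
    have ha1 : a = 1 := le_antisymm a1 ae
    have hb1 : b = 1 := le_antisymm b1 be
    rw [ha1, hb1] at k4
    have : c * r ≤ 1 * r := mul_le_mul_of_nonneg_right c1 r0
    linarith
  · have s2 : (1 - e) * (e - a * b) ≤ e * ((1 - a) * (1 - b)) := by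
      have := mul_nonneg (sub_nonneg.2 ae) (sub_nonneg.2 be)
      linarith
    have s3 : (1 - e) * (e - a * b) ≤ (1 - e) * (e * (1 - c) * r) := by
      refine s2.trans ?_
      have := mul_le_mul_of_nonneg_left k3 e0
      linarith
    have s4 : e - a * b ≤ e * (1 - c) * r := le_of_mul_le_mul_left s3 (by linarith)
    have s5 : e * (1 - r) ≤ 0 := by linarith only [k4, s4]
    have s6 : e = 0 := by
      by_contra hne
      have h1 : 0 < e := lt_of_le_of_ne e0 (Ne.symm hne)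
      have h2 : 0 < e * (1 - r) := mul_pos h1 (by linarith only [r1])
      linarith only [k4, s4, h2]
    subst s6
    have s7 : a * b ≤ 0 := by linarith
    have s8 : 0 < a := by linarith only [r1, k1]
    have s9 : 0 < b := by linarith only [r1, k2]
    have := mul_pos s8 s9
    linarith

/-- A ratio. -/
theorem exists_ratio {x y : ℝ} (hy : 0 < y) : ∃ a, x = a * y :=
  ⟨x / y, by (clear * - hy; field_simp)⟩

theorem ratio_nonneg {a x y : ℝ} (hy : 0 < y) (hx : 0 ≤ x) (h : x = a * y) : 0 ≤ a := by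
  rw [h] at hx
  exact nonneg_of_mul_nonneg_left hx hy

theorem ratio_le_one {a x y : ℝ} (hy : 0 < y) (hx : x ≤ y) (h : x = a * y) : a ≤ 1 := by
  rw [h] at hx
  by_contra hcon
  push Not at hcon
  have : 1 * y < a * y := mul_lt_mul_of_pos_right hcon hy
  linarith

theorem core {F' f G' g H' h K' k : ℝ} (hF : 0 ≤ F') (hf : 0 ≤ f) (hG : 0 ≤ G') (hg : 0 ≤ g)
    (hH : 0 ≤ H') (hh : 0 ≤ h) (hK : 0 ≤ K') (hk : 0 ≤ k)
    (h1 : F' * (G' + g) ≤ H' * (K' + k)) (h2 : (F' + f) * G' ≤ H' * (K' + k))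
    (h3 : F' * G' ≤ H' * K') (h4 : f * g ≤ h * k) :
    (F' + f) * (G' + g) ≤ (H' + h) * (K' + k) := by
  by_contra hcon
  push Not at hcon
  have hP : 0 < (F' + f) * (G' + g) := lt_of_le_of_lt (by (clear * - hH hh hK hk; positivity)) hcon
  have hFp : 0 < F' + f := by
    rcases (add_nonneg hF hf).eq_or_lt with h0 | h0
    · rw [← h0, zero_mul] at hP
      exact absurd hP (lt_irrefl _)
    · exact h0
  have hGp : 0 < G' + g := by
    rcases (add_nonneg hG hg).eq_or_lt with h0 | h0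
    · rw [← h0, mul_zero] at hP
      exact absurd hP (lt_irrefl _)
    · exact h0
  have key : H' * (K' + k) ≤ 0 → h * k ≤ 0 → False := by
    intro e5 e6
    have e1 : F' = 0 := by
      by_contra hne
      have h7 : 0 < F' := lt_of_le_of_ne hF (Ne.symm hne)
      have := mul_pos h7 hGp
      linarith only [h1, e5, this]
    have e2 : G' = 0 := by
      by_contra hne
      have h7 : 0 < G' := lt_of_le_of_ne hG (Ne.symm hne)
      have := mul_pos hFp h7
      linarith only [h2, e5, this]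
    rw [e1, e2] at hP
    linarith only [h4, hP, e6]
  have hKp : 0 < K' + k := by
    rcases (add_nonneg hK hk).eq_or_lt with h0 | h0
    · exfalso
      have e3 : k = 0 := by linarith only [hk, hK, h0]
      refine key ?_ ?_
      · rw [← h0, mul_zero]
      · rw [e3, mul_zero]
    · exact h0
  have hHp : 0 < H' + h := by
    rcases (add_nonneg hH hh).eq_or_lt with h0 | h0
    · exfalso
      have e3 : h = 0 := by linarith only [hh, hH, h0]
      have e4 : H' = 0 := by linarith only [hH, hh, h0]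
      refine key ?_ ?_
      · rw [e4, zero_mul]
      · rw [e3, zero_mul]
    · exact h0
  -- normalise
  obtain ⟨a, ha⟩ := exists_ratio (x := f) hFp
  obtain ⟨b, hb⟩ := exists_ratio (x := g) hGp
  obtain ⟨e, he⟩ := exists_ratio (x := h) hHp
  obtain ⟨c, hc⟩ := exists_ratio (x := k) hKp
  obtain ⟨r, hr⟩ := exists_ratio (x := (H' + h) * (K' + k)) hP
  have ha' : F' = (1 - a) * (F' + f) := by linarith only [ha]
  have hb' : G' = (1 - b) * (G' + g) := by linarith only [hb]
  have he' : H' = (1 - e) * (H' + h) := by linarith only [he]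
  have hc' : K' = (1 - c) * (K' + k) := by linarith only [hc]
  have r0 : 0 ≤ r := ratio_nonneg hP (mul_nonneg hHp.le hKp.le) hr
  have r1 : r < 1 := by
    by_contra h0
    push Not at h0
    have := mul_le_mul_of_nonneg_right h0 hP.le
    linarith only [hcon, hr, this]
  refine core_norm (ratio_nonneg hHp hh he)
    (ratio_le_one hFp (by linarith only [hF]) ha) (ratio_le_one hGp (by linarith only [hG]) hb)
    (ratio_le_one hHp (by linarith only [hH]) he) (ratio_le_one hKp (by linarith only [hK]) hc) r0 r1 ?_ ?_ ?_ ?_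
  · refine le_of_mul_le_mul_right (a := (F' + f) * (G' + g)) ?_ hP
    calc (1 - a) * ((F' + f) * (G' + g)) = ((1 - a) * (F' + f)) * (G' + g) := by ring
      _ = F' * (G' + g) := by rw [← ha']
      _ ≤ H' * (K' + k) := h1
      _ = ((1 - e) * (H' + h)) * (K' + k) := by rw [← he']
      _ = (1 - e) * ((H' + h) * (K' + k)) := by ring
      _ = (1 - e) * (r * ((F' + f) * (G' + g))) := by rw [← hr]
      _ = (1 - e) * r * ((F' + f) * (G' + g)) := by ring
  · refine le_of_mul_le_mul_right (a := (F' + f) * (G' + g)) ?_ hP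
    calc (1 - b) * ((F' + f) * (G' + g)) = (F' + f) * ((1 - b) * (G' + g)) := by ring
      _ = (F' + f) * G' := by rw [← hb']
      _ ≤ H' * (K' + k) := h2
      _ = ((1 - e) * (H' + h)) * (K' + k) := by rw [← he']
      _ = (1 - e) * ((H' + h) * (K' + k)) := by ring
      _ = (1 - e) * (r * ((F' + f) * (G' + g))) := by rw [← hr]
      _ = (1 - e) * r * ((F' + f) * (G' + g)) := by ring
  · refine le_of_mul_le_mul_right (a := (F' + f) * (G' + g)) ?_ hP
    calc (1 - a) * (1 - b) * ((F' + f) * (G' + g))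
        = ((1 - a) * (F' + f)) * ((1 - b) * (G' + g)) := by ring
      _ = F' * G' := by rw [← ha', ← hb']
      _ ≤ H' * K' := h3
      _ = ((1 - e) * (H' + h)) * ((1 - c) * (K' + k)) := by rw [← he', ← hc']
      _ = (1 - e) * (1 - c) * ((H' + h) * (K' + k)) := by ring
      _ = (1 - e) * (1 - c) * (r * ((F' + f) * (G' + g))) := by rw [← hr]
      _ = (1 - e) * (1 - c) * r * ((F' + f) * (G' + g)) := by ring
  · refine le_of_mul_le_mul_right (a := (F' + f) * (G' + g)) ?_ hP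
    calc a * b * ((F' + f) * (G' + g)) = (a * (F' + f)) * (b * (G' + g)) := by ring
      _ = f * g := by rw [← ha, ← hb]
      _ ≤ h * k := h4
      _ = (e * (H' + h)) * (c * (K' + k)) := by rw [← he, ← hc]
      _ = e * c * ((H' + h) * (K' + k)) := by ring
      _ = e * c * (r * ((F' + f) * (G' + g))) := by rw [← hr]
      _ = e * c * r * ((F' + f) * (G' + g)) := by ring

/-- Partial sums. -/
theorem dim1_nat {f g h k : ℕ → ℝ} (hf : ∀ x, 0 ≤ f x) (hg : ∀ x, 0 ≤ g x) (hh : ∀ x, 0 ≤ h x)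
    (hk : ∀ x, 0 ≤ k x) (H : ∀ x y, f x * g y ≤ h ((x + y) / 2) * k ((x + y + 1) / 2)) :
    ∀ n a b : ℕ, a + b ≤ n → (∑ x ∈ range a, f x) * (∑ y ∈ range b, g y) ≤
      (∑ i ∈ range ((a + b) / 2), h i) * ∑ i ∈ range ((a + b + 1) / 2), k i := by
  have pf : ∀ a, 0 ≤ ∑ x ∈ range a, f x := fun a => sum_nonneg fun x _ => hf x
  have pg : ∀ a, 0 ≤ ∑ x ∈ range a, g x := fun a => sum_nonneg fun x _ => hg x
  have ph : ∀ a, 0 ≤ ∑ x ∈ range a, h x := fun a => sum_nonneg fun x _ => hh x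
  have pk : ∀ a, 0 ≤ ∑ x ∈ range a, k x := fun a => sum_nonneg fun x _ => hk x
  intro n
  induction n with
  | zero =>
    intro a b hab
    have : a = 0 := by omega
    subst this
    simp only [range_zero, sum_empty, zero_mul]
    exact mul_nonneg (ph _) (pk _)
  | succ n ih =>
    intro a b hab
    rcases Nat.eq_zero_or_pos a with ha | ha
    · subst ha
      simp only [range_zero, sum_empty, zero_mul]
      exact mul_nonneg (ph _) (pk _)
    rcases Nat.eq_zero_or_pos b with hb | hb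
    · subst hb
      simp only [range_zero, sum_empty, mul_zero]
      exact mul_nonneg (ph _) (pk _)
    obtain ⟨a, rfl⟩ : ∃ a', a = a' + 1 := ⟨a - 1, by omega⟩
    obtain ⟨b, rfl⟩ : ∃ b', b = b' + 1 := ⟨b - 1, by omega⟩
    have i1 := ih a (b + 1) (by omega)
    have i2 := ih (a + 1) b (by omega)
    have i3 := ih a b (by omega)
    have i4 := H a b
    rcases Nat.even_or_odd' (a + b) with ⟨m, hm | hm⟩
    · rw [show (a + (b + 1)) / 2 = m by omega, show (a + (b + 1) + 1) / 2 = m + 1 by omega] at i1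
      rw [show (a + 1 + b) / 2 = m by omega, show (a + 1 + b + 1) / 2 = m + 1 by (clear * - hm; omega)] at i2
      rw [show (a + b) / 2 = m by omega, show (a + b + 1) / 2 = m by omega] at i3 i4
      rw [show (a + 1 + (b + 1)) / 2 = m + 1 by omega,
        show (a + 1 + (b + 1) + 1) / 2 = m + 1 by omega]
      rw [sum_range_succ] at i1 i2 ⊢
      rw [sum_range_succ] at i1 i2 ⊢
      rw [sum_range_succ, sum_range_succ]
      exact core (pf _) (hf _) (pg _) (hg _) (ph _) (hh _) (pk _) (hk _) i1 i2 i3 i4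
    · rw [show (a + (b + 1)) / 2 = m + 1 by omega, show (a + (b + 1) + 1) / 2 = m + 1 by omega]
        at i1
      rw [show (a + 1 + b) / 2 = m + 1 by omega, show (a + 1 + b + 1) / 2 = m + 1 by omega] at i2
      rw [show (a + b) / 2 = m by omega, show (a + b + 1) / 2 = m + 1 by omega] at i3 i4
      rw [show (a + 1 + (b + 1)) / 2 = m + 1 by omega,
        show (a + 1 + (b + 1) + 1) / 2 = m + 1 + 1 by omega]
      rw [sum_range_succ _ a, sum_range_succ _ b, sum_range_succ _ m, sum_range_succ _ (m + 1),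
        mul_comm (_ + h m)]
      refine core (pf _) (hf _) (pg _) (hg _) (pk _) (hk _) (ph _) (hh _) ?_ ?_ ?_ ?_
      · rw [← sum_range_succ, ← sum_range_succ, mul_comm (∑ i ∈ range (m + 1), k i)]
        exact i1
      · rw [← sum_range_succ, ← sum_range_succ, mul_comm (∑ i ∈ range (m + 1), k i)]
        exact i2
      · rw [mul_comm (∑ i ∈ range (m + 1), k i)]
        exact i3
      · rw [mul_comm (k _)]
        exact i4

/-- The sum over a symmetric interval. -/
theorem sum_Icc_range (N : ℕ) (f : ℤ → ℝ) :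
    ∑ t ∈ Icc (-(N : ℤ)) N, f t = ∑ i ∈ range (2 * N + 1), f ((i : ℤ) - N) := by
  symm
  refine sum_bij (fun i _ => (i : ℤ) - N) ?_ ?_ ?_ ?_
  · intro i hi
    rw [mem_range] at hi
    rw [mem_Icc]
    omega
  · intro i _ j _ hij
    omega
  · intro t ht
    rw [mem_Icc] at ht
    exact ⟨(t + N).toNat, by rw [mem_range]; omega, by omega⟩
  · intro i _
    rfl

theorem dim1 (N : ℕ) {f g h k : ℤ → ℝ} (hf : ∀ x, 0 ≤ f x) (hg : ∀ x, 0 ≤ g x)
    (hh : ∀ x, 0 ≤ h x) (hk : ∀ x, 0 ≤ k x)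
    (H : ∀ x y, f x * g y ≤ h ((x + y) / 2) * k ((x + y + 1) / 2)) :
    (∑ x ∈ Icc (-(N : ℤ)) N, f x) * (∑ y ∈ Icc (-(N : ℤ)) N, g y) ≤
      (∑ x ∈ Icc (-(N : ℤ)) N, h x) * ∑ x ∈ Icc (-(N : ℤ)) N, k x := by
  rw [sum_Icc_range, sum_Icc_range, sum_Icc_range, sum_Icc_range]
  have := dim1_nat (f := fun i => f ((i : ℤ) - N)) (g := fun i => g ((i : ℤ) - N))
    (h := fun i => h ((i : ℤ) - N)) (k := fun i => k ((i : ℤ) - N)) (fun _ => hf _) (fun _ => hg _)
    (fun _ => hh _) (fun _ => hk _) ?_ _ (2 * N + 1) (2 * N + 1) le_rfl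
  · rw [show (2 * N + 1 + (2 * N + 1)) / 2 = 2 * N + 1 by (clear * -; omega),
      show (2 * N + 1 + (2 * N + 1) + 1) / 2 = 2 * N + 1 by omega] at this
    exact this
  · intro x y
    have := H ((x : ℤ) - N) ((y : ℤ) - N)
    rw [show ((x : ℤ) - N + ((y : ℤ) - N)) / 2 = (((x + y) / 2 : ℕ) : ℤ) - N by omega,
      show ((x : ℤ) - N + ((y : ℤ) - N) + 1) / 2 = (((x + y + 1) / 2 : ℕ) : ℤ) - N by omega] at this
    exact this

end Vale.Agent.P153.F.PL
end
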