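import Mathlib
import Vale.Agent.P153.Bd5.B2
import Vale.Agent.P153.Bd5.B1

set_option linter.all false

section

/-!
# Block form of the conditional Newman inequality and Taylor expansion
-/

namespace Vale.Agent.P153.CLT

open MeasureTheory Filter Finset
open scoped Topology

variable {Ω : Type*} {mΩ : MeasurableSpace Ω} {μ : Measure Ω}
variable {ι β : Type*} [Fintype ι] [DecidableEq β]

/-- Indices whose block lies in `T`. -/
def sT (b : ι → β) (T : Finset β) : Finset ι := univ.filter (fun i => b i ∈ T)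

/-- Total covariance between different blocks, inside a set of indices. -/
noncomputable def cross (μ : Measure[mΩ] Ω) (g : ι → ℝ) (r : ι → Ω → ℝ) (b : ι → β)
    (s : Finset ι) : ℝ :=
  ∑ i ∈ s, ∑ j ∈ s, if b i = b j then 0 else |g i| * |g j| * ∫ ω, r i ω * r j ω ∂μ

omit [Fintype ι] in
lemma integral_mul_nonneg_of_assoc [IsProbabilityMeasure μ] {m : MeasurableSpace Ω} (hm : m ≤ mΩ)
    {r : ι → Ω → ℝ} (hA : NP μ m r)
    (hc : ∀ i, μ[r i | m] =ᵐ[μ] 0) (i j : ι) : 0 ≤ ∫ ω, r i ω * r j ω ∂μ := by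
  rw [← integral_condExp hm]
  refine integral_nonneg_of_ae ?_
  filter_upwards [hA.nn i j, hc i] with ω h1 h2
  simp only [ccov] at h1
  rw [h2] at h1
  simpa only [Pi.zero_apply, zero_mul, sub_zero] using h1

omit [Fintype ι] in
lemma condExp_aL [IsProbabilityMeasure μ] (m : MeasurableSpace Ω) {g : ι → ℝ}
    {r : ι → Ω → ℝ} (hr : ∀ i, BM (mΩ := mΩ) (r i)) (hc : ∀ i, μ[r i | m] =ᵐ[μ] 0)
    (s : Finset ι) : μ[aL g r s | m] =ᵐ[μ] 0 := by
  classical
  have e : aL g r s = ∑ i ∈ s, (|g i|) • r i := by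
    funext ω
    simp only [aL, Finset.sum_apply, Pi.smul_apply, smul_eq_mul]
  rw [e]
  have h1 := condExp_finsetSum (μ := μ) (s := s) (f := fun i => (|g i|) • r i)
    (fun i _ => ((hr i).integrable (μ := μ)).smul _) m
  refine h1.trans ?_
  have h2 : ∀ i ∈ s, μ[(|g i|) • r i | m] =ᵐ[μ] 0 := by
    intro i _
    filter_upwards [condExp_smul (μ := μ) (|g i|) (r i) m, hc i] with ω a b
    rw [a, Pi.smul_apply, b]
    simp
  have h3 : ∀ᵐ ω ∂μ, ∀ i ∈ s, (μ[(|g i|) • r i | m]) ω = 0 := by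
    have := (Finset.eventually_all s (l := ae μ) (p := fun i ω => (μ[(|g i|) • r i | m]) ω = 0)).2
      (fun i hi => h2 i hi)
    exact this
  filter_upwards [h3] with ω h
  rw [Finset.sum_apply, Pi.zero_apply]
  exact Finset.sum_eq_zero h

omit [Fintype ι] in
lemma integral_ccov_aL [IsProbabilityMeasure μ] {m : MeasurableSpace Ω} (hm : m ≤ mΩ) {g : ι → ℝ}
    {r : ι → Ω → ℝ} (hr : ∀ i, BM (mΩ := mΩ) (r i)) (hc : ∀ i, μ[r i | m] =ᵐ[μ] 0)
    (s t : Finset ι) :
    ∫ ω, ccov μ m (aL g r s) (aL g r t) ω ∂μ =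
      ∑ i ∈ s, ∑ j ∈ t, |g i| * |g j| * ∫ ω, r i ω * r j ω ∂μ := by
  have h1 : ccov μ m (aL g r s) (aL g r t) =ᵐ[μ] μ[fun ω => aL g r s ω * aL g r t ω | m] := by
    filter_upwards [condExp_aL (g := g) m hr hc s] with ω h
    simp only [ccov]
    rw [h]
    simp
  rw [integral_congr_ae h1, integral_condExp hm]
  have h2 : (fun ω => aL g r s ω * aL g r t ω) = fun ω =>
      ∑ i ∈ s, ∑ j ∈ t, |g i| * |g j| * (r i ω * r j ω) := by
    funext ω
    simp only [aL]
    rw [Finset.sum_mul_sum]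
    refine Finset.sum_congr rfl fun i _ => Finset.sum_congr rfl fun j _ => ?_
    ring
  rw [h2, integral_finsetSum]
  · refine Finset.sum_congr rfl fun i _ => ?_
    rw [integral_finsetSum]
    · refine Finset.sum_congr rfl fun j _ => ?_
      rw [integral_const_mul]
    · intro j _
      exact (((hr i).mul (hr j)).integrable (μ := μ)).const_mul _
  · intro i _
    exact integrable_finsetSum _ fun j _ => (((hr i).mul (hr j)).integrable (μ := μ)).const_mul _

omit [Fintype ι] in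
lemma integrable_ccov_aL [IsProbabilityMeasure μ] (m : MeasurableSpace Ω) {g : ι → ℝ}
    {r : ι → Ω → ℝ} (hr : ∀ i, BM (mΩ := mΩ) (r i)) (hc : ∀ i, μ[r i | m] =ᵐ[μ] 0)
    (s t : Finset ι) : Integrable (ccov μ m (aL g r s) (aL g r t)) μ := by
  have h1 : ccov μ m (aL g r s) (aL g r t) =ᵐ[μ] μ[fun ω => aL g r s ω * aL g r t ω | m] := by
    filter_upwards [condExp_aL (g := g) m hr hc s] with ω h
    simp only [ccov]
    rw [h]
    simp
  exact integrable_condExp.congr h1.symm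

lemma cross_insert_le [IsProbabilityMeasure μ] {m : MeasurableSpace Ω} (hm : m ≤ mΩ) {g : ι → ℝ}
    {r : ι → Ω → ℝ} (hA : NP μ m r) (hc : ∀ i, μ[r i | m] =ᵐ[μ] 0)
    (b : ι → β) (b0 : β) (T : Finset β) (hb : b0 ∉ T) :
    (∑ i ∈ sT b {b0}, ∑ j ∈ sT b T, |g i| * |g j| * ∫ ω, r i ω * r j ω ∂μ) +
      cross μ g r b (sT b T) ≤ cross μ g r b (sT b (insert b0 T)) := by
  classical
  have hdisj : Disjoint (sT b {b0}) (sT b T) := by
    rw [Finset.disjoint_left]
    intro i h1 h2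
    simp only [sT, mem_filter, mem_univ, true_and, mem_singleton] at h1 h2
    exact hb (h1 ▸ h2)
  have hun : sT b (insert b0 T) = sT b {b0} ∪ sT b T := by
    ext i
    simp only [sT, mem_insert, mem_filter, mem_univ, true_and, mem_singleton, mem_union]
  have hnn : ∀ i j, 0 ≤ (if b i = b j then 0 else |g i| * |g j| * ∫ ω, r i ω * r j ω ∂μ) := by
    intro i j
    split_ifs
    · exact le_rfl
    · exact mul_nonneg (mul_nonneg (abs_nonneg _) (abs_nonneg _))
        (integral_mul_nonneg_of_assoc hm hA hc i j)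
  unfold cross
  rw [hun, Finset.sum_union hdisj]
  refine add_le_add ?_ ?_
  · refine Finset.sum_le_sum fun i hi => ?_
    rw [Finset.sum_union hdisj]
    have h1 : ∑ j ∈ sT b T, |g i| * |g j| * ∫ ω, r i ω * r j ω ∂μ =
        ∑ j ∈ sT b T, (if b i = b j then 0 else |g i| * |g j| * ∫ ω, r i ω * r j ω ∂μ) := by
      refine Finset.sum_congr rfl fun j hj => ?_
      simp only [sT, mem_filter, mem_univ, true_and, mem_singleton] at hi hj
      rw [if_neg]
      intro h
      exact hb (hi ▸ h ▸ hj)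
    rw [h1]
    exact le_add_of_nonneg_left (Finset.sum_nonneg fun j _ => hnn i j)
  · refine Finset.sum_le_sum fun i _ => ?_
    rw [Finset.sum_union hdisj]
    exact le_add_of_nonneg_left (Finset.sum_nonneg fun j _ => hnn i j)

omit [DecidableEq β] in
lemma integrable_prod_condExp [IsProbabilityMeasure μ] {m : MeasurableSpace Ω} (hm : m ≤ mΩ)
    (T : Finset β) (f : β → Ω → ℂ) (hf : ∀ b ω, ‖f b ω‖ ≤ 1) (hfi : ∀ b, Integrable (f b) μ) :
    Integrable (fun ω => ∏ b ∈ T, (μ[f b | m]) ω) μ := by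
  refine Integrable.of_bound ?_ 1 ?_
  · refine Finset.aestronglyMeasurable_fun_prod T fun b _ => ?_
    exact (stronglyMeasurable_condExp.mono hm).aestronglyMeasurable
  · have h : ∀ᵐ ω ∂μ, ∀ b ∈ T, ‖(μ[f b | m]) ω‖ ≤ 1 :=
      (Finset.eventually_all T (l := ae μ) (p := fun b ω => ‖(μ[f b | m]) ω‖ ≤ 1)).2
        (fun b _ => norm_condExp_le_one hm (hf b) (hfi b))
    filter_upwards [h] with ω h
    rw [norm_prod]
    exact Finset.prod_le_one (fun b _ => norm_nonneg _) h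

/-- Block form of the conditional Newman inequality (integrated). -/
theorem newman_blocks [IsProbabilityMeasure μ] {m : MeasurableSpace Ω} (hm : m ≤ mΩ) {g : ι → ℝ}
    {r : ι → Ω → ℝ} (hr : ∀ i, BM (mΩ := mΩ) (r i)) (hA : NP μ m r)
    (hc : ∀ i, μ[r i | m] =ᵐ[μ] 0) (b : ι → β) (T : Finset β) :
    ∫ ω, ‖(μ[fun ω => ei (lL g r (sT b T) ω) | m]) ω -
      ∏ c ∈ T, (μ[fun ω => ei (lL g r (sT b {c}) ω) | m]) ω‖ ∂μ ≤
      4 * cross μ g r b (sT b T) := by
  classical
  have hi : ∀ s : Finset ι, Integrable (fun ω => ei (lL g r s ω)) μ := fun s =>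
    integrable_ei (bm_lL hr s).1
  have hn : ∀ (s : Finset ι) ω, ‖ei (lL g r s ω)‖ ≤ 1 := fun s ω => (norm_ei _).le
  induction T using Finset.induction_on with
  | empty =>
    have h0 : sT b (∅ : Finset β) = ∅ := by simp [sT]
    rw [h0]
    have h1 : (fun ω => ei (lL g r (∅ : Finset ι) ω)) = fun _ : Ω => (1 : ℂ) := by
      funext ω
      simp [lL, ei_zero]
    rw [h1]
    simp only [condExp_const hm, prod_empty, sub_self, norm_zero, integral_zero, cross, sum_empty, sum_const_zero, mul_zero, Std.le_refl]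
  | insert c T hcT ih =>
    have hsplit : ∀ ω, lL g r (sT b (insert c T)) ω = lL g r (sT b {c}) ω + lL g r (sT b T) ω := by
      intro ω
      have hdisj : Disjoint (sT b {c}) (sT b T) := by
        rw [Finset.disjoint_left]
        intro i h1 h2
        simp only [sT, mem_filter, mem_univ, true_and, mem_singleton] at h1 h2
        exact hcT (h1 ▸ h2)
      have hun : sT b (insert c T) = sT b {c} ∪ sT b T := by
        ext i
        simp only [sT, mem_insert, mem_filter, mem_univ, true_and, mem_singleton, mem_union]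
      unfold lL
      rw [hun, Finset.sum_union hdisj]
    have e1 : (fun ω => ei (lL g r (sT b (insert c T)) ω)) =
        fun ω => ei (lL g r (sT b {c}) ω) * ei (lL g r (sT b T) ω) := by
      funext ω
      rw [hsplit, ei_add]
    rw [e1]
    have hP := integrable_prod_condExp (μ := μ) hm T (fun c ω => ei (lL g r (sT b {c}) ω))
      (fun c ω => hn _ ω) (fun c => hi _)
    have k1 := hA.ineq g (sT b {c}) (sT b T)
    have k2 := norm_condExp_le_one (μ := μ) hm (hn (sT b {c})) (hi _)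
    have hd : Integrable (fun ω => ‖(μ[fun ω => ei (lL g r (sT b T) ω) | m]) ω -
        ∏ c ∈ T, (μ[fun ω => ei (lL g r (sT b {c}) ω) | m]) ω‖) μ :=
      (integrable_condExp.sub hP).norm
    have hcc := (integrable_ccov_aL (μ := μ) (g := g) m hr hc (sT b {c}) (sT b T)).const_mul 4
    calc ∫ ω, ‖(μ[fun ω => ei (lL g r (sT b {c}) ω) * ei (lL g r (sT b T) ω) | m]) ω -
          ∏ c ∈ insert c T, (μ[fun ω => ei (lL g r (sT b {c}) ω) | m]) ω‖ ∂μ
        ≤ ∫ ω, (4 * ccov μ m (aL g r (sT b {c})) (aL g r (sT b T)) ω +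
          ‖(μ[fun ω => ei (lL g r (sT b T) ω) | m]) ω -
            ∏ c ∈ T, (μ[fun ω => ei (lL g r (sT b {c}) ω) | m]) ω‖) ∂μ := by
          refine integral_mono_of_nonneg (ae_of_all _ fun ω => norm_nonneg _) (hcc.add hd) ?_
          filter_upwards [k1, k2] with ω a1 a2
          rw [Finset.prod_insert hcT]
          set A := (μ[fun ω => ei (lL g r (sT b {c}) ω) * ei (lL g r (sT b T) ω) | m]) ω
          set B := (μ[fun ω => ei (lL g r (sT b {c}) ω) | m]) ω
          set C := (μ[fun ω => ei (lL g r (sT b T) ω) | m]) ω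
          set D := ∏ c ∈ T, (μ[fun ω => ei (lL g r (sT b {c}) ω) | m]) ω
          have : A - B * D = (A - B * C) + B * (C - D) := by ring
          rw [this]
          refine (norm_add_le _ _).trans (add_le_add a1 ?_)
          rw [norm_mul]
          calc ‖B‖ * ‖C - D‖ ≤ 1 * ‖C - D‖ := mul_le_mul_of_nonneg_right a2 (norm_nonneg _)
            _ = _ := one_mul _
      _ = 4 * (∑ i ∈ sT b {c}, ∑ j ∈ sT b T, |g i| * |g j| * ∫ ω, r i ω * r j ω ∂μ) +
          ∫ ω, ‖(μ[fun ω => ei (lL g r (sT b T) ω) | m]) ω -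
            ∏ c ∈ T, (μ[fun ω => ei (lL g r (sT b {c}) ω) | m]) ω‖ ∂μ := by
          rw [integral_add hcc hd, integral_const_mul, integral_ccov_aL hm hr hc]
      _ ≤ 4 * (∑ i ∈ sT b {c}, ∑ j ∈ sT b T, |g i| * |g j| * ∫ ω, r i ω * r j ω ∂μ) +
          4 * cross μ g r b (sT b T) := add_le_add le_rfl ih
      _ ≤ 4 * cross μ g r b (sT b (insert c T)) := by
          rw [← mul_add]
          exact mul_le_mul_of_nonneg_left (cross_insert_le hm hA hc b c T hcT) (by norm_num)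

end Vale.Agent.P153.CLT
end

section

/-!
# Central limit theorem for martingale differences that are conditionally associated

The characteristic function of `∑_j ∑_i g j i * r j i` is close to `exp (-s / 2)`, with an
explicit error: cross covariances between different blocks, the size of the block sums, and
the `L¹` fluctuation of the total conditional block variance.
-/

namespace Vale.Agent.P153.CLT

open MeasureTheory Filter Finset
open scoped Topology

variable {Ω : Type*} {mΩ : MeasurableSpace Ω} {μ : Measure Ω}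

lemma taylor_ei {x : ℝ} (hx : |x| ≤ 1) :
    ‖ei x - (1 + Complex.I * x - ((x ^ 2 / 2 : ℝ) : ℂ))‖ ≤ 2 / 9 * |x| ^ 3 := by
  have h1 : ‖Complex.I * (x : ℂ)‖ = |x| := by
    rw [norm_mul, Complex.norm_I, one_mul, Complex.norm_real, Real.norm_eq_abs]
  have h := Complex.exp_bound (x := Complex.I * x) (by rw [h1]; exact hx) (n := 3) (by norm_num)
  rw [h1] at h
  have e : ∑ m ∈ range 3, (Complex.I * (x : ℂ)) ^ m / (m.factorial : ℂ) =
      1 + Complex.I * x - ((x ^ 2 / 2 : ℝ) : ℂ) := by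
    simp only [Finset.sum_range_succ, Finset.sum_range_zero, Nat.factorial]
    push_cast
    ring_nf
    rw [Complex.I_sq]
    ring
  rw [e] at h
  refine h.trans (le_of_eq ?_)
  norm_num [Nat.factorial]
  ring

lemma exp_neg_half_bound {v : ℝ} (h0 : 0 ≤ v) (h1 : v ≤ 1) :
    |Real.exp (-v / 2) - (1 - v / 2)| ≤ v ^ 2 / 4 := by
  have h := Real.abs_exp_sub_one_sub_id_le (x := -v / 2) (by
    rw [abs_le]
    constructor <;> linarith only [h0, h1])
  have e : Real.exp (-v / 2) - (1 - v / 2) = Real.exp (-v / 2) - 1 - -v / 2 := by ring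
  rw [e]
  refine h.trans (le_of_eq ?_)
  ring

/-- Conditional Taylor expansion of one block. -/
lemma taylor_block [IsProbabilityMeasure μ] {m : MeasurableSpace Ω} (hm : m ≤ mΩ) {X : Ω → ℝ}
    (hX : Measurable[mΩ] X) {η : ℝ} (hη : η ≤ 1) (hb : ∀ ω, |X ω| ≤ η)
    (hc : μ[X | m] =ᵐ[μ] 0) :
    ∀ᵐ ω ∂μ, ‖(μ[fun ω => ei (X ω) | m]) ω -
      ((Real.exp (-|(μ[fun ω => X ω ^ 2 | m]) ω| / 2) : ℝ) : ℂ)‖ ≤
      η * |(μ[fun ω => X ω ^ 2 | m]) ω| := by
  obtain ⟨ω0⟩ : Nonempty Ω := by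
    by_contra h
    rw [not_nonempty_iff] at h
    have h1 := measure_univ (μ := μ)
    rw [Set.univ_eq_empty_iff.2 h, measure_empty] at h1
    exact zero_ne_one h1
  have hη0 : 0 ≤ η := (abs_nonneg _).trans (hb ω0)
  have hXi : Integrable X μ := integrable_of_norm_le hX.aestronglyMeasurable η hb
  have hX2b : ∀ ω, |X ω ^ 2| ≤ η ^ 2 := by
    intro ω
    rw [abs_pow]
    exact pow_le_pow_left₀ (abs_nonneg _) (hb ω) 2
  have hX2i : Integrable (fun ω => X ω ^ 2) μ :=
    integrable_of_norm_le (hX.pow_const 2).aestronglyMeasurable (η ^ 2) hX2b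
  have hei : Integrable (fun ω => ei (X ω)) μ := integrable_ei hX
  -- the quadratic polynomial
  set q : Ω → ℂ := fun ω => 1 + Complex.I * X ω - ((X ω ^ 2 / 2 : ℝ) : ℂ) with hq
  have hXc : Integrable (fun ω => Complex.I * (X ω : ℂ)) μ := (hXi.ofReal).const_mul _
  have hX2c : Integrable (fun ω => ((X ω ^ 2 / 2 : ℝ) : ℂ)) μ := (hX2i.div_const 2).ofReal
  have hqi : Integrable q μ := ((integrable_const 1).add hXc).sub hX2c
  have hre := condExp_re m hqi
  have him := condExp_im m hqi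
  have e1 : (fun ω => (q ω).re) = (fun _ => (1 : ℝ)) - (2 : ℝ)⁻¹ • (fun ω => X ω ^ 2) := by
    funext ω
    simp only [hq, Complex.sub_re, Complex.add_re, Complex.one_re, Complex.mul_re, Complex.I_re,
      Complex.I_im, Complex.ofReal_re, Complex.ofReal_im, Pi.sub_apply, Pi.smul_apply, smul_eq_mul]
    ring
  have e2 : (fun ω => (q ω).im) = X := by
    funext ω
    simp only [hq, Complex.sub_im, Complex.add_im, Complex.one_im, Complex.mul_im, Complex.I_re,
      Complex.I_im, Complex.ofReal_re, Complex.ofReal_im]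
    ring
  rw [e1] at hre
  rw [e2] at him
  have c1 := condExp_sub (μ := μ) (integrable_const (1 : ℝ)) (hX2i.smul (2 : ℝ)⁻¹) m
  have c2 := condExp_smul (μ := μ) (2 : ℝ)⁻¹ (fun ω => X ω ^ 2) m
  rw [condExp_const hm] at c1
  -- comparison of `ei X` with the polynomial
  have d1 := condExp_sub hei hqi m
  have d2 := norm_condExp_le (μ := μ) (m := m) ((fun ω => ei (X ω)) - q)
  have d3 : μ[fun ω => ‖((fun ω => ei (X ω)) - q) ω‖ | m] ≤ᵐ[μ]
      μ[(2 / 9 * η) • (fun ω => X ω ^ 2) | m] := by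
    refine condExp_mono (hei.sub hqi).norm (hX2i.smul _) (ae_of_all _ fun ω => ?_)
    simp only [Pi.sub_apply, Pi.smul_apply, smul_eq_mul]
    refine (taylor_ei ((hb ω).trans hη)).trans ?_
    have : |X ω| ^ 3 = |X ω| * X ω ^ 2 := by
      rw [← sq_abs (X ω)]
      ring
    rw [this]
    have h2 := mul_le_mul_of_nonneg_right (hb ω) (sq_nonneg (X ω))
    linarith only [h2]
  have d4 := condExp_smul (μ := μ) (2 / 9 * η) (fun ω => X ω ^ 2) m
  have p1 : 0 ≤ᵐ[μ] μ[fun ω => X ω ^ 2 | m] := condExp_nonneg (ae_of_all _ fun ω => sq_nonneg _)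
  have p2 : μ[fun ω => X ω ^ 2 | m] ≤ᵐ[μ] μ[fun _ => η ^ 2 | m] :=
    condExp_mono hX2i (integrable_const _) (ae_of_all _ fun ω => (le_abs_self _).trans (hX2b ω))
  rw [condExp_const hm] at p2
  filter_upwards [hre, him, c1, c2, d1, d2, d3, d4, p1, p2, hc] with ω hre him c1 c2 d1 d2 d3 d4
    p1 p2 hc
  set v := (μ[fun ω => X ω ^ 2 | m]) ω with hv
  have p1' : 0 ≤ v := p1
  rw [abs_of_nonneg p1']
  have hq' : (μ[q | m]) ω = ((1 - v / 2 : ℝ) : ℂ) := by
    apply Complex.ext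
    · rw [hre, c1, Pi.sub_apply, c2, Pi.smul_apply, smul_eq_mul, ← hv, Complex.ofReal_re]
      ring
    · rw [him, hc, Complex.ofReal_im]
      rfl
  have hv1 : v ≤ η ^ 2 := p2
  have hv2 : v ≤ η := hv1.trans (by nlinarith only [hη, hη0])
  have a1 : ‖(μ[fun ω => ei (X ω) | m]) ω - (μ[q | m]) ω‖ ≤ 2 / 9 * η * v := by
    rw [← Pi.sub_apply, ← d1]
    refine d2.trans (d3.trans ?_)
    rw [d4, Pi.smul_apply, smul_eq_mul]
  have a2 : ‖(((1 - v / 2 : ℝ) : ℂ)) - ((Real.exp (-v / 2) : ℝ) : ℂ)‖ ≤ η * v / 4 := by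
    rw [← Complex.ofReal_sub, Complex.norm_real, Real.norm_eq_abs, abs_sub_comm]
    refine (exp_neg_half_bound p1' (hv2.trans hη)).trans ?_
    have := mul_le_mul_of_nonneg_right hv2 p1'
    nlinarith only [this]
  calc ‖(μ[fun ω => ei (X ω) | m]) ω - ((Real.exp (-v / 2) : ℝ) : ℂ)‖
      = ‖((μ[fun ω => ei (X ω) | m]) ω - (μ[q | m]) ω) +
        ((((1 - v / 2 : ℝ) : ℂ)) - ((Real.exp (-v / 2) : ℝ) : ℂ))‖ := by
        rw [hq']
        congr 1
        ring
    _ ≤ 2 / 9 * η * v + η * v / 4 := (norm_add_le _ _).trans (add_le_add a1 a2)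
    _ ≤ η * v := by
        have := mul_nonneg hη0 p1'
        nlinarith only [this]

lemma norm_prod_sub_prod_le {β : Type*} (T : Finset β) (a c : β → ℂ) (ha : ∀ b ∈ T, ‖a b‖ ≤ 1)
    (hc : ∀ b ∈ T, ‖c b‖ ≤ 1) :
    ‖∏ b ∈ T, a b - ∏ b ∈ T, c b‖ ≤ ∑ b ∈ T, ‖a b - c b‖ := by
  classical
  induction T using Finset.induction_on with
  | empty => simp only [prod_empty, sub_self, norm_zero, sum_empty, Std.le_refl]
  | insert b T hb ih =>
    rw [Finset.prod_insert hb, Finset.prod_insert hb, Finset.sum_insert hb]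
    have ih := ih (fun i hi => ha i (mem_insert_of_mem hi)) (fun i hi => hc i (mem_insert_of_mem hi))
    have e : a b * ∏ i ∈ T, a i - c b * ∏ i ∈ T, c i =
        (a b - c b) * ∏ i ∈ T, a i + c b * (∏ i ∈ T, a i - ∏ i ∈ T, c i) := by ring
    rw [e]
    refine (norm_add_le _ _).trans ?_
    rw [norm_mul, norm_mul]
    refine add_le_add ?_ ?_
    · have : ‖∏ i ∈ T, a i‖ ≤ 1 := by
        rw [norm_prod]
        exact Finset.prod_le_one (fun i _ => norm_nonneg _) fun i hi => ha i (mem_insert_of_mem hi)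
      calc _ ≤ ‖a b - c b‖ * 1 := mul_le_mul_of_nonneg_left this (norm_nonneg _)
        _ = _ := mul_one _
    · calc _ ≤ 1 * ‖∏ i ∈ T, a i - ∏ i ∈ T, c i‖ :=
            mul_le_mul_of_nonneg_right (hc b (mem_insert_self _ _)) (norm_nonneg _)
        _ = ‖∏ i ∈ T, a i - ∏ i ∈ T, c i‖ := one_mul _
        _ ≤ _ := ih

variable {ι β : Type*} [Fintype ι] [Fintype β] [DecidableEq β]

/-- The conditional block variance. -/
noncomputable def bvar (μ : Measure[mΩ] Ω) (m : MeasurableSpace Ω) (g : ι → ℝ) (r : ι → Ω → ℝ)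
    (b : ι → β) (ω : Ω) : ℝ :=
  ∑ c : β, |(μ[fun ω => lL g r (sT b {c}) ω ^ 2 | m]) ω|

/-- One row: conditional characteristic function against the Gaussian one. -/
theorem row_bound [IsProbabilityMeasure μ] {m : MeasurableSpace Ω} (hm : m ≤ mΩ) {g : ι → ℝ}
    {r : ι → Ω → ℝ} (hr : ∀ i, BM (mΩ := mΩ) (r i)) (hA : NP μ m r)
    (hc : ∀ i, μ[r i | m] =ᵐ[μ] 0) (b : ι → β) {η : ℝ} (hη : η ≤ 1)
    (hb : ∀ c ω, |lL g r (sT b {c}) ω| ≤ η) :
    ∫ ω, ‖(μ[fun ω => ei (∑ i, g i * r i ω) | m]) ω -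
      ((Real.exp (-bvar μ m g r b ω / 2) : ℝ) : ℂ)‖ ∂μ ≤
      4 * cross μ g r b univ + η * ∑ c : β, ∫ ω, lL g r (sT b {c}) ω ^ 2 ∂μ := by
  have hN := newman_blocks (μ := μ) (g := g) hm hr hA hc b (univ : Finset β)
  have hu : sT b (univ : Finset β) = univ := by simp only [sT, mem_univ, filter_true]
  rw [hu] at hN
  have hcl : ∀ c : β, μ[lL g r (sT b {c}) | m] =ᵐ[μ] 0 := by
    intro c
    have e : lL g r (sT b {c}) = ∑ i ∈ sT b {c}, (g i) • r i := by
      funext ω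
      simp [lL, Finset.sum_apply]
    rw [e]
    have h1 := condExp_finsetSum (μ := μ) (s := sT b {c}) (f := fun i => (g i) • r i)
      (fun i _ => ((hr i).integrable (μ := μ)).smul _) m
    refine h1.trans ?_
    have h3 : ∀ᵐ ω ∂μ, ∀ i ∈ sT b {c}, (μ[(g i) • r i | m]) ω = 0 := by
      refine (Finset.eventually_all (sT b {c}) (l := ae μ)
        (p := fun i ω => (μ[(g i) • r i | m]) ω = 0)).2 (fun i _ => ?_)
      filter_upwards [condExp_smul (μ := μ) (g i) (r i) m, hc i] with ω a b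
      rw [a, Pi.smul_apply, b]
      simp
    filter_upwards [h3] with ω h
    rw [Finset.sum_apply, Pi.zero_apply]
    exact Finset.sum_eq_zero h
  have hi : ∀ s : Finset ι, Integrable (fun ω => ei (lL g r s ω)) μ := fun s =>
    integrable_ei (bm_lL hr s).1
  have hT : ∀ᵐ ω ∂μ, ∀ c : β, ‖(μ[fun ω => ei (lL g r (sT b {c}) ω) | m]) ω -
      ((Real.exp (-|(μ[fun ω => lL g r (sT b {c}) ω ^ 2 | m]) ω| / 2) : ℝ) : ℂ)‖ ≤
      η * |(μ[fun ω => lL g r (sT b {c}) ω ^ 2 | m]) ω| :=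
    ae_all_iff.2 fun c => taylor_block hm (bm_lL hr _).1 hη (hb c) (hcl c)
  have hO : ∀ᵐ ω ∂μ, ∀ c : β, ‖(μ[fun ω => ei (lL g r (sT b {c}) ω) | m]) ω‖ ≤ 1 :=
    ae_all_iff.2 fun c => norm_condExp_le_one hm (fun ω => (norm_ei _).le) (hi _)
  have hP := integrable_prod_condExp (μ := μ) hm (univ : Finset β)
      (fun c ω => ei (lL g r (sT b {c}) ω)) (fun c ω => (norm_ei _).le) (fun c => hi _)
  have hd : Integrable (fun ω => ‖(μ[fun ω => ei (lL g r univ ω) | m]) ω -
        ∏ c : β, (μ[fun ω => ei (lL g r (sT b {c}) ω) | m]) ω‖) μ :=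
      (integrable_condExp.sub hP).norm
  have hV : Integrable (fun ω => η * bvar μ m g r b ω) μ := by
    refine Integrable.const_mul ?_ _
    exact integrable_finsetSum _ fun c _ => integrable_condExp.abs
  have hVint : ∫ ω, bvar μ m g r b ω ∂μ = ∑ c : β, ∫ ω, lL g r (sT b {c}) ω ^ 2 ∂μ := by
    unfold bvar
    rw [integral_finsetSum _ fun c _ => integrable_condExp.abs]
    refine Finset.sum_congr rfl fun c _ => ?_
    rw [← integral_condExp hm (f := fun ω => lL g r (sT b {c}) ω ^ 2)]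
    refine integral_congr_ae ?_
    filter_upwards [condExp_nonneg (μ := μ) (m := m)
      (f := fun ω => lL g r (sT b {c}) ω ^ 2) (ae_of_all _ fun ω => sq_nonneg _)] with ω h
    exact abs_of_nonneg h
  have e0 : (fun ω => ei (∑ i, g i * r i ω)) = fun ω => ei (lL g r univ ω) := rfl
  rw [e0]
  calc ∫ ω, ‖(μ[fun ω => ei (lL g r univ ω) | m]) ω -
      ((Real.exp (-bvar μ m g r b ω / 2) : ℝ) : ℂ)‖ ∂μ
      ≤ ∫ ω, (‖(μ[fun ω => ei (lL g r univ ω) | m]) ω -
        ∏ c : β, (μ[fun ω => ei (lL g r (sT b {c}) ω) | m]) ω‖ + η * bvar μ m g r b ω) ∂μ := by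
        refine integral_mono_of_nonneg (ae_of_all _ fun ω => norm_nonneg _) (hd.add hV) ?_
        filter_upwards [hT, hO] with ω h1 h2
        have e1 : ((Real.exp (-bvar μ m g r b ω / 2) : ℝ) : ℂ) =
            ∏ c : β, ((Real.exp (-|(μ[fun ω => lL g r (sT b {c}) ω ^ 2 | m]) ω| / 2) : ℝ) : ℂ) := by
          rw [← Complex.ofReal_prod, ← Real.exp_sum]
          congr 2
          unfold bvar
          rw [← Finset.sum_div, Finset.sum_neg_distrib]
        rw [e1]
        set A := (μ[fun ω => ei (lL g r univ ω) | m]) ω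
        set B := ∏ c : β, (μ[fun ω => ei (lL g r (sT b {c}) ω) | m]) ω
        set D := ∏ c : β, ((Real.exp (-|(μ[fun ω => lL g r (sT b {c}) ω ^ 2 | m]) ω| / 2) : ℝ) : ℂ)
        have : A - D = (A - B) + (B - D) := by ring
        rw [this]
        refine (norm_add_le _ _).trans (add_le_add le_rfl ?_)
        refine (norm_prod_sub_prod_le _ _ _ (fun c _ => h2 c) (fun c _ => ?_)).trans ?_
        · rw [Complex.norm_real, Real.norm_eq_abs, abs_of_pos (Real.exp_pos _),
            Real.exp_le_one_iff]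
          have := abs_nonneg ((μ[fun ω => lL g r (sT b {c}) ω ^ 2 | m]) ω)
          linarith only [this]
        · unfold bvar
          rw [Finset.mul_sum]
          exact Finset.sum_le_sum fun c _ => h1 c
    _ = ∫ ω, ‖(μ[fun ω => ei (lL g r univ ω) | m]) ω -
        ∏ c : β, (μ[fun ω => ei (lL g r (sT b {c}) ω) | m]) ω‖ ∂μ +
        η * ∑ c : β, ∫ ω, lL g r (sT b {c}) ω ^ 2 ∂μ := by
        rw [integral_add hd hV, integral_const_mul, hVint]
    _ ≤ _ := add_le_add hN le_rfl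

/-- Central limit theorem for conditionally associated martingale differences: explicit bound
for the characteristic function. -/
theorem np_mart_clt [IsProbabilityMeasure μ] (F : ℕ → MeasurableSpace Ω) (hF : ∀ j, F j ≤ mΩ)
    (hmono : Monotone F) (r : ℕ → ι → Ω → ℝ) (g : ℕ → ι → ℝ) (b : ι → β)
    (hrm : ∀ j i, Measurable[F (j + 1)] (r j i)) (C : ℝ) (hrb : ∀ j i ω, |r j i ω| ≤ C)
    (hA : ∀ j, NP μ (F j) (r j)) (hc : ∀ j i, μ[r j i | F j] =ᵐ[μ] 0)
    {η : ℝ} (hη : η ≤ 1) (hb : ∀ j c ω, |lL (g j) (r j) (sT b {c}) ω| ≤ η)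
    (s : ℝ) (hs : 0 ≤ s) (J : ℕ) :
    ‖∫ ω, ei (∑ j ∈ range J, ∑ i, g j i * r j i ω) ∂μ - ((Real.exp (-s / 2) : ℝ) : ℂ)‖ ≤
      2 * ∑ j ∈ range J, (4 * cross μ (g j) (r j) b univ +
        η * ∑ c : β, ∫ ω, lL (g j) (r j) (sT b {c}) ω ^ 2 ∂μ) +
      (s + 4) * ∫ ω, |∑ j ∈ range J, bvar μ (F j) (g j) (r j) b ω - s| ∂μ := by
  have hBM : ∀ j i, BM (mΩ := mΩ) (r j i) := fun j i =>
    ⟨(hrm j i).mono (hF _) le_rfl, C, hrb j i⟩
  have hmV : ∀ j, Measurable[F j] (bvar μ (F j) (g j) (r j) b) := by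
    intro j
    unfold bvar
    refine Finset.measurable_sum _ fun c _ => ?_
    exact continuous_abs.measurable.comp stronglyMeasurable_condExp.measurable
  have h := mart_clt (μ := μ) F hF hmono (fun j ω => ∑ i, g j i * r j i ω)
    (fun j => bvar μ (F j) (g j) (r j) b)
    (fun j => Finset.measurable_sum _ fun i _ => (hrm j i).const_mul _) hmV
    (fun j ω => Finset.sum_nonneg fun c _ => abs_nonneg _)
    (fun j => integrable_finsetSum _ fun c _ => integrable_condExp.abs) s hs J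
  refine h.trans (add_le_add (mul_le_mul_of_nonneg_left (Finset.sum_le_sum fun j _ => ?_)
    (by norm_num)) le_rfl)
  exact row_bound (hF j) (hBM j) (hA j) (hc j) b hη (hb j)

end Vale.Agent.P153.CLT
end

section

/-!
# Conditional variances replaced by squares

Version of the central limit theorem where the hypothesis is on the sum of the squares of the
block sums instead of the sum of their conditional variances.
-/

namespace Vale.Agent.P153.CLT

open MeasureTheory Filter Finset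
open scoped Topology ENNReal

variable {Ω : Type*} {mΩ : MeasurableSpace Ω} {μ : Measure Ω}

lemma BM.memLp [IsFiniteMeasure μ] {X : Ω → ℝ} (hX : BM (mΩ := mΩ) X) (p : ℝ≥0∞) :
    MemLp X p μ := by
  obtain ⟨h1, C, hC⟩ := hX
  exact MemLp.of_bound h1.aestronglyMeasurable C (ae_of_all _ hC)

lemma int3 {f g h : Ω → ℝ} (hf : Integrable f μ) (hg : Integrable g μ) (hh : Integrable h μ)
    (c : ℝ) : ∫ ω, (f ω + c * g ω + h ω) ∂μ = ∫ ω, f ω ∂μ + c * ∫ ω, g ω ∂μ + ∫ ω, h ω ∂μ := by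
  have h1 : ∫ ω, (f ω + c * g ω + h ω) ∂μ = ∫ ω, (f ω + c * g ω) ∂μ + ∫ ω, h ω ∂μ :=
    integral_add (hf.add (hg.const_mul c)) hh
  have h2 : ∫ ω, (f ω + c * g ω) ∂μ = ∫ ω, f ω ∂μ + ∫ ω, c * g ω ∂μ :=
    integral_add hf (hg.const_mul c)
  rw [h1, h2, integral_const_mul]

/-- Orthogonality of the martingale `∑ (Q j - E[Q j | F j])`. -/
lemma mart_sq [IsProbabilityMeasure μ] (F : ℕ → MeasurableSpace Ω) (hF : ∀ j, F j ≤ mΩ)
    (hmono : Monotone F) (Q : ℕ → Ω → ℝ) (hQm : ∀ j, Measurable[F (j + 1)] (Q j))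
    (hQ : ∀ j, BM (mΩ := mΩ) (Q j)) (J : ℕ) :
    MemLp (fun ω => ∑ j ∈ range J, (Q j ω - (μ[Q j | F j]) ω)) 2 μ ∧
    ∫ ω, (∑ j ∈ range J, (Q j ω - (μ[Q j | F j]) ω)) ^ 2 ∂μ ≤
      ∑ j ∈ range J, ∫ ω, Q j ω ^ 2 ∂μ := by
  have hV2 : ∀ j, MemLp (μ[Q j | F j]) 2 μ := fun j => ((hQ j).memLp 2).condExp (by norm_num)
  have hD2 : ∀ j, MemLp (fun ω => Q j ω - (μ[Q j | F j]) ω) 2 μ := fun j =>
    ((hQ j).memLp 2).sub (hV2 j)
  have hDi : ∀ j, Integrable (fun ω => Q j ω - (μ[Q j | F j]) ω) μ := fun j =>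
    (hD2 j).integrable (by norm_num)
  have hD0 : ∀ j, μ[fun ω => Q j ω - (μ[Q j | F j]) ω | F j] =ᵐ[μ] 0 := by
    intro j
    have h1 := condExp_sub (μ := μ) ((hQ j).integrable) (integrable_condExp (f := Q j) (m := F j)
      (μ := μ)) (F j)
    have h2 := condExp_of_stronglyMeasurable (μ := μ) (hF j)
      (stronglyMeasurable_condExp (f := Q j) (m := F j) (μ := μ)) integrable_condExp
    have h3 : (fun ω => Q j ω - (μ[Q j | F j]) ω) = Q j - μ[Q j | F j] := rfl
    rw [h3]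
    filter_upwards [h1] with ω a
    rw [a, Pi.sub_apply, h2]
    simp
  -- one term
  have hDsq : ∀ j, ∫ ω, (Q j ω - (μ[Q j | F j]) ω) ^ 2 ∂μ ≤ ∫ ω, Q j ω ^ 2 ∂μ := by
    intro j
    have i1 : Integrable (fun ω => Q j ω * (μ[Q j | F j]) ω) μ :=
      ((hQ j).memLp 2).integrable_mul (hV2 j)
    have i2 : Integrable (fun ω => Q j ω ^ 2) μ := ((hQ j).memLp 2).integrable_sq
    have i3 : Integrable (fun ω => (μ[Q j | F j]) ω ^ 2) μ := (hV2 j).integrable_sq
    have e1 : ∫ ω, Q j ω * (μ[Q j | F j]) ω ∂μ = ∫ ω, (μ[Q j | F j]) ω ^ 2 ∂μ := by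
      have h1 := condExp_mul_of_stronglyMeasurable_right (μ := μ)
        (stronglyMeasurable_condExp (f := Q j) (m := F j) (μ := μ)) i1 (hQ j).integrable
      rw [← integral_condExp (hF j) (f := fun ω => Q j ω * (μ[Q j | F j]) ω)]
      refine integral_congr_ae ?_
      filter_upwards [h1] with ω a
      have a' : (μ[fun ω => Q j ω * (μ[Q j | F j]) ω | F j]) ω =
        (μ[Q j | F j]) ω * (μ[Q j | F j]) ω := a
      rw [a']
      ring
    have e2 : ∫ ω, (Q j ω - (μ[Q j | F j]) ω) ^ 2 ∂μ =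
        ∫ ω, Q j ω ^ 2 ∂μ - ∫ ω, (μ[Q j | F j]) ω ^ 2 ∂μ := by
      have e3 : (fun ω => (Q j ω - (μ[Q j | F j]) ω) ^ 2) = fun ω =>
          Q j ω ^ 2 + (-2) * (Q j ω * (μ[Q j | F j]) ω) + (μ[Q j | F j]) ω ^ 2 := by
        funext ω
        ring
      rw [e3, int3 i2 i1 i3, e1]
      ring
    rw [e2]
    have : 0 ≤ ∫ ω, (μ[Q j | F j]) ω ^ 2 ∂μ := integral_nonneg fun ω => sq_nonneg _
    linarith only [this]
  induction J with
  | zero => exact ⟨by simp only [range_zero, sum_sub_distrib, sum_empty, sub_self, MemLp.zero'], by simp⟩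
  | succ J ih =>
    obtain ⟨ih1, ih2⟩ := ih
    simp only [Finset.sum_range_succ]
    refine ⟨ih1.add (hD2 J), ?_⟩
    set S : Ω → ℝ := fun ω => ∑ j ∈ range J, (Q j ω - (μ[Q j | F j]) ω) with hS
    have hSm : StronglyMeasurable[F J] S := by
      refine Finset.stronglyMeasurable_fun_sum _ fun j hj => ?_
      have hj' := mem_range.1 hj
      exact (((hQm j).mono (hmono (by omega)) le_rfl).stronglyMeasurable).sub
        (stronglyMeasurable_condExp.mono (hmono (by omega)))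
    have i1 : Integrable (fun ω => S ω * (Q J ω - (μ[Q J | F J]) ω)) μ :=
      ih1.integrable_mul (hD2 J)
    have e1 : ∫ ω, S ω * (Q J ω - (μ[Q J | F J]) ω) ∂μ = 0 := by
      have h1 := condExp_mul_of_stronglyMeasurable_left (μ := μ) hSm i1 (hDi J)
      rw [← integral_condExp (hF J) (f := fun ω => S ω * (Q J ω - (μ[Q J | F J]) ω))]
      have h2 : μ[fun ω => S ω * (Q J ω - (μ[Q J | F J]) ω) | F J] =ᵐ[μ] 0 := by
        filter_upwards [h1, hD0 J] with ω a b
        have a' : (μ[fun ω => S ω * (Q J ω - (μ[Q J | F J]) ω) | F J]) ω =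
          S ω * (μ[fun ω => Q J ω - (μ[Q J | F J]) ω | F J]) ω := a
        rw [a', b]
        simp
      rw [integral_congr_ae h2]
      simp
    have i2 : Integrable (fun ω => S ω ^ 2) μ := ih1.integrable_sq
    have i3 : Integrable (fun ω => (Q J ω - (μ[Q J | F J]) ω) ^ 2) μ := (hD2 J).integrable_sq
    have e2 : (fun ω => (S ω + (Q J ω - (μ[Q J | F J]) ω)) ^ 2) = fun ω =>
        S ω ^ 2 + 2 * (S ω * (Q J ω - (μ[Q J | F J]) ω)) + (Q J ω - (μ[Q J | F J]) ω) ^ 2 := by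
      funext ω
      ring
    have e3 : ∫ ω, (S ω + (Q J ω - (μ[Q J | F J]) ω)) ^ 2 ∂μ =
        ∫ ω, S ω ^ 2 ∂μ + ∫ ω, (Q J ω - (μ[Q J | F J]) ω) ^ 2 ∂μ := by
      rw [e2, int3 i2 i1 i3, e1]
      ring
    rw [e3]
    exact add_le_add ih2 (hDsq J)

lemma integral_abs_le_sqrt [IsProbabilityMeasure μ] {f : Ω → ℝ} (hf : MemLp f 2 μ) {S : ℝ}
    (hS : ∫ ω, f ω ^ 2 ∂μ ≤ S) : ∫ ω, |f ω| ∂μ ≤ Real.sqrt S := by
  have hi : Integrable (fun ω => |f ω|) μ := (hf.integrable (by norm_num)).abs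
  have hi2 : Integrable (fun ω => f ω ^ 2) μ := hf.integrable_sq
  have h0 : 0 ≤ ∫ ω, f ω ^ 2 ∂μ := integral_nonneg fun ω => sq_nonneg _
  apply Real.le_sqrt_of_sq_le
  refine le_trans ?_ hS
  set a := ∫ ω, |f ω| ∂μ with ha
  have h1 : 0 ≤ ∫ ω, (|f ω| - a) ^ 2 ∂μ := integral_nonneg fun ω => sq_nonneg _
  have e : (fun ω => (|f ω| - a) ^ 2) = fun ω => f ω ^ 2 + (-(2 * a)) * |f ω| + a ^ 2 := by
    funext ω
    rw [← sq_abs (f ω)]
    ring
  rw [e, int3 hi2 hi (integrable_const _), ← ha] at h1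
  simp only [integral_const, probReal_univ, smul_eq_mul, one_mul] at h1
  linarith

variable {ι β : Type*} [Fintype ι] [Fintype β] [DecidableEq β]

/-- Central limit theorem for conditionally associated martingale differences, with squares of
the block sums. -/
theorem np_mart_clt_sq [IsProbabilityMeasure μ] (F : ℕ → MeasurableSpace Ω)
    (hF : ∀ j, F j ≤ mΩ) (hmono : Monotone F) (r : ℕ → ι → Ω → ℝ) (g : ℕ → ι → ℝ) (b : ι → β)
    (hrm : ∀ j i, Measurable[F (j + 1)] (r j i)) (C : ℝ) (hrb : ∀ j i ω, |r j i ω| ≤ C)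
    (hA : ∀ j, NP μ (F j) (r j)) (hc : ∀ j i, μ[r j i | F j] =ᵐ[μ] 0)
    {η : ℝ} (hη : η ≤ 1) (hb : ∀ j c ω, |lL (g j) (r j) (sT b {c}) ω| ≤ η)
    (s : ℝ) (hs : 0 ≤ s) (J : ℕ) :
    ‖∫ ω, ei (∑ j ∈ range J, ∑ i, g j i * r j i ω) ∂μ - ((Real.exp (-s / 2) : ℝ) : ℂ)‖ ≤
      2 * ∑ j ∈ range J, (4 * cross μ (g j) (r j) b univ +
        η * ∑ c : β, ∫ ω, lL (g j) (r j) (sT b {c}) ω ^ 2 ∂μ) +
      (s + 4) * (∫ ω, |∑ j ∈ range J, ∑ c : β, lL (g j) (r j) (sT b {c}) ω ^ 2 - s| ∂μ +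
        Real.sqrt (∑ j ∈ range J, ∫ ω, (∑ c : β, lL (g j) (r j) (sT b {c}) ω ^ 2) ^ 2 ∂μ)) := by
  refine (np_mart_clt F hF hmono r g b hrm C hrb hA hc hη hb s hs J).trans ?_
  refine add_le_add le_rfl (mul_le_mul_of_nonneg_left ?_ (by linarith only [hs]))
  have hBM : ∀ j i, BM (mΩ := mΩ) (r j i) := fun j i =>
    ⟨(hrm j i).mono (hF _) le_rfl, C, hrb j i⟩
  have hLm : ∀ j c, Measurable[F (j + 1)] (lL (g j) (r j) (sT b {c})) := fun j c =>
    Finset.measurable_sum _ fun i _ => (hrm j i).const_mul _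
  have hLB : ∀ j c, BM (mΩ := mΩ) (fun ω => lL (g j) (r j) (sT b {c}) ω ^ 2) := by
    intro j c
    have := (bm_lL (mΩ := mΩ) (g := g j) (hBM j) (sT b {c})).mul
      (bm_lL (mΩ := mΩ) (g := g j) (hBM j) (sT b {c}))
    have e : (fun ω => lL (g j) (r j) (sT b {c}) ω ^ 2) =
        fun ω => lL (g j) (r j) (sT b {c}) ω * lL (g j) (r j) (sT b {c}) ω := by
      funext ω
      ring
    rw [e]
    exact this
  set Q : ℕ → Ω → ℝ := fun j ω => ∑ c : β, lL (g j) (r j) (sT b {c}) ω ^ 2 with hQ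
  have hQB : ∀ j, BM (mΩ := mΩ) (Q j) := fun j => BM.sum _ fun c _ => hLB j c
  have hQm : ∀ j, Measurable[F (j + 1)] (Q j) := fun j =>
    Finset.measurable_sum _ fun c _ => (hLm j c).pow_const 2
  obtain ⟨m1, m2⟩ := mart_sq (μ := μ) F hF hmono Q hQm hQB J
  have m3 := integral_abs_le_sqrt m1 m2
  -- the conditional block variance is the conditional expectation of `Q`
  have hv : ∀ j, bvar μ (F j) (g j) (r j) b =ᵐ[μ] μ[Q j | F j] := by
    intro j
    have e : Q j = ∑ c : β, fun ω => lL (g j) (r j) (sT b {c}) ω ^ 2 := by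
      funext ω
      simp only [hQ, Finset.sum_apply]
    have h1 := condExp_finsetSum (μ := μ) (s := (univ : Finset β))
      (f := fun c => fun ω => lL (g j) (r j) (sT b {c}) ω ^ 2)
      (fun c _ => (hLB j c).integrable) (F j)
    have h2 : ∀ᵐ ω ∂μ, ∀ c : β, 0 ≤ (μ[fun ω => lL (g j) (r j) (sT b {c}) ω ^ 2 | F j]) ω :=
      ae_all_iff.2 fun c => condExp_nonneg (ae_of_all _ fun ω => sq_nonneg _)
    rw [e]
    filter_upwards [h1, h2] with ω a1 a2
    rw [a1, Finset.sum_apply]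
    unfold bvar
    exact Finset.sum_congr rfl fun c _ => abs_of_nonneg (a2 c)
  have hvall : ∀ᵐ ω ∂μ, ∀ j, bvar μ (F j) (g j) (r j) b ω = (μ[Q j | F j]) ω :=
    ae_all_iff.2 hv
  have hQi : Integrable (fun ω => |∑ j ∈ range J, Q j ω - s|) μ :=
    ((integrable_finsetSum _ fun j _ => (hQB j).integrable).sub (integrable_const s)).abs
  have hm1 : Integrable (fun ω => |∑ j ∈ range J, (Q j ω - (μ[Q j | F j]) ω)|) μ :=
    (m1.integrable (by norm_num)).abs
  calc ∫ ω, |∑ j ∈ range J, bvar μ (F j) (g j) (r j) b ω - s| ∂μ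
      ≤ ∫ ω, (|∑ j ∈ range J, Q j ω - s| +
          |∑ j ∈ range J, (Q j ω - (μ[Q j | F j]) ω)|) ∂μ := by
        refine integral_mono_of_nonneg (ae_of_all _ fun ω => abs_nonneg _) (hQi.add hm1) ?_
        filter_upwards [hvall] with ω h
        simp only [h]
        have e : ∑ j ∈ range J, (μ[Q j | F j]) ω - s = (∑ j ∈ range J, Q j ω - s) -
            ∑ j ∈ range J, (Q j ω - (μ[Q j | F j]) ω) := by
          rw [Finset.sum_sub_distrib]
          ring
        rw [e]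
        exact abs_sub _ _
    _ = ∫ ω, |∑ j ∈ range J, Q j ω - s| ∂μ +
        ∫ ω, |∑ j ∈ range J, (Q j ω - (μ[Q j | F j]) ω)| ∂μ := integral_add hQi hm1
    _ ≤ _ := add_le_add le_rfl m3

end Vale.Agent.P153.CLT
end

section

/-!
# Orthogonality of martingale differences
-/

namespace Vale.Agent.P153.Asm

open MeasureTheory Filter Finset
open scoped Topology ENNReal
open Vale.Agent.P153.CLT

variable {Ω : Type*} {mΩ : MeasurableSpace Ω} {μ : Measure Ω}

/-- Sum of squares of martingale differences. -/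
lemma mart_orth [IsProbabilityMeasure μ] (F : ℕ → MeasurableSpace Ω) (hF : ∀ j, F j ≤ mΩ)
    (hmono : Monotone F) (D : ℕ → Ω → ℝ) (hDm : ∀ j, AEStronglyMeasurable[F (j + 1)] (D j) μ)
    (hD2 : ∀ j, MemLp (D j) 2 μ) (hD0 : ∀ j, μ[D j | F j] =ᵐ[μ] 0) (J : ℕ) :
    MemLp (fun ω => ∑ j ∈ range J, D j ω) 2 μ ∧
    AEStronglyMeasurable[F J] (fun ω => ∑ j ∈ range J, D j ω) μ ∧
    ∫ ω, (∑ j ∈ range J, D j ω) ^ 2 ∂μ = ∑ j ∈ range J, ∫ ω, D j ω ^ 2 ∂μ := by
  induction J with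
  | zero => exact ⟨by simp only [range_zero, sum_empty, MemLp.zero'], by simpa only [range_zero, sum_empty] using aestronglyMeasurable_const, by simp⟩
  | succ J ih =>
    obtain ⟨ih1, ih2, ih3⟩ := ih
    simp only [Finset.sum_range_succ]
    refine ⟨ih1.add (hD2 J), (ih2.mono (hmono (Nat.le_succ J))).add (hDm J), ?_⟩
    have i1 : Integrable (fun ω => (∑ j ∈ range J, D j ω) * D J ω) μ :=
      ih1.integrable_mul (hD2 J)
    have e1 : ∫ ω, (∑ j ∈ range J, D j ω) * D J ω ∂μ = 0 := by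
      have h1 := condExp_mul_of_aestronglyMeasurable_left (μ := μ) ih2 i1
        ((hD2 J).integrable (by norm_num))
      rw [← integral_condExp (hF J) (f := fun ω => (∑ j ∈ range J, D j ω) * D J ω)]
      have h2 : μ[fun ω => (∑ j ∈ range J, D j ω) * D J ω | F J] =ᵐ[μ] 0 := by
        filter_upwards [h1, hD0 J] with ω a b
        have a' : (μ[fun ω => (∑ j ∈ range J, D j ω) * D J ω | F J]) ω =
          (∑ j ∈ range J, D j ω) * (μ[D J | F J]) ω := a
        rw [a', b]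
        simp
      rw [integral_congr_ae h2]
      simp
    have e2 : (fun ω => (∑ j ∈ range J, D j ω + D J ω) ^ 2) = fun ω =>
        (∑ j ∈ range J, D j ω) ^ 2 + 2 * ((∑ j ∈ range J, D j ω) * D J ω) + D J ω ^ 2 := by
      funext ω
      ring
    rw [e2, int3 ih1.integrable_sq i1 (hD2 J).integrable_sq, e1, ih3]
    ring

end Vale.Agent.P153.Asm
end

section

/-!
# The abstract row model

`h p` is the height at the site `p = (row, position)`.  `F l` is generated by the rows `≤ l`.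
Two structural facts are used: reflection (`refl`, `inv`) and the conditional Newman property.
-/

namespace Vale.Agent.P153.Asm

open MeasureTheory Filter Finset
open scoped Topology ENNReal
open Vale.Agent.P153.CLT

variable {Ω : Type*} {mΩ : MeasurableSpace Ω} {μ : Measure Ω}

lemma int4 {f g k r : Ω → ℝ} (hf : Integrable f μ) (hg : Integrable g μ) (hk : Integrable k μ)
    (hr : Integrable r μ) (c : ℝ) : ∫ ω, (f ω + c * g ω + k ω - r ω) ∂μ =
      ∫ ω, f ω ∂μ + c * ∫ ω, g ω ∂μ + ∫ ω, k ω ∂μ - ∫ ω, r ω ∂μ := by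
  have h1 : ∫ ω, (f ω + c * g ω + k ω - r ω) ∂μ =
      ∫ ω, (f ω + c * g ω + k ω) ∂μ - ∫ ω, r ω ∂μ :=
    integral_sub ((hf.add (hg.const_mul c)).add hk) hr
  rw [h1, int3 hf hg hk]

/-- Reflection of a site in the row `l`. -/
def rho (l : ℤ) (p : ℤ × ℤ) : ℤ × ℤ := (2 * l - p.1, p.2)

/-- Mean square difference of two heights. -/
noncomputable def msd (μ : Measure[mΩ] Ω) (h : ℤ × ℤ → Ω → ℝ) (p q : ℤ × ℤ) : ℝ :=
  ∫ ω, (h p ω - h q ω) ^ 2 ∂μ

/-- `p` and its reflection in the row `l` are in the window, `p` above the row. -/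
def Win (lo hi l : ℤ) (p : ℤ × ℤ) : Prop := l ≤ p.1 ∧ p.1 ≤ hi ∧ lo ≤ 2 * l - p.1

/-- The abstract row model on the rows `lo, ..., hi`. -/
structure Rows (μ : Measure[mΩ] Ω) (F : ℤ → MeasurableSpace Ω) (h : ℤ × ℤ → Ω → ℝ) (B : ℝ)
    (lo hi : ℤ) : Prop where
  hF : ∀ l, F l ≤ mΩ
  mono : Monotone F
  meas : ∀ p, Measurable[F p.1] (h p)
  bm : ∀ p, BM (mΩ := mΩ) (h p)
  refl : ∀ l p q π π', Win lo hi l p → Win lo hi l q → π.1 = l → π'.1 = l →
    ∫ ω, ((μ[h p | F l]) ω - h π ω) * ((μ[h q | F l]) ω - h π' ω) ∂μ =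
      ∫ ω, (h p ω - h π ω) * (h (rho l q) ω - h π' ω) ∂μ
  inv : ∀ l p q, Win lo hi l p → Win lo hi l q →
    msd μ h (rho l p) (rho l q) = msd μ h p q
  np : ∀ l {ι : Type} [Fintype ι] (u : ι → ℤ × ℤ), lo ≤ l → (∀ i, l < (u i).1 ∧ (u i).1 ≤ hi) →
    NP μ (F l) (fun i => h (u i))
  lip : ∀ j x ω, lo ≤ j → j + 1 ≤ hi → |h (j + 1, x) ω - h (j, x) ω| ≤ B

variable {F : ℤ → MeasurableSpace Ω} {h : ℤ × ℤ → Ω → ℝ} {B : ℝ} {lo hi : ℤ}

lemma Rows.measΩ (R : Rows μ F h B lo hi) (p : ℤ × ℤ) : Measurable[mΩ] (h p) :=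
  (R.meas p).mono (R.hF _) le_rfl

lemma integral_mul_eq [IsProbabilityMeasure μ] {X Y : Ω → ℝ} (hX : BM (mΩ := mΩ) X)
    (hY : BM (mΩ := mΩ) Y) :
    ∫ ω, X ω * Y ω ∂μ = (∫ ω, X ω ^ 2 ∂μ + ∫ ω, Y ω ^ 2 ∂μ - ∫ ω, (X ω - Y ω) ^ 2 ∂μ) / 2 := by
  have i1 : Integrable (fun ω => X ω ^ 2) μ := (hX.memLp 2).integrable_sq
  have i2 : Integrable (fun ω => Y ω ^ 2) μ := (hY.memLp 2).integrable_sq
  have i3 : Integrable (fun ω => X ω * Y ω) μ := (hX.mul hY).integrable
  have e : (fun ω => (X ω - Y ω) ^ 2) = fun ω => X ω ^ 2 + (-2) * (X ω * Y ω) + Y ω ^ 2 := by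
    funext ω
    ring
  rw [e, int3 i1 i3 i2]
  ring

lemma Rows.int_mul (_R : Rows μ F h B lo hi) [IsProbabilityMeasure μ] (p q : ℤ × ℤ) :
    ∫ ω, h p ω * h q ω ∂μ =
      (∫ ω, h p ω ^ 2 ∂μ + ∫ ω, h q ω ^ 2 ∂μ - msd μ h p q) / 2 :=
  integral_mul_eq (_R.bm p) (_R.bm q)

/-- Product of conditional expectations against a product with a measurable factor. -/
lemma int_condExp_mul [IsProbabilityMeasure μ] {m : MeasurableSpace Ω} (hm : m ≤ mΩ) {X Y : Ω → ℝ}
    (hX : BM (mΩ := mΩ) X) (hY : MemLp Y 2 μ) (hYm : AEStronglyMeasurable[m] Y μ) :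
    ∫ ω, (μ[X | m]) ω * Y ω ∂μ = ∫ ω, X ω * Y ω ∂μ := by
  have i1 : Integrable (fun ω => X ω * Y ω) μ := (hX.memLp 2).integrable_mul hY
  have h1 := condExp_mul_of_aestronglyMeasurable_right (μ := μ) hYm i1 hX.integrable
  rw [← integral_condExp hm (f := fun ω => X ω * Y ω)]
  refine (integral_congr_ae ?_).symm
  filter_upwards [h1] with ω a
  exact a

/-- The innovation of `h p` after row `l`. -/
noncomputable def inn (μ : Measure[mΩ] Ω) (F : ℤ → MeasurableSpace Ω) (h : ℤ × ℤ → Ω → ℝ) (l : ℤ)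
    (p : ℤ × ℤ) (ω : Ω) : ℝ := h p ω - (μ[h p | F l]) ω

lemma Rows.memLp_condExp (R : Rows μ F h B lo hi) [IsProbabilityMeasure μ] (l : ℤ) (p : ℤ × ℤ) :
    MemLp (μ[h p | F l]) 2 μ := ((R.bm p).memLp 2).condExp (by norm_num)

lemma Rows.memLp_inn (R : Rows μ F h B lo hi) [IsProbabilityMeasure μ] (l : ℤ) (p : ℤ × ℤ) :
    MemLp (inn μ F h l p) 2 μ := ((R.bm p).memLp 2).sub (R.memLp_condExp l p)

lemma Rows.condExp_inn (R : Rows μ F h B lo hi) [IsProbabilityMeasure μ] (l : ℤ) (p : ℤ × ℤ) :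
    μ[inn μ F h l p | F l] =ᵐ[μ] 0 := by
  have h1 := condExp_sub (μ := μ) ((R.bm p).integrable) (integrable_condExp (f := h p) (m := F l)
    (μ := μ)) (F l)
  have h2 := condExp_of_stronglyMeasurable (μ := μ) (R.hF l)
    (stronglyMeasurable_condExp (f := h p) (m := F l) (μ := μ)) integrable_condExp
  have h3 : inn μ F h l p = h p - μ[h p | F l] := rfl
  rw [h3]
  filter_upwards [h1] with ω a
  rw [a, Pi.sub_apply, h2]
  simp

/-- An innovation is orthogonal to everything measurable before. -/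
lemma Rows.int_inn_mul (R : Rows μ F h B lo hi) [IsProbabilityMeasure μ] (l : ℤ) (p : ℤ × ℤ)
    {Y : Ω → ℝ} (hY : MemLp Y 2 μ) (hYm : AEStronglyMeasurable[F l] Y μ) :
    ∫ ω, inn μ F h l p ω * Y ω ∂μ = 0 := by
  have i1 : Integrable (fun ω => h p ω * Y ω) μ := ((R.bm p).memLp 2).integrable_mul hY
  have i2 : Integrable (fun ω => (μ[h p | F l]) ω * Y ω) μ :=
    (R.memLp_condExp l p).integrable_mul hY
  have e : (fun ω => inn μ F h l p ω * Y ω) =
      fun ω => h p ω * Y ω - (μ[h p | F l]) ω * Y ω := by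
    funext ω
    simp only [inn]
    ring
  rw [e, integral_sub i1 i2, int_condExp_mul (R.hF l) (R.bm p) hY hYm]
  ring

/-- The covariance of innovations after the same row. -/
noncomputable def cr (μ : Measure[mΩ] Ω) (h : ℤ × ℤ → Ω → ℝ) (l : ℤ) (p q : ℤ × ℤ) : ℝ :=
  (msd μ h p (rho l q) - msd μ h p q) / 2

/-- Mean square of the conditional expectation of an increment. -/
noncomputable def tr (μ : Measure[mΩ] Ω) (h : ℤ × ℤ → Ω → ℝ) (l : ℤ) (p π q π' : ℤ × ℤ) : ℝ :=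
  (msd μ h p π' + msd μ h π (rho l q) - msd μ h p (rho l q) - msd μ h π π') / 2

lemma Rows.int_diff (R : Rows μ F h B lo hi) [IsProbabilityMeasure μ] (p π q π' : ℤ × ℤ) :
    ∫ ω, (h p ω - h π ω) * (h q ω - h π' ω) ∂μ =
      (msd μ h p π' + msd μ h π q - msd μ h p q - msd μ h π π') / 2 := by
  have i1 := ((R.bm p).mul (R.bm q)).integrable (μ := μ)
  have i2 := ((R.bm p).mul (R.bm π')).integrable (μ := μ)
  have i3 := ((R.bm π).mul (R.bm q)).integrable (μ := μ)
  have i4 := ((R.bm π).mul (R.bm π')).integrable (μ := μ)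
  have e : (fun ω => (h p ω - h π ω) * (h q ω - h π' ω)) = fun ω =>
      (h p ω * h q ω + (-1) * (h p ω * h π' ω) + (h π ω * h π' ω)) - h π ω * h q ω := by
    funext ω
    ring
  rw [e, int4 i1 i2 i4 i3,
    R.int_mul p q, R.int_mul p π', R.int_mul π π', R.int_mul π q]
  ring

lemma Rows.int_proj (R : Rows μ F h B lo hi) [IsProbabilityMeasure μ] (l : ℤ) (p π q π' : ℤ × ℤ)
    (hp : Win lo hi l p) (hq : Win lo hi l q) (hπ : π.1 = l) (hπ' : π'.1 = l) :
    ∫ ω, ((μ[h p | F l]) ω - h π ω) * ((μ[h q | F l]) ω - h π' ω) ∂μ = tr μ h l p π q π' := by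
  rw [R.refl l p q π π' hp hq hπ hπ', R.int_diff]
  rfl

lemma Rows.int_h_inn_zero (R : Rows μ F h B lo hi) [IsProbabilityMeasure μ] (l : ℤ) (w p : ℤ × ℤ)
    (hw : w.1 ≤ l) : ∫ ω, h w ω * inn μ F h l p ω ∂μ = 0 := by
  have e : (fun ω => h w ω * inn μ F h l p ω) = fun ω => inn μ F h l p ω * h w ω := by
    funext ω
    ring
  rw [e]
  exact R.int_inn_mul l p ((R.bm w).memLp 2)
    ((R.meas w).mono (R.mono hw) le_rfl).stronglyMeasurable.aestronglyMeasurable

lemma Rows.int_h_inn (R : Rows μ F h B lo hi) [IsProbabilityMeasure μ] (l : ℤ) (w p : ℤ × ℤ)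
    (hw : Win lo hi l w) (hp : Win lo hi l p) :
    ∫ ω, h w ω * inn μ F h l p ω ∂μ = cr μ h l w p := by
  set π : ℤ × ℤ := (l, p.2) with hπ
  have bπ := (R.bm π).memLp (μ := μ) 2
  have bw := (R.bm w).memLp (μ := μ) 2
  have bp := (R.bm p).memLp (μ := μ) 2
  have hπm : AEStronglyMeasurable[F l] (h π) μ :=
    (R.meas π).stronglyMeasurable.aestronglyMeasurable
  have mI := R.memLp_inn l p
  have mE := R.memLp_condExp l p
  have mD : MemLp (fun ω => (μ[h p | F l]) ω - h π ω) 2 μ := mE.sub bπ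
  have mDm : AEStronglyMeasurable[F l] (fun ω => (μ[h p | F l]) ω - h π ω) μ :=
    stronglyMeasurable_condExp.aestronglyMeasurable.sub hπm
  have i1 : Integrable (fun ω => h w ω * inn μ F h l p ω) μ := bw.integrable_mul mI
  have i2 : Integrable (fun ω => h π ω * inn μ F h l p ω) μ := bπ.integrable_mul mI
  -- subtract the height in the row
  have e1 : ∫ ω, h w ω * inn μ F h l p ω ∂μ =
      ∫ ω, (h w ω - h π ω) * (h p ω - h π ω) ∂μ -
      ∫ ω, (h w ω - h π ω) * ((μ[h p | F l]) ω - h π ω) ∂μ := by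
    have j1 : Integrable (fun ω => (h w ω - h π ω) * (h p ω - h π ω)) μ :=
      (bw.sub bπ).integrable_mul (bp.sub bπ)
    have j2 : Integrable (fun ω => (h w ω - h π ω) * ((μ[h p | F l]) ω - h π ω)) μ :=
      (bw.sub bπ).integrable_mul mD
    rw [← integral_sub j1 j2]
    have z := R.int_h_inn_zero l π p (by simp [hπ])
    have e2 : ∫ ω, h w ω * inn μ F h l p ω ∂μ =
        ∫ ω, (h w ω * inn μ F h l p ω - h π ω * inn μ F h l p ω) ∂μ := by
      rw [integral_sub i1 i2, z, sub_zero]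
    rw [e2]
    refine integral_congr_ae (ae_of_all _ fun ω => ?_)
    simp only [inn]
    ring
  have e3 : ∫ ω, (h w ω - h π ω) * ((μ[h p | F l]) ω - h π ω) ∂μ = tr μ h l w π p π := by
    rw [← R.int_proj l w π p π hw hp rfl rfl]
    have k1 : Integrable (fun ω => h w ω * ((μ[h p | F l]) ω - h π ω)) μ := bw.integrable_mul mD
    have k2 : Integrable (fun ω => (μ[h w | F l]) ω * ((μ[h p | F l]) ω - h π ω)) μ :=
      (R.memLp_condExp l w).integrable_mul mD
    have k3 : Integrable (fun ω => h π ω * ((μ[h p | F l]) ω - h π ω)) μ := bπ.integrable_mul mD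
    have c := int_condExp_mul (μ := μ) (R.hF l) (R.bm w) mD mDm
    have f1 : (fun ω => (h w ω - h π ω) * ((μ[h p | F l]) ω - h π ω)) = fun ω =>
        h w ω * ((μ[h p | F l]) ω - h π ω) - h π ω * ((μ[h p | F l]) ω - h π ω) := by
      funext ω
      ring
    have f2 : (fun ω => ((μ[h w | F l]) ω - h π ω) * ((μ[h p | F l]) ω - h π ω)) = fun ω =>
        (μ[h w | F l]) ω * ((μ[h p | F l]) ω - h π ω) - h π ω * ((μ[h p | F l]) ω - h π ω) := by
      funext ω
      ring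
    rw [f1, f2, integral_sub k1 k3, integral_sub k2 k3, c]
  have hπw : Win lo hi l π := by
    obtain ⟨a, b, c⟩ := hp
    exact ⟨le_rfl, a.trans b, by simp only [hπ]; linarith only [a, c]⟩
  have hρ : rho l π = π := by
    ext
    · simp only [rho, hπ]
      ring
    · rfl
  have hv := R.inv l π p hπw hp
  rw [hρ] at hv
  have hππ : msd μ h π π = 0 := by simp [msd]
  rw [e1, e3, R.int_diff]
  unfold tr cr
  rw [hv]
  ring

lemma Rows.int_inn_inn (R : Rows μ F h B lo hi) [IsProbabilityMeasure μ] (l : ℤ) (p q : ℤ × ℤ)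
    (hp : Win lo hi l p) (hq : Win lo hi l q) :
    ∫ ω, inn μ F h l p ω * inn μ F h l q ω ∂μ = cr μ h l p q := by
  have i1 : Integrable (fun ω => h p ω * inn μ F h l q ω) μ :=
    ((R.bm p).memLp 2).integrable_mul (R.memLp_inn l q)
  have i2 : Integrable (fun ω => (μ[h p | F l]) ω * inn μ F h l q ω) μ :=
    (R.memLp_condExp l p).integrable_mul (R.memLp_inn l q)
  have e : (fun ω => inn μ F h l p ω * inn μ F h l q ω) =
      fun ω => h p ω * inn μ F h l q ω - (μ[h p | F l]) ω * inn μ F h l q ω := by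
    funext ω
    simp only [inn]
    ring
  have e2 : ∫ ω, (μ[h p | F l]) ω * inn μ F h l q ω ∂μ = 0 := by
    have e3 : (fun ω => (μ[h p | F l]) ω * inn μ F h l q ω) =
        fun ω => inn μ F h l q ω * (μ[h p | F l]) ω := by
      funext ω
      ring
    rw [e3]
    exact R.int_inn_mul l q (R.memLp_condExp l p)
      stronglyMeasurable_condExp.aestronglyMeasurable
  rw [e, integral_sub i1 i2, R.int_h_inn l p q hp hq, e2]
  ring

/-- The row model from the non-neutral identities. -/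
theorem Rows.of_plain [IsProbabilityMeasure μ] (hF : ∀ l, F l ≤ mΩ) (mono : Monotone F)
    (meas : ∀ p, Measurable[F p.1] (h p)) (bm : ∀ p, BM (mΩ := mΩ) (h p))
    (refl : ∀ l p q, Win lo hi l p → Win lo hi l q →
      ∫ ω, (μ[h p | F l]) ω * (μ[h q | F l]) ω ∂μ = ∫ ω, h p ω * h (rho l q) ω ∂μ)
    (inv : ∀ l p q, Win lo hi l p → Win lo hi l q →
      ∫ ω, h (rho l p) ω * h (rho l q) ω ∂μ = ∫ ω, h p ω * h q ω ∂μ)
    (np : ∀ l {ι : Type} [Fintype ι] (u : ι → ℤ × ℤ), lo ≤ l →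
      (∀ i, l < (u i).1 ∧ (u i).1 ≤ hi) → NP μ (F l) (fun i => h (u i)))
    (lip : ∀ j x ω, lo ≤ j → j + 1 ≤ hi → |h (j + 1, x) ω - h (j, x) ω| ≤ B) :
    Rows μ F h B lo hi where
  hF := hF
  mono := mono
  meas := meas
  bm := bm
  np := np
  lip := lip
  inv := by
    intro l p q hp hq
    have e : ∀ p q : ℤ × ℤ, msd μ h p q =
        ∫ ω, h p ω * h p ω ∂μ + (-2) * ∫ ω, h p ω * h q ω ∂μ + ∫ ω, h q ω * h q ω ∂μ := by
      intro p q
      have e1 : (fun ω => (h p ω - h q ω) ^ 2) =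
          fun ω => h p ω * h p ω + (-2) * (h p ω * h q ω) + h q ω * h q ω := by
        funext ω
        ring
      unfold msd
      rw [e1]
      exact int3 ((bm p).mul (bm p)).integrable ((bm p).mul (bm q)).integrable
        ((bm q).mul (bm q)).integrable (-2)
    rw [e, e, inv l p p hp hp, inv l q q hq hq, inv l p q hp hq]
  refl := by
    intro l p q π π' hp hq hπ hπ'
    have mp : MemLp (μ[h p | F l]) 2 μ := ((bm p).memLp 2).condExp (by norm_num)
    have mq : MemLp (μ[h q | F l]) 2 μ := ((bm q).memLp 2).condExp (by norm_num)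
    have bπ := (bm π).memLp (μ := μ) 2
    have bπ' := (bm π').memLp (μ := μ) 2
    have hm : ∀ π : ℤ × ℤ, π.1 = l → AEStronglyMeasurable[F l] (h π) μ := by
      intro π hπ
      exact ((meas π).mono (mono hπ.le) le_rfl).stronglyMeasurable.aestronglyMeasurable
    have i1 : Integrable (fun ω => (μ[h p | F l]) ω * (μ[h q | F l]) ω) μ := mp.integrable_mul mq
    have i2 : Integrable (fun ω => (μ[h p | F l]) ω * h π' ω) μ := mp.integrable_mul bπ'
    have i3 : Integrable (fun ω => (μ[h q | F l]) ω * h π ω) μ := mq.integrable_mul bπ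
    have i4 : Integrable (fun ω => h π ω * h π' ω) μ := ((bm π).mul (bm π')).integrable
    have i5 : Integrable (fun ω => h p ω * h (rho l q) ω) μ :=
      ((bm p).mul (bm (rho l q))).integrable
    have i6 : Integrable (fun ω => h p ω * h π' ω) μ := ((bm p).mul (bm π')).integrable
    have i7 : Integrable (fun ω => h (rho l q) ω * h π ω) μ :=
      ((bm (rho l q)).mul (bm π)).integrable
    have e : (fun ω => ((μ[h p | F l]) ω - h π ω) * ((μ[h q | F l]) ω - h π' ω)) = fun ω =>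
        ((μ[h p | F l]) ω * (μ[h q | F l]) ω + (-1) * ((μ[h p | F l]) ω * h π' ω) +
          h π ω * h π' ω) - (μ[h q | F l]) ω * h π ω := by
      funext ω
      ring
    have e' : (fun ω => (h p ω - h π ω) * (h (rho l q) ω - h π' ω)) = fun ω =>
        (h p ω * h (rho l q) ω + (-1) * (h p ω * h π' ω) +
          h π ω * h π' ω) - h (rho l q) ω * h π ω := by
      funext ω
      ring
    have e2 : ∫ ω, (μ[h p | F l]) ω * h π' ω ∂μ = ∫ ω, h p ω * h π' ω ∂μ :=
      int_condExp_mul (hF l) (bm p) bπ' (hm π' hπ')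
    have e3 : ∫ ω, (μ[h q | F l]) ω * h π ω ∂μ = ∫ ω, h q ω * h π ω ∂μ :=
      int_condExp_mul (hF l) (bm q) bπ (hm π hπ)
    have hπw : Win lo hi l π := by
      obtain ⟨a, b, c⟩ := hp
      exact ⟨hπ.ge, by linarith only [hπ, a, b], by linarith⟩
    have e4 : ∫ ω, h (rho l q) ω * h π ω ∂μ = ∫ ω, h q ω * h π ω ∂μ := by
      have h1 := inv l q π hq hπw
      have h2 : rho l π = π := by
        ext
        · simp only [rho, hπ]
          ring
        · simp [rho]
      rwa [h2] at h1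
    rw [e, e', int4 i1 i2 i4 i3, int4 i5 i6 i4 i7, e2, e3, e4, refl l p q hp hq]

end Vale.Agent.P153.Asm
end

section

/-!
# The strip inequality

For the abstract row model the characteristic function of a neutral linear functional is compared
with a Gaussian one; the error is expressed with mean square differences and local functions.
-/

namespace Vale.Agent.P153.Asm

open MeasureTheory Filter Finset
open scoped Topology ENNReal
open Vale.Agent.P153.CLT

variable {Ω : Type*} {mΩ : MeasurableSpace Ω} {μ : Measure Ω}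

lemma int_sum_mul_sum [IsProbabilityMeasure μ] {κ κ' : Type*} (s : Finset κ) (t : Finset κ')
    (a : κ → ℝ) (b : κ' → ℝ) (U : κ → Ω → ℝ) (V : κ' → Ω → ℝ) (hU : ∀ k ∈ s, MemLp (U k) 2 μ)
    (hV : ∀ k ∈ t, MemLp (V k) 2 μ) :
    ∫ ω, (∑ k ∈ s, a k * U k ω) * (∑ k ∈ t, b k * V k ω) ∂μ =
      ∑ k ∈ s, ∑ k' ∈ t, a k * b k' * ∫ ω, U k ω * V k' ω ∂μ := by
  have e : (fun ω => (∑ k ∈ s, a k * U k ω) * (∑ k ∈ t, b k * V k ω)) = fun ω =>
      ∑ k ∈ s, ∑ k' ∈ t, a k * b k' * (U k ω * V k' ω) := by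
    funext ω
    rw [Finset.sum_mul_sum]
    refine Finset.sum_congr rfl fun i _ => Finset.sum_congr rfl fun j _ => ?_
    ring
  have hi : ∀ k ∈ s, ∀ k' ∈ t, Integrable (fun ω => a k * b k' * (U k ω * V k' ω)) μ :=
    fun k hk k' hk' => ((hU k hk).integrable_mul (hV k' hk')).const_mul _
  rw [e, integral_finsetSum _ fun k hk => integrable_finsetSum _ fun k' hk' => hi k hk k' hk']
  refine Finset.sum_congr rfl fun k hk => ?_
  rw [integral_finsetSum _ fun k' hk' => hi k hk k' hk']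
  refine Finset.sum_congr rfl fun k' _ => ?_
  rw [integral_const_mul]

variable {ι β : Type} [Fintype ι] [Fintype β] [DecidableEq β]

/-- Geometry of the mesoscopic rows. -/
structure Geo (ι β : Type) where
  /-- number of rows in one step -/
  K : ℕ
  /-- first step -/
  I0 : ℤ
  /-- positions -/
  x : ι → ℤ
  /-- blocks -/
  b : ι → β

/-- Row at which step `j` starts. -/
def Geo.l (G : Geo ι β) (j : ℕ) : ℤ := (G.I0 + j) * G.K

/-- Site at the end of step `j`. -/
def Geo.site (G : Geo ι β) (j : ℕ) (i : ι) : ℤ × ℤ := (G.l (j + 1), G.x i)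

/-- Site at the beginning of step `j`. -/
def Geo.base (G : Geo ι β) (j : ℕ) (i : ι) : ℤ × ℤ := (G.l j, G.x i)

omit [Fintype ι] [Fintype β] [DecidableEq β] in
lemma Geo.l_succ (G : Geo ι β) (j : ℕ) : G.l (j + 1) = G.l j + G.K := by
  unfold Geo.l
  push_cast
  ring

omit [Fintype ι] [Fintype β] [DecidableEq β] in
lemma Geo.l_mono (G : Geo ι β) : Monotone G.l := by
  refine monotone_nat_of_le_succ fun j => ?_
  rw [G.l_succ]
  have : (0 : ℤ) ≤ G.K := Int.natCast_nonneg _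
  linarith

/-- The steps `0, ..., J - 1` are inside the window, `T` is the highest row. -/
structure Geo.In (G : Geo ι β) (lo hi : ℤ) (J : ℕ) (T : ℤ) : Prop where
  top : T ≤ hi
  bot : lo ≤ 2 * G.l 0 - T
  last : G.l J ≤ T

omit [Fintype ι] [Fintype β] [DecidableEq β] in
lemma Geo.In.mid {G : Geo ι β} {lo hi : ℤ} {J : ℕ} {T : ℤ} (W : G.In lo hi J T) {j : ℕ}
    (hj : j < J) : lo ≤ G.l j ∧ G.l (j + 1) ≤ hi ∧ ∀ w : ℤ × ℤ, G.l j ≤ w.1 → w.1 ≤ T →
      Win lo hi (G.l j) w := by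
  have h1 := G.l_mono (Nat.zero_le j)
  have h2 := G.l_mono (show j + 1 ≤ J from hj)
  have h3 := G.l_mono (Nat.le_succ j)
  have h4 := G.l_mono (Nat.zero_le J)
  have a := W.top
  have b := W.bot
  have c := W.last
  refine ⟨by linarith only [h1, h2, h3, b, c], by linarith only [h2, a, c], fun w h5 h6 => ⟨h5, by linarith only [a, h6], by linarith only [h1, b, h6]⟩⟩

omit [Fintype ι] [Fintype β] [DecidableEq β] in
lemma Geo.In.site {G : Geo ι β} {lo hi : ℤ} {J : ℕ} {T : ℤ} (W : G.In lo hi J T) {j : ℕ}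
    (hj : j < J) (i : ι) : Win lo hi (G.l j) (G.site j i) := by
  have h2 := G.l_mono (show j + 1 ≤ J from hj)
  exact (W.mid hj).2.2 _ (G.l_mono (Nat.le_succ j)) (h2.trans W.last)

variable {F : ℤ → MeasurableSpace Ω} {h : ℤ × ℤ → Ω → ℝ} {B : ℝ} {lo hi : ℤ}

omit [Fintype ι] [Fintype β] [DecidableEq β] in
lemma Rows.lip_base (R : Rows μ F h B lo hi) (G : Geo ι β) {J : ℕ} {T : ℤ} (W : G.In lo hi J T)
    {j : ℕ} (hj : j < J) (i : ι) (ω : Ω) :
    |h (G.site j i) ω - h (G.base j i) ω| ≤ B * G.K := by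
  obtain ⟨w1, w2, -⟩ := W.mid hj
  rw [G.l_succ] at w2
  have key : ∀ n : ℕ, n ≤ G.K → |h (G.l j + n, G.x i) ω - h (G.l j, G.x i) ω| ≤ B * n := by
    intro n
    induction n with
    | zero => simp only [zero_le, CharP.cast_eq_zero, add_zero, sub_self, abs_zero, mul_zero, Std.le_refl, imp_self]
    | succ n ih =>
      intro hn
      have ih := ih (Nat.le_of_succ_le hn)
      have hn' : ((n + 1 : ℕ) : ℤ) ≤ (G.K : ℤ) := by exact_mod_cast hn
      push_cast at hn'
      have hn0 : (0 : ℤ) ≤ (n : ℤ) := Int.natCast_nonneg _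
      have h1 := R.lip (G.l j + n) (G.x i) ω (by linarith only [w1]) (by linarith only [w2, hn])
      have e : (G.l j + ((n + 1 : ℕ) : ℤ)) = G.l j + n + 1 := by push_cast; ring
      rw [e]
      calc |h (G.l j + n + 1, G.x i) ω - h (G.l j, G.x i) ω|
          = |(h (G.l j + n + 1, G.x i) ω - h (G.l j + n, G.x i) ω) +
            (h (G.l j + n, G.x i) ω - h (G.l j, G.x i) ω)| := by congr 1; ring
        _ ≤ B + B * n := (abs_add_le _ _).trans (add_le_add h1 ih)
        _ = B * ((n + 1 : ℕ) : ℝ) := by push_cast; ring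
  have := key G.K le_rfl
  unfold Geo.site Geo.base
  rw [G.l_succ]
  exact this

/-- Truncated conditional expectation. -/
noncomputable def cc (μ : Measure[mΩ] Ω) (F : ℤ → MeasurableSpace Ω) (h : ℤ × ℤ → Ω → ℝ) (B : ℝ)
    (G : Geo ι β) (j : ℕ) (i : ι) (ω : Ω) : ℝ :=
  max (h (G.base j i) ω - B * G.K)
    (min (h (G.base j i) ω + B * G.K) ((μ[h (G.site j i) | F (G.l j)]) ω))

/-- Innovations of one step (truncated on a null set). -/
noncomputable def rr (μ : Measure[mΩ] Ω) (F : ℤ → MeasurableSpace Ω) (h : ℤ × ℤ → Ω → ℝ) (B : ℝ)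
    (G : Geo ι β) (J : ℕ) (j : ℕ) (i : ι) (ω : Ω) : ℝ :=
  if j < J then h (G.site j i) ω - cc μ F h B G j i ω else 0

omit [Fintype ι] [Fintype β] [DecidableEq β] in
lemma rr_lt {G : Geo ι β} {J j : ℕ} (hj : j < J) :
    rr μ F h B G J j = fun i ω => h (G.site j i) ω - cc μ F h B G j i ω := by
  funext i ω
  simp [rr, hj]

omit [Fintype ι] [Fintype β] [DecidableEq β] in
lemma rr_ge {G : Geo ι β} {J j : ℕ} (hj : ¬ j < J) : rr μ F h B G J j = fun _ _ => 0 := by
  funext i ω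
  simp [rr, hj]

/-- The zero family has the Newman property. -/
lemma np_zero [IsProbabilityMeasure μ] {m : MeasurableSpace Ω} (hm : m ≤ mΩ) :
    NP μ m (fun (_ : ι) (_ : Ω) => (0 : ℝ)) := by
  refine CondAssoc.np (fun i => ⟨measurable_const, 0, by simp only [abs_zero, Std.le_refl, implies_true]⟩) ?_
  intro f g _ _ _ _
  have e1 : (μ[fun _ : Ω => f (fun _ => (0 : ℝ)) | m]) = fun _ => f (fun _ => 0) :=
    condExp_const hm _
  have e2 : (μ[fun _ : Ω => g (fun _ => (0 : ℝ)) | m]) = fun _ => g (fun _ => 0) :=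
    condExp_const hm _
  have e3 : (μ[fun _ : Ω => f (fun _ => (0 : ℝ)) * g (fun _ => (0 : ℝ)) | m]) =
      fun _ => f (fun _ => 0) * g (fun _ => 0) := condExp_const hm _
  rw [e1, e2, e3]

section

variable [IsProbabilityMeasure μ]

omit [Fintype ι] [Fintype β] [DecidableEq β] in
lemma nonneg_BK (R : Rows μ F h B lo hi) (G : Geo ι β) {J : ℕ} {T : ℤ} (W : G.In lo hi J T)
    {j : ℕ} (hj : j < J) (i : ι) : 0 ≤ B * G.K := by
  obtain ⟨ω⟩ : Nonempty Ω := by
    by_contra h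
    rw [not_nonempty_iff] at h
    have h1 := measure_univ (μ := μ)
    rw [Set.univ_eq_empty_iff.2 h, measure_empty] at h1
    exact zero_ne_one h1
  exact (abs_nonneg _).trans (R.lip_base G W hj i ω)

omit [Fintype ι] [Fintype β] [DecidableEq β] in
lemma cc_ae (R : Rows μ F h B lo hi) (G : Geo ι β) {J : ℕ} {T : ℤ} (W : G.In lo hi J T)
    {j : ℕ} (hj : j < J) (i : ι) :
    cc μ F h B G j i =ᵐ[μ] μ[h (G.site j i) | F (G.l j)] := by
  have hb := R.bm (G.base j i)
  have hs := R.bm (G.site j i)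
  have hbm : StronglyMeasurable[F (G.l j)] (h (G.base j i)) := (R.meas (G.base j i)).stronglyMeasurable
  have up : μ[h (G.site j i) | F (G.l j)] ≤ᵐ[μ] fun ω => h (G.base j i) ω + B * G.K := by
    have h1 : μ[h (G.site j i) | F (G.l j)] ≤ᵐ[μ]
        μ[fun ω => h (G.base j i) ω + B * G.K | F (G.l j)] := by
      refine condExp_mono hs.integrable (hb.integrable.add (integrable_const _)) ?_
      refine ae_of_all _ fun ω => ?_
      have := (abs_le.1 (R.lip_base G W hj i ω)).2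
      simp only
      linarith only [this]
    have e1 : μ[fun ω => h (G.base j i) ω + B * G.K | F (G.l j)] =
        fun ω => h (G.base j i) ω + B * G.K :=
      condExp_of_stronglyMeasurable (R.hF _) (hbm.add stronglyMeasurable_const)
        (hb.integrable.add (integrable_const _))
    rwa [e1] at h1
  have lo' : (fun ω => h (G.base j i) ω - B * G.K) ≤ᵐ[μ] μ[h (G.site j i) | F (G.l j)] := by
    have h1 : μ[fun ω => h (G.base j i) ω - B * G.K | F (G.l j)] ≤ᵐ[μ]
        μ[h (G.site j i) | F (G.l j)] := by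
      refine condExp_mono (hb.integrable.sub (integrable_const _)) hs.integrable ?_
      refine ae_of_all _ fun ω => ?_
      have := (abs_le.1 (R.lip_base G W hj i ω)).1
      simp only
      linarith only [this]
    have e1 : μ[fun ω => h (G.base j i) ω - B * G.K | F (G.l j)] =
        fun ω => h (G.base j i) ω - B * G.K :=
      condExp_of_stronglyMeasurable (R.hF _) (hbm.sub stronglyMeasurable_const)
        (hb.integrable.sub (integrable_const _))
    rwa [e1] at h1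
  filter_upwards [up, lo'] with ω h1 h2
  unfold cc
  rw [min_eq_right h1, max_eq_right h2]

omit [Fintype ι] [Fintype β] [DecidableEq β] in
lemma rr_ae (R : Rows μ F h B lo hi) (G : Geo ι β) {J : ℕ} {T : ℤ} (W : G.In lo hi J T)
    {j : ℕ} (hj : j < J) (i : ι) :
    rr μ F h B G J j i =ᵐ[μ] inn μ F h (G.l j) (G.site j i) := by
  rw [rr_lt hj]
  filter_upwards [cc_ae R G W hj i] with ω h1
  simp only [inn, h1]

omit [Fintype ι] [Fintype β] [DecidableEq β] [IsProbabilityMeasure μ] in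
lemma cc_meas (R : Rows μ F h B lo hi) (G : Geo ι β) (j : ℕ) (i : ι) :
    Measurable[F (G.l j)] (cc μ F h B G j i) := by
  have hbm : Measurable[F (G.l j)] (h (G.base j i)) := R.meas (G.base j i)
  have hc : Measurable[F (G.l j)] (μ[h (G.site j i) | F (G.l j)]) :=
    stronglyMeasurable_condExp.measurable
  exact (hbm.sub_const _).max ((hbm.add_const _).min hc)

omit [Fintype ι] [Fintype β] [DecidableEq β] in
lemma cc_dist (R : Rows μ F h B lo hi) (G : Geo ι β) {J : ℕ} {T : ℤ} (W : G.In lo hi J T)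
    {j : ℕ} (hj : j < J) (i : ι) (ω : Ω) :
    |h (G.base j i) ω - cc μ F h B G j i ω| ≤ B * G.K := by
  have h0 := nonneg_BK R G W hj i
  unfold cc
  rw [abs_le]
  constructor
  · have h1 : max (h (G.base j i) ω - B * G.K)
      (min (h (G.base j i) ω + B * G.K) ((μ[h (G.site j i) | F (G.l j)]) ω)) ≤
        h (G.base j i) ω + B * G.K :=
      max_le (by linarith only [h0]) (min_le_left _ _)
    linarith only [h1]
  · have h1 := le_max_left (h (G.base j i) ω - B * G.K)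
      (min (h (G.base j i) ω + B * G.K) ((μ[h (G.site j i) | F (G.l j)]) ω))
    linarith only [h1]

omit [Fintype ι] [Fintype β] [DecidableEq β] in
lemma rr_bound (R : Rows μ F h B lo hi) (G : Geo ι β) {J : ℕ} {T : ℤ} (W : G.In lo hi J T)
    (hB : 0 ≤ B) (j : ℕ) (i : ι) (ω : Ω) :
    |rr μ F h B G J j i ω| ≤ 2 * (B * G.K) := by
  by_cases hj : j < J
  · have h1 := R.lip_base G W hj i ω
    have h2 := cc_dist R G W hj i ω
    rw [rr_lt hj]
    calc |h (G.site j i) ω - cc μ F h B G j i ω|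
        = |(h (G.site j i) ω - h (G.base j i) ω) + (h (G.base j i) ω - cc μ F h B G j i ω)| := by
          congr 1
          ring
      _ ≤ B * G.K + B * G.K := (abs_add_le _ _).trans (add_le_add h1 h2)
      _ = 2 * (B * G.K) := by ring
  · rw [rr_ge hj]
    simp only [abs_zero]
    (clear * - hB; positivity)

omit [Fintype ι] [Fintype β] [DecidableEq β] in
lemma cc_bm (R : Rows μ F h B lo hi) (G : Geo ι β) {J : ℕ} {T : ℤ} (W : G.In lo hi J T)
    {j : ℕ} (hj : j < J) (i : ι) : BM (mΩ := mΩ) (cc μ F h B G j i) := by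
  obtain ⟨m1, C, hC⟩ := R.bm (G.base j i)
  refine ⟨(cc_meas R G j i).mono (R.hF _) le_rfl, C + B * G.K, fun ω => ?_⟩
  have h2 := cc_dist R G W hj i ω
  calc |cc μ F h B G j i ω|
      = |h (G.base j i) ω - (h (G.base j i) ω - cc μ F h B G j i ω)| := by congr 1; ring
    _ ≤ |h (G.base j i) ω| + |h (G.base j i) ω - cc μ F h B G j i ω| := abs_sub _ _
    _ ≤ C + B * G.K := add_le_add (hC ω) h2

omit [Fintype ι] [Fintype β] [DecidableEq β] in
lemma rr_bm (R : Rows μ F h B lo hi) (G : Geo ι β) {J : ℕ} {T : ℤ} (W : G.In lo hi J T)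
    (j : ℕ) (i : ι) : BM (mΩ := mΩ) (rr μ F h B G J j i) := by
  by_cases hj : j < J
  · rw [rr_lt hj]
    obtain ⟨m1, C, hC⟩ := R.bm (G.site j i)
    obtain ⟨m2, C', hC'⟩ := cc_bm R G W hj i
    exact ⟨m1.sub m2, C + C', fun ω => (abs_sub _ _).trans (add_le_add (hC ω) (hC' ω))⟩
  · rw [rr_ge hj]
    exact ⟨measurable_const, 0, by simp⟩

omit [Fintype β] [DecidableEq β] in
lemma rr_np (R : Rows μ F h B lo hi) (G : Geo ι β) {J : ℕ} {T : ℤ} (W : G.In lo hi J T)
    (hK : 0 < G.K) (j : ℕ) : NP μ (F (G.l j)) (rr μ F h B G J j) := by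
  by_cases hj : j < J
  · rw [rr_lt hj]
    obtain ⟨w1, w2, -⟩ := W.mid hj
    have h1 := R.np (G.l j) (G.site j) w1 (fun i => by
      refine ⟨?_, w2⟩
      show G.l j < G.l (j + 1)
      rw [G.l_succ]
      have : (0 : ℤ) < G.K := by exact_mod_cast hK
      linarith only [hK])
    exact h1.sub (R.hF _) (fun i => R.bm _) (fun i => cc_meas R G j i) (fun i => cc_bm R G W hj i)
  · rw [rr_ge hj]
    exact np_zero (R.hF _)

omit [Fintype ι] [Fintype β] [DecidableEq β] in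
lemma rr_centered (R : Rows μ F h B lo hi) (G : Geo ι β) {J : ℕ} {T : ℤ} (W : G.In lo hi J T)
    (j : ℕ) (i : ι) :
    μ[rr μ F h B G J j i | F (G.l j)] =ᵐ[μ] 0 := by
  by_cases hj : j < J
  · exact (condExp_congr_ae (rr_ae R G W hj i)).trans (R.condExp_inn _ _)
  · rw [rr_ge hj]
    exact (condExp_const (R.hF _) (0 : ℝ)).eventuallyEq

omit [Fintype ι] [Fintype β] [DecidableEq β] [IsProbabilityMeasure μ] in
lemma rr_meas (R : Rows μ F h B lo hi) (G : Geo ι β) (J : ℕ) (j : ℕ) (i : ι) :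
    Measurable[F (G.l (j + 1))] (rr μ F h B G J j i) := by
  by_cases hj : j < J
  · rw [rr_lt hj]
    have h1 : Measurable[F (G.l (j + 1))] (h (G.site j i)) := R.meas (G.site j i)
    exact h1.sub ((cc_meas R G j i).mono (R.mono (G.l_mono (Nat.le_succ j))) le_rfl)
  · rw [rr_ge hj]
    exact measurable_const

omit [Fintype ι] [Fintype β] [DecidableEq β] in
lemma int_rr_rr (R : Rows μ F h B lo hi) (G : Geo ι β) {J : ℕ} {T : ℤ} (W : G.In lo hi J T)
    {j : ℕ} (hj : j < J) (i i' : ι) :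
    ∫ ω, rr μ F h B G J j i ω * rr μ F h B G J j i' ω ∂μ =
      cr μ h (G.l j) (G.site j i) (G.site j i') := by
  rw [← R.int_inn_inn (G.l j) (G.site j i) (G.site j i') (W.site hj i) (W.site hj i')]
  refine integral_congr_ae ?_
  filter_upwards [rr_ae R G W hj i, rr_ae R G W hj i'] with ω h1 h2
  simp only [h1, h2]

end

end Vale.Agent.P153.Asm
end

section

/-!
# The strip inequality: main theorem
-/

namespace Vale.Agent.P153.Asm

open MeasureTheory Filter Finset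
open scoped Topology ENNReal
open Vale.Agent.P153.CLT

variable {Ω : Type*} {mΩ : MeasurableSpace Ω} {μ : Measure Ω}

/-- Covariance of innovations in terms of mean square differences. -/
noncomputable def crV (V : ℤ × ℤ → ℤ × ℤ → ℝ) (l : ℤ) (p q : ℤ × ℤ) : ℝ :=
  (V p (rho l q) - V p q) / 2

/-- Covariance of projected increments. -/
noncomputable def trV (V : ℤ × ℤ → ℤ × ℤ → ℝ) (l : ℤ) (p π q π' : ℤ × ℤ) : ℝ :=
  (V p π' + V π (rho l q) - V p (rho l q) - V π π') / 2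

/-- Covariance of increments. -/
noncomputable def ddV (V : ℤ × ℤ → ℤ × ℤ → ℝ) (p π q π' : ℤ × ℤ) : ℝ :=
  (V p π' + V π q - V p q - V π π') / 2

variable {ι β : Type} [Fintype ι] [Fintype β] [DecidableEq β]

/-- Mean square error of the innovation approximation. -/
noncomputable def err2 (V : ℤ × ℤ → ℤ × ℤ → ℝ) (G : Geo ι β) (A : Finset (ℤ × ℤ))
    (a : ℤ × ℤ → ℝ) (g : ℕ → ι → ℝ) (J : ℕ) : ℝ :=
  (-(1 / 2)) * ∑ w ∈ A, ∑ w' ∈ A, a w * a w' * V w w' -
  2 * ∑ j ∈ range J, ∑ i, g j i * ∑ w ∈ A,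
    (if G.l j < w.1 then a w * crV V (G.l j) w (G.site j i) else 0) +
  ∑ j ∈ range J, ∑ i, ∑ i', g j i * g j i' * crV V (G.l j) (G.site j i) (G.site j i')

/-- Covariances between different blocks. -/
noncomputable def vcross (V : ℤ × ℤ → ℤ × ℤ → ℝ) (G : Geo ι β) (g : ℕ → ι → ℝ) (J : ℕ) : ℝ :=
  ∑ j ∈ range J, ∑ i, ∑ i', if G.b i = G.b i' then 0 else
    |g j i| * |g j i'| * crV V (G.l j) (G.site j i) (G.site j i')

/-- Sum of the variances of the block sums. -/
noncomputable def vsq (V : ℤ × ℤ → ℤ × ℤ → ℝ) (G : Geo ι β) (g : ℕ → ι → ℝ) (J : ℕ) : ℝ :=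
  ∑ j ∈ range J, ∑ c : β, ∑ i ∈ sT G.b {c}, ∑ i' ∈ sT G.b {c},
    g j i * g j i' * crV V (G.l j) (G.site j i) (G.site j i')

/-- Sum of the second moments of the local block sums. -/
noncomputable def vloc (V : ℤ × ℤ → ℤ × ℤ → ℝ) (G : Geo ι β) (g : ℕ → ι → ℝ) (J : ℕ) : ℝ :=
  ∑ j ∈ range J, ∑ c : β, ∑ i ∈ sT G.b {c}, ∑ i' ∈ sT G.b {c},
    g j i * g j i' * ddV V (G.site j i) (G.base j i) (G.site j i') (G.base j i')

/-- Sum of the second moments of the differences. -/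
noncomputable def vdel (V : ℤ × ℤ → ℤ × ℤ → ℝ) (G : Geo ι β) (g : ℕ → ι → ℝ) (J : ℕ) : ℝ :=
  ∑ j ∈ range J, ∑ c : β, ∑ i ∈ sT G.b {c}, ∑ i' ∈ sT G.b {c},
    g j i * g j i' * trV V (G.l j) (G.site j i) (G.base j i) (G.site j i') (G.base j i')

/-- Local block sum. -/
def yloc (h : ℤ × ℤ → Ω → ℝ) (G : Geo ι β) (g : ℕ → ι → ℝ) (j : ℕ) (c : β) (ω : Ω) : ℝ :=
  ∑ i ∈ sT G.b {c}, g j i * (h (G.site j i) ω - h (G.base j i) ω)

/-- Deviation of the local squares. -/
noncomputable def dev (μ : Measure[mΩ] Ω) (h : ℤ × ℤ → Ω → ℝ) (G : Geo ι β) (g : ℕ → ι → ℝ)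
    (J : ℕ) (s : ℝ) : ℝ :=
  ∫ ω, |∑ j ∈ range J, ∑ c : β, yloc h G g j c ω ^ 2 - s| ∂μ

variable {F : ℤ → MeasurableSpace Ω} {h : ℤ × ℤ → Ω → ℝ} {B : ℝ} {lo hi : ℤ}

section

variable [IsProbabilityMeasure μ]

omit [Fintype ι] [Fintype β] [DecidableEq β] in
lemma rr_memLp (R : Rows μ F h B lo hi) (G : Geo ι β) {J : ℕ} {T : ℤ} (W : G.In lo hi J T)
    (j : ℕ) (i : ι) : MemLp (rr μ F h B G J j i) 2 μ :=
  (rr_bm R G W j i).memLp 2

omit [Fintype β] [DecidableEq β] in
/-- The error of the innovation approximation. -/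
lemma int_sq_XY (R : Rows μ F h B lo hi) (G : Geo ι β) {J : ℕ} {T : ℤ} (W : G.In lo hi J T)
    (A : Finset (ℤ × ℤ)) (hAT : ∀ w ∈ A, w.1 ≤ T) (a : ℤ × ℤ → ℝ)
    (ha : ∑ w ∈ A, a w = 0) (g : ℕ → ι → ℝ) :
    ∫ ω, (∑ w ∈ A, a w * h w ω - ∑ j ∈ range J, ∑ i, g j i * rr μ F h B G J j i ω) ^ 2 ∂μ =
      err2 (msd μ h) G A a g J := by
  classical
  -- reindex the innovations
  set X : Ω → ℝ := fun ω => ∑ w ∈ A, a w * h w ω with hX
  set Y : Ω → ℝ := fun ω => ∑ j ∈ range J, ∑ i, g j i * rr μ F h B G J j i ω with hY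
  have hY' : ∀ ω, Y ω = ∑ k ∈ range J ×ˢ (univ : Finset ι), g k.1 k.2 * rr μ F h B G J k.1 k.2 ω := by
    intro ω
    rw [hY, Finset.sum_product]
  have hmh : ∀ w ∈ A, MemLp (h w) 2 μ := fun w _ => (R.bm w).memLp 2
  have hmr : ∀ k ∈ range J ×ˢ (univ : Finset ι), MemLp (rr μ F h B G J k.1 k.2) 2 μ :=
    fun k _ => rr_memLp R G W k.1 k.2
  have hXm : MemLp X 2 μ := memLp_finsetSum _ fun w hw => (hmh w hw).const_mul (a w)
  have hYm : MemLp Y 2 μ := memLp_finsetSum _ fun j _ => memLp_finsetSum _ fun i _ =>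
    (rr_memLp R G W j i).const_mul (g j i)
  have e0 : (fun ω => (X ω - Y ω) ^ 2) = fun ω => X ω ^ 2 + (-2) * (X ω * Y ω) + Y ω ^ 2 := by
    funext ω
    ring
  have e1 : ∫ ω, (X ω - Y ω) ^ 2 ∂μ =
      ∫ ω, X ω ^ 2 ∂μ + (-2) * ∫ ω, X ω * Y ω ∂μ + ∫ ω, Y ω ^ 2 ∂μ := by
    rw [e0]
    exact int3 hXm.integrable_sq (hXm.integrable_mul hYm) hYm.integrable_sq (-2)
  -- the variance of X
  have vX : ∫ ω, X ω ^ 2 ∂μ = (-(1 / 2)) * ∑ w ∈ A, ∑ w' ∈ A, a w * a w' * msd μ h w w' := by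
    have h1 : ∫ ω, X ω ^ 2 ∂μ = ∑ w ∈ A, ∑ w' ∈ A, a w * a w' * ∫ ω, h w ω * h w' ω ∂μ := by
      rw [← int_sum_mul_sum A A a a h h hmh hmh]
      exact integral_congr_ae (ae_of_all _ fun ω => by simp only [hX]; ring)
    rw [h1]
    have h2 : ∀ w w', a w * a w' * ∫ ω, h w ω * h w' ω ∂μ =
        (a w * (∫ ω, h w ω ^ 2 ∂μ) / 2) * a w' + (a w) * (a w' * (∫ ω, h w' ω ^ 2 ∂μ) / 2) +
          (-(1 / 2)) * (a w * a w' * msd μ h w w') := by
      intro w w'
      rw [R.int_mul w w']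
      ring
    simp only [h2, Finset.sum_add_distrib, ← Finset.mul_sum, ha, mul_zero, Finset.sum_const_zero]
    rw [← Finset.sum_mul, ha]
    ring
  -- the covariance
  have cXY : ∫ ω, X ω * Y ω ∂μ = ∑ j ∈ range J, ∑ i, g j i * ∑ w ∈ A,
      (if G.l j < w.1 then a w * crV (msd μ h) (G.l j) w (G.site j i) else 0) := by
    have h1 : ∫ ω, X ω * Y ω ∂μ = ∑ w ∈ A, ∑ k ∈ range J ×ˢ (univ : Finset ι),
        a w * g k.1 k.2 * ∫ ω, h w ω * rr μ F h B G J k.1 k.2 ω ∂μ := by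
      rw [← int_sum_mul_sum A (range J ×ˢ (univ : Finset ι)) a (fun k => g k.1 k.2) h
        (fun k => rr μ F h B G J k.1 k.2) hmh hmr]
      refine integral_congr_ae (ae_of_all _ fun ω => ?_)
      simp only [hY' ω, hX]
    rw [h1, Finset.sum_comm, Finset.sum_product]
    refine Finset.sum_congr rfl fun j hj => Finset.sum_congr rfl fun i _ => ?_
    rw [Finset.mul_sum]
    refine Finset.sum_congr rfl fun w hwA => ?_
    rw [Finset.mem_range] at hj
    have h2 : ∫ ω, h w ω * rr μ F h B G J j i ω ∂μ =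
        ∫ ω, h w ω * inn μ F h (G.l j) (G.site j i) ω ∂μ := by
      refine integral_congr_ae ?_
      filter_upwards [rr_ae R G W hj i] with ω h1
      simp only [h1]
    simp only
    rw [h2]
    split_ifs with hw
    · rw [R.int_h_inn (G.l j) w (G.site j i) ((W.mid hj).2.2 w hw.le (hAT w hwA)) (W.site hj i)]
      unfold cr crV
      ring
    · rw [R.int_h_inn_zero (G.l j) w (G.site j i) (not_lt.1 hw)]
      ring
  -- the variance of Y
  have vY : ∫ ω, Y ω ^ 2 ∂μ = ∑ j ∈ range J, ∑ i, ∑ i', g j i * g j i' *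
      crV (msd μ h) (G.l j) (G.site j i) (G.site j i') := by
    have hDm : ∀ j, AEStronglyMeasurable[F (G.l (j + 1))] (fun ω => ∑ i, g j i * rr μ F h B G J j i ω)
        μ := fun j => (Finset.measurable_sum _ fun i _ =>
          (rr_meas R G J j i).const_mul _).stronglyMeasurable.aestronglyMeasurable
    have hD2 : ∀ j, MemLp (fun ω => ∑ i, g j i * rr μ F h B G J j i ω) 2 μ := fun j =>
      memLp_finsetSum _ fun i _ => (rr_memLp R G W j i).const_mul (g j i)
    have hD0 : ∀ j, μ[fun ω => ∑ i, g j i * rr μ F h B G J j i ω | F (G.l j)] =ᵐ[μ] 0 := by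
      intro j
      have e : (fun ω => ∑ i, g j i * rr μ F h B G J j i ω) =
          ∑ i, (g j i) • rr μ F h B G J j i := by
        funext ω
        simp only [Finset.sum_apply, Pi.smul_apply, smul_eq_mul]
      rw [e]
      have h1 := condExp_finsetSum (μ := μ) (s := (univ : Finset ι))
        (f := fun i => (g j i) • rr μ F h B G J j i)
        (fun i _ => ((rr_memLp R G W j i).integrable (by norm_num)).smul _) (F (G.l j))
      refine h1.trans ?_
      have h3 : ∀ᵐ ω ∂μ, ∀ i ∈ (univ : Finset ι),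
          (μ[(g j i) • rr μ F h B G J j i | F (G.l j)]) ω = 0 := by
        refine (Finset.eventually_all (univ : Finset ι) (l := ae μ)
          (p := fun i ω => (μ[(g j i) • rr μ F h B G J j i | F (G.l j)]) ω = 0)).2 (fun i _ => ?_)
        filter_upwards [condExp_smul (μ := μ) (g j i) (rr μ F h B G J j i) (F (G.l j)),
          rr_centered R G W j i] with ω a b
        rw [a, Pi.smul_apply, b]
        simp
      filter_upwards [h3] with ω h
      rw [Finset.sum_apply, Pi.zero_apply]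
      exact Finset.sum_eq_zero h
    obtain ⟨-, -, h1⟩ := mart_orth (μ := μ) (fun j => F (G.l j)) (fun j => R.hF _)
      (fun i j hij => R.mono (G.l_mono hij)) (fun j ω => ∑ i, g j i * rr μ F h B G J j i ω)
      hDm hD2 hD0 J
    rw [hY, h1]
    refine Finset.sum_congr rfl fun j hj => ?_
    rw [Finset.mem_range] at hj
    have h2 : ∫ ω, (∑ i, g j i * rr μ F h B G J j i ω) ^ 2 ∂μ =
        ∑ i, ∑ i', g j i * g j i' * ∫ ω, rr μ F h B G J j i ω * rr μ F h B G J j i' ω ∂μ := by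
      rw [← int_sum_mul_sum univ univ (g j) (g j) (rr μ F h B G J j) (rr μ F h B G J j)
        (fun i _ => rr_memLp R G W j i) (fun i _ => rr_memLp R G W j i)]
      exact integral_congr_ae (ae_of_all _ fun ω => by simp only; ring)
    rw [h2]
    refine Finset.sum_congr rfl fun i _ => Finset.sum_congr rfl fun i' _ => ?_
    rw [int_rr_rr R G W hj i i']
    rfl
  unfold err2
  rw [e1, vX, cXY, vY]
  ring

omit [Fintype β] in
lemma int_block_sq (R : Rows μ F h B lo hi) (G : Geo ι β) {J : ℕ} {T : ℤ} (W : G.In lo hi J T)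
    (g : ℕ → ι → ℝ) {j : ℕ} (hj : j < J) (c : β) :
    ∫ ω, lL (g j) (rr μ F h B G J j) (sT G.b {c}) ω ^ 2 ∂μ =
      ∑ i ∈ sT G.b {c}, ∑ i' ∈ sT G.b {c},
        g j i * g j i' * crV (msd μ h) (G.l j) (G.site j i) (G.site j i') := by
  have h2 : ∫ ω, lL (g j) (rr μ F h B G J j) (sT G.b {c}) ω ^ 2 ∂μ =
      ∑ i ∈ sT G.b {c}, ∑ i' ∈ sT G.b {c},
        g j i * g j i' * ∫ ω, rr μ F h B G J j i ω * rr μ F h B G J j i' ω ∂μ := by
    rw [← int_sum_mul_sum _ _ (g j) (g j) (rr μ F h B G J j) (rr μ F h B G J j)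
      (fun i _ => rr_memLp R G W j i) (fun i _ => rr_memLp R G W j i)]
    exact integral_congr_ae (ae_of_all _ fun ω => by simp only [lL]; ring)
  rw [h2]
  refine Finset.sum_congr rfl fun i _ => Finset.sum_congr rfl fun i' _ => ?_
  rw [int_rr_rr R G W hj i i']
  rfl

omit [Fintype β] in
lemma int_loc_sq (R : Rows μ F h B lo hi) (G : Geo ι β) (g : ℕ → ι → ℝ) (j : ℕ) (c : β) :
    ∫ ω, yloc h G g j c ω ^ 2 ∂μ =
      ∑ i ∈ sT G.b {c}, ∑ i' ∈ sT G.b {c},
        g j i * g j i' * ddV (msd μ h) (G.site j i) (G.base j i) (G.site j i') (G.base j i') := by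
  have hm : ∀ i : ι, MemLp (fun ω => h (G.site j i) ω - h (G.base j i) ω) 2 μ := fun i =>
    ((R.bm _).memLp 2).sub ((R.bm _).memLp 2)
  have h2 : ∫ ω, yloc h G g j c ω ^ 2 ∂μ =
      ∑ i ∈ sT G.b {c}, ∑ i' ∈ sT G.b {c}, g j i * g j i' *
        ∫ ω, (h (G.site j i) ω - h (G.base j i) ω) * (h (G.site j i') ω - h (G.base j i') ω) ∂μ := by
    rw [← int_sum_mul_sum _ _ (g j) (g j) (fun i ω => h (G.site j i) ω - h (G.base j i) ω)
      (fun i ω => h (G.site j i) ω - h (G.base j i) ω) (fun i _ => hm i) (fun i _ => hm i)]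
    exact integral_congr_ae (ae_of_all _ fun ω => by simp only [yloc]; ring)
  rw [h2]
  refine Finset.sum_congr rfl fun i _ => Finset.sum_congr rfl fun i' _ => ?_
  rw [R.int_diff]
  rfl

omit [Fintype β] in
lemma int_del_sq (R : Rows μ F h B lo hi) (G : Geo ι β) {J : ℕ} {T : ℤ} (W : G.In lo hi J T)
    (g : ℕ → ι → ℝ) {j : ℕ} (hj : j < J) (c : β) :
    ∫ ω, (lL (g j) (rr μ F h B G J j) (sT G.b {c}) ω - yloc h G g j c ω) ^ 2 ∂μ =
      ∑ i ∈ sT G.b {c}, ∑ i' ∈ sT G.b {c},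
        g j i * g j i' * trV (msd μ h) (G.l j) (G.site j i) (G.base j i) (G.site j i')
          (G.base j i') := by
  classical
  have hm : ∀ i : ι, MemLp (fun ω => (μ[h (G.site j i) | F (G.l j)]) ω - h (G.base j i) ω) 2 μ :=
    fun i => (R.memLp_condExp _ _).sub ((R.bm _).memLp 2)
  have e : (fun ω => (lL (g j) (rr μ F h B G J j) (sT G.b {c}) ω - yloc h G g j c ω) ^ 2) =ᵐ[μ]
      fun ω => (∑ i ∈ sT G.b {c}, g j i * ((μ[h (G.site j i) | F (G.l j)]) ω -
        h (G.base j i) ω)) * (∑ i ∈ sT G.b {c}, g j i * ((μ[h (G.site j i) | F (G.l j)]) ω -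
        h (G.base j i) ω)) := by
    have h1 : ∀ᵐ ω ∂μ, ∀ i : ι, cc μ F h B G j i ω = (μ[h (G.site j i) | F (G.l j)]) ω :=
      ae_all_iff.2 fun i => cc_ae R G W hj i
    filter_upwards [h1] with ω h1
    have e1 : lL (g j) (rr μ F h B G J j) (sT G.b {c}) ω - yloc h G g j c ω =
        -∑ i ∈ sT G.b {c}, g j i * ((μ[h (G.site j i) | F (G.l j)]) ω - h (G.base j i) ω) := by
      unfold lL yloc
      rw [← Finset.sum_sub_distrib, ← Finset.sum_neg_distrib]
      refine Finset.sum_congr rfl fun i _ => ?_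
      rw [rr_lt hj]
      simp only
      rw [h1 i]
      ring
    rw [e1]
    ring
  rw [integral_congr_ae e, int_sum_mul_sum _ _ (g j) (g j)
    (fun i ω => (μ[h (G.site j i) | F (G.l j)]) ω - h (G.base j i) ω)
    (fun i ω => (μ[h (G.site j i) | F (G.l j)]) ω - h (G.base j i) ω)
    (fun i _ => hm i) (fun i _ => hm i)]
  refine Finset.sum_congr rfl fun i _ => Finset.sum_congr rfl fun i' _ => ?_
  rw [R.int_proj (G.l j) (G.site j i) (G.base j i) (G.site j i') (G.base j i')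
    (W.site hj i) (W.site hj i') rfl rfl]
  rfl

end

end Vale.Agent.P153.Asm
end

section

/-!
# P153, two-point part: Riemann sums of continuous functions of compact support in the plane
-/

open MeasureTheory Filter Topology Set
open scoped ENNReal Real

namespace Vale.Agent.P153.TwoPt

variable {E : Type*} [NormedAddCommGroup E] [NormedSpace ℝ E] [CompleteSpace E]

/-- Integral of a step function with cells of size `α × β`. -/
theorem integral_step (α β : ℝ) (hα : 0 < α) (hβ : 0 < β) (s : Finset (ℤ × ℤ))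
    (g : ℤ × ℤ → E) (hg : ∀ p, p ∉ s → g p = 0) :
    ∫ z : ℝ × ℝ, g (⌊z.1 / α⌋, ⌊z.2 / β⌋) = (α * β) • ∑ p ∈ s, g p := by
  have key : ∀ z : ℝ × ℝ, g (⌊z.1 / α⌋, ⌊z.2 / β⌋) =
      ∑ p ∈ s, (Ico (p.1 * α) ((p.1 + 1) * α) ×ˢ Ico (p.2 * β) ((p.2 + 1) * β)).indicator
        (fun _ => g p) z := by
    intro z
    have hmem : ∀ p : ℤ × ℤ, z ∈ (Ico (p.1 * α) ((p.1 + 1) * α) ×ˢ
        Ico (p.2 * β) ((p.2 + 1) * β) : Set (ℝ × ℝ)) ↔ (⌊z.1 / α⌋, ⌊z.2 / β⌋) = p := by
      intro p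
      rw [Prod.ext_iff]
      simp only [mem_prod, mem_Ico]
      rw [Int.floor_eq_iff, Int.floor_eq_iff, le_div_iff₀ hα, div_lt_iff₀ hα, le_div_iff₀ hβ,
        div_lt_iff₀ hβ]
    by_cases hs : (⌊z.1 / α⌋, ⌊z.2 / β⌋) ∈ s
    · rw [Finset.sum_eq_single_of_mem _ hs]
      · rw [indicator_of_mem ((hmem _).2 rfl)]
      · intro p _ hp
        exact indicator_of_notMem (fun h => hp ((hmem p).1 h).symm) _
    · rw [hg _ hs, Finset.sum_eq_zero]
      intro p hp
      exact indicator_of_notMem (fun h => hs ((hmem p).1 h ▸ hp)) _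
  have hcell : ∀ p : ℤ × ℤ, volume (Ico ((p.1 : ℝ) * α) ((p.1 + 1) * α) ×ˢ
      Ico ((p.2 : ℝ) * β) ((p.2 + 1) * β) : Set (ℝ × ℝ)) = ENNReal.ofReal (α * β) := by
    intro p
    rw [Measure.volume_eq_prod, Measure.prod_prod, Real.volume_Ico, Real.volume_Ico,
      ← ENNReal.ofReal_mul (by linarith)]
    congr 1
    ring
  simp_rw [key]
  rw [integral_finsetSum]
  · rw [Finset.smul_sum]
    refine Finset.sum_congr rfl fun p _ => ?_
    rw [integral_indicator_const _ (measurableSet_Ico.prod measurableSet_Ico), measureReal_def,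
      hcell, ENNReal.toReal_ofReal (by positivity)]
  · intro p _
    refine (integrable_indicator_iff (measurableSet_Ico.prod measurableSet_Ico)).2 ?_
    refine integrableOn_const ?_ (by simp)
    rw [hcell]
    exact ENNReal.ofReal_ne_top

/-- Riemann sums in the plane. -/
theorem riemann2 (F : ℝ × ℝ → E) (hF : Continuous F) (hc : HasCompactSupport F)
    (α β : ℕ → ℝ) (hα : ∀ n, 0 < α n) (hβ : ∀ n, 0 < β n) (hα0 : Tendsto α atTop (𝓝 0))
    (hβ0 : Tendsto β atTop (𝓝 0)) (s : ℕ → Finset (ℤ × ℤ))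
    (hs : ∀ n, ∀ p : ℤ × ℤ, p ∉ s n → F (p.1 * α n, p.2 * β n) = 0) :
    Tendsto (fun n => (α n * β n) • ∑ p ∈ s n, F (p.1 * α n, p.2 * β n)) atTop
      (𝓝 (∫ z, F z)) := by
  have h1 : ∀ n, (α n * β n) • ∑ p ∈ s n, F (p.1 * α n, p.2 * β n) =
      ∫ z : ℝ × ℝ, F (⌊z.1 / α n⌋ * α n, ⌊z.2 / β n⌋ * β n) := by
    intro n
    rw [← integral_step (α n) (β n) (hα n) (hβ n) (s n)
      (fun p : ℤ × ℤ => F (p.1 * α n, p.2 * β n)) (hs n)]
  simp_rw [h1]
  obtain ⟨C, hC⟩ := hc.exists_bound_of_continuous hF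
  obtain ⟨R, hR⟩ := hc.isCompact.isBounded.subset_closedBall (0 : ℝ × ℝ)
  have hsup : ∀ z : ℝ × ℝ, R < ‖z‖ → F z = 0 := by
    intro z hz
    by_contra h
    have := hR (subset_tsupport _ (Function.mem_support.2 h))
    rw [mem_closedBall_zero_iff] at this
    linarith only [hz, this]
  have hfl : ∀ (a x : ℝ), 0 < a → |⌊x / a⌋ * a - x| ≤ a := by
    intro a x ha
    have h2 := Int.floor_le (x / a)
    have h3 := Int.lt_floor_add_one (x / a)
    rw [le_div_iff₀ ha] at h2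
    rw [div_lt_iff₀ ha] at h3
    rw [abs_le]
    constructor <;> nlinarith
  have hα1 : ∀ᶠ n in atTop, α n < 1 := hα0.eventually (gt_mem_nhds one_pos)
  have hβ1 : ∀ᶠ n in atTop, β n < 1 := hβ0.eventually (gt_mem_nhds one_pos)
  refine tendsto_integral_filter_of_dominated_convergence
    ((Metric.closedBall (0 : ℝ × ℝ) (R + 1)).indicator (fun _ => C)) ?_ ?_ ?_ ?_
  · refine Eventually.of_forall fun n => ?_
    refine StronglyMeasurable.aestronglyMeasurable ?_
    have hm : Measurable fun z : ℝ × ℝ => ((⌊z.1 / α n⌋, ⌊z.2 / β n⌋) : ℤ × ℤ) := by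
      fun_prop
    have hm2 : StronglyMeasurable fun p : ℤ × ℤ => F (p.1 * α n, p.2 * β n) :=
      StronglyMeasurable.of_discrete
    exact hm2.comp_measurable hm
  · filter_upwards [hα1, hβ1] with n hn1 hn2
    refine Eventually.of_forall fun z => ?_
    by_cases hz : z ∈ Metric.closedBall (0 : ℝ × ℝ) (R + 1)
    · rw [indicator_of_mem hz]
      exact hC _
    · rw [indicator_of_notMem hz]
      rw [mem_closedBall_zero_iff, not_le] at hz
      have h4 : R < ‖((⌊z.1 / α n⌋ * α n, ⌊z.2 / β n⌋ * β n) : ℝ × ℝ)‖ := by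
        have h5 : ‖((⌊z.1 / α n⌋ * α n, ⌊z.2 / β n⌋ * β n) : ℝ × ℝ) - z‖ ≤ 1 := by
          rw [Prod.norm_def]
          refine max_le ?_ ?_
          · exact (hfl _ _ (hα n)).trans hn1.le
          · exact (hfl _ _ (hβ n)).trans hn2.le
        have h6 := norm_sub_norm_le z ((⌊z.1 / α n⌋ * α n, ⌊z.2 / β n⌋ * β n) : ℝ × ℝ)
        rw [norm_sub_rev] at h6
        linarith
      rw [hsup _ h4, norm_zero]
  · exact (integrable_indicator_iff measurableSet_closedBall).2
      (integrableOn_const (measure_closedBall_lt_top.ne) (by simp))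
  · refine Eventually.of_forall fun z => ?_
    refine (hF.tendsto z).comp ?_
    refine Tendsto.prodMk_nhds ?_ ?_
    · refine tendsto_iff_norm_sub_tendsto_zero.2 ?_
      refine squeeze_zero (fun n => norm_nonneg _) (fun n => hfl _ _ (hα n)) hα0
    · refine tendsto_iff_norm_sub_tendsto_zero.2 ?_
      refine squeeze_zero (fun n => norm_nonneg _) (fun n => hfl _ _ (hβ n)) hβ0

end Vale.Agent.P153.TwoPt
end

section

/-!
# P153, block D3: sums of local squares tend to a constant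

`D i x` is the (bounded) increment of the height over one block of rows, `W i c` the square of the
increment summed over a block of `l` sites.  If the block squares have the same mean and
decorrelate along each row, then the weighted sums of squares converge to a constant.
-/

namespace Vale.Agent.P153.CLT

open MeasureTheory Filter Finset
open scoped Topology ENNReal

variable {Ω : Type*} {mΩ : MeasurableSpace Ω} {μ : Measure Ω}

/-- Second moment of a weighted average along one row. -/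
lemma row_second_moment [IsProbabilityMeasure μ] (W : ℤ → Ω → ℝ) (hWm : ∀ c, Measurable (W c))
    {B : ℝ} (hWb : ∀ c ω, |W c ω| ≤ B) {w : ℝ} (hw : ∀ c, ∫ ω, W c ω ∂μ = w) {ε : ℝ}
    (hε : 0 ≤ ε) {R : ℕ}
    (hdec : ∀ c c' : ℤ, (R : ℤ) ≤ |c - c'| → ∫ ω, W c ω * W c' ω ∂μ ≤ w ^ 2 + ε)
    (C : Finset ℤ) (a : ℤ → ℝ) {α : ℝ} (ha0 : ∀ c, 0 ≤ a c) (ha : ∀ c, a c ≤ α) :
    ∫ ω, (∑ c ∈ C, a c * (W c ω - w)) ^ 2 ∂μ ≤
      α ^ 2 * (C.card * (2 * R + 1) * B ^ 2 + ε * C.card ^ 2) := by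
  have hα : 0 ≤ α := (ha0 0).trans (ha 0)
  have hint : ∀ c, Integrable (W c) μ := fun c =>
    Integrable.of_bound (hWm c).aestronglyMeasurable B (ae_of_all _ (hWb c))
  have hB : 0 ≤ B := by
    obtain ⟨ω0⟩ : Nonempty Ω := by
      by_contra h
      rw [not_nonempty_iff] at h
      have h1 := measure_univ (μ := μ)
      rw [Set.univ_eq_empty_iff.2 h, measure_empty] at h1
      exact zero_ne_one h1
    exact (abs_nonneg _).trans (hWb 0 ω0)
  have hint2 : ∀ c c', Integrable (fun ω => W c ω * W c' ω) μ := fun c c' =>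
    Integrable.of_bound ((hWm c).mul (hWm c')).aestronglyMeasurable (B * B)
      (ae_of_all _ fun ω => by
        rw [Real.norm_eq_abs, abs_mul]
        exact mul_le_mul (hWb c ω) (hWb c' ω) (abs_nonneg _) hB)
  have hcov : ∀ c c', ∫ ω, (W c ω - w) * (W c' ω - w) ∂μ = ∫ ω, W c ω * W c' ω ∂μ - w ^ 2 := by
    intro c c'
    have e : (fun ω => (W c ω - w) * (W c' ω - w)) =
        fun ω => W c ω * W c' ω - (w * W c ω + w * W c' ω) + w ^ 2 := by
      funext ω; ring
    have i1 : Integrable (fun ω => w * W c ω + w * W c' ω) μ :=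
      ((hint c).const_mul w).add ((hint c').const_mul w)
    have i2 : Integrable (fun ω => W c ω * W c' ω - (w * W c ω + w * W c' ω)) μ :=
      (hint2 c c').sub i1
    have e3 : ∫ ω, (W c ω * W c' ω - (w * W c ω + w * W c' ω) + w ^ 2) ∂μ =
        ∫ ω, (W c ω * W c' ω - (w * W c ω + w * W c' ω)) ∂μ + ∫ _ω, w ^ 2 ∂μ :=
      integral_add i2 (integrable_const _)
    have e4 : ∫ ω, (W c ω * W c' ω - (w * W c ω + w * W c' ω)) ∂μ =
        ∫ ω, W c ω * W c' ω ∂μ - ∫ ω, (w * W c ω + w * W c' ω) ∂μ :=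
      integral_sub (hint2 c c') i1
    have e5 : ∫ ω, (w * W c ω + w * W c' ω) ∂μ = ∫ ω, w * W c ω ∂μ + ∫ ω, w * W c' ω ∂μ :=
      integral_add ((hint c).const_mul w) ((hint c').const_mul w)
    rw [e, e3, e4, e5, integral_const_mul, integral_const_mul, hw, hw, integral_const]
    simp only [probReal_univ, smul_eq_mul, one_mul]
    ring
  have hint3 : ∀ c c', Integrable (fun ω => (W c ω - w) * (W c' ω - w)) μ := by
    intro c c'
    have e : (fun ω => (W c ω - w) * (W c' ω - w)) =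
        fun ω => W c ω * W c' ω - (w * W c ω + w * W c' ω) + w ^ 2 := by
      funext ω; ring
    rw [e]
    exact ((hint2 c c').sub (((hint c).const_mul w).add ((hint c').const_mul w))).add
      (integrable_const _)
  have e1 : ∫ ω, (∑ c ∈ C, a c * (W c ω - w)) ^ 2 ∂μ =
      ∑ c ∈ C, ∑ c' ∈ C, a c * a c' * (∫ ω, W c ω * W c' ω ∂μ - w ^ 2) := by
    have e2 : (fun ω => (∑ c ∈ C, a c * (W c ω - w)) ^ 2) =
        fun ω => ∑ c ∈ C, ∑ c' ∈ C, a c * a c' * ((W c ω - w) * (W c' ω - w)) := by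
      funext ω
      rw [sq, Finset.sum_mul_sum]
      refine Finset.sum_congr rfl fun c _ => Finset.sum_congr rfl fun c' _ => ?_
      ring
    rw [e2, integral_finsetSum _ fun c _ => integrable_finsetSum _ fun c' _ =>
      (hint3 c c').const_mul _]
    refine Finset.sum_congr rfl fun c _ => ?_
    rw [integral_finsetSum _ fun c' _ => (hint3 c c').const_mul _]
    refine Finset.sum_congr rfl fun c' _ => ?_
    rw [integral_const_mul, hcov]
  rw [e1]
  have hb : ∀ c c', ∫ ω, W c ω * W c' ω ∂μ - w ^ 2 ≤ B ^ 2 := by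
    intro c c'
    have h1 : ∫ ω, W c ω * W c' ω ∂μ ≤ ∫ _ω, B ^ 2 ∂μ := by
      refine integral_mono (hint2 c c') (integrable_const _) fun ω => ?_
      have h2 := mul_le_mul (hWb c ω) (hWb c' ω) (abs_nonneg _) hB
      calc W c ω * W c' ω ≤ |W c ω * W c' ω| := le_abs_self _
        _ = |W c ω| * |W c' ω| := abs_mul _ _
        _ ≤ B * B := h2
        _ = B ^ 2 := (sq B).symm
    rw [integral_const] at h1
    simp at h1
    nlinarith only [h1]
  have hrow : ∀ c ∈ C, ∑ c' ∈ C, a c * a c' * (∫ ω, W c ω * W c' ω ∂μ - w ^ 2) ≤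
      α ^ 2 * ((2 * R + 1) * B ^ 2 + ε * C.card) := by
    intro c hc
    have h1 : ∀ c' ∈ C, a c * a c' * (∫ ω, W c ω * W c' ω ∂μ - w ^ 2) ≤
        (if c' ∈ Finset.Icc (c - R) (c + R) then α ^ 2 * B ^ 2 else 0) + α ^ 2 * ε := by
      intro c' _
      have haa : 0 ≤ a c * a c' := mul_nonneg (ha0 _) (ha0 _)
      have haa2 : a c * a c' ≤ α ^ 2 := by
        rw [sq]; exact mul_le_mul (ha _) (ha _) (ha0 _) hα
      split_ifs with hcc
      · have h3 : a c * a c' * (∫ ω, W c ω * W c' ω ∂μ - w ^ 2) ≤ a c * a c' * B ^ 2 :=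
          mul_le_mul_of_nonneg_left (hb c c') haa
        have h4 : a c * a c' * B ^ 2 ≤ α ^ 2 * B ^ 2 :=
          mul_le_mul_of_nonneg_right haa2 (sq_nonneg _)
        have h5 : 0 ≤ α ^ 2 * ε := mul_nonneg (sq_nonneg _) hε
        linarith only [h3, h4, h5]
      · have h6 : (R : ℤ) ≤ |c - c'| := by
          by_contra h7
          rw [not_le, abs_lt] at h7
          exact hcc (Finset.mem_Icc.2 ⟨by linarith only [h7], by linarith⟩)
        have h8 : ∫ ω, W c ω * W c' ω ∂μ - w ^ 2 ≤ ε := by linarith only [hdec c c' h6]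
        calc a c * a c' * (∫ ω, W c ω * W c' ω ∂μ - w ^ 2) ≤ a c * a c' * ε :=
              mul_le_mul_of_nonneg_left h8 haa
          _ ≤ α ^ 2 * ε := mul_le_mul_of_nonneg_right haa2 hε
          _ = 0 + α ^ 2 * ε := by ring
    refine (Finset.sum_le_sum h1).trans ?_
    rw [Finset.sum_add_distrib, Finset.sum_const, ← Finset.sum_filter, Finset.sum_const]
    have h9 : ((C.filter fun c' => c' ∈ Finset.Icc (c - R) (c + R)).card : ℝ) ≤ 2 * R + 1 := by
      have h10 : (C.filter fun c' => c' ∈ Finset.Icc (c - R) (c + R)) ⊆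
          Finset.Icc (c - R) (c + R) := fun x hx => (Finset.mem_filter.1 hx).2
      have h11 := Finset.card_le_card h10
      rw [Int.card_Icc] at h11
      have h12 : (c + R + 1 - (c - R)).toNat = 2 * R + 1 := by
        have : c + R + 1 - (c - R) = ((2 * R + 1 : ℕ) : ℤ) := by push_cast; ring
        rw [this, Int.toNat_natCast]
      rw [h12] at h11
      exact_mod_cast h11
    rw [nsmul_eq_mul, nsmul_eq_mul]
    have h13 : 0 ≤ α ^ 2 * B ^ 2 := by (clear * -; positivity)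
    nlinarith only [h9, h13]
  refine (Finset.sum_le_sum hrow).trans ?_
  rw [Finset.sum_const, nsmul_eq_mul]
  refine le_of_eq ?_
  ring

lemma nonempty_of_prob [IsProbabilityMeasure μ] : Nonempty Ω := by
  by_contra h
  rw [not_nonempty_iff] at h
  have h1 := measure_univ (μ := μ)
  rw [Set.univ_eq_empty_iff.2 h, measure_empty] at h1
  exact zero_ne_one h1

/-- The sum over a block of `l` sites. -/
noncomputable def blk (D : ℤ → ℤ → Ω → ℝ) (l : ℕ) (i c : ℤ) (ω : Ω) : ℝ :=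
  ∑ x ∈ Finset.Ico (c * l) (c * l + l), D i x ω

/-- Weighted squares of block sums: explicit bound. `p i x` are the weights of the sites, `q i c`
those of the blocks. -/
theorem loc_bound [IsProbabilityMeasure μ] (D : ℤ → ℤ → Ω → ℝ) (hDm : ∀ i x, Measurable (D i x))
    {A : ℝ} (hDb : ∀ i x ω, |D i x ω| ≤ A) (l : ℕ) {w : ℝ}
    (hw : ∀ i c : ℤ, ∫ ω, (blk D l i c ω) ^ 2 ∂μ = w) {ε : ℝ} (hε : 0 ≤ ε) {R : ℕ}
    (hdec : ∀ i c c' : ℤ, (R : ℤ) ≤ |c - c'| →
      ∫ ω, (blk D l i c ω) ^ 2 * (blk D l i c' ω) ^ 2 ∂μ ≤ w ^ 2 + ε)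
    (p q : ℤ → ℤ → ℝ) {η P : ℝ} (hp : ∀ i x, |p i x| ≤ P) (hq : ∀ i c, |q i c| ≤ P)
    (hpq : ∀ i c : ℤ, ∀ x ∈ Finset.Ico (c * l) (c * l + l), |p i x - q i c| ≤ η)
    (I C : Finset ℤ) (s : ℝ) :
    ∫ ω, |∑ i ∈ I, ∑ c ∈ C, (∑ x ∈ Finset.Ico (c * l) (c * l + l), p i x * D i x ω) ^ 2 - s| ∂μ ≤
      I.card * (C.card * (2 * (l * A) ^ 2 * P * η)) +
      I.card * Real.sqrt ((P ^ 2) ^ 2 * (C.card * (2 * R + 1) * ((l * A) ^ 2) ^ 2 +
        ε * C.card ^ 2)) +
      |∑ i ∈ I, ∑ c ∈ C, q i c ^ 2 * w - s| := by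
  obtain ⟨ω0⟩ := nonempty_of_prob (μ := μ)
  have hA : 0 ≤ A := (abs_nonneg _).trans (hDb 0 0 ω0)
  have hP : 0 ≤ P := (abs_nonneg _).trans (hp 0 0)
  have hcard : ∀ c : ℤ, (Finset.Ico (c * l) (c * l + l)).card = l := by
    intro c
    rw [Int.card_Ico]
    simp only [add_sub_cancel_left, Int.toNat_natCast]
  have hblkm : ∀ i c, Measurable (blk D l i c) := fun i c =>
    Finset.measurable_sum _ fun x _ => hDm i x
  have hblk : ∀ i c ω, |blk D l i c ω| ≤ l * A := by
    intro i c ω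
    refine (Finset.abs_sum_le_sum_abs _ _).trans ?_
    refine (Finset.sum_le_sum fun x _ => hDb i x ω).trans ?_
    rw [Finset.sum_const, hcard, nsmul_eq_mul]
  have hWb : ∀ i c ω, |(blk D l i c ω) ^ 2| ≤ (l * A) ^ 2 := by
    intro i c ω
    rw [abs_pow]
    exact pow_le_pow_left₀ (abs_nonneg _) (hblk i c ω) 2
  -- the block with the exact weights
  set U : ℤ → ℤ → Ω → ℝ := fun i c ω =>
    ∑ x ∈ Finset.Ico (c * l) (c * l + l), p i x * D i x ω with hU
  have hUm : ∀ i c, Measurable (U i c) := fun i c =>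
    Finset.measurable_sum _ fun x _ => (hDm i x).const_mul _
  have hUb : ∀ i c ω, |U i c ω| ≤ l * A * P := by
    intro i c ω
    refine (Finset.abs_sum_le_sum_abs _ _).trans ?_
    refine (Finset.sum_le_sum (g := fun _ => A * P) fun x _ => ?_).trans ?_
    · rw [abs_mul, mul_comm]
      exact mul_le_mul (hDb i x ω) (hp i x) (abs_nonneg _) hA
    · rw [Finset.sum_const, hcard, nsmul_eq_mul]
      exact le_of_eq (by ring)
  have hdiff : ∀ i c ω, |U i c ω - q i c * blk D l i c ω| ≤ l * A * η := by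
    intro i c ω
    have e : U i c ω - q i c * blk D l i c ω =
        ∑ x ∈ Finset.Ico (c * l) (c * l + l), (p i x - q i c) * D i x ω := by
      rw [hU, blk, Finset.mul_sum, ← Finset.sum_sub_distrib]
      exact Finset.sum_congr rfl fun x _ => by ring
    rw [e]
    refine (Finset.abs_sum_le_sum_abs _ _).trans ?_
    refine (Finset.sum_le_sum (g := fun _ => η * A) fun x hx => ?_).trans ?_
    · rw [abs_mul]
      exact mul_le_mul (hpq i c x hx) (hDb i x ω) (abs_nonneg _)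
        ((abs_nonneg _).trans (hpq i c x hx))
    · rw [Finset.sum_const, hcard, nsmul_eq_mul]
      exact le_of_eq (by ring)
  have hsq : ∀ i c ω, |U i c ω ^ 2 - q i c ^ 2 * (blk D l i c ω) ^ 2| ≤
      2 * (l * A) ^ 2 * P * η := by
    intro i c ω
    have e : U i c ω ^ 2 - q i c ^ 2 * (blk D l i c ω) ^ 2 =
        (U i c ω - q i c * blk D l i c ω) * (U i c ω + q i c * blk D l i c ω) := by ring
    rw [e, abs_mul]
    have h1 : |U i c ω + q i c * blk D l i c ω| ≤ 2 * (l * A * P) := by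
      refine (abs_add_le _ _).trans ?_
      have h2 : |q i c * blk D l i c ω| ≤ l * A * P := by
        rw [abs_mul, mul_comm]
        exact mul_le_mul (hblk i c ω) (hq i c) (abs_nonneg _) (by (clear * - hA; positivity))
      linarith only [h2, hUb i c ω]
    have h3 := mul_le_mul (hdiff i c ω) h1 (abs_nonneg _)
      ((abs_nonneg _).trans (hdiff i c ω))
    refine h3.trans (le_of_eq ?_)
    ring
  -- integrability
  have hWi : ∀ i c, Integrable (fun ω => (blk D l i c ω) ^ 2) μ := fun i c =>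
    Integrable.of_bound ((hblkm i c).pow_const 2).aestronglyMeasurable _ (ae_of_all _ (hWb i c))
  have hrowi : ∀ i, Integrable (fun ω => ∑ c ∈ C, q i c ^ 2 * ((blk D l i c ω) ^ 2 - w)) μ :=
    fun i => integrable_finsetSum _ fun c _ => ((hWi i c).sub (integrable_const _)).const_mul _
  have hrow2 : ∀ i, MemLp (fun ω => ∑ c ∈ C, q i c ^ 2 * ((blk D l i c ω) ^ 2 - w)) 2 μ := by
    intro i
    refine memLp_finsetSum _ fun c _ => ?_
    refine MemLp.const_mul ?_ _
    refine MemLp.sub ?_ (memLp_const _)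
    exact MemLp.of_bound ((hblkm i c).pow_const 2).aestronglyMeasurable _ (ae_of_all _ (hWb i c))
  have hpt : ∀ ω, |∑ i ∈ I, ∑ c ∈ C, U i c ω ^ 2 - s| ≤
      I.card * (C.card * (2 * (l * A) ^ 2 * P * η)) +
      ∑ i ∈ I, |∑ c ∈ C, q i c ^ 2 * ((blk D l i c ω) ^ 2 - w)| +
      |∑ i ∈ I, ∑ c ∈ C, q i c ^ 2 * w - s| := by
    intro ω
    have e : ∑ i ∈ I, ∑ c ∈ C, U i c ω ^ 2 - s =
        ∑ i ∈ I, ∑ c ∈ C, (U i c ω ^ 2 - q i c ^ 2 * (blk D l i c ω) ^ 2) +
        ∑ i ∈ I, ∑ c ∈ C, q i c ^ 2 * ((blk D l i c ω) ^ 2 - w) +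
        (∑ i ∈ I, ∑ c ∈ C, q i c ^ 2 * w - s) := by
      simp only [mul_sub, Finset.sum_sub_distrib]
      ring
    rw [e]
    refine (abs_add_le _ _).trans (add_le_add ?_ le_rfl)
    refine (abs_add_le _ _).trans (add_le_add ?_ (Finset.abs_sum_le_sum_abs _ _))
    refine (Finset.abs_sum_le_sum_abs _ _).trans ?_
    have h1 : ∀ i ∈ I, |∑ c ∈ C, (U i c ω ^ 2 - q i c ^ 2 * (blk D l i c ω) ^ 2)| ≤
        C.card * (2 * (l * A) ^ 2 * P * η) := by
      intro i _
      refine (Finset.abs_sum_le_sum_abs _ _).trans ?_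
      refine (Finset.sum_le_sum fun c _ => hsq i c ω).trans ?_
      rw [Finset.sum_const, nsmul_eq_mul]
    refine (Finset.sum_le_sum h1).trans ?_
    rw [Finset.sum_const, nsmul_eq_mul]
  have hrowb : ∀ i, ∫ ω, |∑ c ∈ C, q i c ^ 2 * ((blk D l i c ω) ^ 2 - w)| ∂μ ≤
      Real.sqrt ((P ^ 2) ^ 2 * (C.card * (2 * R + 1) * ((l * A) ^ 2) ^ 2 + ε * C.card ^ 2)) := by
    intro i
    refine integral_abs_le_sqrt (hrow2 i) ?_
    refine row_second_moment (fun c ω => (blk D l i c ω) ^ 2) (fun c => (hblkm i c).pow_const 2)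
      (hWb i) (hw i) hε (hdec i) C (fun c => q i c ^ 2) (fun c => sq_nonneg _) fun c => ?_
    rw [← sq_abs]
    exact pow_le_pow_left₀ (abs_nonneg _) (hq i c) 2
  have hUi : Integrable (fun ω => |∑ i ∈ I, ∑ c ∈ C, U i c ω ^ 2 - s|) μ := by
    refine (Integrable.sub ?_ (integrable_const s)).abs
    refine integrable_finsetSum _ fun i _ => integrable_finsetSum _ fun c _ => ?_
    refine Integrable.of_bound ((hUm i c).pow_const 2).aestronglyMeasurable ((l * A * P) ^ 2)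
      (ae_of_all _ fun ω => ?_)
    rw [Real.norm_eq_abs, abs_pow]
    exact pow_le_pow_left₀ (abs_nonneg _) (hUb i c ω) 2
  have i1 : Integrable (fun ω => ∑ i ∈ I, |∑ c ∈ C, q i c ^ 2 * ((blk D l i c ω) ^ 2 - w)|) μ :=
    integrable_finsetSum _ fun i _ => (hrowi i).abs
  calc ∫ ω, |∑ i ∈ I, ∑ c ∈ C, U i c ω ^ 2 - s| ∂μ
      ≤ ∫ ω, (I.card * (C.card * (2 * (l * A) ^ 2 * P * η)) +
          ∑ i ∈ I, |∑ c ∈ C, q i c ^ 2 * ((blk D l i c ω) ^ 2 - w)| +
          |∑ i ∈ I, ∑ c ∈ C, q i c ^ 2 * w - s|) ∂μ :=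
        integral_mono hUi (((integrable_const _).add i1).add (integrable_const _)) hpt
    _ = I.card * (C.card * (2 * (l * A) ^ 2 * P * η)) +
          ∑ i ∈ I, ∫ ω, |∑ c ∈ C, q i c ^ 2 * ((blk D l i c ω) ^ 2 - w)| ∂μ +
          |∑ i ∈ I, ∑ c ∈ C, q i c ^ 2 * w - s| := by
        have e1 : ∫ ω, (I.card * (C.card * (2 * (l * A) ^ 2 * P * η)) +
            ∑ i ∈ I, |∑ c ∈ C, q i c ^ 2 * ((blk D l i c ω) ^ 2 - w)| +
            |∑ i ∈ I, ∑ c ∈ C, q i c ^ 2 * w - s|) ∂μ =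
            ∫ ω, (I.card * (C.card * (2 * (l * A) ^ 2 * P * η)) +
            ∑ i ∈ I, |∑ c ∈ C, q i c ^ 2 * ((blk D l i c ω) ^ 2 - w)|) ∂μ +
            ∫ _ω, |∑ i ∈ I, ∑ c ∈ C, q i c ^ 2 * w - s| ∂μ :=
          integral_add ((integrable_const _).add i1) (integrable_const _)
        have e2 : ∫ ω, (I.card * (C.card * (2 * (l * A) ^ 2 * P * η)) +
            ∑ i ∈ I, |∑ c ∈ C, q i c ^ 2 * ((blk D l i c ω) ^ 2 - w)|) ∂μ =
            ∫ _ω, (I.card * (C.card * (2 * (l * A) ^ 2 * P * η)) : ℝ) ∂μ +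
            ∫ ω, ∑ i ∈ I, |∑ c ∈ C, q i c ^ 2 * ((blk D l i c ω) ^ 2 - w)| ∂μ :=
          integral_add (integrable_const _) i1
        rw [e1, e2, integral_finsetSum _ fun i _ => (hrowi i).abs, integral_const,
          integral_const]
        simp only [probReal_univ, smul_eq_mul, one_mul]
    _ ≤ _ := by
        refine add_le_add (add_le_add le_rfl ?_) le_rfl
        refine (Finset.sum_le_sum fun i _ => hrowb i).trans ?_
        rw [Finset.sum_const, nsmul_eq_mul]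

/-- The deterministic sum of the local means. -/
lemma riemann_sq (l K : ℕ) (hl : 0 < l) (hK : 0 < K) (w : ℝ)
    (g : ℝ × ℝ → ℝ) (hg : Continuous g) (hgc : HasCompactSupport g)
    (L : ℕ → ℝ) (hL0 : ∀ n, 0 < L n) (hL : Tendsto L atTop atTop)
    (I C : ℕ → Finset ℤ)
    (hI : ∀ n, ∀ i : ℤ, i ∉ I n → ∀ y : ℝ, g ((i : ℝ) * K / L n, y) = 0)
    (hC : ∀ n, ∀ c : ℤ, c ∉ C n → ∀ t : ℝ, g (t, (c : ℝ) * l / L n) = 0) :
    Tendsto (fun n => ∑ i ∈ I n, ∑ c ∈ C n,
      ((L n)⁻¹ * g ((i : ℝ) * K / L n, (c : ℝ) * l / L n)) ^ 2 * w) atTop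
      (𝓝 (w / (K * l) * ∫ z, g z ^ 2)) := by
  have hl' : (0 : ℝ) < l := by exact_mod_cast hl
  have hK' : (0 : ℝ) < K := by exact_mod_cast hK
  have hα0 : Tendsto (fun n => (K : ℝ) / L n) atTop (𝓝 0) :=
    Tendsto.div_atTop tendsto_const_nhds hL
  have hβ0 : Tendsto (fun n => (l : ℝ) / L n) atTop (𝓝 0) :=
    Tendsto.div_atTop tendsto_const_nhds hL
  have hr := TwoPt.riemann2 (fun z => g z ^ 2) (hg.pow 2)
    (by
      refine hgc.comp_left (g := fun y : ℝ => y ^ 2) ?_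
      simp)
    (fun n => (K : ℝ) / L n) (fun n => (l : ℝ) / L n) (fun n => div_pos hK' (hL0 n))
    (fun n => div_pos hl' (hL0 n)) hα0 hβ0 (fun n => I n ×ˢ C n) (by
      intro n z hz
      have e1 : (z.1 : ℝ) * ((K : ℝ) / L n) = (z.1 : ℝ) * K / L n := by ring
      have e2 : (z.2 : ℝ) * ((l : ℝ) / L n) = (z.2 : ℝ) * l / L n := by ring
      simp only [e1, e2]
      rw [Finset.mem_product, not_and_or] at hz
      rcases hz with hz | hz
      · rw [hI n z.1 hz]; simp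
      · rw [hC n z.2 hz]; simp)
  have hr2 := hr.const_mul (w / (K * l))
  refine hr2.congr fun n => ?_
  rw [Finset.sum_product, smul_eq_mul, Finset.mul_sum, Finset.mul_sum]
  refine Finset.sum_congr rfl fun i _ => ?_
  rw [Finset.mul_sum, Finset.mul_sum]
  refine Finset.sum_congr rfl fun c _ => ?_
  have e1 : (i : ℝ) * ((K : ℝ) / L n) = (i : ℝ) * K / L n := by ring
  have e2 : (c : ℝ) * ((l : ℝ) / L n) = (c : ℝ) * l / L n := by ring
  rw [e1, e2]
  have h0 := (hL0 n).ne'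
  (clear * - hK hl h0; field_simp)

lemma term1_le {nI nC L M lA G e η : ℝ} (hL : 0 < L) (hM : 0 ≤ M) (hG : 0 ≤ G) (he : 0 < e)
    (hnI : nI ≤ M * L) (hnC0 : 0 ≤ nC) (hnC : nC ≤ M * L)
    (hη : η = e / (4 * (4 * M ^ 2 * lA ^ 2 * (G + 1) + 1))) :
    nI * (nC * (2 * lA ^ 2 * ((G + 1) / L) * (2 * η / L))) ≤ e / 4 := by
  set Q1 : ℝ := 4 * M ^ 2 * lA ^ 2 * (G + 1) with hQ1
  have hQ1' : 0 ≤ Q1 := by (clear * - hG; positivity)
  have hη0 : 0 < η := by rw [hη]; (clear * - he hG; positivity)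
  have hX : 0 ≤ 2 * lA ^ 2 * ((G + 1) / L) * (2 * η / L) := by positivity
  have h5 : nI * (nC * (2 * lA ^ 2 * ((G + 1) / L) * (2 * η / L))) ≤
      (M * L) * ((M * L) * (2 * lA ^ 2 * ((G + 1) / L) * (2 * η / L))) := by
    have h51 : nC * (2 * lA ^ 2 * ((G + 1) / L) * (2 * η / L)) ≤
        (M * L) * (2 * lA ^ 2 * ((G + 1) / L) * (2 * η / L)) :=
      mul_le_mul_of_nonneg_right hnC hX
    exact mul_le_mul hnI h51 (mul_nonneg hnC0 hX) (by positivity)
  have h6 : (M * L) * ((M * L) * (2 * lA ^ 2 * ((G + 1) / L) * (2 * η / L))) = Q1 * η := by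
    rw [hQ1]
    have h0 := hL.ne'
    field_simp
    ring
  rw [h6] at h5
  refine h5.trans ?_
  rw [hη, ← mul_div_assoc, div_le_div_iff₀ (by (clear * - hG; positivity)) (by norm_num)]
  nlinarith only [he]

lemma term2_le {nI nC L M B G e θ ε r : ℝ} (hL : 0 < L) (hM : 0 ≤ M) (hG : 0 ≤ G) (he : 0 < e)
    (hr : 0 ≤ r) (hB : 0 ≤ B)
    (hnI : nI ≤ M * L) (hnC0 : 0 ≤ nC) (hnC : nC ≤ M * L)
    (hθ : θ = (e / (4 * (M * (G + 1) ^ 2 + 1))) ^ 2 / 2) (hε : ε = θ / (M ^ 2 + 1))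
    (h3 : M * r * B / L < θ) :
    nI * Real.sqrt ((((G + 1) / L) ^ 2) ^ 2 * (nC * r * B + ε * nC ^ 2)) ≤ e / 4 := by
  set Q2 : ℝ := M * (G + 1) ^ 2 with hQ2
  have hQ2' : 0 ≤ Q2 := by positivity
  have hθ0 : 0 < θ := by rw [hθ]; positivity
  have hε0 : 0 < ε := by rw [hε]; (clear * - hθ0; positivity)
  have h5 : (((G + 1) / L) ^ 2) ^ 2 * (nC * r * B + ε * nC ^ 2) ≤
      (((G + 1) ^ 2 / L) * (e / (4 * (Q2 + 1)))) ^ 2 := by
    have h6 : (((G + 1) / L) ^ 2) ^ 2 * (nC * r * B + ε * nC ^ 2) ≤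
        (((G + 1) / L) ^ 2) ^ 2 * ((M * L) * r * B + ε * (M * L) ^ 2) := by
      gcongr
    refine h6.trans ?_
    have h7 : (((G + 1) / L) ^ 2) ^ 2 * ((M * L) * r * B + ε * (M * L) ^ 2) =
        ((G + 1) ^ 2 / L) ^ 2 * (M * r * B / L + ε * M ^ 2) := by
      have h0 := hL.ne'
      (clear * - h0 hG; field_simp)
    rw [h7, mul_pow]
    have h8 : ε * M ^ 2 ≤ θ := by
      rw [hε, div_mul_eq_mul_div, div_le_iff₀ (by (clear * -; positivity))]
      nlinarith only [hθ0]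
    have h9 : M * r * B / L + ε * M ^ 2 ≤ (e / (4 * (Q2 + 1))) ^ 2 := by
      have h10 : θ + θ = (e / (4 * (Q2 + 1))) ^ 2 := by rw [hθ]; ring
      linarith only [h3, hθ, h8]
    exact mul_le_mul_of_nonneg_left h9 (sq_nonneg _)
  have h11 := Real.sqrt_le_sqrt h5
  rw [Real.sqrt_sq (by (clear * - hG hL he hM; positivity))] at h11
  have h12 : nI * Real.sqrt ((((G + 1) / L) ^ 2) ^ 2 * (nC * r * B + ε * nC ^ 2)) ≤
      (M * L) * (((G + 1) ^ 2 / L) * (e / (4 * (Q2 + 1)))) :=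
    mul_le_mul hnI h11 (Real.sqrt_nonneg _) (by (clear * - hM hL; positivity))
  have h13 : (M * L) * (((G + 1) ^ 2 / L) * (e / (4 * (Q2 + 1)))) =
      Q2 * (e / (4 * (Q2 + 1))) := by
    rw [hQ2]
    have h0 := hL.ne'
    (clear * - h0 hM hG he; field_simp)
  rw [h13] at h12
  refine h12.trans ?_
  rw [← mul_div_assoc, div_le_div_iff₀ (by (clear * - hM hG; positivity)) (by norm_num)]
  nlinarith only [he]

/-- **Local squares tend to a constant.**  `D i x` are bounded increments whose block squares have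
the same mean `w` and decorrelate along each row; `p n i x` are weights which, up to `o(1 / L n)`,
are `(L n)⁻¹ g (i K / L n, x / L n)` with `g` continuous of compact support. -/
theorem local_squares [IsProbabilityMeasure μ] (D : ℤ → ℤ → Ω → ℝ)
    (hDm : ∀ i x, Measurable (D i x)) {A : ℝ} (hDb : ∀ i x ω, |D i x ω| ≤ A)
    (l K : ℕ) (hl : 0 < l) (hK : 0 < K) {w : ℝ}
    (hw : ∀ i c : ℤ, ∫ ω, (blk D l i c ω) ^ 2 ∂μ = w)
    (hdec : ∀ ε : ℝ, 0 < ε → ∃ R : ℕ, ∀ i c c' : ℤ, (R : ℤ) ≤ |c - c'| →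
      ∫ ω, (blk D l i c ω) ^ 2 * (blk D l i c' ω) ^ 2 ∂μ ≤ w ^ 2 + ε)
    (g : ℝ × ℝ → ℝ) (hg : Continuous g) (hgc : HasCompactSupport g)
    (L : ℕ → ℝ) (hL0 : ∀ n, 0 < L n) (hL : Tendsto L atTop atTop)
    (I C : ℕ → Finset ℤ) {M : ℝ} (hIM : ∀ n, ((I n).card : ℝ) ≤ M * L n)
    (hCM : ∀ n, ((C n).card : ℝ) ≤ M * L n)
    (hI : ∀ n, ∀ i : ℤ, i ∉ I n → ∀ y : ℝ, g ((i : ℝ) * K / L n, y) = 0)
    (hC : ∀ n, ∀ c : ℤ, c ∉ C n → ∀ t : ℝ, g (t, (c : ℝ) * l / L n) = 0)
    (p : ℕ → ℤ → ℤ → ℝ) (δ : ℕ → ℝ) (hδ : Tendsto δ atTop (𝓝 0))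
    (hp : ∀ n, ∀ i x : ℤ, |p n i x - (L n)⁻¹ * g ((i : ℝ) * K / L n, (x : ℝ) / L n)| ≤
      δ n / L n) :
    Tendsto (fun n => ∫ ω, |∑ i ∈ I n, ∑ c ∈ C n,
      (∑ x ∈ Finset.Ico (c * l) (c * l + l), p n i x * D i x ω) ^ 2 -
        w / (K * l) * ∫ z, g z ^ 2| ∂μ) atTop (𝓝 0) := by
  obtain ⟨ω0⟩ := nonempty_of_prob (μ := μ)
  have hA : 0 ≤ A := (abs_nonneg _).trans (hDb 0 0 ω0)
  obtain ⟨G, hG⟩ := hgc.exists_bound_of_continuous hg
  have hG0 : 0 ≤ G := (norm_nonneg _).trans (hG 0)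
  have hM : 0 ≤ M := by
    by_contra h
    push Not at h
    have h1 := hIM 0
    have h2 : M * L 0 < 0 := mul_neg_of_neg_of_pos h (hL0 0)
    have h3 : (0 : ℝ) ≤ ((I 0).card : ℝ) := Nat.cast_nonneg _
    linarith only [h1, h2]
  have huc := hgc.uniformContinuous_of_continuous hg
  -- the deterministic term
  have hT3 := riemann_sq l K hl hK w g hg hgc L hL0 hL I C hI hC
  -- the estimate
  have key : ∀ e : ℝ, 0 < e → ∀ᶠ n in atTop, ∫ ω, |∑ i ∈ I n, ∑ c ∈ C n,
      (∑ x ∈ Finset.Ico (c * l) (c * l + l), p n i x * D i x ω) ^ 2 -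
        w / (K * l) * ∫ z, g z ^ 2| ∂μ < e := by
    intro e he
    -- constants
    obtain ⟨η, hη⟩ : ∃ η, η = e / (4 * (4 * M ^ 2 * (l * A) ^ 2 * (G + 1) + 1)) := ⟨_, rfl⟩
    have hη0 : 0 < η := by rw [hη]; (clear * - he hG0; positivity)
    obtain ⟨θ, hθ⟩ : ∃ θ, θ = (e / (4 * (M * (G + 1) ^ 2 + 1))) ^ 2 / 2 := ⟨_, rfl⟩
    have hθ0 : 0 < θ := by rw [hθ]; (clear * - he hM hG0; positivity)
    obtain ⟨ε, hε⟩ : ∃ ε, ε = θ / (M ^ 2 + 1) := ⟨_, rfl⟩
    have hε0 : 0 < ε := by rw [hε]; (clear * - hθ0; positivity)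
    obtain ⟨R, hR⟩ := hdec ε hε0
    obtain ⟨d, hd, hdg⟩ := Metric.uniformContinuous_iff.1 huc η hη0
    have hev1 : ∀ᶠ n in atTop, δ n < min η 1 :=
      hδ.eventually (gt_mem_nhds (lt_min hη0 one_pos))
    have hev2 : ∀ᶠ n in atTop, (l : ℝ) / L n < d := by
      have : Tendsto (fun n => (l : ℝ) / L n) atTop (𝓝 0) :=
        Tendsto.div_atTop tendsto_const_nhds hL
      exact this.eventually (gt_mem_nhds hd)
    have hev3 : ∀ᶠ n in atTop, M * (2 * R + 1) * ((l * A) ^ 2) ^ 2 / L n < θ := by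
      have : Tendsto (fun n => M * (2 * R + 1) * ((l * A) ^ 2) ^ 2 / L n) atTop (𝓝 0) :=
        Tendsto.div_atTop tendsto_const_nhds hL
      exact this.eventually (gt_mem_nhds hθ0)
    have hev4 : ∀ᶠ n in atTop, |∑ i ∈ I n, ∑ c ∈ C n,
        ((L n)⁻¹ * g ((i : ℝ) * K / L n, (c : ℝ) * l / L n)) ^ 2 * w -
        w / (K * l) * ∫ z, g z ^ 2| < e / 4 := by
      have h1 := Metric.tendsto_nhds.1 hT3 (e / 4) (by positivity)
      filter_upwards [h1] with n hn
      rwa [Real.dist_eq] at hn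
    filter_upwards [hev1, hev2, hev3, hev4] with n h1 h2 h3 h4
    have hLn := hL0 n
    have hδη : δ n ≤ η := h1.le.trans (min_le_left _ _)
    have hδ1 : δ n ≤ 1 := h1.le.trans (min_le_right _ _)
    have hgabs : ∀ z, |(L n)⁻¹ * g z| ≤ G / L n := by
      intro z
      rw [abs_mul, abs_of_pos (inv_pos.2 hLn), div_eq_inv_mul]
      exact mul_le_mul_of_nonneg_left (hG z) (inv_pos.2 hLn).le
    have hGP : G / L n ≤ (G + 1) / L n := by
      gcongr; linarith only []
    have hpP : ∀ i x, |p n i x| ≤ (G + 1) / L n := by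
      intro i x
      have h5 := hp n i x
      have h6 := hgabs ((i : ℝ) * K / L n, (x : ℝ) / L n)
      have h7 : δ n / L n ≤ 1 / L n := by (clear * - hδ1 hLn; gcongr)
      have h8 : |p n i x| ≤ |p n i x - (L n)⁻¹ * g ((i : ℝ) * K / L n, (x : ℝ) / L n)| +
          |(L n)⁻¹ * g ((i : ℝ) * K / L n, (x : ℝ) / L n)| := by
        have := abs_add_le (p n i x - (L n)⁻¹ * g ((i : ℝ) * K / L n, (x : ℝ) / L n))
          ((L n)⁻¹ * g ((i : ℝ) * K / L n, (x : ℝ) / L n))
        rwa [sub_add_cancel] at this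
      rw [add_div]
      linarith only [h5, h6, h7, h8]
    have hpq : ∀ i c : ℤ, ∀ x ∈ Finset.Ico (c * l) (c * l + l),
        |p n i x - (L n)⁻¹ * g ((i : ℝ) * K / L n, (c : ℝ) * l / L n)| ≤ 2 * η / L n := by
      intro i c x hx
      rw [Finset.mem_Ico] at hx
      have h5 := hp n i x
      have hx1 : (c : ℝ) * l ≤ x := by exact_mod_cast hx.1
      have hx2 : (x : ℝ) < c * l + l := by exact_mod_cast hx.2
      have h6 : dist (((i : ℝ) * K / L n, (x : ℝ) / L n) : ℝ × ℝ)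
          ((i : ℝ) * K / L n, (c : ℝ) * l / L n) < d := by
        rw [Prod.dist_eq, dist_self, Real.dist_eq]
        refine max_lt hd ?_
        rw [← sub_div, abs_div, abs_of_pos hLn, abs_of_nonneg (by linarith only [hx1])]
        refine lt_of_le_of_lt ?_ h2
        gcongr
        linarith only [hx2]
      have h7 := hdg h6
      rw [Real.dist_eq] at h7
      have h8 : |(L n)⁻¹ * g ((i : ℝ) * K / L n, (x : ℝ) / L n) -
          (L n)⁻¹ * g ((i : ℝ) * K / L n, (c : ℝ) * l / L n)| ≤ η / L n := by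
        rw [← mul_sub, abs_mul, abs_of_pos (inv_pos.2 hLn), div_eq_inv_mul η (L n)]
        exact mul_le_mul_of_nonneg_left h7.le (inv_pos.2 hLn).le
      have h9 := abs_sub_le (p n i x) ((L n)⁻¹ * g ((i : ℝ) * K / L n, (x : ℝ) / L n))
        ((L n)⁻¹ * g ((i : ℝ) * K / L n, (c : ℝ) * l / L n))
      have h10 : δ n / L n ≤ η / L n := by (clear * - hδη hLn; gcongr)
      have h11 : 2 * η / L n = η / L n + η / L n := by ring
      linarith only [h5, h8, h9, h10, h11]
    have hb := loc_bound (μ := μ) D hDm hDb l hw hε0.le hR (p n)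
      (fun i c => (L n)⁻¹ * g ((i : ℝ) * K / L n, (c : ℝ) * l / L n)) hpP
      (fun i c => (hgabs _).trans hGP) hpq (I n) (C n) (w / (K * l) * ∫ z, g z ^ 2)
    refine lt_of_le_of_lt hb ?_
    have hterm1 := term1_le (nI := (I n).card) (nC := (C n).card) (lA := l * A) hLn hM hG0 he
      (hIM n) (Nat.cast_nonneg _) (hCM n) hη
    have hterm2 := term2_le (nI := (I n).card) (nC := (C n).card) (r := 2 * R + 1)
      (B := ((l * A) ^ 2) ^ 2) hLn hM hG0 he (by (clear * -; positivity)) (by (clear * -; positivity))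
      (hIM n) (Nat.cast_nonneg _) (hCM n) hθ hε h3
    linarith only [he, h4, hterm1, hterm2]
  rw [Metric.tendsto_nhds]
  intro e he
  filter_upwards [key e he] with n hn
  rw [Real.dist_eq, sub_zero, abs_of_nonneg (integral_nonneg fun _ => abs_nonneg _)]
  exact hn

end Vale.Agent.P153.CLT
end

section

/-!
# P153, block D3 for the plane measure

The hypotheses of `local_squares` for the vertical increments of the height over `K` double rows
under a measure `P` with `GFF.Plane P`, and the resulting limit of the sums of local squares.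
-/

namespace Vale.Agent.P153.CLT

open MeasureTheory Filter Finset
open scoped Topology ENNReal

/-- Truncation to `[-A, A]`. -/
noncomputable def clamp (A x : ℝ) : ℝ := max (-A) (min A x)

lemma clamp_abs {A : ℝ} (hA : 0 ≤ A) (x : ℝ) : |clamp A x| ≤ A := by
  unfold clamp
  rw [abs_le]
  exact ⟨le_max_left _ _, max_le (by linarith only [hA]) (min_le_left _ _)⟩

lemma clamp_eq {A x : ℝ} (h : |x| ≤ A) : clamp A x = x := by
  unfold clamp
  rw [abs_le] at h
  rw [min_eq_right h.2, max_eq_right h.1]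

lemma clamp_neg {A : ℝ} (hA : 0 ≤ A) (x : ℝ) : clamp A (-x) = -clamp A x := by
  unfold clamp
  rcases le_total x (-A) with h | h
  · rw [min_eq_left (by linarith only [h] : A ≤ -x), min_eq_right (by linarith only [hA, h] : x ≤ A),
      max_eq_right (by linarith : -A ≤ A), max_eq_left h, neg_neg]
  · rcases le_total x A with h' | h'
    · rw [min_eq_right (by linarith only [h] : -x ≤ A), min_eq_right h', max_eq_right (by linarith : -A ≤ -x),
        max_eq_right h]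
    · rw [min_eq_right (by linarith : -x ≤ A), min_eq_left h', max_eq_left (by linarith : -x ≤ -A),
        max_eq_right (by linarith only [hA] : -A ≤ A)]

lemma measurable_clamp (A : ℝ) : Measurable (clamp A) := by
  unfold clamp
  fun_prop

/-- Increment of the height over `K` double rows, at the site `x` of the double row `i K`. -/
def Dp (K : ℕ) (i x : ℤ) (φ : ℤ × ℤ → ℤ) : ℝ :=
  ((φ (GFF.ev ((i + 1) * K) x) : ℤ) : ℝ) - ((φ (GFF.ev (i * K) x) : ℤ) : ℝ)

/-- The truncated increment. -/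
noncomputable def Dc (K : ℕ) (i x : ℤ) (φ : ℤ × ℤ → ℤ) : ℝ := clamp (2 * K) (Dp K i x φ)

lemma measurable_coord (v : ℤ × ℤ) : Measurable fun φ : ℤ × ℤ → ℤ => ((φ v : ℤ) : ℝ) :=
  (measurable_of_countable (fun z : ℤ => (z : ℝ))).comp (measurable_pi_apply v)

lemma measurable_Dp (K : ℕ) (i x : ℤ) : Measurable (Dp K i x) :=
  (measurable_coord _).sub (measurable_coord _)

lemma measurable_Dc (K : ℕ) (i x : ℤ) : Measurable (Dc K i x) :=
  (measurable_clamp _).comp (measurable_Dp K i x)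

lemma abs_Dc (K : ℕ) (i x : ℤ) (φ : ℤ × ℤ → ℤ) : |Dc K i x φ| ≤ 2 * K :=
  clamp_abs (by positivity) _

/-- A Lipschitz height changes by at most two over a double row. -/
lemma step_two (φ : ℤ × ℤ → ℤ) (h : ∀ x y, GFF.Adj x y → |φ x - φ y| ≤ 1) (j x : ℤ) :
    |φ (GFF.ev (j + 1) x) - φ (GFF.ev j x)| ≤ 2 := by
  have h1 := h (x - j - 1, 2 * j + 1) (GFF.ev j x) (by
    unfold GFF.Adj GFF.ev
    have : ((x - j - (x - j - 1), 2 * j - (2 * j + 1)) : ℤ × ℤ) = (1, -1) := by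
      ext <;> simp
    rw [this]
    simp only [Int.reduceNeg, Set.mem_insert_iff, Prod.mk.injEq, neg_eq_zero, one_ne_zero, and_false, reduceCtorEq, and_self, and_true, Set.mem_singleton_iff, or_false, or_true])
  have h2 := h (GFF.ev (j + 1) x) (x - j - 1, 2 * j + 1) (by
    unfold GFF.Adj GFF.ev
    have : ((x - j - 1 - (x - (j + 1)), 2 * j + 1 - 2 * (j + 1)) : ℤ × ℤ) = (0, -1) := by
      ext
      · change x - j - 1 - (x - (j + 1)) = 0
        ring
      · simp only [Int.reduceNeg]; ring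
    simp only [Int.reduceNeg, this, Set.mem_insert_iff, Prod.mk.injEq, zero_ne_one, neg_eq_zero, one_ne_zero, and_self, zero_eq_neg, reduceCtorEq, and_false, and_true, Set.mem_singleton_iff, or_self, or_false, or_true])
  rw [abs_le] at *
  constructor <;> linarith only [h1, h2]

lemma step_K (φ : ℤ × ℤ → ℤ) (h : ∀ x y, GFF.Adj x y → |φ x - φ y| ≤ 1) (j x : ℤ) (K : ℕ) :
    |φ (GFF.ev (j + K) x) - φ (GFF.ev j x)| ≤ 2 * K := by
  induction K with
  | zero => simp
  | succ k ih =>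
    have h1 := step_two φ h (j + k) x
    have e : (j + ((k + 1 : ℕ) : ℤ)) = j + k + 1 := by push_cast; ring
    rw [e]
    push_cast
    rw [abs_le] at *
    constructor <;> linarith only [ih, h1]

lemma Dc_eq (φ : ℤ × ℤ → ℤ) (h : ∀ x y, GFF.Adj x y → |φ x - φ y| ≤ 1) (K : ℕ) (i x : ℤ) :
    Dc K i x φ = Dp K i x φ := by
  refine clamp_eq ?_
  have h1 := step_K φ h (i * K) x K
  have e : i * K + K = (i + 1) * K := by ring
  rw [e] at h1
  unfold Dp
  exact_mod_cast h1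

/-- Increments and translations. -/
lemma Dp_shift (K : ℕ) (i j x y : ℤ) (φ : ℤ × ℤ → ℤ) :
    Dp K (i + j) (x + y) φ = Dp K j x (GFF.shift (GFF.ev (i * K) y) φ) := by
  unfold Dp GFF.shift
  have e1 : GFF.ev ((i + j + 1) * K) (x + y) = GFF.ev ((j + 1) * K) x + GFF.ev (i * K) y := by
    unfold GFF.ev
    ext
    · simp only [Prod.mk_add_mk]; ring
    · simp only [Prod.mk_add_mk]; ring
  have e2 : GFF.ev ((i + j) * K) (x + y) = GFF.ev (j * K) x + GFF.ev (i * K) y := by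
    unfold GFF.ev
    ext
    · simp only [Prod.mk_add_mk]; ring
    · simp only [Prod.mk_add_mk]; ring
  rw [e1, e2]
  push_cast
  ring

lemma Dc_shift (K : ℕ) (i j x y : ℤ) (φ : ℤ × ℤ → ℤ) :
    Dc K (i + j) (x + y) φ = Dc K j x (GFF.shift (GFF.ev (i * K) y) φ) := by
  unfold Dc
  rw [Dp_shift]

lemma blk_shift (K l : ℕ) (i j c d : ℤ) (φ : ℤ × ℤ → ℤ) :
    blk (Dc K) l (i + j) (c + d) φ =
      blk (Dc K) l j d (GFF.shift (GFF.ev (i * K) (c * l)) φ) := by
  unfold blk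
  have e : Finset.Ico ((c + d) * (l : ℤ)) ((c + d) * l + l) =
      (Finset.Ico (d * (l : ℤ)) (d * l + l)).map (addRightEmbedding (c * (l : ℤ))) := by
    rw [Finset.map_add_right_Ico]
    congr 1 <;> ring
  rw [e, Finset.sum_map]
  refine Finset.sum_congr rfl fun x _ => ?_
  rw [addRightEmbedding_apply, Dc_shift]

lemma measurable_shift (t : ℤ × ℤ) : Measurable (GFF.shift t) := by
  unfold GFF.shift
  fun_prop

lemma measurable_blk (K l : ℕ) (i c : ℤ) : Measurable (blk (Dc K) l i c) :=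
  Finset.measurable_sum _ fun x _ => measurable_Dc K i x

lemma abs_blk (K l : ℕ) (i c : ℤ) (φ : ℤ × ℤ → ℤ) : |blk (Dc K) l i c φ| ≤ l * (2 * K) := by
  refine (Finset.abs_sum_le_sum_abs _ _).trans ?_
  refine (Finset.sum_le_sum fun x _ => abs_Dc K i x φ).trans ?_
  rw [Finset.sum_const, nsmul_eq_mul, Int.card_Ico]
  simp only [add_sub_cancel_left, Int.toNat_natCast, Std.le_refl]

/-- The mean of the squared increment over a block of length `l`. -/
noncomputable def wKl (P : Measure (ℤ × ℤ → ℤ)) (K l : ℕ) : ℝ :=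
  ∫ φ, (∑ x ∈ Finset.Ico (0 : ℤ) l, (((φ (GFF.ev K x) : ℤ) : ℝ) - ((φ (GFF.ev 0 x) : ℤ) : ℝ))) ^ 2 ∂P

variable {P : Measure (ℤ × ℤ → ℤ)}

lemma Plane.integral_shift (hP : GFF.Plane P) (t : ℤ × ℤ) (F : (ℤ × ℤ → ℤ) → ℝ)
    (hF : Measurable F) : ∫ φ, F (GFF.shift t φ) ∂P = ∫ φ, F φ ∂P := by
  conv_rhs => rw [← hP.shift t]
  rw [integral_map (measurable_shift t).aemeasurable hF.aestronglyMeasurable]

lemma blk_ae (hP : GFF.Plane P) (K : ℕ) :
    ∀ᵐ φ ∂P, ∀ i x, Dc K i x φ = Dp K i x φ := by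
  filter_upwards [hP.lip] with φ hφ i x
  exact Dc_eq φ hφ K i x

lemma plane_w (hP : GFF.Plane P) (K l : ℕ) (i c : ℤ) :
    ∫ φ, (blk (Dc K) l i c φ) ^ 2 ∂P = wKl P K l := by
  have h1 : ∀ φ, (blk (Dc K) l i c φ) ^ 2 =
      (fun ψ => (blk (Dc K) l 0 0 ψ) ^ 2) (GFF.shift (GFF.ev (i * K) (c * l)) φ) := by
    intro φ
    have := blk_shift K l i 0 c 0 φ
    rw [add_zero, add_zero] at this
    simp only [this]
  simp_rw [h1]
  rw [Plane.integral_shift hP _ (fun ψ => (blk (Dc K) l 0 0 ψ) ^ 2)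
    ((measurable_blk K l 0 0).pow_const 2)]
  unfold wKl
  refine integral_congr_ae ?_
  filter_upwards [blk_ae hP K] with φ hφ
  unfold blk
  simp only [hφ, zero_mul, zero_add]
  congr 1
  refine Finset.sum_congr rfl fun x _ => ?_
  unfold Dp
  simp

lemma plane_dec (hP : GFF.Plane P) (K l : ℕ) (hl : 0 < l) (ε : ℝ) (hε : 0 < ε) :
    ∃ R : ℕ, ∀ i c c' : ℤ, (R : ℤ) ≤ |c - c'| →
      ∫ φ, (blk (Dc K) l i c φ) ^ 2 * (blk (Dc K) l i c' φ) ^ 2 ∂P ≤ wKl P K l ^ 2 + ε := by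
  have := hP.prob
  set W : (ℤ × ℤ → ℤ) → ℝ := fun φ => (blk (Dc K) l 0 0 φ) ^ 2 with hW
  have hWm : Measurable W := (measurable_blk K l 0 0).pow_const 2
  have hWb : ∃ M, ∀ φ, |W φ| ≤ M := by
    refine ⟨(l * (2 * K)) ^ 2, fun φ => ?_⟩
    rw [hW]
    simp only
    rw [abs_pow]
    exact pow_le_pow_left₀ (abs_nonneg _) (abs_blk K l 0 0 φ) 2
  set B : Finset (ℤ × ℤ) := (Finset.Ico (0 : ℤ) l).image (fun x => GFF.ev K x) ∪
    (Finset.Ico (0 : ℤ) l).image (fun x => GFF.ev 0 x) with hB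
  have hWB : ∀ φ ψ : ℤ × ℤ → ℤ, (∀ x ∈ B, φ x = ψ x) → W φ = W ψ := by
    intro φ ψ h
    rw [hW]
    simp only
    congr 1
    unfold blk
    refine Finset.sum_congr rfl fun x hx => ?_
    have hx' : x ∈ Finset.Ico (0 : ℤ) l := by simpa only [mem_Ico, zero_mul, zero_add] using hx
    unfold Dc Dp
    have e1 : φ (GFF.ev ((0 + 1) * K) x) = ψ (GFF.ev ((0 + 1) * K) x) := by
      refine h _ ?_
      rw [hB, Finset.mem_union]
      left
      rw [Finset.mem_image]
      exact ⟨x, hx', by simp⟩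
    have e2 : φ (GFF.ev (0 * K) x) = ψ (GFF.ev (0 * K) x) := by
      refine h _ ?_
      rw [hB, Finset.mem_union]
      right
      rw [Finset.mem_image]
      exact ⟨x, hx', by simp⟩
    rw [e1, e2]
  have hWe : ∀ φ, W (-φ) = W φ := by
    intro φ
    have hDc : ∀ i x, Dc K i x (-φ) = -Dc K i x φ := by
      intro i x
      have hDp : Dp K i x (-φ) = -Dp K i x φ := by
        unfold Dp
        simp only [Pi.neg_apply]
        push_cast
        ring
      unfold Dc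
      rw [hDp]
      exact clamp_neg (by positivity) _
    rw [hW]
    simp only
    unfold blk
    simp only [hDc, Finset.sum_neg_distrib, neg_sq]
  have hmix := hP.mix B W W hWm hWm hWb hWb hWe hWe hWB hWB
  have hinj : Function.Injective fun d : ℤ => GFF.ev 0 (d * l) := by
    intro a b hab
    unfold GFF.ev at hab
    simp only [Prod.mk.injEq] at hab
    have h1 : a * (l : ℤ) = b * l := by linarith only [hab]
    exact mul_right_cancel₀ (by exact_mod_cast hl.ne') h1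
  have h2 := hmix.comp hinj.tendsto_cofinite
  have hwW : ∫ φ, W φ ∂P = wKl P K l := plane_w hP K l 0 0
  rw [hwW] at h2
  have h3 : ∀ᶠ d : ℤ in cofinite,
      ∫ φ, W φ * W (GFF.shift (GFF.ev 0 (d * l)) φ) ∂P < wKl P K l * wKl P K l + ε :=
    h2.eventually (gt_mem_nhds (by linarith only [hε]))
  rw [Filter.eventually_cofinite] at h3
  obtain ⟨R, hR⟩ := (h3.image fun d : ℤ => |d|).bddAbove
  refine ⟨(R + 1).toNat, fun i c c' hcc => ?_⟩
  have h4 : R + 1 ≤ |c - c'| := (Int.self_le_toNat _).trans hcc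
  set d : ℤ := c' - c with hd
  have h5 : ∫ φ, W φ * W (GFF.shift (GFF.ev 0 (d * l)) φ) ∂P < wKl P K l * wKl P K l + ε := by
    by_contra h6
    have h7 : |d| ≤ R := hR ⟨d, h6, rfl⟩
    rw [hd, abs_sub_comm] at h7
    linarith only [h4, h7]
  have h8 : ∀ φ, (blk (Dc K) l i c φ) ^ 2 * (blk (Dc K) l i c' φ) ^ 2 =
      (fun ψ => W ψ * W (GFF.shift (GFF.ev 0 (d * l)) ψ))
        (GFF.shift (GFF.ev (i * K) (c * l)) φ) := by
    intro φ
    have e1 := blk_shift K l i 0 c 0 φ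
    rw [add_zero, add_zero] at e1
    have e2 := blk_shift K l i 0 c d φ
    rw [add_zero, show c + d = c' by rw [hd]; ring] at e2
    have e3 := blk_shift K l 0 0 d 0 (GFF.shift (GFF.ev (i * K) (c * l)) φ)
    rw [add_zero, add_zero, zero_mul] at e3
    simp only [hW]
    rw [e1, e2, e3]
  simp_rw [h8]
  rw [Plane.integral_shift hP _ (fun ψ => W ψ * W (GFF.shift (GFF.ev 0 (d * l)) ψ))
    (hWm.mul (hWm.comp (measurable_shift _)))]
  rw [sq]
  exact h5.le

/-- **Local squares under the plane measure.** -/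
theorem devLim (hP : GFF.Plane P) (l K : ℕ) (hl : 0 < l) (hK : 0 < K)
    (g : ℝ × ℝ → ℝ) (hg : Continuous g) (hgc : HasCompactSupport g)
    (L : ℕ → ℝ) (hL0 : ∀ n, 0 < L n) (hL : Tendsto L atTop atTop)
    (I C : ℕ → Finset ℤ) {M : ℝ} (hIM : ∀ n, ((I n).card : ℝ) ≤ M * L n)
    (hCM : ∀ n, ((C n).card : ℝ) ≤ M * L n)
    (hI : ∀ n, ∀ i : ℤ, i ∉ I n → ∀ y : ℝ, g ((i : ℝ) * K / L n, y) = 0)
    (hC : ∀ n, ∀ c : ℤ, c ∉ C n → ∀ t : ℝ, g (t, (c : ℝ) * l / L n) = 0)
    (p : ℕ → ℤ → ℤ → ℝ) (δ : ℕ → ℝ) (hδ : Tendsto δ atTop (𝓝 0))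
    (hp : ∀ n, ∀ i x : ℤ, |p n i x - (L n)⁻¹ * g ((i : ℝ) * K / L n, (x : ℝ) / L n)| ≤
      δ n / L n) :
    Tendsto (fun n => ∫ φ, |∑ i ∈ I n, ∑ c ∈ C n,
      (∑ x ∈ Finset.Ico (c * l) (c * l + l), p n i x *
        (((φ (GFF.ev ((i + 1) * K) x) : ℤ) : ℝ) - ((φ (GFF.ev (i * K) x) : ℤ) : ℝ))) ^ 2 -
        wKl P K l / (K * l) * ∫ z, g z ^ 2| ∂P) atTop (𝓝 0) := by
  have := hP.prob
  have h1 := local_squares (μ := P) (Dc K) (measurable_Dc K) (abs_Dc K) l K hl hK
    (plane_w hP K l) (plane_dec hP K l hl) g hg hgc L hL0 hL I C hIM hCM hI hC p δ hδ hp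
  refine h1.congr fun n => ?_
  refine integral_congr_ae ?_
  filter_upwards [blk_ae hP K] with φ hφ
  simp only [hφ]
  rfl

end Vale.Agent.P153.CLT
end

section

/-!
# P153 GFF: the hat function of the triangular lattice

Partition of unity and the integral of the kernel of the affine interpolation.
-/

open MeasureTheory Filter Topology Set

namespace Vale.Agent.P153.GFF

lemma aux (s t : ℝ) : min (1 / 2) (min (s + 1 / 2) (-t + 1 / 2)) - max (-(1 / 2)) (max (s - 1 / 2) (-t - 1 / 2))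
   = 1 - max |s| (max |t| |s + t|) := by
  rcases le_total 0 s with hs | hs <;> rcases le_total 0 t with ht | ht <;>
    rcases le_total 0 (s + t) with hst | hst <;>
    simp only [abs_of_nonneg, abs_of_nonpos, hs, ht, hst] <;> grind

lemma hat_four {a b : ℝ} (ha : 0 ≤ a) (ha1 : a ≤ 1) (hb : 0 ≤ b) (hb1 : b ≤ 1) :
    hat a b + hat (a - 1) b + hat a (b - 1) + hat (a - 1) (b - 1) = 1 := by
  have e1 : |a| = a := abs_of_nonneg ha
  have e2 : |b| = b := abs_of_nonneg hb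
  have e3 : |a - 1| = 1 - a := by rw [abs_of_nonpos (by linarith only [ha1])]; ring
  have e4 : |b - 1| = 1 - b := by rw [abs_of_nonpos (by linarith)]; ring
  have e5 : |a + b| = a + b := abs_of_nonneg (by linarith only [ha, hb])
  have e6 : |a - 1 + (b - 1)| = 2 - a - b := by rw [abs_of_nonpos (by linarith)]; ring
  rcases le_total 1 (a + b) with h | h
  · have e7 : |a - 1 + b| = a + b - 1 := by rw [abs_of_nonneg (by linarith)]; ring
    have e8 : |a + (b - 1)| = a + b - 1 := by rw [abs_of_nonneg (by linarith)]; ring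
    have h1 : hat a b = 0 := by
      unfold hat
      rw [e1, e2, e5, max_eq_right (by linarith : b ≤ a + b), max_eq_right (by linarith : a ≤ a + b),
        max_eq_left (by linarith)]
    have h2 : hat (a - 1) b = 1 - b := by
      unfold hat
      rw [e3, e2, e7, max_eq_left (by linarith : a + b - 1 ≤ b), max_eq_right (by linarith : 1 - a ≤ b),
        max_eq_right (by linarith only [hb1])]
    have h3 : hat a (b - 1) = 1 - a := by
      unfold hat
      rw [e1, e4, e8, max_eq_left (max_le (by linarith only [h]) (by linarith) : max (1 - b) (a + b - 1) ≤ a),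
        max_eq_right (by linarith only [ha1])]
    have h4 : hat (a - 1) (b - 1) = a + b - 1 := by
      unfold hat
      rw [e3, e4, e6, max_eq_right (by linarith only [ha1] : 1 - b ≤ 2 - a - b),
        max_eq_right (by linarith only [hb1] : 1 - a ≤ 2 - a - b), max_eq_right (by linarith only [h])]
      ring
    linarith only [h1, h2, h3, h4]
  · have e7 : |a - 1 + b| = 1 - a - b := by rw [abs_of_nonpos (by linarith only [h])]; ring
    have e8 : |a + (b - 1)| = 1 - a - b := by rw [abs_of_nonpos (by linarith only [h])]; ring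
    have h1 : hat a b = 1 - a - b := by
      unfold hat
      rw [e1, e2, e5, max_eq_right (by linarith only [ha] : b ≤ a + b), max_eq_right (by linarith only [hb] : a ≤ a + b),
        max_eq_right (by linarith only [h])]
      ring
    have h2 : hat (a - 1) b = a := by
      unfold hat
      rw [e3, e2, e7, max_eq_left (max_le (by linarith only [h]) (by linarith only [hb]) : max b (1 - a - b) ≤ 1 - a),
        max_eq_right (by linarith only [ha])]
      ring
    have h3 : hat a (b - 1) = b := by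
      unfold hat
      rw [e1, e4, e8, max_eq_left (by linarith only [ha] : 1 - a - b ≤ 1 - b),
        max_eq_right (by linarith only [h] : a ≤ 1 - b), max_eq_right (by linarith only [hb])]
      ring
    have h4 : hat (a - 1) (b - 1) = 0 := by
      unfold hat
      rw [e3, e4, e6, max_eq_right (by linarith only [ha1] : 1 - b ≤ 2 - a - b),
        max_eq_right (by linarith : 1 - a ≤ 2 - a - b), max_eq_left (by linarith)]
    linarith only [h1, h2, h3, h4]

lemma hat_eq_zero_left {s t : ℝ} (h : 1 ≤ |s|) : hat s t = 0 := by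
  unfold hat
  exact max_eq_left (by linarith only [h, le_max_left |s| (max |t| |s + t|)])

lemma hat_eq_zero_right {s t : ℝ} (h : 1 ≤ |t|) : hat s t = 0 := by
  unfold hat
  have h1 : |t| ≤ max |s| (max |t| |s + t|) :=
    le_trans (le_max_left |t| |s + t|) (le_max_right _ _)
  exact max_eq_left (by linarith)

lemma mem_of_abs_lt_one {s : ℝ} {v : ℤ} (h : |s - v| < 1) : v ∈ ({⌊s⌋, ⌊s⌋ + 1} : Finset ℤ) := by
  rw [abs_lt] at h
  have h1 : (⌊s⌋ : ℝ) ≤ s := Int.floor_le s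
  have h2 : s < ⌊s⌋ + 1 := Int.lt_floor_add_one s
  have h3 : (v : ℝ) < (⌊s⌋ : ℝ) + 2 := by linarith
  have h4 : (⌊s⌋ : ℝ) - 1 < v := by linarith
  have h5 : v < ⌊s⌋ + 2 := by exact_mod_cast h3
  have h6 : ⌊s⌋ - 1 < v := by exact_mod_cast h4
  simp only [Finset.mem_insert, Finset.mem_singleton]
  omega

lemma support_hat (s t : ℝ) : (Function.support fun v : ℤ × ℤ => hat (s - v.1) (t - v.2)) ⊆
    (({⌊s⌋, ⌊s⌋ + 1} : Finset ℤ) ×ˢ ({⌊t⌋, ⌊t⌋ + 1} : Finset ℤ) : Finset (ℤ × ℤ)) := by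
  intro v hv
  rw [Function.mem_support] at hv
  rw [Finset.mem_coe, Finset.mem_product]
  constructor
  · apply mem_of_abs_lt_one
    by_contra h
    exact hv (hat_eq_zero_left (not_lt.1 h))
  · apply mem_of_abs_lt_one
    by_contra h
    exact hv (hat_eq_zero_right (not_lt.1 h))

/-- Partition of unity. -/
theorem hat_sum (s t : ℝ) : ∑ᶠ v : ℤ × ℤ, hat (s - v.1) (t - v.2) = 1 := by
  rw [finsum_eq_sum_of_support_subset _ (support_hat s t), Finset.sum_product]
  rw [Finset.sum_pair (by omega), Finset.sum_pair (by omega), Finset.sum_pair (by omega)]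
  have h1 : 0 ≤ s - ⌊s⌋ := by linarith only [Int.floor_le s]
  have h2 : s - ⌊s⌋ ≤ 1 := by linarith only [Int.lt_floor_add_one s]
  have h3 : 0 ≤ t - ⌊t⌋ := by linarith only [Int.floor_le t]
  have h4 : t - ⌊t⌋ ≤ 1 := by linarith [Int.lt_floor_add_one t]
  have h5 := hat_four h1 h2 h3 h4
  push_cast
  rw [show s - (⌊s⌋ + 1) = s - ⌊s⌋ - 1 by ring, show t - (⌊t⌋ + 1) = t - ⌊t⌋ - 1 by ring]
  linarith only [h5]

lemma hat_eq_volume (s t : ℝ) :
    ENNReal.ofReal (hat s t) = volume {r : ℝ | |r| ≤ 1 / 2 ∧ |s - r| ≤ 1 / 2 ∧ |t + r| ≤ 1 / 2} := by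
  have h1 : {r : ℝ | |r| ≤ 1 / 2 ∧ |s - r| ≤ 1 / 2 ∧ |t + r| ≤ 1 / 2} =
      Icc (max (-(1 / 2)) (max (s - 1 / 2) (-t - 1 / 2)))
        (min (1 / 2) (min (s + 1 / 2) (-t + 1 / 2))) := by
    ext r
    simp only [Set.mem_ofPred_eq, Set.mem_Icc, abs_le, max_le_iff, le_min_iff]
    constructor
    · rintro ⟨⟨a, b⟩, ⟨c, d⟩, e, f⟩
      refine ⟨⟨a, by linarith only [d], by linarith only [e]⟩, b, by linarith only [c], by linarith only [f]⟩
    · rintro ⟨⟨a, b, c⟩, d, e, f⟩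
      refine ⟨⟨a, d⟩, ⟨by linarith only [e], by linarith only [b]⟩, by linarith only [c], by linarith only [f]⟩
  rw [h1, Real.volume_Icc, aux]
  unfold hat
  rcases le_total 0 (1 - max |s| (max |t| |s + t|)) with h | h
  · rw [max_eq_right h]
  · rw [max_eq_left h, ENNReal.ofReal_zero, ENNReal.ofReal_of_nonpos h]

/-- indicator of `[-1/2, 1/2]` -/
noncomputable def bx (r : ℝ) : ENNReal := (Icc (-(1 / 2) : ℝ) (1 / 2)).indicator 1 r

@[fun_prop] lemma bx_meas : Measurable bx := measurable_one.indicator measurableSet_Icc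

lemma bx_of {r : ℝ} (h : |r| ≤ 1 / 2) : bx r = 1 := by
  unfold bx
  rw [Set.indicator_of_mem (Set.mem_Icc.2 (abs_le.1 h)), Pi.one_apply]

lemma bx_not {r : ℝ} (h : ¬|r| ≤ 1 / 2) : bx r = 0 := by
  unfold bx
  rw [Set.indicator_of_notMem (fun h' => h (abs_le.2 (Set.mem_Icc.1 h')))]

lemma lint_bx : ∫⁻ r, bx r = 1 := by
  unfold bx
  rw [lintegral_indicator_one measurableSet_Icc, Real.volume_Icc]
  norm_num

lemma ofReal_hat (s t : ℝ) : ENNReal.ofReal (hat s t) = ∫⁻ r, bx r * bx (s - r) * bx (t + r) := by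
  rw [hat_eq_volume]
  have hm : MeasurableSet {r : ℝ | |r| ≤ 1 / 2 ∧ |s - r| ≤ 1 / 2 ∧ |t + r| ≤ 1 / 2} := by
    apply IsClosed.measurableSet
    apply IsClosed.inter
    · exact isClosed_le (f := fun r : ℝ => |r|) (g := fun _ => 1 / 2) (by fun_prop) (by fun_prop)
    · apply IsClosed.inter
      · exact isClosed_le (f := fun r : ℝ => |s - r|) (g := fun _ => 1 / 2) (by fun_prop)
          (by fun_prop)
      · exact isClosed_le (f := fun r : ℝ => |t + r|) (g := fun _ => 1 / 2) (by fun_prop)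
          (by fun_prop)
  rw [← lintegral_indicator_one hm]
  congr 1
  ext r
  by_cases h1 : |r| ≤ 1 / 2
  · by_cases h2 : |s - r| ≤ 1 / 2
    · by_cases h3 : |t + r| ≤ 1 / 2
      · rw [Set.indicator_of_mem (show r ∈ {r : ℝ | |r| ≤ 1 / 2 ∧ |s - r| ≤ 1 / 2 ∧ |t + r| ≤ 1 / 2}
          from ⟨h1, h2, h3⟩), bx_of h1, bx_of h2, bx_of h3]
        simp
      · rw [Set.indicator_of_notMem (fun h => h3 h.2.2), bx_not h3, mul_zero]
    · rw [Set.indicator_of_notMem (fun h => h2 h.2.1), bx_not h2, mul_zero, zero_mul]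
  · rw [Set.indicator_of_notMem (fun h => h1 h.1), bx_not h1, zero_mul, zero_mul]

lemma lint_hat_fst (t c : ℝ) : ∫⁻ s, ENNReal.ofReal (hat (s - c) t) = ∫⁻ r, bx r * bx (t + r) := by
  simp_rw [ofReal_hat]
  rw [lintegral_lintegral_swap]
  · congr 1
    ext r
    have h1 : ∀ s, bx r * bx (s - c - r) * bx (t + r) = (bx r * bx (t + r)) * bx (s - (c + r)) := by
      intro s
      rw [show s - c - r = s - (c + r) by ring]
      ring
    simp_rw [h1]
    rw [lintegral_const_mul _ (by fun_prop),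
      lintegral_sub_right_eq_self (fun s => bx s) (c + r), lint_bx, mul_one]
  · apply Measurable.aemeasurable
    unfold Function.uncurry
    fun_prop

/-- the kernel of the affine interpolation at mesh one, in the plane -/
noncomputable def ker (z : ℝ × ℝ) : ℝ := hat (z.1 - z.2 / √3) (2 * z.2 / √3)

lemma continuous_hat : Continuous (fun p : ℝ × ℝ => hat p.1 p.2) := by
  unfold hat
  fun_prop

lemma continuous_ker : Continuous ker := by
  unfold ker
  exact continuous_hat.comp (by fun_prop : Continuous fun z : ℝ × ℝ => (z.1 - z.2 / √3, 2 * z.2 / √3))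

lemma lint_ker : ∫⁻ z : ℝ × ℝ, ENNReal.ofReal (ker z) = ENNReal.ofReal (√3 / 2) := by
  have h3 : (0 : ℝ) < √3 := by positivity
  rw [Measure.volume_eq_prod, lintegral_prod_symm _ (continuous_ker.measurable.ennreal_ofReal.aemeasurable)]
  unfold ker
  simp_rw [lint_hat_fst]
  rw [lintegral_lintegral_swap]
  · have h1 : ∀ r, ∫⁻ y, bx r * bx (2 * y / √3 + r) = bx r * ENNReal.ofReal (√3 / 2) := by
      intro r
      rw [lintegral_const_mul _ (by fun_prop)]
      congr 1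
      have h2 : ∫⁻ y, bx (2 * y / √3 + r) = ∫⁻ y, (fun u => bx (u + r)) ((2 / √3) * y) := by
        congr 1
        ext y
        simp only []
        congr 2
        ring
      rw [h2, ← lintegral_map (f := fun u => bx (u + r)) (by fun_prop) (by fun_prop),
        Real.map_volume_mul_left (by positivity), lintegral_smul_measure,
        lintegral_add_right_eq_self (fun s => bx s) r, lint_bx, smul_eq_mul, mul_one]
      congr 1
      rw [abs_of_pos (by positivity)]
      field_simp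
    simp_rw [h1]
    rw [lintegral_mul_const _ bx_meas, lint_bx, one_mul]
  · apply Measurable.aemeasurable
    unfold Function.uncurry
    fun_prop

lemma ker_nonneg (z : ℝ × ℝ) : 0 ≤ ker z := by
  unfold ker hat
  exact le_max_left _ _

lemma integrable_ker : Integrable ker := by
  refine ⟨continuous_ker.aestronglyMeasurable, ?_⟩
  rw [hasFiniteIntegral_iff_ofReal (ae_of_all _ ker_nonneg), lint_ker]
  exact ENNReal.ofReal_lt_top

lemma integral_ker : ∫ z, ker z = √3 / 2 := by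
  rw [integral_eq_lintegral_of_nonneg_ae (ae_of_all _ ker_nonneg)
    continuous_ker.aestronglyMeasurable, lint_ker, ENNReal.toReal_ofReal (by positivity)]

lemma ker_eq_zero {z : ℝ × ℝ} (h : 2 < |z.1| ∨ 1 < |z.2|) : ker z = 0 := by
  have h3 : (0 : ℝ) < √3 := by positivity
  have h4 : √3 < 2 := by
    rw [Real.sqrt_lt' (by norm_num)]
    norm_num
  unfold ker
  by_cases h2 : 1 ≤ |2 * z.2 / √3|
  · exact hat_eq_zero_right h2
  · have h5 : |2 * z.2 / √3| = 2 * |z.2| / √3 := by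
      rw [abs_div, abs_mul, abs_of_pos h3]
      norm_num
    have h6 : 2 * |z.2| / √3 < 1 := by
      rw [← h5]
      exact not_le.1 h2
    rw [div_lt_one h3] at h6
    have h7 : |z.2| < 1 := by linarith only [h4, h6]
    rcases h with h | h
    · apply hat_eq_zero_left
      have h8 : |z.1| - |z.2 / √3| ≤ |z.1 - z.2 / √3| := abs_sub_abs_le_abs_sub _ _
      have h9 : |z.2 / √3| ≤ 1 := by
        rw [abs_div, abs_of_pos h3, div_le_one h3]
        linarith only [h3, h6]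
      linarith only [h, h8, h9]
    · linarith only [h4, h6, h]

end Vale.Agent.P153.GFF
end

section

/-!
# P153, two-point part: the discrete Fourier transform of the weights
-/

open MeasureTheory ProbabilityTheory Filter Topology Set
open scoped ENNReal Real

namespace Vale.Agent.P153.TwoPt

/-- the character `e^{i(θ j + k x)}`. -/
noncomputable def chr (θ k : ℝ) (p : ℤ × ℤ) : ℂ :=
  Complex.exp (Complex.I * ((θ * p.1 + k * p.2 : ℝ) : ℂ))

theorem norm_chr (θ k : ℝ) (p : ℤ × ℤ) : ‖chr θ k p‖ = 1 := by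
  unfold chr
  rw [mul_comm, Complex.norm_exp_ofReal_mul_I]

/-- discrete Fourier transform. -/
noncomputable def hat (a : ℤ → ℤ → ℝ) (θ k : ℝ) : ℂ := ∑' p : ℤ × ℤ, (a p.1 p.2 : ℂ) * chr θ k p

/-- `a` vanishes outside the finite set `s`. -/
def Sup (a : ℤ → ℤ → ℝ) (s : Finset (ℤ × ℤ)) : Prop := ∀ p : ℤ × ℤ, p ∉ s → a p.1 p.2 = 0

theorem hat_eq {a : ℤ → ℤ → ℝ} {s : Finset (ℤ × ℤ)} (hs : Sup a s) (θ k : ℝ) :
    hat a θ k = ∑ p ∈ s, (a p.1 p.2 : ℂ) * chr θ k p :=
  tsum_eq_sum fun p hp => by rw [hs p hp]; simp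

theorem summable_hat {a : ℤ → ℤ → ℝ} {s : Finset (ℤ × ℤ)} (hs : Sup a s) (u : ℤ × ℤ → ℂ) :
    Summable fun p : ℤ × ℤ => (a p.1 p.2 : ℂ) * u p :=
  summable_of_ne_finset_zero (s := s) fun p hp => by rw [hs p hp]; simp

theorem Sup.shift1 {a : ℤ → ℤ → ℝ} {s : Finset (ℤ × ℤ)} (hs : Sup a s) (c : ℤ) :
    Sup (fun j x => a (j + c) x) (s.image fun p => (p.1 - c, p.2)) := by
  intro p hp
  refine hs (p.1 + c, p.2) fun h => hp ?_
  exact Finset.mem_image.2 ⟨_, h, by simp⟩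

theorem Sup.shift2 {a : ℤ → ℤ → ℝ} {s : Finset (ℤ × ℤ)} (hs : Sup a s) (c : ℤ) :
    Sup (fun j x => a j (x + c)) (s.image fun p => (p.1, p.2 - c)) := by
  intro p hp
  refine hs (p.1, p.2 + c) fun h => hp ?_
  exact Finset.mem_image.2 ⟨_, h, by simp⟩

theorem hat_shift1 (a : ℤ → ℤ → ℝ) (c : ℤ) (θ k : ℝ) :
    hat (fun j x => a (j + c) x) θ k = Complex.exp (-(Complex.I * ((θ * c : ℝ) : ℂ))) * hat a θ k := by
  unfold hat
  rw [← tsum_mul_left, ← Equiv.tsum_eq (Equiv.addRight ((c, 0) : ℤ × ℤ))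
    (fun p : ℤ × ℤ => Complex.exp (-(Complex.I * ((θ * c : ℝ) : ℂ))) * ((a p.1 p.2 : ℂ) * chr θ k p))]
  refine tsum_congr fun p => ?_
  simp only [Equiv.coe_addRight, Prod.fst_add, Prod.snd_add, add_zero]
  have : chr θ k p = Complex.exp (-(Complex.I * ((θ * c : ℝ) : ℂ))) * chr θ k (p + (c, 0)) := by
    unfold chr
    rw [← Complex.exp_add]
    congr 1
    push_cast
    simp only [Prod.fst_add, Int.cast_add, Prod.snd_add, add_zero]
    ring
  rw [this]
  ring

theorem hat_shift2 (a : ℤ → ℤ → ℝ) (c : ℤ) (θ k : ℝ) :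
    hat (fun j x => a j (x + c)) θ k = Complex.exp (-(Complex.I * ((k * c : ℝ) : ℂ))) * hat a θ k := by
  unfold hat
  rw [← tsum_mul_left, ← Equiv.tsum_eq (Equiv.addRight ((0, c) : ℤ × ℤ))
    (fun p : ℤ × ℤ => Complex.exp (-(Complex.I * ((k * c : ℝ) : ℂ))) * ((a p.1 p.2 : ℂ) * chr θ k p))]
  refine tsum_congr fun p => ?_
  simp only [Equiv.coe_addRight, Prod.fst_add, Prod.snd_add, add_zero]
  have : chr θ k p = Complex.exp (-(Complex.I * ((k * c : ℝ) : ℂ))) * chr θ k (p + (0, c)) := by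
    unfold chr
    rw [← Complex.exp_add]
    congr 1
    push_cast
    simp only [Prod.fst_add, add_zero, Prod.snd_add, Int.cast_add]
    ring
  rw [this]
  ring

theorem exp_add_exp (t : ℝ) :
    Complex.exp (-(Complex.I * ((t * (1 : ℤ) : ℝ) : ℂ))) +
      Complex.exp (-(Complex.I * ((t * (-1 : ℤ) : ℝ) : ℂ))) = ((2 * Real.cos t : ℝ) : ℂ) := by
  push_cast
  rw [Complex.cos]
  rw [show -(Complex.I * ((t : ℂ) * 1)) = -(t : ℂ) * Complex.I by ring,
    show -(Complex.I * ((t : ℂ) * -1)) = (t : ℂ) * Complex.I by ring]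
  ring

theorem hat_diff1 {a : ℤ → ℤ → ℝ} {s : Finset (ℤ × ℤ)} (hs : Sup a s) (θ k : ℝ) :
    hat (fun j x => a (j + 1) x - 2 * a j x + a (j - 1) x) θ k =
      -((2 - 2 * Real.cos θ : ℝ) : ℂ) * hat a θ k := by
  have h1 := hat_shift1 a 1 θ k
  have h2 := hat_shift1 a (-1) θ k
  have h3 : hat (fun j x => a (j + 1) x - 2 * a j x + a (j - 1) x) θ k =
      hat (fun j x => a (j + 1) x) θ k - 2 * hat a θ k + hat (fun j x => a (j + (-1)) x) θ k := by
    unfold hat
    rw [← tsum_mul_left, ← Summable.tsum_sub (summable_hat (hs.shift1 1) _)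
      ((summable_hat hs _).mul_left 2), ← Summable.tsum_add
      ((summable_hat (hs.shift1 1) _).sub ((summable_hat hs _).mul_left 2))
      (summable_hat (hs.shift1 (-1)) _)]
    refine tsum_congr fun p => ?_
    push_cast
    rw [← sub_eq_add_neg]
    ring
  rw [h3, h1, h2]
  have h4 := exp_add_exp θ
  have h5 : (-((2 - 2 * Real.cos θ : ℝ) : ℂ)) = ((2 * Real.cos θ : ℝ) : ℂ) - 2 := by
    push_cast
    ring
  rw [h5, ← h4]
  ring

theorem hat_diff2 {a : ℤ → ℤ → ℝ} {s : Finset (ℤ × ℤ)} (hs : Sup a s) (θ k : ℝ) :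
    hat (fun j x => a j (x + 1) - 2 * a j x + a j (x - 1)) θ k =
      -((2 - 2 * Real.cos k : ℝ) : ℂ) * hat a θ k := by
  have h1 := hat_shift2 a 1 θ k
  have h2 := hat_shift2 a (-1) θ k
  have h3 : hat (fun j x => a j (x + 1) - 2 * a j x + a j (x - 1)) θ k =
      hat (fun j x => a j (x + 1)) θ k - 2 * hat a θ k + hat (fun j x => a j (x + (-1))) θ k := by
    unfold hat
    rw [← tsum_mul_left, ← Summable.tsum_sub (summable_hat (hs.shift2 1) _)
      ((summable_hat hs _).mul_left 2), ← Summable.tsum_add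
      ((summable_hat (hs.shift2 1) _).sub ((summable_hat hs _).mul_left 2))
      (summable_hat (hs.shift2 (-1)) _)]
    refine tsum_congr fun p => ?_
    push_cast
    rw [← sub_eq_add_neg]
    ring
  rw [h3, h1, h2]
  have h4 := exp_add_exp k
  have h5 : (-((2 - 2 * Real.cos k : ℝ) : ℂ)) = ((2 * Real.cos k : ℝ) : ℂ) - 2 := by
    push_cast
    ring
  rw [h5, ← h4]
  ring

theorem norm_hat_le {a : ℤ → ℤ → ℝ} {s : Finset (ℤ × ℤ)} (hs : Sup a s) {B : ℝ}
    (hB : ∀ j x, |a j x| ≤ B) (θ k : ℝ) : ‖hat a θ k‖ ≤ s.card * B := by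
  rw [hat_eq hs]
  refine (norm_sum_le _ _).trans ?_
  rw [← nsmul_eq_mul]
  refine Finset.sum_le_card_nsmul _ _ _ fun p _ => ?_
  rw [norm_mul, norm_chr, mul_one, Complex.norm_real, Real.norm_eq_abs]
  exact hB _ _

theorem norm_exp_sub_one (x : ℝ) : ‖Complex.exp (Complex.I * (x : ℂ)) - 1‖ ≤ |x| := by
  have h := Real.norm_exp_I_mul_ofReal_sub_one_le (x := x)
  simpa only [ge_iff_le, Real.norm_eq_abs] using h

theorem norm_hat_le' {a : ℤ → ℤ → ℝ} {s : Finset (ℤ × ℤ)} (hs : Sup a s) {B N : ℝ}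
    (hB : ∀ j x, |a j x| ≤ B) (h0 : ∑ p ∈ s, a p.1 p.2 = 0)
    (hN : ∀ p ∈ s, |(p.1 : ℝ)| ≤ N ∧ |(p.2 : ℝ)| ≤ N) (θ k : ℝ) :
    ‖hat a θ k‖ ≤ s.card * B * N * (|θ| + |k|) := by
  have h1 : hat a θ k = ∑ p ∈ s, (a p.1 p.2 : ℂ) * (chr θ k p - 1) := by
    rw [hat_eq hs]
    simp_rw [mul_sub, mul_one]
    rw [Finset.sum_sub_distrib]
    have : ∑ p ∈ s, (a p.1 p.2 : ℂ) = 0 := by
      rw [← Complex.ofReal_sum, h0, Complex.ofReal_zero]
    rw [this, sub_zero]
  have hB0 : 0 ≤ B := (abs_nonneg _).trans (hB 0 0)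
  rw [h1]
  refine (norm_sum_le _ _).trans ?_
  have h2 : ∀ p ∈ s, ‖(a p.1 p.2 : ℂ) * (chr θ k p - 1)‖ ≤ B * N * (|θ| + |k|) := by
    intro p hp
    rw [norm_mul, Complex.norm_real, Real.norm_eq_abs, mul_assoc]
    refine mul_le_mul (hB _ _) ?_ (norm_nonneg _) hB0
    unfold chr
    refine (norm_exp_sub_one _).trans ?_
    refine (abs_add_le _ _).trans ?_
    rw [abs_mul, abs_mul]
    have h3 := hN p hp
    nlinarith only [h3, abs_nonneg θ, abs_nonneg k]
  refine (Finset.sum_le_card_nsmul _ _ _ h2).trans ?_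
  rw [nsmul_eq_mul]
  exact le_of_eq (by ring)

theorem two_sub_cos_ge (x : ℝ) (hx : |x| ≤ π) : 4 / π ^ 2 * x ^ 2 ≤ 2 - 2 * Real.cos x := by
  have h := Real.cos_le_one_sub_mul_cos_sq hx
  have h4 : 4 / π ^ 2 * x ^ 2 = 2 * (2 / π ^ 2 * x ^ 2) := by ring
  rw [h4]
  linarith

end Vale.Agent.P153.TwoPt
end

section

/-!
# P153, two-point part: bounds and limit of the discrete Fourier transform of the weights
-/

open MeasureTheory ProbabilityTheory Filter Topology Set
open scoped ENNReal Real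

namespace Vale.Agent.P153.TwoPt

/-- the box of lattice points with coordinates at most `T`. -/
noncomputable def bx (T : ℝ) : Finset (ℤ × ℤ) := Finset.Icc (-⌊T⌋) ⌊T⌋ ×ˢ Finset.Icc (-⌊T⌋) ⌊T⌋

theorem mem_bx {T : ℝ} {p : ℤ × ℤ} : p ∈ bx T ↔ |(p.1 : ℝ)| ≤ T ∧ |(p.2 : ℝ)| ≤ T := by
  unfold bx
  rw [Finset.mem_product, Finset.mem_Icc, Finset.mem_Icc, abs_le, abs_le]
  have key : ∀ x : ℤ, (-⌊T⌋ ≤ x ∧ x ≤ ⌊T⌋) ↔ (-T ≤ (x : ℝ) ∧ (x : ℝ) ≤ T) := by
    intro x
    rw [Int.le_floor, neg_le, Int.le_floor, Int.cast_neg, neg_le]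
  rw [key, key]

theorem card_bx {T : ℝ} (hT : 0 ≤ T) : ((bx T).card : ℝ) ≤ (2 * T + 1) ^ 2 := by
  unfold bx
  rw [Finset.card_product, Int.card_Icc]
  have h1 : 0 ≤ ⌊T⌋ := Int.floor_nonneg.2 hT
  have h2 : ((⌊T⌋ + 1 - -⌊T⌋).toNat : ℝ) = 2 * ⌊T⌋ + 1 := by
    have : ((⌊T⌋ + 1 - -⌊T⌋).toNat : ℤ) = 2 * ⌊T⌋ + 1 := by omega
    exact_mod_cast this
  push_cast
  rw [h2, ← sq]
  have h3 := Int.floor_le T
  have h4 : (0 : ℝ) ≤ ⌊T⌋ := by exact_mod_cast h1
  gcongr

theorem card_bx' {A L : ℝ} (hA : 0 ≤ A) (hL : 1 ≤ L) :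
    ((bx (A * L)).card : ℝ) ≤ (2 * A + 1) ^ 2 * L ^ 2 := by
  refine (card_bx (by positivity)).trans ?_
  rw [← mul_pow]
  refine pow_le_pow_left₀ (by (clear * - hA hL; positivity)) ?_ 2
  linarith

section
variable {f : ℝ × ℝ → ℝ} {L : ℕ → ℝ} {a : ℕ → ℤ → ℤ → ℝ} {M : ℝ}

theorem Disc.sup (h : Disc f L a M) {A : ℝ} (hA : M ≤ A) (n : ℕ) : Sup (a n) (bx (A * L n)) := by
  intro p hp
  rw [mem_bx, not_and_or, not_le, not_le] at hp
  have hL := h.L_pos n
  refine h.supp n p.1 p.2 ?_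
  rcases hp with hp | hp
  · left
    exact lt_of_le_of_lt (by (clear * - hA hL; gcongr)) hp
  · right
    exact lt_of_le_of_lt (by gcongr) hp

theorem Disc.sum_zero' (h : Disc f L a M) {A : ℝ} (hA : M ≤ A) (n : ℕ) :
    ∑ p ∈ bx (A * L n), a n p.1 p.2 = 0 := by
  rw [← h.sum_zero n]
  refine (finsum_eq_sum_of_support_subset _ ?_).symm
  intro p hp
  by_contra h2
  exact hp (h.sup hA n p h2)

theorem Disc.bound (h : Disc f L a M) : ∃ B > 0, ∀ᶠ n in atTop, ∀ j x, |a n j x| ≤ B / L n ^ 2 := by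
  obtain ⟨Cf, hCf⟩ := h.f_supp.exists_bound_of_continuous h.f_cont
  have hC0 : 0 ≤ Cf := (norm_nonneg _).trans (hCf 0)
  refine ⟨Cf + 1, by positivity, ?_⟩
  filter_upwards [h.close 1 one_pos] with n hn j x
  have hL : 0 < L n := by linarith [h.L_pos n]
  rw [le_div_iff₀ (by positivity)]
  have h1 := hn j x
  have h2 := hCf (j / L n, x / L n)
  rw [Real.norm_eq_abs] at h2
  have h3 : |L n ^ 2 * a n j x| ≤ Cf + 1 := by
    have := abs_sub_abs_le_abs_sub (L n ^ 2 * a n j x) (f (j / L n, x / L n))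
    linarith
  rw [abs_mul, abs_of_pos (by positivity)] at h3
  linarith only [h3]

theorem Disc.hat_bounds (h : Disc f L a M) : ∃ C1 > 0, ∀ᶠ n in atTop, ∀ θ k : ℝ, |θ| ≤ π →
    |k| ≤ π → ‖hat (a n) θ k‖ ≤ C1 * L n * (|θ| + |k|) ∧
    ‖hat (a n) θ k‖ * (L n ^ 2 * θ ^ 2) ≤ C1 ∧ ‖hat (a n) θ k‖ * (L n ^ 2 * k ^ 2) ≤ C1 := by
  obtain ⟨B, hB, hb⟩ := h.bound
  have hM := h.M_pos
  have hpi := Real.pi_pos
  set C1 : ℝ := (2 * M + 1) ^ 2 * B * M + π ^ 2 / 4 * ((2 * (M + 1) + 1) ^ 2 * M) with hC1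
  refine ⟨C1, by (clear * - hM hB; positivity), ?_⟩
  filter_upwards [hb] with n hn θ k hθ hk
  have hL1 := h.L_pos n
  have hL : 0 < L n := by linarith only [hL1]
  have hdiff : ∀ (x : ℝ), |x| ≤ π → ∀ b : ℤ → ℤ → ℝ, (∀ j x, |b j x| ≤ M / L n ^ 4) →
      Sup b (bx ((M + 1) * L n)) → hat b θ k = -((2 - 2 * Real.cos x : ℝ) : ℂ) * hat (a n) θ k →
      ‖hat (a n) θ k‖ * (L n ^ 2 * x ^ 2) ≤ C1 := by
    intro x hx b hb1 hb2 hb3
    have h1 := norm_hat_le hb2 hb1 θ k
    have h2 := card_bx' (A := M + 1) (by positivity) hL1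
    have h3 : ‖hat b θ k‖ ≤ (2 * (M + 1) + 1) ^ 2 * M / L n ^ 2 := by
      refine h1.trans ?_
      calc ((bx ((M + 1) * L n)).card : ℝ) * (M / L n ^ 4)
          ≤ ((2 * (M + 1) + 1) ^ 2 * L n ^ 2) * (M / L n ^ 4) := by (clear * - h2 hM hL1; gcongr)
        _ = _ := by
          (clear * - hL1 hM; field_simp)
    have h4 := two_sub_cos_ge x hx
    have h5 : 0 ≤ 2 - 2 * Real.cos x := by linarith only [Real.cos_le_one x]
    rw [hb3, norm_mul, norm_neg, Complex.norm_real, Real.norm_of_nonneg h5,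
      le_div_iff₀ (by positivity)] at h3
    have h6 : ‖hat (a n) θ k‖ * (L n ^ 2 * x ^ 2) ≤ π ^ 2 / 4 * ((2 * (M + 1) + 1) ^ 2 * M) := by
      calc ‖hat (a n) θ k‖ * (L n ^ 2 * x ^ 2)
          = π ^ 2 / 4 * ((4 / π ^ 2 * x ^ 2) * ‖hat (a n) θ k‖ * L n ^ 2) := by
            (clear * - hL1; field_simp)
        _ ≤ π ^ 2 / 4 * ((2 - 2 * Real.cos x) * ‖hat (a n) θ k‖ * L n ^ 2) := by (clear * - h4 hL1; gcongr)
        _ ≤ _ := by (clear * - h3; gcongr)
    have h7 : 0 ≤ (2 * M + 1) ^ 2 * B * M := by positivity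
    rw [hC1]
    linarith only [h6, h7]
  have hsup := h.sup (le_refl M) n
  have hsup1 : Sup (fun j x => a n (j + 1) x - 2 * a n j x + a n (j - 1) x) (bx ((M + 1) * L n)) := by
    intro p hp
    have hout : ∀ q : ℤ × ℤ, |q.1 - p.1| ≤ 1 → q.2 = p.2 → a n q.1 q.2 = 0 := by
      intro q hq1 hq2
      refine h.supp n _ _ ?_
      rw [mem_bx, not_and_or, not_le, not_le] at hp
      have hq3 : |(q.1 : ℝ) - p.1| ≤ 1 := by exact_mod_cast hq1
      rcases hp with hp | hp
      · left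
        have := abs_sub_abs_le_abs_sub (p.1 : ℝ) (q.1 : ℝ)
        rw [abs_sub_comm] at this
        nlinarith only [hL1, hq3, hp, this]
      · right
        rw [hq2]
        nlinarith only [hL1, hp]
    have h1 := hout (p.1 + 1, p.2) (by simp) rfl
    have h2 := hout (p.1, p.2) (by simp) rfl
    have h3 := hout (p.1 - 1, p.2) (by simp) rfl
    simp only at h1 h2 h3
    simp only [h1, h2, h3]
    ring
  have hsup2 : Sup (fun j x => a n j (x + 1) - 2 * a n j x + a n j (x - 1)) (bx ((M + 1) * L n)) := by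
    intro p hp
    have hout : ∀ q : ℤ × ℤ, |q.2 - p.2| ≤ 1 → q.1 = p.1 → a n q.1 q.2 = 0 := by
      intro q hq1 hq2
      refine h.supp n _ _ ?_
      rw [mem_bx, not_and_or, not_le, not_le] at hp
      have hq3 : |(q.2 : ℝ) - p.2| ≤ 1 := by exact_mod_cast hq1
      rcases hp with hp | hp
      · left
        rw [hq2]
        nlinarith only [hL1, hp]
      · right
        have := abs_sub_abs_le_abs_sub (p.2 : ℝ) (q.2 : ℝ)
        rw [abs_sub_comm] at this
        linarith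
    have h1 := hout (p.1, p.2 + 1) (by simp) rfl
    have h2 := hout (p.1, p.2) (by simp) rfl
    have h3 := hout (p.1, p.2 - 1) (by simp) rfl
    simp only at h1 h2 h3
    simp only [h1, h2, h3]
    ring
  refine ⟨?_, ?_, ?_⟩
  · have h1 := norm_hat_le' hsup hn (h.sum_zero' (le_refl M) n)
      (fun p hp => mem_bx.1 hp) θ k
    refine h1.trans ?_
    have h2 := card_bx' (A := M) hM.le hL1
    calc ((bx (M * L n)).card : ℝ) * (B / L n ^ 2) * (M * L n) * (|θ| + |k|)
        ≤ ((2 * M + 1) ^ 2 * L n ^ 2) * (B / L n ^ 2) * (M * L n) * (|θ| + |k|) := by gcongr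
      _ = ((2 * M + 1) ^ 2 * B * M) * L n * (|θ| + |k|) := by
        (clear * - hB hL1 hM; field_simp)
      _ ≤ C1 * L n * (|θ| + |k|) := by
        have : (2 * M + 1) ^ 2 * B * M ≤ C1 := by
          rw [hC1]
          have : 0 ≤ π ^ 2 / 4 * ((2 * (M + 1) + 1) ^ 2 * M) := by positivity
          linarith only [this]
        (clear * - this hL1; gcongr)
  · exact hdiff θ hθ _ (h.diff1 n) hsup1 (hat_diff1 hsup θ k)
  · exact hdiff k hk _ (h.diff2 n) hsup2 (hat_diff2 hsup θ k)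

/-- elementary decay. -/
theorem decay {b w q C1 : ℝ} (hb : 0 ≤ b) (h1 : b ≤ C1 * (|w| + |q|))
    (h2 : b * w ^ 2 ≤ C1) (h3 : b * q ^ 2 ≤ C1) :
    b ^ 2 * (1 + (w ^ 2 + q ^ 2)) ^ 3 ≤ 24 * C1 ^ 2 * (w ^ 2 + q ^ 2) := by
  set s := w ^ 2 + q ^ 2 with hs
  have hs0 : 0 ≤ s := by positivity
  have h4 : b * s ≤ 2 * C1 := by rw [hs]; linarith
  have h5 : b ^ 2 ≤ 2 * C1 ^ 2 * s := by
    have h6 : b ^ 2 ≤ (C1 * (|w| + |q|)) ^ 2 := pow_le_pow_left₀ hb h1 2
    have h7 : (|w| + |q|) ^ 2 ≤ 2 * s := by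
      rw [hs, ← sq_abs w, ← sq_abs q]
      nlinarith only [sq_nonneg (|w| - |q|)]
    calc b ^ 2 ≤ (C1 * (|w| + |q|)) ^ 2 := h6
      _ = C1 ^ 2 * (|w| + |q|) ^ 2 := by ring
      _ ≤ C1 ^ 2 * (2 * s) := by (clear * - h7; gcongr)
      _ = _ := by ring
  have h8 : (b * s) ^ 2 ≤ (2 * C1) ^ 2 := pow_le_pow_left₀ (by (clear * - hb; positivity)) h4 2
  have h9 : (1 + s) ^ 3 ≤ 4 * (1 + s ^ 3) := by nlinarith only [hs0, sq_nonneg (s - 1)]
  calc b ^ 2 * (1 + s) ^ 3 ≤ b ^ 2 * (4 * (1 + s ^ 3)) := by (clear * - h9; gcongr)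
    _ = 4 * b ^ 2 + 4 * ((b * s) ^ 2 * s) := by ring
    _ ≤ 4 * (2 * C1 ^ 2 * s) + 4 * ((2 * C1) ^ 2 * s) := by gcongr
    _ = _ := by ring

theorem norm_sq_le (z : ℝ × ℝ) : ‖z‖ ^ 2 ≤ z.1 ^ 2 + z.2 ^ 2 := by
  rw [Prod.norm_def]
  rcases max_cases ‖z.1‖ ‖z.2‖ with h | h
  · rw [h.1, Real.norm_eq_abs, sq_abs]
    nlinarith only []
  · rw [h.1, Real.norm_eq_abs, sq_abs]
    nlinarith only []

theorem integrable_dom : Integrable fun z : ℝ × ℝ => (1 + ‖z‖ ^ 2) ^ (-(3 : ℝ) / 2) := by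
  refine integrable_rpow_neg_one_add_norm_sq ?_
  rw [Module.finrank_prod, Module.finrank_self]
  norm_num

theorem hat_lim (h : Disc f L a M) (w q : ℝ) :
    Tendsto (fun n => hat (a n) (w / L n) (q / L n)) atTop (𝓝 (FT f w q)) := by
  set F : ℝ × ℝ → ℂ := fun z => (f z : ℂ) * Complex.exp (Complex.I * ((w * z.1 + q * z.2 : ℝ) : ℂ))
    with hF
  have hFc : Continuous F := by
    have := h.f_cont
    rw [hF]
    fun_prop
  have hFs : HasCompactSupport F := by
    rw [hF]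
    exact (h.f_supp.comp_left (g := fun x : ℝ => (x : ℂ)) (by simp)).mul_right
  obtain ⟨R, hR⟩ := h.f_supp.isCompact.isBounded.subset_closedBall (0 : ℝ × ℝ)
  have hM := h.M_pos
  set A : ℝ := max M R with hA
  have hMA : M ≤ A := le_max_left _ _
  have hRA : R ≤ A := le_max_right _ _
  have hA0 : 0 < A := by linarith only [hM, hMA]
  have hout : ∀ n, ∀ p : ℤ × ℤ, p ∉ bx (A * L n) → f (p.1 / L n, p.2 / L n) = 0 := by
    intro n p hp
    have hL : 0 < L n := by linarith only [h.L_pos n]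
    by_contra hne
    have h1 := hR (subset_tsupport _ (Function.mem_support.2 hne))
    rw [mem_closedBall_zero_iff, Prod.norm_def] at h1
    refine hp (mem_bx.2 ?_)
    have h2 := (le_max_left _ _).trans h1
    have h3 := (le_max_right _ _).trans h1
    simp only [Real.norm_eq_abs, abs_div, abs_of_pos hL] at h2 h3
    rw [div_le_iff₀ hL] at h2 h3
    exact ⟨h2.trans (by (clear * - hRA hL; gcongr)), h3.trans (by gcongr)⟩
  have hLi : Tendsto (fun n => 1 / L n) atTop (𝓝 0) := by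
    simp_rw [one_div]
    exact h.L_top.inv_tendsto_atTop
  have hr := riemann2 F hFc hFs (fun n => 1 / L n) (fun n => 1 / L n)
    (fun n => by have := h.L_pos n; positivity) (fun n => by have := h.L_pos n; positivity) hLi hLi
    (fun n => bx (A * L n)) (fun n p hp => by
      rw [hF]
      simp only [mul_one_div]
      rw [hout n p hp]
      simp only [Complex.ofReal_zero, Complex.ofReal_add, Complex.ofReal_mul, Complex.ofReal_div, Complex.ofReal_intCast, zero_mul])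
  have hFT : ∫ z, F z = FT f w q := rfl
  rw [hFT] at hr
  refine tendsto_of_tendsto_of_dist hr ?_
  rw [Metric.tendsto_atTop]
  intro ε hε
  set D : ℝ := (2 * A + 1) ^ 2 with hD
  have hD0 : 0 < D := by positivity
  obtain ⟨n0, hn0⟩ := eventually_atTop.1 (h.close (ε / (2 * D)) (by positivity))
  refine ⟨n0, fun n hn => ?_⟩
  have hL1 := h.L_pos n
  have hL : 0 < L n := by linarith only [hL1]
  rw [Real.dist_eq, sub_zero, abs_of_nonneg dist_nonneg, dist_comm, dist_eq_norm,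
    hat_eq (h.sup hMA n), Finset.smul_sum, ← Finset.sum_sub_distrib]
  have hterm : ∀ p ∈ bx (A * L n), ‖(a n p.1 p.2 : ℂ) * chr (w / L n) (q / L n) p -
      (1 / L n * (1 / L n)) • F (p.1 * (1 / L n), p.2 * (1 / L n))‖ ≤ ε / (2 * D) / L n ^ 2 := by
    intro p _
    have h1 : F (p.1 * (1 / L n), p.2 * (1 / L n)) =
        (f (p.1 / L n, p.2 / L n) : ℂ) * chr (w / L n) (q / L n) p := by
      rw [hF]
      unfold chr
      simp only [mul_one_div]
      congr 4
      ring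
    rw [h1, Complex.real_smul, ← mul_assoc, ← sub_mul, norm_mul, norm_chr, mul_one,
      ← Complex.ofReal_mul, ← Complex.ofReal_sub, Complex.norm_real, Real.norm_eq_abs]
    have h2 := hn0 n hn p.1 p.2
    have h3 : a n p.1 p.2 - 1 / L n * (1 / L n) * f (p.1 / L n, p.2 / L n) =
        (L n ^ 2 * a n p.1 p.2 - f (p.1 / L n, p.2 / L n)) / L n ^ 2 := by
      (clear * - hL1; field_simp)
    rw [h3, abs_div, abs_of_pos (by positivity : 0 < L n ^ 2)]
    (clear * - h2 hL1; gcongr)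
  refine lt_of_le_of_lt (norm_sum_le_of_le _ hterm) ?_
  rw [Finset.sum_const, nsmul_eq_mul]
  have h4 := card_bx' hA0.le hL1
  calc ((bx (A * L n)).card : ℝ) * (ε / (2 * D) / L n ^ 2)
      ≤ (D * L n ^ 2) * (ε / (2 * D) / L n ^ 2) := by gcongr
    _ = ε / 2 := by
      (clear * - hD0 hL1 hε; field_simp)
    _ < ε := by linarith only [hε]

end

end Vale.Agent.P153.TwoPt
end

section

/-!
P145, X-level: the four outer regions of the pinwheel of a cell, and the partition of a test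
function along the corridors.
-/

set_option autoImplicit false

namespace Vale.Agent.P145.X

open Filter Topology Set MeasureTheory
open Vale.Agent.P145.PT

/-- Smooth step. -/
noncomputable def T (t : ℝ) : ℝ := Real.smoothTransition t

theorem T_nonneg (t : ℝ) : 0 ≤ T t := Real.smoothTransition.nonneg t
theorem T_le (t : ℝ) : T t ≤ 1 := Real.smoothTransition.le_one t
theorem T_zero {t : ℝ} (h : t ≤ 0) : T t = 0 := Real.smoothTransition.zero_of_nonpos h
theorem T_one {t : ℝ} (h : 1 ≤ t) : T t = 1 := Real.smoothTransition.one_of_one_le h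
theorem T_pos {t : ℝ} (h : T t ≠ 0) : 0 < t := by
  by_contra h0
  exact h (T_zero (not_lt.1 h0))
theorem T_sm : ContDiff ℝ ((⊤ : ℕ∞) : WithTop ℕ∞) T := Real.smoothTransition.contDiff

section

variable {a b a' b' e : ℝ}

theorem mul_T_le {x y : ℝ} (_hx0 : 0 ≤ x) (hx : x ≤ 1) (hy0 : 0 ≤ y) (hy : y ≤ 1) : x * y ≤ 1 :=
  mul_le_one₀ hx hy0 hy

end

/-- lines are null sets -/
theorem line_null (p : ℝ × ℝ → ℝ) (hp : Continuous p) (h : ∀ x y y', p (x, y) = p (x, y') → y = y')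
    (c : ℝ) : ∀ᵐ z : ℝ × ℝ, p z ≠ c := by
  have hm : MeasurableSet {z : ℝ × ℝ | p z = c} :=
    (isClosed_eq hp continuous_const).measurableSet
  rw [ae_iff]
  have e : {z : ℝ × ℝ | ¬ p z ≠ c} = {z | p z = c} := by ext z; simp
  rw [e, Measure.volume_eq_prod, Measure.measure_prod_null hm]
  refine Eventually.of_forall fun x => ?_
  have hsub : (Prod.mk x ⁻¹' {z : ℝ × ℝ | p z = c}).Subsingleton := by
    intro y hy y' hy'
    have h1 : p (x, y) = c := hy
    have h2 : p (x, y') = c := hy'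
    exact h x y y' (h1.trans h2.symm)
  exact hsub.measure_zero volume

end Vale.Agent.P145.X
end
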