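import Mathlib
import Vale.Agent.P153.Bd5.B1

set_option linter.all false

section

/-!
# P153, strips: row states, transfer matrix, Perron data, window law

Sites of the triangular lattice are `(a, j) : ℤ × ℤ`; the row is `j` and the key of the site is
`p = 2 * a + j` (twice the horizontal coordinate), so `p` and `j` have the same parity. The
neighbours of `(p, j)` are `(p ± 2, j)` and `(p ± 1, j ± 1)`; the reflection in row `l` is
`(p, j) ↦ (p, 2 * l - j)`. The closed strip of half-width `N` is `|p| ≤ 2 * N`, its side sites are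
those with `2 * N - 1 ≤ |p|`, and there `h` is `0` or `1`.
-/

namespace Vale.Agent.P153.Strip

open Finset MeasureTheory

/-! ### row states -/

/-- `q` is the height of a row of parity `e` as a function of the key. -/
structure IsRow (N : ℕ) (e : ZMod 2) (q : ℤ → ℤ) : Prop where
  off : ∀ p : ℤ, 2 * (N : ℤ) < |p| → q p = 0
  odd : ∀ p : ℤ, (p : ZMod 2) ≠ e → q p = 0
  side : ∀ p : ℤ, 2 * (N : ℤ) - 1 ≤ |p| → q p = 0 ∨ q p = 1
  lip : ∀ p : ℤ, |q p - q (p + 2)| ≤ 1

/-- The row states of the strip of half-width `N`. -/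
def RowSt (N : ℕ) : Type := {s : ZMod 2 × (ℤ → ℤ) // IsRow N s.1 s.2}

/-- The parity of a row state. -/
def RowSt.par {N : ℕ} (x : RowSt N) : ZMod 2 := x.1.1

/-- The height of a row state at the key `p`. -/
def RowSt.ht {N : ℕ} (x : RowSt N) (p : ℤ) : ℤ := x.1.2 p

/-- Two row states can be consecutive rows. -/
def Compat {N : ℕ} (x y : RowSt N) : Prop :=
  y.par = x.par + 1 ∧ ∀ p : ℤ, |x.ht p - y.ht (p + 1)| ≤ 1 ∧ |x.ht p - y.ht (p - 1)| ≤ 1

open Classical in
/-- The transfer matrix. -/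
noncomputable def Amat (N : ℕ) (x y : RowSt N) : ℝ := if Compat x y then 1 else 0

/-! ### Perron data and the window law -/

/-- A symmetric nonnegative kernel on a finite set which changes the parity, with a positive
eigenvector normalised on both parity classes. -/
structure PData (X : Type*) [Fintype X] where
  A : X → X → ℝ
  psi : X → ℝ
  lam : ℝ
  par : X → ZMod 2
  symm : ∀ x y, A x y = A y x
  nn : ∀ x y, 0 ≤ A x y
  pos : ∀ x, 0 < psi x
  lpos : 0 < lam
  eig : ∀ x, ∑ y, A x y * psi y = lam * psi x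
  flip : ∀ x y, A x y ≠ 0 → par y = par x + 1
  nrm : ∀ e : ZMod 2, ∑ x, (if par x = e then psi x ^ 2 else 0) = 1

variable {X : Type*} [Fintype X]

/-- The transition probabilities. -/
noncomputable def PData.P (D : PData X) (x y : X) : ℝ := D.A x y * D.psi y / (D.lam * D.psi x)

/-- The weight of a path of `n + 1` rows whose first row has parity `e`. -/
noncomputable def PData.W (D : PData X) (e : ZMod 2) (n : ℕ) (q : Fin (n + 1) → X) : ℝ :=
  (if D.par (q 0) = e then D.psi (q 0) ^ 2 else 0) *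
    ∏ i : Fin n, D.P (q i.castSucc) (q i.succ)

/-- The transition operator. -/
noncomputable def PData.T (D : PData X) (f : X → ℝ) (x : X) : ℝ := ∑ y, D.P x y * f y

/-- Paths of `n + 1` rows, with all subsets measurable. -/
def Path (X : Type*) (n : ℕ) : Type _ := Fin (n + 1) → X

instance (X : Type*) (n : ℕ) : MeasurableSpace (Path X n) := ⊤

instance (X : Type*) [Fintype X] (n : ℕ) : Fintype (Path X n) :=
  inferInstanceAs (Fintype (Fin (n + 1) → X))

/-- The window law. -/
noncomputable def PData.mu (D : PData X) (e : ZMod 2) (n : ℕ) : Measure (Path X n) :=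
  ∑ q : Path X n, ENNReal.ofReal (D.W e n q) • Measure.dirac q

/-- The sigma-algebra of the rows `0, ..., l` of a path. -/
@[reducible] def Fl (X : Type*) (n : ℕ) (l : ℤ) : MeasurableSpace (Path X n) :=
  MeasurableSpace.comap (fun q : Path X n => fun i : Fin (n + 1) =>
    if (i : ℤ) ≤ l then some (q i) else none) (⊤ : MeasurableSpace (Fin (n + 1) → Option X))

/-! ### the window of rows `-M, ..., M` of a strip -/

/-- The key of a site. -/
def key (v : ℤ × ℤ) : ℤ := 2 * v.1 + v.2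

end Vale.Agent.P153.Strip
end

section

/-!
# P153, strips: the Markov property of the window law, the reflection identity
-/

namespace Vale.Agent.P153.Strip

open Finset MeasureTheory

variable {X : Type*} [Fintype X]

theorem ch_sum_snoc {n : ℕ} (F : (Fin (n + 2) → X) → ℝ) :
    ∑ q, F q = ∑ q : Fin (n + 1) → X, ∑ x, F (Fin.snoc (α := fun _ => X) q x) := by
  rw [← (Fin.snocEquiv (fun _ : Fin (n + 2) => X)).sum_comp, Fintype.sum_prod_type_right]
  rfl

namespace PData

variable (D : PData X)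

theorem W_snoc (e : ZMod 2) (n : ℕ) (q : Fin (n + 1) → X) (x : X) :
    D.W e (n + 1) (Fin.snoc (α := fun _ => X) q x) = D.W e n q * D.P (q (Fin.last n)) x := by
  unfold W
  rw [Fin.prod_univ_castSucc, ← mul_assoc]
  have h0 : (Fin.snoc (α := fun _ => X) q x : Fin (n + 2) → X) 0 = q 0 := by
    have : (0 : Fin (n + 2)) = Fin.castSucc (0 : Fin (n + 1)) := rfl
    rw [this, Fin.snoc_castSucc]
  have h1 : (Fin.snoc (α := fun _ => X) q x : Fin (n + 2) → X) (Fin.last n).castSucc =
      q (Fin.last n) := by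
    rw [Fin.snoc_castSucc]
  have h2 : (Fin.snoc (α := fun _ => X) q x : Fin (n + 2) → X) (Fin.last n).succ = x := by
    rw [Fin.succ_last, Fin.snoc_last]
  rw [h0, h1, h2]
  congr 2
  apply Finset.prod_congr rfl
  intro i _
  rw [Fin.snoc_castSucc, ← Fin.castSucc_succ, Fin.snoc_castSucc]

theorem P_nonneg (x y : X) : 0 ≤ D.P x y :=
  div_nonneg (mul_nonneg (D.nn x y) (D.pos y).le) (mul_pos D.lpos (D.pos x)).le

theorem sum_P (x : X) : ∑ y, D.P x y = 1 := by
  unfold P
  rw [← Finset.sum_div, D.eig x]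
  exact div_self (mul_pos D.lpos (D.pos x)).ne'

theorem W_nn (e : ZMod 2) (n : ℕ) (q : Fin (n + 1) → X) : 0 ≤ D.W e n q := by
  unfold W
  refine mul_nonneg ?_ (Finset.prod_nonneg fun i _ => D.P_nonneg _ _)
  split_ifs
  · exact sq_nonneg _
  · exact le_rfl

/-- The expectation over paths. -/
noncomputable def EE (e : ZMod 2) (n : ℕ) (F : (Fin (n + 1) → X) → ℝ) : ℝ :=
  ∑ q, D.W e n q * F q

theorem EE_snoc (e : ZMod 2) (n : ℕ) (F : (Fin (n + 2) → X) → ℝ) :
    D.EE e (n + 1) F =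
      D.EE e n fun q => ∑ x, D.P (q (Fin.last n)) x * F (Fin.snoc (α := fun _ => X) q x) := by
  unfold EE
  rw [ch_sum_snoc]
  apply Finset.sum_congr rfl
  intro q _
  rw [Finset.mul_sum]
  apply Finset.sum_congr rfl
  intro x _
  rw [D.W_snoc]
  ring

/-- `u` depends only on the rows `0, ..., l`. -/
def DepLe {n : ℕ} (l : ℕ) (u : (Fin (n + 1) → X) → ℝ) : Prop :=
  ∀ q q' : Fin (n + 1) → X, (∀ i : Fin (n + 1), (i : ℕ) ≤ l → q i = q' i) → u q = u q'

theorem EE_one (e : ZMod 2) (n : ℕ) : D.EE e n (fun _ => 1) = 1 := by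
  induction n with
  | zero =>
    unfold EE W
    simp only [Finset.univ_eq_empty, Finset.prod_empty, mul_one]
    rw [← (Equiv.funUnique (Fin 1) X).symm.sum_comp]
    exact D.nrm e
  | succ n ih =>
    rw [D.EE_snoc]
    simp only [mul_one, D.sum_P]
    exact ih

/-- The Markov property. -/
theorem EE_markov (e : ZMod 2) (f : X → ℝ) : ∀ (n : ℕ) (l m : Fin (n + 1)), l ≤ m →
    ∀ u : (Fin (n + 1) → X) → ℝ, DepLe (l : ℕ) u →
      D.EE e n (fun q => u q * f (q m)) =
        D.EE e n (fun q => u q * (D.T)^[(m : ℕ) - l] f (q l)) := by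
  intro n
  induction n generalizing f with
  | zero =>
    intro l m hlm u _
    have hl : l = m := Fin.ext (by omega)
    subst hl
    simp
  | succ n ih =>
    intro l m hlm u hu
    rcases eq_or_lt_of_le hlm with h | hlt
    · subst h
      simp
    -- now `l < m`, so `l ≤ n`
    have hl : (l : ℕ) < n + 1 := lt_of_lt_of_le (Fin.lt_def.1 hlt) (Nat.lt_succ_iff.1 m.2)
    set l' : Fin (n + 1) := ⟨l, hl⟩ with hl'
    have hlc : l = l'.castSucc := Fin.ext rfl
    have hu' : DepLe (l' : ℕ) (fun q : Fin (n + 1) → X => u (Fin.snoc (α := fun _ => X) q (q 0))) := by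
      intro q q' hqq
      apply hu
      intro i hi
      have hi2 : (i : ℕ) < n + 1 := lt_of_le_of_lt hi hl
      have hic : i = (⟨i, hi2⟩ : Fin (n + 1)).castSucc := Fin.ext rfl
      rw [hic, Fin.snoc_castSucc, Fin.snoc_castSucc]
      exact hqq _ hi
    have hux : ∀ (q : Fin (n + 1) → X) (x : X), u (Fin.snoc (α := fun _ => X) q x) =
        u (Fin.snoc (α := fun _ => X) q (q 0)) := by
      intro q x
      apply hu
      intro i hi
      have hi2 : (i : ℕ) < n + 1 := lt_of_le_of_lt hi hl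
      have hic : i = (⟨i, hi2⟩ : Fin (n + 1)).castSucc := Fin.ext rfl
      rw [hic, Fin.snoc_castSucc, Fin.snoc_castSucc]
    -- the right-hand side, last row summed out
    have hR : ∀ g : X → ℝ, D.EE e (n + 1) (fun q => u q * g (q l)) =
        D.EE e n (fun q => u (Fin.snoc (α := fun _ => X) q (q 0)) * g (q l')) := by
      intro g
      rw [D.EE_snoc]
      congr 1
      funext q
      have : ∀ x, D.P (q (Fin.last n)) x * (u (Fin.snoc (α := fun _ => X) q x) *
          g ((Fin.snoc (α := fun _ => X) q x : Fin (n + 2) → X) l)) =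
          D.P (q (Fin.last n)) x * (u (Fin.snoc (α := fun _ => X) q (q 0)) * g (q l')) := by
        intro x
        rw [hux q x, hlc, Fin.snoc_castSucc]
      simp only [this]
      rw [← Finset.sum_mul, D.sum_P, one_mul]
    rw [hR, D.EE_snoc]
    by_cases hm : (m : ℕ) < n + 1
    · set m' : Fin (n + 1) := ⟨m, hm⟩ with hm'
      have hmc : m = m'.castSucc := Fin.ext rfl
      have h1 := ih f l' m' (Fin.le_def.2 (Fin.le_def.1 hlm)) _ hu'
      have h2 : ((m' : ℕ) - (l' : ℕ)) = (m : ℕ) - l := rfl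
      rw [h2] at h1
      rw [← h1]
      congr 1
      funext q
      have : ∀ x, D.P (q (Fin.last n)) x * (u (Fin.snoc (α := fun _ => X) q x) *
          f ((Fin.snoc (α := fun _ => X) q x : Fin (n + 2) → X) m)) =
          D.P (q (Fin.last n)) x * (u (Fin.snoc (α := fun _ => X) q (q 0)) * f (q m')) := by
        intro x
        rw [hux q x, hmc, Fin.snoc_castSucc]
      simp only [this]
      rw [← Finset.sum_mul, D.sum_P, one_mul]
    · have hmn : (m : ℕ) = n + 1 := by
        have := m.2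
        omega
      have hmc : m = Fin.last (n + 1) := Fin.ext (by simpa using hmn)
      have h1 := ih (D.T f) l' (Fin.last n) (Fin.le_last _) _ hu'
      have h2 : (m : ℕ) - l = ((Fin.last n : Fin (n + 1)) : ℕ) - (l' : ℕ) + 1 := by
        have h3 : ((Fin.last n : Fin (n + 1)) : ℕ) = n := rfl
        have h4 : (l' : ℕ) = l := rfl
        rw [h3, h4, hmn]
        omega
      rw [h2, Function.iterate_succ, Function.comp_apply, ← h1]
      congr 1
      funext q
      have : ∀ x, D.P (q (Fin.last n)) x * (u (Fin.snoc (α := fun _ => X) q x) *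
          f ((Fin.snoc (α := fun _ => X) q x : Fin (n + 2) → X) m)) =
          u (Fin.snoc (α := fun _ => X) q (q 0)) * (D.P (q (Fin.last n)) x * f x) := by
        intro x
        rw [hux q x, hmc, Fin.snoc_last]
        ring
      simp only [this]
      rw [← Finset.mul_sum]
      rfl

/-! ### stationarity and reversibility -/

/-- The stationary weight on the states of parity `c`. -/
noncomputable def pi (c : ZMod 2) (x : X) : ℝ := if D.par x = c then D.psi x ^ 2 else 0

theorem T_one : D.T (fun _ => 1) = fun _ => 1 := by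
  funext x
  unfold T
  simp only [mul_one, D.sum_P]

theorem T_iter_one (k : ℕ) : (D.T)^[k] (fun _ => 1) = fun _ => 1 := by
  induction k with
  | zero => rfl
  | succ k ih => rw [Function.iterate_succ, Function.comp_apply, D.T_one, ih]

theorem balance (c : ZMod 2) (x y : X) : D.pi c x * D.P x y = D.pi (c + 1) y * D.P y x := by
  by_cases hA : D.A x y = 0
  · have hA' : D.A y x = 0 := by rw [D.symm]; exact hA
    simp [P, hA, hA']
  · have hp := D.flip x y hA
    have hx := (D.pos x).ne'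
    have hy := (D.pos y).ne'
    have hl := D.lpos.ne'
    by_cases hc : D.par x = c
    · have hc' : D.par y = c + 1 := by rw [hp, hc]
      unfold pi P
      rw [if_pos hc, if_pos hc', D.symm y x]
      field_simp
    · have hc' : D.par y ≠ c + 1 := by
        rw [hp]
        intro h
        exact hc (add_right_cancel h)
      unfold pi
      rw [if_neg hc, if_neg hc']
      ring

theorem pi_T (c : ZMod 2) (f g : X → ℝ) :
    ∑ x, D.pi c x * (D.T f x * g x) = ∑ x, D.pi (c + 1) x * (f x * D.T g x) := by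
  have h1 : ∀ x, D.pi c x * (D.T f x * g x) = ∑ y, (D.pi c x * D.P x y) * (f y * g x) := by
    intro x
    unfold T
    rw [Finset.sum_mul, Finset.mul_sum]
    apply Finset.sum_congr rfl
    intro y _
    ring
  have h2 : ∀ y, D.pi (c + 1) y * (f y * D.T g y) =
      ∑ x, (D.pi (c + 1) y * D.P y x) * (f y * g x) := by
    intro y
    unfold T
    rw [Finset.mul_sum, Finset.mul_sum]
    apply Finset.sum_congr rfl
    intro x _
    ring
  simp only [h1, h2]
  rw [Finset.sum_comm]
  apply Finset.sum_congr rfl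
  intro y _
  apply Finset.sum_congr rfl
  intro x _
  rw [D.balance]

theorem pi_T_iter (c : ZMod 2) (k : ℕ) (f g : X → ℝ) :
    ∑ x, D.pi c x * ((D.T)^[k] f x * g x) = ∑ x, D.pi (c + k) x * (f x * (D.T)^[k] g x) := by
  induction k generalizing c g with
  | zero => simp only [Function.iterate_zero, id_eq, Nat.cast_zero, add_zero]
  | succ k ih =>
    have e1 : (D.T)^[k + 1] f = D.T ((D.T)^[k] f) := by
      rw [Function.iterate_succ']
      rfl
    rw [e1, D.pi_T, ih]
    have e2 : (c + 1 + (k : ZMod 2)) = c + ((k + 1 : ℕ) : ZMod 2) := by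
      push_cast
      ring
    rw [e2]
    rfl

theorem EE_zero_row (e : ZMod 2) (n : ℕ) (f : X → ℝ) :
    D.EE e n (fun q => f (q 0)) = ∑ x, D.pi e x * f x := by
  induction n with
  | zero =>
    unfold EE W
    simp only [Finset.univ_eq_empty, Finset.prod_empty, mul_one]
    rw [← (Equiv.funUnique (Fin 1) X).symm.sum_comp]
    rfl
  | succ n ih =>
    rw [D.EE_snoc, ← ih]
    congr 1
    funext q
    have : ∀ x, D.P (q (Fin.last n)) x * f ((Fin.snoc (α := fun _ => X) q x : Fin (n + 2) → X) 0) =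
        D.P (q (Fin.last n)) x * f (q 0) := by
      intro x
      have h0 : (0 : Fin (n + 2)) = Fin.castSucc (0 : Fin (n + 1)) := rfl
      rw [h0, Fin.snoc_castSucc]
    simp only [this]
    rw [← Finset.sum_mul, D.sum_P, one_mul]

theorem depLe_one {n : ℕ} (l : ℕ) : DepLe (X := X) (n := n) l (fun _ => 1) := fun _ _ _ => rfl

theorem depLe_row {n : ℕ} (l : Fin (n + 1)) (g : X → ℝ) :
    DepLe (X := X) (n := n) (l : ℕ) (fun q => g (q l)) := by
  intro q q' h
  simp only
  rw [h l le_rfl]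

/-- The law of one row. -/
theorem EE_row (e : ZMod 2) (n : ℕ) (m : Fin (n + 1)) (g : X → ℝ) :
    D.EE e n (fun q => g (q m)) = ∑ x, D.pi (e + (m : ℕ)) x * g x := by
  have h1 := D.EE_markov e g n 0 m (Fin.zero_le m) (fun _ => 1) (depLe_one _)
  simp only [one_mul] at h1
  rw [h1, D.EE_zero_row]
  have h2 := D.pi_T_iter e ((m : ℕ) - ((0 : Fin (n + 1)) : ℕ)) g (fun _ => 1)
  rw [D.T_iter_one] at h2
  simp only [mul_one, Fin.val_zero, Nat.sub_zero] at h2 ⊢
  exact h2

/-- The joint law of two rows. -/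
theorem EE_two (e : ZMod 2) (n : ℕ) (l m : Fin (n + 1)) (hlm : l ≤ m) (f g : X → ℝ) :
    D.EE e n (fun q => g (q l) * f (q m)) =
      ∑ x, D.pi (e + (l : ℕ)) x * (g x * (D.T)^[(m : ℕ) - l] f x) := by
  rw [D.EE_markov e f n l m hlm _ (depLe_row l g)]
  exact D.EE_row e n l (fun x => g x * (D.T)^[(m : ℕ) - l] f x)

/-- The reflection identity. -/
theorem EE_mr (e : ZMod 2) (n : ℕ) (l a b k : Fin (n + 1)) (ha : l ≤ a) (hb : l ≤ b)
    (hk : (k : ℕ) + b = 2 * l) (f g : X → ℝ) :
    D.EE e n (fun q => (D.T)^[(a : ℕ) - l] f (q l) * (D.T)^[(b : ℕ) - l] g (q l)) =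
      D.EE e n (fun q => f (q a) * g (q k)) := by
  have ha' := Fin.le_def.1 ha
  have hb' := Fin.le_def.1 hb
  have hka : k ≤ a := Fin.le_def.2 (by (clear * - ha hb hk; omega))
  have h1 : D.EE e n (fun q => f (q a) * g (q k)) =
      ∑ x, D.pi (e + (k : ℕ)) x * (g x * (D.T)^[(a : ℕ) - k] f x) := by
    rw [← D.EE_two e n k a hka f g]
    congr 1
    funext q
    ring
  rw [h1, D.EE_row e n l (fun x => (D.T)^[(a : ℕ) - l] f x * (D.T)^[(b : ℕ) - l] g x)]
  have h2 := D.pi_T_iter (e + (k : ℕ)) ((b : ℕ) - l) ((D.T)^[(a : ℕ) - l] f) g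
  have h3 : (D.T)^[(b : ℕ) - l] ((D.T)^[(a : ℕ) - l] f) = (D.T)^[(a : ℕ) - k] f := by
    rw [← Function.iterate_add_apply]
    congr 1
    omega
  rw [h3] at h2
  have h4 : e + ((k : ℕ) : ZMod 2) + (((b : ℕ) - (l : ℕ) : ℕ) : ZMod 2) = e + ((l : ℕ) : ZMod 2) := by
    rw [add_assoc, ← Nat.cast_add]
    congr 2
    (clear * - hb hk; omega)
  rw [h4] at h2
  rw [← h2]
  apply Finset.sum_congr rfl
  intro x _
  ring

/-- Invariance of the law of two rows under the reflection in a row. -/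
theorem EE_inv (e : ZMod 2) (n : ℕ) (l : ℕ) (a b a' b' : Fin (n + 1)) (ha : (a' : ℕ) + a = 2 * l)
    (hb : (b' : ℕ) + b = 2 * l) (f g : X → ℝ) :
    D.EE e n (fun q => f (q a') * g (q b')) = D.EE e n (fun q => f (q a) * g (q b)) := by
  have key : ∀ (a b a' b' : Fin (n + 1)), (a' : ℕ) + a = 2 * l → (b' : ℕ) + b = 2 * l → a ≤ b →
      ∀ f g : X → ℝ,
      D.EE e n (fun q => f (q a') * g (q b')) = D.EE e n (fun q => f (q a) * g (q b)) := by
    intro a b a' b' ha hb hab f g
    have hab' := Fin.le_def.1 hab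
    have hba : b' ≤ a' := Fin.le_def.2 (by omega)
    rw [D.EE_two e n a b hab g f]
    have h1 : D.EE e n (fun q => f (q a') * g (q b')) =
        D.EE e n (fun q => g (q b') * f (q a')) := by
      congr 1
      funext q
      ring
    rw [h1, D.EE_two e n b' a' hba f g]
    have h2 := D.pi_T_iter (e + (b' : ℕ)) ((b : ℕ) - a) f g
    have h3 : (a' : ℕ) - b' = (b : ℕ) - a := by omega
    rw [h3]
    have h4 : e + ((b' : ℕ) : ZMod 2) + (((b : ℕ) - (a : ℕ) : ℕ) : ZMod 2) =
        e + ((a : ℕ) : ZMod 2) := by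
      have h5 : ((b' : ℕ) + ((b : ℕ) - (a : ℕ))) + a + a = 2 * l + a := by (clear * - hb hab; omega)
      have h6 : (((((b' : ℕ) + ((b : ℕ) - (a : ℕ))) + a + a : ℕ)) : ZMod 2) =
          ((2 * l + a : ℕ) : ZMod 2) := by rw [h5]
      have two : (2 : ZMod 2) = 0 := rfl
      push_cast at h6
      rw [two, zero_mul, zero_add] at h6
      have h7 : ((a : ℕ) : ZMod 2) + ((a : ℕ) : ZMod 2) = 0 := by
        rw [← two_mul, two, zero_mul]
      rw [add_assoc, h7, add_zero] at h6
      rw [add_assoc]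
      congr 1
    rw [h4] at h2
    rw [← h2]
    apply Finset.sum_congr rfl
    intro x _
    ring
  rcases le_total a b with h | h
  · exact key a b a' b' ha hb h f g
  · have h1 := key b a b' a' hb ha h g f
    have e1 : ∀ c d : Fin (n + 1), (fun q : Fin (n + 1) → X => f (q c) * g (q d)) =
        fun q => g (q d) * f (q c) := by
      intro c d
      funext q
      ring
    rw [e1 a' b', e1 a b]
    exact h1

end PData

end Vale.Agent.P153.Strip
end

section

/-!
# P153, strips: Perron-Frobenius for a bipartite symmetric transfer matrix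

`A` symmetric, nonnegative, changes the parity, and some even power is positive on each parity
class. Then there is a positive eigenvector `ψ` and the powers converge on each parity class.
-/

namespace Vale.Agent.P153.Strip

open Finset Matrix Filter Topology

section pf0

variable {ι : Type*} [Fintype ι]

/-- a nonnegative quadratic form vanishes only on the kernel -/
private lemma pf_ker_of_form_zero (M : Matrix ι ι ℝ) (hM : M.IsSymm) (ε : ℝ)
    (h : ∀ x : ι → ℝ, x ⬝ᵥ M.mulVec x ≤ ε * (x ⬝ᵥ x)) (y : ι → ℝ)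
    (hy : y ⬝ᵥ M.mulVec y = ε * (y ⬝ᵥ y)) : M.mulVec y = ε • y := by
  -- the residual vector
  set r : ι → ℝ := M.mulVec y - ε • y with hr
  have hsym : ∀ a b : ι → ℝ, a ⬝ᵥ M.mulVec b = b ⬝ᵥ M.mulVec a := by
    intro a b
    rw [dotProduct_mulVec, ← mulVec_transpose, hM.eq, dotProduct_comm]
  have key : ∀ t : ℝ, 2 * t * (r ⬝ᵥ r) ≤ t ^ 2 * (ε * (r ⬝ᵥ r) - r ⬝ᵥ M.mulVec r) := by
    intro t
    have h1 := h (y + t • r)
    rw [mulVec_add, mulVec_smul, dotProduct_add, add_dotProduct, add_dotProduct, dotProduct_smul,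
      smul_dotProduct, smul_dotProduct, dotProduct_smul, add_dotProduct, dotProduct_add,
      dotProduct_add, smul_dotProduct, dotProduct_smul, smul_dotProduct, dotProduct_smul,
      hsym y r] at h1
    simp only [smul_eq_mul] at h1
    have h2 : r ⬝ᵥ M.mulVec y = r ⬝ᵥ r + ε * (r ⬝ᵥ y) := by
      have : M.mulVec y = r + ε • y := by rw [hr]; abel
      rw [this, dotProduct_add, dotProduct_smul, smul_eq_mul]
    rw [hy, h2, dotProduct_comm y r] at h1
    linarith
  have hrr : 0 ≤ r ⬝ᵥ r := Finset.sum_nonneg fun i _ => mul_self_nonneg (r i)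
  have hr0 : r ⬝ᵥ r = 0 := by
    by_contra hne
    have hpos : 0 < r ⬝ᵥ r := lt_of_le_of_ne hrr (Ne.symm hne)
    set K := ε * (r ⬝ᵥ r) - r ⬝ᵥ M.mulVec r with hK
    have hK1 : 0 < |K| + 1 := by positivity
    have h1 := key ((r ⬝ᵥ r) / (|K| + 1))
    have h2 : (r ⬝ᵥ r / (|K| + 1)) ^ 2 * K ≤ (r ⬝ᵥ r / (|K| + 1)) ^ 2 * (|K| + 1) :=
      mul_le_mul_of_nonneg_left (by linarith only [le_abs_self K]) (sq_nonneg _)
    have h3 : (r ⬝ᵥ r / (|K| + 1)) ^ 2 * (|K| + 1) = (r ⬝ᵥ r) ^ 2 / (|K| + 1) := by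
      (clear * - hne; field_simp)
    have h4 : 2 * (r ⬝ᵥ r / (|K| + 1)) * (r ⬝ᵥ r) = 2 * ((r ⬝ᵥ r) ^ 2 / (|K| + 1)) := by ring
    have h5 : 0 < (r ⬝ᵥ r) ^ 2 / (|K| + 1) := by (clear * - hrr hne; positivity)
    linarith only [h1, h2, h3, h4, h5]
  have : r = 0 := by
    funext i
    have h1 : ∑ j, r j * r j = 0 := hr0
    have h2 := (sum_eq_zero_iff_of_nonneg fun j _ => mul_self_nonneg (r j)).1 h1 i (mem_univ i)
    exact mul_self_eq_zero.1 h2
  rw [hr] at this
  exact sub_eq_zero.1 this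

/-- irreducibility -/
private def pfIrr (M : Matrix ι ι ℝ) : Prop :=
  ∀ S : Set ι, S.Nonempty → Sᶜ.Nonempty → ∃ i ∈ S, ∃ j ∉ S, 0 < M i j

/-- nonnegative nonzero eigenvectors are positive -/
private lemma pf_pos_of_nonneg_eig (M : Matrix ι ι ℝ) (hoff : ∀ i j, i ≠ j → 0 ≤ M i j) (hirr : pfIrr M)
    {ε : ℝ} {y : ι → ℝ} (hy : ∀ i, 0 ≤ y i) (hy0 : y ≠ 0) (hM : M.mulVec y = ε • y) :
    ∀ i, 0 < y i := by
  by_contra hne
  push Not at hne
  obtain ⟨i0, hi0⟩ := hne
  have h1 : ({i | y i = 0} : Set ι).Nonempty := ⟨i0, le_antisymm hi0 (hy i0)⟩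
  have h2 : ({i | y i = 0} : Set ι)ᶜ.Nonempty := by
    by_contra h
    rw [Set.not_nonempty_iff_eq_empty, Set.compl_empty_iff] at h
    apply hy0
    funext i
    have : i ∈ ({i | y i = 0} : Set ι) := by rw [h]; trivial
    exact this
  obtain ⟨i, hi, j, hj, hij⟩ := hirr _ h1 h2
  have hi' : y i = 0 := hi
  have hj' : 0 < y j := lt_of_le_of_ne (hy j) (Ne.symm hj)
  have e : ∑ k, M i k * y k = ε * y i := congrFun hM i
  rw [hi', mul_zero] at e
  have hnn : ∀ k ∈ (univ : Finset ι), 0 ≤ M i k * y k := by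
    intro k _
    by_cases hk : i = k
    · subst hk; rw [hi', mul_zero]
    · exact mul_nonneg (hoff i k hk) (hy k)
  have := (sum_eq_zero_iff_of_nonneg hnn).1 e j (mem_univ j)
  have h3 : 0 < M i j * y j := mul_pos hij hj'
  linarith only [this, h3]

/-- **Perron-Frobenius** for symmetric real matrices with nonnegative off-diagonal entries -/
private theorem pf_perron [Nonempty ι] (M : Matrix ι ι ℝ) (hM : M.IsSymm)
    (hoff : ∀ i j, i ≠ j → 0 ≤ M i j) (hirr : pfIrr M) :
    ∃ (ψ : ι → ℝ) (ε : ℝ), (∀ i, 0 < ψ i) ∧ M.mulVec ψ = ε • ψ ∧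
      (∀ φ : ι → ℝ, φ ⬝ᵥ M.mulVec φ ≤ ε * (φ ⬝ᵥ φ)) ∧
      (∀ φ : ι → ℝ, M.mulVec φ = ε • φ → ∃ c : ℝ, φ = c • ψ) := by
  classical
  -- maximum of the quadratic form on the sphere
  set K : Set (ι → ℝ) := {x | x ⬝ᵥ x = 1} with hK
  have hQ : Continuous fun x : ι → ℝ => x ⬝ᵥ M.mulVec x := by
    unfold dotProduct mulVec dotProduct
    (clear * -; fun_prop)
  have hcl : IsClosed K := by
    have : Continuous fun x : ι → ℝ => x ⬝ᵥ x := by unfold dotProduct; fun_prop
    exact isClosed_eq this continuous_const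
  have hcomp : IsCompact K := by
    refine (isCompact_univ_pi (fun _ : ι => isCompact_Icc (a := (-1 : ℝ)) (b := 1))).of_isClosed_subset
      hcl ?_
    intro x hx i _
    have h1 : ∑ j, x j * x j = 1 := hx
    have h2 : x i * x i ≤ 1 := by
      rw [← h1]
      exact single_le_sum (f := fun j => x j * x j) (fun j _ => mul_self_nonneg (x j)) (mem_univ i)
    rw [Set.mem_Icc]
    constructor <;> nlinarith
  have hne : K.Nonempty := by
    obtain ⟨i⟩ := (inferInstance : Nonempty ι)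
    refine ⟨Pi.single i 1, ?_⟩
    simp only [hK, dotProduct, Set.mem_ofPred_eq, Pi.single_apply, mul_ite, mul_one, mul_zero, sum_ite_eq', mem_univ, ↓reduceIte]
  obtain ⟨x0, hx0, hmax⟩ := hcomp.exists_isMaxOn hne hQ.continuousOn
  set ε : ℝ := x0 ⬝ᵥ M.mulVec x0 with hε
  have hform : ∀ φ : ι → ℝ, φ ⬝ᵥ M.mulVec φ ≤ ε * (φ ⬝ᵥ φ) := by
    intro φ
    have hn : 0 ≤ φ ⬝ᵥ φ := Finset.sum_nonneg fun i _ => mul_self_nonneg (φ i)
    rcases hn.eq_or_lt with h0 | hpos
    · have : φ = 0 := by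
        funext i
        have h1 : ∑ j, φ j * φ j = 0 := h0.symm
        have h2 := (sum_eq_zero_iff_of_nonneg fun j _ => mul_self_nonneg (φ j)).1 h1 i (mem_univ i)
        exact mul_self_eq_zero.1 h2
      subst this
      simp
    · set c := Real.sqrt (φ ⬝ᵥ φ) with hc
      have hc2 : c * c = φ ⬝ᵥ φ := Real.mul_self_sqrt hn
      have hcpos : 0 < c := Real.sqrt_pos.2 hpos
      have hmem : c⁻¹ • φ ∈ K := by
        simp only [hK, Set.mem_ofPred_eq, smul_dotProduct, dotProduct_smul, smul_eq_mul]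
        rw [← hc2]; (clear * - hcpos; field_simp)
      have := hmax hmem
      simp only [Set.mem_ofPred_eq, mulVec_smul, smul_dotProduct, dotProduct_smul,
        smul_eq_mul] at this
      rw [← hc2]
      have h2 : c⁻¹ * (c⁻¹ * (φ ⬝ᵥ M.mulVec φ)) * (c * c) ≤ ε * (c * c) :=
        mul_le_mul_of_nonneg_right this (by (clear * - hpos; positivity))
      have h3 : c⁻¹ * (c⁻¹ * (φ ⬝ᵥ M.mulVec φ)) * (c * c) = φ ⬝ᵥ M.mulVec φ := by
        (clear * - hcpos; field_simp)
      linarith only [h2, h3]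
  -- absolute value
  set y : ι → ℝ := fun i => |x0 i| with hy
  have hyy : y ⬝ᵥ y = 1 := by
    have : x0 ⬝ᵥ x0 = 1 := hx0
    rw [← this]
    unfold dotProduct
    exact sum_congr rfl fun i _ => abs_mul_abs_self _
  have hy1 : ε ≤ y ⬝ᵥ M.mulVec y := by
    rw [hε]
    unfold dotProduct mulVec dotProduct
    refine sum_le_sum fun i _ => ?_
    rw [mul_sum, mul_sum]
    refine sum_le_sum fun j _ => ?_
    by_cases hij : i = j
    · subst hij
      simp only [hy]
      have : |x0 i| * (M i i * |x0 i|) = M i i * (|x0 i| * |x0 i|) := by ring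
      rw [this, abs_mul_abs_self]
      exact le_of_eq (by ring)
    · have h1 : x0 i * x0 j ≤ |x0 i| * |x0 j| := by rw [← abs_mul]; exact le_abs_self _
      have h2 := mul_le_mul_of_nonneg_left h1 (hoff i j hij)
      simp only [hy]
      linarith
  have hyQ : y ⬝ᵥ M.mulVec y = ε * (y ⬝ᵥ y) := by
    apply le_antisymm (hform y)
    rw [hyy, mul_one]; exact hy1
  have hyeig := pf_ker_of_form_zero M hM ε hform y hyQ
  have hy0 : y ≠ 0 := by
    intro h; rw [h] at hyy; simp at hyy
  have hypos := pf_pos_of_nonneg_eig M hoff hirr (fun i => abs_nonneg (x0 i)) hy0 hyeig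
  refine ⟨y, ε, hypos, hyeig, hform, fun φ hφ => ?_⟩
  obtain ⟨i, -, hi⟩ := Finset.exists_min_image (univ : Finset ι) (fun i => φ i / y i) univ_nonempty
  refine ⟨φ i / y i, ?_⟩
  by_contra hne
  set z : ι → ℝ := φ - (φ i / y i) • y with hz
  have hz0 : z ≠ 0 := fun h => hne (sub_eq_zero.1 h)
  have hznn : ∀ j, 0 ≤ z j := by
    intro j
    have := hi j (mem_univ j)
    have h2 : φ i / y i * y j ≤ φ j / y j * y j := mul_le_mul_of_nonneg_right this (hypos j).le
    rw [div_mul_cancel₀ _ (hypos j).ne'] at h2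
    simp only [hz, Pi.sub_apply, Pi.smul_apply, smul_eq_mul]
    linarith only [h2]
  have hzeig : M.mulVec z = ε • z := by
    rw [hz, mulVec_sub, mulVec_smul, hφ, hyeig, smul_sub, smul_comm]
  have := pf_pos_of_nonneg_eig M hoff hirr hznn hz0 hzeig i
  simp only [hz, Pi.sub_apply, Pi.smul_apply, smul_eq_mul] at this
  rw [div_mul_cancel₀ _ (hypos i).ne', sub_self] at this
  exact lt_irrefl _ this

end pf0

section pf1

variable {X : Type*} [Fintype X] [DecidableEq X]

/-- the hypotheses on the transfer matrix -/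
structure Bip (A : X → X → ℝ) (par : X → ZMod 2) (K : ℕ) : Prop where
  symm : ∀ x y, A x y = A y x
  nn : ∀ x y, 0 ≤ A x y
  flip : ∀ x y, A x y ≠ 0 → par y = par x + 1
  one_le : 1 ≤ K
  pos : ∀ x y, par x = par y → 0 < ((Matrix.of A) ^ (2 * K)) x y

variable {A : X → X → ℝ} {par : X → ZMod 2} {K : ℕ}

lemma Bip.exists_adj (h : Bip A par K) (x : X) : ∃ y, 0 < A x y := by
  by_contra hcon
  push Not at hcon
  have h0 : ∀ y, A x y = 0 := fun y => le_antisymm (hcon y) (h.nn x y)
  have h1 := h.pos x x rfl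
  obtain ⟨k, hk⟩ : ∃ k, 2 * K = k + 1 := ⟨2 * K - 1, by have := h.one_le; omega⟩
  rw [hk, pow_succ', Matrix.mul_apply] at h1
  simp only [Matrix.of_apply, h0, zero_mul, sum_const_zero, lt_self_iff_false] at h1

lemma zmod2_ne {a b : ZMod 2} (h : a ≠ b) : a = b + 1 := by
  revert h
  revert a b
  decide

lemma zmod2_add_one_add_one (a : ZMod 2) : a + 1 + 1 = a := by
  revert a
  decide

/-- existence of the Perron data -/
theorem Bip.exists_pdata [Nonempty X] (h : Bip A par K) :
    ∃ D : PData X, D.A = A ∧ D.par = par := by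
  have hirr : ∀ S : Set X, S.Nonempty → Sᶜ.Nonempty → ∃ i ∈ S, ∃ j ∉ S, 0 < A i j := by
    intro S hS hS'
    by_contra hcon
    push Not at hcon
    have h0 : ∀ i ∈ S, ∀ j ∉ S, A i j = 0 := fun i hi j hj =>
      le_antisymm (hcon i hi j hj) (h.nn i j)
    have hn : ∀ n : ℕ, ∀ i ∈ S, ∀ j ∉ S, ((Matrix.of A) ^ n) i j = 0 := by
      intro n
      induction n with
      | zero =>
        intro i hi j hj
        rw [pow_zero, Matrix.one_apply, if_neg]
        rintro rfl
        exact hj hi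
      | succ n ih =>
        intro i hi j hj
        rw [pow_succ, Matrix.mul_apply]
        refine sum_eq_zero fun z _ => ?_
        by_cases hz : z ∈ S
        · rw [Matrix.of_apply, h0 z hz j hj, mul_zero]
        · rw [ih i hi z hz, zero_mul]
    obtain ⟨i, hi⟩ := hS
    obtain ⟨j, hj⟩ := hS'
    obtain ⟨k, hk⟩ := h.exists_adj i
    have hkS : k ∈ S := by
      by_contra hkS
      rw [h0 i hi k hkS] at hk
      exact lt_irrefl _ hk
    by_cases hp : par i = par j
    · have := h.pos i j hp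
      rw [hn _ i hi j hj] at this
      exact lt_irrefl _ this
    · have hp2 : par k = par j := by
        rw [h.flip i k hk.ne', zmod2_ne (Ne.symm hp)]
      have := h.pos k j hp2
      rw [hn _ k hkS j hj] at this
      exact lt_irrefl _ this
  obtain ⟨φ, lam, hφ, heig, -, -⟩ := pf_perron (Matrix.of A)
    (Matrix.IsSymm.ext fun i j => h.symm j i) (fun i j _ => h.nn i j) hirr
  have he : ∀ x, ∑ y, A x y * φ y = lam * φ x := fun x => congrFun heig x
  have hlam : 0 < lam := by
    obtain ⟨x⟩ := (inferInstance : Nonempty X)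
    obtain ⟨y, hy⟩ := h.exists_adj x
    have h1 : 0 < ∑ y, A x y * φ y :=
      sum_pos' (fun z _ => mul_nonneg (h.nn x z) (hφ z).le) ⟨y, mem_univ y, mul_pos hy (hφ y)⟩
    rw [he x] at h1
    exact pos_of_mul_pos_left h1 (hφ x).le
  have hS : ∀ e : ZMod 2, ∑ x, (if par x = e then φ x ^ 2 else 0) =
      ∑ x, (if par x = e + 1 then φ x ^ 2 else 0) := by
    intro e
    have h1 : ∀ e : ZMod 2, lam * ∑ x, (if par x = e then φ x ^ 2 else 0) =
        ∑ x, ∑ y, if par x = e then A x y * φ x * φ y else 0 := by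
      intro e
      rw [mul_sum]
      refine sum_congr rfl fun x _ => ?_
      split_ifs with hx
      · have h2 : lam * φ x ^ 2 = φ x * (lam * φ x) := by ring
        rw [h2, ← he x, mul_sum]
        exact sum_congr rfl fun y _ => by ring
      · simp
    have h2 : lam * ∑ x, (if par x = e then φ x ^ 2 else 0) =
        lam * ∑ x, (if par x = e + 1 then φ x ^ 2 else 0) := by
      rw [h1 e, h1 (e + 1), sum_comm]
      refine sum_congr rfl fun x _ => sum_congr rfl fun y _ => ?_
      by_cases hA : A x y = 0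
      · rw [h.symm y x, hA]; simp
      · have hf := h.flip x y hA
        by_cases hx : par x = e + 1
        · rw [if_pos hx, if_pos (by rw [hf, hx, zmod2_add_one_add_one]), h.symm y x]
          ring
        · rw [if_neg hx, if_neg]
          intro hy
          apply hx
          rw [hf] at hy
          rw [← hy, zmod2_add_one_add_one]
    exact mul_left_cancel₀ hlam.ne' h2
  set S : ℝ := ∑ x, (if par x = 0 then φ x ^ 2 else 0) with hSdef
  have hSall : ∀ e : ZMod 2, ∑ x, (if par x = e then φ x ^ 2 else 0) = S := by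
    intro e
    by_cases he0 : e = 0
    · subst he0; rfl
    · have : e = 0 + 1 := zmod2_ne he0
      rw [this, ← hS 0]
  have hSpos : 0 < S := by
    obtain ⟨x⟩ := (inferInstance : Nonempty X)
    rw [← hSall (par x)]
    refine sum_pos' (fun z _ => ?_) ⟨x, mem_univ x, ?_⟩
    · split_ifs
      · exact sq_nonneg _
      · exact le_rfl
    · rw [if_pos rfl]
      exact pow_pos (hφ x) 2
  have hsq : 0 < Real.sqrt S := Real.sqrt_pos.2 hSpos
  refine ⟨{ A := A, psi := fun x => φ x / Real.sqrt S, lam := lam, par := par, symm := h.symm,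
            nn := h.nn, pos := fun x => div_pos (hφ x) hsq, lpos := hlam, eig := fun x => ?_,
            flip := h.flip, nrm := fun e => ?_ }, rfl, rfl⟩
  · have : ∀ y, A x y * (φ y / Real.sqrt S) = (A x y * φ y) / Real.sqrt S := fun y => by ring
    simp only [this]
    rw [← sum_div, he x]
    ring
  · have : ∀ x, (if par x = e then (φ x / Real.sqrt S) ^ 2 else 0) =
        (if par x = e then φ x ^ 2 else 0) / S := by
      intro x
      split_ifs
      · rw [div_pow, Real.sq_sqrt hSpos.le]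
      · simp
    simp only [this]
    rw [← sum_div, hSall e, div_self hSpos.ne']

/-- the mean on a parity class -/
noncomputable def PData.mean (D : PData X) (e : ZMod 2) (f : X → ℝ) : ℝ :=
  ∑ x, if D.par x = e then D.psi x ^ 2 * f x else 0

variable (D : PData X)

omit [DecidableEq X] in
lemma PData.T_eq (f : X → ℝ) (x : X) :
    D.T f x = (∑ y, D.A x y * (D.psi y * f y)) / (D.lam * D.psi x) := by
  unfold PData.T PData.P
  rw [sum_div]
  exact sum_congr rfl fun y _ => by ring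

omit [DecidableEq X] in
lemma PData.abs_T_le {f : X → ℝ} {C : ℝ} (hf : ∀ x, |f x| ≤ C) (x : X) : |D.T f x| ≤ C := by
  have hx := mul_pos D.lpos (D.pos x)
  rw [D.T_eq, abs_div, abs_of_pos hx, div_le_iff₀ hx]
  calc |∑ y, D.A x y * (D.psi y * f y)| ≤ ∑ y, |D.A x y * (D.psi y * f y)| :=
        abs_sum_le_sum_abs _ _
    _ ≤ ∑ y, D.A x y * D.psi y * C := by
        refine sum_le_sum fun y _ => ?_
        rw [abs_mul, abs_mul, abs_of_nonneg (D.nn x y), abs_of_pos (D.pos y), ← mul_assoc]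
        exact mul_le_mul_of_nonneg_left (hf y) (mul_nonneg (D.nn x y) (D.pos y).le)
    _ = C * (D.lam * D.psi x) := by rw [← sum_mul, D.eig x]; ring

omit [DecidableEq X] in
lemma PData.mean_T (f : X → ℝ) (e : ZMod 2) : D.mean e (D.T f) = D.mean (e + 1) f := by
  have hl := D.lpos.ne'
  have h1 : ∀ x, (if D.par x = e then D.psi x ^ 2 * D.T f x else 0) =
      ∑ y, if D.par y = e + 1 then D.A x y * D.psi x * D.psi y * f y / D.lam else 0 := by
    intro x
    have hne := (D.pos x).ne'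
    split_ifs with hx
    · rw [D.T_eq]
      have : D.psi x ^ 2 * ((∑ y, D.A x y * (D.psi y * f y)) / (D.lam * D.psi x)) =
          (D.psi x / D.lam) * ∑ y, D.A x y * (D.psi y * f y) := by field_simp
      rw [this, mul_sum]
      refine sum_congr rfl fun y _ => ?_
      split_ifs with hy
      · (clear * - hl hne; field_simp)
      · have hA : D.A x y = 0 := by
          by_contra hA
          apply hy
          rw [D.flip x y hA, hx]
        rw [hA]; ring
    · symm
      refine sum_eq_zero fun y _ => ?_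
      split_ifs with hy
      · have hA : D.A x y = 0 := by
          by_contra hA
          apply hx
          have := D.flip x y hA
          rw [hy] at this
          exact (add_right_cancel this).symm
        rw [hA]; ring
      · rfl
  unfold PData.mean
  rw [sum_congr rfl fun x _ => h1 x, sum_comm]
  refine sum_congr rfl fun y _ => ?_
  split_ifs with hy
  · have h3 : ∀ x, D.A x y * D.psi x * D.psi y * f y / D.lam =
        (D.A y x * D.psi x) * (D.psi y * f y / D.lam) := fun x => by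
      rw [D.symm x y]; ring
    simp only [h3]
    rw [← sum_mul, D.eig y]
    (clear * - hl; field_simp)
  · simp only [sum_const_zero]

lemma PData.pow_mulVec (v : X → ℝ) (n : ℕ) (x : X) :
    ((Matrix.of D.A) ^ n).mulVec v x =
      D.lam ^ n * D.psi x * (D.T^[n] (fun y => v y / D.psi y)) x := by
  induction n generalizing x with
  | zero =>
    have := (D.pos x).ne'
    simp only [pow_zero, Matrix.one_mulVec, Function.iterate_zero, id, one_mul]
    field_simp
  | succ n ih =>
    rw [pow_succ', ← Matrix.mulVec_mulVec, Function.iterate_succ_apply']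
    have e1 : (Matrix.of D.A).mulVec (((Matrix.of D.A) ^ n).mulVec v) x =
        ∑ y, D.A x y * ((Matrix.of D.A) ^ n).mulVec v y := rfl
    rw [e1, D.T_eq]
    simp only [ih]
    have h1 := D.lpos.ne'
    have h2 := (D.pos x).ne'
    have e2 : ∀ y, D.A x y * (D.lam ^ n * D.psi y * (D.T^[n] (fun y => v y / D.psi y)) y) =
        D.lam ^ n * (D.A x y * (D.psi y * (D.T^[n] (fun y => v y / D.psi y)) y)) := fun y => by
      ring
    simp only [e2]
    rw [← mul_sum]
    field_simp
    ring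

omit [DecidableEq X] in
lemma PData.mean_iterate (f : X → ℝ) (n : ℕ) (e : ZMod 2) :
    D.mean e (D.T^[n] f) = D.mean (e + n) f := by
  induction n generalizing e with
  | zero => simp
  | succ n ih =>
    rw [Function.iterate_succ_apply', D.mean_T, ih]
    congr 1
    push_cast
    ring

omit [DecidableEq X] in
lemma PData.T_sub (f g : X → ℝ) (x : X) :
    D.T (fun y => f y - g y) x = D.T f x - D.T g x := by
  unfold PData.T
  rw [← sum_sub_distrib]
  exact sum_congr rfl fun y _ => by ring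

omit [DecidableEq X] in
/-- functions which depend only on the parity -/
lemma PData.T_par (c : ZMod 2 → ℝ) (x : X) : D.T (fun y => c (D.par y)) x = c (D.par x + 1) := by
  have hx := (mul_pos D.lpos (D.pos x)).ne'
  rw [D.T_eq, div_eq_iff hx]
  have : ∀ y, D.A x y * (D.psi y * c (D.par y)) = (D.A x y * D.psi y) * c (D.par x + 1) := by
    intro y
    by_cases hA : D.A x y = 0
    · rw [hA]; ring
    · rw [D.flip x y hA]; ring
  simp only [this]
  rw [← sum_mul, D.eig x]
  ring

omit [DecidableEq X] in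
lemma PData.iterate_sub_par (f : X → ℝ) (c : ZMod 2 → ℝ) (n : ℕ) (x : X) :
    (D.T^[n] (fun y => f y - c (D.par y))) x = (D.T^[n] f) x - c (D.par x + n) := by
  induction n generalizing x with
  | zero => simp
  | succ n ih =>
    rw [Function.iterate_succ_apply', Function.iterate_succ_apply']
    have e : D.T^[n] (fun y => f y - c (D.par y)) =
        fun y => (D.T^[n] f) y - (fun e : ZMod 2 => c (e + n)) (D.par y) := funext fun y => ih y
    rw [e, D.T_sub, D.T_par (fun e => c (e + n))]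
    congr 2
    push_cast
    ring

/-- contraction -/
lemma PData.contract {K : ℕ} (hpos : ∀ x y, D.par x = D.par y →
      0 < ((Matrix.of D.A) ^ (2 * K)) x y) :
    ∃ ρ : ℝ, 0 ≤ ρ ∧ ρ < 1 ∧ ∀ (g : X → ℝ) (C : ℝ), (∀ e, D.mean e g = 0) → (∀ x, |g x| ≤ C) →
      ∀ x, |(D.T^[2 * K] g) x| ≤ ρ * C := by
  rcases isEmpty_or_nonempty X with hX | hX
  · exact ⟨0, le_rfl, zero_lt_one, fun g C _ _ x => (hX.false x).elim⟩
  set B : X → X → ℝ := fun x y => ((Matrix.of D.A) ^ (2 * K)) x y * D.psi y /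
    (D.lam ^ (2 * K) * D.psi x) with hB
  have hker : ∀ (g : X → ℝ) (x : X), (D.T^[2 * K] g) x = ∑ y, B x y * g y := by
    intro g x
    have h1 := D.pow_mulVec (fun y => D.psi y * g y) (2 * K) x
    have h2 : (fun y => D.psi y * g y / D.psi y) = g := by
      funext y
      have := (D.pos y).ne'
      (clear * - this; field_simp)
    rw [h2] at h1
    have h3 : ((Matrix.of D.A) ^ (2 * K)).mulVec (fun y => D.psi y * g y) x =
        ∑ y, ((Matrix.of D.A) ^ (2 * K)) x y * (D.psi y * g y) := rfl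
    rw [h3] at h1
    have h4 := (mul_pos (pow_pos D.lpos (2 * K)) (D.pos x)).ne'
    have h5 : (D.T^[2 * K] g) x = (∑ y, ((Matrix.of D.A) ^ (2 * K)) x y * (D.psi y * g y)) /
        (D.lam ^ (2 * K) * D.psi x) := by
      rw [eq_div_iff h4, h1]; ring
    rw [h5, sum_div]
    exact sum_congr rfl fun y _ => by simp only [hB]; ring
  have hBpos : ∀ x y, D.par x = D.par y → 0 < B x y := fun x y hxy =>
    div_pos (mul_pos (hpos x y hxy) (D.pos y)) (mul_pos (pow_pos D.lpos _) (D.pos x))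
  have hBone : ∀ x, ∑ y, B x y = 1 := by
    intro x
    have h1 := hker (fun _ => 1) x
    simp only [mul_one] at h1
    rw [← h1]
    have h2 := D.iterate_sub_par (fun _ => 0) (fun _ => -1) (2 * K) x
    have h3 : (fun y : X => (0 : ℝ) - (fun _ : ZMod 2 => (-1 : ℝ)) (D.par y)) = fun _ => 1 := by
      funext y; simp
    rw [h3] at h2
    rw [h2]
    have h4 : ∀ n : ℕ, D.T^[n] (fun _ => (0 : ℝ)) = fun _ => 0 := by
      intro n
      induction n with
      | zero => rfl
      | succ n ih =>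
        rw [Function.iterate_succ_apply', ih]
        funext z
        simp [PData.T]
    rw [h4]
    norm_num
  have hBz : ∀ x y, D.par x ≠ D.par y → B x y = 0 := by
    intro x y hxy
    have : ((Matrix.of D.A) ^ (2 * K)) x y = 0 := by
      have gen : ∀ n : ℕ, ∀ x y, D.par y ≠ D.par x + n → ((Matrix.of D.A) ^ n) x y = 0 := by
        intro n
        induction n with
        | zero =>
          intro x y h
          rw [pow_zero, Matrix.one_apply, if_neg]
          rintro rfl
          apply h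
          simp
        | succ n ih =>
          intro x y h
          rw [pow_succ, Matrix.mul_apply]
          refine sum_eq_zero fun z _ => ?_
          by_cases hz : D.par z = D.par x + n
          · have hA : D.A z y = 0 := by
              by_contra hA
              apply h
              rw [D.flip z y hA, hz]
              push_cast
              ring
            rw [Matrix.of_apply, hA, mul_zero]
          · rw [ih x z hz, zero_mul]
      apply gen
      have : ((2 * K : ℕ) : ZMod 2) = 0 := by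
        rw [ZMod.natCast_eq_zero_iff]
        exact dvd_mul_right 2 K
      rw [this, add_zero]
      exact fun h => hxy h.symm
    simp only [hB, this, zero_mul, zero_div]
  -- the minorization constant
  obtain ⟨c, hc0, hc⟩ : ∃ c : ℝ, 0 < c ∧ ∀ x y, D.par x = D.par y → c * D.psi y ^ 2 ≤ B x y := by
    set F : X × X → ℝ := fun z => if D.par z.1 = D.par z.2 then B z.1 z.2 / D.psi z.2 ^ 2 else 1
      with hF
    obtain ⟨z, -, hz⟩ := Finset.exists_min_image (univ : Finset (X × X)) F univ_nonempty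
    refine ⟨F z, ?_, fun x y hxy => ?_⟩
    · simp only [hF]
      split_ifs with h
      · exact div_pos (hBpos _ _ h) (pow_pos (D.pos _) 2)
      · exact one_pos
    · have h1 := hz (x, y) (mem_univ _)
      have h2 : F (x, y) = B x y / D.psi y ^ 2 := by simp only [hF]; rw [if_pos hxy]
      rw [h2] at h1
      have h3 := pow_pos (D.pos y) 2
      rwa [le_div_iff₀ h3] at h1
  have hc1 : c ≤ 1 := by
    obtain ⟨x⟩ := hX
    have h1 : ∑ y, (if D.par y = D.par x then c * D.psi y ^ 2 else 0) ≤ ∑ y, B x y := by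
      refine sum_le_sum fun y _ => ?_
      split_ifs with h
      · exact hc x y h.symm
      · exact (hBz x y fun h' => h h'.symm).ge
    rw [hBone x] at h1
    have h2 : ∑ y, (if D.par y = D.par x then c * D.psi y ^ 2 else 0) =
        c * ∑ y, (if D.par y = D.par x then D.psi y ^ 2 else 0) := by
      rw [mul_sum]
      exact sum_congr rfl fun y _ => by split_ifs <;> simp
    rw [h2, D.nrm, mul_one] at h1
    exact h1
  refine ⟨1 - c, by linarith only [hc1], by linarith only [hc0], fun g C hg hC x => ?_⟩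
  have h1 : (D.T^[2 * K] g) x =
      ∑ y, (B x y - if D.par y = D.par x then c * D.psi y ^ 2 else 0) * g y := by
    rw [hker]
    have h2 : ∀ y, (B x y - if D.par y = D.par x then c * D.psi y ^ 2 else 0) * g y =
        B x y * g y - c * (if D.par y = D.par x then D.psi y ^ 2 * g y else 0) := by
      intro y
      split_ifs <;> ring
    simp only [h2]
    rw [sum_sub_distrib, ← mul_sum]
    have := hg (D.par x)
    unfold PData.mean at this
    rw [this]
    ring
  have hnn : ∀ y, 0 ≤ B x y - if D.par y = D.par x then c * D.psi y ^ 2 else 0 := by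
    intro y
    split_ifs with h
    · linarith only [hc x y h.symm]
    · rw [hBz x y fun h' => h h'.symm]; simp
  rw [h1]
  calc |∑ y, (B x y - if D.par y = D.par x then c * D.psi y ^ 2 else 0) * g y|
      ≤ ∑ y, |(B x y - if D.par y = D.par x then c * D.psi y ^ 2 else 0) * g y| :=
        abs_sum_le_sum_abs _ _
    _ ≤ ∑ y, (B x y - if D.par y = D.par x then c * D.psi y ^ 2 else 0) * C := by
        refine sum_le_sum fun y _ => ?_
        rw [abs_mul, abs_of_nonneg (hnn y)]
        exact mul_le_mul_of_nonneg_left (hC y) (hnn y)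
    _ = (1 - c) * C := by
        rw [← sum_mul, sum_sub_distrib, hBone x]
        congr 2
        have h2 : ∑ y, (if D.par y = D.par x then c * D.psi y ^ 2 else 0) =
            c * ∑ y, (if D.par y = D.par x then D.psi y ^ 2 else 0) := by
          rw [mul_sum]
          exact sum_congr rfl fun y _ => by split_ifs <;> simp
        rw [h2, D.nrm, mul_one]

omit [DecidableEq X] in
lemma PData.abs_iterate_le {f : X → ℝ} {C : ℝ} (hf : ∀ x, |f x| ≤ C) (n : ℕ) (x : X) :
    |(D.T^[n] f) x| ≤ C := by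
  induction n generalizing x with
  | zero => exact hf x
  | succ n ih =>
    rw [Function.iterate_succ_apply']
    exact D.abs_T_le ih x

/-- exponential decay of mean zero functions -/
lemma PData.decay {K : ℕ} (hpos : ∀ x y, D.par x = D.par y →
      0 < ((Matrix.of D.A) ^ (2 * K)) x y) (g : X → ℝ) (hg : ∀ e, D.mean e g = 0) (x : X) :
    Tendsto (fun n => (D.T^[n] g) x) atTop (𝓝 0) := by
  obtain ⟨ρ, h0, h1, hρ⟩ := D.contract hpos
  obtain ⟨C, hC⟩ : ∃ C : ℝ, ∀ y, |g y| ≤ C := by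
    refine ⟨∑ y, |g y|, fun y => ?_⟩
    exact single_le_sum (f := fun y => |g y|) (fun y _ => abs_nonneg _) (mem_univ y)
  have hC0 : 0 ≤ C := (abs_nonneg _).trans (hC x)
  have hit : ∀ q : ℕ, ∀ y, |(D.T^[2 * K * q] g) y| ≤ ρ ^ q * C := by
    intro q
    induction q with
    | zero => simpa only [mul_zero, Function.iterate_zero, id_eq, pow_zero, one_mul] using hC
    | succ q ih =>
      intro y
      have e : 2 * K * (q + 1) = 2 * K + 2 * K * q := by ring
      rw [e, Function.iterate_add_apply, pow_succ']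
      have := hρ (D.T^[2 * K * q] g) (ρ ^ q * C)
        (fun e => by rw [D.mean_iterate]; exact hg _) ih y
      rw [mul_assoc ρ]
      exact this
  rcases Nat.eq_zero_or_pos K with hK | hK
  · -- degenerate case: `g` vanishes
    have h2 : ∀ y, g y = 0 := by
      intro y
      have hlim : Tendsto (fun q : ℕ => ρ ^ q * C) atTop (𝓝 (0 * C)) :=
        (tendsto_pow_atTop_nhds_zero_of_lt_one h0 h1).mul_const C
      rw [zero_mul] at hlim
      have h3 : ∀ q : ℕ, |g y| ≤ ρ ^ q * C := by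
        intro q
        have := hit q y
        simpa only [ge_iff_le, hK, mul_zero, zero_mul, Function.iterate_zero, id_eq] using this
      exact abs_nonpos_iff.1 (ge_of_tendsto' hlim h3)
    have h4 : ∀ n, |(D.T^[n] g) x| ≤ 0 := fun n =>
      D.abs_iterate_le (C := 0) (fun y => by rw [h2 y, abs_zero]) n x
    have h5 : ∀ n, (D.T^[n] g) x = 0 := fun n => abs_nonpos_iff.1 (h4 n)
    simp only [h5]
    exact tendsto_const_nhds
  · have hb : ∀ n, |(D.T^[n] g) x| ≤ ρ ^ (n / (2 * K)) * C := by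
      intro n
      conv_lhs => rw [← Nat.mod_add_div n (2 * K)]
      rw [Function.iterate_add_apply]
      exact D.abs_iterate_le (hit _) _ x
    have hlim : Tendsto (fun n : ℕ => ρ ^ (n / (2 * K)) * C) atTop (𝓝 (0 * C)) := by
      refine Tendsto.mul_const C ?_
      exact (tendsto_pow_atTop_nhds_zero_of_lt_one h0 h1).comp
        (Nat.tendsto_div_const_atTop (by (clear * - hK; omega)))
    rw [zero_mul] at hlim
    exact squeeze_zero_norm hb hlim

/-- **Convergence of the powers.** -/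
theorem PData.tendsto_pow {K : ℕ} (hpos : ∀ x y, D.par x = D.par y →
      0 < ((Matrix.of D.A) ^ (2 * K)) x y) (v : X → ℝ) (x : X) :
    Tendsto (fun n : ℕ => ((Matrix.of D.A) ^ n).mulVec v x / D.lam ^ n -
      D.psi x * ∑ y, (if D.par y = D.par x + n then D.psi y * v y else 0)) atTop (𝓝 0) := by
  set f : X → ℝ := fun y => v y / D.psi y with hf
  set c : ZMod 2 → ℝ := fun e => D.mean e f with hc
  have hcv : ∀ e, c e = ∑ y, (if D.par y = e then D.psi y * v y else 0) := by
    intro e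
    simp only [hc, mean, hf]
    refine sum_congr rfl fun y _ => ?_
    have := (D.pos y).ne'
    split_ifs
    · (clear * - this; field_simp)
    · rfl
  set g : X → ℝ := fun y => f y - c (D.par y) with hg
  have hmean : ∀ e, D.mean e g = 0 := by
    intro e
    have h1 : ∀ y, (if D.par y = e then D.psi y ^ 2 * g y else 0) =
        (if D.par y = e then D.psi y ^ 2 * f y else 0) -
          c e * (if D.par y = e then D.psi y ^ 2 else 0) := by
      intro y
      split_ifs with h
      · rw [hg]; simp only; rw [h]; ring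
      · ring
    unfold PData.mean
    simp only [h1]
    rw [sum_sub_distrib, ← mul_sum, D.nrm, mul_one]
    exact sub_self _
  have hdec := D.decay hpos g hmean x
  have h2 : ∀ n : ℕ, ((Matrix.of D.A) ^ n).mulVec v x / D.lam ^ n -
      D.psi x * ∑ y, (if D.par y = D.par x + n then D.psi y * v y else 0) =
      D.psi x * (D.T^[n] g) x := by
    intro n
    have hl := (pow_pos D.lpos n).ne'
    rw [D.pow_mulVec v n x, ← hcv, D.iterate_sub_par f c n x, mul_div_right_comm,
      mul_div_right_comm, div_self hl, one_mul, mul_sub]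
  simp only [h2]
  simpa only [mul_zero] using hdec.const_mul (D.psi x)

/-- **Summary**: Perron data and convergence. -/
theorem Bip.exists_pdata_tendsto [Nonempty X] (h : Bip A par K) :
    ∃ D : PData X, D.A = A ∧ D.par = par ∧ ∀ (v : X → ℝ) (x : X),
      Tendsto (fun n : ℕ => ((Matrix.of A) ^ n).mulVec v x / D.lam ^ n -
        D.psi x * ∑ y, (if par y = par x + n then D.psi y * v y else 0)) atTop (𝓝 0) := by
  obtain ⟨D, hA, hp⟩ := h.exists_pdata
  refine ⟨D, hA, hp, fun v x => ?_⟩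
  have hpos : ∀ x y, D.par x = D.par y → 0 < ((Matrix.of D.A) ^ (2 * K)) x y := by
    intro x y hxy
    rw [hp] at hxy
    rw [hA]
    exact h.pos x y hxy
  have := D.tendsto_pow hpos v x
  rw [hA, hp] at this
  exact this

end pf1

end Vale.Agent.P153.Strip
end

section

/-!
# P153, strips: finiteness of the set of row states, symmetry, connectivity
-/

namespace Vale.Agent.P153.Strip

open Finset

theorem IsRow.lip_iter {N : ℕ} {e : ZMod 2} {q : ℤ → ℤ} (h : IsRow N e q) (p : ℤ) (k : ℕ) :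
    |q p - q (p + 2 * k)| ≤ k := by
  induction k with
  | zero => simp only [CharP.cast_eq_zero, mul_zero, add_zero, sub_self, abs_zero, Std.le_refl]
  | succ k ih =>
    have h1 := h.lip (p + 2 * k)
    have h2 := abs_sub_le (q p) (q (p + 2 * k)) (q (p + 2 * k + 2))
    have h3 : p + 2 * ((k + 1 : ℕ) : ℤ) = p + 2 * k + 2 := by push_cast; ring
    rw [h3]
    push_cast
    linarith only [ih, h1, h2]

theorem IsRow.bdd {N : ℕ} {e : ZMod 2} {q : ℤ → ℤ} (h : IsRow N e q) (p : ℤ) :
    |q p| ≤ 4 * N + 1 := by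
  by_cases hp : 2 * (N : ℤ) < |p|
  · rw [h.off p hp]
    simp only [abs_zero]
    (clear * -; positivity)
  · rw [not_lt, abs_le] at hp
    obtain ⟨k, hk⟩ : ∃ k : ℕ, (k : ℤ) = 2 * N + 1 - p := ⟨(2 * (N : ℤ) + 1 - p).toNat, by omega⟩
    have h1 := h.lip_iter p k
    have h2 : q (p + 2 * k) = 0 := by
      apply h.off
      rw [lt_abs]
      left
      omega
    rw [h2, sub_zero] at h1
    omega

theorem RowSt.isRow {N : ℕ} (x : RowSt N) : IsRow N x.par x.ht := x.2

theorem RowSt.ext' {N : ℕ} {x y : RowSt N} (h1 : x.par = y.par) (h2 : ∀ p, x.ht p = y.ht p) :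
    x = y := by
  apply Subtype.ext
  exact Prod.ext h1 (funext h2)

instance (N : ℕ) : Finite (RowSt N) := by
  classical
  have : Function.Injective (fun x : RowSt N => ((x.par, fun p : Set.Icc (-(2 * (N : ℤ))) (2 * N) =>
      (⟨x.ht p, by
        have := x.isRow.bdd p
        rw [abs_le] at this
        exact Set.mem_Icc.2 this⟩ : Set.Icc (-(4 * (N : ℤ) + 1)) (4 * N + 1))) :
        ZMod 2 × (Set.Icc (-(2 * (N : ℤ))) (2 * N) → Set.Icc (-(4 * (N : ℤ) + 1)) (4 * N + 1)))) := by
    intro x y hxy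
    simp only [Prod.mk.injEq] at hxy
    refine RowSt.ext' hxy.1 fun p => ?_
    by_cases hp : 2 * (N : ℤ) < |p|
    · rw [x.isRow.off p hp, y.isRow.off p hp]
    · rw [not_lt, abs_le] at hp
      have := congrFun hxy.2 ⟨p, Set.mem_Icc.2 ⟨by linarith [hp.1], hp.2⟩⟩
      simpa using this
  exact Finite.of_injective _ this

noncomputable instance (N : ℕ) : Fintype (RowSt N) := Fintype.ofFinite _

/-- the zero row of parity `e` -/
def zrow (N : ℕ) (e : ZMod 2) : RowSt N :=
  ⟨(e, fun _ => 0), ⟨fun _ _ => rfl, fun _ _ => rfl, fun _ _ => Or.inl rfl, fun _ => by simp⟩⟩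

theorem zrow_par (N : ℕ) (e : ZMod 2) : (zrow N e).par = e := rfl

theorem zrow_ht (N : ℕ) (e : ZMod 2) (p : ℤ) : (zrow N e).ht p = 0 := rfl

instance (N : ℕ) : Nonempty (RowSt N) := ⟨zrow N 0⟩

theorem Compat.symm {N : ℕ} {x y : RowSt N} (h : Compat x y) : Compat y x := by
  refine ⟨?_, fun p => ⟨?_, ?_⟩⟩
  · rw [h.1, add_assoc, show (1 : ZMod 2) + 1 = 0 from rfl, add_zero]
  · have := (h.2 (p + 1)).2
    rw [add_sub_cancel_right] at this
    rwa [abs_sub_comm]
  · have := (h.2 (p - 1)).1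
    rw [sub_add_cancel] at this
    rwa [abs_sub_comm]

theorem Amat_symm (N : ℕ) (x y : RowSt N) : Amat N x y = Amat N y x := by
  unfold Amat
  by_cases h : Compat x y
  · rw [if_pos h, if_pos h.symm]
  · rw [if_neg h, if_neg fun h' => h h'.symm]

theorem Amat_nonneg (N : ℕ) (x y : RowSt N) : 0 ≤ Amat N x y := by
  unfold Amat
  split_ifs <;> norm_num

theorem Amat_flip (N : ℕ) (x y : RowSt N) (h : Amat N x y ≠ 0) : y.par = x.par + 1 := by
  unfold Amat at h
  by_contra hcon
  apply h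
  rw [if_neg]
  exact fun h' => hcon h'.1

/-- the median of `a`, `b` and zero -/
def med (a b : ℤ) : ℤ := max (min (max a b) 0) (min a b)

theorem med_zero_right (a : ℤ) : med a 0 = 0 := by
  unfold med
  omega

theorem med_zero_left (a : ℤ) : med 0 a = 0 := by
  unfold med
  omega

/-- one step towards the zero row -/
def flat {N : ℕ} (x : RowSt N) : RowSt N :=
  ⟨(x.par + 1, fun p => med (x.ht (p - 1)) (x.ht (p + 1))), by
    have hx := x.isRow
    have par2 : ∀ p : ℤ, ((p : ZMod 2) ≠ x.par + 1) → ((p + 1 : ℤ) : ZMod 2) ≠ x.par := by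
      intro p hp h
      apply hp
      rw [← h]
      push_cast
      rw [add_assoc, show (1 : ZMod 2) + 1 = 0 from rfl, add_zero]
    refine ⟨fun p hp => ?_, fun p hp => ?_, fun p hp => ?_, fun p => ?_⟩
    · show med (x.ht (p - 1)) (x.ht (p + 1)) = 0
      rw [lt_abs] at hp
      rcases hp with hp | hp
      · rw [hx.off (p + 1) (by rw [lt_abs]; left; omega), med_zero_right]
      · rw [hx.off (p - 1) (by rw [lt_abs]; right; omega), med_zero_left]
    · show med (x.ht (p - 1)) (x.ht (p + 1)) = 0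
      rw [hx.odd (p + 1) (par2 p hp), med_zero_right]
    · show med (x.ht (p - 1)) (x.ht (p + 1)) = 0 ∨ med (x.ht (p - 1)) (x.ht (p + 1)) = 1
      have h1 := hx.lip (p - 1)
      rw [show p - 1 + 2 = p + 1 by ring] at h1
      rw [le_abs] at hp
      have h2 : (x.ht (p + 1) = 0 ∨ x.ht (p + 1) = 1) ∨ (x.ht (p - 1) = 0 ∨ x.ht (p - 1) = 1) := by
        rcases hp with hp | hp
        · left
          exact hx.side (p + 1) (by rw [le_abs]; left; omega)
        · right
          exact hx.side (p - 1) (by rw [le_abs]; right; omega)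
      generalize x.ht (p - 1) = a at h1 h2
      generalize x.ht (p + 1) = b at h1 h2
      unfold med
      rw [abs_le] at h1
      omega
    · show |med (x.ht (p - 1)) (x.ht (p + 1)) - med (x.ht (p + 2 - 1)) (x.ht (p + 2 + 1))| ≤ 1
      have h1 := hx.lip (p - 1)
      have h2 := hx.lip (p + 1)
      rw [show p - 1 + 2 = p + 1 by ring] at h1
      rw [show p + 1 + 2 = p + 2 + 1 by ring] at h2
      rw [show p + 2 - 1 = p + 1 by ring]
      generalize x.ht (p - 1) = a at h1 h2
      generalize x.ht (p + 1) = b at h1 h2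
      generalize x.ht (p + 2 + 1) = c at h1 h2
      unfold med
      rw [abs_le] at *
      omega⟩

theorem flat_par {N : ℕ} (x : RowSt N) : (flat x).par = x.par + 1 := rfl

theorem flat_ht {N : ℕ} (x : RowSt N) (p : ℤ) :
    (flat x).ht p = med (x.ht (p - 1)) (x.ht (p + 1)) := rfl

theorem compat_flat {N : ℕ} (x : RowSt N) : Compat x (flat x) := by
  refine ⟨flat_par x, fun p => ⟨?_, ?_⟩⟩
  · rw [flat_ht, show p + 1 - 1 = p by ring]
    have h1 := x.isRow.lip p
    rw [show p + 2 = p + 1 + 1 by ring] at h1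
    generalize x.ht p = a at h1
    generalize x.ht (p + 1 + 1) = b at h1
    unfold med
    rw [abs_le] at *
    omega
  · rw [flat_ht, show p - 1 + 1 = p by ring]
    have h1 := x.isRow.lip (p - 1 - 1)
    rw [show p - 1 - 1 + 2 = p by ring] at h1
    generalize x.ht p = a at h1
    generalize x.ht (p - 1 - 1) = b at h1
    unfold med
    rw [abs_le] at *
    omega

theorem flat_iter_par {N : ℕ} (x : RowSt N) (k : ℕ) : (flat^[k] x).par = x.par + k := by
  induction k with
  | zero => simp only [Function.iterate_zero, id_eq, Nat.cast_zero, add_zero]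
  | succ k ih =>
    rw [Function.iterate_succ_apply', flat_par, ih]
    push_cast
    ring

theorem flat_iter_ht {N : ℕ} (x : RowSt N) (k : ℕ) (p : ℤ) (hp : 2 * (N : ℤ) - k < p) :
    (flat^[k] x).ht p = 0 := by
  induction k generalizing p with
  | zero =>
    apply (flat^[0] x).isRow.off
    rw [lt_abs]
    left
    simpa only [CharP.cast_eq_zero, sub_zero] using hp
  | succ k ih =>
    rw [Function.iterate_succ_apply', flat_ht, ih (p + 1) (by push_cast at hp; omega),
      med_zero_right]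

theorem flat_iter {N : ℕ} (x : RowSt N) : flat^[4 * N + 1] x = zrow N (x.par + (4 * N + 1 : ℕ)) := by
  refine RowSt.ext' (by rw [flat_iter_par, zrow_par]) fun p => ?_
  rw [zrow_ht]
  by_cases hp : 2 * (N : ℤ) < |p|
  · exact (flat^[4 * N + 1] x).isRow.off p hp
  · rw [not_lt, abs_le] at hp
    apply flat_iter_ht
    push_cast
    omega

theorem pow_pos_flat {N : ℕ} [DecidableEq (RowSt N)] (x : RowSt N) (k : ℕ) :
    0 < ((Matrix.of (Amat N)) ^ k) x (flat^[k] x) := by
  induction k with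
  | zero => simp only [Function.iterate_zero, id_eq, pow_zero, Matrix.one_apply_eq, zero_lt_one]
  | succ k ih =>
    rw [pow_succ, Matrix.mul_apply, Function.iterate_succ_apply']
    have hnn : ∀ (j : ℕ) (a b : RowSt N), 0 ≤ ((Matrix.of (Amat N)) ^ j) a b := by
      intro j
      induction j with
      | zero =>
        intro a b
        rw [pow_zero, Matrix.one_apply]
        split_ifs <;> norm_num
      | succ j ihj =>
        intro a b
        rw [pow_succ, Matrix.mul_apply]
        exact Finset.sum_nonneg fun c _ => mul_nonneg (ihj a c) (Amat_nonneg N c b)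
    refine lt_of_lt_of_le ?_ (Finset.single_le_sum (f := fun j =>
      ((Matrix.of (Amat N)) ^ k) x j * (Matrix.of (Amat N)) j (flat (flat^[k] x)))
      (fun c _ => mul_nonneg (hnn k x c) (Amat_nonneg N c _)) (Finset.mem_univ (flat^[k] x)))
    apply mul_pos ih
    rw [Matrix.of_apply]
    unfold Amat
    rw [if_pos (compat_flat _)]
    exact one_pos

theorem pow_nonneg' {N : ℕ} [DecidableEq (RowSt N)] (j : ℕ) (a b : RowSt N) :
    0 ≤ ((Matrix.of (Amat N)) ^ j) a b := by
  induction j generalizing a b with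
  | zero =>
    rw [pow_zero, Matrix.one_apply]
    split_ifs <;> norm_num
  | succ j ihj =>
    rw [pow_succ, Matrix.mul_apply]
    exact Finset.sum_nonneg fun c _ => mul_nonneg (ihj a c) (Amat_nonneg N c b)

theorem Amat_bip (N : ℕ) [DecidableEq (RowSt N)] :
    Bip (Amat N) (RowSt.par (N := N)) (4 * N + 1) where
  symm := Amat_symm N
  nn := Amat_nonneg N
  flip := Amat_flip N
  one_le := by omega
  pos := by
    intro x y hxy
    have hsym : ∀ (j : ℕ) (a b : RowSt N),
        ((Matrix.of (Amat N)) ^ j) a b = ((Matrix.of (Amat N)) ^ j) b a := by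
      intro j a b
      have h1 : (Matrix.of (Amat N)).transpose = Matrix.of (Amat N) := by
        ext c d
        rw [Matrix.transpose_apply, Matrix.of_apply, Matrix.of_apply, Amat_symm]
      have h2 : ((Matrix.of (Amat N)) ^ j).transpose = (Matrix.of (Amat N)) ^ j := by
        rw [Matrix.transpose_pow, h1]
      calc ((Matrix.of (Amat N)) ^ j) a b = ((Matrix.of (Amat N)) ^ j).transpose b a := rfl
        _ = _ := by rw [h2]
    have h1 := pow_pos_flat x (4 * N + 1)
    have h2 := pow_pos_flat y (4 * N + 1)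
    rw [flat_iter] at h1 h2
    rw [← hxy, hsym] at h2
    rw [two_mul, pow_add, Matrix.mul_apply]
    refine lt_of_lt_of_le (mul_pos h1 h2) (Finset.single_le_sum (f := fun j =>
      ((Matrix.of (Amat N)) ^ (4 * N + 1)) x j * ((Matrix.of (Amat N)) ^ (4 * N + 1)) j y)
      (fun c _ => mul_nonneg (pow_nonneg' _ x c) (pow_nonneg' _ c y)) (Finset.mem_univ _))

end Vale.Agent.P153.Strip
end

section

/-!
# P153, block (D): concentration of `m k` (ConcStatement)

Owner: helper442.
-/

open MeasureTheory ProbabilityTheory Filter Topology Set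
open scoped ENNReal Real

namespace Vale.Agent.P153.TwoPt

namespace Cn

/-! ### pointwise facts -/

lemma den_pos {τ : ℝ} (h0 : 0 ≤ τ) (h1 : τ < 1) (θ : ℝ) : 0 < den τ θ := by
  unfold den
  have := Real.cos_le_one θ
  have h2 : 0 < (1 - τ) ^ 2 := by have : 0 < 1 - τ := by linarith only [h1]
                                  positivity
  nlinarith only [h2, h0, this]

lemma sq_le_den {τ : ℝ} (h0 : 0 ≤ τ) (θ : ℝ) : (1 - τ) ^ 2 ≤ den τ θ := by
  unfold den
  have := Real.cos_le_one θ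
  nlinarith only [h0, this]

lemma den_le {τ : ℝ} (h0 : 0 ≤ τ) (h1 : τ < 1) (θ : ℝ) : den τ θ ≤ (1 - τ) ^ 2 + θ ^ 2 := by
  unfold den
  have := Real.one_sub_sq_div_two_le_cos (x := θ)
  nlinarith only [h1, h0, this]

lemma den_measurable (θ : ℝ) : Measurable fun τ => 1 / den τ θ := by
  unfold den; (clear * -; fun_prop)

/-- `z = ((1-τ)/k)²`. -/
noncomputable def zz (k τ : ℝ) : ℝ := ((1 - τ) / k) ^ 2

lemma zz_nonneg (k τ : ℝ) : 0 ≤ zz k τ := sq_nonneg _

lemma zz_measurable (k : ℝ) : Measurable (zz k) := by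
  unfold zz; fun_prop

lemma pt_aux {u s q : ℝ} (hu0 : 0 < u) (hu1 : u ≤ 1) (hs0 : 0 < s) (hs1 : s ≤ 1)
    (hq1 : q ≤ s ^ 2) (hq2 : s ^ 2 - s ^ 4 * (5 / 48) ≤ q) :
    (u ^ 2 + s ^ 2) / 5 ≤ u ^ 2 + (1 - u) * q ∧ 0 ≤ s ^ 2 - (1 - u) * q ∧
      s ^ 2 - (1 - u) * q ≤ s ^ 4 * (5 / 48) + u * s ^ 2 := by
  have hs2 : s ^ 2 ≤ 1 := by nlinarith only [hs1, hs0]
  have hs4 : s ^ 4 ≤ s ^ 2 := by nlinarith only [hs2]
  have hq3 : s ^ 2 / 2 ≤ q := by linarith
  have hq0 : 0 ≤ q := by linarith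
  refine ⟨?_, ?_, ?_⟩
  · rcases le_or_gt u (1 / 2) with h | h
    · nlinarith only [hq2, hs4, h]
    · nlinarith
  · nlinarith only [hq1, hu0, hq2, hs4]
  · nlinarith only [hq2, hu0, hq1]

lemma pt_aux2 {u s r K2 : ℝ} (hu0 : 0 < u) (hs0 : 0 < s) (hr : 0 ≤ r) (hK : 0 ≤ K2)
    (h : u * s ^ 2 * K2 = u * s ^ 3 * r) :
    K2 * (s ^ 4 * (5 / 48) + u * s ^ 2) ≤ (K2 + 3 * r) * ((u ^ 2 + s ^ 2) ^ 2 / 5) := by
  have e1 : s ^ 4 ≤ (u ^ 2 + s ^ 2) ^ 2 := by
    have : s ^ 2 ≤ u ^ 2 + s ^ 2 := by nlinarith only []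
    calc s ^ 4 = (s ^ 2) ^ 2 := by ring
      _ ≤ _ := by (clear * - hs0 this; gcongr)
  have e2 : 2 * u * s ^ 3 ≤ (u ^ 2 + s ^ 2) ^ 2 := by
    have h1 : 2 * u * s ≤ u ^ 2 + s ^ 2 := by nlinarith only [sq_nonneg (u - s)]
    have h2 : s ^ 2 ≤ u ^ 2 + s ^ 2 := by nlinarith only []
    calc 2 * u * s ^ 3 = (2 * u * s) * s ^ 2 := by ring
      _ ≤ (u ^ 2 + s ^ 2) * (u ^ 2 + s ^ 2) := by gcongr
      _ = _ := by ring
  set Y := (u ^ 2 + s ^ 2) ^ 2 with hY
  have hY0 : 0 ≤ Y := by positivity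
  have e3 : K2 * (s ^ 4 * (5 / 48)) ≤ K2 * (Y * (5 / 48)) := by gcongr
  have e4 : u * s ^ 3 * r ≤ Y / 2 * r := by
    have : u * s ^ 3 ≤ Y / 2 := by linarith only [e2]
    (clear * - this hr; gcongr)
  have e5 : 0 ≤ K2 * Y := by positivity
  have e6 : 0 ≤ r * Y := by positivity
  linarith [e3, e4, h, e5, e6]

lemma pt_close {b k τ : ℝ} (hb : 0 < b) (hk : k ≠ 0) (hbk : b * |k| ≤ 1) (h0 : 0 ≤ τ)
    (h1 : τ < 1) :
    |k ^ 2 * (1 / den τ (b * k)) - 1 / (zz k τ + b ^ 2)| ≤ k ^ 2 + 3 / b * |k| := by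
  set u := 1 - τ with hu
  have hu0 : 0 < u := by linarith
  have hu1 : u ≤ 1 := by linarith
  set s := b * |k| with hs
  have hk0 : 0 < |k| := abs_pos.mpr hk
  have hs0 : 0 < s := by positivity
  have hs2 : s ^ 2 = b ^ 2 * k ^ 2 := by rw [hs, mul_pow, sq_abs]
  have hcos : Real.cos (b * k) = Real.cos s := by
    rw [hs, ← Real.cos_abs (b * k), abs_mul, abs_of_pos hb]
  set q := 2 - 2 * Real.cos (b * k) with hq
  have hq1 : q ≤ s ^ 2 := by
    rw [hq, hcos]; linarith only [Real.one_sub_sq_div_two_le_cos (x := s)]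
  have hq2 : s ^ 2 - s ^ 4 * (5 / 48) ≤ q := by
    rw [hq, hcos]
    have := Real.cos_bound (x := s) (by rw [abs_of_pos hs0]; exact hbk)
    rw [abs_of_pos hs0] at this
    have := (abs_le.mp this).2
    linarith only [this]
  obtain ⟨hd5, hnum0, hnum1⟩ := pt_aux hu0 hu1 hs0 hbk hq1 hq2
  have hden : den τ (b * k) = u ^ 2 + (1 - u) * q := by
    rw [hq, hu]; unfold den; ring
  have hX : zz k τ + b ^ 2 = (u ^ 2 + s ^ 2) / k ^ 2 := by
    unfold zz; rw [hs2]; field_simp
    rfl
  have hk2 : 0 < k ^ 2 := by (clear * - hk; positivity)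
  have hus : 0 < u ^ 2 + s ^ 2 := by positivity
  have hdp : 0 < u ^ 2 + (1 - u) * q := lt_of_lt_of_le (by positivity) hd5
  rw [hden, hX, one_div_div]
  have hdiff : k ^ 2 * (1 / (u ^ 2 + (1 - u) * q)) - k ^ 2 / (u ^ 2 + s ^ 2) =
      k ^ 2 * (s ^ 2 - (1 - u) * q) / ((u ^ 2 + (1 - u) * q) * (u ^ 2 + s ^ 2)) := by
    field_simp; ring
  rw [hdiff, abs_of_nonneg (by (clear * - hk hnum0 hdp h1 hb; positivity)), div_le_iff₀ (by (clear * - hdp h1 hb hk; positivity))]
  have e3 : (u ^ 2 + s ^ 2) ^ 2 / 5 ≤ (u ^ 2 + (1 - u) * q) * (u ^ 2 + s ^ 2) := by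
    calc (u ^ 2 + s ^ 2) ^ 2 / 5 = (u ^ 2 + s ^ 2) / 5 * (u ^ 2 + s ^ 2) := by ring
      _ ≤ _ := by (clear * - hd5 h1 hb hk; gcongr)
  have h5 : u * s ^ 2 * k ^ 2 = u * s ^ 3 * (|k| / b) := by
    rw [hs, ← sq_abs k]; (clear * - hk hb hu0; field_simp)
  have e7 : 0 ≤ |k| / b := by (clear * - hk hb; positivity)
  calc k ^ 2 * (s ^ 2 - (1 - u) * q) ≤ k ^ 2 * (s ^ 4 * (5 / 48) + u * s ^ 2) := by (clear * - hnum1 hk; gcongr)
    _ ≤ (k ^ 2 + 3 * (|k| / b)) * ((u ^ 2 + s ^ 2) ^ 2 / 5) :=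
        pt_aux2 hu0 hs0 e7 hk2.le h5
    _ ≤ (k ^ 2 + 3 * (|k| / b)) * ((u ^ 2 + (1 - u) * q) * (u ^ 2 + s ^ 2)) := by (clear * - e3 hk hb; gcongr)
    _ = _ := by ring

/-! ### good momenta -/

/-- the properties of `m k` valid for almost all small `k`. -/
structure Good (m : Kernel ℝ ℝ) (C k : ℝ) : Prop where
  supp : ∀ᵐ τ ∂(m k), 0 ≤ τ ∧ τ < 1
  mass : m k univ ≤ ENNReal.ofReal C
  inv : ∫⁻ τ, ENNReal.ofReal (1 / (1 - τ) ^ 2) ∂(m k) ≤ ENNReal.ofReal (C / k ^ 2)

lemma ae_good {V : ℤ → ℤ → ℝ} {m : Kernel ℝ ℝ} {c κ C k0 : ℝ} (hS : Spec V m c κ C k0) :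
    ∀ᵐ k : ℝ, |k| < k0 → k ≠ 0 → Good m C k := by
  filter_upwards [hS.supp, hS.mass, hS.inv] with k h1 h2 h3 h4 h5
  exact ⟨h1, h2 h4, h3 h4 h5⟩

namespace Good

variable {m : Kernel ℝ ℝ} {C k : ℝ}

lemma fin (h : Good m C k) : IsFiniteMeasure (m k) :=
  ⟨h.mass.trans_lt ENNReal.ofReal_lt_top⟩

lemma real_le (h : Good m C k) (hC : 0 ≤ C) : (m k).real univ ≤ C :=
  ENNReal.toReal_le_of_le_ofReal hC h.mass

lemma integrable_inv (h : Good m C k) : Integrable (fun τ => 1 / (1 - τ) ^ 2) (m k) := by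
  refine ⟨(by fun_prop : Measurable fun τ : ℝ => 1 / (1 - τ) ^ 2).aestronglyMeasurable, ?_⟩
  rw [hasFiniteIntegral_iff_ofReal (Eventually.of_forall fun τ => by (clear * -; positivity))]
  exact h.inv.trans_lt ENNReal.ofReal_lt_top

lemma integrable_den (h : Good m C k) (θ : ℝ) : Integrable (fun τ => 1 / den τ θ) (m k) := by
  refine h.integrable_inv.mono' (den_measurable θ).aestronglyMeasurable ?_
  filter_upwards [h.supp] with τ hτ
  have h1 := den_pos hτ.1 hτ.2 θ
  have h2 := sq_le_den hτ.1 θ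
  have h3 : 0 < (1 - τ) ^ 2 := by have : 0 < 1 - τ := by linarith only [hτ]
                                  (clear * - this; positivity)
  rw [Real.norm_eq_abs, abs_of_pos (by positivity)]
  exact one_div_le_one_div_of_le h3 h2

lemma integrable_bdd (h : Good m C k) {f : ℝ → ℝ} (hf : Measurable f) (B : ℝ)
    (hB : ∀ τ, 0 ≤ τ → τ < 1 → |f τ| ≤ B) : Integrable f (m k) := by
  have := h.fin
  refine Integrable.mono' (integrable_const B) hf.aestronglyMeasurable ?_
  filter_upwards [h.supp] with τ hτ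
  exact hB τ hτ.1 hτ.2

lemma integrable_zz (h : Good m C k) {b : ℝ} (hb : 0 < b) :
    Integrable (fun τ => 1 / (zz k τ + b)) (m k) := by
  have hm := zz_measurable k
  refine h.integrable_bdd (by fun_prop) (1 / b) fun τ _ _ => ?_
  have := zz_nonneg k τ
  rw [abs_of_pos (by (clear * - this hb; positivity))]
  exact one_div_le_one_div_of_le hb (by linarith only [this])

/-- Markov type inequality. -/
lemma mul_real_le (h : Good m C k) {S : Set ℝ} (hSm : MeasurableSet S) {f : ℝ → ℝ}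
    (hf : Integrable f (m k)) (hf0 : ∀ τ, 0 ≤ τ → τ < 1 → 0 ≤ f τ) {w : ℝ}
    (hw : ∀ τ ∈ S, 0 ≤ τ → τ < 1 → w ≤ f τ) : w * (m k).real S ≤ ∫ τ, f τ ∂(m k) := by
  have := h.fin
  calc w * (m k).real S = ∫ _τ in S, w ∂(m k) := by
        rw [setIntegral_const, smul_eq_mul, mul_comm]
    _ ≤ ∫ τ in S, f τ ∂(m k) := by
        refine setIntegral_mono_on_ae (integrableOn_const (measure_ne_top _ _))
          hf.integrableOn hSm ?_
        filter_upwards [h.supp] with τ hτ hS
        exact hw τ hS hτ.1 hτ.2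
    _ ≤ ∫ τ, f τ ∂(m k) := by
        refine setIntegral_le_integral hf ?_
        filter_upwards [h.supp] with τ hτ
        exact hf0 τ hτ.1 hτ.2

lemma J_close (h : Good m C k) (hC : 0 ≤ C) {b : ℝ} (hb : 0 < b) (hk : k ≠ 0)
    (hbk : b * |k| ≤ 1) :
    |k ^ 2 * (∫ τ, 1 / den τ (b * k) ∂(m k)) - ∫ τ, 1 / (zz k τ + b ^ 2) ∂(m k)| ≤
      (k ^ 2 + 3 / b * |k|) * C := by
  have := h.fin
  rw [← integral_const_mul, ← integral_sub ((h.integrable_den _).const_mul _)
    (h.integrable_zz (by positivity)), ← Real.norm_eq_abs]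
  refine (norm_integral_le_of_norm_le_const (C := k ^ 2 + 3 / b * |k|) ?_).trans ?_
  · filter_upwards [h.supp] with τ hτ
    exact pt_close hb hk hbk hτ.1 hτ.2
  · have := h.real_le hC
    have h2 : 0 ≤ k ^ 2 + 3 / b * |k| := by positivity
    gcongr

end Good

lemma lim_J {V : ℤ → ℤ → ℝ} {m : Kernel ℝ ℝ} {c κ C k0 : ℝ} (hS : Spec V m c κ C k0)
    {b : ℝ} (hb : 0 < b) {ε : ℝ} (hε : 0 < ε) : ∃ η > 0, ∀ᵐ k : ℝ, |k| < η → k ≠ 0 →
      |(∫ τ, 1 / (zz k τ + b ^ 2) ∂(m k)) - κ / (c ^ 2 + b ^ 2)| ≤ ε := by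
  have hc := hS.c_pos
  have hC := hS.C_pos
  have hd : 0 < c ^ 2 + b ^ 2 := by positivity
  obtain ⟨η1, hη1, h1⟩ := hS.lim (ε / 2 * (c ^ 2 + b ^ 2)) (by (clear * - hε hc hb; positivity))
  have hD : 0 < (1 + 3 / b) * C := by positivity
  refine ⟨min (min k0 η1) (min (min (1 / b) (η1 / b)) (min 1 (ε / 2 / ((1 + 3 / b) * C)))),
    lt_min (lt_min hS.k0_pos hη1) (lt_min (lt_min (by positivity) (by positivity))
      (lt_min one_pos (by positivity))), ?_⟩
  filter_upwards [ae_good hS, h1] with k hg h2 hk hk0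
  simp only [lt_min_iff] at hk
  obtain ⟨⟨hka, hkb⟩, ⟨hkc, hkd⟩, hke, hkf⟩ := hk
  have hG := hg hka hk0
  rw [lt_div_iff₀ hb, mul_comm] at hkc hkd
  rw [lt_div_iff₀ hD] at hkf
  have h3 := hG.J_close hC.le hb hk0 hkc.le
  have h4 := h2 hkb hk0 (b * k) (by rw [abs_mul, abs_of_pos hb]; exact hkd)
  set P := ∫ τ, 1 / den τ (b * k) ∂(m k)
  set J := ∫ τ, 1 / (zz k τ + b ^ 2) ∂(m k)
  have h5 : |k ^ 2 * P - κ / (c ^ 2 + b ^ 2)| ≤ ε / 2 := by
    have h6 : (c ^ 2 * k ^ 2 + (b * k) ^ 2) * P - κ =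
        (k ^ 2 * P - κ / (c ^ 2 + b ^ 2)) * (c ^ 2 + b ^ 2) := by
      (clear * - hc hb; field_simp)
    rw [h6, abs_mul, abs_of_pos hd] at h4
    exact le_of_mul_le_mul_right h4 hd
  have h7 : (k ^ 2 + 3 / b * |k|) * C ≤ ε / 2 := by
    have h8 : k ^ 2 ≤ |k| := by
      rw [← sq_abs]; nlinarith only [hke, abs_nonneg k]
    calc (k ^ 2 + 3 / b * |k|) * C ≤ (|k| + 3 / b * |k|) * C := by (clear * - h8 hC; gcongr)
      _ = |k| * ((1 + 3 / b) * C) := by ring
      _ ≤ _ := hkf.le
  have h9 := abs_le.mp h3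
  have h10 := abs_le.mp h5
  rw [abs_le]
  constructor <;> linarith

/-- the test function of the concentration. -/
noncomputable def Wf (c z : ℝ) : ℝ := (z - c ^ 2) ^ 2 / ((z + 1) * (z + 4) * (z + 9))

lemma Wf_eq (c : ℝ) {z : ℝ} (hz : 0 ≤ z) : Wf c z = (1 + c ^ 2) ^ 2 / 24 * (1 / (z + 1 ^ 2)) +
    (-((4 + c ^ 2) ^ 2 / 15)) * (1 / (z + 2 ^ 2)) + (9 + c ^ 2) ^ 2 / 40 * (1 / (z + 3 ^ 2)) := by
  unfold Wf
  have h1 : z + 1 ≠ 0 := by positivity
  have h2 : z + 4 ≠ 0 := by positivity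
  have h3 : z + 9 ≠ 0 := by positivity
  norm_num
  field_simp
  ring

lemma Wf_nonneg (c : ℝ) {z : ℝ} (hz : 0 ≤ z) : 0 ≤ Wf c z := by
  unfold Wf; positivity

lemma Good.integrable_W {m : Kernel ℝ ℝ} {C k : ℝ} (h : Good m C k) (c : ℝ) :
    Integrable (fun τ => Wf c (zz k τ)) (m k) := by
  have : (fun τ => Wf c (zz k τ)) = fun τ => (1 + c ^ 2) ^ 2 / 24 * (1 / (zz k τ + 1 ^ 2)) +
    (-((4 + c ^ 2) ^ 2 / 15)) * (1 / (zz k τ + 2 ^ 2)) +
      (9 + c ^ 2) ^ 2 / 40 * (1 / (zz k τ + 3 ^ 2)) :=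
    funext fun τ => Wf_eq c (zz_nonneg k τ)
  rw [this]
  exact (((h.integrable_zz (by norm_num)).const_mul _).add
    ((h.integrable_zz (by norm_num)).const_mul _)).add
      ((h.integrable_zz (by norm_num)).const_mul _)

lemma Good.integral_W {m : Kernel ℝ ℝ} {C k : ℝ} (h : Good m C k) (c : ℝ) :
    ∫ τ, Wf c (zz k τ) ∂(m k) = (1 + c ^ 2) ^ 2 / 24 * (∫ τ, 1 / (zz k τ + 1 ^ 2) ∂(m k)) +
    (-((4 + c ^ 2) ^ 2 / 15)) * (∫ τ, 1 / (zz k τ + 2 ^ 2) ∂(m k)) +
      (9 + c ^ 2) ^ 2 / 40 * (∫ τ, 1 / (zz k τ + 3 ^ 2) ∂(m k)) := by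
  have : (fun τ => Wf c (zz k τ)) = fun τ => (1 + c ^ 2) ^ 2 / 24 * (1 / (zz k τ + 1 ^ 2)) +
    (-((4 + c ^ 2) ^ 2 / 15)) * (1 / (zz k τ + 2 ^ 2)) +
      (9 + c ^ 2) ^ 2 / 40 * (1 / (zz k τ + 3 ^ 2)) :=
    funext fun τ => Wf_eq c (zz_nonneg k τ)
  have i1 : Integrable (fun τ => 1 / (zz k τ + 1 ^ 2)) (m k) := h.integrable_zz (by norm_num)
  have i2 : Integrable (fun τ => 1 / (zz k τ + 2 ^ 2)) (m k) := h.integrable_zz (by norm_num)
  have i3 : Integrable (fun τ => 1 / (zz k τ + 3 ^ 2)) (m k) := h.integrable_zz (by norm_num)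
  have iA : Integrable (fun τ => (1 + c ^ 2) ^ 2 / 24 * (1 / (zz k τ + 1 ^ 2)) +
      (-((4 + c ^ 2) ^ 2 / 15)) * (1 / (zz k τ + 2 ^ 2))) (m k) :=
    (i1.const_mul _).add (i2.const_mul _)
  rw [this, integral_add iA (i3.const_mul _),
    integral_add (i1.const_mul _) (i2.const_mul _), integral_const_mul, integral_const_mul,
    integral_const_mul]

lemma lim_W {V : ℤ → ℤ → ℝ} {m : Kernel ℝ ℝ} {c κ C k0 : ℝ} (hS : Spec V m c κ C k0)
    {ε : ℝ} (hε : 0 < ε) : ∃ η > 0, ∀ᵐ k : ℝ, |k| < η → k ≠ 0 →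
      ∫ τ, Wf c (zz k τ) ∂(m k) ≤ ε := by
  set A := (1 + c ^ 2) ^ 2 / 24 + (4 + c ^ 2) ^ 2 / 15 + (9 + c ^ 2) ^ 2 / 40 with hA
  have hA0 : 0 < A := by positivity
  have hc := hS.c_pos
  obtain ⟨η1, hη1, h1⟩ := lim_J hS (b := 1) one_pos (ε := ε / A) (by (clear * - hε hc; positivity))
  obtain ⟨η2, hη2, h2⟩ := lim_J hS (b := 2) two_pos (ε := ε / A) (by positivity)
  obtain ⟨η3, hη3, h3⟩ := lim_J hS (b := 3) three_pos (ε := ε / A) (by positivity)
  refine ⟨min k0 (min η1 (min η2 η3)), lt_min hS.k0_pos (lt_min hη1 (lt_min hη2 hη3)), ?_⟩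
  filter_upwards [ae_good hS, h1, h2, h3] with k hg g1 g2 g3 hk hk0
  simp only [lt_min_iff] at hk
  have hG := hg hk.1 hk0
  rw [hG.integral_W]
  have f1 := (abs_le.mp (g1 hk.2.1 hk0)).2
  have f2 := (abs_le.mp (g2 hk.2.2.1 hk0)).1
  have f3 := (abs_le.mp (g3 hk.2.2.2 hk0)).2
  set J1 := ∫ τ, 1 / (zz k τ + 1 ^ 2) ∂(m k)
  set J2 := ∫ τ, 1 / (zz k τ + 2 ^ 2) ∂(m k)
  set J3 := ∫ τ, 1 / (zz k τ + 3 ^ 2) ∂(m k)
  have e1 : J1 ≤ κ / (c ^ 2 + 1 ^ 2) + ε / A := by linarith only [f1]
  have e2 : κ / (c ^ 2 + 2 ^ 2) - ε / A ≤ J2 := by linarith only [f2]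
  have e3 : J3 ≤ κ / (c ^ 2 + 3 ^ 2) + ε / A := by (clear * - f3; linarith)
  have hz : (1 + c ^ 2) ^ 2 / 24 * (κ / (c ^ 2 + 1 ^ 2)) +
      (-((4 + c ^ 2) ^ 2 / 15)) * (κ / (c ^ 2 + 2 ^ 2)) +
      (9 + c ^ 2) ^ 2 / 40 * (κ / (c ^ 2 + 3 ^ 2)) = 0 := by
    norm_num
    have h1 : c ^ 2 + 1 ≠ 0 := by positivity
    have h2 : c ^ 2 + 4 ≠ 0 := by positivity
    have h3 : c ^ 2 + 9 ≠ 0 := by positivity
    field_simp
    ring
  have m1 := mul_le_mul_of_nonneg_left e1 (by positivity : 0 ≤ (1 + c ^ 2) ^ 2 / 24)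
  have m2 := mul_le_mul_of_nonneg_left e2 (by positivity : 0 ≤ (4 + c ^ 2) ^ 2 / 15)
  have m3 := mul_le_mul_of_nonneg_left e3 (by positivity : 0 ≤ (9 + c ^ 2) ^ 2 / 40)
  have hfin : A * (ε / A) = ε := by (clear * - hA0 hε; field_simp)
  rw [hA] at hfin
  linarith

/-! ### the three parts -/

lemma zz_eq {k τ : ℝ} : zz k τ = ((1 - τ) / |k|) ^ 2 := by
  unfold zz
  rw [div_pow, div_pow, sq_abs]

lemma W_low {c y A δ : ℝ} (hc : 0 < c) (hδ : 0 < δ) (hy : 0 ≤ y) (hyA : y ≤ A)
    (h : δ ≤ |y - c|) : (δ * c) ^ 2 / ((A ^ 2 + 1) * (A ^ 2 + 4) * (A ^ 2 + 9)) ≤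
      Wf c (y ^ 2) := by
  unfold Wf
  have hA : 0 ≤ A := hy.trans hyA
  have h1 : y ^ 2 ≤ A ^ 2 := by gcongr
  have h2 : (δ * c) ^ 2 ≤ (y ^ 2 - c ^ 2) ^ 2 := by
    have h3 : δ ^ 2 ≤ (y - c) ^ 2 := by
      rw [← sq_abs (y - c)]; gcongr
    have h4 : c ^ 2 ≤ (y + c) ^ 2 := by
      have : c ≤ y + c := by linarith only [hy]
      gcongr
    calc (δ * c) ^ 2 = δ ^ 2 * c ^ 2 := by ring
      _ ≤ (y - c) ^ 2 * (y + c) ^ 2 := by gcongr
      _ = _ := by ring
  gcongr

lemma measurableSet_ring (A δ c k : ℝ) :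
    MeasurableSet {τ : ℝ | 1 - τ ≤ A * |k| ∧ δ * |k| ≤ abs ((1 - τ) - c * abs k)} := by
  have h1 : MeasurableSet {τ : ℝ | 1 - τ ≤ A * |k|} :=
    measurableSet_le (by fun_prop) (by fun_prop)
  have h2 : MeasurableSet {τ : ℝ | δ * |k| ≤ abs ((1 - τ) - c * abs k)} :=
    measurableSet_le (by fun_prop) (by fun_prop)
  exact h1.inter h2

lemma measurableSet_near (δ c k : ℝ) :
    MeasurableSet {τ : ℝ | abs ((1 - τ) - c * abs k) < δ * |k|} :=
  measurableSet_lt (by fun_prop) (by fun_prop)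

lemma measurableSet_mid (A η k : ℝ) :
    MeasurableSet {τ : ℝ | A * |k| < 1 - τ ∧ 1 - τ < η} := by
  have h1 : MeasurableSet {τ : ℝ | A * |k| < 1 - τ} :=
    measurableSet_lt (by fun_prop) (by fun_prop)
  have h2 : MeasurableSet {τ : ℝ | 1 - τ < η} :=
    measurableSet_lt (by fun_prop) (by fun_prop)
  exact h1.inter h2

lemma abs_sub_div {c k τ : ℝ} (hk : k ≠ 0) :
    abs ((1 - τ) / abs k - c) = abs ((1 - τ) - c * abs k) / abs k := by
  have hk0 : 0 < |k| := abs_pos.mpr hk
  have : (1 - τ) / |k| - c = ((1 - τ) - c * |k|) / |k| := by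
    field_simp
  rw [this, abs_div, abs_abs]

lemma conc_a {V : ℤ → ℤ → ℝ} {m : Kernel ℝ ℝ} {c κ C k0 : ℝ} (hS : Spec V m c κ C k0)
    {A δ ε : ℝ} (hA : 0 < A) (hδ : 0 < δ) (hε : 0 < ε) : ∃ η > 0, ∀ᵐ k : ℝ, |k| < η → k ≠ 0 →
      (m k).real {τ | 1 - τ ≤ A * |k| ∧ δ * |k| ≤ abs ((1 - τ) - c * abs k)} ≤ ε := by
  have hc := hS.c_pos
  set w := (δ * c) ^ 2 / ((A ^ 2 + 1) * (A ^ 2 + 4) * (A ^ 2 + 9)) with hw
  have hw0 : 0 < w := by positivity
  obtain ⟨η, hη, h1⟩ := lim_W hS (ε := w * ε) (by positivity)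
  refine ⟨min k0 η, lt_min hS.k0_pos hη, ?_⟩
  filter_upwards [ae_good hS, h1] with k hg h2 hk hk0
  rw [lt_min_iff] at hk
  have hG := hg hk.1 hk0
  have hkp : 0 < |k| := abs_pos.mpr hk0
  have h3 := hG.mul_real_le (measurableSet_ring A δ c k) (hG.integrable_W c)
    (fun τ _ _ => Wf_nonneg c (zz_nonneg k τ)) (w := w) (by
      intro τ hτ h0 h1
      rw [zz_eq]
      refine W_low hc hδ (by have : 0 ≤ 1 - τ := by linarith only [h1]
                             positivity) ?_ ?_
      · rw [div_le_iff₀ hkp]; exact hτ.1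
      · rw [abs_sub_div hk0, le_div_iff₀ hkp]; exact hτ.2)
  have h4 := h2 hk.2 hk0
  exact le_of_mul_le_mul_left (h3.trans h4) hw0

lemma far_bound {c y δ : ℝ} (hc : 0 < c) (hδ : 0 < δ) (hy : 0 ≤ y) (h : δ ≤ |y - c|) :
    1 / (y ^ 2 + 1) ≤ (1 + 9 / c ^ 2) * (2 + (2 * c ^ 2 + 4) / δ ^ 2) * Wf c (y ^ 2) := by
  unfold Wf
  have hsq : δ ^ 2 ≤ (y - c) ^ 2 := by
    rw [← sq_abs (y - c)]; gcongr
  have hd0 : 0 < (y - c) ^ 2 := lt_of_lt_of_le (by positivity) hsq
  have h1 : y ^ 2 + 9 ≤ (1 + 9 / c ^ 2) * (y + c) ^ 2 := by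
    have e1 : y ^ 2 + c ^ 2 ≤ (y + c) ^ 2 := by nlinarith only [hc, hy]
    calc y ^ 2 + 9 ≤ (1 + 9 / c ^ 2) * (y ^ 2 + c ^ 2) := by
          have : (1 + 9 / c ^ 2) * (y ^ 2 + c ^ 2) = y ^ 2 + 9 + c ^ 2 + 9 / c ^ 2 * y ^ 2 := by
            field_simp; ring
          rw [this]
          have : 0 ≤ 9 / c ^ 2 * y ^ 2 := by (clear * - hc; positivity)
          nlinarith only [this]
      _ ≤ _ := by gcongr
  have h2 : y ^ 2 + 4 ≤ (2 + (2 * c ^ 2 + 4) / δ ^ 2) * (y - c) ^ 2 := by
    have e1 : y ^ 2 ≤ 2 * (y - c) ^ 2 + 2 * c ^ 2 := by nlinarith only [sq_nonneg (y - 2 * c)]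
    have e2 : (2 * c ^ 2 + 4) ≤ (2 * c ^ 2 + 4) / δ ^ 2 * (y - c) ^ 2 := by
      rw [div_mul_eq_mul_div, le_div_iff₀ (by positivity)]
      gcongr
    linarith only [e1, e2]
  rw [mul_div_assoc', div_le_div_iff₀ (by (clear * -; positivity)) (by (clear * -; positivity)), one_mul]
  calc (y ^ 2 + 1) * (y ^ 2 + 4) * (y ^ 2 + 9)
      = (y ^ 2 + 4) * (y ^ 2 + 9) * (y ^ 2 + 1) := by ring
    _ ≤ ((2 + (2 * c ^ 2 + 4) / δ ^ 2) * (y - c) ^ 2) * ((1 + 9 / c ^ 2) * (y + c) ^ 2) *
        (y ^ 2 + 1) := by gcongr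
    _ = _ := by ring

lemma near_bound {c y δ : ℝ} (hc : 0 < c) (hy : 0 ≤ y) (h : |y - c| < δ) :
    |1 / (y ^ 2 + 1) - 1 / (c ^ 2 + 1)| ≤ δ := by
  have h1 : 1 / (y ^ 2 + 1) - 1 / (c ^ 2 + 1) =
      -((y - c) * ((y + c) / ((y ^ 2 + 1) * (c ^ 2 + 1)))) := by
    field_simp; ring
  have h2 : (y + c) / ((y ^ 2 + 1) * (c ^ 2 + 1)) ≤ 1 := by
    rw [div_le_one (by (clear * - hc; positivity))]
    nlinarith only [sq_nonneg (c - 1), mul_nonneg (sq_nonneg y) (sq_nonneg c)]
  have h3 : 0 ≤ (y + c) / ((y ^ 2 + 1) * (c ^ 2 + 1)) := by positivity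
  rw [h1, abs_neg, abs_mul, abs_of_nonneg h3]
  nlinarith only [h, h2, abs_nonneg (y - c)]

lemma conc_b0 {V : ℤ → ℤ → ℝ} {m : Kernel ℝ ℝ} {c κ C k0 : ℝ} (hS : Spec V m c κ C k0)
    {δ ε : ℝ} (hδ : 0 < δ) (hε : 0 < ε) (hδε : (c ^ 2 + 1) * (δ * C) ≤ ε / 3) :
    ∃ η > 0, ∀ᵐ k : ℝ, |k| < η → k ≠ 0 →
      |(m k).real {τ | abs ((1 - τ) - c * abs k) < δ * |k|} - κ| ≤ ε := by
  have hc := hS.c_pos
  have hC := hS.C_pos
  set D := (1 + 9 / c ^ 2) * (2 + (2 * c ^ 2 + 4) / δ ^ 2) with hD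
  have hD0 : 0 < D := by (clear * - hc hδ; positivity)
  obtain ⟨η1, hη1, h1⟩ := lim_W hS (ε := ε / (3 * (c ^ 2 + 1) * D)) (by positivity)
  obtain ⟨η2, hη2, h2⟩ := lim_J hS (b := 1) one_pos (ε := ε / (3 * (c ^ 2 + 1))) (by positivity)
  refine ⟨min k0 (min η1 η2), lt_min hS.k0_pos (lt_min hη1 hη2), ?_⟩
  filter_upwards [ae_good hS, h1, h2] with k hg g1 g2 hk hk0
  simp only [lt_min_iff] at hk
  have hG := hg hk.1 hk0
  have hfin := hG.fin
  have hkp : 0 < |k| := abs_pos.mpr hk0
  have f1 := g1 hk.2.1 hk0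
  have f2 := g2 hk.2.2 hk0
  set S := {τ : ℝ | abs ((1 - τ) - c * abs k) < δ * |k|} with hSdef
  have hSm : MeasurableSet S := measurableSet_near δ c k
  have iJ : Integrable (fun τ => 1 / (zz k τ + 1 ^ 2)) (m k) := hG.integrable_zz (by norm_num)
  have iS : Integrable (S.indicator fun _ => 1 / (c ^ 2 + 1)) (m k) :=
    (integrable_const _).indicator hSm
  have key : |(∫ τ, 1 / (zz k τ + 1 ^ 2) ∂(m k)) - 1 / (c ^ 2 + 1) * (m k).real S| ≤
      δ * C + D * ∫ τ, Wf c (zz k τ) ∂(m k) := by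
    have e1 : 1 / (c ^ 2 + 1) * (m k).real S =
        ∫ τ, S.indicator (fun _ => 1 / (c ^ 2 + 1)) τ ∂(m k) := by
      rw [integral_indicator_const _ hSm, smul_eq_mul, mul_comm]
    rw [e1, ← integral_sub iJ iS, ← Real.norm_eq_abs]
    have e2 : ‖∫ τ, (1 / (zz k τ + 1 ^ 2) - S.indicator (fun _ => 1 / (c ^ 2 + 1)) τ) ∂(m k)‖ ≤
        ∫ τ, (δ + D * Wf c (zz k τ)) ∂(m k) := by
      refine norm_integral_le_of_norm_le ((integrable_const _).add
        ((hG.integrable_W c).const_mul _)) ?_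
      filter_upwards [hG.supp] with τ hτ
      have hy : 0 ≤ (1 - τ) / |k| := by
        have : 0 ≤ 1 - τ := by linarith only [hτ]
        (clear * - this hk0; positivity)
      rw [Real.norm_eq_abs]
      have hW0 := Wf_nonneg c (zz_nonneg k τ)
      by_cases hτS : τ ∈ S
      · rw [indicator_of_mem hτS, zz_eq, one_pow]
        rw [zz_eq] at hW0
        have h6 : abs ((1 - τ) / abs k - c) < δ := by
          rw [abs_sub_div hk0, div_lt_iff₀ hkp]; exact hτS
        have := near_bound hc hy h6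
        nlinarith only [this, hD0, hW0]
      · rw [indicator_of_notMem hτS, sub_zero, abs_of_nonneg (by
          have := zz_nonneg k τ
          (clear * - this; positivity)), one_pow, zz_eq]
        have h6 : δ ≤ abs ((1 - τ) / abs k - c) := by
          rw [abs_sub_div hk0, le_div_iff₀ hkp]
          exact not_lt.mp hτS
        have := far_bound hc hδ hy h6
        linarith only [hδ, this]
    refine e2.trans ?_
    rw [integral_add (integrable_const _) ((hG.integrable_W c).const_mul _), integral_const_mul,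
      integral_const, smul_eq_mul]
    have := hG.real_le hC.le
    nlinarith only [hδ, this]
  have f3 : D * ∫ τ, Wf c (zz k τ) ∂(m k) ≤ ε / (3 * (c ^ 2 + 1)) := by
    calc D * ∫ τ, Wf c (zz k τ) ∂(m k) ≤ D * (ε / (3 * (c ^ 2 + 1) * D)) := by gcongr
      _ = _ := by field_simp
  set J := ∫ τ, 1 / (zz k τ + 1 ^ 2) ∂(m k)
  set μS := (m k).real S
  have h5 : μS - κ = (c ^ 2 + 1) * ((J - κ / (c ^ 2 + 1 ^ 2)) - (J - 1 / (c ^ 2 + 1) * μS)) := by
    rw [one_pow]
    field_simp; ring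
  have h6 : |(J - κ / (c ^ 2 + 1 ^ 2)) - (J - 1 / (c ^ 2 + 1) * μS)| ≤
      ε / (3 * (c ^ 2 + 1)) + (δ * C + ε / (3 * (c ^ 2 + 1))) := by
    refine (abs_sub _ _).trans ?_
    linarith only [f3, f2, key]
  rw [h5, abs_mul, abs_of_pos (by positivity)]
  calc (c ^ 2 + 1) * |(J - κ / (c ^ 2 + 1 ^ 2)) - (J - 1 / (c ^ 2 + 1) * μS)|
      ≤ (c ^ 2 + 1) * (ε / (3 * (c ^ 2 + 1)) + (δ * C + ε / (3 * (c ^ 2 + 1)))) := by (clear * - h6 hc; gcongr)
    _ = ε / 3 + (c ^ 2 + 1) * (δ * C) + ε / 3 := by field_simp; ring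
    _ ≤ ε := by linarith only [hδε]

lemma conc_b {V : ℤ → ℤ → ℝ} {m : Kernel ℝ ℝ} {c κ C k0 : ℝ} (hS : Spec V m c κ C k0)
    {δ ε : ℝ} (hδ : 0 < δ) (hε : 0 < ε) : ∃ η > 0, ∀ᵐ k : ℝ, |k| < η → k ≠ 0 →
      |(m k).real {τ | abs ((1 - τ) - c * abs k) < δ * |k|} - κ| ≤ ε := by
  have hc := hS.c_pos
  have hC := hS.C_pos
  obtain ⟨δ', hδ', hδδ', hδε⟩ : ∃ δ' > 0, δ' ≤ δ ∧ (c ^ 2 + 1) * (δ' * C) ≤ ε / 2 / 3 := by
    refine ⟨min δ (ε / 6 / ((c ^ 2 + 1) * C)), lt_min hδ (by (clear * - hε hc hC; positivity)), min_le_left _ _, ?_⟩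
    have h1 : min δ (ε / 6 / ((c ^ 2 + 1) * C)) ≤ ε / 6 / ((c ^ 2 + 1) * C) := min_le_right _ _
    rw [le_div_iff₀ (by positivity)] at h1
    linarith
  obtain ⟨η1, hη1, h1⟩ := conc_b0 hS hδ' (half_pos hε) hδε
  obtain ⟨η2, hη2, h2⟩ := conc_a hS (A := c + δ) (by positivity) hδ' (half_pos hε)
  refine ⟨min k0 (min η1 η2), lt_min hS.k0_pos (lt_min hη1 hη2), ?_⟩
  filter_upwards [ae_good hS, h1, h2] with k hg g1 g2 hk hk0
  simp only [lt_min_iff] at hk
  have hG := hg hk.1 hk0
  have hfin := hG.fin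
  have hkp : 0 < |k| := abs_pos.mpr hk0
  have f1 := abs_le.mp (g1 hk.2.1 hk0)
  have f2 := g2 hk.2.2 hk0
  have e1 : (m k).real {τ | abs ((1 - τ) - c * abs k) < δ' * |k|} ≤
      (m k).real {τ | abs ((1 - τ) - c * abs k) < δ * |k|} := by
    refine measureReal_mono ?_ (measure_ne_top _ _)
    intro τ hτ
    have hτ' : abs ((1 - τ) - c * abs k) < δ' * |k| := hτ
    show abs ((1 - τ) - c * abs k) < δ * |k|
    refine hτ'.trans_le ?_
    (clear * - hδδ' hk0; gcongr)
  have e2 : (m k).real {τ | abs ((1 - τ) - c * abs k) < δ * |k|} ≤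
      (m k).real {τ | abs ((1 - τ) - c * abs k) < δ' * |k|} +
      (m k).real {τ | 1 - τ ≤ (c + δ) * |k| ∧ δ' * |k| ≤ abs ((1 - τ) - c * abs k)} := by
    refine le_trans (measureReal_mono ?_ (measure_ne_top _ _)) (measureReal_union_le _ _)
    intro τ hτ
    have hτ' : abs ((1 - τ) - c * abs k) < δ * |k| := hτ
    by_cases h : abs ((1 - τ) - c * abs k) < δ' * |k|
    · exact Or.inl h
    · refine Or.inr ⟨?_, not_lt.mp h⟩
      have := (abs_lt.mp hτ').2
      linarith only [this]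
  rw [abs_le]
  constructor <;> linarith only [f1, e1, f2, e2]

lemma conc_c {V : ℤ → ℤ → ℝ} {m : Kernel ℝ ℝ} {c κ C k0 : ℝ} (hS : Spec V m c κ C k0)
    {ε : ℝ} (hε : 0 < ε) : ∃ η > 0, ∃ η' > 0, ∀ᵐ k : ℝ, |k| < η' → k ≠ 0 →
      (m k).real {τ | (c + 1) * |k| < 1 - τ ∧ 1 - τ < η} ≤ ε := by
  have hc := hS.c_pos
  have hC := hS.C_pos
  have hκ := hS.κ_nonneg
  obtain ⟨η1, hη1, h1⟩ := hS.lim (ε / 16) (by positivity)
  obtain ⟨η2, hη2, h2⟩ := conc_b hS one_pos (ε := ε / 16) (by positivity)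
  set θ := η1 / 2 with hθ
  have hθ0 : 0 < θ := by positivity
  set ρ := min 1 (ε / (16 * (κ + 1))) with hρ
  have hρ0 : 0 < ρ := lt_min one_pos (by positivity)
  have hρ1 : ρ ≤ 1 := min_le_left _ _
  have hρκ : ρ * κ ≤ ε / 16 := by
    calc ρ * κ ≤ ε / (16 * (κ + 1)) * (κ + 1) := by
          gcongr
          · exact min_le_right _ _
          · linarith only []
      _ = ε / 16 := by (clear * - hκ hε; field_simp)
  have hr0 : 0 < Real.sqrt ρ * θ / (c + 1) := by (clear * - hε hκ hη1 hc; positivity)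
  refine ⟨θ, hθ0, min k0 (min (min η1 η2) (Real.sqrt ρ * θ / (c + 1))),
    lt_min hS.k0_pos (lt_min (lt_min hη1 hη2) hr0), ?_⟩
  filter_upwards [ae_good hS, h1, h2] with k hg g1 g2 hk hk0
  simp only [lt_min_iff] at hk
  obtain ⟨hka, ⟨hkb, hkc⟩, hkd⟩ := hk
  have hG := hg hka hk0
  have hfin := hG.fin
  have hkp : 0 < |k| := abs_pos.mpr hk0
  have f1 := (abs_le.mp (g1 hkb hk0 θ (by rw [abs_of_pos hθ0, hθ]; linarith only [hη1]))).2
  have f2 := (abs_le.mp (g2 hkc hk0)).1
  rw [lt_div_iff₀ (by positivity)] at hkd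
  have hk2 : (c + 1) ^ 2 * k ^ 2 ≤ ρ * θ ^ 2 := by
    have : (|k| * (c + 1)) ^ 2 ≤ (Real.sqrt ρ * θ) ^ 2 := by (clear * - hk0 hc hkd; gcongr)
    rw [mul_pow, mul_pow, sq_abs, Real.sq_sqrt hρ0.le] at this
    linarith only [this]
  set S1 := {τ : ℝ | abs ((1 - τ) - c * abs k) < 1 * |k|} with hS1
  set S2 := {τ : ℝ | (c + 1) * |k| < 1 - τ ∧ 1 - τ < θ} with hS2
  have hS1m : MeasurableSet S1 := measurableSet_near 1 c k
  have hS2m : MeasurableSet S2 := measurableSet_mid _ _ _
  have i1 : Integrable (S1.indicator fun _ => (1 - ρ)) (m k) :=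
    (integrable_const _).indicator hS1m
  have i2 : Integrable (S2.indicator fun _ => (1 / 2 : ℝ)) (m k) :=
    (integrable_const _).indicator hS2m
  have key : ∫ τ, (S1.indicator (fun _ => (1 - ρ)) τ + S2.indicator (fun _ => (1 / 2 : ℝ)) τ)
      ∂(m k) ≤ ∫ τ, (c ^ 2 * k ^ 2 + θ ^ 2) * (1 / den τ θ) ∂(m k) := by
    refine integral_mono_ae (i1.add i2) ((hG.integrable_den θ).const_mul _) ?_
    filter_upwards [hG.supp] with τ hτ
    have hd0 := den_pos hτ.1 hτ.2 θ
    have hd1 := den_le hτ.1 hτ.2 θ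
    have hu : 0 < 1 - τ := by linarith only [hτ]
    have hck : 0 ≤ c ^ 2 * k ^ 2 := by (clear * - hc hk0; positivity)
    show S1.indicator (fun _ => (1 - ρ)) τ + S2.indicator (fun _ => (1 / 2 : ℝ)) τ ≤
      (c ^ 2 * k ^ 2 + θ ^ 2) * (1 / den τ θ)
    by_cases h1 : τ ∈ S1
    · have h1' : abs ((1 - τ) - c * abs k) < 1 * |k| := h1
      have h2 : τ ∉ S2 := by
        intro h2
        have h3 := (abs_lt.mp h1').2
        have h4 := h2.1
        linarith only [h3, h4]
      rw [indicator_of_mem h1, indicator_of_notMem h2, add_zero, mul_one_div,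
        le_div_iff₀ hd0]
      have h3 := (abs_lt.mp h1').2
      have h5 : (1 - τ) ^ 2 ≤ ρ * θ ^ 2 := by
        have : 1 - τ ≤ (c + 1) * |k| := by linarith only [h3]
        calc (1 - τ) ^ 2 ≤ ((c + 1) * |k|) ^ 2 := by (clear * - hu this; gcongr)
          _ = (c + 1) ^ 2 * k ^ 2 := by rw [mul_pow, sq_abs]
          _ ≤ _ := hk2
      calc (1 - ρ) * den τ θ ≤ (1 - ρ) * ((1 - τ) ^ 2 + θ ^ 2) := by
            have : 0 ≤ 1 - ρ := by linarith only [hρ1]
            (clear * - hd1 hρ1; gcongr)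
        _ ≤ (1 - ρ) * (ρ * θ ^ 2 + θ ^ 2) := by
            have : 0 ≤ 1 - ρ := by linarith only [hρ1]
            (clear * - h5 hρ1; gcongr)
        _ = θ ^ 2 - ρ ^ 2 * θ ^ 2 := by ring
        _ ≤ c ^ 2 * k ^ 2 + θ ^ 2 := by nlinarith only []
    · rw [indicator_of_notMem h1, zero_add]
      by_cases h2 : τ ∈ S2
      · rw [indicator_of_mem h2, mul_one_div, le_div_iff₀ hd0]
        have h3 := h2.2
        have : (1 - τ) ^ 2 ≤ θ ^ 2 := by (clear * - hu h3; gcongr)
        linarith only [hd1, hck, this]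
      · rw [indicator_of_notMem h2]
        (clear * - hc hk0 hη1 hd0; positivity)
  rw [integral_add i1 i2, integral_indicator_const _ hS1m, integral_indicator_const _ hS2m,
    integral_const_mul, smul_eq_mul, smul_eq_mul] at key
  have h6 : (κ - ε / 16) * (1 - ρ) ≤ (m k).real S1 * (1 - ρ) := by
    have : 0 ≤ 1 - ρ := by linarith only [hρ1]
    refine mul_le_mul_of_nonneg_right ?_ this
    linarith only [f2]
  nlinarith only [hε, hρκ, f1, key, h6, hρ0]

end Cn

open Cn in
theorem conc : ConcStatement := by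
  intro V m c κ C k0 hS
  have hconv : ∀ {k ε : ℝ} {S : Set ℝ}, Good m C k → (m k).real S ≤ ε →
      m k S ≤ ENNReal.ofReal ε := by
    intro k ε S hG h
    have := hG.fin
    rw [← ofReal_measureReal (μ := m k) (s := S)]
    exact ENNReal.ofReal_le_ofReal h
  refine ⟨?_, ?_, ?_⟩
  · intro ε hε A hA
    obtain ⟨η, hη, h⟩ := conc_a hS hA hε hε
    refine ⟨min k0 η, lt_min hS.k0_pos hη, ?_⟩
    filter_upwards [ae_good hS, h] with k hg g hk hk0
    rw [lt_min_iff] at hk
    exact hconv (hg hk.1 hk0) (g hk.2 hk0)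
  · intro ε hε
    exact conc_b hS hε hε
  · intro ε hε
    obtain ⟨η, hη, η', hη', h⟩ := conc_c hS hε
    refine ⟨c + 1, by linarith [hS.c_pos], η, hη, min k0 η', lt_min hS.k0_pos hη', ?_⟩
    filter_upwards [ae_good hS, h] with k hg g hk hk0
    rw [lt_min_iff] at hk
    exact hconv (hg hk.1 hk0) (g hk.2 hk0)

end Vale.Agent.P153.TwoPt
end

section

/-!
# P153, block (D): statements (P3) and (P4)

Owner: helper442.
-/

open MeasureTheory ProbabilityTheory Filter Topology Set
open scoped ENNReal Real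

namespace Vale.Agent.P153.TwoPt

namespace Cn

/-! ### The Fejer kernel -/

/-- `|∑_{j<N} e^{ijk}|²`. -/
noncomputable def fej (N : ℕ) (k : ℝ) : ℝ :=
  (∑ j ∈ Finset.range N, Real.cos (j * k)) ^ 2 + (∑ j ∈ Finset.range N, Real.sin (j * k)) ^ 2

lemma fej_nonneg (N : ℕ) (k : ℝ) : 0 ≤ fej N k := by
  unfold fej; positivity

lemma fej_continuous (N : ℕ) : Continuous (fej N) := by
  unfold fej; fun_prop

lemma fej_eq (N : ℕ) (k : ℝ) : fej N k = ∑ i ∈ Finset.range N, ∑ j ∈ Finset.range N,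
    Real.cos (k * (((i : ℤ) - (j : ℤ) : ℤ) : ℝ)) := by
  unfold fej
  rw [sq, sq, Finset.sum_mul_sum, Finset.sum_mul_sum, ← Finset.sum_add_distrib]
  refine Finset.sum_congr rfl fun i _ => ?_
  rw [← Finset.sum_add_distrib]
  refine Finset.sum_congr rfl fun j _ => ?_
  rw [← Real.cos_sub]
  congr 1
  push_cast; ring

lemma fej_mul_le (N : ℕ) (k : ℝ) : fej N k * (1 - Real.cos k) ≤ 2 := by
  set z : ℂ := Complex.exp (k * Complex.I) with hz
  set S : ℂ := ∑ j ∈ Finset.range N, z ^ j with hS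
  have h1 : S * (z - 1) = z ^ N - 1 := geom_sum_mul _ _
  have hpow : ∀ j : ℕ, z ^ j = Complex.exp (((j * k : ℝ) : ℂ) * Complex.I) := by
    intro j
    rw [hz, ← Complex.exp_nat_mul]
    congr 1
    push_cast; ring
  have hre : S.re = ∑ j ∈ Finset.range N, Real.cos (j * k) := by
    rw [hS, Complex.re_sum]
    refine Finset.sum_congr rfl fun j _ => ?_
    rw [hpow, Complex.exp_ofReal_mul_I_re]
  have him : S.im = ∑ j ∈ Finset.range N, Real.sin (j * k) := by
    rw [hS, Complex.im_sum]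
    refine Finset.sum_congr rfl fun j _ => ?_
    rw [hpow, Complex.exp_ofReal_mul_I_im]
  have hfej : fej N k = Complex.normSq S := by
    rw [Complex.normSq_apply, hre, him]; unfold fej; ring
  have hz1 : Complex.normSq (z - 1) = 2 * (1 - Real.cos k) := by
    rw [Complex.normSq_apply, Complex.sub_re, Complex.sub_im, hz, Complex.exp_ofReal_mul_I_re,
      Complex.exp_ofReal_mul_I_im, Complex.one_re, Complex.one_im]
    nlinarith only [Real.sin_sq_add_cos_sq k]
  have hzN : Complex.normSq (z ^ N - 1) ≤ 4 := by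
    rw [Complex.normSq_apply, Complex.sub_re, Complex.sub_im, hpow, Complex.exp_ofReal_mul_I_re,
      Complex.exp_ofReal_mul_I_im, Complex.one_re, Complex.one_im]
    nlinarith only [Real.sin_sq_add_cos_sq (N * k)]
  have h2 : Complex.normSq S * Complex.normSq (z - 1) ≤ 4 := by
    rw [← Complex.normSq_mul, h1]; exact hzN
  rw [hz1] at h2
  rw [hfej]; nlinarith only [h2]

lemma integral_cos_int (z : ℤ) : ∫ k in Icc (-π) π, Real.cos (k * z) =
    if z = 0 then 2 * π else 0 := by
  rw [integral_Icc_eq_integral_Ioc, ← intervalIntegral.integral_of_le (by linarith [Real.pi_pos])]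
  split_ifs with h
  · subst h
    simp
    ring
  · have hz : (z : ℝ) ≠ 0 := by exact_mod_cast h
    rw [intervalIntegral.integral_comp_mul_right (fun x => Real.cos x) hz, integral_cos]
    have h1 : Real.sin (π * z) = 0 := by rw [mul_comm]; exact Real.sin_int_mul_pi z
    have h2 : Real.sin (-π * z) = 0 := by rw [neg_mul, Real.sin_neg, h1, neg_zero]
    rw [h1, h2]; simp

lemma integral_fej (N : ℕ) : ∫ k in Icc (-π) π, fej N k = N * (2 * π) := by
  simp_rw [fej_eq]
  rw [integral_finsetSum]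
  · have : ∀ i ∈ Finset.range N, (∫ k in Icc (-π) π, ∑ j ∈ Finset.range N,
        Real.cos (k * (((i : ℤ) - (j : ℤ) : ℤ) : ℝ))) = 2 * π := by
      intro i hi
      rw [integral_finsetSum]
      · simp_rw [integral_cos_int, sub_eq_zero]
        rw [Finset.sum_eq_single i]
        · simp
        · intro b _ hb
          rw [if_neg]
          exact_mod_cast hb.symm
        · intro h; exact absurd hi h
      · intro j _
        exact (Continuous.integrableOn_Icc (by fun_prop))
    rw [Finset.sum_congr rfl this]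
    simp
  · intro i _
    exact (Continuous.integrableOn_Icc (by fun_prop))

/-! ### Fourier coefficients of a nonnegative function -/

/-- cosine coefficient. -/
noncomputable def cc (F : ℝ → ℝ) (z : ℤ) : ℝ :=
  1 / (2 * π) * ∫ k in Icc (-π) π, Real.cos (k * z) * F k

lemma integrableOn_cos_mul {F : ℝ → ℝ} (hF : IntegrableOn F (Icc (-π) π)) (z : ℤ) :
    IntegrableOn (fun k => Real.cos (k * z) * F k) (Icc (-π) π) := by
  refine Integrable.bdd_mul (c := 1) hF ?_ ?_
  · exact (by fun_prop : Continuous fun k : ℝ => Real.cos (k * z)).aestronglyMeasurable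
  · exact Eventually.of_forall fun k => by rw [Real.norm_eq_abs]; exact Real.abs_cos_le_one _

lemma integrableOn_fej_mul {F : ℝ → ℝ} (hF : IntegrableOn F (Icc (-π) π)) (N : ℕ) :
    IntegrableOn (fun k => fej N k * F k) (Icc (-π) π) := by
  simp_rw [fej_eq, Finset.sum_mul]
  refine integrable_finsetSum _ fun i _ => integrable_finsetSum _ fun j _ => ?_
  exact integrableOn_cos_mul hF _

lemma sum_cc_eq {F : ℝ → ℝ} (hF : IntegrableOn F (Icc (-π) π)) (N : ℕ) :
    ∑ i ∈ Finset.range N, ∑ j ∈ Finset.range N, cc F ((i : ℤ) - (j : ℤ)) =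
      1 / (2 * π) * ∫ k in Icc (-π) π, fej N k * F k := by
  simp_rw [fej_eq, Finset.sum_mul]
  rw [integral_finsetSum _ (fun i _ => integrable_finsetSum _ fun j _ =>
    integrableOn_cos_mul hF _)]
  rw [Finset.mul_sum]
  refine Finset.sum_congr rfl fun i _ => ?_
  rw [integral_finsetSum _ (fun j _ => integrableOn_cos_mul hF _), Finset.mul_sum]
  rfl

lemma one_sub_cos_pos {η : ℝ} (hη : 0 < η) (hηπ : η ≤ π) : 0 < 1 - Real.cos η := by
  have : Real.cos η < Real.cos 0 := Real.cos_lt_cos_of_nonneg_of_le_pi le_rfl hηπ hη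
  rw [Real.cos_zero] at this; linarith

lemma fej_le {η k : ℝ} (hη : 0 < η) (hk : η ≤ |k|) (hkπ : |k| ≤ π) (N : ℕ) :
    fej N k ≤ 2 / (1 - Real.cos η) := by
  have h1 := one_sub_cos_pos hη (hk.trans hkπ)
  have h2 : Real.cos k ≤ Real.cos η := by
    rw [← Real.cos_abs k]
    exact Real.cos_le_cos_of_nonneg_of_le_pi hη.le hkπ hk
  rw [le_div_iff₀ h1]
  have h3 := fej_mul_le N k
  have h4 := fej_nonneg N k
  nlinarith only [h3, h2, h4]

/-- Upper bound of the double sum. -/
lemma fej_int_le {F : ℝ → ℝ} (hF : IntegrableOn F (Icc (-π) π))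
    (hF0 : ∀ᵐ k : ℝ, |k| ≤ π → 0 ≤ F k) {η B : ℝ} (hη : 0 < η) (hηπ : η ≤ π) (hB0 : 0 ≤ B)
    (hB : ∀ᵐ k : ℝ, |k| < η → F k ≤ B) (N : ℕ) :
    1 / (2 * π) * ∫ k in Icc (-π) π, fej N k * F k ≤
      N * B + 1 / (2 * π) * (2 / (1 - Real.cos η)) * ∫ k in Icc (-π) π, F k := by
  have hπ := Real.pi_pos
  have hcos := one_sub_cos_pos hη hηπ
  have hc0 : 0 ≤ 2 / (1 - Real.cos η) := by positivity
  have hi : IntegrableOn (fun k => fej N k) (Icc (-π) π) :=
    (fej_continuous N).integrableOn_Icc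
  have h1 : ∫ k in Icc (-π) π, fej N k * F k ≤
      ∫ k in Icc (-π) π, (B * fej N k + 2 / (1 - Real.cos η) * F k) := by
    refine setIntegral_mono_on_ae (integrableOn_fej_mul hF N) ((hi.const_mul _).add
      (hF.const_mul _)) measurableSet_Icc ?_
    filter_upwards [hF0, hB] with k h0 hBk hk
    have hkπ : |k| ≤ π := abs_le.mpr ⟨hk.1, hk.2⟩
    have hf0 := fej_nonneg N k
    have hFk := h0 hkπ
    rcases lt_or_ge |k| η with h | h
    · have := hBk h
      nlinarith only [hc0, hFk, this, hf0]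
    · have := fej_le hη h hkπ N
      nlinarith only [hB0, hf0, this, hFk]
  rw [integral_add (hi.const_mul _) (hF.const_mul _), integral_const_mul, integral_const_mul,
    integral_fej] at h1
  calc 1 / (2 * π) * ∫ k in Icc (-π) π, fej N k * F k
      ≤ 1 / (2 * π) * (B * (N * (2 * π)) + 2 / (1 - Real.cos η) * ∫ k in Icc (-π) π, F k) := by
        (clear * - h1; gcongr)
    _ = _ := by (clear * - hcos; field_simp)

lemma le_fej_int {F : ℝ → ℝ} (hF : IntegrableOn F (Icc (-π) π))
    (hF0 : ∀ᵐ k : ℝ, |k| ≤ π → 0 ≤ F k) {η A : ℝ} (hη : 0 < η) (hηπ : η ≤ π) (hA0 : 0 ≤ A)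
    (hA : ∀ᵐ k : ℝ, |k| < η → A ≤ F k) (N : ℕ) :
    N * A - A * (2 / (1 - Real.cos η)) ≤
      1 / (2 * π) * ∫ k in Icc (-π) π, fej N k * F k := by
  have hπ := Real.pi_pos
  have hcos := one_sub_cos_pos hη hηπ
  have hc0 : 0 ≤ 2 / (1 - Real.cos η) := by positivity
  have hi : IntegrableOn (fun k => fej N k) (Icc (-π) π) :=
    (fej_continuous N).integrableOn_Icc
  have hi1 : IntegrableOn (fun _ : ℝ => A * (2 / (1 - Real.cos η))) (Icc (-π) π) :=
    continuous_const.integrableOn_Icc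
  have h1 : ∫ k in Icc (-π) π, (A * fej N k - A * (2 / (1 - Real.cos η))) ≤
      ∫ k in Icc (-π) π, fej N k * F k := by
    refine setIntegral_mono_on_ae ((hi.const_mul _).sub hi1) (integrableOn_fej_mul hF N)
      measurableSet_Icc ?_
    filter_upwards [hF0, hA] with k h0 hAk hk
    have hkπ : |k| ≤ π := abs_le.mpr ⟨hk.1, hk.2⟩
    have hf0 := fej_nonneg N k
    have hFk := h0 hkπ
    rcases lt_or_ge |k| η with h | h
    · have := hAk h
      nlinarith only [hA0, hc0, this, hf0]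
    · have := fej_le hη h hkπ N
      nlinarith only [hf0, hFk, this, hA0]
  rw [integral_sub (hi.const_mul _) hi1, integral_const_mul, integral_fej] at h1
  simp only [integral_const, MeasurableSet.univ, measureReal_restrict_apply, univ_inter,
    Real.volume_real_Icc, smul_eq_mul] at h1
  rw [max_eq_left (by linarith only [hη, hηπ])] at h1
  calc N * A - A * (2 / (1 - Real.cos η))
      = 1 / (2 * π) * (A * (N * (2 * π)) - (π - -π) * (A * (2 / (1 - Real.cos η)))) := by
        field_simp; ring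
    _ ≤ _ := by (clear * - h1; gcongr)

/-- the partial sums of nonnegative Fourier coefficients. -/
lemma sum_le_of_bound {F : ℝ → ℝ} (hF : IntegrableOn F (Icc (-π) π))
    (hF0 : ∀ᵐ k : ℝ, |k| ≤ π → 0 ≤ F k) {η B : ℝ} (hη : 0 < η) (hηπ : η ≤ π) (hB0 : 0 ≤ B)
    (hB : ∀ᵐ k : ℝ, |k| < η → F k ≤ B) (hc : ∀ z, 0 ≤ cc F z) (S : Finset ℤ) :
    ∑ z ∈ S, cc F z ≤ B := by
  obtain ⟨M, hM⟩ : ∃ M : ℕ, ∀ z ∈ S, |z| ≤ M := by
    obtain ⟨M, hM⟩ := (S.image fun z => z.natAbs).bddAbove
    refine ⟨M, fun z hz => ?_⟩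
    have := hM (Finset.mem_coe.mpr (Finset.mem_image_of_mem (fun z : ℤ => z.natAbs) hz))
    rw [Int.abs_eq_natAbs]
    exact_mod_cast this
  set D : ℝ := 1 / (2 * π) * (2 / (1 - Real.cos η)) * ∫ k in Icc (-π) π, F k with hD
  set T : ℝ := ∑ z ∈ S, cc F z with hT
  have hT0 : 0 ≤ T := Finset.sum_nonneg fun z _ => hc z
  have key : ∀ N : ℕ, ((N : ℝ) - 2 * M) * T ≤ N * B + D := by
    intro N
    rcases le_or_gt (N : ℝ) (2 * M) with h | h
    · have h1 := fej_int_le hF hF0 hη hηπ hB0 hB N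
      have h2 : 0 ≤ 1 / (2 * π) * ∫ k in Icc (-π) π, fej N k * F k := by
        rw [← sum_cc_eq hF]
        exact Finset.sum_nonneg fun i _ => Finset.sum_nonneg fun j _ => hc _
      nlinarith only [h1, h2, hT0, h]
    · have hN : 2 * M < N := by exact_mod_cast h
      refine le_trans ?_ (fej_int_le hF hF0 hη hηπ hB0 hB N)
      rw [← sum_cc_eq hF, Finset.sum_comm]
      have h3 : ∀ j ∈ Finset.Ico M (N - M), T ≤ ∑ i ∈ Finset.range N,
          cc F ((i : ℤ) - (j : ℤ)) := by
        intro j hj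
        rw [Finset.mem_Ico] at hj
        rw [hT]
        have h4 : ∑ z ∈ S, cc F z = ∑ i ∈ S.image (fun z : ℤ => (z + j).toNat),
            cc F ((i : ℤ) - (j : ℤ)) := by
          rw [Finset.sum_image]
          · refine Finset.sum_congr rfl fun z hz => ?_
            have := abs_le.mp (hM z hz)
            rw [Int.toNat_of_nonneg (by omega)]
            congr 1; ring
          · intro z hz z' hz' h
            have h5 := abs_le.mp (hM z hz)
            have h6 := abs_le.mp (hM z' hz')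
            simp only at h
            omega
        rw [h4]
        refine Finset.sum_le_sum_of_subset_of_nonneg ?_ fun i _ _ => hc _
        intro i hi
        rw [Finset.mem_image] at hi
        obtain ⟨z, hz, rfl⟩ := hi
        have := abs_le.mp (hM z hz)
        rw [Finset.mem_range]
        (clear * - hN hj this; omega)
      calc ((N : ℝ) - 2 * M) * T = ∑ j ∈ Finset.Ico M (N - M), T := by
            rw [Finset.sum_const, Nat.card_Ico, nsmul_eq_mul]
            congr 1
            rw [Nat.cast_sub (by omega), Nat.cast_sub (by omega)]; ring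
        _ ≤ ∑ j ∈ Finset.Ico M (N - M), ∑ i ∈ Finset.range N, cc F ((i : ℤ) - (j : ℤ)) :=
            Finset.sum_le_sum h3
        _ ≤ ∑ j ∈ Finset.range N, ∑ i ∈ Finset.range N, cc F ((i : ℤ) - (j : ℤ)) := by
            refine Finset.sum_le_sum_of_subset_of_nonneg ?_ fun j _ _ =>
              Finset.sum_nonneg fun i _ => hc _
            intro j hj
            rw [Finset.mem_Ico] at hj
            rw [Finset.mem_range]
            omega
  by_contra hlt
  push Not at hlt
  obtain ⟨N, hN⟩ := exists_nat_gt ((D + 2 * M * T) / (T - B))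
  rw [div_lt_iff₀ (by linarith only [hlt])] at hN
  have := key N
  nlinarith only [hN, this]

lemma summable_cc {F : ℝ → ℝ} (hF : IntegrableOn F (Icc (-π) π))
    (hF0 : ∀ᵐ k : ℝ, |k| ≤ π → 0 ≤ F k) {η B : ℝ} (hη : 0 < η) (hηπ : η ≤ π) (hB0 : 0 ≤ B)
    (hB : ∀ᵐ k : ℝ, |k| < η → F k ≤ B) (hc : ∀ z, 0 ≤ cc F z) : Summable (cc F) :=
  summable_of_sum_le hc (sum_le_of_bound hF hF0 hη hηπ hB0 hB hc)

lemma tsum_cc_le {F : ℝ → ℝ} (hF : IntegrableOn F (Icc (-π) π))
    (hF0 : ∀ᵐ k : ℝ, |k| ≤ π → 0 ≤ F k) {η B : ℝ} (hη : 0 < η) (hηπ : η ≤ π) (hB0 : 0 ≤ B)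
    (hB : ∀ᵐ k : ℝ, |k| < η → F k ≤ B) (hc : ∀ z, 0 ≤ cc F z) : ∑' z, cc F z ≤ B :=
  Real.tsum_le_of_sum_le hc (sum_le_of_bound hF hF0 hη hηπ hB0 hB hc)

lemma le_tsum_cc {F : ℝ → ℝ} (hF : IntegrableOn F (Icc (-π) π))
    (hF0 : ∀ᵐ k : ℝ, |k| ≤ π → 0 ≤ F k) {η A : ℝ} (hη : 0 < η) (hηπ : η ≤ π) (hA0 : 0 ≤ A)
    (hA : ∀ᵐ k : ℝ, |k| < η → A ≤ F k) (hc : ∀ z, 0 ≤ cc F z) (hs : Summable (cc F)) :
    A ≤ ∑' z, cc F z := by
  set T := ∑' z, cc F z with hT
  have key : ∀ N : ℕ, N * A - A * (2 / (1 - Real.cos η)) ≤ N * T := by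
    intro N
    refine (le_fej_int hF hF0 hη hηπ hA0 hA N).trans ?_
    rw [← sum_cc_eq hF, Finset.sum_comm]
    calc ∑ j ∈ Finset.range N, ∑ i ∈ Finset.range N, cc F ((i : ℤ) - (j : ℤ))
        ≤ ∑ j ∈ Finset.range N, T := by
          refine Finset.sum_le_sum fun j _ => ?_
          have : ∑ i ∈ Finset.range N, cc F ((i : ℤ) - (j : ℤ)) =
              ∑ z ∈ (Finset.range N).image (fun i : ℕ => (i : ℤ) - (j : ℤ)), cc F z := by
            rw [Finset.sum_image]
            intro a _ b _ h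
            simp only at h
            omega
          rw [this]
          exact hs.sum_le_tsum _ fun z _ => hc z
      _ = N * T := by rw [Finset.sum_const, Finset.card_range, nsmul_eq_mul]
  by_contra hlt
  push Not at hlt
  obtain ⟨N, hN⟩ := exists_nat_gt ((A * (2 / (1 - Real.cos η))) / (A - T))
  rw [div_lt_iff₀ (by linarith only [hlt])] at hN
  have := key N
  linarith

/-! ### the spectral functions -/

/-- `∫ 1/(1-τ²) dm_k`. -/
noncomputable def Ai (m : Kernel ℝ ℝ) (k : ℝ) : ℝ≥0∞ :=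
  ∫⁻ τ, ENNReal.ofReal (1 / (1 - τ ^ 2)) ∂(m k)

/-- `∫ (1-τ^{2K})/(1-τ²) dm_k`. -/
noncomputable def Bi (m : Kernel ℝ ℝ) (K : ℕ) (k : ℝ) : ℝ≥0∞ :=
  ∫⁻ τ, ENNReal.ofReal ((1 - τ ^ (2 * K)) / (1 - τ ^ 2)) ∂(m k)

lemma Ai_measurable (m : Kernel ℝ ℝ) : Measurable (Ai m) :=
  Measurable.lintegral_kernel (by fun_prop)

lemma Bi_measurable (m : Kernel ℝ ℝ) (K : ℕ) : Measurable (Bi m K) :=
  Measurable.lintegral_kernel (by (clear * -; fun_prop))

lemma phi_eq {τ : ℝ} (h0 : 0 ≤ τ) (h1 : τ < 1) (K : ℕ) :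
    (1 - τ ^ (2 * K)) / (1 - τ ^ 2) = ∑ i ∈ Finset.range K, (τ ^ 2) ^ i := by
  have h2 : τ ^ 2 < 1 := by nlinarith
  rw [geom_sum_eq h2.ne, pow_mul, ← neg_sub 1 ((τ ^ 2) ^ K), ← neg_sub 1 (τ ^ 2), neg_div_neg_eq]

lemma phi_nonneg {τ : ℝ} (h0 : 0 ≤ τ) (h1 : τ < 1) (K : ℕ) :
    0 ≤ (1 - τ ^ (2 * K)) / (1 - τ ^ 2) := by
  rw [phi_eq h0 h1]
  exact Finset.sum_nonneg fun i _ => by positivity

lemma phi_le {τ : ℝ} (h0 : 0 ≤ τ) (h1 : τ < 1) (K : ℕ) :
    (1 - τ ^ (2 * K)) / (1 - τ ^ 2) ≤ K := by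
  rw [phi_eq h0 h1]
  calc ∑ i ∈ Finset.range K, (τ ^ 2) ^ i ≤ ∑ i ∈ Finset.range K, (1 : ℝ) :=
        Finset.sum_le_sum fun i _ => pow_le_one₀ (by positivity) (by nlinarith only [h1, h0])
    _ = K := by simp

lemma phi_le' {τ : ℝ} (h0 : 0 ≤ τ) (h1 : τ < 1) (K : ℕ) :
    (1 - τ ^ (2 * K)) / (1 - τ ^ 2) ≤ 1 / (1 - τ) := by
  have h2 : 0 < 1 - τ := by linarith
  have h3 : 1 - τ ≤ 1 - τ ^ 2 := by nlinarith only [h0, h1]
  have h4 : 0 ≤ τ ^ (2 * K) := by positivity
  calc (1 - τ ^ (2 * K)) / (1 - τ ^ 2) ≤ 1 / (1 - τ ^ 2) := by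
        have : 0 < 1 - τ ^ 2 := by linarith only [h1, h3]
        gcongr
        linarith
    _ ≤ 1 / (1 - τ) := one_div_le_one_div_of_le h2 h3

lemma phi_ge {τ : ℝ} (h0 : 0 ≤ τ) (h1 : τ < 1) (K : ℕ) :
    K * (1 - 2 * K * (1 - τ)) ≤ (1 - τ ^ (2 * K)) / (1 - τ ^ 2) := by
  rw [phi_eq h0 h1]
  have hb : 1 - 2 * K * (1 - τ) ≤ τ ^ (2 * K) := by
    have := one_add_mul_le_pow (a := τ - 1) (by linarith) (2 * K)
    push_cast at this
    have e : 1 + (τ - 1) = τ := by ring
    rw [e] at this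
    linarith
  calc K * (1 - 2 * K * (1 - τ)) ≤ K * τ ^ (2 * K) := by gcongr
    _ = ∑ i ∈ Finset.range K, (τ ^ 2) ^ K := by
        rw [Finset.sum_const, Finset.card_range, nsmul_eq_mul, pow_mul]
    _ ≤ ∑ i ∈ Finset.range K, (τ ^ 2) ^ i := by
        refine Finset.sum_le_sum fun i hi => ?_
        exact pow_le_pow_of_le_one (by positivity) (by nlinarith only [h1, h0]) (Finset.mem_range.mp hi).le

section

variable {V : ℤ → ℤ → ℝ} {m : Kernel ℝ ℝ} {c κ C k0 : ℝ}

lemma ae_Ai_lt (hS : Spec V m c κ C k0) : ∀ᵐ k : ℝ, |k| ≤ π → k ≠ 0 → Ai m k < ⊤ := by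
  have hm : Measurable fun k : ℝ => ENNReal.ofReal (1 - Real.cos k) * Ai m k :=
    (by fun_prop : Measurable fun k : ℝ => ENNReal.ofReal (1 - Real.cos k)).mul (Ai_measurable m)
  have h1 : ∀ᵐ k ∂(volume.restrict (Icc (-π) π)), ENNReal.ofReal (1 - Real.cos k) * Ai m k < ⊤ :=
    ae_lt_top hm hS.fin
  rw [ae_restrict_iff' measurableSet_Icc] at h1
  filter_upwards [h1] with k hk hkπ hk0
  have h2 := hk ⟨(abs_le.mp hkπ).1, (abs_le.mp hkπ).2⟩
  have h3 : 0 < 1 - Real.cos k := by
    rw [← Real.cos_abs]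
    exact one_sub_cos_pos (abs_pos.mpr hk0) hkπ
  by_contra h4
  rw [not_lt, top_le_iff] at h4
  rw [h4, ENNReal.mul_top] at h2
  · exact lt_irrefl _ h2
  · rw [Ne, ENNReal.ofReal_eq_zero, not_le]; exact h3

lemma inner_eq' {k : ℝ} (hsupp : ∀ᵐ τ ∂(m k), 0 ≤ τ ∧ τ < 1) (hA : Ai m k < ⊤) (a : ℝ) (K : ℕ) :
    ∫ τ, (1 - a * τ ^ (2 * K)) / (1 - τ ^ 2) ∂(m k) =
      (1 - a) * (Ai m k).toReal + a * (Bi m K k).toReal := by
  have hm1 : Measurable fun τ : ℝ => 1 / (1 - τ ^ 2) := by fun_prop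
  have hm2 : Measurable fun τ : ℝ => (1 - τ ^ (2 * K)) / (1 - τ ^ 2) := by fun_prop
  have hn1 : 0 ≤ᵐ[m k] fun τ : ℝ => 1 / (1 - τ ^ 2) := by
    filter_upwards [hsupp] with τ hτ
    have : 0 < 1 - τ ^ 2 := by nlinarith only [hτ]
    simp only [Pi.zero_apply]
    positivity
  have hn2 : 0 ≤ᵐ[m k] fun τ : ℝ => (1 - τ ^ (2 * K)) / (1 - τ ^ 2) := by
    filter_upwards [hsupp] with τ hτ
    exact phi_nonneg hτ.1 hτ.2 K
  have i1 : Integrable (fun τ : ℝ => 1 / (1 - τ ^ 2)) (m k) :=
    ⟨hm1.aestronglyMeasurable, by rw [hasFiniteIntegral_iff_ofReal hn1]; exact hA⟩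
  have i2 : Integrable (fun τ : ℝ => (1 - τ ^ (2 * K)) / (1 - τ ^ 2)) (m k) := by
    refine i1.mono' hm2.aestronglyMeasurable ?_
    filter_upwards [hsupp] with τ hτ
    rw [Real.norm_eq_abs, abs_of_nonneg (phi_nonneg hτ.1 hτ.2 K)]
    have : 0 < 1 - τ ^ 2 := by nlinarith only [hτ]
    have h4 : 0 ≤ τ ^ (2 * K) := pow_nonneg hτ.1 _
    gcongr
    linarith
  have e1 : (Ai m k).toReal = ∫ τ, 1 / (1 - τ ^ 2) ∂(m k) :=
    (integral_eq_lintegral_of_nonneg_ae hn1 hm1.aestronglyMeasurable).symm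
  have e2 : (Bi m K k).toReal = ∫ τ, (1 - τ ^ (2 * K)) / (1 - τ ^ 2) ∂(m k) :=
    (integral_eq_lintegral_of_nonneg_ae hn2 hm2.aestronglyMeasurable).symm
  rw [e1, e2, ← integral_const_mul, ← integral_const_mul,
    ← integral_add (i1.const_mul _) (i2.const_mul _)]
  refine integral_congr_ae ?_
  filter_upwards [hsupp] with τ hτ
  have : 1 - τ ^ 2 ≠ 0 := by nlinarith only [hτ]
  field_simp
  ring

/-- `(1 - cos k) ∫ 1/(1-τ²) dm_k` is integrable. -/
lemma int_g (hS : Spec V m c κ C k0) :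
    IntegrableOn (fun k => (1 - Real.cos k) * (Ai m k).toReal) (Icc (-π) π) := by
  have hm : Measurable fun k : ℝ => ENNReal.ofReal (1 - Real.cos k) * Ai m k :=
    (by fun_prop : Measurable fun k : ℝ => ENNReal.ofReal (1 - Real.cos k)).mul (Ai_measurable m)
  have := integrable_toReal_of_lintegral_ne_top hm.aemeasurable hS.fin
  refine this.congr (Eventually.of_forall fun k => ?_)
  simp only [ENNReal.toReal_mul]
  rw [ENNReal.toReal_ofReal (by linarith [Real.cos_le_one k])]

lemma int_A (hS : Spec V m c κ C k0) (z : ℤ) :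
    IntegrableOn (fun k => (1 - Real.cos (k * z)) * (Ai m k).toReal) (Icc (-π) π) := by
  refine Integrable.mono' ((int_g hS).const_mul (π ^ 2 * z ^ 2 / 4)) ?_ ?_
  · exact (by
      have := (Ai_measurable m).ennreal_toReal
      (clear * - this; fun_prop) : Measurable fun k : ℝ =>
        (1 - Real.cos (k * z)) * (Ai m k).toReal).aestronglyMeasurable
  · rw [ae_restrict_iff' measurableSet_Icc]
    refine Eventually.of_forall fun k hk => ?_
    have hkπ : |k| ≤ π := abs_le.mpr ⟨hk.1, hk.2⟩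
    have h1 : Real.cos k ≤ 1 - 2 / π ^ 2 * k ^ 2 := Real.cos_le_one_sub_mul_cos_sq hkπ
    have h2 := Real.one_sub_sq_div_two_le_cos (x := k * z)
    have h3 : 0 ≤ (Ai m k).toReal := ENNReal.toReal_nonneg
    have h4 : 1 - Real.cos (k * z) ≤ π ^ 2 * z ^ 2 / 4 * (1 - Real.cos k) := by
      calc 1 - Real.cos (k * z) ≤ (k * z) ^ 2 / 2 := by linarith only [h2]
        _ = π ^ 2 * z ^ 2 / 4 * (2 / π ^ 2 * k ^ 2) := by
            field_simp [Real.pi_ne_zero]; ring
        _ ≤ π ^ 2 * z ^ 2 / 4 * (1 - Real.cos k) := by gcongr; (clear * - h1; linarith)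
    have h5 : 0 ≤ 1 - Real.cos (k * z) := by linarith only [Real.cos_le_one (k * z)]
    rw [Real.norm_eq_abs, abs_of_nonneg (by (clear * - h5; positivity))]
    calc (1 - Real.cos (k * z)) * (Ai m k).toReal
        ≤ π ^ 2 * z ^ 2 / 4 * (1 - Real.cos k) * (Ai m k).toReal := by gcongr
      _ = _ := by ring

lemma Good.Bi_le {k : ℝ} (hG : Good m C k) (hC : 0 ≤ C) (K : ℕ) : (Bi m K k).toReal ≤ K * C := by
  refine ENNReal.toReal_le_of_le_ofReal (by positivity) ?_
  calc Bi m K k ≤ ∫⁻ _, ENNReal.ofReal K ∂(m k) := by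
        refine lintegral_mono_ae ?_
        filter_upwards [hG.supp] with τ hτ
        exact ENNReal.ofReal_le_ofReal (phi_le hτ.1 hτ.2 K)
    _ = ENNReal.ofReal K * m k univ := lintegral_const _
    _ ≤ ENNReal.ofReal K * ENNReal.ofReal C := by gcongr; exact hG.mass
    _ = ENNReal.ofReal (K * C) := (ENNReal.ofReal_mul (by (clear * -; positivity))).symm

lemma int_B (hS : Spec V m c κ C k0) (K : ℕ) :
    IntegrableOn (fun k => (Bi m K k).toReal) (Icc (-π) π) := by
  have hk0π : k0 ≤ π := hS.k0_le.trans (by linarith [Real.pi_gt_three])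
  have hcos := one_sub_cos_pos hS.k0_pos hk0π
  have hi : IntegrableOn (fun _ : ℝ => (K : ℝ) * C) (Icc (-π) π) :=
    continuous_const.integrableOn_Icc
  refine Integrable.mono' (hi.add ((int_g hS).const_mul (1 / (1 - Real.cos k0))))
    (Bi_measurable m K).ennreal_toReal.aestronglyMeasurable ?_
  rw [ae_restrict_iff' measurableSet_Icc]
  have h0 : ∀ᵐ k : ℝ, k ≠ 0 := by
    rw [ae_iff]; simp
  filter_upwards [ae_good hS, ae_Ai_lt hS, hS.supp, h0] with k hg hA hs hk0 hk
  have hkπ : |k| ≤ π := abs_le.mpr ⟨hk.1, hk.2⟩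
  rw [Real.norm_eq_abs, abs_of_nonneg ENNReal.toReal_nonneg]
  have h3 : 0 ≤ (Ai m k).toReal := ENNReal.toReal_nonneg
  have h4 : 0 ≤ 1 - Real.cos k := by linarith only [Real.cos_le_one k]
  show (Bi m K k).toReal ≤ K * C + 1 / (1 - Real.cos k0) * ((1 - Real.cos k) * (Ai m k).toReal)
  rcases lt_or_ge |k| k0 with h | h
  · have := (hg h hk0).Bi_le hS.C_pos.le K
    have : 0 ≤ 1 / (1 - Real.cos k0) * ((1 - Real.cos k) * (Ai m k).toReal) := by (clear * - hcos h4; positivity)
    (clear hi h0 hA hs hk hkπ h3; linarith)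
  · have h5 : Real.cos k ≤ Real.cos k0 := by
      rw [← Real.cos_abs k]
      exact Real.cos_le_cos_of_nonneg_of_le_pi hS.k0_pos.le hkπ h
    have h6 : (Bi m K k).toReal ≤ (Ai m k).toReal := by
      refine ENNReal.toReal_mono (hA hkπ hk0).ne ?_
      refine lintegral_mono_ae ?_
      filter_upwards [hs] with τ hτ
      refine ENNReal.ofReal_le_ofReal ?_
      have : 0 < 1 - τ ^ 2 := by nlinarith only [hτ]
      have h4 : 0 ≤ τ ^ (2 * K) := pow_nonneg hτ.1 _
      gcongr
      linarith only [h4]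
    have h7 : (Ai m k).toReal ≤ 1 / (1 - Real.cos k0) * ((1 - Real.cos k) * (Ai m k).toReal) := by
      rw [one_div_mul_eq_div, le_div_iff₀ hcos, mul_comm]
      (clear * - h5; gcongr)
    have : 0 ≤ K * C := by have := hS.C_pos; (clear * - this; positivity)
    linarith only [h6, h7, this]

lemma V_eq (hS : Spec V m c κ C k0) (K : ℕ) (z : ℤ) :
    V (2 * K) z = (1 / π) * ∫ k in Icc (-π) π, ((1 - Real.cos (k * z)) * (Ai m k).toReal +
      Real.cos (k * z) * (Bi m K k).toReal) := by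
  rw [hS.rep]
  congr 1
  refine setIntegral_congr_ae measurableSet_Icc ?_
  have h0 : ∀ᵐ k : ℝ, k ≠ 0 := by
    rw [ae_iff]; simp
  filter_upwards [ae_Ai_lt hS, hS.supp, h0] with k hA hs hk0 hk
  have hkπ : |k| ≤ π := abs_le.mpr ⟨hk.1, hk.2⟩
  have : (2 * (K : ℤ)).natAbs = 2 * K := by omega
  rw [this]
  exact inner_eq' hs (hA hkπ hk0) _ K

lemma Bi_zero (k : ℝ) : Bi m 0 k = 0 := by
  unfold Bi; simp only [mul_zero, pow_zero, sub_self, zero_div, ENNReal.ofReal_zero, lintegral_const, zero_mul]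

lemma CK_eq (hS : Spec V m c κ C k0) (K : ℕ) (z : ℤ) :
    CK V K z = cc (fun k => (Bi m K k).toReal) z := by
  have h1 := V_eq hS K z
  have h2 := V_eq hS 0 z
  simp only [Nat.cast_zero, mul_zero, Bi_zero, ENNReal.toReal_zero, add_zero] at h2
  rw [integral_add (int_A hS z) (integrableOn_cos_mul (int_B hS K) z)] at h1
  unfold CK cc
  rw [h1, h2]
  set I1 := ∫ k in Icc (-π) π, (1 - Real.cos (k * z)) * (Ai m k).toReal
  set I2 := ∫ k in Icc (-π) π, Real.cos (k * z) * (Bi m K k).toReal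
  have : π ≠ 0 := Real.pi_ne_zero
  field_simp
  ring

end

end Cn

open Cn in
theorem p3 : P3Statement := by
  intro V m c κ C k0 hS K _ hpos
  have hk0π : k0 ≤ π := hS.k0_le.trans (by linarith only [Real.pi_gt_three])
  have hcc : CK V K = cc (fun k => (Bi m K k).toReal) := funext (CK_eq hS K)
  rw [hcc]
  have hKC : 0 ≤ K * C := by have := hS.C_pos; positivity
  refine summable_cc (int_B hS K) (Eventually.of_forall fun k _ => ENNReal.toReal_nonneg)
    hS.k0_pos hk0π hKC ?_ (fun z => by rw [← CK_eq hS K z]; exact hpos z)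
  have h0 : ∀ᵐ k : ℝ, k ≠ 0 := by
    rw [ae_iff]; simp
  filter_upwards [ae_good hS, h0] with k hg hk0 hk
  exact (hg hk hk0).Bi_le hS.C_pos.le K

end Vale.Agent.P153.TwoPt
end

section

namespace Vale.Agent.P152

open Finset Filter Topology MeasureTheory

/-- The edges of a square grid with vertex set `V`: `Sum.inl v` is the horizontal edge from `v` to
its right neighbour, `Sum.inr v` is the vertical edge from `v` to its upper neighbour. -/
abbrev Edge (V : Type) := V ⊕ V

/-- An orientation of the edges: `true` means that the edge points to the right or up,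
`false` that it points to the left or down. -/
abbrev Ori (V : Type) := Edge V → Bool

end Vale.Agent.P152
end

section

namespace Vale.Agent.P152

open Finset Filter Topology MeasureTheory

/-- `h` is a height function of the orientation `ω`. Faces are indexed by their bottom-left
corners, and the face to the left of each oriented edge is one higher than the face to its right. -/
def IsHeight (ω : Ori (ℤ × ℤ)) (h : ℤ × ℤ → ℤ) : Prop :=
  ∀ x y : ℤ, h (x, y) - h (x, y - 1) = (if ω (Sum.inl (x, y)) = true then 1 else -1) ∧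
    h (x - 1, y) - h (x, y) = (if ω (Sum.inr (x, y)) = true then 1 else -1)

end Vale.Agent.P152
end

section

set_option linter.all false

section

section

namespace Vale.Agent.P152

open Finset

/-- The three ways of pairing the four edge ends at a vertex. -/
inductive Pairing
  | str
  | t1
  | t2
deriving DecidableEq

instance : Fintype Pairing :=
  ⟨{Pairing.str, Pairing.t1, Pairing.t2}, fun x => by cases x <;> simp⟩

variable {V : Type*} [Fintype V] [DecidableEq V] (σ τ : Equiv.Perm V)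

end Vale.Agent.P152
end
end

section

section

namespace Vale.Agent.P152

open Finset

variable {V : Type*} [Fintype V] [DecidableEq V] (σ τ : Equiv.Perm V)

end Vale.Agent.P152
end
end

section

section

namespace Vale.Agent.P152

open Finset

section

variable {V : Type*} [Fintype V] [DecidableEq V] (σ τ : Equiv.Perm V)

end

end Vale.Agent.P152
end
end

section

section

namespace Vale.Agent.P152

open Finset

section

variable {V : Type*} [Fintype V] [DecidableEq V] (σ τ : Equiv.Perm V)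

end

/-- The positivity condition on the local weights used for the second Griffiths inequality. -/
structure GoodW (w : Pairing → ℝ) : Prop where
  pos : ∀ q, 0 < w q
  h0 : w Pairing.t1 * w Pairing.t2 ≤
    w Pairing.str * (w Pairing.str + w Pairing.t1 + w Pairing.t2)
  h1 : w Pairing.str * w Pairing.t2 ≤
    w Pairing.t1 * (w Pairing.str + w Pairing.t1 + w Pairing.t2)
  h2 : w Pairing.str * w Pairing.t1 ≤
    w Pairing.t2 * (w Pairing.str + w Pairing.t1 + w Pairing.t2)

section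

variable {V : Type*} [Fintype V] [DecidableEq V] (σ τ : Equiv.Perm V)

end

end Vale.Agent.P152
end
end

section

section

namespace Vale.Agent.P152

open Finset

section odd

variable {Q : Type*} [DecidableEq Q]

end odd

section

variable {V : Type*} [Fintype V] [DecidableEq V] (σ τ : Equiv.Perm V)

end

section counting

variable {Q : Type*} [DecidableEq Q]

end counting

end Vale.Agent.P152
end
end

section

section

namespace Vale.Agent.P152

open Finset

section shiftcount

variable {Q Q' : Type*} [DecidableEq Q] [DecidableEq Q']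

end shiftcount

section

variable {V : Type*} [Fintype V] [DecidableEq V] (σ τ : Equiv.Perm V)

end

end Vale.Agent.P152
end
end

section

section

namespace Vale.Agent.P152

open Finset

section

variable {V : Type*} [Fintype V] [DecidableEq V] (σ τ : Equiv.Perm V)

end

end Vale.Agent.P152
end
end

section

section

namespace Vale.Agent.P152

open Finset

section

variable {Y : Type*} [Fintype Y] [DecidableEq Y]

end

end Vale.Agent.P152
end
end

section

section

namespace Vale.Agent.P152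

open Finset

section

variable {Y : Type*} [Fintype Y] [DecidableEq Y]

end

end Vale.Agent.P152
end
end

section

section

namespace Vale.Agent.P152

open Finset

section

variable {Y : Type*} [Fintype Y] [DecidableEq Y] (π : Equiv.Perm Y)

end

end Vale.Agent.P152
end
end

section

section

namespace Vale.Agent.P152

open Finset

section

variable {Y : Type*} [Fintype Y] [DecidableEq Y] (π : Equiv.Perm Y)

end

end Vale.Agent.P152
end
end

section

section

namespace Vale.Agent.P152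

open Finset

section

variable {Y : Type*} [Fintype Y] [DecidableEq Y] (π : Equiv.Perm Y)

end

end Vale.Agent.P152
end
end

section

section

namespace Vale.Agent.P152

open Finset

section

variable {V : Type*} [Fintype V] [DecidableEq V] (σ τ : Equiv.Perm V)

end

end Vale.Agent.P152
end
end

section

section

namespace Vale.Agent.P152

open Finset

section

variable {V : Type*} [Fintype V] [DecidableEq V] (σ τ : Equiv.Perm V)

end

section

variable {X Y : Type*} [Fintype X] [DecidableEq X] [Fintype Y] [DecidableEq Y]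
  (σX : Equiv.Perm X) (π : Equiv.Perm Y)

end

end Vale.Agent.P152
end
end

section

section

namespace Vale.Agent.P152

open Finset Filter Topology

section

variable {S : Type*} [Fintype S] [DecidableEq S]

end

end Vale.Agent.P152
end
end

section

section

namespace Vale.Agent.P152

open Finset Filter Topology Matrix

section

variable {n : Type*} [Fintype n] [DecidableEq n]

end

end Vale.Agent.P152
end
end

section

section

namespace Vale.Agent.P152

open Finset Filter Topology MeasureTheory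

end Vale.Agent.P152
end
end

section

section

namespace Vale.Agent.P152

open Finset Filter Topology

end Vale.Agent.P152
end
end

section

section

namespace Vale.Agent.P152

open Finset Filter Topology MeasureTheory

end Vale.Agent.P152
end
end

section

section

namespace Vale.Agent.P152

open Finset Filter Topology MeasureTheory

end Vale.Agent.P152
end
end

section

section

namespace Vale.Agent.P152

open Finset

section

variable {C : Type*} [Fintype C] [DecidableEq C]

end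

section

variable {Y : Type*} [Fintype Y] [DecidableEq Y] (π : Equiv.Perm Y)

end

end Vale.Agent.P152
end
end

section

section

namespace Vale.Agent.P152

open Finset

end Vale.Agent.P152
end
end

section

section

namespace Vale.Agent.P152

open Finset Filter Topology MeasureTheory

section

variable {c : ℝ} {P : Measure (Ori (ℤ × ℤ))} [IsProbabilityMeasure P]

end

end Vale.Agent.P152
end
end

section

section

namespace Vale.Agent.P152

open Finset Filter Topology MeasureTheory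

/-! ### Antiderivatives on `ℤ` -/

noncomputable def anti {R : Type*} [AddCommGroup R] (g : ℤ → R) (n : ℤ) : R :=
  ∑ i ∈ Ioc 0 n, g i - ∑ i ∈ Ioc n 0, g i

lemma anti_zero {R : Type*} [AddCommGroup R] (g : ℤ → R) : anti g 0 = 0 := by simp [anti]

lemma anti_step {R : Type*} [AddCommGroup R] (g : ℤ → R) (n : ℤ) :
    anti g n - anti g (n - 1) = g n := by
  unfold anti
  rcases le_or_gt 1 n with h | h
  · have e1 : Ioc (0 : ℤ) n = insert n (Ioc 0 (n - 1)) := by
      ext i; simp only [Finset.mem_Ioc, Finset.mem_insert]; omega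
    rw [e1, Finset.sum_insert (by simp only [mem_Ioc, le_sub_self_iff, Int.reduceLE, and_false, not_false_eq_true]), Finset.Ioc_eq_empty (show ¬ n < 0 by omega),
      Finset.Ioc_eq_empty (show ¬ n - 1 < 0 by omega)]
    simp only [sum_empty, sub_zero, add_sub_cancel_right]
  · have e1 : Ioc (n - 1) (0 : ℤ) = insert n (Ioc n 0) := by
      ext i; simp only [Finset.mem_Ioc, Finset.mem_insert]; omega
    rw [e1, Finset.sum_insert (by simp only [mem_Ioc, lt_self_iff_false, false_and, not_false_eq_true]), Finset.Ioc_eq_empty (show ¬ (0 : ℤ) < n by omega),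
      Finset.Ioc_eq_empty (show ¬ (0 : ℤ) < n - 1 by omega)]
    simp only [sum_empty, zero_sub, neg_add_rev, sub_add_cancel_left, neg_neg]

/-! ### The height function of an ice configuration -/

def Ice (ω : Ori (ℤ × ℤ)) (x y : ℤ) : Prop :=
  (ω (Sum.inl (x - 1, y))).toNat + (ω (Sum.inr (x, y - 1))).toNat
    = (ω (Sum.inl (x, y))).toNat + (ω (Sum.inr (x, y))).toNat

/-- The sign of an arrow. -/
def sgb (b : Bool) : ℤ := if b = true then 1 else -1

lemma sgb_eq (b : Bool) : sgb b = 2 * (b.toNat : ℤ) - 1 := by cases b <;> rfl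

/-- The height along the path going vertically from `(0,0)` to `(0,y)` and then horizontally. -/
noncomputable def pth (ω : Ori (ℤ × ℤ)) (q : ℤ × ℤ) : ℤ :=
  anti (fun j => sgb (ω (Sum.inl (0, j)))) q.2 - anti (fun i => sgb (ω (Sum.inr (i, q.2)))) q.1

lemma pth_step_h (ω : Ori (ℤ × ℤ)) (x y : ℤ) :
    pth ω (x - 1, y) - pth ω (x, y) = sgb (ω (Sum.inr (x, y))) := by
  have := anti_step (fun i => sgb (ω (Sum.inr (i, y)))) x
  simp only [pth]
  linarith only [this]

lemma pth_isHeight {ω : Ori (ℤ × ℤ)} (h : ∀ x y, Ice ω x y) : IsHeight ω (pth ω) := by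
  have hv : ∀ x y, pth ω (x, y) - pth ω (x, y - 1) = sgb (ω (Sum.inl (x, y))) := by
    intro x y
    have hstep : ∀ x, (pth ω (x, y) - pth ω (x, y - 1) - sgb (ω (Sum.inl (x, y))))
        = (pth ω (x - 1, y) - pth ω (x - 1, y - 1) - sgb (ω (Sum.inl (x - 1, y)))) := by
      intro x
      have h1 := pth_step_h ω x y
      have h2 := pth_step_h ω x (y - 1)
      have h3 := h x y
      unfold Ice at h3
      rw [sgb_eq] at h1 h2
      rw [sgb_eq, sgb_eq]
      (clear * - h1 h2 h3; omega)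
    have h0 : pth ω (0, y) - pth ω (0, y - 1) - sgb (ω (Sum.inl (0, y))) = 0 := by
      simp only [pth, anti_zero, sub_zero]
      rw [anti_step]
      ring
    have hall : ∀ x, pth ω (x, y) - pth ω (x, y - 1) - sgb (ω (Sum.inl (x, y))) = 0 := by
      intro x
      induction x using Int.induction_on with
      | zero => exact h0
      | succ i ih =>
        have := hstep (i + 1)
        rw [add_sub_cancel_right] at this
        rw [this, ih]
      | pred i ih =>
        rw [← hstep (-i), ih]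
    have := hall x
    linarith only [this]
  intro x y
  exact ⟨hv x y, pth_step_h ω x y⟩

/-- The edges on which `pth ω q` depends, for `q` in a box. -/
noncomputable def box (N : ℕ) : Finset (Edge (ℤ × ℤ)) :=
  ((Icc (-(N : ℤ)) N) ×ˢ (Icc (-(N : ℤ)) N)).image Sum.inl ∪
    ((Icc (-(N : ℤ)) N) ×ˢ (Icc (-(N : ℤ)) N)).image Sum.inr

end Vale.Agent.P152
end
end

section

section

namespace Vale.Agent.P152

open Finset Filter Topology MeasureTheory

end Vale.Agent.P152
end
end

section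

section

namespace Vale.Agent.P152

open Finset Filter Topology MeasureTheory

section

variable {c : ℝ} {P : Measure (Ori (ℤ × ℤ))} [IsProbabilityMeasure P]

end

end Vale.Agent.P152
end
end

section

section

namespace Vale.Agent.P152

open Finset Filter Topology MeasureTheory

end Vale.Agent.P152
end
end

section

section

namespace Vale.Agent.P152

open Finset Filter Topology MeasureTheory

end Vale.Agent.P152
end
end

section

section

namespace Vale.Agent.P152

open Finset Filter Topology MeasureTheory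

section

variable {c : ℝ}

end

end Vale.Agent.P152
end
end
end
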