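import Mathlib
import Vale.Agent.P153.Bd5.B1

set_option linter.all false

section

/-!
Uniform odd Lipschitz heights on Jordan polygonal domains made of lattice triangles.
A point `(i, j)` of `ℤ × ℤ` stands for the point `i + j * exp (I * pi / 3)` of the
triangular lattice.
-/

namespace Vale.Agent.P153

/-- The vertices of the upward triangle `((i, j), false)` and of the downward
triangle `((i, j), true)`. -/
def verts : (ℤ × ℤ) × Bool → Finset (ℤ × ℤ)
  | ((i, j), false) => {(i, j), (i + 1, j), (i, j + 1)}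
  | ((i, j), true) => {(i + 1, j), (i, j + 1), (i + 1, j + 1)}

/-- The three edges of a lattice triangle. -/
def edges : (ℤ × ℤ) × Bool → Finset (Sym2 (ℤ × ℤ))
  | ((i, j), false) =>
      {s((i, j), (i + 1, j)), s((i, j), (i, j + 1)), s((i + 1, j), (i, j + 1))}
  | ((i, j), true) =>
      {s((i + 1, j), (i, j + 1)), s((i + 1, j), (i + 1, j + 1)), s((i, j + 1), (i + 1, j + 1))}

/-- A marked Jordan polygonal domain made of lattice triangles: a finite set `T` of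
triangles whose boundary edges (the edges lying in exactly one triangle of `T`) are exactly
the edges of a simple closed lattice polygon `c 0, c 1, ..., c n = c 0`. The marks split the
boundary vertices into the two arcs `c 0, ..., c (m - 1)` and `c m, ..., c (n - 1)`. -/
structure MarkedDomain where
  T : Finset ((ℤ × ℤ) × Bool)
  n : ℕ
  m : ℕ
  c : ℕ → ℤ × ℤ
  m_pos : 0 < m
  m_lt : m < n
  closed : c n = c 0
  simple : ∀ k l, k < n → l < n → c k = c l → k = l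
  boundary : ∀ e : Sym2 (ℤ × ℤ),
    (T.filter (fun t => e ∈ edges t)).card = 1 ↔ ∃ k < n, e = s(c k, c (k + 1))

namespace MarkedDomain

variable (D : MarkedDomain)

/-- Two points are joined by an edge of the domain. -/
def Adj (x y : ℤ × ℤ) : Prop := ∃ t ∈ D.T, s(x, y) ∈ edges t

end MarkedDomain

end Vale.Agent.P153
end

section

/-!
# P153, two-point part: the joint measure of row momentum and energy
-/

open MeasureTheory ProbabilityTheory Filter Topology Set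
open scoped ENNReal Real

namespace Vale.Agent.P153.TwoPt

/-- joint measure. -/
noncomputable def rho (m : Kernel ℝ ℝ) : Measure (ℝ × ℝ) := (volume.restrict (Icc (-π) π)) ⊗ₘ m

section
variable {V : ℤ → ℤ → ℝ} {m : Kernel ℝ ℝ} {c κ C k0 : ℝ}

theorem Spec.ae_supp (h : Spec V m c κ C k0) : ∀ᵐ p ∂(rho m), 0 ≤ p.2 ∧ p.2 < 1 := by
  have := h.sfin
  unfold rho
  have hm : MeasurableSet {p : ℝ × ℝ | 0 ≤ p.2 ∧ p.2 < 1} :=
    (measurableSet_le measurable_const measurable_snd).inter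
      (measurableSet_lt measurable_snd measurable_const)
  rw [Measure.ae_compProd_iff hm]
  exact ae_restrict_of_ae h.supp

theorem Spec.ae_mem (h : Spec V m c κ C k0) : ∀ᵐ p ∂(rho m), p.1 ∈ Icc (-π) π := by
  have := h.sfin
  unfold rho
  have hm : MeasurableSet {p : ℝ × ℝ | p.1 ∈ Icc (-π) π} := measurable_fst measurableSet_Icc
  rw [Measure.ae_compProd_iff hm]
  filter_upwards [ae_restrict_mem measurableSet_Icc] with k hk
  exact Eventually.of_forall fun _ => hk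

theorem cos_k0_lt (h : Spec V m c κ C k0) {k : ℝ} (hk : k ∈ Icc (-π) π) (hk0 : k0 ≤ |k|) :
    1 - Real.cos k0 ≤ 1 - Real.cos k := by
  have : Real.cos |k| ≤ Real.cos k0 := by
    refine Real.cos_le_cos_of_nonneg_of_le_pi h.k0_pos.le (abs_le.2 ⟨by linarith [hk.1], hk.2⟩) hk0
  rw [Real.cos_abs] at this
  linarith

theorem Spec.one_sub_cos_pos (h : Spec V m c κ C k0) : 0 < 1 - Real.cos k0 := by
  have h1 : Real.cos k0 < Real.cos 0 :=
    Real.cos_lt_cos_of_nonneg_of_le_pi le_rfl (by linarith only [h.k0_le, Real.pi_gt_three]) h.k0_pos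
  rw [Real.cos_zero] at h1
  linarith

theorem Spec.lint (h : Spec V m c κ C k0) :
    ∫⁻ p, ENNReal.ofReal ((1 - Real.cos p.1) * (1 / (1 - p.2 ^ 2))) ∂(rho m) ≠ ⊤ := by
  have := h.sfin
  unfold rho
  rw [Measure.lintegral_compProd (by fun_prop)]
  refine ne_of_eq_of_ne ?_ h.fin
  refine lintegral_congr fun k => ?_
  rw [← lintegral_const_mul _ (by fun_prop)]
  refine lintegral_congr fun τ => ?_
  rw [← ENNReal.ofReal_mul (by linarith [Real.cos_le_one k])]

theorem Spec.int1 (h : Spec V m c κ C k0) :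
    Integrable (fun p : ℝ × ℝ => (1 - Real.cos p.1) * (1 / (1 - p.2 ^ 2))) (rho m) := by
  refine ⟨by (clear * -; fun_prop), ?_⟩
  rw [hasFiniteIntegral_iff_ofReal]
  · exact h.lint.lt_top
  · filter_upwards [h.ae_supp] with p hp
    have h2 : 0 < 1 - p.2 ^ 2 := by nlinarith [hp.1, hp.2]
    have h3 := Real.cos_le_one p.1
    have : 0 ≤ 1 - Real.cos p.1 := by linarith
    positivity

theorem Spec.finite (h : Spec V m c κ C k0) : rho m univ ≠ ⊤ := by
  have := h.sfin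
  have hcos := h.one_sub_cos_pos
  have h1 : rho m univ = ∫⁻ k in Icc (-π) π, m k univ := by
    unfold rho
    rw [Measure.compProd_apply MeasurableSet.univ]
    simp only [preimage_univ]
  rw [h1]
  have h2 : ∀ᵐ k ∂(volume.restrict (Icc (-π) π)), m k univ ≤ ENNReal.ofReal C +
      ENNReal.ofReal ((1 - Real.cos k0)⁻¹) * (ENNReal.ofReal (1 - Real.cos k) *
        ∫⁻ τ, ENNReal.ofReal (1 / (1 - τ ^ 2)) ∂(m k)) := by
    filter_upwards [ae_restrict_of_ae h.mass, ae_restrict_of_ae h.supp,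
      ae_restrict_mem measurableSet_Icc] with k hk1 hk2 hk3
    by_cases hk : |k| < k0
    · exact (hk1 hk).trans le_self_add
    · refine le_trans ?_ le_add_self
      have h4 : m k univ ≤ ∫⁻ τ, ENNReal.ofReal (1 / (1 - τ ^ 2)) ∂(m k) := by
        rw [← lintegral_one]
        refine lintegral_mono_ae ?_
        filter_upwards [hk2] with τ hτ
        have h5 : 0 < 1 - τ ^ 2 := by nlinarith only [hτ]
        rw [← ENNReal.ofReal_one]
        refine ENNReal.ofReal_le_ofReal ?_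
        rw [le_div_iff₀ h5]
        nlinarith only []
      have h6 : (1 : ℝ≥0∞) ≤ ENNReal.ofReal ((1 - Real.cos k0)⁻¹) * ENNReal.ofReal (1 - Real.cos k) := by
        rw [← ENNReal.ofReal_mul (by positivity), ← ENNReal.ofReal_one]
        refine ENNReal.ofReal_le_ofReal ?_
        have h7 := cos_k0_lt h hk3 (not_lt.1 hk)
        rw [inv_mul_eq_div, le_div_iff₀ hcos]
        linarith
      calc m k univ ≤ ∫⁻ τ, ENNReal.ofReal (1 / (1 - τ ^ 2)) ∂(m k) := h4
        _ = 1 * ∫⁻ τ, ENNReal.ofReal (1 / (1 - τ ^ 2)) ∂(m k) := (one_mul _).symm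
        _ ≤ _ := by
          rw [← mul_assoc]
          (clear * - h6; gcongr)
  refine ne_top_of_le_ne_top ?_ (lintegral_mono_ae h2)
  rw [lintegral_add_left measurable_const, lintegral_const_mul' _ _ ENNReal.ofReal_ne_top]
  refine ENNReal.add_ne_top.2 ⟨?_, ENNReal.mul_ne_top ENNReal.ofReal_ne_top h.fin⟩
  simp only [lintegral_const]
  refine ENNReal.mul_ne_top ENNReal.ofReal_ne_top ?_
  simp only [MeasurableSet.univ, Measure.restrict_apply, univ_inter, Real.volume_Icc, sub_neg_eq_add, ne_eq, ENNReal.ofReal_ne_top, not_false_eq_true]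

theorem Spec.isFinite (h : Spec V m c κ C k0) : IsFiniteMeasure (rho m) :=
  ⟨h.finite.lt_top⟩

/-- `1/(1-τ²)` is integrable away from momentum `0`. -/
theorem Spec.int_far (h : Spec V m c κ C k0) :
    IntegrableOn (fun p : ℝ × ℝ => 1 / (1 - p.2 ^ 2)) {p : ℝ × ℝ | k0 ≤ |p.1|} (rho m) := by
  have hm : MeasurableSet {p : ℝ × ℝ | k0 ≤ |p.1|} :=
    measurableSet_le measurable_const (by fun_prop)
  have hcos := h.one_sub_cos_pos
  have h1 := (h.int1.const_mul (1 - Real.cos k0)⁻¹).integrableOn (s := {p : ℝ × ℝ | k0 ≤ |p.1|})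
  refine Integrable.mono h1 (Measurable.aestronglyMeasurable (by fun_prop)) ?_
  filter_upwards [ae_restrict_mem hm, ae_restrict_of_ae h.ae_supp, ae_restrict_of_ae h.ae_mem]
    with p hp1 hp2 hp3
  have h5 : 0 < 1 - p.2 ^ 2 := by nlinarith only [hp2]
  have h7 := cos_k0_lt h hp3 hp1
  rw [Real.norm_of_nonneg (by (clear * - h5; positivity)), Real.norm_of_nonneg (by
    have : 0 ≤ 1 - Real.cos p.1 := by linarith
    positivity), ← mul_assoc]
  refine le_mul_of_one_le_left (by positivity) ?_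
  rw [inv_mul_eq_div, le_div_iff₀ hcos]
  linarith only [h7]

theorem abs_one_sub_mul_le {x t : ℝ} (hx : |x| ≤ 1) (ht0 : 0 ≤ t) (ht1 : t ≤ 1) :
    |1 - x * t| ≤ (1 - x) + (1 - t) := by
  have h1 := abs_le.1 hx
  rw [abs_le]
  constructor <;> nlinarith only [ht1, h1]

theorem one_sub_pow_le {τ : ℝ} (h0 : 0 ≤ τ) (h1 : τ ≤ 1) (n : ℕ) : 1 - τ ^ n ≤ n * (1 - τ) := by
  have := one_add_mul_le_pow (a := τ - 1) (by linarith only [h0]) n
  have h2 : 1 + (τ - 1) = τ := by ring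
  rw [h2] at this
  linarith

theorem abs_sin_nat_mul_le (x : ℝ) (n : ℕ) : |Real.sin (n * x)| ≤ n * |Real.sin x| := by
  induction n with
  | zero => simp
  | succ n ih =>
    push_cast
    rw [add_mul, one_mul, Real.sin_add]
    refine (abs_add_le _ _).trans ?_
    rw [abs_mul, abs_mul]
    have h1 := Real.abs_cos_le_one x
    have h2 := Real.abs_cos_le_one (n * x)
    have h3 := abs_nonneg (Real.sin (n * x))
    have h4 := abs_nonneg (Real.sin x)
    nlinarith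

theorem abs_sin_int_mul_le (x : ℝ) (z : ℤ) : |Real.sin (z * x)| ≤ |(z : ℝ)| * |Real.sin x| := by
  rcases Int.natAbs_eq z with h | h
  · rw [h]
    have := abs_sin_nat_mul_le x z.natAbs
    simpa only [Nat.cast_natAbs, Int.cast_abs, Int.cast_eq, abs_abs, ge_iff_le] using this
  · rw [h]
    have := abs_sin_nat_mul_le x z.natAbs
    simpa only [Nat.cast_natAbs, Int.cast_abs, Int.cast_eq, Int.cast_neg, neg_mul, Real.sin_neg, abs_neg, abs_abs,     ge_iff_le] using this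

theorem one_sub_cos_mul_le (k : ℝ) (z : ℤ) :
    1 - Real.cos (k * z) ≤ z ^ 2 * (1 - Real.cos k) := by
  have h1 : ∀ x : ℝ, 1 - Real.cos x = 2 * Real.sin (x / 2) ^ 2 := by
    intro x
    have := Real.cos_sq' (x / 2)
    have h2 := Real.cos_two_mul (x / 2)
    rw [show 2 * (x / 2) = x by ring] at h2
    rw [h2, this]
    ring
  rw [h1, h1]
  have h2 : |Real.sin (k * z / 2)| ≤ |(z : ℝ)| * |Real.sin (k / 2)| := by
    have h3 := abs_sin_int_mul_le (k / 2) z
    rw [show k * z / 2 = z * (k / 2) by ring]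
    exact h3
  have h3 : Real.sin (k * z / 2) ^ 2 ≤ (z : ℝ) ^ 2 * Real.sin (k / 2) ^ 2 := by
    rw [← sq_abs, ← sq_abs (z : ℝ), ← sq_abs (Real.sin (k / 2)), ← mul_pow]
    exact pow_le_pow_left₀ (abs_nonneg _) h2 2
  linarith only [h3]

/-- integrand of `V j z`. -/
noncomputable def Wf (j z : ℤ) (p : ℝ × ℝ) : ℝ :=
  (1 - Real.cos (p.1 * z) * p.2 ^ j.natAbs) / (1 - p.2 ^ 2)

theorem Spec.int_W (h : Spec V m c κ C k0) (j z : ℤ) : Integrable (Wf j z) (rho m) := by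
  have := h.isFinite
  have h1 := (h.int1.const_mul ((z : ℝ) ^ 2)).add (integrable_const (μ := rho m) (j.natAbs : ℝ))
  refine Integrable.mono' h1 (Measurable.aestronglyMeasurable (by unfold Wf; fun_prop)) ?_
  filter_upwards [h.ae_supp] with p hp
  have h5 : 0 < 1 - p.2 ^ 2 := by nlinarith [hp.1, hp.2]
  have h6 : |Wf j z p| ≤ ((1 - Real.cos (p.1 * z)) + (j.natAbs : ℝ) * (1 - p.2)) / (1 - p.2 ^ 2) := by
    unfold Wf
    rw [abs_div, abs_of_pos h5]
    gcongr
    refine (abs_one_sub_mul_le (Real.abs_cos_le_one _) (pow_nonneg hp.1 _)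
      (pow_le_one₀ hp.1 hp.2.le)).trans ?_
    have := one_sub_pow_le hp.1 hp.2.le j.natAbs
    linarith
  rw [Real.norm_eq_abs]
  refine h6.trans ?_
  simp only [Pi.add_apply]
  rw [add_div]
  refine add_le_add ?_ ?_
  · rw [← mul_assoc, mul_one_div]
    gcongr
    exact one_sub_cos_mul_le _ _
  · rw [div_le_iff₀ h5]
    have : 0 ≤ (j.natAbs : ℝ) := Nat.cast_nonneg _
    nlinarith only [hp, mul_nonneg this (sub_nonneg.2 hp.2.le)]

theorem Spec.rep' (h : Spec V m c κ C k0) (j z : ℤ) :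
    V j z = (1 / π) * ∫ p, Wf j z p ∂(rho m) := by
  have := h.sfin
  rw [h.rep j z]
  congr 1
  have := h.int_W j z
  unfold rho at this ⊢
  rw [Measure.integral_compProd this]
  rfl

end

end Vale.Agent.P153.TwoPt
end

section

/-!
# P153: second differences of `V` vanish at infinity
-/

open MeasureTheory ProbabilityTheory Filter Topology Set
open scoped ENNReal Real

namespace Vale.Agent.P153.GFF

open TwoPt

variable {V : ℤ → ℤ → ℝ} {m : Kernel ℝ ℝ} {c κ C k0 : ℝ}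

/-- the weight of the second difference. -/
noncomputable def wt2 (p : ℝ × ℝ) : ℝ := (1 - Real.cos p.1) * (1 / (1 - p.2 ^ 2))

theorem Wf_diff2 (j z : ℤ) (p : ℝ × ℝ) : Wf j (z + 1) p + Wf j (z - 1) p - 2 * Wf j z p =
    2 * (wt2 p * (Real.cos (p.1 * z) * p.2 ^ j.natAbs)) := by
  unfold Wf wt2
  push_cast
  rw [mul_add, mul_sub, mul_one, Real.cos_add, Real.cos_sub]
  ring

theorem int_wt2 (h : Spec V m c κ C k0) (j z : ℤ) :
    Integrable (fun p : ℝ × ℝ => wt2 p * (Real.cos (p.1 * z) * p.2 ^ j.natAbs)) (rho m) := by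
  refine Integrable.mono h.int1 (Measurable.aestronglyMeasurable (by unfold wt2; (clear * -; fun_prop))) ?_
  filter_upwards [h.ae_supp] with p hp
  unfold wt2
  rw [norm_mul]
  refine mul_le_of_le_one_right (norm_nonneg _) ?_
  rw [norm_mul]
  have h1 : ‖Real.cos (p.1 * z)‖ ≤ 1 := by
    rw [Real.norm_eq_abs]
    exact Real.abs_cos_le_one _
  have h2 : ‖p.2 ^ j.natAbs‖ ≤ 1 := by
    rw [Real.norm_of_nonneg (pow_nonneg hp.1 _)]
    exact pow_le_one₀ hp.1 hp.2.le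
  exact mul_le_one₀ h1 (norm_nonneg _) h2

theorem V_diff2 (h : Spec V m c κ C k0) (j z : ℤ) : V j (z + 1) + V j (z - 1) - 2 * V j z =
    2 / π * ∫ p, wt2 p * (Real.cos (p.1 * z) * p.2 ^ j.natAbs) ∂(rho m) := by
  rw [h.rep', h.rep', h.rep']
  have h1 : ∫ p, wt2 p * (Real.cos (p.1 * z) * p.2 ^ j.natAbs) ∂(rho m) =
      (1 / 2) * ∫ p, (Wf j (z + 1) p + Wf j (z - 1) p - 2 * Wf j z p) ∂(rho m) := by
    rw [← integral_const_mul]
    refine integral_congr_ae (Eventually.of_forall fun p => ?_)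
    simp only
    rw [Wf_diff2]
    ring
  have h2 : ∫ p, (Wf j (z + 1) p + Wf j (z - 1) p - 2 * Wf j z p) ∂(rho m) =
      (∫ p, Wf j (z + 1) p ∂(rho m)) + (∫ p, Wf j (z - 1) p ∂(rho m)) -
        2 * ∫ p, Wf j z p ∂(rho m) := by
    have h3 : Integrable (fun p => Wf j (z + 1) p + Wf j (z - 1) p) (rho m) :=
      (h.int_W _ _).add (h.int_W _ _)
    rw [integral_sub h3 ((h.int_W _ _).const_mul _),
      integral_add (h.int_W _ _) (h.int_W _ _), integral_const_mul]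
  rw [h1, h2]
  ring

/-- decay in the row. -/
theorem dec_row (h : Spec V m c κ C k0) :
    Tendsto (fun n : ℕ => ∫ p, wt2 p * p.2 ^ n ∂(rho m)) atTop (𝓝 0) := by
  have h0 : ∫ p : ℝ × ℝ, (0 : ℝ) ∂(rho m) = 0 := integral_zero _ _
  rw [← h0]
  refine tendsto_integral_of_dominated_convergence (fun p => ‖wt2 p‖) ?_ ?_ ?_ ?_
  · intro n
    exact Measurable.aestronglyMeasurable (by unfold wt2; fun_prop)
  · exact (h.int1 : Integrable wt2 (rho m)).norm
  · intro n
    filter_upwards [h.ae_supp] with p hp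
    rw [norm_mul]
    refine mul_le_of_le_one_right (norm_nonneg _) ?_
    rw [Real.norm_of_nonneg (pow_nonneg hp.1 _)]
    exact pow_le_one₀ hp.1 hp.2.le
  · filter_upwards [h.ae_supp] with p hp
    have := (tendsto_pow_atTop_nhds_zero_of_lt_one hp.1 hp.2).const_mul (wt2 p)
    simpa only [mul_zero] using this

theorem abs_diff2_le (h : Spec V m c κ C k0) (j z : ℤ) :
    |V j (z + 1) + V j (z - 1) - 2 * V j z| ≤ 2 / π * ∫ p, wt2 p * p.2 ^ j.natAbs ∂(rho m) := by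
  have hpi := Real.pi_pos
  rw [V_diff2 h, abs_mul, abs_of_pos (by positivity)]
  refine mul_le_mul_of_nonneg_left ?_ (by positivity)
  rw [← Real.norm_eq_abs]
  have hint : Integrable (fun p : ℝ × ℝ => wt2 p * p.2 ^ j.natAbs) (rho m) := by
    have := int_wt2 h j 0
    simpa only [Int.cast_zero, mul_zero, Real.cos_zero, one_mul] using this
  refine norm_integral_le_of_norm_le hint ?_
  filter_upwards [h.ae_supp] with p hp
  have h5 : 0 < 1 - p.2 ^ 2 := by (clear * - hp; nlinarith [hp.1, hp.2])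
  have h6 : 0 ≤ wt2 p := by
    unfold wt2
    have := Real.cos_le_one p.1
    have h7 : 0 ≤ 1 - Real.cos p.1 := by linarith
    (clear * - this h5; positivity)
  have h8 := pow_nonneg hp.1 j.natAbs
  rw [norm_mul, norm_mul, Real.norm_of_nonneg h6, Real.norm_of_nonneg h8, Real.norm_eq_abs]
  refine mul_le_mul_of_nonneg_left ?_ h6
  exact mul_le_of_le_one_left h8 (Real.abs_cos_le_one _)

/-- Riemann-Lebesgue for the cosine coefficients. -/
theorem riemann_lebesgue_cos {g : ℝ → ℝ} (hg : Integrable g (volume.restrict (Icc (-π) π))) :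
    Tendsto (fun z : ℤ => ∫ k in Icc (-π) π, Real.cos (k * z) * g k) cofinite (𝓝 0) := by
  have hpi := Real.pi_pos
  set f : ℝ → ℂ := (Icc (-π) π).indicator (fun k => (g k : ℂ)) with hf
  have h1 := Real.tendsto_integral_exp_smul_cocompact f
  have h2 : Tendsto (fun z : ℤ => (-(1 / (2 * π))) * (z : ℝ)) cofinite (cocompact ℝ) :=
    (tendsto_cocompact_mul_left₀ (by
      have : 0 < 1 / (2 * π) := by positivity
      linarith only [this] |> fun h : -(1 / (2 * π)) < 0 => h.ne)).comp Int.tendsto_coe_cofinite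
  have h3 := (Complex.continuous_re.tendsto _).comp (h1.comp h2)
  rw [Complex.zero_re] at h3
  refine h3.congr fun z => ?_
  simp only [Function.comp_apply]
  have hfi : Integrable (fun k : ℝ => (g k : ℂ)) (volume.restrict (Icc (-π) π)) :=
    hg.ofReal (𝕜 := ℂ)
  have hexp : ∀ v : ℝ, ((Real.fourierChar (-(v * (-(1 / (2 * π)) * (z : ℝ)))) : ℂ)) =
      Complex.exp (((v * z : ℝ) : ℂ) * Complex.I) := by
    intro v
    rw [Real.fourierChar_apply]
    congr 1
    have : (π : ℂ) ≠ 0 := by exact_mod_cast hpi.ne'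
    push_cast
    (clear * - this; field_simp)
  have hcong : ∫ v : ℝ, Real.fourierChar (-(v * (-(1 / (2 * π)) * (z : ℝ)))) • f v =
      ∫ v in Icc (-π) π, Complex.exp (((v * z : ℝ) : ℂ) * Complex.I) * (g v : ℂ) := by
    rw [← integral_indicator measurableSet_Icc]
    refine integral_congr_ae (Eventually.of_forall fun v => ?_)
    simp only
    rw [hf]
    by_cases hv : v ∈ Icc (-π) π
    · rw [indicator_of_mem hv, indicator_of_mem hv, Circle.smul_def, hexp, smul_eq_mul]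
    · rw [indicator_of_notMem hv, indicator_of_notMem hv, smul_zero]
  rw [hcong]
  have hI : Integrable (fun v : ℝ => Complex.exp (((v * z : ℝ) : ℂ) * Complex.I) * (g v : ℂ))
      (volume.restrict (Icc (-π) π)) := by
    refine Integrable.bdd_mul (c := 1) hfi (Continuous.aestronglyMeasurable (by fun_prop)) ?_
    exact Eventually.of_forall fun v => by rw [Complex.norm_exp_ofReal_mul_I]
  have hre : (∫ v in Icc (-π) π, Complex.exp (((v * z : ℝ) : ℂ) * Complex.I) * (g v : ℂ)).re =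
      ∫ v in Icc (-π) π, (Complex.exp (((v * z : ℝ) : ℂ) * Complex.I) * (g v : ℂ)).re :=
    (integral_re hI).symm
  rw [hre]
  refine integral_congr_ae (Eventually.of_forall fun v => ?_)
  simp only
  rw [Complex.re_mul_ofReal, Complex.exp_ofReal_mul_I_re]

/-- decay in the position, for fixed row. -/
theorem dec_pos (h : Spec V m c κ C k0) (j : ℤ) :
    Tendsto (fun z : ℤ => V j (z + 1) + V j (z - 1) - 2 * V j z) cofinite (𝓝 0) := by
  have := h.sfin
  set g : ℝ → ℝ := fun k => ∫ τ, wt2 (k, τ) * τ ^ j.natAbs ∂(m k) with hg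
  have hint : Integrable (fun p : ℝ × ℝ => wt2 p * p.2 ^ j.natAbs) (rho m) := by
    have := int_wt2 h j 0
    simpa only [Int.cast_zero, mul_zero, Real.cos_zero, one_mul] using this
  have hgi : Integrable g (volume.restrict (Icc (-π) π)) := by
    unfold rho at hint
    exact hint.integral_compProd
  have h1 := (riemann_lebesgue_cos hgi).const_mul (2 / π)
  rw [mul_zero] at h1
  refine h1.congr fun z => ?_
  rw [V_diff2 h]
  congr 1
  have h2 := int_wt2 h j z
  unfold rho at h2 ⊢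
  rw [Measure.integral_compProd h2]
  refine integral_congr_ae (Eventually.of_forall fun k => ?_)
  simp only
  rw [hg]
  simp only
  rw [← integral_const_mul]
  refine integral_congr_ae (Eventually.of_forall fun τ => ?_)
  simp only
  ring

/-- Second differences of `V` vanish at infinity. -/
theorem dec (h : Spec V m c κ C k0) :
    Tendsto (fun p : ℤ × ℤ => V p.1 (p.2 + 1) + V p.1 (p.2 - 1) - 2 * V p.1 p.2) cofinite (𝓝 0) := by
  have hpi := Real.pi_pos
  rw [Metric.tendsto_nhds]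
  intro ε hε
  have h1 := (dec_row h).const_mul (2 / π)
  rw [mul_zero] at h1
  obtain ⟨J, hJ⟩ := eventually_atTop.1 (h1.eventually (gt_mem_nhds hε))
  have h2 : ∀ j : ℤ, {z : ℤ | ¬ dist (V j (z + 1) + V j (z - 1) - 2 * V j z) 0 < ε}.Finite := by
    intro j
    exact (Metric.tendsto_nhds.1 (dec_pos h j)) ε hε
  rw [eventually_cofinite]
  have h3 : (⋃ j ∈ Set.Icc (-(J : ℤ)) J, (fun z : ℤ => (j, z)) ''
      {z : ℤ | ¬ dist (V j (z + 1) + V j (z - 1) - 2 * V j z) 0 < ε}).Finite :=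
    (Set.finite_Icc _ _).biUnion fun j _ => (h2 j).image _
  refine h3.subset ?_
  rintro ⟨j, z⟩ hp
  simp only [mem_ofPred_eq] at hp
  have hj : j ∈ Set.Icc (-(J : ℤ)) J := by
    by_contra hj
    have hj' : J ≤ j.natAbs := by
      simp only [Set.mem_Icc, not_and_or, not_le] at hj
      omega
    refine hp ?_
    rw [Real.dist_eq, sub_zero]
    exact lt_of_le_of_lt (abs_diff2_le h j z) (hJ _ hj')
  simp only [mem_iUnion, mem_image, mem_ofPred_eq, Prod.mk.injEq]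
  exact ⟨j, hj, z, hp, rfl, rfl⟩

end Vale.Agent.P153.GFF
end

section

namespace Vale.Agent.P153

open Finset

/-- Finset version of the configuration set. -/
noncomputable def ConfF (D : Finset (ℤ × ℤ)) (η : ℤ × ℤ → ℤ)
    (hη : ∀ x, η x = 1 ∨ η x = -1) : Finset (ℤ × ℤ → ℤ) := (finite_conf D η hη).toFinset

theorem mem_ConfF {D : Finset (ℤ × ℤ)} {η : ℤ × ℤ → ℤ} {hη : ∀ x, η x = 1 ∨ η x = -1}
    {h : ℤ × ℤ → ℤ} : h ∈ ConfF D η hη ↔ Lip h ∧ ∀ x, x ∉ D → h x = η x := by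
  rw [← conf_iff]
  simp [ConfF]

theorem nonempty_ConfF (D : Finset (ℤ × ℤ)) (η : ℤ × ℤ → ℤ) (hη : ∀ x, η x = 1 ∨ η x = -1) :
    (ConfF D η hη).Nonempty := by
  refine ⟨η, mem_ConfF.2 ⟨⟨fun x => ?_, fun x y _ => ?_⟩, fun x _ => rfl⟩⟩
  · rcases hη x with h | h <;> rw [h] <;> decide
  · rcases hη x with h | h <;> rcases hη y with h' | h' <;> rw [h, h'] <;> norm_num

/-- The lower and upper constant boundary conditions. -/
noncomputable def Cminus (D : Finset (ℤ × ℤ)) : Finset (ℤ × ℤ → ℤ) :=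
  ConfF D (fun _ => -1) (fun _ => Or.inr rfl)

/-- The lower and upper constant boundary conditions. -/
noncomputable def Cplus (D : Finset (ℤ × ℤ)) : Finset (ℤ × ℤ → ℤ) :=
  ConfF D (fun _ => 1) (fun _ => Or.inl rfl)

/-- The set `S` of height functions lies between the two constant boundary conditions. -/
def Between (D : Finset (ℤ × ℤ)) (S : Finset (ℤ × ℤ → ℤ)) : Prop :=
  (∀ a ∈ Cminus D, ∀ b ∈ S, a ⊓ b ∈ Cminus D ∧ a ⊔ b ∈ S) ∧
    ∀ a ∈ S, ∀ b ∈ Cplus D, a ⊓ b ∈ S ∧ a ⊔ b ∈ Cplus D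

theorem between_conf (D : Finset (ℤ × ℤ)) (η : ℤ × ℤ → ℤ) (hη : ∀ x, η x = 1 ∨ η x = -1) :
    Between D (ConfF D η hη) := by
  constructor
  · intro a ha b hb
    unfold Cminus at *
    rw [mem_ConfF] at ha hb
    refine ⟨mem_ConfF.2 ⟨ha.1.inf hb.1, fun x hx => ?_⟩,
      mem_ConfF.2 ⟨ha.1.sup hb.1, fun x hx => ?_⟩⟩
    · simp only [Pi.inf_apply, ha.2 x hx, hb.2 x hx]
      rcases hη x with h | h <;> rw [h] <;> decide
    · simp only [Pi.sup_apply, ha.2 x hx, hb.2 x hx]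
      rcases hη x with h | h <;> rw [h] <;> decide
  · intro a ha b hb
    unfold Cplus at *
    rw [mem_ConfF] at ha hb
    refine ⟨mem_ConfF.2 ⟨ha.1.inf hb.1, fun x hx => ?_⟩,
      mem_ConfF.2 ⟨ha.1.sup hb.1, fun x hx => ?_⟩⟩
    · simp only [Pi.inf_apply, ha.2 x hx, hb.2 x hx]
      rcases hη x with h | h <;> rw [h] <;> decide
    · simp only [Pi.sup_apply, ha.2 x hx, hb.2 x hx]
      rcases hη x with h | h <;> rw [h] <;> decide

theorem between_free (D U : Finset (ℤ × ℤ)) (hDU : ∀ x ∈ D, x ∈ U) : Between D (FreeF D U) := by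
  constructor
  · intro a ha b hb
    unfold Cminus at *
    rw [mem_ConfF] at ha
    rw [mem_FreeF] at hb
    refine ⟨mem_ConfF.2 ⟨ha.1.inf hb.1, fun x hx => ?_⟩,
      mem_FreeF.2 ⟨ha.1.sup hb.1, fun x hx => ?_, fun x hx => ?_⟩⟩
    · simp only [Pi.inf_apply, ha.2 x hx]
      rcases (abs_eq zero_le_one).1 (hb.2.1 x hx) with h | h <;> rw [h] <;> decide
    · simp only [Pi.sup_apply, ha.2 x hx]
      rcases (abs_eq zero_le_one).1 (hb.2.1 x hx) with h | h <;> rw [h] <;> decide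
    · simp only [Pi.sup_apply, ha.2 x (fun h => hx (hDU x h)), hb.2.2 x hx]
      decide
  · intro a ha b hb
    unfold Cplus at *
    rw [mem_ConfF] at hb
    rw [mem_FreeF] at ha
    refine ⟨mem_FreeF.2 ⟨ha.1.inf hb.1, fun x hx => ?_, fun x hx => ?_⟩,
      mem_ConfF.2 ⟨ha.1.sup hb.1, fun x hx => ?_⟩⟩
    · simp only [Pi.inf_apply, hb.2 x hx]
      rcases (abs_eq zero_le_one).1 (ha.2.1 x hx) with h | h <;> rw [h] <;> decide
    · simp only [Pi.inf_apply, hb.2 x (fun h => hx (hDU x h)), ha.2.2 x hx]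
      decide
    · simp only [Pi.sup_apply, hb.2 x hx]
      rcases (abs_eq zero_le_one).1 (ha.2.1 x hx) with h | h <;> rw [h] <;> decide

/-- The linear observable. -/
noncomputable def lin (V : Finset (ℤ × ℤ)) (g : ℤ × ℤ → ℝ) (h : ℤ × ℤ → ℤ) : ℝ :=
  ∑ x ∈ V, g x * (h x : ℝ)

theorem lin_mono {V : Finset (ℤ × ℤ)} {g : ℤ × ℤ → ℝ} (hg : ∀ x ∈ V, 0 ≤ g x) :
    Monotone (lin V g) := by
  intro a b hab
  unfold lin
  apply Finset.sum_le_sum
  intro x hx
  apply mul_le_mul_of_nonneg_left _ (hg x hx)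
  exact_mod_cast hab x

/-- Upper constant boundary condition is the lower one shifted by two. -/
theorem ev_plus (D : Finset (ℤ × ℤ)) (F : (ℤ × ℤ → ℤ) → ℝ) :
    ev (Cplus D) F = ev (Cminus D) (fun h => F (fun x => h x + 2)) := by
  have hi : ∀ h ∈ Cplus D, (fun x => h x - 2) ∈ Cminus D := by
    intro h hh
    unfold Cplus Cminus at *
    rw [mem_ConfF] at *
    refine ⟨⟨fun x => ?_, fun x y hxy => ?_⟩, fun x hx => ?_⟩
    · exact (hh.1.1 x).sub_even (by decide)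
    · simpa only [sub_sub_sub_cancel_right] using hh.1.2 x y hxy
    · simp [hh.2 x hx]
  have hj : ∀ h ∈ Cminus D, (fun x => h x + 2) ∈ Cplus D := by
    intro h hh
    unfold Cplus Cminus at *
    rw [mem_ConfF] at *
    refine ⟨⟨fun x => ?_, fun x y hxy => ?_⟩, fun x hx => ?_⟩
    · exact (hh.1.1 x).add_even (by decide)
    · simpa only [add_sub_add_right_eq_sub] using hh.1.2 x y hxy
    · simp [hh.2 x hx]
  have hcard : #(Cplus D) = #(Cminus D) := by
    apply Finset.card_nbij' (fun h => fun x => h x - 2) (fun h => fun x => h x + 2)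
    · exact hi
    · exact hj
    · intro h _; funext x; simp
    · intro h _; funext x; simp
  unfold ev
  rw [hcard]
  congr 1
  apply Finset.sum_nbij' (fun h => fun x => h x - 2) (fun h => fun x => h x + 2) hi hj
  · intro h _; funext x; simp
  · intro h _; funext x; simp
  · intro h _; congr 1; funext x; simp

theorem lin_shift (V : Finset (ℤ × ℤ)) (g : ℤ × ℤ → ℝ) (h : ℤ × ℤ → ℤ) :
    lin V g (fun x => h x + 2) = lin V g h + 2 * ∑ x ∈ V, g x := by
  unfold lin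
  rw [Finset.mul_sum, ← Finset.sum_add_distrib]
  apply Finset.sum_congr rfl
  intro x _
  push_cast
  ring

theorem up_compare (D V : Finset (ℤ × ℤ)) (S T : Finset (ℤ × ℤ → ℤ)) (hS : S.Nonempty)
    (hT : T.Nonempty) (bS : Between D S) (bT : Between D T) (g : ℤ × ℤ → ℝ)
    (hg : ∀ x ∈ V, 0 ≤ g x) (ψ : ℝ → ℝ) (hψ : Monotone ψ) :
    ev S (fun h => ψ (lin V g h)) ≤ ev T (fun h => ψ (lin V g h + 2 * ∑ x ∈ V, g x)) := by
  have hp : (Cplus D).Nonempty := nonempty_ConfF _ _ _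
  have hm : (Cminus D).Nonempty := nonempty_ConfF _ _ _
  have h1 : ev S (fun h => ψ (lin V g h)) ≤ ev (Cplus D) (fun h => ψ (lin V g h)) :=
    ev_le_ev S (Cplus D) hS hp (fun a ha b hb => (bS.2 a ha b hb).1)
      (fun a ha b hb => (bS.2 a ha b hb).2) _ (fun a b hab => hψ (lin_mono hg hab))
  have h2 : ev (Cminus D) (fun h => ψ (lin V g h + 2 * ∑ x ∈ V, g x))
      ≤ ev T (fun h => ψ (lin V g h + 2 * ∑ x ∈ V, g x)) :=
    ev_le_ev (Cminus D) T hm hT (fun a ha b hb => (bT.1 a ha b hb).1)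
      (fun a ha b hb => (bT.1 a ha b hb).2) _
      (fun a b hab => hψ (by linarith [lin_mono hg hab]))
  have h3 := ev_plus D (fun h => ψ (lin V g h))
  simp only [lin_shift] at h3
  linarith only [h1, h2, h3]

theorem rms_between (D V : Finset (ℤ × ℤ)) (S T : Finset (ℤ × ℤ → ℤ)) (hS : S.Nonempty)
    (hT : T.Nonempty) (bS : Between D S) (bT : Between D T) (g : ℤ × ℤ → ℝ)
    (hg : ∀ x ∈ V, 0 ≤ g x) (m : ℝ) :
    √(ev S (fun h => (lin V g h - m) ^ 2)) ≤ √(ev T (fun h => (lin V g h - m) ^ 2))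
      + 2 * ∑ x ∈ V, g x := by
  apply rms_compare S T hS (lin V g) (2 * ∑ x ∈ V, g x)
  · have := Finset.sum_nonneg hg
    linarith only [this]
  · intro ψ hψ
    exact up_compare D V S T hS hT bS bT g hg ψ hψ
  · intro ψ hψ
    have h := up_compare D V T S hT hS bT bS g hg (fun t => -ψ (t - 2 * ∑ x ∈ V, g x))
      (fun s t hst => neg_le_neg (hψ (by linarith only [hst])))
    simp only [add_sub_cancel_right] at h
    have e : ∀ (R : Finset (ℤ × ℤ → ℤ)) (F : (ℤ × ℤ → ℤ) → ℝ),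
        ev R (fun h => -F h) = - ev R F := by
      intro R F
      have := ev_const_mul R (-1) F
      simpa only [neg_mul, one_mul] using this
    rw [e, e] at h
    linarith only [h]

theorem ev_sq_lin (S : Finset (ℤ × ℤ → ℤ)) (V : Finset (ℤ × ℤ)) (g : ℤ × ℤ → ℝ) :
    ev S (fun h => (lin V g h) ^ 2)
      = ∑ x ∈ V, ∑ y ∈ V, g x * g y * ev S (fun h => (h x : ℝ) * (h y : ℝ)) := by
  have e : ∀ h : ℤ × ℤ → ℤ, (lin V g h) ^ 2
      = ∑ x ∈ V, ∑ y ∈ V, g x * g y * ((h x : ℝ) * (h y : ℝ)) := by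
    intro h
    unfold lin
    rw [sq, Finset.sum_mul_sum]
    apply Finset.sum_congr rfl
    intro x _
    apply Finset.sum_congr rfl
    intro y _
    ring
  unfold ev
  simp only [e]
  rw [Finset.sum_comm, Finset.sum_div]
  apply Finset.sum_congr rfl
  intro x _
  rw [Finset.sum_comm, Finset.sum_div]
  apply Finset.sum_congr rfl
  intro y _
  rw [← Finset.mul_sum, mul_div_assoc]

theorem ev_lin (S : Finset (ℤ × ℤ → ℤ)) (V : Finset (ℤ × ℤ)) (g : ℤ × ℤ → ℝ) :
    ev S (lin V g) = ∑ x ∈ V, g x * ev S (fun h => (h x : ℝ)) := by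
  unfold ev lin
  rw [Finset.sum_comm, Finset.sum_div]
  apply Finset.sum_congr rfl
  intro x _
  rw [← Finset.mul_sum, mul_div_assoc]

theorem ev_centre {α : Type*} (S : Finset α) (hS : S.Nonempty) (X : α → ℝ) (m : ℝ) :
    ev S (fun a => (X a - m) ^ 2) = ev S (fun a => X a ^ 2) - 2 * m * ev S X + m ^ 2 := by
  have : (fun a => (X a - m) ^ 2) = fun a => (X a ^ 2 - (2 * m) * X a) + m ^ 2 := by
    funext a; ring
  rw [this, ev_add, ev_sub, ev_const_mul, ev_const S hS]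

/-- Variance under a uniform finite measure. -/
noncomputable def vr {α : Type*} (S : Finset α) (X : α → ℝ) : ℝ :=
  ev S (fun a => (X a - ev S X) ^ 2)

theorem vr_eq {α : Type*} (S : Finset α) (hS : S.Nonempty) (X : α → ℝ) :
    vr S X = ev S (fun a => X a ^ 2) - (ev S X) ^ 2 := by
  unfold vr
  rw [ev_centre S hS]
  ring

/-- Replacing coefficients by their absolute values increases the variance. -/
theorem vr_le_abs (D V : Finset (ℤ × ℤ)) (η : ℤ × ℤ → ℤ) (hη : ∀ x, η x = 1 ∨ η x = -1)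
    (f : ℤ × ℤ → ℝ) :
    vr (ConfF D η hη) (lin V f) ≤ vr (ConfF D η hη) (lin V (fun x => |f x|)) := by
  have hne := nonempty_ConfF D η hη
  have hinf : ∀ a ∈ ConfF D η hη, ∀ b ∈ ConfF D η hη, a ⊓ b ∈ ConfF D η hη := by
    intro a ha b hb
    rw [mem_ConfF] at *
    refine ⟨ha.1.inf hb.1, fun x hx => ?_⟩
    simp [ha.2 x hx, hb.2 x hx]
  have hsup : ∀ a ∈ ConfF D η hη, ∀ b ∈ ConfF D η hη, a ⊔ b ∈ ConfF D η hη := by
    intro a ha b hb
    rw [mem_ConfF] at *
    refine ⟨ha.1.sup hb.1, fun x hx => ?_⟩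
    simp [ha.2 x hx, hb.2 x hx]
  have hm : ∀ x : ℤ × ℤ, Monotone (fun h : ℤ × ℤ → ℤ => (h x : ℝ)) := by
    intro x a b hab
    exact Int.cast_le.2 (hab x)
  have hcov : ∀ x y, 0 ≤ ev (ConfF D η hη) (fun h => (h x : ℝ) * (h y : ℝ))
      - ev (ConfF D η hη) (fun h => (h x : ℝ)) * ev (ConfF D η hη) (fun h => (h y : ℝ)) := by
    intro x y
    have := ev_mul_ge (ConfF D η hη) hne hinf hsup _ _ (hm x) (hm y)
    linarith only [this]
  have e : ∀ g : ℤ × ℤ → ℝ, vr (ConfF D η hη) (lin V g)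
      = ∑ x ∈ V, ∑ y ∈ V, g x * g y * (ev (ConfF D η hη) (fun h => (h x : ℝ) * (h y : ℝ))
      - ev (ConfF D η hη) (fun h => (h x : ℝ)) * ev (ConfF D η hη) (fun h => (h y : ℝ))) := by
    intro g
    rw [vr_eq _ hne, ev_sq_lin, ev_lin, sq, Finset.sum_mul_sum, ← Finset.sum_sub_distrib]
    apply Finset.sum_congr rfl
    intro x _
    rw [← Finset.sum_sub_distrib]
    apply Finset.sum_congr rfl
    intro y _
    ring
  rw [e, e]
  apply Finset.sum_le_sum
  intro x _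
  apply Finset.sum_le_sum
  intro y _
  apply mul_le_mul_of_nonneg_right _ (hcov x y)
  rw [← abs_mul]
  exact le_abs_self _

/-- The closure of a finite set of vertices. -/
def clo (D : Finset (ℤ × ℤ)) : Finset (ℤ × ℤ) :=
  D ∪ D.biUnion (fun x => {(x.1 + 1, x.2), (x.1 - 1, x.2), (x.1, x.2 + 1), (x.1, x.2 - 1),
    (x.1 + 1, x.2 - 1), (x.1 - 1, x.2 + 1)})

theorem sub_clo (D : Finset (ℤ × ℤ)) : ∀ x ∈ D, x ∈ clo D := fun x hx =>
  Finset.mem_union_left _ hx

theorem adj_clo (D : Finset (ℤ × ℤ)) : ∀ x ∈ D, ∀ y, Adj x y → y ∈ clo D := by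
  intro x hx y hxy
  apply Finset.mem_union_right
  rw [Finset.mem_biUnion]
  refine ⟨x, hx, ?_⟩
  unfold Adj at hxy
  obtain ⟨y1, y2⟩ := y
  simp only [Set.mem_insert_iff, Set.mem_singleton_iff, Prod.mk.injEq] at hxy
  simp only [Finset.mem_insert, Finset.mem_singleton, Prod.mk.injEq]
  rcases hxy with hxy | hxy | hxy | hxy | hxy | hxy <;> omega

/-- Main comparison, in terms of averages. -/
theorem main_vr (D D' : Finset (ℤ × ℤ)) (hD : D' ⊆ D) (η η' : ℤ × ℤ → ℤ)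
    (hη : ∀ x, η x = 1 ∨ η x = -1) (hη' : ∀ x, η' x = 1 ∨ η' x = -1) (f : ℤ × ℤ → ℝ) :
    √(vr (ConfF D' η' hη') (lin D' f))
      ≤ √(vr (ConfF D η hη) (lin D' (fun x => |f x|))) + 4 * ∑ x ∈ D', |f x| := by
  set g : ℤ × ℤ → ℝ := fun x => |f x| with hg
  have hg0 : ∀ x, 0 ≤ g x := fun x => abs_nonneg _
  set U := clo D with hU
  have hDU : ∀ x ∈ D, x ∈ U := sub_clo D
  have hD'U : ∀ x ∈ D', x ∈ U := fun x hx => hDU x (hD hx)
  have hadj : ∀ x ∈ D, ∀ y, Adj x y → y ∈ U := adj_clo D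
  set S := ConfF D' η' hη'
  set T := ConfF D η hη
  set A := FreeF D' U
  set B := FreeF D U
  have nS : S.Nonempty := nonempty_ConfF _ _ _
  have nT : T.Nonempty := nonempty_ConfF _ _ _
  have nA : A.Nonempty := nonempty_free _ _
  have nB : B.Nonempty := nonempty_free _ _
  set m := ev T (lin D' g) with hm
  have s1 : √(vr S (lin D' f)) ≤ √(vr S (lin D' g)) :=
    Real.sqrt_le_sqrt (vr_le_abs D' D' η' hη' f)
  have s2 : √(vr S (lin D' g)) ≤ √(ev S (fun h => (lin D' g h - 0) ^ 2)) := by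
    apply Real.sqrt_le_sqrt
    rw [vr_eq S nS]
    simp only [sub_zero]
    nlinarith only []
  have s3 : √(ev S (fun h => (lin D' g h - 0) ^ 2))
      ≤ √(ev A (fun h => (lin D' g h - 0) ^ 2)) + 2 * ∑ x ∈ D', g x :=
    rms_between D' D' S A nS nA (between_conf _ _ _) (between_free D' U hD'U) g
      (fun x _ => hg0 x) 0
  have s4 : √(ev A (fun h => (lin D' g h - 0) ^ 2)) ≤ √(ev B (fun h => (lin D' g h - 0) ^ 2)) := by
    apply Real.sqrt_le_sqrt
    simp only [sub_zero]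
    rw [ev_sq_lin, ev_sq_lin]
    apply Finset.sum_le_sum
    intro x _
    apply Finset.sum_le_sum
    intro y _
    exact mul_le_mul_of_nonneg_left (free_two_mono hD hDU x y) (mul_nonneg (hg0 x) (hg0 y))
  have hBz : ev B (lin D' g) = 0 := by
    rw [ev_lin]
    apply Finset.sum_eq_zero
    intro x hx
    have := free_one hadj (hD'U x hx)
    unfold ev
    rw [this]
    simp
  have s5 : √(ev B (fun h => (lin D' g h - 0) ^ 2)) ≤ √(ev B (fun h => (lin D' g h - m) ^ 2)) := by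
    apply Real.sqrt_le_sqrt
    rw [ev_centre B nB, ev_centre B nB, hBz]
    nlinarith only []
  have s6 : √(ev B (fun h => (lin D' g h - m) ^ 2))
      ≤ √(ev T (fun h => (lin D' g h - m) ^ 2)) + 2 * ∑ x ∈ D', g x :=
    rms_between D D' B T nB nT (between_free D U hDU) (between_conf _ _ _) g
      (fun x _ => hg0 x) m
  have s7 : ev T (fun h => (lin D' g h - m) ^ 2) = vr T (lin D' g) := rfl
  rw [s7] at s6
  linarith only [s1, s2, s3, s4, s5, s6]

end Vale.Agent.P153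
end

section

/-!
# P153, block F-B: crossing events of a random set of edges of the triangular lattice

Edges are coded by their midpoints: a random subset `S` of the fine lattice `ℤ × ℤ` (the vertex
`(i, j)` of the lattice is the point `(2 i, 2 j)`, the midpoint of the edge between `x` and `y` is
`x + y`); all sets `S` are contained in `Mid`. The fine lattice has the neighbours `(i ± 1, j)`,
`(i, j ± 1)`, `(i + 1, j - 1)`, `(i - 1, j + 1)`. All the numbers `a b c d p q n u v` below are in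
units of the lattice (two steps of the fine lattice). The symmetries `(i, j) ↦ (-i - j, j)`,
`(i + j, -j)`, `(j, i)` are reflections. The coordinate `2 i + j` is twice the first Euclidean
coordinate. Hexagons have their centre in even rows and even side length `2 n`.
-/

namespace Vale.Agent.P153.F.RSW

open Vale.Agent.P153.Topo

/-- The midpoints of the edges. -/
def Mid : Set (ℤ × ℤ) := {z | Odd z.1 ∨ Odd z.2}

/-- The parallelogram `[a, b] × [c, d]` (in lattice units). -/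
def pr (a b c d : ℤ) : Set (ℤ × ℤ) :=
  {z | 2 * a ≤ z.1 ∧ z.1 ≤ 2 * b ∧ 2 * c ≤ z.2 ∧ z.2 ≤ 2 * d}

/-- The set `S` crosses the parallelogram from `i = a` to `i = b`. -/
def LRp (a b c d : ℤ) (S : Set (ℤ × ℤ)) : Prop :=
  ∃ x y, Conn (S ∩ pr a b c d) x y ∧ x.1 = 2 * a ∧ y.1 = 2 * b

/-- The set `S` crosses the parallelogram from `j = c` to `j = d`. -/
def BTp (a b c d : ℤ) (S : Set (ℤ × ℤ)) : Prop :=
  ∃ x y, Conn (S ∩ pr a b c d) x y ∧ x.2 = 2 * c ∧ y.2 = 2 * d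

/-- The hexagon of side `2 n` with centre in the row `2 p`, at the half coordinate `2 q` (all in
lattice units). -/
def hex (p q n : ℤ) : Set (ℤ × ℤ) :=
  {z | 4 * (p - n) ≤ z.2 ∧ z.2 ≤ 4 * (p + n) ∧
    2 * (q - p - 2 * n) ≤ z.1 ∧ z.1 ≤ 2 * (q - p + 2 * n) ∧
    2 * (q + p - 2 * n) ≤ z.1 + z.2 ∧ z.1 + z.2 ≤ 2 * (q + p + 2 * n)}

/-- A path of `S` in the hexagon from its bottom side to the part `4 u ≤ 2 i + j ≤ 4 v` of its top
side. -/
def HT (p q n u v : ℤ) (S : Set (ℤ × ℤ)) : Prop :=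
  ∃ x y, Conn (S ∩ hex p q n) x y ∧ x.2 = 4 * (p - n) ∧ y.2 = 4 * (p + n) ∧
    4 * u ≤ 2 * y.1 + y.2 ∧ 2 * y.1 + y.2 ≤ 4 * v

/-- A path of `S` in the hexagon from its top side to the part `4 u ≤ 2 i + j ≤ 4 v` of its bottom
side. -/
def HM (p q n u v : ℤ) (S : Set (ℤ × ℤ)) : Prop :=
  ∃ x y, Conn (S ∩ hex p q n) x y ∧ x.2 = 4 * (p + n) ∧ y.2 = 4 * (p - n) ∧
    4 * u ≤ 2 * y.1 + y.2 ∧ 2 * y.1 + y.2 ≤ 4 * v

/-- A path of `S` in the hexagon from its upper left side to its lower right side. -/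
def CT (p q n : ℤ) (S : Set (ℤ × ℤ)) : Prop :=
  ∃ x y, Conn (S ∩ hex p q n) x y ∧ x.1 = 2 * (q - p - 2 * n) ∧ y.1 = 2 * (q - p + 2 * n)

/-- The hexagon is crossed from the upper left to the lower right side, and there are paths from its
bottom (top) side to the left and to the right part (at distance at least `h` from the middle) of its
top (bottom) side. -/
def XX (p q n h : ℤ) (S : Set (ℤ × ℤ)) : Prop :=
  HT p q n (q + h) (q + n) S ∧ HT p q n (q - n) (q - h) S ∧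
  HM p q n (q + h) (q + n) S ∧ HM p q n (q - n) (q - h) S ∧ CT p q n S

/-- The four parallelograms around the box with centre `(p, q)` and half side `t`, inside the box
with half side `2 t`, are crossed in the long direction. -/
def Ann (p q t : ℤ) (S : Set (ℤ × ℤ)) : Prop :=
  LRp (p - 2 * t) (p + 2 * t) (q + t) (q + 2 * t) S ∧
  LRp (p - 2 * t) (p + 2 * t) (q - 2 * t) (q - t) S ∧
  BTp (p - 2 * t) (p - t) (q - 2 * t) (q + 2 * t) S ∧
  BTp (p + t) (p + 2 * t) (q - 2 * t) (q + 2 * t) S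

/-- The event whose probability is small by anti-concentration: circuits around the boxes
`B_s(0)`, `B_{2R}(0)` and `B_R(3R, 0)`, and a path from the row `-8R` to `[0, s] × {0}` (inside the
hexagon of side `4R` with centre in the row `-4R`). -/
def Arm (s R : ℤ) (S : Set (ℤ × ℤ)) : Prop :=
  Ann 0 0 s S ∧ Ann 0 0 (2 * R) S ∧ Ann (3 * R) 0 R S ∧ HT (-(2 * R)) 0 (2 * R) 0 s S

/-- The deterministic facts about crossing paths (to be proved from `Topo.cross`). -/
structure Geo : Prop where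
  /-- Two crossings joined by a crossing of the common part in the other direction. -/
  chain : ∀ (a a' b b' c d : ℤ) (S : Set (ℤ × ℤ)), a ≤ a' → a' ≤ b → b ≤ b' → c ≤ d →
    LRp a b c d S → BTp a' b c d S → LRp a' b' c d S → LRp a b' c d S
  /-- A crossing of a longer and thinner parallelogram crosses a shorter and wider one. -/
  mono : ∀ (a a' b b' c c' d d' : ℤ) (S : Set (ℤ × ℤ)), a ≤ a' → a' ≤ b' → b' ≤ b → c' ≤ c →
    d ≤ d' → LRp a b c d S → LRp a' b' c' d' S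
  /-- Two paths landing in the middle parts of the top and of the bottom side of a hexagon are joined
  by its cross `XX`. -/
  f1 : ∀ (n m v al : ℤ) (S : Set (ℤ × ℤ)), 0 ≤ al → 0 < m → m ≤ n → 0 ≤ v → v ≤ 3 * (n - m) →
    HT (m - n) (-v) n (-al) al S → HM (n - m) (-v) n (-al) al S → XX 0 0 m al S →
    BTp (-v - (3 * n - m)) (-v + (3 * n - m)) (-(4 * n - 2 * m)) (4 * n - 2 * m) S
  /-- Zig-zag. -/
  zig : ∀ (n h : ℤ) (S : Set (ℤ × ℤ)), 0 < n → 0 ≤ h → h ≤ n → XX 0 0 n h S →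
    XX 0 (-(2 * h)) n h S → LRp (-(2 * h) - 2 * n) (2 * n) (-(2 * n)) (2 * n) S
  /-- Two paths landing in `[0, s] × {0}` are joined by the annulus event. -/
  f2 : ∀ (s t : ℤ) (S : Set (ℤ × ℤ)), 0 < s → 2 * s ≤ t → HT (-t) 0 t 0 s S →
    HM t 0 t 0 s S → Ann 0 0 s S → BTp (-(3 * t)) (3 * t) (-(4 * t)) (4 * t) S
  /-- Two paths landing in `[0, 1] × {0}`: the only midpoint there is `(1, 0)`. -/
  f2' : ∀ (t : ℤ) (S : Set (ℤ × ℤ)), S ⊆ Mid → 1 ≤ t → HT (-t) 0 t 0 1 S → HM t 0 t 0 1 S →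
    BTp (-(3 * t)) (3 * t) (-(4 * t)) (4 * t) S

end Vale.Agent.P153.F.RSW
end

section

/-!
# P153, block F-B: increasing local events, symmetries
-/

namespace Vale.Agent.P153.F.RSW

open Relation Vale.Agent.P153.Topo

/-- Increasing events. -/
def Inc (Q : Set (ℤ × ℤ) → Prop) : Prop := ∀ S T : Set (ℤ × ℤ), S ⊆ T → Q S → Q T

/-- Events which depend on the points of a bounded box only. -/
def Loc (Q : Set (ℤ × ℤ) → Prop) : Prop :=
  ∃ N : ℤ, ∀ S T : Set (ℤ × ℤ),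
    (∀ z : ℤ × ℤ, |z.1| ≤ N → |z.2| ≤ N → (z ∈ S ↔ z ∈ T)) → Q S → Q T

/-- Increasing local events. -/
def IL (Q : Set (ℤ × ℤ) → Prop) : Prop := Inc Q ∧ Loc Q

theorem IL.and {Q R : Set (ℤ × ℤ) → Prop} (hQ : IL Q) (hR : IL R) :
    IL (fun S => Q S ∧ R S) := by
  refine ⟨fun S T h hS => ⟨hQ.1 S T h hS.1, hR.1 S T h hS.2⟩, ?_⟩
  obtain ⟨N, hN⟩ := hQ.2
  obtain ⟨M, hM⟩ := hR.2
  refine ⟨max N M, fun S T h hS => ⟨hN S T (fun z h1 h2 => h z ?_ ?_) hS.1,
    hM S T (fun z h1 h2 => h z ?_ ?_) hS.2⟩⟩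
  · exact h1.trans (le_max_left _ _)
  · exact h2.trans (le_max_left _ _)
  · exact h1.trans (le_max_right _ _)
  · exact h2.trans (le_max_right _ _)

/-- The data of the abstract theorem: `p Q` is the probability of the event `Q` for a random
set of midpoints. -/
structure PT where
  /-- probability of an event -/
  p : (Set (ℤ × ℤ) → Prop) → ℝ
  nonneg : ∀ Q, 0 ≤ p Q
  le_one : ∀ Q, p Q ≤ 1
  mono : ∀ Q R : Set (ℤ × ℤ) → Prop, (∀ S, S ⊆ Mid → Q S → R S) → p Q ≤ p R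
  or_le : ∀ Q R : Set (ℤ × ℤ) → Prop, p (fun S => Q S ∨ R S) ≤ p Q + p R
  fkg : ∀ Q R : Set (ℤ × ℤ) → Prop, IL Q → IL R → p Q * p R ≤ p (fun S => Q S ∧ R S)
  shift : ∀ (a b : ℤ) (Q : Set (ℤ × ℤ) → Prop), IL Q →
    p (fun S => Q {z | (z.1 + 2 * a, z.2 + 2 * b) ∈ S}) = p Q
  reflx : ∀ Q : Set (ℤ × ℤ) → Prop, IL Q → p (fun S => Q {z | (-z.1 - z.2, z.2) ∈ S}) = p Q
  refly : ∀ Q : Set (ℤ × ℤ) → Prop, IL Q → p (fun S => Q {z | (z.1 + z.2, -z.2) ∈ S}) = p Q
  swap : ∀ Q : Set (ℤ × ℤ) → Prop, IL Q → p (fun S => Q {z | (z.2, z.1) ∈ S}) = p Q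

theorem conn_map {S S' : Set (ℤ × ℤ)} {x y : ℤ × ℤ} {T : ℤ × ℤ → ℤ × ℤ}
    (hT : ∀ u v, Adj u v → Adj (T u) (T v)) (hS : ∀ z ∈ S, T z ∈ S') (h : Conn S x y) :
    Conn S' (T x) (T y) := by
  refine ⟨hS _ h.1, ?_⟩
  have h2 := h.2
  induction h2 with
  | refl => exact ReflTransGen.refl
  | tail h1 h2 ih => exact (ih ⟨h.1, h1⟩).tail ⟨hT _ _ h2.1, hS _ h2.2⟩

/-- Transport of a connection event by a symmetry of the lattice. -/
theorem ex_iff {T T' : ℤ × ℤ → ℤ × ℤ} (h1 : ∀ z, T (T' z) = z)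
    (hT : ∀ u v, Adj u v → Adj (T u) (T v)) (hT' : ∀ u v, Adj u v → Adj (T' u) (T' v))
    {R R' : Set (ℤ × ℤ)} (hR : ∀ z, z ∈ R ↔ T z ∈ R')
    {P P' : ℤ × ℤ → ℤ × ℤ → Prop} (hP : ∀ x y, P x y ↔ P' (T x) (T y)) (S : Set (ℤ × ℤ)) :
    (∃ x y, Conn ({z | T z ∈ S} ∩ R) x y ∧ P x y) ↔ ∃ x y, Conn (S ∩ R') x y ∧ P' x y := by
  constructor
  · rintro ⟨x, y, h, hp⟩
    exact ⟨T x, T y, conn_map hT (fun z hz => ⟨hz.1, (hR z).1 hz.2⟩) h, (hP x y).1 hp⟩
  · rintro ⟨x, y, h, hp⟩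
    refine ⟨T' x, T' y, conn_map hT' (fun z hz => ⟨?_, ?_⟩) h,
      (hP _ _).2 (by rw [h1, h1]; exact hp)⟩
    · show T (T' z) ∈ S
      rw [h1]; exact hz.1
    · rw [hR, h1]; exact hz.2

/-- A connection event in a bounded region is increasing and local. -/
theorem IL_ex {R : Set (ℤ × ℤ)} (N : ℤ) (hR : ∀ z ∈ R, |z.1| ≤ N ∧ |z.2| ≤ N)
    (P : ℤ × ℤ → ℤ × ℤ → Prop) : IL (fun S => ∃ x y, Conn (S ∩ R) x y ∧ P x y) := by
  constructor
  · rintro S T hST ⟨x, y, h, hp⟩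
    exact ⟨x, y, h.mono (Set.inter_subset_inter_left _ hST), hp⟩
  · refine ⟨N, ?_⟩
    rintro S T hST ⟨x, y, h, hp⟩
    refine ⟨x, y, h.mono ?_, hp⟩
    rintro z ⟨hz, hzR⟩
    exact ⟨(hST z (hR z hzR).1 (hR z hzR).2).1 hz, hzR⟩

theorem pr_bdd (a b c d : ℤ) : ∀ z ∈ pr a b c d,
    |z.1| ≤ 2 * (|a| + |b| + |c| + |d|) ∧ |z.2| ≤ 2 * (|a| + |b| + |c| + |d|) := by
  rintro ⟨x, y⟩ ⟨h1, h2, h3, h4⟩
  dsimp only at h1 h2 h3 h4 ⊢
  have := abs_nonneg a
  have := abs_nonneg b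
  have := abs_nonneg c
  have := abs_nonneg d
  have := le_abs_self a
  have := le_abs_self b
  have := le_abs_self c
  have := le_abs_self d
  have := neg_abs_le a
  have := neg_abs_le b
  have := neg_abs_le c
  have := neg_abs_le d
  constructor <;> rw [abs_le] <;> constructor <;> linarith

theorem hex_bdd (p q n : ℤ) : ∀ z ∈ hex p q n,
    |z.1| ≤ 4 * (|p| + |q| + |n|) ∧ |z.2| ≤ 4 * (|p| + |q| + |n|) := by
  rintro ⟨x, y⟩ ⟨h1, h2, h3, h4, _, _⟩
  dsimp only at h1 h2 h3 h4 ⊢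
  have := abs_nonneg p
  have := abs_nonneg q
  have := abs_nonneg n
  have := le_abs_self p
  have := le_abs_self q
  have := le_abs_self n
  have := neg_abs_le p
  have := neg_abs_le q
  have := neg_abs_le n
  constructor <;> rw [abs_le] <;> constructor <;> linarith

theorem IL_LRp (a b c d : ℤ) : IL (LRp a b c d) :=
  IL_ex _ (pr_bdd a b c d) (fun x y => x.1 = 2 * a ∧ y.1 = 2 * b)

theorem IL_BTp (a b c d : ℤ) : IL (BTp a b c d) :=
  IL_ex _ (pr_bdd a b c d) (fun x y => x.2 = 2 * c ∧ y.2 = 2 * d)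

theorem IL_HT (p q n u v : ℤ) : IL (HT p q n u v) :=
  IL_ex _ (hex_bdd p q n) (fun x y => x.2 = 4 * (p - n) ∧ y.2 = 4 * (p + n) ∧
    4 * u ≤ 2 * y.1 + y.2 ∧ 2 * y.1 + y.2 ≤ 4 * v)

theorem IL_HM (p q n u v : ℤ) : IL (HM p q n u v) :=
  IL_ex _ (hex_bdd p q n) (fun x y => x.2 = 4 * (p + n) ∧ y.2 = 4 * (p - n) ∧
    4 * u ≤ 2 * y.1 + y.2 ∧ 2 * y.1 + y.2 ≤ 4 * v)

theorem IL_CT (p q n : ℤ) : IL (CT p q n) :=
  IL_ex _ (hex_bdd p q n) (fun x y => x.1 = 2 * (q - p - 2 * n) ∧ y.1 = 2 * (q - p + 2 * n))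

theorem IL_XX (p q n h : ℤ) : IL (XX p q n h) :=
  (IL_HT _ _ _ _ _).and ((IL_HT _ _ _ _ _).and ((IL_HM _ _ _ _ _).and
    ((IL_HM _ _ _ _ _).and (IL_CT _ _ _))))

theorem IL_Ann (p q t : ℤ) : IL (Ann p q t) :=
  (IL_LRp _ _ _ _).and ((IL_LRp _ _ _ _).and ((IL_BTp _ _ _ _).and (IL_BTp _ _ _ _)))

section sym

theorem adj_shift (p q : ℤ) (u v : ℤ × ℤ) (h : Adj u v) :
    Adj (u.1 + 2 * p, u.2 + 2 * q) (v.1 + 2 * p, v.2 + 2 * q) := by
  rw [adj_iff] at *; dsimp only; rcases h with h | h | h | h | h | h <;> omega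

theorem adj_reflx (u v : ℤ × ℤ) (h : Adj u v) : Adj (-u.1 - u.2, u.2) (-v.1 - v.2, v.2) := by
  rw [adj_iff] at *; dsimp only; rcases h with h | h | h | h | h | h <;> omega

theorem adj_refly (u v : ℤ × ℤ) (h : Adj u v) : Adj (u.1 + u.2, -u.2) (v.1 + v.2, -v.2) := by
  rw [adj_iff] at *; dsimp only; rcases h with h | h | h | h | h | h <;> omega

theorem adj_swap (u v : ℤ × ℤ) (h : Adj u v) : Adj (u.2, u.1) (v.2, v.1) := by
  rw [adj_iff] at *; dsimp only; rcases h with h | h | h | h | h | h <;> omega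

variable (S : Set (ℤ × ℤ))

theorem LRp_shift (a b c d p q : ℤ) :
    LRp a b c d {z | (z.1 + 2 * p, z.2 + 2 * q) ∈ S} ↔ LRp (a + p) (b + p) (c + q) (d + q) S := by
  refine ex_iff (T := fun z => (z.1 + 2 * p, z.2 + 2 * q))
    (T' := fun z => (z.1 + 2 * (-p), z.2 + 2 * (-q))) ?_ (adj_shift p q) (adj_shift (-p) (-q)) ?_ ?_ S
  · rintro ⟨x, y⟩; ext <;> dsimp only <;> ring
  · rintro ⟨x, y⟩; simp only [pr, Set.mem_ofPred_eq]; constructor <;> intro h <;> omega
  · rintro ⟨x, y⟩ ⟨x', y'⟩; dsimp only; omega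

theorem HT_shift (p q n u v a b : ℤ) :
    HT p q n u v {z | (z.1 + 2 * (b - a), z.2 + 2 * (2 * a)) ∈ S} ↔
      HT (p + a) (q + b) n (u + b) (v + b) S := by
  refine ex_iff (T := fun z => (z.1 + 2 * (b - a), z.2 + 2 * (2 * a)))
    (T' := fun z => (z.1 + 2 * (-(b - a)), z.2 + 2 * (-(2 * a)))) ?_ (adj_shift (b - a) (2 * a))
    (adj_shift (-(b - a)) (-(2 * a))) ?_ ?_ S
  · rintro ⟨x, y⟩; ext <;> dsimp only <;> ring
  · rintro ⟨x, y⟩; simp only [hex, Set.mem_ofPred_eq]; constructor <;> intro h <;> omega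
  · rintro ⟨x, y⟩ ⟨x', y'⟩; dsimp only; omega

theorem CT_shift (p q n a b : ℤ) :
    CT p q n {z | (z.1 + 2 * (b - a), z.2 + 2 * (2 * a)) ∈ S} ↔ CT (p + a) (q + b) n S := by
  refine ex_iff (T := fun z => (z.1 + 2 * (b - a), z.2 + 2 * (2 * a)))
    (T' := fun z => (z.1 + 2 * (-(b - a)), z.2 + 2 * (-(2 * a)))) ?_ (adj_shift (b - a) (2 * a))
    (adj_shift (-(b - a)) (-(2 * a))) ?_ ?_ S
  · rintro ⟨x, y⟩; ext <;> dsimp only <;> ring
  · rintro ⟨x, y⟩; simp only [hex, Set.mem_ofPred_eq]; constructor <;> intro h <;> omega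
  · rintro ⟨x, y⟩ ⟨x', y'⟩; dsimp only; omega

theorem HT_refly (p q n u v : ℤ) :
    HT p q n u v {z | (z.1 + z.2, -z.2) ∈ S} ↔ HM (-p) q n u v S := by
  refine ex_iff (T := fun z => (z.1 + z.2, -z.2)) (T' := fun z => (z.1 + z.2, -z.2)) ?_ adj_refly
    adj_refly ?_ ?_ S
  · rintro ⟨x, y⟩; ext <;> dsimp only <;> ring
  · rintro ⟨x, y⟩; simp only [hex, Set.mem_ofPred_eq]; constructor <;> intro h <;> omega
  · rintro ⟨x, y⟩ ⟨x', y'⟩; dsimp only; omega

theorem HT_reflx (p q n u v : ℤ) :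
    HT p q n u v {z | (-z.1 - z.2, z.2) ∈ S} ↔ HT p (-q) n (-v) (-u) S := by
  refine ex_iff (T := fun z => (-z.1 - z.2, z.2)) (T' := fun z => (-z.1 - z.2, z.2)) ?_ adj_reflx
    adj_reflx ?_ ?_ S
  · rintro ⟨x, y⟩; ext <;> dsimp only <;> ring
  · rintro ⟨x, y⟩; simp only [hex, Set.mem_ofPred_eq]; constructor <;> intro h <;> omega
  · rintro ⟨x, y⟩ ⟨x', y'⟩; dsimp only; omega

theorem LRp_swap (a b c d : ℤ) : LRp a b c d {z | (z.2, z.1) ∈ S} ↔ BTp c d a b S := by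
  refine ex_iff (T := fun z => (z.2, z.1)) (T' := fun z => (z.2, z.1)) ?_ adj_swap adj_swap ?_ ?_ S
  · rintro ⟨x, y⟩; rfl
  · rintro ⟨x, y⟩; simp only [pr, Set.mem_ofPred_eq]; constructor <;> intro h <;> omega
  · rintro ⟨x, y⟩ ⟨x', y'⟩; dsimp only; omega

/-- The two kinds of crossings of a hexagon. -/
theorem CT_swap (n : ℤ) : CT 0 0 n {z | (z.2, z.1) ∈ S} ↔ HT 0 0 n (-n) n S := by
  unfold CT HT
  rw [ex_iff (T := fun z => (z.2, z.1)) (T' := fun z => (z.2, z.1))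
    (R := hex 0 0 n) (R' := hex 0 0 n)
    (P := fun x y => x.1 = 2 * (0 - 0 - 2 * n) ∧ y.1 = 2 * (0 - 0 + 2 * n))
    (P' := fun x y => x.2 = 4 * (0 - n) ∧ y.2 = 4 * (0 + n)) ?_ adj_swap adj_swap ?_ ?_ S]
  · constructor
    · rintro ⟨x, y, h, h1, h2⟩
      obtain ⟨_, g1, g2, g3, g4, g5, g6⟩ := h.right_mem
      exact ⟨x, y, h, h1, h2, by omega, by omega⟩
    · rintro ⟨x, y, h, h1, h2, _, _⟩
      exact ⟨x, y, h, h1, h2⟩
  · rintro ⟨x, y⟩; rfl
  · rintro ⟨x, y⟩; simp only [hex, Set.mem_ofPred_eq]; constructor <;> intro h <;> omega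
  · rintro ⟨x, y⟩ ⟨x', y'⟩; dsimp only; omega

end sym

namespace PT

variable (P : PT)

theorem p_LRp_shift (a b c d p q : ℤ) :
    P.p (LRp (a + p) (b + p) (c + q) (d + q)) = P.p (LRp a b c d) := by
  rw [← P.shift p q _ (IL_LRp a b c d)]
  congr 1
  funext S
  exact propext (LRp_shift S a b c d p q).symm

theorem p_HT_shift (p q n u v a b : ℤ) :
    P.p (HT (p + a) (q + b) n (u + b) (v + b)) = P.p (HT p q n u v) := by
  rw [← P.shift (b - a) (2 * a) _ (IL_HT p q n u v)]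
  congr 1
  funext S
  exact propext (HT_shift S p q n u v a b).symm

theorem p_CT_shift (p q n a b : ℤ) : P.p (CT (p + a) (q + b) n) = P.p (CT p q n) := by
  rw [← P.shift (b - a) (2 * a) _ (IL_CT p q n)]
  congr 1
  funext S
  exact propext (CT_shift S p q n a b).symm

theorem p_HM (p q n u v : ℤ) : P.p (HM (-p) q n u v) = P.p (HT p q n u v) := by
  rw [← P.refly _ (IL_HT p q n u v)]
  congr 1
  funext S
  exact propext (HT_refly S p q n u v).symm

theorem p_HT_reflx (p q n u v : ℤ) : P.p (HT p (-q) n (-v) (-u)) = P.p (HT p q n u v) := by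
  rw [← P.reflx _ (IL_HT p q n u v)]
  congr 1
  funext S
  exact propext (HT_reflx S p q n u v).symm

theorem p_BTp (a b c d : ℤ) : P.p (BTp c d a b) = P.p (LRp a b c d) := by
  rw [← P.swap _ (IL_LRp a b c d)]
  congr 1
  funext S
  exact propext (LRp_swap S a b c d).symm

theorem p_CT (p q n : ℤ) : P.p (CT p q n) = P.p (HT 0 0 n (-n) n) := by
  have h1 := P.p_CT_shift 0 0 n p q
  rw [zero_add, zero_add] at h1
  rw [h1, ← P.swap _ (IL_CT 0 0 n)]
  congr 1
  funext S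
  exact propext (CT_swap S n)

end PT

end Vale.Agent.P153.F.RSW
end

section

/-!
Interfaces on the triangular lattice: following the boundary between a set `S` and its complement.
A position on the interface is a pair `(r, b)` of adjacent vertices, `r ∈ S`, `b ∉ S`.
-/

namespace Vale.Agent.P153.Topo

open Vale.Agent.P153 Classical

/-- The common neighbour of `e.1` and `e.2` on the left of the edge from `e.1` to `e.2`. -/
def lv (e : (ℤ × ℤ) × (ℤ × ℤ)) : ℤ × ℤ :=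
  (e.1.1 - (e.2.2 - e.1.2), e.1.2 + (e.2.1 - e.1.1) + (e.2.2 - e.1.2))

/-- The common neighbour of `e.1` and `e.2` on the right of the edge from `e.1` to `e.2`. -/
def rv (e : (ℤ × ℤ) × (ℤ × ℤ)) : ℤ × ℤ :=
  (e.1.1 + (e.2.1 - e.1.1) + (e.2.2 - e.1.2), e.1.2 - (e.2.1 - e.1.1))

/-- The positions on the interface of `S`. -/
def Pos (S : Set (ℤ × ℤ)) : Set ((ℤ × ℤ) × (ℤ × ℤ)) := {e | Adj e.1 e.2 ∧ e.1 ∈ S ∧ e.2 ∉ S}

/-- The next position on the interface. -/
noncomputable def nxt (S : Set (ℤ × ℤ)) (e : (ℤ × ℤ) × (ℤ × ℤ)) : (ℤ × ℤ) × (ℤ × ℤ) :=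
  if lv e ∈ S then (lv e, e.2) else (e.1, lv e)

/-- The previous position on the interface. -/
noncomputable def prv (S : Set (ℤ × ℤ)) (e : (ℤ × ℤ) × (ℤ × ℤ)) : (ℤ × ℤ) × (ℤ × ℤ) :=
  if rv e ∈ S then (rv e, e.2) else (e.1, rv e)

theorem adj_lv_left {e : (ℤ × ℤ) × (ℤ × ℤ)} (h : Adj e.1 e.2) : Adj e.1 (lv e) := by
  rw [adj_iff] at h ⊢
  simp only [lv]
  rcases h with h | h | h | h | h | h
  · exact Or.inr (Or.inr (Or.inl ⟨by omega, by omega⟩))
  · exact Or.inr (Or.inr (Or.inr (Or.inl ⟨by omega, by omega⟩)))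
  · exact Or.inr (Or.inr (Or.inr (Or.inr (Or.inr ⟨by omega, by omega⟩))))
  · exact Or.inr (Or.inr (Or.inr (Or.inr (Or.inl ⟨by omega, by omega⟩))))
  · exact Or.inl ⟨by omega, by omega⟩
  · exact Or.inr (Or.inl ⟨by omega, by omega⟩)

theorem adj_lv_right {e : (ℤ × ℤ) × (ℤ × ℤ)} (h : Adj e.1 e.2) : Adj (lv e) e.2 := by
  rw [adj_iff] at h ⊢
  simp only [lv]
  rcases h with h | h | h | h | h | h
  · exact Or.inr (Or.inr (Or.inr (Or.inr (Or.inl ⟨by omega, by omega⟩))))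
  · exact Or.inr (Or.inr (Or.inr (Or.inr (Or.inr ⟨by omega, by omega⟩))))
  · exact Or.inl ⟨by omega, by omega⟩
  · exact Or.inr (Or.inl ⟨by omega, by omega⟩)
  · exact Or.inr (Or.inr (Or.inr (Or.inl ⟨by omega, by omega⟩)))
  · exact Or.inr (Or.inr (Or.inl ⟨by omega, by omega⟩))

theorem rv_lv_left {e : (ℤ × ℤ) × (ℤ × ℤ)} : rv (lv e, e.2) = e.1 := by
  obtain ⟨⟨a, b⟩, ⟨c, d⟩⟩ := e
  simp only [rv, lv, Prod.mk.injEq]
  constructor <;> ring

theorem rv_lv_right {e : (ℤ × ℤ) × (ℤ × ℤ)} : rv (e.1, lv e) = e.2 := by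
  obtain ⟨⟨a, b⟩, ⟨c, d⟩⟩ := e
  simp only [rv, lv, Prod.mk.injEq]
  constructor <;> ring

theorem nxt_mem {S : Set (ℤ × ℤ)} {e : (ℤ × ℤ) × (ℤ × ℤ)} (h : e ∈ Pos S) : nxt S e ∈ Pos S := by
  obtain ⟨h1, h2, h3⟩ := h
  unfold nxt
  split_ifs with hl
  · exact ⟨adj_lv_right h1, hl, h3⟩
  · exact ⟨adj_lv_left h1, h2, hl⟩

theorem prv_nxt {S : Set (ℤ × ℤ)} {e : (ℤ × ℤ) × (ℤ × ℤ)} (h : e ∈ Pos S) :
    prv S (nxt S e) = e := by
  obtain ⟨h1, h2, h3⟩ := h
  unfold nxt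
  split_ifs with hl
  · unfold prv
    rw [rv_lv_left, if_pos h2]
  · unfold prv
    rw [rv_lv_right, if_neg h3]

/-- The position after `k` steps along the interface from `e`. -/
noncomputable def pos (S : Set (ℤ × ℤ)) (e : (ℤ × ℤ) × (ℤ × ℤ)) (k : ℕ) : (ℤ × ℤ) × (ℤ × ℤ) :=
  (nxt S)^[k] e

theorem pos_zero (S : Set (ℤ × ℤ)) (e : (ℤ × ℤ) × (ℤ × ℤ)) : pos S e 0 = e := rfl

theorem pos_succ (S : Set (ℤ × ℤ)) (e : (ℤ × ℤ) × (ℤ × ℤ)) (k : ℕ) :
    pos S e (k + 1) = nxt S (pos S e k) := Function.iterate_succ_apply' _ _ _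

theorem pos_mem {S : Set (ℤ × ℤ)} {e : (ℤ × ℤ) × (ℤ × ℤ)} (h : e ∈ Pos S) (k : ℕ) :
    pos S e k ∈ Pos S := by
  induction k with
  | zero => exact h
  | succ k ih => rw [pos_succ]; exact nxt_mem ih

theorem pos_inj_step {S : Set (ℤ × ℤ)} {e : (ℤ × ℤ) × (ℤ × ℤ)} (h : e ∈ Pos S) (i j : ℕ)
    (hij : pos S e (i + 1) = pos S e (j + 1)) : pos S e i = pos S e j := by
  rw [pos_succ, pos_succ] at hij
  rw [← prv_nxt (pos_mem h i), hij, prv_nxt (pos_mem h j)]

theorem pos_return {S : Set (ℤ × ℤ)} {e : (ℤ × ℤ) × (ℤ × ℤ)} (h : e ∈ Pos S) (i j : ℕ)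
    (hij : pos S e i = pos S e (i + j)) : pos S e 0 = pos S e j := by
  induction i with
  | zero => simpa using hij
  | succ i ih =>
    apply ih
    apply pos_inj_step h
    rw [hij]
    congr 1
    omega

/-- **Exit lemma.** The interface which enters a finite set of positions has to leave it. -/
theorem exists_exit {S : Set (ℤ × ℤ)} {W : Set ((ℤ × ℤ) × (ℤ × ℤ))} (hW : W.Finite)
    {e : (ℤ × ℤ) × (ℤ × ℤ)} (h : e ∈ Pos S) (h0 : e ∈ W) (hp : prv S e ∉ W) :
    ∃ k, (∀ i ≤ k, pos S e i ∈ W) ∧ pos S e (k + 1) ∉ W := by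
  have hex : ∃ n, pos S e n ∉ W := by
    by_contra hall
    push Not at hall
    have hfin : Finite W := hW
    obtain ⟨i, j, hij, hE⟩ := Finite.exists_ne_map_eq_of_infinite
      (fun n : ℕ => (⟨pos S e n, hall n⟩ : W))
    simp only [Subtype.mk.injEq] at hE
    have main : ∀ i j : ℕ, i < j → pos S e i = pos S e j → False := by
      intro i j hij hE
      obtain ⟨m, rfl⟩ := Nat.exists_eq_add_of_lt hij
      have h1 := pos_return h i (m + 1) (by rw [hE]; rfl)
      rw [pos_zero, pos_succ] at h1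
      apply hp
      have h2 : prv S e = pos S e m := by
        have := prv_nxt (pos_mem h m)
        rw [← h1] at this
        exact this
      rw [h2]
      exact hall m
    rcases lt_or_gt_of_ne hij with h' | h'
    · exact main i j h' hE
    · exact main j i h' hE.symm
  have hn := Nat.find_spec hex
  have hpos : Nat.find hex ≠ 0 := by
    intro h1
    rw [h1] at hn
    exact hn h0
  obtain ⟨k, hk⟩ := Nat.exists_eq_succ_of_ne_zero hpos
  refine ⟨k, ?_, ?_⟩
  · intro i hi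
    by_contra hcon
    have := Nat.find_min' hex hcon
    omega
  · have := hn
    rw [hk] at this
    exact this

/-- The vertices of `S` met by the interface are connected. -/
theorem conn_fst {S T : Set (ℤ × ℤ)} {e : (ℤ × ℤ) × (ℤ × ℤ)} (h : e ∈ Pos S) (k : ℕ)
    (hT : ∀ i ≤ k, (pos S e i).1 ∈ T) : Conn (S ∩ T) e.1 (pos S e k).1 := by
  induction k with
  | zero => exact Conn.refl ⟨h.2.1, hT 0 le_rfl⟩
  | succ k ih =>
    have h1 := ih fun i hi => hT i (by omega)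
    have h2 := hT (k + 1) le_rfl
    have h3 := pos_mem h k
    rw [pos_succ] at h2 ⊢
    unfold nxt at h2 ⊢
    split_ifs at h2 ⊢ with hl
    · exact h1.tail (adj_lv_left h3.1) ⟨hl, h2⟩
    · exact h1

/-- The vertices off `S` met by the interface are connected. -/
theorem conn_snd {S T : Set (ℤ × ℤ)} {e : (ℤ × ℤ) × (ℤ × ℤ)} (h : e ∈ Pos S) (k : ℕ)
    (hT : ∀ i ≤ k, (pos S e i).2 ∈ T) : Conn (Sᶜ ∩ T) e.2 (pos S e k).2 := by
  induction k with
  | zero => exact Conn.refl ⟨h.2.2, hT 0 le_rfl⟩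
  | succ k ih =>
    have h1 := ih fun i hi => hT i (by omega)
    have h2 := hT (k + 1) le_rfl
    have h3 := pos_mem h k
    rw [pos_succ] at h2 ⊢
    unfold nxt at h2 ⊢
    split_ifs at h2 ⊢ with hl
    · exact h1
    · exact h1.tail (adj_symm (adj_lv_right h3.1)) ⟨hl, h2⟩

end Vale.Agent.P153.Topo
end

section

/-!
The Hex lemma in a parallelogram.
-/

namespace Vale.Agent.P153.Topo

open Vale.Agent.P153 Classical

/-- The last visit of a path outside `R`. -/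
theorem Conn.last {T R : Set (ℤ × ℤ)} {x y : ℤ × ℤ} (h : Conn T x y) (hx : x ∉ R)
    (hy : y ∈ R) : ∃ u v, Conn T x u ∧ u ∉ R ∧ Adj u v ∧ Conn (T ∩ R) v y := by
  revert hy
  refine Conn.ind (S := T) (fun y => y ∈ R →
    ∃ u v, Conn T x u ∧ u ∉ R ∧ Adj u v ∧ Conn (T ∩ R) v y) (fun hx' => absurd hx' hx) ?_ h
  intro y y' hy hyy' hy' ih hR
  by_cases hyR : y ∈ R
  · obtain ⟨u, v, h1, h2, h3, h4⟩ := ih hyR
    exact ⟨u, v, h1, h2, h3, h4.tail hyy' ⟨hy', hR⟩⟩
  · exact ⟨y, y', hy, hyR, hyy', Conn.refl ⟨hy', hR⟩⟩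

/-- The parallelogram `[a, b] × [c, d]`. -/
def Rect (a b c d : ℤ) : Set (ℤ × ℤ) := {z | a ≤ z.1 ∧ z.1 ≤ b ∧ c ≤ z.2 ∧ z.2 ≤ d}

theorem mem_rect {a b c d : ℤ} {z : ℤ × ℤ} :
    z ∈ Rect a b c d ↔ a ≤ z.1 ∧ z.1 ≤ b ∧ c ≤ z.2 ∧ z.2 ≤ d := Iff.rfl

theorem rect_finite (a b c d : ℤ) : (Rect a b c d).Finite := by
  have : Rect a b c d = (Finset.Icc a b ×ˢ Finset.Icc c d : Finset (ℤ × ℤ)) := by
    ext z
    simp only [mem_rect, Finset.coe_product, Finset.coe_Icc, Set.mem_prod, Set.mem_Icc]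
    (clear * -; tauto)
  rw [this]
  exact Finset.finite_toSet _

/-- `S` joins the left side to the right side of the parallelogram. -/
def LR (a b c d : ℤ) (S : Set (ℤ × ℤ)) : Prop :=
  ∃ x y, Conn (S ∩ Rect a b c d) x y ∧ x.1 = a ∧ y.1 = b

/-- `S` joins the bottom to the top of the parallelogram. -/
def BT (a b c d : ℤ) (S : Set (ℤ × ℤ)) : Prop :=
  ∃ x y, Conn (S ∩ Rect a b c d) x y ∧ x.2 = c ∧ y.2 = d

/-- **Hex lemma**: in a parallelogram either `S` joins left to right or the complement of `S`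
joins bottom to top. -/
theorem hex (S : Set (ℤ × ℤ)) {a b c d : ℤ} (hab : a ≤ b) (hcd : c ≤ d) :
    LR a b c d S ∨ BT a b c d Sᶜ := by
  set S' : Set (ℤ × ℤ) := {z | z.1 < a ∨ (z ∈ S ∧ z ∈ Rect a b c d)} with hS'
  set X1 : Set (ℤ × ℤ) := Rect (a - 1) (b - 1) c d with hX1
  set X2 : Set (ℤ × ℤ) := Rect a b (c - 1) (d - 1) with hX2
  set W : Set ((ℤ × ℤ) × (ℤ × ℤ)) := X1 ×ˢ X2 with hW
  have hWf : W.Finite := (rect_finite _ _ _ _).prod (rect_finite _ _ _ _)
  set e : (ℤ × ℤ) × (ℤ × ℤ) := ((a - 1, c), (a, c - 1)) with he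
  have hePos : e ∈ Pos S' := by
    refine ⟨?_, ?_, ?_⟩
    · rw [adj_iff]
      simp only [he]
      right; right; right; right; left
      exact ⟨by ring, trivial⟩
    · left
      simp only [he]
      omega
    · rintro (h | ⟨-, h⟩)
      · simp only [he] at h
        omega
      · rw [mem_rect] at h
        simp only [he] at h
        omega
  have heW : e ∈ W := by
    simp only [hW, Set.mem_prod, hX1, hX2, mem_rect, he]
    omega
  have hprv : prv S' e ∉ W := by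
    have h1 : rv e = (a - 1, c - 1) := by
      simp only [rv, he, Prod.mk.injEq]
      constructor <;> ring
    have h2 : rv e ∈ S' := by
      rw [h1]
      left
      simp only
      omega
    unfold prv
    rw [if_pos h2, h1]
    simp only [hW, Set.mem_prod, hX1, mem_rect]
    omega
  obtain ⟨k, hk, hk'⟩ := exists_exit hWf hePos heW hprv
  have hkW := hk k le_rfl
  have hkP := pos_mem hePos k
  have hred := conn_fst (T := X1) hePos k fun i hi => (hk i hi).1
  have hblue := conn_snd (T := X2) hePos k fun i hi => (hk i hi).2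
  rw [pos_succ] at hk'
  set p := pos S' e k with hp
  obtain ⟨⟨r1, r2⟩, ⟨b1, b2⟩⟩ := p
  obtain ⟨hpA, hpr, hpb⟩ := hkP
  dsimp only at hpA hpr hpb hred hblue
  obtain ⟨hkr, hkb⟩ := hkW
  rw [hX1, mem_rect] at hkr
  rw [hX2, mem_rect] at hkb
  dsimp only at hkr hkb
  unfold nxt at hk'
  split_ifs at hk' with hL
  · -- red exit
    left
    have hL1 : lv ((r1, r2), (b1, b2)) ∈ Rect a b c d ∧ lv ((r1, r2), (b1, b2)) ∈ S ∧
        (lv ((r1, r2), (b1, b2))).1 = b := by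
      have hnot : lv ((r1, r2), (b1, b2)) ∉ X1 := by
        intro h
        exact hk' ⟨h, by rw [hX2, mem_rect]; exact hkb⟩
      rw [hX1, mem_rect] at hnot
      have hpA' := hpA
      rw [adj_iff] at hpA'
      rcases hL with hL | ⟨hL, hL'⟩
      · exfalso
        simp only [lv] at hnot hL
        dsimp only at hpA'
        omega
      · refine ⟨hL', hL, ?_⟩
        rw [mem_rect] at hL'
        simp only [lv] at hnot hL' ⊢
        (clear * - hkr hkb hnot hpA' hL'; omega)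
    obtain ⟨hLR, hLS, hLb⟩ := hL1
    have hc : Conn (S' ∩ (X1 ∪ {lv ((r1, r2), (b1, b2))})) e.1 (lv ((r1, r2), (b1, b2))) := by
      refine (hred.mono ?_).tail (adj_lv_left (e := ((r1, r2), (b1, b2))) hpA) ?_
      · exact Set.inter_subset_inter_right _ Set.subset_union_left
      · exact ⟨Or.inr ⟨hLS, hLR⟩, Or.inr rfl⟩
    obtain ⟨u, v, h1, h2, h3, h4⟩ := Conn.last (R := Rect a b c d) hc (by
      rw [mem_rect]; simp only [he]; omega) hLR
    refine ⟨v, lv ((r1, r2), (b1, b2)), h4.mono ?_, ?_, hLb⟩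
    · rintro z ⟨⟨hz, -⟩, hz'⟩
      rcases hz with hz | hz
      · rw [mem_rect] at hz'
        omega
      · exact hz
    · have hu := h1.right_mem
      obtain ⟨hu1, hu2⟩ := hu
      have hv := h4.left_mem.2
      rw [mem_rect] at h2 hv
      rw [adj_iff] at h3
      rcases hu1 with hu1 | ⟨-, hu1⟩
      · omega
      · exact absurd hu1 h2
  · -- blue exit
    right
    have hpA' := hpA
    rw [adj_iff] at hpA'
    have hL0 : ¬ ((lv ((r1, r2), (b1, b2))).1 < a) := fun h => hL (Or.inl h)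
    have hnot : lv ((r1, r2), (b1, b2)) ∉ X2 := by
      intro h
      exact hk' ⟨by rw [hX1, mem_rect]; exact hkr, h⟩
    have hLR : lv ((r1, r2), (b1, b2)) ∈ Rect a b c d ∧ (lv ((r1, r2), (b1, b2))).2 = d := by
      rw [hX2, mem_rect] at hnot
      rw [mem_rect]
      simp only [lv] at hnot hL0 ⊢
      dsimp only at hpA'
      omega
    obtain ⟨hLR, hLd⟩ := hLR
    have hc : Conn (S'ᶜ ∩ (X2 ∪ {lv ((r1, r2), (b1, b2))})) e.2 (lv ((r1, r2), (b1, b2))) := by
      refine (hblue.mono ?_).tail (adj_symm (adj_lv_right (e := ((r1, r2), (b1, b2))) hpA)) ?_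
      · exact Set.inter_subset_inter_right _ Set.subset_union_left
      · exact ⟨hL, Or.inr rfl⟩
    obtain ⟨u, v, h1, h2, h3, h4⟩ := Conn.last (R := Rect a b c d) hc (by
      rw [mem_rect]; simp only [he]; omega) hLR
    refine ⟨v, lv ((r1, r2), (b1, b2)), h4.mono ?_, ?_, hLd⟩
    · rintro z ⟨⟨hz, -⟩, hz'⟩
      exact ⟨fun hzS => hz (Or.inr ⟨hzS, hz'⟩), hz'⟩
    · have hu := h1.right_mem
      obtain ⟨hu1, hu2⟩ := hu
      have hv := h4.left_mem.2
      have hu3 : ¬ (u.1 < a) := fun h => hu1 (Or.inl h)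
      rw [mem_rect] at h2 hv
      rw [adj_iff] at h3
      rcases hu2 with hu2 | hu2
      · rw [hX2, mem_rect] at hu2
        (clear * - hLd h2 h3 hv hu3 hu2; omega)
      · rw [Set.mem_singleton_iff] at hu2
        rw [hu2] at h2
        rw [mem_rect] at hLR
        omega

end Vale.Agent.P153.Topo
end

section

/-!
# P153, block F-B: deterministic geometry of crossings (the structure `Geo`)
-/

namespace Vale.Agent.P153.F.RSW

open Vale.Agent.P153 Vale.Agent.P153.Topo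

theorem mem_pr {a b c d : ℤ} {z : ℤ × ℤ} :
    z ∈ pr a b c d ↔ 2 * a ≤ z.1 ∧ z.1 ≤ 2 * b ∧ 2 * c ≤ z.2 ∧ z.2 ≤ 2 * d := Iff.rfl

theorem mem_hex {p q n : ℤ} {z : ℤ × ℤ} : z ∈ hex p q n ↔
    4 * (p - n) ≤ z.2 ∧ z.2 ≤ 4 * (p + n) ∧
    2 * (q - p - 2 * n) ≤ z.1 ∧ z.1 ≤ 2 * (q - p + 2 * n) ∧
    2 * (q + p - 2 * n) ≤ z.1 + z.2 ∧ z.1 + z.2 ≤ 2 * (q + p + 2 * n) := Iff.rfl

theorem pr_mono {a b c d a' b' c' d' : ℤ} (h1 : a' ≤ a) (h2 : b ≤ b') (h3 : c' ≤ c) (h4 : d ≤ d') :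
    pr a b c d ⊆ pr a' b' c' d' := by
  intro z hz
  rw [mem_pr] at hz ⊢
  omega

/-- The path stays in the cluster of its starting point. -/
theorem c_cluster {S : Set (ℤ × ℤ)} {x y : ℤ × ℤ} (h : Conn S x y) :
    Conn {z | Conn S x z} x y :=
  Conn.ind (fun z => Conn {z | Conn S x z} x z) (Conn.refl (Conn.refl h.1))
    (fun _ _ hu huv hv ih => ih.tail huv (hu.tail huv hv)) h

theorem c_map {S T : Set (ℤ × ℤ)} {f : ℤ × ℤ → ℤ × ℤ} (hf : ∀ u v, Adj u v → Adj (f u) (f v))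
    (hST : ∀ z ∈ S, f z ∈ T) {x y : ℤ × ℤ} (h : Conn S x y) : Conn T (f x) (f y) :=
  Conn.ind (fun z => Conn T (f x) (f z)) (Conn.refl (hST x h.1))
    (fun u v _ huv hv ih => ih.tail (hf u v huv) (hST v hv)) h

theorem adj_neg (u v : ℤ × ℤ) (h : Adj u v) : Adj (-u.1, -u.2) (-v.1, -v.2) := by
  rw [adj_iff] at h ⊢
  simp only
  rcases h with h | h | h | h | h | h <;> omega

/-- Two paths of `S ∩ A` and `S ∩ B` which meet, inside a larger set. -/
theorem c_join {S A B C : Set (ℤ × ℤ)} {x y z : ℤ × ℤ} (hA : A ⊆ C) (hB : B ⊆ C)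
    (h1 : Conn (S ∩ A) x z) (h2 : Conn (S ∩ B) y z) : Conn (S ∩ C) x y :=
  (h1.mono (Set.inter_subset_inter_right S hA)).trans
    (h2.mono (Set.inter_subset_inter_right S hB)).symm

/-- A crossing from the left to the right and a crossing from the bottom to the top meet. -/
theorem ccross {S T : Set (ℤ × ℤ)} {a b c d : ℤ} (hS : S ⊆ Rect a b c d) (hT : T ⊆ Rect a b c d)
    {x x' y y' : ℤ × ℤ} (hx : Conn S x x') (hxa : x.1 = a) (hxb : x'.1 = b)
    (hy : Conn T y y') (hyc : y.2 = c) (hyd : y'.2 = d) : ∃ z, Conn S x z ∧ Conn T y z :=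
  cross (A := {z | Conn S x z}) (B := {z | Conn T y z}) (fun z hz => hS hz.right_mem)
    (fun z hz => hT hz.right_mem) (c_cluster hx) hxa hxb (c_cluster hy) hyc hyd

/-- **Landing lemma (right).** -/
theorem landR {S T : Set (ℤ × ℤ)} {a b c d : ℤ} (hS : S ⊆ Rect a b c d) (hT : T ⊆ Rect a b c d)
    {x x' y y' : ℤ × ℤ} (hx : Conn S x x') (hxa : x.1 = a) (hxb : x'.1 = b)
    (hy : Conn T y y') (hyb : y.1 = b) (hyb' : y'.1 = b) (h1 : y.2 ≤ x'.2) (h2 : x'.2 ≤ y'.2) :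
    ∃ z, Conn S x z ∧ Conn T y z := by
  have hxr := hS hx.left_mem
  have hxr' := hS hx.right_mem
  have hyr := hT hy.left_mem
  have hyr' := hT hy.right_mem
  rw [mem_rect] at hxr hxr' hyr hyr'
  set A : Set (ℤ × ℤ) := insert (b + 1, x'.2) {z | Conn S x z} with hA
  set B : Set (ℤ × ℤ) := {z | Conn T y z} ∪
    {z | z.1 = b + 1 ∧ c ≤ z.2 ∧ z.2 ≤ d ∧ (z.2 ≤ y.2 ∨ y'.2 ≤ z.2)} with hB
  have hAc : Conn A x (b + 1, x'.2) := by
    refine ((c_cluster hx).mono (Set.subset_insert _ _)).tail ?_ (Set.mem_insert _ _)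
    rw [adj_iff]
    left
    exact ⟨by rw [hxb], rfl⟩
  have hBc : Conn B (b + 1, c) (b + 1, d) := by
    have e1 : Conn B (b + 1, c) (b + 1, y.2) := conn_col (fun j hj1 hj2 => Or.inr ⟨rfl, by omega,
      by omega, Or.inl (by omega)⟩)
    have e2 : Conn B (b + 1, y.2) y := by
      refine Conn.of_adj (Or.inr ⟨rfl, by omega, by omega, Or.inl le_rfl⟩) (Or.inl (Conn.refl hy.1)) ?_
      rw [adj_iff]
      right; left
      exact ⟨by rw [hyb]; ring, rfl⟩
    have e3 : Conn B y y' := (c_cluster hy).mono Set.subset_union_left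
    have e4 : Conn B y' (b + 1, y'.2) := by
      refine Conn.of_adj (Or.inl hy) (Or.inr ⟨rfl, by omega, by omega, Or.inr le_rfl⟩) ?_
      rw [adj_iff]
      left
      exact ⟨by rw [hyb'], rfl⟩
    have e5 : Conn B (b + 1, y'.2) (b + 1, d) := conn_col (fun j hj1 hj2 => Or.inr ⟨rfl, by omega,
      by omega, Or.inr (by omega)⟩)
    exact (((e1.trans e2).trans e3).trans e4).trans e5
  obtain ⟨z, hzA, hzB⟩ := cross (A := A) (B := B) (a := a) (b := b + 1) (c := c) (d := d)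
    (by
      rintro z (rfl | hz)
      · exact ⟨by simp only; omega, by simp only; omega, by simp only; omega, by simp only; omega⟩
      · have := hS hz.right_mem
        rw [mem_rect] at this
        omega)
    (by
      rintro z (hz | hz)
      · have := hT hz.right_mem
        rw [mem_rect] at this
        omega
      · obtain ⟨h3, h4, h5, _⟩ := hz
        omega)
    hAc hxa rfl hBc rfl rfl
  rcases hzA with rfl | hzA
  · rcases hzB with hzB | hzB
    · have := hT hzB.right_mem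
      rw [mem_rect] at this
      simp only at this
      omega
    · obtain ⟨_, _, _, h6 | h6⟩ := hzB
      · have h7 : x' = y := Prod.ext (by rw [hxb, hyb]) (le_antisymm h6 h1)
        exact ⟨x', hx, by rw [h7]; exact Conn.refl hy.1⟩
      · have h7 : x' = y' := Prod.ext (by rw [hxb, hyb']) (le_antisymm h2 h6)
        exact ⟨x', hx, by rw [h7]; exact hy⟩
  · rcases hzB with hzB | hzB
    · exact ⟨z, hzA, hzB⟩
    · have h3 := hS hzA.right_mem
      rw [mem_rect] at h3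
      have := hzB.1
      omega

/-- **Interlacing lemma.** Two paths between the vertical sides of a strip, the second one below
the first one on the left and above it on the right, meet. -/
theorem interlace {S T : Set (ℤ × ℤ)} {a b c d : ℤ} (hS : S ⊆ Rect a b c d) (hT : T ⊆ Rect a b c d)
    {x x' y y' : ℤ × ℤ} (hx : Conn S x x') (hxa : x.1 = a) (hxb : x'.1 = b)
    (hy : Conn T y y') (hya : y.1 = a) (hyb : y'.1 = b) (h1 : y.2 ≤ x.2) (h2 : x'.2 ≤ y'.2) :
    ∃ z, Conn S x z ∧ Conn T y z := by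
  have hxr := hS hx.left_mem
  have hxr' := hS hx.right_mem
  have hyr := hT hy.left_mem
  have hyr' := hT hy.right_mem
  rw [mem_rect] at hxr hxr' hyr hyr'
  set A : Set (ℤ × ℤ) := {z | Conn S x z} ∪ {(a - 1, x.2), (b + 1, x'.2)} with hA
  set B : Set (ℤ × ℤ) := {z | Conn T y z} ∪
    ({z | z.1 = a - 1 ∧ c ≤ z.2 ∧ z.2 ≤ y.2} ∪ {z | z.1 = b + 1 ∧ y'.2 ≤ z.2 ∧ z.2 ≤ d}) with hB
  have hAc : Conn A (a - 1, x.2) (b + 1, x'.2) := by
    have e1 : Conn A (a - 1, x.2) x := by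
      refine Conn.of_adj (Or.inr (Or.inl rfl)) (Or.inl (Conn.refl hx.1)) ?_
      rw [adj_iff]
      left
      exact ⟨by simp only; omega, rfl⟩
    have e2 : Conn A x x' := (c_cluster hx).mono Set.subset_union_left
    have e3 : Conn A x' (b + 1, x'.2) := by
      refine Conn.of_adj (Or.inl hx) (Or.inr (Or.inr rfl)) ?_
      rw [adj_iff]
      left
      exact ⟨by simp only; omega, rfl⟩
    exact (e1.trans e2).trans e3
  have hBc : Conn B (a - 1, c) (b + 1, d) := by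
    have e1 : Conn B (a - 1, c) (a - 1, y.2) := conn_col (fun j hj1 hj2 =>
      Or.inr (Or.inl ⟨rfl, by omega, by omega⟩))
    have e2 : Conn B (a - 1, y.2) y := by
      refine Conn.of_adj (Or.inr (Or.inl ⟨rfl, by omega, le_rfl⟩)) (Or.inl (Conn.refl hy.1)) ?_
      rw [adj_iff]
      left
      exact ⟨by simp only; omega, rfl⟩
    have e3 : Conn B y y' := (c_cluster hy).mono Set.subset_union_left
    have e4 : Conn B y' (b + 1, y'.2) := by
      refine Conn.of_adj (Or.inl hy) (Or.inr (Or.inr ⟨rfl, le_rfl, by omega⟩)) ?_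
      rw [adj_iff]
      left
      exact ⟨by simp only; omega, rfl⟩
    have e5 : Conn B (b + 1, y'.2) (b + 1, d) := conn_col (fun j hj1 hj2 =>
      Or.inr (Or.inr ⟨rfl, by omega, by omega⟩))
    exact (((e1.trans e2).trans e3).trans e4).trans e5
  obtain ⟨z, hzA, hzB⟩ := cross (A := A) (B := B) (a := a - 1) (b := b + 1) (c := c) (d := d)
    (by
      rintro z (hz | rfl | rfl)
      · have := hS hz.right_mem
        rw [mem_rect] at this
        omega
      · exact ⟨le_rfl, by simp only; omega, by simp only; omega, by simp only; omega⟩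
      · exact ⟨by simp only; omega, le_rfl, by simp only; omega, by simp only; omega⟩)
    (by
      rintro z (hz | hz | hz)
      · have := hT hz.right_mem
        rw [mem_rect] at this
        omega
      · obtain ⟨h3, h4, h5⟩ := hz
        omega
      · obtain ⟨h3, h4, h5⟩ := hz
        omega)
    hAc rfl rfl hBc rfl rfl
  have hTz : ∀ {w : ℤ × ℤ}, Conn T y w → a ≤ w.1 ∧ w.1 ≤ b := fun hw => by
    have := hT hw.right_mem
    rw [mem_rect] at this
    omega
  rcases hzA with hzA | rfl | rfl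
  · rcases hzB with hzB | hzB | hzB
    · exact ⟨z, hzA, hzB⟩
    · have h3 := hS hzA.right_mem
      rw [mem_rect] at h3
      have := hzB.1
      omega
    · have h3 := hS hzA.right_mem
      rw [mem_rect] at h3
      have := hzB.1
      omega
  · rcases hzB with hzB | hzB | hzB
    · have := hTz hzB
      simp only at this
      omega
    · have h6 := hzB.2.2
      have h7 : x = y := Prod.ext (by rw [hxa, hya]) (le_antisymm h6 h1)
      exact ⟨x, Conn.refl hx.1, by rw [h7]; exact Conn.refl hy.1⟩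
    · have := hzB.1
      simp only at this
      omega
  · rcases hzB with hzB | hzB | hzB
    · have := hTz hzB
      simp only at this
      omega
    · have := hzB.1
      simp only at this
      omega
    · have h6 := hzB.2.1
      have h7 : x' = y' := Prod.ext (by rw [hxb, hyb]) (le_antisymm h2 h6)
      exact ⟨x', hx, by rw [h7]; exact hy⟩

/-- **Landing lemma (top).** -/
theorem landT {S T : Set (ℤ × ℤ)} {a b c d : ℤ} (hS : S ⊆ Rect a b c d) (hT : T ⊆ Rect a b c d)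
    {x x' y y' : ℤ × ℤ} (hx : Conn S x x') (hxc : x.2 = c) (hxd : x'.2 = d)
    (hy : Conn T y y') (hyd : y.2 = d) (hyd' : y'.2 = d) (h1 : y.1 ≤ x'.1) (h2 : x'.1 ≤ y'.1) :
    ∃ z, Conn S x z ∧ Conn T y z := by
  obtain ⟨z, hz1, hz2⟩ := landR (S := {z | (z.2, z.1) ∈ S}) (T := {z | (z.2, z.1) ∈ T})
    (a := c) (b := d) (c := a) (d := b) (x := (x.2, x.1)) (x' := (x'.2, x'.1)) (y := (y.2, y.1))
    (y' := (y'.2, y'.1))
    (fun z hz => by
      have := hS hz
      rw [mem_rect] at this ⊢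
      simp only at this
      omega)
    (fun z hz => by
      have := hT hz
      rw [mem_rect] at this ⊢
      simp only at this
      omega)
    (c_map adj_swap (fun z hz => hz) hx) hxc hxd (c_map adj_swap (fun z hz => hz) hy) hyd hyd' h1 h2
  exact ⟨(z.2, z.1), c_map (T := S) adj_swap (fun z hz => hz) hz1,
    c_map (T := T) adj_swap (fun z hz => hz) hz2⟩

/-- **Landing lemma (bottom).** -/
theorem landB {S T : Set (ℤ × ℤ)} {a b c d : ℤ} (hS : S ⊆ Rect a b c d) (hT : T ⊆ Rect a b c d)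
    {x x' y y' : ℤ × ℤ} (hx : Conn S x x') (hxd : x.2 = d) (hxc : x'.2 = c)
    (hy : Conn T y y') (hyc : y.2 = c) (hyc' : y'.2 = c) (h1 : y.1 ≤ x'.1) (h2 : x'.1 ≤ y'.1) :
    ∃ z, Conn S x z ∧ Conn T y z := by
  have nn : ∀ z : ℤ × ℤ, ((- -z.1, - -z.2) : ℤ × ℤ) = z := fun z => by simp
  obtain ⟨z, hz1, hz2⟩ := landT (S := {z | (-z.1, -z.2) ∈ S}) (T := {z | (-z.1, -z.2) ∈ T})
    (a := -b) (b := -a) (c := -d) (d := -c) (x := (-x.1, -x.2)) (x' := (-x'.1, -x'.2))
    (y := (-y'.1, -y'.2)) (y' := (-y.1, -y.2))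
    (fun z hz => by
      have := hS hz
      rw [mem_rect] at this ⊢
      simp only at this
      omega)
    (fun z hz => by
      have := hT hz
      rw [mem_rect] at this ⊢
      simp only at this
      omega)
    (c_map adj_neg (fun z hz => by
      show ((- -z.1, - -z.2) : ℤ × ℤ) ∈ S
      rw [nn]; exact hz) hx) (by simp only; omega) (by simp only; omega)
    (c_map adj_neg (fun z hz => by
      show ((- -z.1, - -z.2) : ℤ × ℤ) ∈ T
      rw [nn]; exact hz) hy.symm) (by simp only; omega) (by simp only; omega)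
    (by simp only; omega) (by simp only; omega)
  have k1 := c_map (T := S) adj_neg (fun z hz => hz) hz1
  have k2 := c_map (T := T) adj_neg (fun z hz => hz) hz2
  simp only [nn] at k1 k2
  exact ⟨(-z.1, -z.2), k1, hy.trans k2⟩

/-- **Interlacing lemma (vertical).** -/
theorem interV {S T : Set (ℤ × ℤ)} {a b c d : ℤ} (hS : S ⊆ Rect a b c d) (hT : T ⊆ Rect a b c d)
    {x x' y y' : ℤ × ℤ} (hx : Conn S x x') (hxc : x.2 = c) (hxd : x'.2 = d)
    (hy : Conn T y y') (hyc : y.2 = c) (hyd : y'.2 = d) (h1 : y.1 ≤ x.1) (h2 : x'.1 ≤ y'.1) :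
    ∃ z, Conn S x z ∧ Conn T y z := by
  obtain ⟨z, hz1, hz2⟩ := interlace (S := {z | (z.2, z.1) ∈ S}) (T := {z | (z.2, z.1) ∈ T})
    (a := c) (b := d) (c := a) (d := b) (x := (x.2, x.1)) (x' := (x'.2, x'.1)) (y := (y.2, y.1))
    (y' := (y'.2, y'.1))
    (fun z hz => by
      have := hS hz
      rw [mem_rect] at this ⊢
      simp only at this
      omega)
    (fun z hz => by
      have := hT hz
      rw [mem_rect] at this ⊢
      simp only at this
      omega)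
    (c_map adj_swap (fun z hz => hz) hx) hxc hxd (c_map adj_swap (fun z hz => hz) hy) hyc hyd h1 h2
  exact ⟨(z.2, z.1), c_map (T := S) adj_swap (fun z hz => hz) hz1,
    c_map (T := T) adj_swap (fun z hz => hz) hz2⟩

theorem LRp.chain' (a a' b b' c d : ℤ) (S : Set (ℤ × ℤ)) (h1 : a ≤ a') (_h2 : a' ≤ b) (h3 : b ≤ b')
    (_h4 : c ≤ d) (hl : LRp a b c d S) (hv : BTp a' b c d S) (hr : LRp a' b' c d S) :
    LRp a b' c d S := by
  obtain ⟨x, x', hx, hxa, hxb⟩ := hl
  obtain ⟨v, v', hv, hvc, hvd⟩ := hv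
  obtain ⟨y, y', hy, hya, hyb⟩ := hr
  obtain ⟨z, hz1, hz2⟩ := ccross (S := S ∩ pr a b c d) (T := S ∩ pr a' b c d)
    (a := 2 * a) (b := 2 * b) (c := 2 * c) (d := 2 * d) Set.inter_subset_right
    (Set.inter_subset_right.trans (pr_mono h1 le_rfl le_rfl le_rfl)) hx hxa hxb hv hvc hvd
  obtain ⟨w, hw1, hw2⟩ := ccross (S := S ∩ pr a' b' c d) (T := S ∩ pr a' b c d)
    (a := 2 * a') (b := 2 * b') (c := 2 * c) (d := 2 * d) Set.inter_subset_right
    (Set.inter_subset_right.trans (pr_mono le_rfl h3 le_rfl le_rfl)) hy hya hyb hv hvc hvd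
  have e1 : pr a b c d ⊆ pr a b' c d := pr_mono le_rfl h3 le_rfl le_rfl
  have e2 : pr a' b c d ⊆ pr a b' c d := pr_mono h1 h3 le_rfl le_rfl
  have e3 : pr a' b' c d ⊆ pr a b' c d := pr_mono h1 le_rfl le_rfl le_rfl
  have h5 : Conn (S ∩ pr a b' c d) x v := c_join e1 e2 hz1 hz2
  have h6 : Conn (S ∩ pr a b' c d) y v := c_join e3 e2 hw1 hw2
  exact ⟨x, y', (h5.trans h6.symm).trans (hy.mono (Set.inter_subset_inter_right S e3)), hxa, hyb⟩

/-- The annulus between the boxes with centre `(p, q)` and half sides `t`, `2t`. -/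
def annR (p q t : ℤ) : Set (ℤ × ℤ) :=
  {z | z ∈ pr (p - 2 * t) (p + 2 * t) (q - 2 * t) (q + 2 * t) ∧
    (z.1 ≤ 2 * (p - t) ∨ 2 * (p + t) ≤ z.1 ∨ z.2 ≤ 2 * (q - t) ∨ 2 * (q + t) ≤ z.2)}

theorem annR_sub (p q t : ℤ) : annR p q t ⊆ pr (p - 2 * t) (p + 2 * t) (q - 2 * t) (q + 2 * t) :=
  fun _ hz => hz.1

/-- Exit lemma for the triangular lattice. -/
theorem c_first {S : Set (ℤ × ℤ)} {f : ℤ × ℤ → ℤ} (hf : ∀ u v, Adj u v → f v ≤ f u + 1) {d : ℤ}
    {x y : ℤ × ℤ} (h : Conn S x y) (hx : f x ≤ d) (hy : d ≤ f y) :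
    ∃ z, f z = d ∧ Conn (S ∩ {w | f w ≤ d}) x z := by
  have key : (f y < d ∧ Conn (S ∩ {w | f w ≤ d}) x y) ∨
      ∃ z, f z = d ∧ Conn (S ∩ {w | f w ≤ d}) x z := by
    refine Conn.ind (S := S) (fun y => (f y < d ∧ Conn (S ∩ {w | f w ≤ d}) x y) ∨
      ∃ z, f z = d ∧ Conn (S ∩ {w | f w ≤ d}) x z) ?_ ?_ h
    · rcases lt_or_eq_of_le hx with h1 | h1
      · exact Or.inl ⟨h1, Conn.refl ⟨h.1, hx⟩⟩
      · exact Or.inr ⟨x, h1, Conn.refl ⟨h.1, hx⟩⟩
    · intro u v _ huv hv ih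
      rcases ih with ⟨h1, h2⟩ | h1
      · have h3 := hf u v huv
        have h4 : Conn (S ∩ {w | f w ≤ d}) x v := h2.tail huv ⟨hv, show f v ≤ d by omega⟩
        rcases lt_or_ge (f v) d with h5 | h5
        · exact Or.inl ⟨h5, h4⟩
        · exact Or.inr ⟨v, by omega, h4⟩
      · exact Or.inr h1
  rcases key with ⟨h1, _⟩ | h1
  · omega
  · exact h1

theorem c_exit {S : Set (ℤ × ℤ)} {f : ℤ × ℤ → ℤ} (hf : ∀ u v, Adj u v → f v ≤ f u + 1)
    {c d : ℤ} (hcd : c ≤ d) {x y : ℤ × ℤ} (h : Conn S x y) (hx : f x ≤ c) (hy : d ≤ f y) :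
    ∃ z w, f z = c ∧ f w = d ∧ Conn (S ∩ {u | c ≤ f u ∧ f u ≤ d}) z w := by
  obtain ⟨w, hw, h1⟩ := c_first hf h (hx.trans hcd) hy
  obtain ⟨z, hz, h2⟩ := c_first (f := fun u => - f u) (d := -c)
    (fun u v huv => by have := hf v u (adj_symm huv); omega) h1.symm (by omega) (by omega)
  have h3 : Conn (S ∩ {u | c ≤ f u ∧ f u ≤ d}) w z := h2.mono (by
    rintro u ⟨⟨h3, h4⟩, h5⟩
    refine ⟨h3, ?_, h4⟩
    have : - f u ≤ -c := h5
    show c ≤ f u
    omega)
  exact ⟨z, w, by omega, hw, h3.symm⟩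

theorem adj_fst (u v : ℤ × ℤ) (h : Adj u v) : v.1 ≤ u.1 + 1 := by
  rw [adj_iff] at h
  omega

theorem LRp.mono' (a a' b b' c c' d d' : ℤ) (S : Set (ℤ × ℤ)) (h1 : a ≤ a') (h2 : a' ≤ b')
    (h3 : b' ≤ b) (h4 : c' ≤ c) (h5 : d ≤ d') (h : LRp a b c d S) : LRp a' b' c' d' S := by
  obtain ⟨x, y, hxy, hx, hy⟩ := h
  obtain ⟨z, w, hz, hw, hzw⟩ := c_exit (f := Prod.fst) adj_fst (c := 2 * a') (d := 2 * b')
    (by omega) hxy (by omega) (by omega)
  refine ⟨z, w, hzw.mono ?_, hz, hw⟩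
  rintro u ⟨⟨hu1, hu2⟩, hu3, hu4⟩
  rw [mem_pr] at hu2
  exact ⟨hu1, by rw [mem_pr]; omega⟩

/-- The event `Ann` gives one cluster of `S` inside the annulus which meets every path of the
triangular lattice from the inner box to the
complement of the interior of the outer box. -/
theorem Ann.cluster {p q t : ℤ} (ht : 0 < t) {S : Set (ℤ × ℤ)} (hA : Ann p q t S) :
    ∃ o, o ∈ S ∩ annR p q t ∧ ∀ (D : Set (ℤ × ℤ)) (x y : ℤ × ℤ), Conn D x y →
      x ∈ pr (p - t) (p + t) (q - t) (q + t) →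
      (y.1 ≤ 2 * (p - 2 * t) ∨ 2 * (p + 2 * t) ≤ y.1 ∨ y.2 ≤ 2 * (q - 2 * t) ∨
        2 * (q + 2 * t) ≤ y.2) →
      ∃ w, w ∈ D ∧ Conn (S ∩ annR p q t) o w := by
  obtain ⟨⟨a1, b1, h1, h1a, h1b⟩, ⟨a2, b2, h2, h2a, h2b⟩, ⟨a3, b3, h3, h3a, h3b⟩,
    ⟨a4, b4, h4, h4a, h4b⟩⟩ := hA
  have k1 : Conn (S ∩ annR p q t) a1 b1 := h1.mono (Set.inter_subset_inter_right S (by
    intro z hz
    rw [mem_pr] at hz
    refine ⟨by rw [mem_pr]; omega, ?_⟩
    right; right; right; omega))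
  have k2 : Conn (S ∩ annR p q t) a2 b2 := h2.mono (Set.inter_subset_inter_right S (by
    intro z hz
    rw [mem_pr] at hz
    refine ⟨by rw [mem_pr]; omega, ?_⟩
    right; right; left; omega))
  have k3 : Conn (S ∩ annR p q t) a3 b3 := h3.mono (Set.inter_subset_inter_right S (by
    intro z hz
    rw [mem_pr] at hz
    refine ⟨by rw [mem_pr]; omega, ?_⟩
    left; omega))
  have k4 : Conn (S ∩ annR p q t) a4 b4 := h4.mono (Set.inter_subset_inter_right S (by
    intro z hz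
    rw [mem_pr] at hz
    refine ⟨by rw [mem_pr]; omega, ?_⟩
    right; left; omega))
  -- a horizontal strip and a vertical strip meet in the big box
  have hH : ∀ {c d : ℤ}, q - 2 * t ≤ c → d ≤ q + 2 * t → ∀ {a b : ℤ}, p - 2 * t ≤ a →
      b ≤ p + 2 * t → ∀ {x x' y y' : ℤ × ℤ},
      Conn (S ∩ pr (p - 2 * t) (p + 2 * t) c d) x x' → x.1 = 2 * (p - 2 * t) →
      x'.1 = 2 * (p + 2 * t) → Conn (S ∩ pr a b (q - 2 * t) (q + 2 * t)) y y' →
      y.2 = 2 * (q - 2 * t) → y'.2 = 2 * (q + 2 * t) →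
      ∃ z, Conn (S ∩ pr (p - 2 * t) (p + 2 * t) c d) x z ∧
        Conn (S ∩ pr a b (q - 2 * t) (q + 2 * t)) y z := by
    intro c d hc hd a b ha hb x x' y y' hx hxa hxb hy hya hyb
    exact ccross (a := 2 * (p - 2 * t)) (b := 2 * (p + 2 * t)) (c := 2 * (q - 2 * t))
      (d := 2 * (q + 2 * t)) (Set.inter_subset_right.trans (pr_mono le_rfl le_rfl hc hd))
      (Set.inter_subset_right.trans (pr_mono ha hb le_rfl le_rfl)) hx hxa hxb hy hya hyb
  have sub1 : pr (p - 2 * t) (p + 2 * t) (q + t) (q + 2 * t) ⊆ annR p q t := by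
    intro z hz
    rw [mem_pr] at hz
    refine ⟨by rw [mem_pr]; omega, ?_⟩
    right; right; right; omega
  have sub2 : pr (p - 2 * t) (p + 2 * t) (q - 2 * t) (q - t) ⊆ annR p q t := by
    intro z hz
    rw [mem_pr] at hz
    refine ⟨by rw [mem_pr]; omega, ?_⟩
    right; right; left; omega
  have sub3 : pr (p - 2 * t) (p - t) (q - 2 * t) (q + 2 * t) ⊆ annR p q t := by
    intro z hz
    rw [mem_pr] at hz
    refine ⟨by rw [mem_pr]; omega, ?_⟩
    left; omega
  have sub4 : pr (p + t) (p + 2 * t) (q - 2 * t) (q + 2 * t) ⊆ annR p q t := by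
    intro z hz
    rw [mem_pr] at hz
    refine ⟨by rw [mem_pr]; omega, ?_⟩
    right; left; omega
  obtain ⟨z13, c13, d13⟩ := hH (by omega) (by omega) (by omega) (by omega) h1 h1a h1b h3 h3a h3b
  obtain ⟨z14, c14, d14⟩ := hH (by omega) (by omega) (by omega) (by omega) h1 h1a h1b h4 h4a h4b
  obtain ⟨z23, c23, d23⟩ := hH (by omega) (by omega) (by omega) (by omega) h2 h2a h2b h3 h3a h3b
  have j13 : Conn (S ∩ annR p q t) a1 a3 := c_join sub1 sub3 c13 d13
  have j14 : Conn (S ∩ annR p q t) a1 a4 := c_join sub1 sub4 c14 d14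
  have j12 : Conn (S ∩ annR p q t) a1 a2 := j13.trans (c_join sub2 sub3 c23 d23).symm
  refine ⟨a1, k1.left_mem, ?_⟩
  intro D x y hD hx hy
  -- cut the path at the first exit of the open outer box
  set f : ℤ × ℤ → ℤ := fun z => max (max (z.1 - 2 * p) (2 * p - z.1)) (max (z.2 - 2 * q) (2 * q - z.2))
    with hf
  have hfl : ∀ u v, Adj u v → f v ≤ f u + 1 := by
    intro u v huv
    rw [adj_iff] at huv
    simp only [hf]
    omega
  rw [mem_pr] at hx
  obtain ⟨y1, hy1, hD1⟩ := c_first hfl (d := 4 * t) hD (by simp only [hf]; omega)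
    (by simp only [hf]; omega)
  have hD1r : ∀ z ∈ D ∩ {w | f w ≤ 4 * t}, z ∈ pr (p - 2 * t) (p + 2 * t) (q - 2 * t) (q + 2 * t) := by
    rintro z ⟨_, hz⟩
    have hz' : max (max (z.1 - 2 * p) (2 * p - z.1)) (max (z.2 - 2 * q) (2 * q - z.2)) ≤ 4 * t := hz
    rw [mem_pr]
    omega
  have hside : y1.1 = 2 * (p - 2 * t) ∨ y1.1 = 2 * (p + 2 * t) ∨ y1.2 = 2 * (q - 2 * t) ∨
      y1.2 = 2 * (q + 2 * t) := by
    simp only [hf] at hy1
    omega
  have hf1 : ∀ u v : ℤ × ℤ, Adj u v → v.1 ≤ u.1 + 1 := by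
    intro u v huv
    rw [adj_iff] at huv
    omega
  have hf1' : ∀ u v : ℤ × ℤ, Adj u v → -v.1 ≤ -u.1 + 1 := by
    intro u v huv
    rw [adj_iff] at huv
    omega
  have hf2 : ∀ u v : ℤ × ℤ, Adj u v → v.2 ≤ u.2 + 1 := by
    intro u v huv
    rw [adj_iff] at huv
    omega
  have hf2' : ∀ u v : ℤ × ℤ, Adj u v → -v.2 ≤ -u.2 + 1 := by
    intro u v huv
    rw [adj_iff] at huv
    omega
  rcases hside with h | h | h | h
  · -- exit through the left side
    obtain ⟨z, w, hz, hw, hzw⟩ := c_exit (f := fun u => -u.1) hf1' (c := -(2 * (p - t)))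
      (d := -(2 * (p - 2 * t))) (by omega) hD1 (by omega) (by omega)
    obtain ⟨v, hv1, hv2⟩ := cross (A := D ∩ {w | f w ≤ 4 * t} ∩
        {u | -(2 * (p - t)) ≤ -u.1 ∧ -u.1 ≤ -(2 * (p - 2 * t))})
      (B := {z | Conn (S ∩ pr (p - 2 * t) (p - t) (q - 2 * t) (q + 2 * t)) a3 z})
      (a := 2 * (p - 2 * t)) (b := 2 * (p - t)) (c := 2 * (q - 2 * t)) (d := 2 * (q + 2 * t))
      (by
        rintro u ⟨hu1, hu2, hu3⟩
        have := hD1r u hu1
        rw [mem_pr] at this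
        omega)
      (by
        intro u hu
        have := hu.right_mem.2
        rw [mem_pr] at this
        omega)
      hzw.symm (by omega) (by omega) (c_cluster h3) h3a h3b
    exact ⟨v, hv1.1.1, j13.trans (hv2.mono (Set.inter_subset_inter_right S sub3))⟩
  · obtain ⟨z, w, hz, hw, hzw⟩ := c_exit (f := fun u => u.1) hf1 (c := 2 * (p + t))
      (d := 2 * (p + 2 * t)) (by omega) hD1 (by omega) (by omega)
    obtain ⟨v, hv1, hv2⟩ := cross (A := D ∩ {w | f w ≤ 4 * t} ∩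
        {u | 2 * (p + t) ≤ u.1 ∧ u.1 ≤ 2 * (p + 2 * t)})
      (B := {z | Conn (S ∩ pr (p + t) (p + 2 * t) (q - 2 * t) (q + 2 * t)) a4 z})
      (a := 2 * (p + t)) (b := 2 * (p + 2 * t)) (c := 2 * (q - 2 * t)) (d := 2 * (q + 2 * t))
      (by
        rintro u ⟨hu1, hu2, hu3⟩
        have := hD1r u hu1
        rw [mem_pr] at this
        omega)
      (by
        intro u hu
        have := hu.right_mem.2
        rw [mem_pr] at this
        omega)
      hzw (by omega) (by omega) (c_cluster h4) h4a h4b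
    exact ⟨v, hv1.1.1, j14.trans (hv2.mono (Set.inter_subset_inter_right S sub4))⟩
  · obtain ⟨z, w, hz, hw, hzw⟩ := c_exit (f := fun u => -u.2) hf2' (c := -(2 * (q - t)))
      (d := -(2 * (q - 2 * t))) (by omega) hD1 (by omega) (by omega)
    obtain ⟨v, hv1, hv2⟩ := cross
      (A := {z | Conn (S ∩ pr (p - 2 * t) (p + 2 * t) (q - 2 * t) (q - t)) a2 z})
      (B := D ∩ {w | f w ≤ 4 * t} ∩
        {u | -(2 * (q - t)) ≤ -u.2 ∧ -u.2 ≤ -(2 * (q - 2 * t))})
      (a := 2 * (p - 2 * t)) (b := 2 * (p + 2 * t)) (c := 2 * (q - 2 * t)) (d := 2 * (q - t))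
      (by
        intro u hu
        have := hu.right_mem.2
        rw [mem_pr] at this
        omega)
      (by
        rintro u ⟨hu1, hu2, hu3⟩
        have := hD1r u hu1
        rw [mem_pr] at this
        omega)
      (c_cluster h2) h2a h2b hzw.symm (by omega) (by omega)
    exact ⟨v, hv2.1.1, j12.trans (hv1.mono (Set.inter_subset_inter_right S sub2))⟩
  · obtain ⟨z, w, hz, hw, hzw⟩ := c_exit (f := fun u => u.2) hf2 (c := 2 * (q + t))
      (d := 2 * (q + 2 * t)) (by omega) hD1 (by omega) (by omega)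
    obtain ⟨v, hv1, hv2⟩ := cross
      (A := {z | Conn (S ∩ pr (p - 2 * t) (p + 2 * t) (q + t) (q + 2 * t)) a1 z})
      (B := D ∩ {w | f w ≤ 4 * t} ∩ {u | 2 * (q + t) ≤ u.2 ∧ u.2 ≤ 2 * (q + 2 * t)})
      (a := 2 * (p - 2 * t)) (b := 2 * (p + 2 * t)) (c := 2 * (q + t)) (d := 2 * (q + 2 * t))
      (by
        intro u hu
        have := hu.right_mem.2
        rw [mem_pr] at this
        omega)
      (by
        rintro u ⟨hu1, hu2, hu3⟩
        have := hD1r u hu1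
        rw [mem_pr] at this
        omega)
      (c_cluster h1) h1a h1b hzw (by omega) (by omega)
    exact ⟨v, hv2.1.1, hv1.mono (Set.inter_subset_inter_right S sub1)⟩

/-- The cluster of the event `XX` reaches the left and right parts of the top and of the bottom side
and the upper left and lower right sides of the hexagon. -/
theorem XX.cluster {p q n h : ℤ} {S : Set (ℤ × ℤ)} (hX : XX p q n h S) :
    ∃ o t1 t2 b1 b2 r : ℤ × ℤ, let B := S ∩ hex p q n
      Conn B o t1 ∧ Conn B o t2 ∧ Conn B o b1 ∧ Conn B o b2 ∧ Conn B o r ∧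
      t1.2 = 4 * (p + n) ∧ 4 * (q + h) ≤ 2 * t1.1 + t1.2 ∧
      t2.2 = 4 * (p + n) ∧ 2 * t2.1 + t2.2 ≤ 4 * (q - h) ∧
      b1.2 = 4 * (p - n) ∧ 4 * (q + h) ≤ 2 * b1.1 + b1.2 ∧
      b2.2 = 4 * (p - n) ∧ 2 * b2.1 + b2.2 ≤ 4 * (q - h) ∧
      o.1 = 2 * (q - p - 2 * n) ∧ r.1 = 2 * (q - p + 2 * n) := by
  obtain ⟨⟨x1, y1, h1, h1a, h1b, h1c, _⟩, ⟨x2, y2, h2, h2a, h2b, _, h2d⟩,
    ⟨x3, y3, h3, h3a, h3b, h3c, _⟩, ⟨x4, y4, h4, h4a, h4b, _, h4d⟩, ⟨o, r, ho, hoc, hod⟩⟩ := hX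
  have hsub : S ∩ hex p q n ⊆
      Rect (2 * (q - p - 2 * n)) (2 * (q - p + 2 * n)) (4 * (p - n)) (4 * (p + n)) := by
    intro z hz
    have := hz.2
    rw [mem_hex] at this
    rw [mem_rect]
    omega
  obtain ⟨z1, hz1, hz1'⟩ := ccross hsub hsub ho hoc hod h1 h1a h1b
  obtain ⟨z2, hz2, hz2'⟩ := ccross hsub hsub ho hoc hod h2 h2a h2b
  obtain ⟨z3, hz3, hz3'⟩ := ccross hsub hsub ho hoc hod h3.symm h3b h3a
  obtain ⟨z4, hz4, hz4'⟩ := ccross hsub hsub ho hoc hod h4.symm h4b h4a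
  exact ⟨o, y1, y2, y3, y4, r, (hz1.trans hz1'.symm).trans h1, (hz2.trans hz2'.symm).trans h2,
    hz3.trans hz3'.symm, hz4.trans hz4'.symm, ho, h1b, h1c, h2b, h2d, h3b, h3c, h4b, h4d, hoc, hod⟩

theorem Geo.f1' (n m v al : ℤ) (S : Set (ℤ × ℤ)) (_h0 : 0 ≤ al) (_hm : 0 < m) (hmn : m ≤ n)
    (hv : 0 ≤ v) (hv' : v ≤ 3 * (n - m)) (hl : HT (m - n) (-v) n (-al) al S)
    (hr : HM (n - m) (-v) n (-al) al S) (hX : XX 0 0 m al S) :
    BTp (-v - (3 * n - m)) (-v + (3 * n - m)) (-(4 * n - 2 * m)) (4 * n - 2 * m) S := by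
  obtain ⟨o, t1, t2, b1, b2, r, g1, g2, g3, g4, _, e1, e2, e3, e4, e5, e6, e7, e8, _, _⟩ :=
    hX.cluster
  simp only [zero_sub, zero_add] at g1 g2 g3 g4 e1 e2 e3 e4 e5 e6 e7 e8
  obtain ⟨x, x', hx, hxa, hxb, hxc, hxd⟩ := hl
  obtain ⟨y, y', hy, hya, hyb, hyc, hyd⟩ := hr
  have s0 : hex 0 0 m ⊆ pr (-v - (3 * n - m)) (-v + (3 * n - m)) (-(4 * n - 2 * m))
      (4 * n - 2 * m) := by
    intro z hz
    rw [mem_hex] at hz
    rw [mem_pr]
    omega
  have s1 : hex (m - n) (-v) n ⊆ pr (-v - (3 * n - m)) (-v + (3 * n - m)) (-(4 * n - 2 * m))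
      (4 * n - 2 * m) := by
    intro z hz
    rw [mem_hex] at hz
    rw [mem_pr]
    omega
  have s2 : hex (n - m) (-v) n ⊆ pr (-v - (3 * n - m)) (-v + (3 * n - m)) (-(4 * n - 2 * m))
      (4 * n - 2 * m) := by
    intro z hz
    rw [mem_hex] at hz
    rw [mem_pr]
    omega
  obtain ⟨z, hz1, hz2⟩ := landT (S := S ∩ hex (m - n) (-v) n) (T := S ∩ hex 0 0 m)
    (a := 2 * (-v - (3 * n - m))) (b := 2 * (-v + (3 * n - m))) (c := 4 * (m - 2 * n))
    (d := 4 * m)
    (by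
      intro z hz
      have := hz.2
      rw [mem_hex] at this
      rw [mem_rect]
      omega)
    (by
      intro z hz
      have := hz.2
      rw [mem_hex] at this
      rw [mem_rect]
      omega)
    hx (by omega) (by omega) (g2.symm.trans g1) (by omega) (by omega) (by omega) (by omega)
  obtain ⟨w, hw1, hw2⟩ := landB (S := S ∩ hex (n - m) (-v) n) (T := S ∩ hex 0 0 m)
    (a := 2 * (-v - (3 * n - m))) (b := 2 * (-v + (3 * n - m))) (c := -(4 * m))
    (d := 4 * (2 * n - m))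
    (by
      intro z hz
      have := hz.2
      rw [mem_hex] at this
      rw [mem_rect]
      omega)
    (by
      intro z hz
      have := hz.2
      rw [mem_hex] at this
      rw [mem_rect]
      omega)
    hy (by omega) (by omega) (g4.symm.trans g3) (by omega) (by omega) (by omega) (by omega)
  have k1 := c_join s1 s0 hz1 hz2
  have k2 := c_join s2 s0 hw1 hw2
  have k3 := (g2.symm.trans g4).mono (Set.inter_subset_inter_right S s0)
  exact ⟨x, y, (k1.trans k3).trans k2.symm, by omega, by omega⟩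

theorem Geo.zig' (n h : ℤ) (S : Set (ℤ × ℤ)) (_hn : 0 < n) (hh : 0 ≤ h) (_hhn : h ≤ n)
    (hX : XX 0 0 n h S) (hY : XX 0 (-(2 * h)) n h S) :
    LRp (-(2 * h) - 2 * n) (2 * n) (-(2 * n)) (2 * n) S := by
  obtain ⟨o, t1, t2, b1, b2, r, g1, g2, g3, g4, g5, e1, e2, e3, e4, e5, e6, e7, e8, e9, e10⟩ :=
    hX.cluster
  obtain ⟨o', t1', t2', b1', b2', r', g1', g2', g3', g4', g5', e1', e2', e3', e4', e5', e6', e7',
    e8', e9', e10'⟩ := hY.cluster
  simp only [zero_sub, zero_add, sub_zero, add_zero] at g1 g2 g3 g4 g5 e1 e2 e3 e4 e5 e6 e7 e8 e9 e10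
  simp only [zero_sub, zero_add, sub_zero, add_zero] at g1' g2' g3' g4' g5' e1' e2' e3' e4' e5' e6' e7' e8' e9' e10'
  have s1 : hex 0 0 n ⊆ pr (-(2 * h) - 2 * n) (2 * n) (-(2 * n)) (2 * n) := by
    intro z hz
    rw [mem_hex] at hz
    rw [mem_pr]
    omega
  have s2 : hex 0 (-(2 * h)) n ⊆ pr (-(2 * h) - 2 * n) (2 * n) (-(2 * n)) (2 * n) := by
    intro z hz
    rw [mem_hex] at hz
    rw [mem_pr]
    omega
  obtain ⟨z, hz1, hz2⟩ := interV (S := S ∩ hex 0 0 n)
    (T := S ∩ hex 0 (-(2 * h)) n) (a := 2 * (-(2 * h) - 2 * n)) (b := 2 * (2 * n))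
    (c := 2 * (-(2 * n))) (d := 2 * (2 * n)) (Set.inter_subset_right.trans s1)
    (Set.inter_subset_right.trans s2) (g3.symm.trans g2) (by omega) (by omega)
    (g4'.symm.trans g1') (by omega) (by omega) (by omega) (by omega)
  have k1 := c_join s1 s2 hz1 hz2
  have k2 : Conn (S ∩ pr (-(2 * h) - 2 * n) (2 * n) (-(2 * n)) (2 * n)) b1 r :=
    (g3.symm.trans g5).mono (Set.inter_subset_inter_right S s1)
  have k3 : Conn (S ∩ pr (-(2 * h) - 2 * n) (2 * n) (-(2 * n)) (2 * n)) o' b2' :=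
    g4'.mono (Set.inter_subset_inter_right S s2)
  exact ⟨o', r, (k3.trans k1.symm).trans k2, by omega, by omega⟩

theorem Geo.f2a (s t : ℤ) (S : Set (ℤ × ℤ)) (hs : 0 < s) (hst : 2 * s ≤ t)
    (hl : HT (-t) 0 t 0 s S) (hr : HM t 0 t 0 s S) (hA : Ann 0 0 s S) :
    BTp (-(3 * t)) (3 * t) (-(4 * t)) (4 * t) S := by
  obtain ⟨o, _, hsep⟩ := hA.cluster hs
  obtain ⟨x, x', hx, hxa, hxb, hxc, hxd⟩ := hl
  obtain ⟨y, y', hy, hya, hyb, hyc, hyd⟩ := hr
  obtain ⟨w, hw1, hw2⟩ := hsep _ x' x (c_cluster hx.symm)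
    (by rw [mem_pr]; omega) (by right; right; left; omega)
  obtain ⟨v, hv1, hv2⟩ := hsep _ y' y (c_cluster hy.symm)
    (by rw [mem_pr]; omega) (by right; right; right; omega)
  have s1 : hex (-t) 0 t ⊆ pr (-(3 * t)) (3 * t) (-(4 * t)) (4 * t) := by
    intro z hz
    rw [mem_hex] at hz
    rw [mem_pr]
    omega
  have s2 : hex t 0 t ⊆ pr (-(3 * t)) (3 * t) (-(4 * t)) (4 * t) := by
    intro z hz
    rw [mem_hex] at hz
    rw [mem_pr]
    omega
  have s3 : annR 0 0 s ⊆ pr (-(3 * t)) (3 * t) (-(4 * t)) (4 * t) :=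
    (annR_sub 0 0 s).trans (pr_mono (by omega) (by omega) (by omega) (by omega))
  have k1 := c_join s1 s3 (hx.trans hw1) hw2
  have k2 := c_join s2 s3 (hy.trans hv1) hv2
  exact ⟨x, y, k1.trans k2.symm, by omega, by omega⟩

theorem Geo.f2b (t : ℤ) (S : Set (ℤ × ℤ)) (hS : S ⊆ Mid) (ht : 1 ≤ t) (hl : HT (-t) 0 t 0 1 S)
    (hr : HM t 0 t 0 1 S) : BTp (-(3 * t)) (3 * t) (-(4 * t)) (4 * t) S := by
  obtain ⟨x, x', hx, hxa, hxb, hxc, hxd⟩ := hl
  obtain ⟨y, y', hy, hya, hyb, hyc, hyd⟩ := hr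
  have key : ∀ u : ℤ × ℤ, u ∈ S → u.2 = 0 → 0 ≤ u.1 → u.1 ≤ 2 → u = (1, 0) := by
    intro u hu h1 h2 h3
    have h4 : Odd u.1 ∨ Odd u.2 := hS hu
    rw [Int.odd_iff, Int.odd_iff] at h4
    exact Prod.ext (by simp only; omega) (by simp only; omega)
  have h1 := key x' hx.right_mem.1 (by omega) (by omega) (by omega)
  have h2 := key y' hy.right_mem.1 (by omega) (by omega) (by omega)
  have s1 : hex (-t) 0 t ⊆ pr (-(3 * t)) (3 * t) (-(4 * t)) (4 * t) := by
    intro z hz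
    rw [mem_hex] at hz
    rw [mem_pr]
    omega
  have s2 : hex t 0 t ⊆ pr (-(3 * t)) (3 * t) (-(4 * t)) (4 * t) := by
    intro z hz
    rw [mem_hex] at hz
    rw [mem_pr]
    omega
  rw [h1] at hx
  rw [h2] at hy
  exact ⟨x, y, c_join s1 s2 hx hy, by omega, by omega⟩

/-- The deterministic facts about crossings. -/
theorem geo : Geo where
  chain := LRp.chain'
  mono := LRp.mono'
  f1 := Geo.f1'
  zig := Geo.zig'
  f2 := Geo.f2a
  f2' := Geo.f2b

end Vale.Agent.P153.F.RSW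
end

section

/-!
# P153, block F-B: the closed edges

`Wp s` = the midpoints of the edges both ends of which have spin `+` in `s`.
-/

namespace Vale.Agent.P153.F.RSW

open MeasureTheory Vale.Agent.P153.A

/-- First end of the edge with midpoint `z`. -/
def v1 (z : ℤ × ℤ) : ℤ × ℤ := (z.1 / 2, (z.2 + 1) / 2)

/-- Second end of the edge with midpoint `z`. -/
def v2 (z : ℤ × ℤ) : ℤ × ℤ := ((z.1 + 1) / 2, z.2 / 2)

/-- The midpoints of the edges both ends of which have spin `+`. -/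
def Wp (s : Sp) : Set (ℤ × ℤ) := {z | z ∈ Mid ∧ s (v1 z) = true ∧ s (v2 z) = true}

theorem Wp_sub (s : Sp) : Wp s ⊆ Mid := fun _ h => h.1

theorem Wp_mono {s t : Sp} (h : s ≤ t) : Wp s ⊆ Wp t := fun z hz =>
  ⟨hz.1, Bool.eq_true_of_true_le (by rw [← hz.2.1]; exact h _),
    Bool.eq_true_of_true_le (by rw [← hz.2.2]; exact h _)⟩

/-- The probability of the event `E` for the closed edges of `τ`. -/
noncomputable def pW (Q : Measure Om) (E : Set (ℤ × ℤ) → Prop) : ℝ := Q.real {ω | E (Wp (tau ω))}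

end Vale.Agent.P153.F.RSW
end

section

/-!
# P153, block F-B: crossings of a positively associated symmetric percolation

Tassion's argument on the triangular lattice, with hexagons for the landing events and parallelograms
for the crossings; the independence used there is replaced by the hypothesis that the event `Arm` has
small probability.
-/

namespace Vale.Agent.P153.F.RSW

open Relation Vale.Agent.P153.Topo

namespace PT

variable (P : PT)

/-! ### Elementary consequences of the FKG inequality -/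

theorem fkg2 {Q R T : Set (ℤ × ℤ) → Prop} (hQ : IL Q) (hR : IL R)
    (h : ∀ S, S ⊆ Mid → Q S → R S → T S) {a b : ℝ} (ha : 0 ≤ a) (hb : 0 ≤ b) (hQa : a ≤ P.p Q)
    (hRb : b ≤ P.p R) : a * b ≤ P.p T :=
  calc a * b ≤ P.p Q * P.p R := mul_le_mul hQa hRb hb (ha.trans hQa)
    _ ≤ P.p (fun S => Q S ∧ R S) := P.fkg Q R hQ hR
    _ ≤ P.p T := P.mono _ _ (fun _ hM hS => h _ hM hS.1 hS.2)

theorem fkg3 {Q R U T : Set (ℤ × ℤ) → Prop} (hQ : IL Q) (hR : IL R) (hU : IL U)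
    (h : ∀ S, S ⊆ Mid → Q S → R S → U S → T S) {a b c : ℝ} (ha : 0 ≤ a) (hb : 0 ≤ b) (hc : 0 ≤ c)
    (hQa : a ≤ P.p Q) (hRb : b ≤ P.p R) (hUc : c ≤ P.p U) : a * b * c ≤ P.p T :=
  P.fkg2 (hQ.and hR) hU (fun S hM h1 h2 => h S hM h1.1 h1.2 h2) (mul_nonneg ha hb) hc
    (P.fkg2 hQ hR (fun S _ h1 h2 => ⟨h1, h2⟩) ha hb hQa hRb) hUc

/-- The probability of a crossing of a parallelogram with sides `w`, `h`. -/
noncomputable def L (w h : ℤ) : ℝ := P.p (LRp 0 w 0 h)

theorem L_eq (a c w h : ℤ) : P.p (LRp a (a + w) c (c + h)) = P.L w h := by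
  have := P.p_LRp_shift 0 w 0 h a c
  rw [L, ← this]
  congr 2 <;> ring

theorem L_eq' (a b c d : ℤ) : P.p (LRp a b c d) = P.L (b - a) (d - c) := by
  rw [← P.L_eq a c]; congr 2 <;> ring

theorem B_eq' (a b c d : ℤ) : P.p (BTp a b c d) = P.L (d - c) (b - a) := by
  rw [P.p_BTp c d a b, P.L_eq']

theorem L_mono (G : Geo) {w w' h h' : ℤ} (hw : 0 ≤ w') (hww : w' ≤ w) (hhh : h ≤ h') :
    P.L w h ≤ P.L w' h' :=
  P.mono _ _ (fun S _ hS => G.mono 0 0 w w' 0 0 h h' S le_rfl hw hww le_rfl hhh hS)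

/-- Two crossings of parallelograms joined by the crossing of a rhombus. -/
theorem L_chain (G : Geo) {c0 : ℝ} (h0 : 0 ≤ c0) {w w' h : ℤ} (hh : 0 ≤ h) (hsq : c0 ≤ P.L h h)
    (hw : h ≤ w) (hw' : h ≤ w') {a b : ℝ} (ha : 0 ≤ a) (hb : 0 ≤ b) (hwa : a ≤ P.L w h)
    (hwb : b ≤ P.L w' h) : a * c0 * b ≤ P.L (w + w' - h) h := by
  refine P.fkg3 (IL_LRp 0 w 0 h) (IL_BTp (w - h) w 0 h) (IL_LRp (w - h) (w + w' - h) 0 h)
    (fun S _ h1 h2 h3 => G.chain 0 (w - h) w (w + w' - h) 0 h S (by omega) (by omega) (by omega)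
      hh h1 h2 h3) ha h0 hb ?_ ?_ ?_
  · rw [P.L_eq']; simpa using hwa
  · rw [P.B_eq']; simpa only [sub_zero, sub_sub_cancel] using hsq
  · rw [P.L_eq']
    have e : w + w' - h - (w - h) = w' := by ring
    rw [e]; simpa only [sub_zero, ge_iff_le] using hwb

/-- Iterated chain: parallelograms of height `h` and width `h + j * k`. -/
theorem L_iter (G : Geo) {c0 : ℝ} (h0 : 0 ≤ c0) {h k : ℤ} (hh : 0 ≤ h) (hk : 0 ≤ k)
    (hsq : c0 ≤ P.L h h) {a : ℝ} (ha : 0 ≤ a) (hka : a ≤ P.L (h + k) h) (j : ℕ) :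
    a * (c0 * a) ^ j ≤ P.L (h + (j + 1 : ℕ) * k) h := by
  induction j with
  | zero => simpa only [pow_zero, mul_one, zero_add, Nat.cast_one, one_mul] using hka
  | succ j ih =>
    have h1 : 0 ≤ a * (c0 * a) ^ j := mul_nonneg ha (pow_nonneg (mul_nonneg h0 ha) _)
    have h2 : 0 ≤ ((j + 1 : ℕ) : ℤ) * k := mul_nonneg (Int.natCast_nonneg _) hk
    have := P.L_chain G h0 hh hsq (w := h + (j + 1 : ℕ) * k) (w' := h + k) (by linarith only [h2])
      (by linarith only [hk]) h1 ha ih hka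
    have e : h + ((j + 1 : ℕ) : ℤ) * k + (h + k) - h = h + ((j + 1 + 1 : ℕ) : ℤ) * k := by
      push_cast; ring
    rw [e] at this
    calc a * (c0 * a) ^ (j + 1) = a * (c0 * a) ^ j * c0 * a := by ring
      _ ≤ _ := this

/-- The annulus event from long crossings. -/
theorem Ann_ge {t : ℤ} (p q : ℤ) {a : ℝ} (ha : 0 ≤ a) (h : a ≤ P.L (4 * t) t) :
    a ^ 4 ≤ P.p (Ann p q t) := by
  have e1 : a ≤ P.p (LRp (p - 2 * t) (p + 2 * t) (q + t) (q + 2 * t)) := by
    rw [P.L_eq']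
    have e : p + 2 * t - (p - 2 * t) = 4 * t := by ring
    have e' : q + 2 * t - (q + t) = t := by ring
    rw [e, e']; exact h
  have e2 : a ≤ P.p (LRp (p - 2 * t) (p + 2 * t) (q - 2 * t) (q - t)) := by
    rw [P.L_eq']
    have e : p + 2 * t - (p - 2 * t) = 4 * t := by ring
    have e' : q - t - (q - 2 * t) = t := by ring
    rw [e, e']; exact h
  have e3 : a ≤ P.p (BTp (p - 2 * t) (p - t) (q - 2 * t) (q + 2 * t)) := by
    rw [P.B_eq']
    have e : q + 2 * t - (q - 2 * t) = 4 * t := by ring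
    have e' : p - t - (p - 2 * t) = t := by ring
    rw [e, e']; exact h
  have e4 : a ≤ P.p (BTp (p + t) (p + 2 * t) (q - 2 * t) (q + 2 * t)) := by
    rw [P.B_eq']
    have e : q + 2 * t - (q - 2 * t) = 4 * t := by ring
    have e' : p + 2 * t - (p + t) = t := by ring
    rw [e, e']; exact h
  have h34 := P.fkg2 (T := fun S => BTp (p - 2 * t) (p - t) (q - 2 * t) (q + 2 * t) S ∧
      BTp (p + t) (p + 2 * t) (q - 2 * t) (q + 2 * t) S) (IL_BTp _ _ _ _) (IL_BTp _ _ _ _)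
      (fun S _ x y => ⟨x, y⟩) ha ha e3 e4
  have := P.fkg3 (T := Ann p q t) (IL_LRp _ _ _ _) (IL_LRp _ _ _ _)
    ((IL_BTp _ _ _ _).and (IL_BTp _ _ _ _)) (fun S _ x y z => ⟨x, y, z.1, z.2⟩) ha ha
    (mul_nonneg ha ha) e1 e2 h34
  calc a ^ 4 = a * a * (a * a) := by ring
    _ ≤ _ := this

/-! ### Landing probabilities -/

/-- The probability that the hexagon of side `2 n` contains a path from its bottom side to the part
`[a, b]` of its top side. -/
noncomputable def H (n a b : ℤ) : ℝ := P.p (HT 0 0 n a b)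

theorem H_nonneg (n a b : ℤ) : 0 ≤ P.H n a b := P.nonneg _

theorem H_mono {n a a' b b' : ℤ} (ha : a' ≤ a) (hb : b ≤ b') : P.H n a b ≤ P.H n a' b' :=
  P.mono _ _ (fun S _ ⟨x, y, h, h1, h2, h3, h4⟩ => ⟨x, y, h, h1, h2, by (clear * - ha h2 h3; omega), by omega⟩)

theorem H_refl (n a b : ℤ) : P.H n (-b) (-a) = P.H n a b := by
  have := P.p_HT_reflx 0 0 n a b
  rw [neg_zero] at this
  exact this

theorem H_union (n a b c : ℤ) : P.H n a c ≤ P.H n a b + P.H n b c := by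
  refine le_trans (P.mono _ _ ?_) (P.or_le _ _)
  rintro S _ ⟨x, y, h, h1, h2, h3, h4⟩
  rcases le_total (2 * y.1 + y.2) (4 * b) with h5 | h5
  · exact Or.inl ⟨x, y, h, h1, h2, h3, h5⟩
  · exact Or.inr ⟨x, y, h, h1, h2, h5, h4⟩

/-- Half of the crossings land in the right half of the top side. -/
theorem H_half {c0 : ℝ} (n : ℤ) (hx : c0 ≤ P.H n (-n) n) : c0 / 2 ≤ P.H n 0 n := by
  have h1 := P.H_union n (-n) 0 n
  have h2 := P.H_refl n 0 n
  rw [neg_zero] at h2
  linarith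

open Classical in
/-- The threshold `α_n`. -/
noncomputable def al (c0 : ℝ) (n : ℕ) : ℕ :=
  Nat.findGreatest (fun a : ℕ => P.H n 0 a - P.H n a n ≤ c0 / 4) (n / 2)

theorem al_le (c0 : ℝ) (n : ℕ) : P.al c0 n ≤ n / 2 := Nat.findGreatest_le _

/-- (P1) -/
theorem H_ge {c0 : ℝ} (h0 : 0 ≤ c0) {n : ℕ} (hx : c0 ≤ P.H n (-n) n) {a : ℤ}
    (ha : a ≤ P.al c0 n) : c0 / 8 ≤ P.H n a n := by
  classical
  have h1 : P.H n 0 (P.al c0 n) - P.H n (P.al c0 n) n ≤ c0 / 4 := by
    have := Nat.findGreatest_spec (P := fun a : ℕ => P.H n 0 a - P.H n a n ≤ c0 / 4) (m := 0)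
      (n := n / 2) (Nat.zero_le _) (by
        have : P.H n 0 ((0 : ℕ) : ℤ) ≤ P.H n ((0 : ℕ) : ℤ) n := P.H_mono (by simp) (by simp only [CharP.cast_eq_zero, Nat.cast_nonneg])
        show P.H n 0 ((0 : ℕ) : ℤ) - P.H n ((0 : ℕ) : ℤ) n ≤ c0 / 4
        exact (sub_nonpos.2 this).trans (by linarith only [h0]))
    exact this
  have h2 := P.H_half n hx
  have h3 := P.H_union n 0 (P.al c0 n) n
  have h4 : P.H n (P.al c0 n) n ≤ P.H n a n := P.H_mono ha le_rfl
  linarith only [h1, h2, h3, h4]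

/-- (P2) -/
theorem H_gt {c0 : ℝ} {n : ℕ} (hn : P.al c0 n < n / 2) {a : ℤ} (ha : (P.al c0 n : ℤ) < a) :
    c0 / 4 + P.H n a n ≤ P.H n 0 a := by
  classical
  have h1 : ¬ (P.H n 0 (P.al c0 n + 1 : ℕ) - P.H n (P.al c0 n + 1 : ℕ) n ≤ c0 / 4) :=
    Nat.findGreatest_is_greatest (P := fun a : ℕ => P.H n 0 a - P.H n a n ≤ c0 / 4)
      (n := n / 2) (Nat.lt_succ_self (P.al c0 n)) hn
  have h2 : P.H n 0 (P.al c0 n + 1 : ℕ) ≤ P.H n 0 a := P.H_mono le_rfl (by push_cast; omega)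
  have h3 : P.H n a n ≤ P.H n (P.al c0 n + 1 : ℕ) n := P.H_mono (by push_cast; omega) le_rfl
  linarith

theorem HT_eq (p q n u v : ℤ) : P.p (HT p q n u v) = P.H n (u - q) (v - q) := by
  have := P.p_HT_shift 0 0 n (u - q) (v - q) p q
  rw [H, ← this]
  congr 2 <;> ring

theorem HM_eq (p q n u v : ℤ) : P.p (HM p q n u v) = P.H n (u - q) (v - q) := by
  have := P.p_HM (-p) q n u v
  rw [neg_neg] at this
  rw [this, P.HT_eq]

/-- The probability of the cross event. -/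
theorem XX_ge {c0 : ℝ} (h0 : 0 ≤ c0) {n : ℕ} (hx : c0 ≤ P.H n (-n) n) (p q : ℤ) {a : ℤ}
    (ha : a ≤ P.al c0 n) : (c0 / 8) ^ 4 * c0 ≤ P.p (XX p q n a) := by
  have key := P.H_ge h0 hx ha
  have h8 : 0 ≤ c0 / 8 := by linarith only [h0]
  have e1 : c0 / 8 ≤ P.p (HT p q n (q + a) (q + n)) := by
    rw [P.HT_eq]; simpa only [add_sub_cancel_left] using key
  have e2 : c0 / 8 ≤ P.p (HT p q n (q - n) (q - a)) := by
    rw [P.HT_eq]
    have e5 : q - (n : ℤ) - q = -n := by ring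
    have e6 : q - a - q = -a := by ring
    rw [e5, e6, P.H_refl]; exact key
  have e3 : c0 / 8 ≤ P.p (HM p q n (q + a) (q + n)) := by
    rw [P.HM_eq]; simpa only [add_sub_cancel_left] using key
  have e4 : c0 / 8 ≤ P.p (HM p q n (q - n) (q - a)) := by
    rw [P.HM_eq]
    have e5 : q - (n : ℤ) - q = -n := by ring
    have e6 : q - a - q = -a := by ring
    rw [e5, e6, P.H_refl]; exact key
  have e5 : c0 ≤ P.p (CT p q n) := by
    rw [P.p_CT]; exact hx
  have h12 := P.fkg2 (T := fun S => HT p q n (q + a) (q + n) S ∧ HT p q n (q - n) (q - a) S)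
      (IL_HT _ _ _ _ _) (IL_HT _ _ _ _ _) (fun S _ x y => ⟨x, y⟩) h8 h8 e1 e2
  have h34 := P.fkg2 (T := fun S => HM p q n (q + a) (q + n) S ∧ HM p q n (q - n) (q - a) S)
      (IL_HM _ _ _ _ _) (IL_HM _ _ _ _ _) (fun S _ x y => ⟨x, y⟩) h8 h8 e3 e4
  have := P.fkg3 (T := XX p q n a) ((IL_HT _ _ _ _ _).and (IL_HT _ _ _ _ _))
    ((IL_HM _ _ _ _ _).and (IL_HM _ _ _ _ _)) (IL_CT _ _ _)
    (fun S _ x y z => ⟨x.1, x.2, y.1, y.2, z⟩) (mul_nonneg h8 h8) (mul_nonneg h8 h8) h0 h12 h34 e5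
  calc (c0 / 8) ^ 4 * c0 = c0 / 8 * (c0 / 8) * (c0 / 8 * (c0 / 8)) * c0 := by ring
    _ ≤ _ := this

end PT

end Vale.Agent.P153.F.RSW
end
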