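import Mathlib
import Vale.Agent.P153.Bd5.B1

set_option linter.all false

section

/-!
# P153, two-point part: Fourier coefficients of the Poisson kernel
-/

open MeasureTheory ProbabilityTheory Filter Topology Set
open scoped ENNReal Real

namespace Vale.Agent.P153.TwoPt

theorem integral_exp_int (n : ℤ) :
    ∫ θ in Icc (-π) π, Complex.exp (Complex.I * ((θ * n : ℝ) : ℂ)) =
      if n = 0 then ((2 * π : ℝ) : ℂ) else 0 := by
  have hpi := Real.pi_pos
  rw [integral_Icc_eq_integral_Ioc, ← intervalIntegral.integral_of_le (by linarith)]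
  split_ifs with h
  · subst h
    simp only [Int.cast_zero, mul_zero, Complex.ofReal_zero, Complex.exp_zero, intervalIntegral.integral_const, sub_neg_eq_add, Complex.real_smul, Complex.ofReal_add, mul_one, Complex.ofReal_mul, Complex.ofReal_ofNat]
    ring
  · have h2 : ∀ θ : ℝ, Complex.exp (Complex.I * ((θ * n : ℝ) : ℂ)) =
        Complex.exp ((Complex.I * n) * θ) := by
      intro θ
      congr 1
      push_cast
      ring
    simp_rw [h2]
    have hn : (Complex.I * (n : ℂ)) ≠ 0 := mul_ne_zero Complex.I_ne_zero (by exact_mod_cast h)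
    rw [integral_exp_mul_complex hn]
    have h3 : Complex.exp (Complex.I * n * (π : ℝ)) = Complex.exp (Complex.I * n * ((-π : ℝ) : ℂ)) := by
      have : Complex.I * (n : ℂ) * (π : ℝ) = Complex.I * n * ((-π : ℝ) : ℂ) +
          n * (2 * π * Complex.I) := by
        push_cast
        ring
      rw [this, Complex.exp_add, Complex.exp_int_mul_two_pi_mul_I, mul_one]
    rw [h3, sub_self, zero_div]

theorem den_pos {τ : ℝ} (h0 : 0 ≤ τ) (h1 : τ < 1) (θ : ℝ) : 0 < den τ θ := by
  unfold den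
  have := Real.cos_le_one θ
  have h3 : 0 < (1 - τ) ^ 2 := by
    have : 0 < 1 - τ := by linarith
    positivity
  nlinarith only [h3, h0, this]

theorem den_eq_norm (τ θ : ℝ) :
    den τ θ = ‖1 - (τ : ℂ) * Complex.exp (Complex.I * (θ : ℂ))‖ ^ 2 := by
  rw [← Complex.normSq_eq_norm_sq]
  rw [show Complex.I * (θ : ℂ) = θ * Complex.I by ring, Complex.exp_mul_I,
    ← Complex.ofReal_cos, ← Complex.ofReal_sin, Complex.normSq_apply]
  simp only [Complex.sub_re, Complex.one_re, Complex.mul_re, Complex.ofReal_re, Complex.add_re,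
    Complex.I_re, mul_zero, Complex.ofReal_im, Complex.I_im, mul_one, sub_self, add_zero,
    Complex.sub_im, Complex.one_im, Complex.mul_im, Complex.add_im, zero_mul, zero_add, zero_sub]
  unfold den
  linear_combination (-τ ^ 2) * Real.sin_sq_add_cos_sq θ

theorem den_factor (τ θ : ℝ) : (den τ θ : ℂ) = (1 - (τ : ℂ) * Complex.exp (Complex.I * (θ : ℂ))) *
    (1 - (τ : ℂ) * Complex.exp (-(Complex.I * (θ : ℂ)))) := by
  have h : (starRingEnd ℂ) (1 - (τ : ℂ) * Complex.exp (Complex.I * (θ : ℂ))) =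
      1 - (τ : ℂ) * Complex.exp (-(Complex.I * (θ : ℂ))) := by
    rw [map_sub, map_one, map_mul, Complex.conj_ofReal, ← Complex.exp_conj, map_mul,
      Complex.conj_I, Complex.conj_ofReal]
    congr 3
    ring
  rw [← h, Complex.mul_conj, Complex.normSq_eq_norm_sq, ← den_eq_norm]

theorem hasSum_poisson {τ : ℝ} (h0 : 0 ≤ τ) (h1 : τ < 1) (θ : ℝ) :
    HasSum (fun m : ℤ => ((τ ^ m.natAbs : ℝ) : ℂ) * Complex.exp (Complex.I * ((θ * m : ℝ) : ℂ)))
      (((1 - τ ^ 2 : ℝ) : ℂ) / (den τ θ : ℂ)) := by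
  set z : ℂ := (τ : ℂ) * Complex.exp (Complex.I * (θ : ℂ)) with hz
  set z' : ℂ := (τ : ℂ) * Complex.exp (-(Complex.I * (θ : ℂ))) with hz'
  have hnz : ‖z‖ < 1 := by
    rw [hz, norm_mul, Complex.norm_real, mul_comm Complex.I, Complex.norm_exp_ofReal_mul_I, mul_one,
      Real.norm_of_nonneg h0]
    exact h1
  have hnz' : ‖z'‖ < 1 := by
    rw [hz', norm_mul, Complex.norm_real,
      show -(Complex.I * (θ : ℂ)) = ((-θ : ℝ) : ℂ) * Complex.I by push_cast; ring,
      Complex.norm_exp_ofReal_mul_I, mul_one, Real.norm_of_nonneg h0]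
    exact h1
  have hg := hasSum_geometric_of_norm_lt_one hnz
  have hg' := (hasSum_geometric_of_norm_lt_one hnz').mul_left z'
  have hzz : z * z' = ((τ ^ 2 : ℝ) : ℂ) := by
    rw [hz, hz']
    rw [show (τ : ℂ) * Complex.exp (Complex.I * θ) * (τ * Complex.exp (-(Complex.I * θ))) =
      τ * τ * (Complex.exp (Complex.I * θ) * Complex.exp (-(Complex.I * θ))) by ring,
      ← Complex.exp_add, add_neg_cancel, Complex.exp_zero]
    push_cast
    ring
  have hne : (1 - z) ≠ 0 := by
    intro h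
    have : z = 1 := by linear_combination -h
    rw [this, norm_one] at hnz
    exact lt_irrefl _ hnz
  have hne' : (1 - z') ≠ 0 := by
    intro h
    have : z' = 1 := by linear_combination -h
    rw [this, norm_one] at hnz'
    exact lt_irrefl _ hnz'
  have hsum : ((1 - τ ^ 2 : ℝ) : ℂ) / (den τ θ : ℂ) = (1 - z)⁻¹ + z' * (1 - z')⁻¹ := by
    rw [den_factor, ← hz, ← hz']
    field_simp
    rw [Complex.ofReal_sub, ← hzz]
    push_cast
    ring
  rw [hsum]
  refine HasSum.of_nat_of_neg_add_one ?_ ?_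
  · have hfun : (fun n : ℕ => z ^ n) = fun n : ℕ => ((τ ^ (n : ℤ).natAbs : ℝ) : ℂ) *
        Complex.exp (Complex.I * ((θ * ((n : ℤ) : ℝ) : ℝ) : ℂ)) := by
      funext n
      rw [hz, mul_pow, ← Complex.exp_nat_mul, Int.natAbs_natCast]
      push_cast
      congr 2
      ring
    rw [← hfun]
    exact hg
  · have hfun : (fun n : ℕ => z' * z' ^ n) = fun n : ℕ =>
        ((τ ^ (-((n : ℤ) + 1)).natAbs : ℝ) : ℂ) *
        Complex.exp (Complex.I * ((θ * ((-((n : ℤ) + 1) : ℤ) : ℝ) : ℝ) : ℂ)) := by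
      funext n
      rw [hz', ← pow_succ', mul_pow, ← Complex.exp_nat_mul]
      have h5 : (-((n : ℤ) + 1)).natAbs = n + 1 := by omega
      rw [h5]
      push_cast
      congr 2
      ring
    rw [← hfun]
    exact hg'

/-- Fourier coefficients of `1/den`. -/
theorem poisson {τ : ℝ} (h0 : 0 ≤ τ) (h1 : τ < 1) (n : ℤ) :
    ∫ θ in Icc (-π) π, Complex.exp (Complex.I * ((θ * n : ℝ) : ℂ)) / (den τ θ : ℂ) =
      ((2 * π * (τ ^ n.natAbs / (1 - τ ^ 2)) : ℝ) : ℂ) := by
  have hpi := Real.pi_pos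
  have h12 : 0 < 1 - τ ^ 2 := by nlinarith only [h1, h0]
  set F : ℤ → ℝ → ℂ := fun m θ => ((τ ^ m.natAbs : ℝ) : ℂ) *
    Complex.exp (Complex.I * ((θ * ((m + n : ℤ) : ℝ) : ℝ) : ℂ)) with hF
  have hnF : ∀ m θ, ‖F m θ‖ = τ ^ m.natAbs := by
    intro m θ
    rw [hF]
    simp only
    rw [norm_mul, mul_comm Complex.I, Complex.norm_exp_ofReal_mul_I, mul_one, Complex.norm_real,
      Real.norm_of_nonneg (by (clear * - h0; positivity))]
  have hcont : ∀ m, Continuous (F m) := by
    intro m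
    rw [hF]
    (clear * -; fun_prop)
  have hsumτ : Summable fun m : ℤ => τ ^ m.natAbs := by
    refine Summable.of_nat_of_neg ?_ ?_
    · simpa only [Int.natAbs_natCast, summable_geometric_iff_norm_lt_one, Real.norm_eq_abs] using     summable_geometric_of_lt_one h0 h1
    · simpa only [Int.natAbs_neg, Int.natAbs_natCast, summable_geometric_iff_norm_lt_one, Real.norm_eq_abs] using     summable_geometric_of_lt_one h0 h1
  have hint : ∀ m, Integrable (F m) (volume.restrict (Icc (-π) π)) := fun m =>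
    (hcont m).continuousOn.integrableOn_compact isCompact_Icc
  have hI := hasSum_integral_of_summable_integral_norm hint (by
    simp_rw [hnF]
    simp only [integral_const, smul_eq_mul]
    exact hsumτ.mul_left _)
  have htsum : ∀ θ : ℝ, ∑' m, F m θ =
      ((1 - τ ^ 2 : ℝ) : ℂ) * (Complex.exp (Complex.I * ((θ * n : ℝ) : ℂ)) / (den τ θ : ℂ)) := by
    intro θ
    have h2 := (hasSum_poisson h0 h1 θ).mul_right (Complex.exp (Complex.I * ((θ * n : ℝ) : ℂ)))
    rw [show ((1 - τ ^ 2 : ℝ) : ℂ) * (Complex.exp (Complex.I * ((θ * n : ℝ) : ℂ)) / (den τ θ : ℂ)) =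
      ((1 - τ ^ 2 : ℝ) : ℂ) / (den τ θ : ℂ) * Complex.exp (Complex.I * ((θ * n : ℝ) : ℂ)) by ring,
      ← h2.tsum_eq]
    refine tsum_congr fun m => ?_
    rw [hF]
    simp only
    rw [mul_assoc, ← Complex.exp_add]
    congr 2
    push_cast
    ring
  have hterm : ∀ m, ∫ θ in Icc (-π) π, F m θ = if m = -n then ((2 * π * τ ^ n.natAbs : ℝ) : ℂ) else 0 := by
    intro m
    rw [hF]
    simp only
    rw [integral_const_mul, integral_exp_int]
    by_cases h : m = -n
    · subst h
      simp only [Int.natAbs_neg, Complex.ofReal_pow, neg_add_cancel, ↓reduceIte, Complex.ofReal_mul, Complex.ofReal_ofNat]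
      ring
    · rw [if_neg (by omega), if_neg h, mul_zero]
  have h3 : ∫ θ in Icc (-π) π, ((1 - τ ^ 2 : ℝ) : ℂ) *
      (Complex.exp (Complex.I * ((θ * n : ℝ) : ℂ)) / (den τ θ : ℂ)) =
      ((2 * π * τ ^ n.natAbs : ℝ) : ℂ) := by
    rw [← setIntegral_congr_fun measurableSet_Icc (fun θ _ => htsum θ), ← hI.tsum_eq]
    rw [tsum_congr hterm, tsum_ite_eq]
  rw [integral_const_mul] at h3
  have h4 : ((1 - τ ^ 2 : ℝ) : ℂ) ≠ 0 := by exact_mod_cast h12.ne'
  have h5 := eq_div_of_mul_eq h4 ((mul_comm _ _).trans h3)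
  rw [h5]
  push_cast
  ring

end Vale.Agent.P153.TwoPt
end

section

/-!
# P153, two-point part: bounds of the kernels (KB)
-/

open MeasureTheory ProbabilityTheory Filter Topology Set
open scoped ENNReal Real

namespace Vale.Agent.P153.TwoPt

theorem den_ge_sq {τ : ℝ} (h0 : 0 ≤ τ) (θ : ℝ) : (1 - τ) ^ 2 ≤ den τ θ := by
  unfold den
  have h1 := Real.cos_le_one θ
  have : 0 ≤ τ * (2 - 2 * Real.cos θ) := mul_nonneg h0 (by linarith)
  linarith only [this]

theorem den_ge_theta {τ : ℝ} (h0 : 0 ≤ τ) (h1 : τ < 1) {θ : ℝ} (hθ : |θ| ≤ π) :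
    θ ^ 2 / (4 * π ^ 2) ≤ den τ θ := by
  have hpi := Real.pi_pos
  have hc : Real.cos θ ≤ 1 - 2 / π ^ 2 * θ ^ 2 := Real.cos_le_one_sub_mul_cos_sq hθ
  rcases le_or_gt (1 / 2) τ with h | h
  · have h2 : τ * (4 / π ^ 2 * θ ^ 2) ≤ den τ θ := by
      unfold den
      have h3 : τ * (4 / π ^ 2 * θ ^ 2) ≤ τ * (2 - 2 * Real.cos θ) := by
        refine mul_le_mul_of_nonneg_left ?_ h0
        have : 4 / π ^ 2 * θ ^ 2 = 2 * (2 / π ^ 2 * θ ^ 2) := by ring
        linarith
      nlinarith only [h3]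
    refine le_trans ?_ h2
    have h4 : θ ^ 2 / (4 * π ^ 2) = (1 / 16) * (4 / π ^ 2 * θ ^ 2) := by
      field_simp
      ring
    rw [h4]
    refine mul_le_mul_of_nonneg_right (by linarith only [h]) (by positivity)
  · have h2 := den_ge_sq h0 θ
    have h3 : θ ^ 2 ≤ π ^ 2 := sq_le_sq' (by linarith only [abs_le.1 hθ]) (abs_le.1 hθ).2
    have h4 : θ ^ 2 / (4 * π ^ 2) ≤ 1 / 4 := by
      rw [div_le_div_iff₀ (by positivity) (by norm_num)]
      linarith only [h3]
    nlinarith only [h, h2, h4]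

theorem measurable_den (θ : ℝ) : Measurable fun τ : ℝ => den τ θ := by
  unfold den
  fun_prop

theorem den_neg (τ θ : ℝ) : den τ (-θ) = den τ θ := by
  unfold den
  rw [Real.cos_neg]

theorem norm_one_sub (τ θ : ℝ) :
    ‖1 - (τ : ℂ) * Complex.exp (-(Complex.I * (θ : ℂ)))‖ = Real.sqrt (den τ θ) := by
  have h := den_eq_norm τ (-θ)
  rw [den_neg] at h
  rw [h, Real.sqrt_sq (norm_nonneg _)]
  congr 4
  push_cast
  ring

theorem norm_one_sub_pow {z : ℂ} (hz : ‖z‖ ≤ 1) (K : ℕ) : ‖1 - z ^ K‖ ≤ K * ‖1 - z‖ := by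
  induction K with
  | zero => simp
  | succ K ih =>
    have h1 : 1 - z ^ (K + 1) = (1 - z ^ K) + z ^ K * (1 - z) := by ring
    rw [h1]
    refine (norm_add_le _ _).trans ?_
    rw [norm_mul, norm_pow]
    have h2 : ‖z‖ ^ K * ‖1 - z‖ ≤ 1 * ‖1 - z‖ :=
      mul_le_mul_of_nonneg_right (pow_le_one₀ (norm_nonneg _) hz) (norm_nonneg _)
    push_cast
    linarith

theorem norm_tau_exp {τ : ℝ} (h0 : 0 ≤ τ) (θ : ℝ) :
    ‖(τ : ℂ) * Complex.exp (-(Complex.I * (θ : ℂ)))‖ = τ := by
  rw [norm_mul, Complex.norm_real, Real.norm_of_nonneg h0,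
    show -(Complex.I * (θ : ℂ)) = ((-θ : ℝ) : ℂ) * Complex.I by push_cast; ring,
    Complex.norm_exp_ofReal_mul_I, mul_one]

/-- The integrand of `Om`. -/
theorem norm_Om_integrand {τ : ℝ} (h0 : 0 ≤ τ) (h1 : τ < 1) (θ : ℝ) (K : ℕ) :
    ‖(1 - ((τ : ℂ) * Complex.exp (-(Complex.I * (θ : ℂ)))) ^ K) / (den τ θ : ℂ)‖ ≤
      K / Real.sqrt (den τ θ) := by
  have hd := den_pos h0 h1 θ
  have hs := Real.sqrt_pos.2 hd
  rw [norm_div, Complex.norm_real, Real.norm_of_nonneg hd.le]
  have h2 : ‖1 - ((τ : ℂ) * Complex.exp (-(Complex.I * (θ : ℂ)))) ^ K‖ ≤ K * Real.sqrt (den τ θ) := by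
    have h3 := norm_one_sub_pow (z := (τ : ℂ) * Complex.exp (-(Complex.I * (θ : ℂ))))
      (by rw [norm_tau_exp h0]; exact h1.le) K
    rwa [norm_one_sub] at h3
  calc ‖1 - ((τ : ℂ) * Complex.exp (-(Complex.I * (θ : ℂ)))) ^ K‖ / den τ θ
      ≤ (K * Real.sqrt (den τ θ)) / den τ θ := div_le_div_of_nonneg_right h2 hd.le
    _ = K / Real.sqrt (den τ θ) := by
      rw [div_eq_div_iff hd.ne' hs.ne', mul_assoc, Real.mul_self_sqrt hd.le]

theorem KB : KBStatement := by
  intro V m c κ C k0 hS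
  have hpi := Real.pi_pos
  have hC := hS.C_pos
  refine ⟨C * (1 + 4 * π ^ 2), by positivity, ?_⟩
  filter_upwards [hS.supp, hS.mass, hS.inv] with k hsupp hmass hinv hk hk0 θ hθ
  have hm := hmass hk
  have hi := hinv hk hk0
  have hfin : IsFiniteMeasure (m k) := ⟨lt_of_le_of_lt hm ENNReal.ofReal_lt_top⟩
  have hk2 : 0 < k ^ 2 := by positivity
  have hkθ : 0 < k ^ 2 + θ ^ 2 := by positivity
  have hmeas : AEStronglyMeasurable (fun τ => 1 / den τ θ) (m k) :=
    ((measurable_den θ).const_div 1).aestronglyMeasurable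
  have hnn : 0 ≤ᵐ[m k] fun τ => 1 / den τ θ := by
    filter_upwards [hsupp] with τ hτ
    exact (one_div_pos.2 (den_pos hτ.1 hτ.2 θ)).le
  have hle1 : ∫⁻ τ, ENNReal.ofReal (1 / den τ θ) ∂(m k) ≤ ENNReal.ofReal (C / k ^ 2) := by
    refine (lintegral_mono_ae ?_).trans hi
    filter_upwards [hsupp] with τ hτ
    refine ENNReal.ofReal_le_ofReal ?_
    refine one_div_le_one_div_of_le ?_ (den_ge_sq hτ.1 θ)
    have : 0 < 1 - τ := by linarith [hτ.2]
    (clear * - this; positivity)
  have hint : Integrable (fun τ => 1 / den τ θ) (m k) := by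
    refine ⟨hmeas, ?_⟩
    rw [hasFiniteIntegral_iff_ofReal hnn]
    exact lt_of_le_of_lt hle1 ENNReal.ofReal_lt_top
  have hPsi : Psi m k θ = (∫⁻ τ, ENNReal.ofReal (1 / den τ θ) ∂(m k)).toReal := by
    unfold Psi
    exact integral_eq_lintegral_of_nonneg_ae hnn hmeas
  have hP1 : Psi m k θ * k ^ 2 ≤ C := by
    have : Psi m k θ ≤ C / k ^ 2 := by
      rw [hPsi]
      refine ENNReal.toReal_le_of_le_ofReal (by positivity) hle1
    rwa [le_div_iff₀ hk2] at this
  have hP2 : Psi m k θ * θ ^ 2 ≤ 4 * π ^ 2 * C := by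
    unfold Psi
    rw [← integral_mul_const]
    have h1 : ∫ τ, 1 / den τ θ * θ ^ 2 ∂(m k) ≤ ∫ τ, 4 * π ^ 2 ∂(m k) := by
      refine integral_mono_ae (hint.mul_const _) (integrable_const _) ?_
      filter_upwards [hsupp] with τ hτ
      have h2 := den_ge_theta hτ.1 hτ.2 hθ
      have h3 := den_pos hτ.1 hτ.2 θ
      rw [div_le_iff₀ (by positivity)] at h2
      show 1 / den τ θ * θ ^ 2 ≤ 4 * π ^ 2
      rw [one_div, inv_mul_le_iff₀ h3]
      linarith only [h2]
    refine h1.trans ?_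
    rw [integral_const, smul_eq_mul, mul_comm]
    refine mul_le_mul_of_nonneg_left ?_ (by positivity)
    exact ENNReal.toReal_le_of_le_ofReal hC.le hm
  have hP : Psi m k θ ≤ C * (1 + 4 * π ^ 2) / (k ^ 2 + θ ^ 2) := by
    rw [le_div_iff₀ hkθ, mul_add]
    linarith
  refine ⟨hint, hP, fun K => ?_⟩
  -- the causal kernel
  set s : ℝ := Real.sqrt (k ^ 2 + θ ^ 2) with hs
  have hs0 : 0 < s := Real.sqrt_pos.2 hkθ
  have hs2 : s * s = k ^ 2 + θ ^ 2 := Real.mul_self_sqrt hkθ.le
  have hg : Integrable (fun τ => (K : ℝ) * (1 / 2 * (1 / s + s * (1 / den τ θ)))) (m k) :=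
    (((integrable_const _).add (hint.const_mul s)).const_mul _).const_mul _
  have h1 : ‖Om m K k θ‖ ≤ ∫ τ, (K : ℝ) * (1 / 2 * (1 / s + s * (1 / den τ θ))) ∂(m k) := by
    unfold Om
    refine norm_integral_le_of_norm_le hg ?_
    filter_upwards [hsupp] with τ hτ
    refine (norm_Om_integrand hτ.1 hτ.2 θ K).trans ?_
    have h3 := den_pos hτ.1 hτ.2 θ
    set d := Real.sqrt (den τ θ) with hd
    have hd0 : 0 < d := Real.sqrt_pos.2 h3
    have hd2 : den τ θ = d * d := (Real.mul_self_sqrt h3.le).symm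
    rw [div_eq_mul_inv]
    refine mul_le_mul_of_nonneg_left ?_ (Nat.cast_nonneg K)
    rw [hd2]
    have h5 : 1 / 2 * (1 / s + s * (1 / (d * d))) - d⁻¹ = (s - d) ^ 2 / (2 * s * d ^ 2) := by
      field_simp
      ring
    have h6 : 0 ≤ (s - d) ^ 2 / (2 * s * d ^ 2) := by (clear * - hk0 h3; positivity)
    linarith only [h5, h6]
  refine h1.trans ?_
  rw [integral_const_mul, integral_const_mul, integral_add (integrable_const _) (hint.const_mul s),
    integral_const_mul, integral_const, smul_eq_mul]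
  have h7 : (m k).real univ ≤ C := ENNReal.toReal_le_of_le_ofReal hC.le hm
  have h8 : s * ∫ τ, 1 / den τ θ ∂(m k) ≤ C * (1 + 4 * π ^ 2) / s := by
    have h9 : s * Psi m k θ ≤ s * (C * (1 + 4 * π ^ 2) / (k ^ 2 + θ ^ 2)) :=
      mul_le_mul_of_nonneg_left hP hs0.le
    refine h9.trans (le_of_eq ?_)
    rw [← hs2]
    (clear * - hC hs0; field_simp)
  have h10 : (m k).real univ * (1 / s) ≤ C * (1 + 4 * π ^ 2) / s := by
    rw [mul_one_div]
    refine div_le_div_of_nonneg_right (h7.trans ?_) hs0.le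
    nlinarith only [hC]
  rw [mul_div_assoc]
  refine mul_le_mul_of_nonneg_left ?_ (Nat.cast_nonneg K)
  linarith only [h8, h10]

end Vale.Agent.P153.TwoPt
end

section

/-!
# Measures on the torus and their Fourier coefficients
-/

open MeasureTheory Filter Topology UnitAddTorus
open scoped NNReal ENNReal unitInterval

namespace Vale.Agent.P153.RP

variable {ι : Type*} [Fintype ι]

/-- finite measures on the torus with equal Fourier coefficients are equal -/
theorem ext_torus (μ ν : Measure (UnitAddTorus ι)) [IsFiniteMeasure μ] [IsFiniteMeasure ν]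
    (h : ∀ n : ι → ℤ, ∫ x, mFourier n x ∂μ = ∫ x, mFourier n x ∂ν) : μ = ν := by
  have hint : ∀ (ρ : Measure (UnitAddTorus ι)) [IsFiniteMeasure ρ] (f : C(UnitAddTorus ι, ℂ)),
      Integrable (fun x => f x) ρ := by
    intro ρ _ f
    exact Integrable.of_bound (C := ‖f‖) f.continuous.aestronglyMeasurable
      (Eventually.of_forall fun p => f.norm_coe_le_norm p)
  have hcont : ∀ (ρ : Measure (UnitAddTorus ι)) [IsFiniteMeasure ρ],
      Continuous fun f : C(UnitAddTorus ι, ℂ) => ∫ x, f x ∂ρ := by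
    intro ρ _
    refine (LipschitzWith.of_dist_le_mul (K := ⟨ρ.real Set.univ, by positivity⟩) fun f g => ?_).continuous
    rw [dist_eq_norm, ← integral_sub (hint ρ f) (hint ρ g)]
    refine (norm_integral_le_of_norm_le_const (C := dist f g) (Eventually.of_forall fun x => ?_)).trans ?_
    · rw [← dist_eq_norm]; exact ContinuousMap.dist_apply_le_dist x
    · rw [mul_comm]; rfl
  have hall : ∀ f : C(UnitAddTorus ι, ℂ), ∫ x, f x ∂μ = ∫ x, f x ∂ν := by
    have hcl : IsClosed {f : C(UnitAddTorus ι, ℂ) | ∫ x, f x ∂μ = ∫ x, f x ∂ν} :=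
      isClosed_eq (hcont μ) (hcont ν)
    have hspan : (Submodule.span ℂ (Set.range (mFourier (d := ι))) : Set C(UnitAddTorus ι, ℂ)) ⊆
        {f : C(UnitAddTorus ι, ℂ) | ∫ x, f x ∂μ = ∫ x, f x ∂ν} := by
      intro f hf
      refine Submodule.span_induction (p := fun f _ => ∫ x, f x ∂μ = ∫ x, f x ∂ν) ?_ ?_ ?_ ?_ hf
      · rintro _ ⟨n, rfl⟩; exact h n
      · simp
      · intro f g _ _ hf hg
        simp only [ContinuousMap.add_apply]
        rw [integral_add (hint μ f) (hint μ g), integral_add (hint ν f) (hint ν g), hf, hg]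
      · intro a f _ hf
        simp only [ContinuousMap.smul_apply]
        rw [integral_smul, integral_smul, hf]
    intro f
    have htop : f ∈ (Submodule.span ℂ (Set.range (mFourier (d := ι)))).topologicalClosure := by
      rw [span_mFourier_closure_eq_top]; trivial
    exact hcl.closure_subset_iff.2 hspan htop
  apply ext_of_forall_integral_eq_of_IsFiniteMeasure
  intro f
  have h1 := hall ⟨fun x => ((f x : ℝ) : ℂ), by (clear * -; fun_prop)⟩
  simp only [ContinuousMap.coe_mk] at h1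
  rw [integral_complex_ofReal, integral_complex_ofReal] at h1
  exact_mod_cast h1

/-- real character -/
noncomputable def cs (n : ι → ℤ) (x : UnitAddTorus ι) : ℝ := (mFourier n x).re

theorem cs_continuous (n : ι → ℤ) : Continuous (cs n) :=
  Complex.continuous_re.comp (mFourier n).continuous

theorem abs_cs_le (n : ι → ℤ) (x : UnitAddTorus ι) : |cs n x| ≤ 1 := by
  refine (Complex.abs_re_le_norm _).trans ?_
  refine ((mFourier n).norm_coe_le_norm x).trans ?_
  rw [mFourier_norm]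

theorem cs_integrable (n : ι → ℤ) (μ : Measure (UnitAddTorus ι)) [IsFiniteMeasure μ] :
    Integrable (cs n) μ :=
  Integrable.of_bound (C := 1) (cs_continuous n).aestronglyMeasurable
    (Eventually.of_forall fun p => abs_cs_le n p)

theorem cs_zero (x : UnitAddTorus ι) : cs (0 : ι → ℤ) x = 1 := by
  simp [cs, mFourier_zero]

theorem mFourier_neg_arg (n : ι → ℤ) (x : UnitAddTorus ι) : mFourier n (-x) = mFourier (-n) x := by
  simp only [mFourier, ContinuousMap.coe_mk, Pi.neg_apply]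
  apply Finset.prod_congr rfl
  intro i _
  rw [fourier_apply, fourier_apply]
  simp

theorem cs_neg_arg (n : ι → ℤ) (x : UnitAddTorus ι) : cs n (-x) = cs n x := by
  rw [cs, mFourier_neg_arg, mFourier_neg, Complex.conj_re, cs]

theorem cs_neg (n : ι → ℤ) (x : UnitAddTorus ι) : cs (-n) x = cs n x := by
  rw [cs, mFourier_neg, Complex.conj_re, cs]

/-- product formula -/
theorem cs_mul (n m : ι → ℤ) (x : UnitAddTorus ι) :
    cs n x * cs m x = (cs (n + m) x + cs (n - m) x) / 2 := by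
  unfold cs
  rw [sub_eq_add_neg, mFourier_add, mFourier_add, mFourier_neg]
  simp only [Complex.mul_re, Complex.conj_re, Complex.conj_im]
  ring

/-- invariance under `x ↦ -x` -/
def EvenM (μ : Measure (UnitAddTorus ι)) : Prop := μ.map (fun x => -x) = μ

omit [Fintype ι] in
theorem measurable_negT : Measurable (fun x : UnitAddTorus ι => -x) := by
  exact measurable_pi_iff.2 fun i => (measurable_pi_apply i).neg

theorem EvenM.integral_mFourier {μ : Measure (UnitAddTorus ι)} [IsFiniteMeasure μ] (h : EvenM μ)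
    (n : ι → ℤ) : ∫ x, mFourier n x ∂μ = ((∫ x, cs n x ∂μ : ℝ) : ℂ) := by
  have hint : Integrable (fun x => mFourier n x) μ :=
    Integrable.of_bound (C := ‖mFourier n‖) (mFourier n).continuous.aestronglyMeasurable
      (Eventually.of_forall fun p => (mFourier n).norm_coe_le_norm p)
  have h1 : ∫ x, mFourier n x ∂μ = ∫ x, (starRingEnd ℂ) (mFourier n x) ∂μ := by
    conv_lhs => rw [← h]
    rw [integral_map measurable_negT.aemeasurable (mFourier n).continuous.aestronglyMeasurable]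
    apply integral_congr_ae
    refine Eventually.of_forall fun x => ?_
    show mFourier n (-x) = _
    rw [mFourier_neg_arg, mFourier_neg]
  rw [integral_conj] at h1
  apply Complex.ext
  · rw [Complex.ofReal_re]
    exact (reCLM_int hint)
  · rw [Complex.ofReal_im]
    have := congrArg Complex.im h1
    rw [Complex.conj_im] at this
    linarith
where
  reCLM_int {μ : Measure (UnitAddTorus ι)} {n : ι → ℤ} (hint : Integrable (fun x => mFourier n x) μ) :
      (∫ x, mFourier n x ∂μ).re = ∫ x, cs n x ∂μ := by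
    have := integral_re (𝕜 := ℂ) hint
    exact this.symm

theorem ext_torus_even {μ ν : Measure (UnitAddTorus ι)} [IsFiniteMeasure μ] [IsFiniteMeasure ν]
    (hμ : EvenM μ) (hν : EvenM ν) (h : ∀ n : ι → ℤ, ∫ x, cs n x ∂μ = ∫ x, cs n x ∂ν) : μ = ν := by
  apply ext_torus
  intro n
  rw [hμ.integral_mFourier, hν.integral_mFourier, h]

/-- the point of the torus with momentum `k` -/
noncomputable def toT (k : ι → ℝ) : UnitAddTorus ι := fun i => ((k i / (2 * Real.pi) : ℝ) : UnitAddCircle)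

omit [Fintype ι] in
theorem toT_measurable : Measurable (toT : (ι → ℝ) → UnitAddTorus ι) := by
  refine measurable_pi_iff.2 fun i => ?_
  have : Measurable (fun r : ℝ => ((r / (2 * Real.pi) : ℝ) : UnitAddCircle)) :=
    AddCircle.measurable_mk'.comp (measurable_id.div_const _)
  exact this.comp (measurable_pi_apply i)

theorem cs_toT (n : ι → ℤ) (k : ι → ℝ) : cs n (toT k) = Real.cos (dotk k n) := by
  have h : mFourier n (toT k) = Complex.exp (((dotk k n : ℝ) : ℂ) * Complex.I) := by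
    simp only [mFourier, ContinuousMap.coe_mk, toT]
    simp_rw [fourier_coe_apply]
    rw [← Complex.exp_sum]
    congr 1
    rw [dotk, Complex.ofReal_sum, Finset.sum_mul]
    apply Finset.sum_congr rfl
    intro i _
    have hpi : (Real.pi : ℂ) ≠ 0 := by exact_mod_cast Real.pi_ne_zero
    push_cast
    field_simp
  rw [cs, h, Complex.exp_ofReal_mul_I_re]

/-- **Herglotz on the torus**: even positive semidefinite functions. -/
theorem herglotz_torus [DecidableEq ι] (C : (ι → ℤ) → ℝ) (heven : ∀ x, C (-x) = C x)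
    (h0 : ∀ (s : Finset (ι → ℤ)) (a : (ι → ℤ) → ℝ),
      0 ≤ ∑ p ∈ s, ∑ q ∈ s, a p * a q * C (p - q)) :
    ∃ μ : Measure (UnitAddTorus ι), IsFiniteMeasure μ ∧ EvenM μ ∧ ∀ n, ∫ x, cs n x ∂μ = C n := by
  obtain ⟨ν, hν⟩ := herglotz C heven h0
  have hm : Measurable (fun k : ι → KI => toT (fun i => (k i : ℝ))) := by
    apply toT_measurable.comp
    exact measurable_pi_iff.2 fun i => measurable_subtype_coe.comp (measurable_pi_apply i)
  let μ0 : Measure (UnitAddTorus ι) := (ν : Measure (ι → KI)).map (fun k => toT (fun i => (k i : ℝ)))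
  have h0' : ∀ n, ∫ x, cs n x ∂μ0 = C n := by
    intro n
    rw [integral_map hm.aemeasurable (cs_continuous n).aestronglyMeasurable, ← hν n]
    apply integral_congr_ae
    exact Eventually.of_forall fun k => cs_toT n _
  have hfin : IsFiniteMeasure μ0 := inferInstance
  let μ1 : Measure (UnitAddTorus ι) := μ0.map (fun x => -x)
  have hfin1 : IsFiniteMeasure μ1 := inferInstance
  have h1' : ∀ n, ∫ x, cs n x ∂μ1 = C n := by
    intro n
    rw [integral_map measurable_negT.aemeasurable (cs_continuous n).aestronglyMeasurable, ← h0' n]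
    apply integral_congr_ae
    exact Eventually.of_forall fun k => cs_neg_arg n _
  refine ⟨(2⁻¹ : ℝ≥0∞) • (μ0 + μ1), ?_, ?_, fun n => ?_⟩
  · exact Measure.smul_finite _ (by simp)
  · unfold EvenM
    rw [Measure.map_smul, Measure.map_add _ _ measurable_negT]
    congr 1
    have : μ1.map (fun x => -x) = μ0 := by
      show (μ0.map (fun x => -x)).map (fun x => -x) = μ0
      rw [Measure.map_map measurable_negT measurable_negT]
      have : ((fun x : UnitAddTorus ι => -x) ∘ fun x => -x) = id := by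
        funext x; simp
      rw [this, Measure.map_id]
    rw [this, add_comm]
  · rw [integral_smul_measure, integral_add_measure (cs_integrable n μ0) (cs_integrable n μ1),
      h0', h1', smul_eq_mul]
    simp only [ENNReal.toReal_inv, ENNReal.toReal_ofNat]
    ring

end Vale.Agent.P153.RP
end

section

/-!
# The spectral measure of a field with stationary increments

`V x = E (h(x) - h(0))²`.  `Phi V` is the unique even measure without mass on `{0}` such that
`V e = ∫ (2 - 2 cos (2π e·θ)) dPhi` for all `e`.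
-/

open MeasureTheory Filter Topology UnitAddTorus
open scoped NNReal ENNReal unitInterval

namespace Vale.Agent.P153.RP

variable {ι : Type*} [Fintype ι]

/-- gradient covariance `Cov (h(x+e) - h(x), h(e) - h(0))` -/
noncomputable def CV (V : (ι → ℤ) → ℝ) (e x : ι → ℤ) : ℝ := (V (x + e) + V (x - e) - 2 * V x) / 2

/-- hypotheses on the variogram -/
structure VH0 (V : (ι → ℤ) → ℝ) : Prop where
  zero : V 0 = 0
  even : ∀ x, V (-x) = V x
  cnd : ∀ (n : ℕ) (f : Fin n → (ι → ℤ)) (a : Fin n → ℝ), ∑ k, a k = 0 →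
    ∑ k, ∑ l, a k * a l * V (f k - f l) ≤ 0

variable {V : (ι → ℤ) → ℝ}

omit [Fintype ι] in
theorem VH0.cnd' (h : VH0 V) {κ : Type*} [Fintype κ] (f : κ → (ι → ℤ)) (a : κ → ℝ)
    (ha : ∑ k, a k = 0) : ∑ k, ∑ l, a k * a l * V (f k - f l) ≤ 0 := by
  have e := (Fintype.equivFin κ).symm
  have := h.cnd (Fintype.card κ) (fun k => f (e k)) (fun k => a (e k)) (by
    rw [Equiv.sum_comp e a]; exact ha)
  rw [← Equiv.sum_comp e (fun k => ∑ l, a k * a l * V (f k - f l))]
  refine le_trans (le_of_eq ?_) this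
  apply Finset.sum_congr rfl
  intro k _
  exact (Equiv.sum_comp e (fun l => a (e k) * a l * V (f (e k) - f l))).symm

omit [Fintype ι] in
theorem VH0.CV_even (h : VH0 V) (e x : ι → ℤ) : CV V e (-x) = CV V e x := by
  unfold CV
  rw [h.even x, show -x + e = -(x - e) by abel, show -x - e = -(x + e) by abel, h.even, h.even]
  ring

omit [Fintype ι] in
theorem VH0.CV_psd (h : VH0 V) (e : ι → ℤ) (s : Finset (ι → ℤ)) (a : (ι → ℤ) → ℝ) :
    0 ≤ ∑ p ∈ s, ∑ q ∈ s, a p * a q * CV V e (p - q) := by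
  have key := h.cnd' (κ := s × Bool) (fun k => if k.2 then (k.1 : ι → ℤ) + e else k.1)
    (fun k => if k.2 then a k.1 else -a k.1) (by
      rw [Fintype.sum_prod_type]
      apply Finset.sum_eq_zero
      intro p _
      simp only [Fintype.univ_bool, Finset.mem_singleton, Bool.true_eq_false, not_false_eq_true, Finset.sum_insert, ↓reduceIte, Finset.sum_singleton, Bool.false_eq_true, add_neg_cancel])
  have e1 : ∑ k : s × Bool, ∑ l : s × Bool, (if k.2 then a k.1 else -a k.1) *
      (if l.2 then a l.1 else -a l.1) *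
      V ((if k.2 then (k.1 : ι → ℤ) + e else k.1) - (if l.2 then (l.1 : ι → ℤ) + e else l.1)) =
      -2 * ∑ p ∈ s, ∑ q ∈ s, a p * a q * CV V e (p - q) := by
    have e2 : ∑ p ∈ s, ∑ q ∈ s, a p * a q * CV V e (p - q) =
        ∑ p : s, ∑ q : s, a p * a q * CV V e ((p : ι → ℤ) - q) := by
      rw [← Finset.sum_coe_sort]
      apply Finset.sum_congr rfl
      intro p _
      rw [← Finset.sum_coe_sort]
    rw [e2, Fintype.sum_prod_type]
    simp_rw [Fintype.sum_prod_type, Fintype.sum_bool]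
    rw [Finset.mul_sum]
    apply Finset.sum_congr rfl
    intro p _
    rw [← Finset.sum_add_distrib, Finset.mul_sum]
    apply Finset.sum_congr rfl
    intro q _
    simp only [if_true, Bool.false_eq_true, if_false]
    unfold CV
    rw [show (p : ι → ℤ) + e - (q + e) = p - q by abel, show (p : ι → ℤ) + e - q = p - q + e by abel,
      show (p : ι → ℤ) - (q + e) = p - q - e by abel]
    ring
  rw [e1] at key
  linarith only [key]

omit [Fintype ι] in
theorem VH0.CV_zero (h : VH0 V) (e : ι → ℤ) : CV V e 0 = V e := by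
  unfold CV
  rw [zero_add, zero_sub, h.even, h.zero]
  ring

variable [DecidableEq ι]

/-- the spectral measure of the gradient in direction `e` -/
noncomputable def PE (h : VH0 V) (e : ι → ℤ) : Measure (UnitAddTorus ι) :=
  (herglotz_torus (CV V e) (h.CV_even e) (h.CV_psd e)).choose

instance (h : VH0 V) (e : ι → ℤ) : IsFiniteMeasure (PE h e) :=
  (herglotz_torus (CV V e) (h.CV_even e) (h.CV_psd e)).choose_spec.1

theorem PE_even (h : VH0 V) (e : ι → ℤ) : EvenM (PE h e) :=
  (herglotz_torus (CV V e) (h.CV_even e) (h.CV_psd e)).choose_spec.2.1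

theorem PE_cs (h : VH0 V) (e n : ι → ℤ) : ∫ x, cs n x ∂(PE h e) = CV V e n :=
  (herglotz_torus (CV V e) (h.CV_even e) (h.CV_psd e)).choose_spec.2.2 n

/-! ### the density `X_e = 2 - 2 cos (2π e·θ)` -/

omit [DecidableEq ι]

/-- `2 - 2 cos (2π e·θ)` -/
noncomputable def XX (e : ι → ℤ) (θ : UnitAddTorus ι) : ℝ := 2 - 2 * cs e θ

theorem XX_nonneg (e : ι → ℤ) (θ : UnitAddTorus ι) : 0 ≤ XX e θ := by
  have := (abs_le.1 (abs_cs_le e θ)).2
  unfold XX; linarith only [this]

theorem XX_le (e : ι → ℤ) (θ : UnitAddTorus ι) : XX e θ ≤ 4 := by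
  have := (abs_le.1 (abs_cs_le e θ)).1
  unfold XX; linarith only [this]

theorem XX_continuous (e : ι → ℤ) : Continuous (XX e) := by
  unfold XX
  exact continuous_const.sub (continuous_const.mul (cs_continuous e))

/-- `X_e` as an extended nonnegative function -/
noncomputable def xe (e : ι → ℤ) (θ : UnitAddTorus ι) : ℝ≥0∞ := ENNReal.ofReal (XX e θ)

theorem xe_measurable (e : ι → ℤ) : Measurable (xe e) :=
  (XX_continuous e).measurable.ennreal_ofReal

theorem xe_neg (e : ι → ℤ) (θ : UnitAddTorus ι) : xe e (-θ) = xe e θ := by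
  unfold xe XX; rw [cs_neg_arg]

omit [Fintype ι] in
/-- evenness is preserved by even densities -/
theorem EvenM.withDensity {μ : Measure (UnitAddTorus ι)} (hμ : EvenM μ) {f : UnitAddTorus ι → ℝ≥0∞}
    (hf : Measurable f) (he : ∀ θ, f (-θ) = f θ) : EvenM (μ.withDensity f) := by
  unfold EvenM
  ext s hs
  rw [Measure.map_apply measurable_negT hs, withDensity_apply _ (measurable_negT hs),
    withDensity_apply _ hs]
  conv_rhs => rw [← hμ]
  rw [← lintegral_indicator hs, ← lintegral_indicator (measurable_negT hs),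
    lintegral_map (hf.indicator hs) measurable_negT]
  apply lintegral_congr
  intro θ
  by_cases h : -θ ∈ s
  · rw [Set.indicator_of_mem h, Set.indicator_of_mem (show θ ∈ (fun x => -x) ⁻¹' s from h), he]
  · rw [Set.indicator_of_notMem h, Set.indicator_of_notMem (show θ ∉ (fun x => -x) ⁻¹' s from h)]

instance isFinite_xe (μ : Measure (UnitAddTorus ι)) [IsFiniteMeasure μ] (e : ι → ℤ) :
    IsFiniteMeasure (μ.withDensity (xe e)) := by
  apply isFiniteMeasure_withDensity
  refine ne_of_lt (lt_of_le_of_lt (lintegral_mono (g := fun _ => ENNReal.ofReal 4) fun θ => ?_) ?_)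
  · exact ENNReal.ofReal_le_ofReal (XX_le e θ)
  · rw [lintegral_const]
    exact ENNReal.mul_lt_top ENNReal.ofReal_lt_top (measure_lt_top _ _)

theorem integral_xe (μ : Measure (UnitAddTorus ι)) (e : ι → ℤ) (g : UnitAddTorus ι → ℝ) :
    ∫ θ, g θ ∂(μ.withDensity (xe e)) = ∫ θ, XX e θ * g θ ∂μ := by
  have := integral_withDensity_eq_integral_smul (μ := μ) (f := fun θ => Real.toNNReal (XX e θ))
    ((XX_continuous e).measurable.real_toNNReal) g
  have h2 : (fun θ => ((Real.toNNReal (XX e θ) : ℝ≥0) : ℝ≥0∞)) = xe e := rfl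
  rw [h2] at this
  rw [this]
  apply integral_congr_ae
  refine Eventually.of_forall fun θ => ?_
  show (Real.toNNReal (XX e θ)) • g θ = _
  rw [NNReal.smul_def, Real.coe_toNNReal _ (XX_nonneg e θ), smul_eq_mul]

theorem XX_mul_cs (e n : ι → ℤ) (θ : UnitAddTorus ι) :
    XX e θ * cs n θ = 2 * cs n θ - cs (n + e) θ - cs (n - e) θ := by
  have := cs_mul n e θ
  unfold XX
  linarith

variable [DecidableEq ι]

theorem xe_PE_cs (h : VH0 V) (e e' n : ι → ℤ) :
    ∫ θ, cs n θ ∂((PE h e).withDensity (xe e')) =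
      2 * CV V e n - CV V e (n + e') - CV V e (n - e') := by
  rw [integral_xe]
  simp_rw [XX_mul_cs]
  rw [integral_sub, integral_sub, integral_const_mul, PE_cs, PE_cs, PE_cs]
  · exact (cs_integrable _ _).const_mul _
  · exact cs_integrable _ _
  · exact ((cs_integrable _ _).const_mul _).sub (cs_integrable _ _)
  · exact cs_integrable _ _

/-- the compatibility relation -/
theorem PE_comm (h : VH0 V) (e e' : ι → ℤ) :
    (PE h e).withDensity (xe e') = (PE h e').withDensity (xe e) := by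
  apply ext_torus_even
  · exact (PE_even h e).withDensity (xe_measurable _) (xe_neg _)
  · exact (PE_even h e').withDensity (xe_measurable _) (xe_neg _)
  · intro n
    rw [xe_PE_cs, xe_PE_cs]
    unfold CV
    rw [show n + e' + e = n + e + e' by abel, show n + e' - e = n - e + e' by abel,
      show n - e' + e = n + e - e' by abel, show n - e' - e = n - e - e' by abel]
    ring

/-! ### no mass on lines -/

omit [DecidableEq ι] in
/-- Cesàro averages of characters -/
theorem cesaro_cs (v : ι → ℤ) (θ : UnitAddTorus ι) :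
    Tendsto (fun N : ℕ => (N : ℝ)⁻¹ * ∑ a ∈ Finset.range N, cs ((a : ℤ) • v) θ) atTop
      (𝓝 (if mFourier v θ = 1 then 1 else 0)) := by
  set z : ℂ := mFourier v θ with hz
  have hpow : ∀ a : ℕ, mFourier ((a : ℤ) • v) θ = z ^ a := by
    intro a
    induction a with
    | zero => simp [mFourier_zero]
    | succ a ih =>
      rw [pow_succ, ← ih, hz, ← mFourier_add]
      congr 1
      push_cast
      rw [add_smul, one_smul]
  have hcs : ∀ a : ℕ, cs ((a : ℤ) • v) θ = (z ^ a).re := fun a => by rw [cs, hpow]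
  simp_rw [hcs]
  by_cases h1 : z = 1
  · rw [if_pos h1, h1]
    refine tendsto_const_nhds.congr' ?_
    filter_upwards [eventually_gt_atTop 0] with N hN
    have : (N : ℝ) ≠ 0 := by exact_mod_cast hN.ne'
    simp [this]
  · rw [if_neg h1]
    have hne : z - 1 ≠ 0 := sub_ne_zero.2 h1
    have hzn : ‖z‖ ≤ 1 := by
      refine ((mFourier v).norm_coe_le_norm θ).trans ?_
      rw [mFourier_norm]
    have hb : ∀ N : ℕ, |(N : ℝ)⁻¹ * ∑ a ∈ Finset.range N, (z ^ a).re| ≤ (N : ℝ)⁻¹ * (2 / ‖z - 1‖) := by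
      intro N
      rw [abs_mul, abs_of_nonneg (by (clear * -; positivity) : (0 : ℝ) ≤ (N : ℝ)⁻¹)]
      apply mul_le_mul_of_nonneg_left _ (by positivity)
      rw [← Complex.re_sum]
      refine (Complex.abs_re_le_norm _).trans ?_
      rw [geom_sum_eq h1, norm_div]
      apply div_le_div_of_nonneg_right _ (norm_nonneg _)
      refine (norm_sub_le _ _).trans ?_
      rw [norm_pow, norm_one]
      have := pow_le_one₀ (n := N) (norm_nonneg z) hzn
      linarith
    have hlim : Tendsto (fun N : ℕ => (N : ℝ)⁻¹ * (2 / ‖z - 1‖)) atTop (𝓝 0) := by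
      have := (tendsto_inv_atTop_nhds_zero_nat (𝕜 := ℝ)).mul_const (2 / ‖z - 1‖)
      simpa only [zero_mul] using this
    exact squeeze_zero_norm hb hlim

/-- mass of the lines through `0` for the gradient measures -/
theorem PE_line_lim (h : VH0 V) (e v : ι → ℤ) :
    Tendsto (fun N : ℕ => (N : ℝ)⁻¹ * ∑ a ∈ Finset.range N, CV V e ((a : ℤ) • v)) atTop
      (𝓝 ((PE h e).real {θ | mFourier v θ = 1})) := by
  have hmeas : MeasurableSet {θ : UnitAddTorus ι | mFourier v θ = 1} :=
    measurableSet_eq_fun (mFourier v).continuous.measurable measurable_const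
  have h1 : Tendsto (fun N : ℕ => ∫ θ, ((N : ℝ)⁻¹ * ∑ a ∈ Finset.range N, cs ((a : ℤ) • v) θ)
      ∂(PE h e)) atTop (𝓝 (∫ θ, (if mFourier v θ = 1 then (1 : ℝ) else 0) ∂(PE h e))) := by
    apply tendsto_integral_of_dominated_convergence (fun _ => (1 : ℝ))
    · intro N
      apply Continuous.aestronglyMeasurable
      exact continuous_const.mul (continuous_finsetSum _ fun a _ => cs_continuous _)
    · exact integrable_const _
    · intro N
      refine Eventually.of_forall fun θ => ?_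
      rw [Real.norm_eq_abs, abs_mul, abs_of_nonneg (by positivity : (0 : ℝ) ≤ (N : ℝ)⁻¹)]
      rcases Nat.eq_zero_or_pos N with rfl | hN
      · simp only [CharP.cast_eq_zero, inv_zero, Finset.range_zero, zsmul_eq_mul, Int.cast_natCast, Finset.sum_empty, abs_zero, mul_zero, zero_le_one]
      · have hN' : (0 : ℝ) < N := by exact_mod_cast hN
        rw [inv_mul_le_iff₀ hN', mul_one]
        refine (Finset.abs_sum_le_sum_abs _ _).trans ?_
        refine (Finset.sum_le_sum (g := fun _ => (1 : ℝ)) fun a _ => abs_cs_le _ _).trans ?_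
        simp
    · exact Eventually.of_forall fun θ => cesaro_cs v θ
  have h2 : ∀ N : ℕ, ∫ θ, ((N : ℝ)⁻¹ * ∑ a ∈ Finset.range N, cs ((a : ℤ) • v) θ) ∂(PE h e) =
      (N : ℝ)⁻¹ * ∑ a ∈ Finset.range N, CV V e ((a : ℤ) • v) := by
    intro N
    rw [integral_const_mul, integral_finsetSum _ fun a _ => cs_integrable _ _]
    simp_rw [PE_cs]
  have h6 : (fun θ : UnitAddTorus ι => (if mFourier v θ = 1 then (1 : ℝ) else 0)) =
      Set.indicator {θ | mFourier v θ = 1} (fun _ => 1) := by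
    funext θ
    by_cases hθ : mFourier v θ = 1
    · rw [if_pos hθ, Set.indicator_of_mem (show θ ∈ {θ | mFourier v θ = 1} from hθ)]
    · rw [if_neg hθ, Set.indicator_of_notMem (show θ ∉ {θ | mFourier v θ = 1} from hθ)]
  simp_rw [h2] at h1
  rw [h6, integral_indicator hmeas, setIntegral_const, smul_eq_mul, mul_one] at h1
  exact h1

/-! ### the measure `Phi` (dimension 2) -/

end Vale.Agent.P153.RP

namespace Vale.Agent.P153.RP

/-- unit vectors -/
def E1 : Fin 2 → ℤ := ![1, 0]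
def E2 : Fin 2 → ℤ := ![0, 1]

theorem E1_ne : E1 ≠ 0 := fun h => by have := congrFun h 0; simp only [E1, Fin.isValue, Matrix.cons_val_zero, Pi.zero_apply, one_ne_zero] at this
/-- hypotheses on the variogram: no random slope (`PE_line_of_mix`: true for mixing fields) -/
structure VH (V : (Fin 2 → ℤ) → ℝ) : Prop extends VH0 V where
  null : ∀ e, PE toVH0 e {θ | mFourier e θ = 1} = 0

variable {V : (Fin 2 → ℤ) → ℝ}

/-- `X₁ + X₂` -/
noncomputable def xs (θ : UnitAddTorus (Fin 2)) : ℝ≥0∞ := xe E1 θ + xe E2 θ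

theorem xs_measurable : Measurable xs := (xe_measurable _).add (xe_measurable _)

theorem xs_ne_top (θ : UnitAddTorus (Fin 2)) : xs θ ≠ ⊤ :=
  ENNReal.add_ne_top.2 ⟨ENNReal.ofReal_ne_top, ENNReal.ofReal_ne_top⟩

theorem mFourier_one_of_cs {n : Fin 2 → ℤ} {θ : UnitAddTorus (Fin 2)} (h : 1 ≤ cs n θ) :
    mFourier n θ = 1 := by
  have h2 : (1 : ℝ) ≤ (mFourier n θ).re := h
  have h3 : ‖mFourier n θ‖ ≤ 1 := by
    refine ((mFourier n).norm_coe_le_norm θ).trans ?_
    rw [mFourier_norm]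
  have h4 : (mFourier n θ).re ^ 2 + (mFourier n θ).im ^ 2 ≤ 1 := by
    have := Complex.sq_norm (mFourier n θ)
    rw [Complex.normSq_apply] at this
    nlinarith only [h3, this, norm_nonneg (mFourier n θ)]
  apply Complex.ext
  · rw [Complex.one_re]; nlinarith
  · rw [Complex.one_im]; nlinarith only [h2, h4]

theorem xe_zero {e : Fin 2 → ℤ} {θ : UnitAddTorus (Fin 2)} (h : xe e θ = 0) : mFourier e θ = 1 := by
  rw [xe, ENNReal.ofReal_eq_zero, XX] at h
  exact mFourier_one_of_cs (by linarith only [h])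

theorem mFourier_E (e : Fin 2 → ℤ) (θ : UnitAddTorus (Fin 2)) :
    mFourier e θ = mFourier E1 θ ^ (e 0) * mFourier E2 θ ^ (e 1) := by
  simp only [mFourier, ContinuousMap.coe_mk, Fin.prod_univ_two, E1, E2]
  simp only [Fin.isValue, fourier_apply, AddCircle.toCircle_zsmul, Circle.coe_zpow, Matrix.cons_val_zero, one_smul, Matrix.cons_val_one, Matrix.cons_val_fin_one, zero_smul, AddCircle.toCircle_zero, Circle.coe_one, mul_one, one_mul]

/-- at a zero of `xs` all characters are `1` -/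
theorem xs_zero' {θ : UnitAddTorus (Fin 2)} (h : xs θ = 0) (e : Fin 2 → ℤ) : mFourier e θ = 1 := by
  have h1 := xe_zero (add_eq_zero.1 h).1
  have h2 := xe_zero (add_eq_zero.1 h).2
  rw [mFourier_E, h1, h2, one_zpow, one_zpow, one_mul]

theorem PE_xs_zero (h : VH V) (e : Fin 2 → ℤ) : ∀ᵐ θ ∂(PE h.toVH0 e), xs θ ≠ 0 := by
  rw [ae_iff]
  refine measure_mono_null (fun θ hθ => ?_) (h.null e)
  simp only [not_not, Set.mem_ofPred_eq] at hθ
  exact xs_zero' hθ e

/-- the spectral measure of the heights -/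
noncomputable def Phi (h : VH V) : Measure (UnitAddTorus (Fin 2)) :=
  (PE h.toVH0 E1 + PE h.toVH0 E2).withDensity (fun θ => (xs θ)⁻¹)

theorem Phi_xs_zero (h : VH V) : ∀ᵐ θ ∂(Phi h), xs θ ≠ 0 := by
  refine (withDensity_absolutelyContinuous _ _).ae_le ?_
  show ∀ᵐ θ ∂(PE h.toVH0 E1 + PE h.toVH0 E2), xs θ ≠ 0
  rw [ae_add_measure_iff]
  exact ⟨PE_xs_zero h E1, PE_xs_zero h E2⟩

/-- **`X_e Phi` is the spectral measure of the gradient in direction `e`**, for all `e`. -/
theorem xe_Phi (h : VH V) (e : Fin 2 → ℤ) : (Phi h).withDensity (xe e) = PE h.toVH0 e := by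
  have h1 : (PE h.toVH0 E1 + PE h.toVH0 E2).withDensity (xe e) = (PE h.toVH0 e).withDensity xs := by
    rw [withDensity_add_measure, PE_comm, PE_comm h.toVH0 E2 e]
    have : xs = fun θ => xe E1 θ + xe E2 θ := rfl
    rw [this]
    exact (withDensity_add_left (xe_measurable E1) _).symm
  have hinv : Measurable fun θ => (xs θ)⁻¹ := xs_measurable.inv
  unfold Phi
  rw [← withDensity_mul _ hinv (xe_measurable e), mul_comm, withDensity_mul _ (xe_measurable e) hinv,
    h1, ← withDensity_mul _ xs_measurable hinv]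
  have h2 : (xs * fun θ => (xs θ)⁻¹) =ᵐ[PE h.toVH0 e] 1 := by
    filter_upwards [PE_xs_zero h e] with θ hθ
    exact ENNReal.mul_inv_cancel hθ (xs_ne_top θ)
  rw [withDensity_congr_ae h2, withDensity_one]

theorem PE_univ (h : VH0 V) (e : Fin 2 → ℤ) : PE h e Set.univ = ENNReal.ofReal (V e) := by
  have h1 := PE_cs h e 0
  simp_rw [cs_zero] at h1
  rw [integral_const, smul_eq_mul, mul_one, h.CV_zero] at h1
  rw [← h1, Measure.real, ENNReal.ofReal_toReal (measure_ne_top _ _)]

/-- **representation of the variogram** -/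
theorem lintegral_xe_Phi (h : VH V) (e : Fin 2 → ℤ) :
    ∫⁻ θ, xe e θ ∂(Phi h) = ENNReal.ofReal (V e) := by
  have := congrArg (fun μ : Measure (UnitAddTorus (Fin 2)) => μ Set.univ) (xe_Phi h e)
  simp only [withDensity_apply _ MeasurableSet.univ, Measure.restrict_univ] at this
  rw [this, PE_univ]

theorem VH0.nonneg (h : VH0 V) (e : Fin 2 → ℤ) : 0 ≤ V e := by
  have := h.cnd 2 ![e, 0] ![1, -1] (by simp)
  simp only [Fin.sum_univ_two, Fin.isValue, Matrix.cons_val_zero, mul_one, Matrix.cons_val_one, Matrix.cons_val_fin_one, mul_neg, sub_zero, neg_mul, sub_self, h.zero, mul_zero, one_mul, zero_add, zero_sub, h.even, neg_zero, add_zero, add_self_nonpos_iff, Left.neg_nonpos_iff] at this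
  linarith

theorem Phi_even (h : VH V) : EvenM (Phi h) := by
  have h1 : EvenM (PE h.toVH0 E1 + PE h.toVH0 E2) := by
    unfold EvenM
    rw [Measure.map_add _ _ measurable_negT, PE_even h.toVH0 E1, PE_even h.toVH0 E2]
  refine h1.withDensity (f := fun θ => (xs θ)⁻¹) xs_measurable.inv (fun θ => ?_)
  show (xs (-θ))⁻¹ = (xs θ)⁻¹
  congr 1
  unfold xs
  rw [xe_neg, xe_neg]

/-- **uniqueness** -/
theorem Phi_unique (h : VH V) (μ : Measure (UnitAddTorus (Fin 2))) (heven : EvenM μ)
    (h0 : ∀ᵐ θ ∂μ, xs θ ≠ 0)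
    (hV : ∀ e, ∫⁻ θ, xe e θ ∂μ = ENNReal.ofReal (V e)) : μ = Phi h := by
  have hfin : ∀ e, IsFiniteMeasure (μ.withDensity (xe e)) := fun e =>
    isFiniteMeasure_withDensity (by rw [hV]; exact ENNReal.ofReal_ne_top)
  have hint : ∀ e, Integrable (XX e) μ := by
    intro e
    refine ⟨(XX_continuous e).aestronglyMeasurable, ?_⟩
    rw [hasFiniteIntegral_iff_ofReal (Eventually.of_forall fun θ => XX_nonneg e θ)]
    have := hV e
    unfold xe at this
    rw [this]
    exact ENNReal.ofReal_lt_top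
  have hVi : ∀ e, ∫ θ, XX e θ ∂μ = V e := by
    intro e
    rw [integral_eq_lintegral_of_nonneg_ae (Eventually.of_forall fun θ => XX_nonneg e θ)
      (XX_continuous e).aestronglyMeasurable]
    have := hV e
    unfold xe at this
    rw [this, ENNReal.toReal_ofReal (h.nonneg e)]
  have hPE : ∀ e, μ.withDensity (xe e) = PE h.toVH0 e := by
    intro e
    have := hfin e
    apply ext_torus_even (heven.withDensity (xe_measurable e) (xe_neg e)) (PE_even h.toVH0 e)
    intro n
    have hs : ∫ θ, (XX (n + e) θ + XX (n - e) θ - 2 * XX n θ) ∂μ =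
        V (n + e) + V (n - e) - 2 * V n := by
      rw [integral_sub (f := fun θ => XX (n + e) θ + XX (n - e) θ) ((hint _).add (hint _))
        ((hint _).const_mul _), integral_add (hint _) (hint _), integral_const_mul,
        hVi, hVi, hVi]
    rw [integral_xe, PE_cs, CV, ← hs, ← integral_div]
    apply integral_congr_ae
    refine Eventually.of_forall fun θ => ?_
    have := XX_mul_cs e n θ
    simp only [this]
    unfold XX
    ring
  have h3 : μ.withDensity xs = PE h.toVH0 E1 + PE h.toVH0 E2 := by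
    rw [← hPE E1, ← hPE E2]
    exact withDensity_add_left (xe_measurable E1) _
  unfold Phi
  have hinv : Measurable fun θ => (xs θ)⁻¹ := xs_measurable.inv
  rw [← h3, ← withDensity_mul _ xs_measurable hinv]
  have h2 : (xs * fun θ => (xs θ)⁻¹) =ᵐ[μ] 1 := by
    filter_upwards [h0] with θ hθ
    exact ENNReal.mul_inv_cancel hθ (xs_ne_top θ)
  rw [withDensity_congr_ae h2, withDensity_one]

end Vale.Agent.P153.RP
end

section

/-!
# Facts on the circle
-/

open MeasureTheory Filter Topology Set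
open scoped NNReal ENNReal Real

namespace Vale.Agent.P153.RP

/-- the circle `ℝ/ℤ` -/
abbrev U := UnitAddCircle

theorem mp_dbl : MeasurePreserving (fun x : U => x + x) volume volume := by
  have h := Measure.measurePreserving_zsmul (volume : Measure U) (n := 2) (by norm_num)
  have : (fun x : U => x + x) = fun x => (2 : ℤ) • x := by
    funext x; rw [two_zsmul]
  rw [this]; exact h

/-- a section of the doubling map -/
noncomputable def half (x : U) : U := ((((AddCircle.equivIoc 1 0 x : Ioc (0 : ℝ) (0 + 1)) : ℝ) / 2 : ℝ) : U)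

theorem half_measurable : Measurable half := by
  have h1 : Measurable fun x : U => ((AddCircle.equivIoc 1 0 x : Ioc (0 : ℝ) (0 + 1)) : ℝ) :=
    measurable_subtype_coe.comp (AddCircle.measurableEquivIoc 1 0).measurable
  exact AddCircle.measurable_mk'.comp (h1.div_const 2)

theorem coe_equivIoc (x : U) : ((((AddCircle.equivIoc 1 0 x : Ioc (0 : ℝ) (0 + 1)) : ℝ)) : U) = x :=
  (AddCircle.equivIoc (1 : ℝ) 0).symm_apply_apply x

theorem half_add_half (x : U) : half x + half x = x := by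
  conv_rhs => rw [← coe_equivIoc x]
  unfold half
  rw [← AddCircle.coe_add]
  congr 1
  ring

/-- the element of order two -/
noncomputable def hf : U := ((1 / 2 : ℝ) : U)

theorem hf_add_hf : hf + hf = 0 := by
  unfold hf
  rw [← AddCircle.coe_add]
  have : (1 / 2 : ℝ) + 1 / 2 = 1 := by norm_num
  rw [this]
  exact AddCircle.coe_period 1

theorem dbl_eq_zero {x : U} (h : x + x = 0) : x = 0 ∨ x = hf := by
  obtain ⟨r, rfl⟩ := QuotientAddGroup.mk_surjective x
  have h1 : ((r + r : ℝ) : U) = 0 := h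
  rw [AddCircle.coe_eq_zero_iff] at h1
  obtain ⟨n, hn⟩ := h1
  rw [zsmul_eq_mul, mul_one] at hn
  obtain ⟨m, hm⟩ := Int.even_or_odd' n
  rcases hm with hm | hm
  · left
    show ((r : ℝ) : U) = 0
    rw [AddCircle.coe_eq_zero_iff]
    refine ⟨m, ?_⟩
    rw [zsmul_eq_mul, mul_one]
    have : (n : ℝ) = 2 * m := by rw [hm]; push_cast; ring
    linarith only [hn, this]
  · right
    show ((r : ℝ) : U) = hf
    unfold hf
    rw [← sub_eq_zero, ← AddCircle.coe_sub, AddCircle.coe_eq_zero_iff]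
    refine ⟨m, ?_⟩
    rw [zsmul_eq_mul, mul_one]
    have : (n : ℝ) = 2 * m + 1 := by rw [hm]; push_cast; ring
    linarith

theorem half_dbl (x : U) : half (x + x) = x ∨ half (x + x) = x + hf := by
  have h : (half (x + x) - x) + (half (x + x) - x) = 0 := by
    have := half_add_half (x + x)
    have h2 : half (x + x) - x + (half (x + x) - x) = (half (x + x) + half (x + x)) - (x + x) := by abel
    rw [h2, this, sub_self]
  rcases dbl_eq_zero h with h | h
  · left; exact sub_eq_zero.1 h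
  · right; rw [← h]; abel

/-! ### real coordinates -/

/-- the point of the circle with momentum `s` -/
noncomputable def pm (s : ℝ) : U := ((s / (2 * π) : ℝ) : U)

theorem pm_measurable : Measurable pm := AddCircle.measurable_mk'.comp (measurable_id.div_const _)

theorem pm_add (s t : ℝ) : pm (s + t) = pm s + pm t := by
  unfold pm; rw [add_div, AddCircle.coe_add]

theorem pm_sub (s t : ℝ) : pm (s - t) = pm s - pm t := by
  unfold pm; rw [sub_div, AddCircle.coe_sub]

theorem fourier_pm (n : ℤ) (s : ℝ) : fourier n (pm s) = Complex.exp (Complex.I * ((s * n : ℝ) : ℂ)) := by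
  unfold pm
  rw [fourier_coe_apply]
  congr 1
  have hpi : (π : ℂ) ≠ 0 := by exact_mod_cast Real.pi_ne_zero
  push_cast
  field_simp

theorem map_pm : (volume.restrict (Ioc (-π) π)).map pm = ENNReal.ofReal (2 * π) • (volume : Measure U) := by
  have hpi := Real.pi_pos
  have h1 := (UnitAddCircle.measurePreserving_mk (-(1 / 2))).map_eq
  rw [← h1]
  have h2 : (volume.restrict (Ioc (-π) π)).map (fun s : ℝ => (2 * π)⁻¹ * s) =
      ENNReal.ofReal (2 * π) • volume.restrict (Ioc (-(1 / 2) : ℝ) (-(1 / 2) + 1)) := by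
    have hc : (2 * π)⁻¹ ≠ 0 := by positivity
    have h3 : Ioc (-π) π = (fun s : ℝ => (2 * π)⁻¹ * s) ⁻¹' (Ioc (-(1 / 2) : ℝ) (-(1 / 2) + 1)) := by
      ext s
      simp only [mem_Ioc, mem_preimage]
      rw [inv_mul_eq_div, lt_div_iff₀ (by positivity), div_le_iff₀ (by positivity)]
      constructor
      · rintro ⟨h1, h2⟩; constructor <;> linarith only [h1, h2]
      · rintro ⟨h1, h2⟩; constructor <;> linarith only [h1, h2]
    rw [h3, ← Measure.restrict_map (measurable_const_mul _) measurableSet_Ioc,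
      Real.map_volume_mul_left hc, Measure.restrict_smul]
    congr 2
    rw [inv_inv, abs_of_pos (by positivity)]
  have h3 : pm = (fun r : ℝ => (r : U)) ∘ fun s : ℝ => (2 * π)⁻¹ * s := by
    funext s
    show ((s / (2 * π) : ℝ) : U) = _
    rw [div_eq_inv_mul]
    rfl
  rw [h3, ← Measure.map_map AddCircle.measurable_mk' (measurable_const_mul _), h2, Measure.map_smul]

theorem lintegral_U (f : U → ℝ≥0∞) (hf : Measurable f) :
    ∫⁻ s in Icc (-π) π, f (pm s) = ENNReal.ofReal (2 * π) * ∫⁻ x, f x := by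
  have h : ∫⁻ x, f x ∂((volume.restrict (Ioc (-π) π)).map pm) =
      ∫⁻ x, f x ∂(ENNReal.ofReal (2 * π) • (volume : Measure U)) := by rw [map_pm]
  rw [lintegral_map hf pm_measurable, lintegral_smul_measure, smul_eq_mul] at h
  rw [restrict_Ioc_eq_restrict_Icc] at h
  exact h

theorem integral_U {E : Type*} [NormedAddCommGroup E] [NormedSpace ℝ E] (f : U → E)
    (hf : AEStronglyMeasurable f volume) :
    ∫ s in Icc (-π) π, f (pm s) = (2 * π) • ∫ x, f x := by
  have h : ∫ x, f x ∂((volume.restrict (Ioc (-π) π)).map pm) =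
      ∫ x, f x ∂(ENNReal.ofReal (2 * π) • (volume : Measure U)) := by rw [map_pm]
  have hpi := Real.pi_pos
  rw [integral_map pm_measurable.aemeasurable, integral_smul_measure,
    ENNReal.toReal_ofReal (by positivity), restrict_Ioc_eq_restrict_Icc] at h
  · exact h
  · rw [map_pm]
    exact hf.smul_measure _

theorem qmp_pm : Measure.QuasiMeasurePreserving pm (volume : Measure ℝ) (volume : Measure U) := by
  have hpi := Real.pi_pos
  refine ⟨pm_measurable, ?_⟩
  intro s hs
  have hs' : volume (toMeasurable volume s) = 0 := by rwa [measure_toMeasurable]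
  set t := toMeasurable (volume : Measure U) s
  have ht : MeasurableSet t := measurableSet_toMeasurable _ _
  have hst : s ⊆ t := subset_toMeasurable _ _
  refine measure_mono_null hst ?_
  rw [Measure.map_apply pm_measurable ht]
  · have key : ∀ n : ℤ, volume (pm ⁻¹' t ∩ Ioc (-π + n * (2 * π)) (π + n * (2 * π))) = 0 := by
      intro n
      have h1 : pm ⁻¹' t ∩ Ioc (-π + n * (2 * π)) (π + n * (2 * π)) =
          (fun x => x + -(n * (2 * π))) ⁻¹' (pm ⁻¹' t ∩ Ioc (-π) π) := by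
        ext x
        have hx : pm (x + -(n * (2 * π))) = pm x := by
          rw [pm_add]
          have : pm (-(n * (2 * π))) = 0 := by
            unfold pm
            rw [AddCircle.coe_eq_zero_iff]
            refine ⟨-n, ?_⟩
            rw [zsmul_eq_mul, mul_one]
            push_cast
            (clear * -; field_simp)
          rw [this, add_zero]
        simp only [mem_inter_iff, mem_preimage, mem_Ioc, hx]
        constructor
        · rintro ⟨h1, h2, h3⟩; exact ⟨h1, by linarith only [h2], by linarith only [h3]⟩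
        · rintro ⟨h1, h2, h3⟩; exact ⟨h1, by linarith only [h2], by linarith only [h3]⟩
      rw [h1, measure_preimage_add_right]
      have h2 := congrArg (fun μ : Measure U => μ t) map_pm
      simp only [Measure.smul_apply, hs', smul_zero] at h2
      rw [Measure.map_apply pm_measurable ht, Measure.restrict_apply (pm_measurable ht)] at h2
      exact h2
    have hcov : pm ⁻¹' t ⊆ ⋃ n : ℤ, pm ⁻¹' t ∩ Ioc (-π + n * (2 * π)) (π + n * (2 * π)) := by
      intro x hx
      rw [mem_iUnion]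
      refine ⟨⌈(x - π) / (2 * π)⌉, hx, ?_, ?_⟩
      · have := Int.ceil_lt_add_one ((x - π) / (2 * π))
        have h2 : (⌈(x - π) / (2 * π)⌉ : ℝ) * (2 * π) < ((x - π) / (2 * π) + 1) * (2 * π) :=
          mul_lt_mul_of_pos_right this (by positivity)
        have h3 : ((x - π) / (2 * π) + 1) * (2 * π) = x + π := by field_simp; ring
        linarith only [h2, h3]
      · have := Int.le_ceil ((x - π) / (2 * π))
        have h2 : (x - π) / (2 * π) * (2 * π) ≤ (⌈(x - π) / (2 * π)⌉ : ℝ) * (2 * π) :=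
          mul_le_mul_of_nonneg_right this (by positivity)
        have h3 : (x - π) / (2 * π) * (2 * π) = x - π := by (clear * -; field_simp)
        linarith only [h2, h3]
    exact measure_mono_null hcov (measure_iUnion_null key)

theorem ae_pm {P : U → Prop} (h : ∀ᵐ y, P y) : ∀ᵐ s : ℝ, P (pm s) := qmp_pm.ae h

theorem ae_pm2 {P : U × U → Prop} (h : ∀ᵐ y, P y) : ∀ᵐ s : ℝ × ℝ, P (pm s.1, pm s.2) :=
  (MeasureTheory.QuasiMeasurePreserving.prodMap qmp_pm qmp_pm).ae h

/-! ### the Poisson kernel -/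

/-- `2 - 2 cos 2πϑ` -/
noncomputable def Xu (ϑ : U) : ℝ := 2 - 2 * (fourier 1 ϑ).re

theorem Xu_continuous : Continuous Xu :=
  continuous_const.sub (continuous_const.mul (Complex.continuous_re.comp (fourier 1).continuous))

theorem fourier_re_le (n : ℤ) (ϑ : U) : (fourier n ϑ).re ≤ 1 := by
  refine (Complex.re_le_norm _).trans ?_
  rw [fourier_apply]
  exact le_of_eq (Circle.norm_coe _)

theorem neg_le_fourier_re (n : ℤ) (ϑ : U) : -1 ≤ (fourier n ϑ).re := by
  have h1 := Complex.abs_re_le_norm (fourier n ϑ)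
  have h2 : ‖fourier n ϑ‖ = 1 := by rw [fourier_apply]; exact Circle.norm_coe _
  rw [h2] at h1
  exact (abs_le.1 h1).1

theorem Xu_nonneg (ϑ : U) : 0 ≤ Xu ϑ := by
  have := fourier_re_le 1 ϑ
  unfold Xu; linarith

theorem Xu_le (ϑ : U) : Xu ϑ ≤ 4 := by
  have := neg_le_fourier_re 1 ϑ
  unfold Xu; linarith

theorem Xu_pm (s : ℝ) : Xu (pm s) = 2 - 2 * Real.cos s := by
  unfold Xu
  rw [fourier_pm, mul_comm Complex.I, Complex.exp_ofReal_mul_I_re]
  push_cast
  rw [mul_one]

theorem Xu_neg (ϑ : U) : Xu (-ϑ) = Xu ϑ := by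
  unfold Xu
  rw [fourier_apply, fourier_apply, smul_neg, AddCircle.toCircle_neg, Circle.coe_inv_eq_conj,
    Complex.conj_re]

/-- `(1-τ)² + τ X(ϑ)` -/
noncomputable def dU (τ : ℝ) (ϑ : U) : ℝ := (1 - τ) ^ 2 + τ * Xu ϑ

theorem dU_pm (τ s : ℝ) : dU τ (pm s) = TwoPt.den τ s := by
  unfold dU TwoPt.den; rw [Xu_pm]

theorem dU_le {τ : ℝ} (h0 : 0 ≤ τ) (h1 : τ ≤ 1) (ϑ : U) : dU τ ϑ ≤ 4 := by
  have := Xu_le ϑ
  unfold dU
  nlinarith

theorem le_dU {τ : ℝ} (h0 : 0 ≤ τ) (_h1 : τ ≤ 1) (ϑ : U) : Xu ϑ / 4 ≤ dU τ ϑ := by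
  have h2 := Xu_le ϑ
  have h3 := Xu_nonneg ϑ
  unfold dU
  rcases le_total (Xu ϑ) 3 with h | h
  · nlinarith only [h3, h, sq_nonneg (1 - τ - Xu ϑ / 2)]
  · nlinarith only [h2, h0, h]

theorem dU_pos {τ : ℝ} (h0 : 0 ≤ τ) (h1 : τ < 1) (ϑ : U) : 0 < dU τ ϑ := by
  have h3 := Xu_nonneg ϑ
  unfold dU
  have : 0 < (1 - τ) ^ 2 := by have : 0 < 1 - τ := by linarith only [h1]
                               positivity
  nlinarith only [this, h0, h3]

theorem dU_measurable : Measurable fun p : ℝ × U => dU p.1 p.2 := by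
  unfold dU
  exact ((measurable_const.sub measurable_fst).pow_const 2).add
    (measurable_fst.mul (Xu_continuous.measurable.comp measurable_snd))

theorem dU_continuous (τ : ℝ) : Continuous (dU τ) := by
  unfold dU
  exact continuous_const.add (continuous_const.mul Xu_continuous)

theorem poisson_U {τ : ℝ} (h0 : 0 ≤ τ) (h1 : τ < 1) (n : ℤ) :
    ∫ ϑ : U, fourier n ϑ / (dU τ ϑ : ℂ) = ((τ ^ n.natAbs / (1 - τ ^ 2) : ℝ) : ℂ) := by
  have h := TwoPt.poisson h0 h1 n
  have hpi := Real.pi_pos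
  have hc : Continuous fun ϑ : U => fourier n ϑ / (dU τ ϑ : ℂ) := by
    refine (fourier n).continuous.div ?_ ?_
    · exact Complex.continuous_ofReal.comp (dU_continuous τ)
    · intro ϑ
      have := dU_pos h0 h1 ϑ
      exact_mod_cast this.ne'
  have h2 := integral_U (fun ϑ : U => fourier n ϑ / (dU τ ϑ : ℂ)) hc.aestronglyMeasurable
  simp_rw [fourier_pm, dU_pm] at h2
  rw [h2] at h
  have h3 : ((2 * π : ℝ) : ℂ) ≠ 0 := by
    have : (2 * π) ≠ 0 := by positivity
    exact_mod_cast this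
  rw [Complex.real_smul] at h
  have h4 : ((2 * π * (τ ^ n.natAbs / (1 - τ ^ 2)) : ℝ) : ℂ) =
      ((2 * π : ℝ) : ℂ) * ((τ ^ n.natAbs / (1 - τ ^ 2) : ℝ) : ℂ) := by push_cast; ring
  rw [h4] at h
  exact mul_left_cancel₀ h3 h

end Vale.Agent.P153.RP
end

section

/-!
# The folded spectral measure and reflection positivity
-/

open MeasureTheory Filter Topology Set UnitAddTorus
open scoped NNReal ENNReal Real unitInterval

namespace Vale.Agent.P153.RP

/-! ### transport to `U × U` -/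

/-- coordinates of the torus -/
def toP (θ : UnitAddTorus (Fin 2)) : U × U := (θ 0, θ 1)
/-- inverse of `toP` -/
def ofP (p : U × U) : UnitAddTorus (Fin 2) := ![p.1, p.2]

theorem toP_measurable : Measurable toP := (measurable_pi_apply 0).prodMk (measurable_pi_apply 1)

theorem ofP_measurable : Measurable ofP := by
  refine measurable_pi_iff.2 fun i => ?_
  fin_cases i
  · exact measurable_fst
  · exact measurable_snd

theorem toP_ofP (p : U × U) : toP (ofP p) = p := rfl

/-- real character on `U × U` -/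
noncomputable def cu (n m : ℤ) (p : U × U) : ℝ := (fourier n p.1 * fourier m p.2).re

theorem mFourier_ofP (n : Fin 2 → ℤ) (p : U × U) :
    mFourier n (ofP p) = fourier (n 0) p.1 * fourier (n 1) p.2 := by
  simp only [mFourier, fourier_apply, Fin.prod_univ_two, Fin.isValue, ofP, ContinuousMap.coe_mk, Matrix.cons_val_zero, Matrix.cons_val_one, Matrix.cons_val_fin_one]

theorem mFourier_eq (n : Fin 2 → ℤ) (θ : UnitAddTorus (Fin 2)) :
    mFourier n θ = fourier (n 0) (θ 0) * fourier (n 1) (θ 1) := by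
  simp only [mFourier, fourier_apply, Fin.prod_univ_two, Fin.isValue, ContinuousMap.coe_mk]

theorem cs_eq_cu (n : Fin 2 → ℤ) (θ : UnitAddTorus (Fin 2)) : cs n θ = cu (n 0) (n 1) (toP θ) := by
  rw [cs, mFourier_eq, cu]; rfl

theorem cu_continuous (n m : ℤ) : Continuous (cu n m) :=
  Complex.continuous_re.comp (((fourier n).continuous.comp continuous_fst).mul
    ((fourier m).continuous.comp continuous_snd))

theorem abs_cu_le (n m : ℤ) (p : U × U) : |cu n m p| ≤ 1 := by
  have h := abs_cs_le ![n, m] (ofP p)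
  rw [cs_eq_cu, toP_ofP] at h
  exact h

/-- evenness on `U × U` -/
def EvenP (μ : Measure (U × U)) : Prop := μ.map (fun p => -p) = μ

theorem ext_P {μ ν : Measure (U × U)} [IsFiniteMeasure μ] [IsFiniteMeasure ν]
    (hμ : EvenP μ) (hν : EvenP ν) (h : ∀ n m : ℤ, ∫ x, cu n m x ∂μ = ∫ x, cu n m x ∂ν) : μ = ν := by
  have hneg : Measurable (fun p : U × U => -p) := measurable_neg
  have hev : ∀ ρ : Measure (U × U), EvenP ρ → EvenM (ρ.map ofP) := by
    intro ρ hρ
    unfold EvenM
    rw [Measure.map_map measurable_negT ofP_measurable]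
    have : ((fun x : UnitAddTorus (Fin 2) => -x) ∘ ofP) = ofP ∘ (fun p : U × U => -p) := by
      funext p i
      fin_cases i <;> rfl
    rw [this, ← Measure.map_map ofP_measurable hneg, hρ]
  have hi : ∀ (ρ : Measure (U × U)) (n : Fin 2 → ℤ), ∫ x, cs n x ∂(ρ.map ofP) =
      ∫ p, cu (n 0) (n 1) p ∂ρ := by
    intro ρ n
    rw [integral_map ofP_measurable.aemeasurable (cs_continuous n).aestronglyMeasurable]
    apply integral_congr_ae
    refine Eventually.of_forall fun p => ?_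
    show cs n (ofP p) = _
    rw [cs_eq_cu, toP_ofP]
  have key : μ.map ofP = ν.map ofP := by
    apply ext_torus_even (hev μ hμ) (hev ν hν)
    intro n
    rw [hi, hi, h]
  have hc : ∀ ρ : Measure (U × U), (ρ.map ofP).map toP = ρ := by
    intro ρ
    rw [Measure.map_map toP_measurable ofP_measurable]
    have : toP ∘ ofP = id := rfl
    rw [this, Measure.map_id]
  rw [← hc μ, key, hc]

/-! ### hypotheses -/

/-- Hypotheses on the variogram of the triangular lattice: `(i,j) ↦ i (1,0) + j (1/2, √3/2)`;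
`rot` is the rotation by 60 degrees, `refl` the reflection across row `0`, `rp0`, `rp1` are
reflection positivity across row `0` for even and odd rows; `line`: no invariant functional for the
translation by two rows (`PE_line_of_mix`: true for mixing fields). -/
structure RPH (V : (Fin 2 → ℤ) → ℝ) : Prop extends VH V where
  rot : ∀ x : Fin 2 → ℤ, V ![-x 1, x 0 + x 1] = V x
  refl : ∀ x : Fin 2 → ℤ, V ![x 0 + x 1, -x 1] = V x
  rp0 : ∀ (n : ℕ) (x : Fin n → ℤ) (i : Fin n → ℕ) (a : Fin n → ℝ), ∑ k, a k = 0 →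
    ∑ k, ∑ l, a k * a l * V ![x k - x l - (i k + i l), 2 * (i k + i l)] ≤ 0
  rp1 : ∀ (n : ℕ) (x : Fin n → ℤ) (i : Fin n → ℕ) (a : Fin n → ℝ), ∑ k, a k = 0 →
    ∑ k, ∑ l, a k * a l * V ![x k - x l - (i k + i l + 1), 2 * (i k + i l + 1)] ≤ 0
  line : PE toVH0 E1 {θ | mFourier ![-1, 2] θ = 1} = 0

variable {V : (Fin 2 → ℤ) → ℝ}

theorem cf_E1 (x : Fin 2 → ℤ) : x + E1 = ![x 0 + 1, x 1] := by
  funext i; fin_cases i <;> simp [E1]

theorem cf_E1' (x : Fin 2 → ℤ) : x - E1 = ![x 0 - 1, x 1] := by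
  funext i; fin_cases i <;> simp [E1]

theorem CV_E1 (V : (Fin 2 → ℤ) → ℝ) (a b : ℤ) :
    CV V E1 ![a, b] = (V ![a + 1, b] + V ![a - 1, b] - 2 * V ![a, b]) / 2 := by
  unfold CV
  rw [cf_E1, cf_E1']
  rfl

theorem RPH.CV_refl (h : RPH V) (a b : ℤ) : CV V E1 ![a + b, -b] = CV V E1 ![a, b] := by
  rw [CV_E1, CV_E1]
  have h1 := h.refl ![a, b]
  have h2 := h.refl ![a + 1, b]
  have h3 := h.refl ![a - 1, b]
  simp only [Matrix.cons_val_zero, Matrix.cons_val_one] at h1 h2 h3
  rw [h1, ← h2, ← h3]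
  rw [show a + b + 1 = a + 1 + b by ring, show a + b - 1 = a - 1 + b by ring]

theorem VH0.CV_bdd (h : VH0 V) (x : Fin 2 → ℤ) : |CV V E1 x| ≤ V E1 := by
  rw [← PE_cs h]
  refine (abs_integral_le_integral_abs).trans ?_
  refine (integral_mono_of_nonneg (g := fun _ => (1 : ℝ)) (Eventually.of_forall fun θ => abs_nonneg _)
    (integrable_const _) (Eventually.of_forall fun θ => abs_cs_le _ _)).trans ?_
  rw [integral_const, smul_eq_mul, mul_one, Measure.real, PE_univ, ENNReal.toReal_ofReal (h.nonneg _)]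

/-- the folded correlation of gradients along rows -/
noncomputable def cf (V : (Fin 2 → ℤ) → ℝ) (x : Fin 1 → ℤ) (j : ℕ) : ℝ := CV V E1 ![x 0 - j, 2 * j]

theorem rp_fin (e : ℕ) (hrp : ∀ (n : ℕ) (x : Fin n → ℤ) (i : Fin n → ℕ) (a : Fin n → ℝ), ∑ k, a k = 0 →
    ∑ k, ∑ l, a k * a l * V ![x k - x l - (i k + i l + e), 2 * (i k + i l + e)] ≤ 0)
    (s : Finset ((Fin 1 → ℤ) × ℕ)) (a : (Fin 1 → ℤ) × ℕ → ℝ) :
    0 ≤ ∑ p ∈ s, ∑ q ∈ s, a p * a q * cf V (p.1 - q.1) (p.2 + q.2 + e) := by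
  have hrp' : ∀ {κ : Type} [Fintype κ] (x : κ → ℤ) (i : κ → ℕ) (a : κ → ℝ), ∑ k, a k = 0 →
      ∑ k, ∑ l, a k * a l * V ![x k - x l - (i k + i l + e), 2 * (i k + i l + e)] ≤ 0 := by
    intro κ _ x i a ha
    have E := (Fintype.equivFin κ).symm
    have := hrp (Fintype.card κ) (fun k => x (E k)) (fun k => i (E k)) (fun k => a (E k)) (by
      rw [Equiv.sum_comp E a]; exact ha)
    rw [← Equiv.sum_comp E (fun k => ∑ l, a k * a l *
      V ![x k - x l - (i k + i l + e), 2 * (i k + i l + e)])]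
    refine le_trans (le_of_eq ?_) this
    apply Finset.sum_congr rfl
    intro k _
    exact (Equiv.sum_comp E (fun l => a (E k) * a l *
      V ![x (E k) - x l - (i (E k) + i l + e), 2 * (i (E k) + i l + e)])).symm
  have key := hrp' (κ := s × Bool) (fun k => if k.2 then (k.1 : (Fin 1 → ℤ) × ℕ).1 0 + 1
      else (k.1 : (Fin 1 → ℤ) × ℕ).1 0) (fun k => (k.1 : (Fin 1 → ℤ) × ℕ).2)
    (fun k => if k.2 then a k.1 else -a k.1) (by
      rw [Fintype.sum_prod_type]
      apply Finset.sum_eq_zero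
      intro p _
      simp only [Fintype.univ_bool, Finset.mem_singleton, Bool.true_eq_false, not_false_eq_true, Finset.sum_insert, ↓reduceIte, Finset.sum_singleton, Bool.false_eq_true, add_neg_cancel])
  have e2 : ∑ p ∈ s, ∑ q ∈ s, a p * a q * cf V (p.1 - q.1) (p.2 + q.2 + e) =
      ∑ p : s, ∑ q : s, a p * a q * cf V ((p : (Fin 1 → ℤ) × ℕ).1 - (q : (Fin 1 → ℤ) × ℕ).1)
        ((p : (Fin 1 → ℤ) × ℕ).2 + (q : (Fin 1 → ℤ) × ℕ).2 + e) := by
    rw [← Finset.sum_coe_sort]
    apply Finset.sum_congr rfl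
    intro p _
    rw [← Finset.sum_coe_sort]
  rw [Fintype.sum_prod_type] at key
  simp_rw [Fintype.sum_prod_type, Fintype.sum_bool] at key
  have e1 : ∀ p q : s, a p * a q * cf V ((p : (Fin 1 → ℤ) × ℕ).1 - (q : (Fin 1 → ℤ) × ℕ).1)
        ((p : (Fin 1 → ℤ) × ℕ).2 + (q : (Fin 1 → ℤ) × ℕ).2 + e) = -(1 / 2) *
      ((a p * a q * V ![((p : (Fin 1 → ℤ) × ℕ).1 0 + 1) - ((q : (Fin 1 → ℤ) × ℕ).1 0 + 1) -
          ((p : (Fin 1 → ℤ) × ℕ).2 + (q : (Fin 1 → ℤ) × ℕ).2 + e),
          2 * ((p : (Fin 1 → ℤ) × ℕ).2 + (q : (Fin 1 → ℤ) × ℕ).2 + e)] +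
        a p * (-a q) * V ![((p : (Fin 1 → ℤ) × ℕ).1 0 + 1) - ((q : (Fin 1 → ℤ) × ℕ).1 0) -
          ((p : (Fin 1 → ℤ) × ℕ).2 + (q : (Fin 1 → ℤ) × ℕ).2 + e),
          2 * ((p : (Fin 1 → ℤ) × ℕ).2 + (q : (Fin 1 → ℤ) × ℕ).2 + e)]) +
       ((-a p) * a q * V ![((p : (Fin 1 → ℤ) × ℕ).1 0) - ((q : (Fin 1 → ℤ) × ℕ).1 0 + 1) -
          ((p : (Fin 1 → ℤ) × ℕ).2 + (q : (Fin 1 → ℤ) × ℕ).2 + e),
          2 * ((p : (Fin 1 → ℤ) × ℕ).2 + (q : (Fin 1 → ℤ) × ℕ).2 + e)] +
        (-a p) * (-a q) * V ![((p : (Fin 1 → ℤ) × ℕ).1 0) - ((q : (Fin 1 → ℤ) × ℕ).1 0) -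
          ((p : (Fin 1 → ℤ) × ℕ).2 + (q : (Fin 1 → ℤ) × ℕ).2 + e),
          2 * ((p : (Fin 1 → ℤ) × ℕ).2 + (q : (Fin 1 → ℤ) × ℕ).2 + e)])) := by
    intro p q
    unfold cf
    rw [CV_E1]
    push_cast
    rw [show ∀ A B C : ℤ, A + 1 - (B + 1) - C = A - B - C from fun A B C => by ring,
      show ∀ A B C : ℤ, A + 1 - B - C = A - B - C + 1 from fun A B C => by ring,
      show ∀ A B C : ℤ, A - (B + 1) - C = A - B - C - 1 from fun A B C => by ring]
    simp only [Pi.sub_apply]
    ring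
  rw [e2]
  simp_rw [e1]
  simp_rw [← Finset.mul_sum]
  have e3 : ∀ p : s, ∑ q : s,
      ((a p * a q * V ![((p : (Fin 1 → ℤ) × ℕ).1 0 + 1) - ((q : (Fin 1 → ℤ) × ℕ).1 0 + 1) -
          ((p : (Fin 1 → ℤ) × ℕ).2 + (q : (Fin 1 → ℤ) × ℕ).2 + e),
          2 * ((p : (Fin 1 → ℤ) × ℕ).2 + (q : (Fin 1 → ℤ) × ℕ).2 + e)] +
        a p * (-a q) * V ![((p : (Fin 1 → ℤ) × ℕ).1 0 + 1) - ((q : (Fin 1 → ℤ) × ℕ).1 0) -
          ((p : (Fin 1 → ℤ) × ℕ).2 + (q : (Fin 1 → ℤ) × ℕ).2 + e),
          2 * ((p : (Fin 1 → ℤ) × ℕ).2 + (q : (Fin 1 → ℤ) × ℕ).2 + e)]) +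
       ((-a p) * a q * V ![((p : (Fin 1 → ℤ) × ℕ).1 0) - ((q : (Fin 1 → ℤ) × ℕ).1 0 + 1) -
          ((p : (Fin 1 → ℤ) × ℕ).2 + (q : (Fin 1 → ℤ) × ℕ).2 + e),
          2 * ((p : (Fin 1 → ℤ) × ℕ).2 + (q : (Fin 1 → ℤ) × ℕ).2 + e)] +
        (-a p) * (-a q) * V ![((p : (Fin 1 → ℤ) × ℕ).1 0) - ((q : (Fin 1 → ℤ) × ℕ).1 0) -
          ((p : (Fin 1 → ℤ) × ℕ).2 + (q : (Fin 1 → ℤ) × ℕ).2 + e),
          2 * ((p : (Fin 1 → ℤ) × ℕ).2 + (q : (Fin 1 → ℤ) × ℕ).2 + e)])) =
      ∑ q : s, (a p * a q * V ![((p : (Fin 1 → ℤ) × ℕ).1 0 + 1) - ((q : (Fin 1 → ℤ) × ℕ).1 0 + 1) -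
          ((p : (Fin 1 → ℤ) × ℕ).2 + (q : (Fin 1 → ℤ) × ℕ).2 + e),
          2 * ((p : (Fin 1 → ℤ) × ℕ).2 + (q : (Fin 1 → ℤ) × ℕ).2 + e)] +
        a p * (-a q) * V ![((p : (Fin 1 → ℤ) × ℕ).1 0 + 1) - ((q : (Fin 1 → ℤ) × ℕ).1 0) -
          ((p : (Fin 1 → ℤ) × ℕ).2 + (q : (Fin 1 → ℤ) × ℕ).2 + e),
          2 * ((p : (Fin 1 → ℤ) × ℕ).2 + (q : (Fin 1 → ℤ) × ℕ).2 + e)]) +
      ∑ q : s, ((-a p) * a q * V ![((p : (Fin 1 → ℤ) × ℕ).1 0) - ((q : (Fin 1 → ℤ) × ℕ).1 0 + 1) -
          ((p : (Fin 1 → ℤ) × ℕ).2 + (q : (Fin 1 → ℤ) × ℕ).2 + e),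
          2 * ((p : (Fin 1 → ℤ) × ℕ).2 + (q : (Fin 1 → ℤ) × ℕ).2 + e)] +
        (-a p) * (-a q) * V ![((p : (Fin 1 → ℤ) × ℕ).1 0) - ((q : (Fin 1 → ℤ) × ℕ).1 0) -
          ((p : (Fin 1 → ℤ) × ℕ).2 + (q : (Fin 1 → ℤ) × ℕ).2 + e),
          2 * ((p : (Fin 1 → ℤ) × ℕ).2 + (q : (Fin 1 → ℤ) × ℕ).2 + e)]) :=
    fun p => Finset.sum_add_distrib
  simp_rw [e3]
  have key2 : ∀ t : ℝ, t ≤ 0 → 0 ≤ -(1 / 2) * t := fun t ht => by linarith only [ht]
  apply key2
  simpa only [Finset.univ_eq_attach, Fin.isValue, add_sub_add_right_eq_sub, mul_neg, neg_mul, neg_neg,     ↓reduceIte, Bool.false_eq_true] using key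

theorem RPH.rppos (h : RPH V) : RPPos (cf V) where
  even x j := by
    unfold cf
    have h1 := h.CV_refl (x 0 - j) (2 * j)
    rw [← h1, ← h.toVH0.CV_even]
    congr 1
    funext i
    fin_cases i
    · simp only [Fin.isValue, Pi.neg_apply, Fin.zero_eta, Matrix.cons_val_zero, neg_sub, sub_neg_eq_add]; ring
    · simp only [Fin.isValue, Pi.neg_apply, Fin.mk_one, Matrix.cons_val_one, Matrix.cons_val_fin_one]
  bdd := ⟨V E1, fun x j => h.toVH0.CV_bdd _⟩
  h0 s a := by
    have := rp_fin 0 (fun n x i a ha => by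
      have := h.rp0 n x i a ha
      simpa only [CharP.cast_eq_zero, add_zero, ge_iff_le] using this) s a
    simpa only [ge_iff_le, add_zero] using this
  h1 s a := by
    exact rp_fin 1 (fun n x i a ha => by
      have := h.rp1 n x i a ha
      simpa only [Nat.cast_one, ge_iff_le] using this) s a

/-! ### the measure `nu` -/

/-- the spectral measure of the positive two-row translation before symmetrisation -/
noncomputable def nu0 (h : RPH V) : Measure (U × ℝ) :=
  ((joint h.rppos).choose : Measure ((Fin 1 → KI) × I)).map (fun p => (pm (p.1 0), (p.2 : ℝ)))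

theorem nu0_meas : Measurable (fun p : (Fin 1 → KI) × I => (pm (p.1 0 : ℝ), (p.2 : ℝ))) := by
  refine Measurable.prodMk ?_ ?_
  · exact pm_measurable.comp (measurable_subtype_coe.comp ((measurable_pi_apply 0).comp measurable_fst))
  · exact measurable_subtype_coe.comp measurable_snd

instance (h : RPH V) : IsFiniteMeasure (nu0 h) := by unfold nu0; infer_instance

theorem nu0_supp (h : RPH V) : ∀ᵐ p ∂(nu0 h), p.2 ∈ Icc (0 : ℝ) 1 := by
  unfold nu0
  rw [ae_map_iff nu0_meas.aemeasurable (measurable_snd measurableSet_Icc)]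
  exact Eventually.of_forall fun p => p.2.2

theorem nu0_int (h : RPH V) (n : ℤ) (j : ℕ) :
    ∫ p, (fourier n p.1 : ℂ).re * p.2 ^ j ∂(nu0 h) = CV V E1 ![n - j, 2 * j] := by
  have h1 := (joint h.rppos).choose_spec (fun _ => n) j
  unfold cf at h1
  rw [← h1]
  unfold nu0
  have hm : Measurable fun p : U × ℝ => (fourier n p.1 : ℂ).re * p.2 ^ j := by
    refine Measurable.mul ?_ (measurable_snd.pow_const j)
    exact Complex.measurable_re.comp ((fourier n).continuous.measurable.comp measurable_fst)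
  rw [integral_map nu0_meas.aemeasurable hm.aestronglyMeasurable]
  apply integral_congr_ae
  refine Eventually.of_forall fun p => ?_
  show (fourier n (pm (p.1 0 : ℝ)) : ℂ).re * (p.2 : ℝ) ^ j = _
  rw [fourier_pm, mul_comm Complex.I, Complex.exp_ofReal_mul_I_re]
  simp only [Fin.isValue, dotk, Finset.univ_unique, Fin.default_eq_zero, Finset.sum_singleton]

/-- reflection of the momentum -/
def ng (p : U × ℝ) : U × ℝ := (-p.1, p.2)

theorem ng_meas : Measurable ng := (measurable_neg.comp measurable_fst).prodMk measurable_snd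

/-- the (symmetric) spectral measure of the positive two-row translation -/
noncomputable def nu (h : RPH V) : Measure (U × ℝ) := (2⁻¹ : ℝ≥0∞) • (nu0 h + (nu0 h).map ng)

instance (h : RPH V) : IsFiniteMeasure (nu h) := by
  unfold nu
  exact Measure.smul_finite _ (by simp)

theorem nu_supp (h : RPH V) : ∀ᵐ p ∂(nu h), p.2 ∈ Icc (0 : ℝ) 1 := by
  unfold nu
  refine Measure.ae_smul_measure ?_ _
  rw [ae_add_measure_iff]
  refine ⟨nu0_supp h, ?_⟩
  rw [ae_map_iff ng_meas.aemeasurable (measurable_snd measurableSet_Icc)]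
  exact nu0_supp h

theorem nu_ng (h : RPH V) : (nu h).map ng = nu h := by
  unfold nu
  rw [Measure.map_smul, Measure.map_add _ _ ng_meas, Measure.map_map ng_meas ng_meas]
  have : ng ∘ ng = id := by
    funext p
    simp only [Function.comp_apply, ng, neg_neg, Prod.mk.eta, id_eq]
  rw [this, Measure.map_id, add_comm]

theorem fourier_neg_arg (n : ℤ) (y : U) : (fourier n (-y) : ℂ) = (starRingEnd ℂ) (fourier n y) := by
  rw [fourier_apply, fourier_apply, smul_neg, AddCircle.toCircle_neg, Circle.coe_inv_eq_conj]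

theorem bdd_int {μ : Measure (U × ℝ)} [IsFiniteMeasure μ] (hs : ∀ᵐ p ∂μ, p.2 ∈ Icc (0 : ℝ) 1)
    (n : ℤ) (j : ℕ) : Integrable (fun p : U × ℝ => (fourier n p.1 : ℂ) * (p.2 ^ j : ℝ)) μ := by
  refine Integrable.of_bound (C := 1) ?_ ?_
  · apply Measurable.aestronglyMeasurable
    refine Measurable.mul ?_ ?_
    · exact (fourier n).continuous.measurable.comp measurable_fst
    · exact Complex.measurable_ofReal.comp (measurable_snd.pow_const j)
  · filter_upwards [hs] with p hp
    rw [norm_mul, fourier_apply, Circle.norm_coe, one_mul, Complex.norm_real, Real.norm_of_nonneg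
      (pow_nonneg hp.1 _)]
    exact pow_le_one₀ hp.1 hp.2

theorem nu_int (h : RPH V) (n : ℤ) (j : ℕ) :
    ∫ p, (fourier n p.1 : ℂ) * (p.2 ^ j : ℝ) ∂(nu h) = ((CV V E1 ![n - j, 2 * j] : ℝ) : ℂ) := by
  have hs0 := nu0_supp h
  have hs1 : ∀ᵐ p ∂((nu0 h).map ng), p.2 ∈ Icc (0 : ℝ) 1 := by
    rw [ae_map_iff ng_meas.aemeasurable (measurable_snd measurableSet_Icc)]
    exact nu0_supp h
  unfold nu
  rw [integral_smul_measure, integral_add_measure (bdd_int hs0 n j) (bdd_int hs1 n j),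
    integral_map ng_meas.aemeasurable]
  · have e1 : ∫ p, (fourier n (ng p).1 : ℂ) * ((ng p).2 ^ j : ℝ) ∂(nu0 h) =
        (starRingEnd ℂ) (∫ p, (fourier n p.1 : ℂ) * (p.2 ^ j : ℝ) ∂(nu0 h)) := by
      rw [← integral_conj]
      apply integral_congr_ae
      refine Eventually.of_forall fun p => ?_
      simp only [ng, map_mul, Complex.conj_ofReal]
      rw [fourier_neg_arg]
    rw [e1, Complex.add_conj]
    have e2 : (∫ p, (fourier n p.1 : ℂ) * (p.2 ^ j : ℝ) ∂(nu0 h)).re = CV V E1 ![n - j, 2 * j] := by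
      rw [← nu0_int h n j]
      have := integral_re (𝕜 := ℂ) (bdd_int hs0 n j)
      rw [show (∫ p, (fourier n p.1 : ℂ) * (p.2 ^ j : ℝ) ∂(nu0 h)).re =
        RCLike.re (∫ p, (fourier n p.1 : ℂ) * (p.2 ^ j : ℝ) ∂(nu0 h)) from rfl, ← this]
      apply integral_congr_ae
      refine Eventually.of_forall fun p => ?_
      show ((fourier n p.1 : ℂ) * (p.2 ^ j : ℝ)).re = _
      rw [Complex.re_mul_ofReal]
    rw [e2]
    simp only [ENNReal.toReal_inv, ENNReal.toReal_ofNat, Complex.ofReal_mul, Complex.ofReal_ofNat, Complex.real_smul, Complex.ofReal_inv, ne_eq, OfNat.ofNat_ne_zero, not_false_eq_true, inv_mul_cancel_left₀]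
  · exact (bdd_int hs1 n j).aestronglyMeasurable

theorem nu_univ (h : RPH V) : nu h univ = ENNReal.ofReal (V E1) := by
  have h1 := nu_int h 0 0
  simp only [fourier_zero, pow_zero, Complex.ofReal_one, mul_one] at h1
  rw [integral_const] at h1
  have h2 : CV V E1 ![0 - ((0 : ℕ) : ℤ), 2 * ((0 : ℕ) : ℤ)] = V E1 := by
    have : (![0 - ((0 : ℕ) : ℤ), 2 * ((0 : ℕ) : ℤ)] : Fin 2 → ℤ) = 0 := by
      funext i; fin_cases i <;> simp
    rw [this, h.toVH0.CV_zero]
  rw [h2] at h1
  have h3 : (nu h).real univ = V E1 := by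
    have := congrArg Complex.re h1
    simpa only [Complex.real_smul, mul_one, Complex.ofReal_re] using this
  rw [← h3, Measure.real, ENNReal.ofReal_toReal (measure_ne_top _ _)]

/-- mixing kills the mass at `τ = 1` -/
theorem nu_one (h : RPH V) : ∀ᵐ p ∂(nu h), p.2 ≠ 1 := by
  rw [ae_iff]
  simp only [not_not]
  have hms : MeasurableSet {p : U × ℝ | p.2 = 1} := measurable_snd (measurableSet_singleton (1 : ℝ))
  have hb : ∀ j : ℕ, (nu h).real {p : U × ℝ | p.2 = 1} ≤ CV V E1 ![0 - j, 2 * j] := by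
    intro j
    have h1 : ∫ p, p.2 ^ j ∂(nu h) = CV V E1 ![0 - j, 2 * j] := by
      have := nu_int h 0 j
      simp only [fourier_zero, one_mul] at this
      rw [integral_complex_ofReal] at this
      exact_mod_cast this
    rw [← h1]
    have h2 : (nu h).real {p : U × ℝ | p.2 = 1} = ∫ p, indicator {p : U × ℝ | p.2 = 1} (fun _ => (1 : ℝ)) p
        ∂(nu h) := by
      rw [integral_indicator hms, setIntegral_const, smul_eq_mul, mul_one]
    rw [h2]
    have hint : Integrable (fun p : U × ℝ => p.2 ^ j) (nu h) := by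
      have := (bdd_int (nu_supp h) 0 j).re
      refine this.congr (Eventually.of_forall fun p => ?_)
      simp only [fourier_zero, one_mul]
      exact Complex.ofReal_re _
    apply integral_mono_ae _ hint
    · filter_upwards [nu_supp h] with p hp
      by_cases h1 : p.2 = 1
      · rw [indicator_of_mem (show p ∈ {p : U × ℝ | p.2 = 1} from h1), h1, one_pow]
      · rw [indicator_of_notMem (show p ∉ {p : U × ℝ | p.2 = 1} from h1)]
        exact pow_nonneg hp.1 _
    · exact (integrable_const (1 : ℝ)).indicator hms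
  have hlim := PE_line_lim h.toVH0 E1 ![-1, 2]
  rw [Measure.real, h.line, ENNReal.toReal_zero] at hlim
  have h0 : (nu h).real {p : U × ℝ | p.2 = 1} ≤ 0 := by
    refine ge_of_tendsto hlim ?_
    filter_upwards [eventually_gt_atTop 0] with N hN
    have hN' : (0 : ℝ) < N := by exact_mod_cast hN
    rw [le_inv_mul_iff₀ hN']
    calc (N : ℝ) * (nu h).real {p : U × ℝ | p.2 = 1} =
        ∑ _a ∈ Finset.range N, (nu h).real {p : U × ℝ | p.2 = 1} := by simp only [Finset.sum_const, Finset.card_range, nsmul_eq_mul]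
      _ ≤ _ := by
        apply Finset.sum_le_sum
        intro a _
        refine (hb a).trans (le_of_eq ?_)
        congr 1
        funext i
        fin_cases i
        · simp only [zero_sub, Nat.succ_eq_add_one, Nat.reduceAdd, Fin.zero_eta, Fin.isValue, Matrix.cons_val_zero, Int.reduceNeg, Pi.smul_apply, Int.zsmul_eq_mul, mul_neg, mul_one]
        · simp only [zero_sub, Nat.succ_eq_add_one, Nat.reduceAdd, Fin.mk_one, Fin.isValue, Matrix.cons_val_one, Matrix.cons_val_fin_one, Int.reduceNeg, Pi.smul_apply, Int.zsmul_eq_mul]; ring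
  have h1 : (nu h).real {p : U × ℝ | p.2 = 1} = 0 := le_antisymm h0 measureReal_nonneg
  rw [Measure.real, ENNReal.toReal_eq_zero_iff] at h1
  rcases h1 with h1 | h1
  · exact h1
  · exact absurd h1 (measure_ne_top _ _)

theorem nu_ae (h : RPH V) : ∀ᵐ p ∂(nu h), 0 ≤ p.2 ∧ p.2 < 1 := by
  filter_upwards [nu_supp h, nu_one h] with p h1 h2
  exact ⟨h1.1, lt_of_le_of_ne h1.2 h2⟩

/-! ### Poisson mixtures -/

/-- Poisson kernel -/
noncomputable def PK (q : (U × ℝ) × U) : ℝ≥0∞ := ENNReal.ofReal ((1 - q.1.2 ^ 2) / dU q.1.2 q.2)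

theorem PKr_measurable : Measurable fun q : (U × ℝ) × U => (1 - q.1.2 ^ 2) / dU q.1.2 q.2 := by
  refine Measurable.div ?_ ?_
  · exact measurable_const.sub ((measurable_snd.comp measurable_fst).pow_const 2)
  · exact dU_measurable.comp ((measurable_snd.comp measurable_fst).prodMk measurable_snd)

theorem PK_measurable : Measurable PK := PKr_measurable.ennreal_ofReal

theorem cont_dU_inv {τ : ℝ} (h0 : 0 ≤ τ) (h1 : τ < 1) (g : C(U, ℂ)) :
    Continuous fun ϑ : U => g ϑ / (dU τ ϑ : ℂ) := by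
  refine g.continuous.div (Complex.continuous_ofReal.comp (dU_continuous τ)) fun ϑ => ?_
  have := dU_pos h0 h1 ϑ
  exact_mod_cast this.ne'

theorem integrable_U {E : Type*} [NormedAddCommGroup E] {f : U → E} (hf : Continuous f) :
    Integrable f volume := by
  have := hf.continuousOn (s := univ)
  have h2 := this.integrableOn_compact (μ := (volume : Measure U)) isCompact_univ
  rwa [integrableOn_univ] at h2

theorem integral_inv_dU {τ : ℝ} (h0 : 0 ≤ τ) (h1 : τ < 1) : ∫ ϑ : U, 1 / dU τ ϑ = 1 / (1 - τ ^ 2) := by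
  have h := poisson_U h0 h1 0
  simp only [fourier_zero, Int.natAbs_zero, pow_zero] at h
  rw [← Complex.ofReal_inj, ← h, ← integral_complex_ofReal]
  apply integral_congr_ae
  refine Eventually.of_forall fun ϑ => ?_
  push_cast
  rfl

theorem lintegral_inv_dU {τ : ℝ} (h0 : 0 ≤ τ) (h1 : τ < 1) :
    ∫⁻ ϑ : U, ENNReal.ofReal (1 / dU τ ϑ) = ENNReal.ofReal (1 / (1 - τ ^ 2)) := by
  rw [← integral_inv_dU h0 h1, ofReal_integral_eq_lintegral_ofReal]
  · apply integrable_U
    refine continuous_const.div (dU_continuous τ) fun ϑ => (dU_pos h0 h1 ϑ).ne'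
  · exact Eventually.of_forall fun ϑ => (one_div_pos.2 (dU_pos h0 h1 ϑ)).le

theorem one_sub_sq_pos {τ : ℝ} (h0 : 0 ≤ τ) (h1 : τ < 1) : 0 < 1 - τ ^ 2 := by nlinarith

theorem lintegral_PK {y : U} {τ : ℝ} (h0 : 0 ≤ τ) (h1 : τ < 1) : ∫⁻ ϑ : U, PK ((y, τ), ϑ) = 1 := by
  have h2 := one_sub_sq_pos h0 h1
  have : ∀ ϑ : U, PK ((y, τ), ϑ) = ENNReal.ofReal (1 - τ ^ 2) * ENNReal.ofReal (1 / dU τ ϑ) := by
    intro ϑ
    rw [← ENNReal.ofReal_mul h2.le, mul_one_div]
    rfl
  simp_rw [this]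
  have hm : Measurable fun ϑ : U => ENNReal.ofReal (1 / dU τ ϑ) :=
    (measurable_const.div (dU_continuous τ).measurable).ennreal_ofReal
  rw [lintegral_const_mul _ hm,
    lintegral_inv_dU h0 h1, ← ENNReal.ofReal_mul h2.le, mul_one_div, div_self h2.ne',
    ENNReal.ofReal_one]

/-- product measure with the Poisson kernel -/
noncomputable def W0 (h : RPH V) : Measure ((U × ℝ) × U) :=
  ((nu h).prod (volume : Measure U)).withDensity PK

theorem W0_univ (h : RPH V) : W0 h univ = nu h univ := by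
  unfold W0
  rw [withDensity_apply _ MeasurableSet.univ, Measure.restrict_univ,
    lintegral_prod _ PK_measurable.aemeasurable]
  rw [lintegral_congr_ae (g := fun _ => 1)]
  · simp only [lintegral_const, one_mul]
  · filter_upwards [nu_ae h] with p hp
    exact lintegral_PK hp.1 hp.2

instance (h : RPH V) : IsFiniteMeasure (W0 h) :=
  ⟨by rw [W0_univ]; exact measure_lt_top _ _⟩

/-- the map `((y,τ),ϑ) ↦ (y,ϑ)` -/
def pw (q : (U × ℝ) × U) : U × U := (q.1.1, q.2)

theorem pw_meas : Measurable pw := (measurable_fst.comp measurable_fst).prodMk measurable_snd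

/-- the Poisson mixture of `nu` -/
noncomputable def Wm (h : RPH V) : Measure (U × U) := (W0 h).map pw

instance (h : RPH V) : IsFiniteMeasure (Wm h) := by unfold Wm; infer_instance

theorem integral_W0 (h : RPH V) (g : (U × ℝ) × U → ℂ) :
    ∫ q, g q ∂(W0 h) = ∫ q, ((((1 - q.1.2 ^ 2) / dU q.1.2 q.2) : ℝ) : ℂ) * g q
      ∂((nu h).prod (volume : Measure U)) := by
  have := integral_withDensity_eq_integral_smul (μ := (nu h).prod (volume : Measure U))
    (f := fun q => Real.toNNReal ((1 - q.1.2 ^ 2) / dU q.1.2 q.2))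
    PKr_measurable.real_toNNReal g
  have h2 : (fun q : (U × ℝ) × U => ((Real.toNNReal ((1 - q.1.2 ^ 2) / dU q.1.2 q.2) : ℝ≥0) : ℝ≥0∞)) = PK := rfl
  rw [h2] at this
  unfold W0
  rw [this]
  apply integral_congr_ae
  have h3 : ∀ᵐ q ∂((nu h).prod (volume : Measure U)), 0 ≤ q.1.2 ∧ q.1.2 < 1 := by
    have := Measure.quasiMeasurePreserving_fst (μ := nu h) (ν := (volume : Measure U)) |>.ae (nu_ae h)
    exact this
  filter_upwards [h3] with q hq
  have h4 : 0 ≤ (1 - q.1.2 ^ 2) / dU q.1.2 q.2 :=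
    div_nonneg (one_sub_sq_pos hq.1 hq.2).le (dU_pos hq.1 hq.2 _).le
  rw [NNReal.smul_def, Real.coe_toNNReal _ h4, Complex.real_smul]

theorem Wm_fourier (h : RPH V) (n m : ℤ) :
    ∫ p, (fourier n p.1 * fourier m p.2 : ℂ) ∂(Wm h) =
      ((CV V E1 ![n - m.natAbs, 2 * m.natAbs] : ℝ) : ℂ) := by
  have hm : Measurable fun p : U × U => (fourier n p.1 * fourier m p.2 : ℂ) :=
    (((fourier n).continuous.comp continuous_fst).mul
      ((fourier m).continuous.comp continuous_snd)).measurable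
  unfold Wm
  rw [integral_map pw_meas.aemeasurable hm.aestronglyMeasurable, integral_W0, integral_prod]
  · rw [← nu_int h n m.natAbs]
    apply integral_congr_ae
    filter_upwards [nu_ae h] with p hp
    have e1 : ∀ ϑ : U, ((((1 - p.2 ^ 2) / dU p.2 ϑ) : ℝ) : ℂ) * (fourier n p.1 * fourier m ϑ) =
        (((1 - p.2 ^ 2 : ℝ) : ℂ) * fourier n p.1) * (fourier m ϑ / (dU p.2 ϑ : ℂ)) := by
      intro ϑ
      push_cast
      ring
    show ∫ ϑ : U, ((((1 - p.2 ^ 2) / dU p.2 ϑ) : ℝ) : ℂ) * (fourier n p.1 * fourier m ϑ) = _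
    simp_rw [e1]
    rw [integral_const_mul, poisson_U hp.1 hp.2]
    have h2 : ((1 - p.2 ^ 2 : ℝ) : ℂ) ≠ 0 := by exact_mod_cast (one_sub_sq_pos hp.1 hp.2).ne'
    push_cast at h2 ⊢
    field_simp
  · have hb : Integrable (fun q : (U × ℝ) × U => (fourier n (pw q).1 * fourier m (pw q).2 : ℂ)) (W0 h) := by
      refine Integrable.of_bound (C := 1) (hm.comp pw_meas).aestronglyMeasurable
        (Eventually.of_forall fun q => ?_)
      rw [norm_mul, fourier_apply, fourier_apply, Circle.norm_coe, Circle.norm_coe, one_mul]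
    have h3 : ∀ᵐ q ∂((nu h).prod (volume : Measure U)), 0 ≤ q.1.2 ∧ q.1.2 < 1 := by
      have := Measure.quasiMeasurePreserving_fst (μ := nu h) (ν := (volume : Measure U)) |>.ae (nu_ae h)
      exact this
    have h5 := (integrable_withDensity_iff_integrable_smul (μ := (nu h).prod (volume : Measure U))
      (f := fun q => Real.toNNReal ((1 - q.1.2 ^ 2) / dU q.1.2 q.2))
      PKr_measurable.real_toNNReal (g := fun q : (U × ℝ) × U => (fourier n (pw q).1 * fourier m (pw q).2 : ℂ))).1 hb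
    refine h5.congr ?_
    filter_upwards [h3] with q hq
    have h4 : 0 ≤ (1 - q.1.2 ^ 2) / dU q.1.2 q.2 :=
      div_nonneg (one_sub_sq_pos hq.1 hq.2).le (dU_pos hq.1 hq.2 _).le
    rw [NNReal.smul_def, Real.coe_toNNReal _ h4, Complex.real_smul]

theorem Wm_cu (h : RPH V) (n m : ℤ) :
    ∫ p, cu n m p ∂(Wm h) = CV V E1 ![n - m.natAbs, 2 * m.natAbs] := by
  have h1 := Wm_fourier h n m
  have hi : Integrable (fun p : U × U => (fourier n p.1 * fourier m p.2 : ℂ)) (Wm h) := by
    refine Integrable.of_bound (C := 1) ?_ (Eventually.of_forall fun q => ?_)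
    · exact (((fourier n).continuous.comp continuous_fst).mul
      ((fourier m).continuous.comp continuous_snd)).aestronglyMeasurable
    · rw [norm_mul, fourier_apply, fourier_apply, Circle.norm_coe, Circle.norm_coe, one_mul]
  have h2 := integral_re (𝕜 := ℂ) hi
  have h3 := congrArg Complex.re h1
  rw [Complex.ofReal_re] at h3
  rw [← h3]
  exact h2

theorem dU_neg (τ : ℝ) (ϑ : U) : dU τ (-ϑ) = dU τ ϑ := by unfold dU; rw [Xu_neg]

theorem Wm_even (h : RPH V) : EvenP (Wm h) := by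
  unfold EvenP Wm
  have hneg : Measurable (fun p : U × U => -p) := measurable_neg
  rw [Measure.map_map hneg pw_meas]
  have h1 : (fun p : U × U => -p) ∘ pw = pw ∘ (Prod.map ng (fun x : U => -x)) := by
    funext q; rfl
  have hm2 : Measurable (Prod.map ng (fun x : U => -x)) := ng_meas.prodMap measurable_neg
  rw [h1, ← Measure.map_map pw_meas hm2]
  congr 1
  have hmp : ((nu h).prod (volume : Measure U)).map (Prod.map ng (fun x : U => -x)) =
      (nu h).prod (volume : Measure U) := by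
    rw [← Measure.map_prod_map _ _ ng_meas measurable_neg, nu_ng]
    congr 1
    exact Measure.map_neg_eq_self _
  unfold W0
  ext s hs
  rw [Measure.map_apply hm2 hs, withDensity_apply _ (hm2 hs), withDensity_apply _ hs]
  conv_rhs => rw [← hmp]
  rw [← lintegral_indicator hs, ← lintegral_indicator (hm2 hs),
    lintegral_map (PK_measurable.indicator hs) hm2]
  apply lintegral_congr
  intro q
  by_cases hq : Prod.map ng (fun x : U => -x) q ∈ s
  · rw [indicator_of_mem hq, indicator_of_mem (show q ∈ (Prod.map ng (fun x : U => -x)) ⁻¹' s from hq)]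
    show ENNReal.ofReal ((1 - q.1.2 ^ 2) / dU q.1.2 q.2) =
      ENNReal.ofReal ((1 - q.1.2 ^ 2) / dU q.1.2 (-q.2))
    rw [dU_neg]
  · rw [indicator_of_notMem hq,
      indicator_of_notMem (show q ∉ (Prod.map ng (fun x : U => -x)) ⁻¹' s from hq)]

/-! ### the folding map and the symmetries -/

/-- `(a,b) ↦ (a, 2b-a)` -/
def tP (p : U × U) : U × U := (p.1, p.2 + p.2 - p.1)

/-- dual rotation -/
def rP (p : U × U) : U × U := (p.2, p.2 - p.1)

/-- dual reflection -/
def fP (p : U × U) : U × U := (p.1, p.1 - p.2)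

theorem tP_continuous : Continuous tP := by unfold tP; fun_prop
theorem rP_continuous : Continuous rP := by unfold rP; fun_prop
theorem fP_continuous : Continuous fP := by unfold fP; fun_prop

theorem tP_mp : MeasurePreserving tP (volume : Measure (U × U)) volume := by
  have h1 : MeasurePreserving (fun p : U × U => (p.1, (fun a b : U => b + b - a) p.1 p.2))
      ((volume : Measure U).prod volume) ((volume : Measure U).prod volume) := by
    refine (MeasurePreserving.id (volume : Measure U)).skew_product (g := fun a b : U => b + b - a) ?_ ?_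
    · exact (((measurable_snd.add measurable_snd).sub measurable_fst))
    · refine Eventually.of_forall fun a => ?_
      have h2 : MeasurePreserving (fun b : U => b + b - a) volume volume := by
        have h3 := (measurePreserving_add_right (volume : Measure U) (-a)).comp mp_dbl
        have : (fun b : U => b + b - a) = (fun x => x + -a) ∘ (fun b : U => b + b) := by
          funext b; simp only [sub_eq_add_neg, Function.comp_apply]
        rw [this]; exact h3
      exact h2.map_eq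
  exact h1

theorem rP_mp : MeasurePreserving rP (volume : Measure (U × U)) volume := by
  have h1 : MeasurePreserving (fun p : U × U => (p.1, (fun a b : U => a - b) p.1 p.2))
      ((volume : Measure U).prod volume) ((volume : Measure U).prod volume) := by
    refine (MeasurePreserving.id (volume : Measure U)).skew_product (g := fun a b : U => a - b) ?_ ?_
    · exact measurable_fst.sub measurable_snd
    · refine Eventually.of_forall fun a => ?_
      exact (Measure.measurePreserving_sub_left (volume : Measure U) a).map_eq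
  have h2 : MeasurePreserving Prod.swap ((volume : Measure U).prod volume)
      ((volume : Measure U).prod volume) := Measure.measurePreserving_swap
  exact h1.comp h2

theorem fP_mp : MeasurePreserving fP (volume : Measure (U × U)) volume := by
  have h1 : MeasurePreserving (fun p : U × U => (p.1, (fun a b : U => a - b) p.1 p.2))
      ((volume : Measure U).prod volume) ((volume : Measure U).prod volume) := by
    refine (MeasurePreserving.id (volume : Measure U)).skew_product (g := fun a b : U => a - b) ?_ ?_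
    · exact measurable_fst.sub measurable_snd
    · refine Eventually.of_forall fun a => ?_
      exact (Measure.measurePreserving_sub_left (volume : Measure U) a).map_eq
  exact h1

theorem fourier_add_arg (n : ℤ) (x y : U) : (fourier n (x + y) : ℂ) = fourier n x * fourier n y := by
  rw [fourier_apply, fourier_apply, fourier_apply, smul_add, AddCircle.toCircle_add, Circle.coe_mul]

theorem fourier_add_idx (n m : ℤ) (x : U) : (fourier (n + m) x : ℂ) = fourier n x * fourier m x :=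
  fourier_add

theorem fourier_neg_idx (n : ℤ) (x : U) : (fourier (-n) x : ℂ) = (starRingEnd ℂ) (fourier n x) :=
  fourier_neg

/-- the gradient spectral measure in coordinates -/
noncomputable def GP (h : VH0 V) (e : Fin 2 → ℤ) : Measure (U × U) := (PE h e).map toP

instance (h : VH0 V) (e : Fin 2 → ℤ) : IsFiniteMeasure (GP h e) := by unfold GP; infer_instance

/-- the spectral measure in coordinates -/
noncomputable def PhiP (h : VH V) : Measure (U × U) := (Phi h).map toP

theorem GP_cu (h : VH0 V) (e : Fin 2 → ℤ) (n m : ℤ) : ∫ p, cu n m p ∂(GP h e) = CV V e ![n, m] := by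
  unfold GP
  rw [integral_map toP_measurable.aemeasurable (cu_continuous n m).aestronglyMeasurable, ← PE_cs h e]
  apply integral_congr_ae
  refine Eventually.of_forall fun θ => ?_
  show cu n m (toP θ) = _
  rw [cs_eq_cu]
  rfl

theorem GP_even (h : VH0 V) (e : Fin 2 → ℤ) : EvenP (GP h e) := by
  unfold EvenP GP
  rw [Measure.map_map measurable_neg toP_measurable]
  have : (fun p : U × U => -p) ∘ toP = toP ∘ (fun θ : UnitAddTorus (Fin 2) => -θ) := by
    funext θ; rfl
  rw [this, ← Measure.map_map toP_measurable measurable_negT, PE_even h e]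

theorem cu_tP (n m : ℤ) (p : U × U) : cu n m (tP p) = cu (n - m) (2 * m) p := by
  unfold cu tP
  congr 1
  simp only
  rw [sub_eq_add_neg, fourier_add_arg, fourier_add_arg, fourier_neg_arg, sub_eq_add_neg,
    fourier_add_idx, fourier_neg_idx, two_mul, fourier_add_idx]
  ring

/-- **the fold identity**: gradients along rows, observed on even rows -/
theorem fold_GP (h : RPH V) : (GP h.toVH0 E1).map tP = Wm h := by
  have hm := tP_continuous.measurable
  have hev : EvenP ((GP h.toVH0 E1).map tP) := by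
    unfold EvenP
    rw [Measure.map_map measurable_neg hm]
    have : (fun p : U × U => -p) ∘ tP = tP ∘ (fun p : U × U => -p) := by
      funext p
      show -(p.1, p.2 + p.2 - p.1) = (-p.1, -p.2 + -p.2 - -p.1)
      rw [Prod.neg_mk]
      congr 1
      abel
    rw [this, ← Measure.map_map hm measurable_neg, GP_even]
  apply ext_P hev (Wm_even h)
  intro n m
  rw [Wm_cu, integral_map hm.aemeasurable (cu_continuous n m).aestronglyMeasurable]
  simp_rw [cu_tP]
  rw [GP_cu]
  rcases Int.natAbs_eq m with hm' | hm'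
  · rw [← hm']
  · have := h.CV_refl (n - m) (2 * m)
    rw [← this]
    congr 1
    funext i
    fin_cases i
    · show n - m + 2 * m = n - (m.natAbs : ℤ)
      omega
    · show -(2 * m) = 2 * (m.natAbs : ℤ)
      omega

end Vale.Agent.P153.RP
end

section

/-!
Poincaré inequality on bounded sets; `V D φ` is finite for bounded `D`; first properties of `V`.
-/

namespace Vale.Agent.P145.PT

open MeasureTheory Set Filter Topology

theorem dx_fst (z : ℝ × ℝ) : dx (fun z => z.1) z = 1 := by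
  unfold dx; rw [fderiv_fst]; rfl

/-- Poincaré: if `ψ` is a test function on `D ⊆ {|x| ≤ R}` then `∫ ψ² ≤ 4 R² ∫ (∂ₓψ)²`. -/
theorem poincare {D : Set (ℝ × ℝ)} {R : ℝ} (hD : ∀ z ∈ D, |z.1| ≤ R)
    {ψ : ℝ × ℝ → ℝ} (hψ : TestOn D ψ) :
    ∫ z, ψ z ^ 2 ≤ 4 * R ^ 2 * ∫ z, dx ψ z ^ 2 := by
  have hz : ∀ z, ψ z ≠ 0 → |z.1| ≤ R := fun z hz =>
    hD z (hψ.2.2 (subset_tsupport _ hz))
  have h1 := ibp (hψ.mulSm hψ.sm) (g := fun z => z.1) contDiff_fst (1, 0)
  have h2 : ∀ z, fderiv ℝ (fun z : ℝ × ℝ => z.1) z (1, 0) = 1 := dx_fst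
  have h3 : ∀ z, fderiv ℝ (fun z => ψ z * ψ z) z (1, 0) = 2 * (ψ z * dx ψ z) := by
    intro z
    have := dx_mul hψ.sm hψ.sm z
    unfold dx at this ⊢
    rw [this]; ring
  simp only [h2, h3, mul_one] at h1
  have i1 : Integrable (fun z => ψ z ^ 2) := hψ.intSq
  have i2 : Integrable (fun z => dx ψ z ^ 2) := hψ.dx.intSq
  have h4 : ∫ z, -(2 * (ψ z * dx ψ z) * z.1) ≤ ∫ z, (1 / 2 * ψ z ^ 2 + 2 * R ^ 2 * dx ψ z ^ 2) := by
    refine integral_mono ?_ ((i1.const_mul _).add (i2.const_mul _)) ?_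
    · have : Integrable (fun z => ψ z * (dx ψ z * z.1)) :=
        hψ.intMul (hψ.dx.cont.mul continuous_fst)
      refine (this.const_mul (-2)).congr (ae_of_all _ fun z => ?_)
      simp only; ring
    · intro z
      by_cases h : ψ z = 0
      · simp only [h, zero_mul, mul_zero, neg_zero, one_div, ne_eq, OfNat.ofNat_ne_zero, not_false_eq_true, zero_pow, zero_add]; (clear * -; positivity)
      · have hR := hz z h
        have : -(2 * (ψ z * dx ψ z) * z.1) ≤ 1 / 2 * ψ z ^ 2 + 2 * (z.1 * dx ψ z) ^ 2 := by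
          nlinarith only [sq_nonneg (ψ z + 2 * (z.1 * dx ψ z))]
        have h5 : z.1 ^ 2 ≤ R ^ 2 := sq_le_sq' (by linarith only [abs_le.1 hR]) (abs_le.1 hR).2
        have h6 : (z.1 * dx ψ z) ^ 2 ≤ R ^ 2 * dx ψ z ^ 2 := by
          rw [mul_pow]; exact mul_le_mul_of_nonneg_right h5 (sq_nonneg _)
        simp only
        linarith
  rw [integral_neg, integral_add (i1.const_mul _) (i2.const_mul _), integral_const_mul,
    integral_const_mul] at h4
  have h7 : ∫ z, ψ z * ψ z = ∫ z, ψ z ^ 2 := by congr 1; funext z; ring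
  rw [h7] at h1
  linarith

theorem bdd_fst {D : Set (ℝ × ℝ)} (hD : Bornology.IsBounded D) :
    ∃ R : ℝ, 0 < R ∧ ∀ z ∈ D, |z.1| ≤ R := by
  obtain ⟨R, hR⟩ := hD.exists_norm_le
  refine ⟨max R 1, by positivity, fun z hz => ?_⟩
  exact ((norm_fst_le z).trans (hR z hz)).trans (le_max_left _ _)

theorem energy_ge_dx {D : Set (ℝ × ℝ)} {ψ : ℝ × ℝ → ℝ} (hψ : TestOn D ψ) :
    ∫ z, dx ψ z ^ 2 ≤ energy ψ := by
  refine integral_mono hψ.dx.intSq hψ.intE fun z => ?_
  simp only; nlinarith [sq_nonneg (dy ψ z)]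

/-- The functional in the definition of `V` is bounded. -/
theorem functional_le {D : Set (ℝ × ℝ)} {R : ℝ} (hD : ∀ z ∈ D, |z.1| ≤ R)
    {φ ψ : ℝ × ℝ → ℝ} (hφ : Integrable (fun z => φ z ^ 2)) (hφm : AEStronglyMeasurable φ)
    (hψ : TestOn D ψ) :
    (2 * ∫ z, φ z * ψ z) - energy ψ ≤ 4 * R ^ 2 * ∫ z, φ z ^ 2 := by
  have h1 := poincare hD hψ
  have h2 := energy_ge_dx hψ
  by_cases hR : R = 0
  · subst hR
    have h3 : ∫ z, ψ z ^ 2 ≤ 0 := by simpa only [ne_eq, OfNat.ofNat_ne_zero, not_false_eq_true, zero_pow, mul_zero, zero_mul] using h1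
    have h4 : (fun z => ψ z ^ 2) =ᵐ[volume] 0 :=
      (integral_eq_zero_iff_of_nonneg (fun z => sq_nonneg _) hψ.intSq).1
        (le_antisymm h3 (integral_nonneg fun z => sq_nonneg _))
    have h5 : ∫ z, φ z * ψ z = 0 := by
      rw [← integral_zero (ℝ × ℝ) ℝ]
      refine integral_congr_ae ?_
      filter_upwards [h4] with z hz
      have : ψ z = 0 := by simpa using hz
      simp [this]
    rw [h5]; have := energy_nonneg ψ; simp only [mul_zero, zero_sub, ne_eq, OfNat.ofNat_ne_zero, not_false_eq_true, zero_pow, zero_mul, Left.neg_nonpos_iff, ge_iff_le]; linarith only [this]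
  have hR2 : 0 < 4 * R ^ 2 := by positivity
  have h3 : (2 * ∫ z, φ z * ψ z) ≤ 4 * R ^ 2 * (∫ z, φ z ^ 2) + (4 * R ^ 2)⁻¹ * ∫ z, ψ z ^ 2 := by
    rw [← integral_const_mul, ← integral_const_mul, ← integral_const_mul, ← integral_add
      (hφ.const_mul _) (hψ.intSq.const_mul _)]
    refine integral_mono ?_ ((hφ.const_mul _).add (hψ.intSq.const_mul _)) fun z => ?_
    · refine Integrable.const_mul ?_ _
      refine Integrable.mono' ((hφ.add hψ.intSq)) (hφm.mul hψ.cont.aestronglyMeasurable) ?_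
      refine ae_of_all _ fun z => ?_
      rw [Real.norm_eq_abs, abs_mul]
      simp only [Pi.add_apply]
      nlinarith only [sq_abs (φ z), sq_abs (ψ z)]
    · simp only
      have : 0 ≤ (4 * R ^ 2)⁻¹ * (4 * R ^ 2 * φ z - ψ z) ^ 2 := by (clear * - hR; positivity)
      have e : (4 * R ^ 2)⁻¹ * (4 * R ^ 2 * φ z - ψ z) ^ 2
          = 4 * R ^ 2 * φ z ^ 2 + (4 * R ^ 2)⁻¹ * ψ z ^ 2 - 2 * (φ z * ψ z) := by
        field_simp; ring
      linarith
  have h4 : (4 * R ^ 2)⁻¹ * ∫ z, ψ z ^ 2 ≤ energy ψ := by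
    calc (4 * R ^ 2)⁻¹ * ∫ z, ψ z ^ 2 ≤ (4 * R ^ 2)⁻¹ * (4 * R ^ 2 * ∫ z, dx ψ z ^ 2) :=
          mul_le_mul_of_nonneg_left h1 (by (clear * - hR; positivity))
      _ = ∫ z, dx ψ z ^ 2 := by (clear * - hR; field_simp)
      _ ≤ energy ψ := h2
  linarith only [h3, h4]

theorem bddAbove_V {D D' : Set (ℝ × ℝ)} (hD : Bornology.IsBounded D)
    {φ : ℝ × ℝ → ℝ} (hφ : TestOn D' φ) :
    BddAbove (Set.range fun ψ : {ψ : ℝ × ℝ → ℝ // TestOn D ψ} =>
      (2 * ∫ z, φ z * ψ.1 z) - energy ψ.1) := by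
  obtain ⟨R, _, hR⟩ := bdd_fst hD
  refine ⟨4 * R ^ 2 * ∫ z, φ z ^ 2, ?_⟩
  rintro _ ⟨ψ, rfl⟩
  exact functional_le hR hφ.intSq hφ.cont.aestronglyMeasurable ψ.2

theorem le_V {D D' : Set (ℝ × ℝ)} (hD : Bornology.IsBounded D)
    {φ ψ : ℝ × ℝ → ℝ} (hφ : TestOn D' φ) (hψ : TestOn D ψ) :
    (2 * ∫ z, φ z * ψ z) - energy ψ ≤ V D φ :=
  le_ciSup (f := fun ψ : {ψ : ℝ × ℝ → ℝ // TestOn D ψ} =>
    (2 * ∫ z, φ z * ψ.1 z) - energy ψ.1) (bddAbove_V hD hφ) ⟨ψ, hψ⟩

theorem energy_zero : energy (fun _ => (0 : ℝ)) = 0 := by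
  unfold energy dx dy; simp only [fderiv_fun_const, Pi.zero_apply, zero_apply, ne_eq, OfNat.ofNat_ne_zero, not_false_eq_true, zero_pow, add_zero, integral_zero]

theorem V_le {D : Set (ℝ × ℝ)} {φ : ℝ × ℝ → ℝ} {C : ℝ}
    (h : ∀ ψ, TestOn D ψ → (2 * ∫ z, φ z * ψ z) - energy ψ ≤ C) : V D φ ≤ C := by
  have : Nonempty {ψ : ℝ × ℝ → ℝ // TestOn D ψ} := ⟨⟨_, TestOn.zero D⟩⟩
  exact ciSup_le fun ψ => h ψ.1 ψ.2

theorem V_nonneg {D D' : Set (ℝ × ℝ)} (hD : Bornology.IsBounded D)
    {φ : ℝ × ℝ → ℝ} (hφ : TestOn D' φ) : 0 ≤ V D φ := by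
  have := le_V hD hφ (TestOn.zero D)
  rw [energy_zero] at this
  simpa only [ge_iff_le, mul_zero, integral_zero, sub_self] using this

theorem V_mono {D D' D'' : Set (ℝ × ℝ)} (hD' : Bornology.IsBounded D') (h : D ⊆ D')
    {φ : ℝ × ℝ → ℝ} (hφ : TestOn D'' φ) : V D φ ≤ V D' φ :=
  V_le fun _ hψ => le_V hD' hφ (hψ.mono h)

/-- Cauchy-Schwarz for `V`: `2 ∫ φ ψ ≤ t V(φ) + energy ψ / t`. -/
theorem pair_le {D D' : Set (ℝ × ℝ)} (hD : Bornology.IsBounded D)
    {φ ψ : ℝ × ℝ → ℝ} (hφ : TestOn D' φ) (hψ : TestOn D ψ) :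
    (∫ z, φ z * ψ z) ^ 2 ≤ V D φ * energy ψ := by
  have h : ∀ t : ℝ, 0 ≤ energy ψ * (t * t) + (-(2 * ∫ z, φ z * ψ z)) * t + V D φ := by
    intro t
    have h1 := le_V hD hφ (hψ.smul t)
    have h2 : energy (fun z => t * ψ z) = t ^ 2 * energy ψ := by
      unfold energy
      rw [← integral_const_mul]
      congr 1; funext z
      rw [dx_smul hψ.sm, dy_smul hψ.sm]; ring
    have h3 : ∫ z, φ z * (t * ψ z) = t * ∫ z, φ z * ψ z := by
      rw [← integral_const_mul]; congr 1; funext z; ring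
    rw [h2, h3] at h1
    linarith
  have := discrim_le_zero h
  unfold discrim at this
  linarith

end Vale.Agent.P145.PT
end

section

/-!
The radial mollifier `rs s y = s⁻² ρ(y / s)` and its derivative in `s`, which is a Laplacian.
-/

namespace Vale.Agent.P145.PT

open MeasureTheory Set Filter Topology

/-- Smooth decreasing cutoff, `1` on `(-∞, 0]`, `0` on `[1, ∞)`. -/
noncomputable def kk (t : ℝ) : ℝ := Real.smoothTransition (1 - t)

theorem kk_smooth : ContDiff ℝ ((⊤ : ℕ∞) : WithTop ℕ∞) kk :=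
  Real.smoothTransition.contDiff.comp (contDiff_const.sub contDiff_id)

theorem kk_nonneg (t : ℝ) : 0 ≤ kk t := Real.smoothTransition.nonneg _
theorem kk_le_one (t : ℝ) : kk t ≤ 1 := Real.smoothTransition.le_one _
theorem kk_zero {t : ℝ} (h : 1 ≤ t) : kk t = 0 :=
  Real.smoothTransition.zero_of_nonpos (by linarith)
theorem kk_pos {t : ℝ} (h : t < 1) : 0 < kk t :=
  Real.smoothTransition.pos_of_pos (by linarith)

/-- `K(t) = ∫_t^1 k`. -/
noncomputable def KK (t : ℝ) : ℝ := - ∫ τ in (1 : ℝ)..t, kk τ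

theorem KK_hasDeriv (t : ℝ) : HasDerivAt KK (-kk t) t := by
  have := intervalIntegral.integral_hasDerivAt_right (f := kk) (a := 1) (b := t)
    (kk_smooth.continuous.intervalIntegrable _ _)
    (kk_smooth.continuous.stronglyMeasurableAtFilter _ _) kk_smooth.continuous.continuousAt
  exact this.neg

theorem KK_smooth : ContDiff ℝ ((⊤ : ℕ∞) : WithTop ℕ∞) KK := by
  have h1 : deriv KK = fun t => - kk t := by funext t; exact (KK_hasDeriv t).deriv
  rw [contDiff_infty_iff_deriv]
  refine ⟨fun t => (KK_hasDeriv t).differentiableAt, ?_⟩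
  rw [h1]; exact kk_smooth.neg

theorem KK_zero {t : ℝ} (h : 1 ≤ t) : KK t = 0 := by
  unfold KK
  rw [intervalIntegral.integral_congr (g := fun _ => (0 : ℝ))]
  · simp
  · intro τ hτ
    rw [uIcc_of_le h] at hτ
    exact kk_zero hτ.1

/-- `|y|²`. -/
def sqn (y : ℝ × ℝ) : ℝ := y.1 ^ 2 + y.2 ^ 2

theorem sqn_smooth : Sm sqn := (contDiff_fst.pow 2).add (contDiff_snd.pow 2)

theorem norm_le_of_sqn {y : ℝ × ℝ} {r : ℝ} (hr : 0 ≤ r) (h : sqn y ≤ r ^ 2) : ‖y‖ ≤ r := by
  unfold sqn at h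
  rw [Prod.norm_def, max_le_iff, Real.norm_eq_abs, Real.norm_eq_abs]
  exact ⟨abs_le_of_sq_le_sq (by nlinarith only [h]) hr,
    abs_le_of_sq_le_sq (by nlinarith only [h]) hr⟩

/-- Normalisation. -/
noncomputable def Z0 : ℝ := ∫ y : ℝ × ℝ, kk (sqn y)

theorem kks_smooth : Sm (fun y => kk (sqn y)) := kk_smooth.comp sqn_smooth

theorem kks_supp : Function.support (fun y => kk (sqn y)) ⊆ Metric.closedBall 0 1 := by
  intro y hy
  rw [mem_closedBall_zero_iff]
  refine norm_le_of_sqn zero_le_one ?_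
  by_contra h
  push Not at h
  exact hy (kk_zero (by linarith))

theorem kks_cs : HasCompactSupport (fun y => kk (sqn y)) :=
  HasCompactSupport.intro' (isCompact_closedBall 0 1) Metric.isClosed_closedBall
    fun y hy => by by_contra h; exact hy (kks_supp h)

theorem Z0_pos : 0 < Z0 := by
  unfold Z0
  rw [integral_pos_iff_support_of_nonneg (fun y => kk_nonneg _)
    (kks_smooth.continuous.integrable_of_hasCompactSupport kks_cs)]
  refine (IsOpen.measure_pos volume
    (isOpen_ne.preimage kks_smooth.continuous : IsOpen {y : ℝ × ℝ | kk (sqn y) ≠ 0})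
    ⟨0, ?_⟩)
  have : sqn (0 : ℝ × ℝ) = 0 := by simp only [sqn, Prod.fst_zero, ne_eq, OfNat.ofNat_ne_zero, not_false_eq_true, zero_pow, Prod.snd_zero, add_zero]
  change kk (sqn 0) ≠ 0
  rw [this]
  exact (kk_pos (by norm_num)).ne'

/-- The radial mollifier of width `s`. -/
noncomputable def rs (s : ℝ) (y : ℝ × ℝ) : ℝ := Z0⁻¹ * (s ^ 2)⁻¹ * kk (sqn y / s ^ 2)

theorem rs_smooth (s : ℝ) : Sm (rs s) :=
  contDiff_const.mul (kk_smooth.comp (sqn_smooth.div_const _))

theorem rs_nonneg (s : ℝ) (y : ℝ × ℝ) : 0 ≤ rs s y :=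
  mul_nonneg (mul_nonneg (inv_nonneg.2 Z0_pos.le) (by positivity)) (kk_nonneg _)

theorem rs_neg (s : ℝ) (y : ℝ × ℝ) : rs s (-y) = rs s y := by
  unfold rs sqn; simp only [Prod.fst_neg, even_two, Even.neg_pow, Prod.snd_neg]

theorem rs_zero {s : ℝ} (hs : 0 < s) {y : ℝ × ℝ} (h : s < ‖y‖) : rs s y = 0 := by
  unfold rs
  rw [kk_zero, mul_zero]
  rw [le_div_iff₀ (by positivity), one_mul]
  by_contra h1
  push Not at h1
  exact absurd (norm_le_of_sqn hs.le h1.le) (not_le.2 h)

theorem rs_supp {s : ℝ} (hs : 0 < s) : Function.support (rs s) ⊆ Metric.closedBall 0 s := by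
  intro y hy
  rw [mem_closedBall_zero_iff]
  by_contra h
  push Not at h
  exact hy (rs_zero hs h)

theorem rs_cs {s : ℝ} (hs : 0 < s) : HasCompactSupport (rs s) :=
  HasCompactSupport.intro' (isCompact_closedBall 0 s) Metric.isClosed_closedBall
    fun y hy => by by_contra h; exact hy (rs_supp hs h)

theorem rs_int {s : ℝ} (hs : 0 < s) : ∫ y, rs s y = 1 := by
  have h1 : ∀ y, rs s y = (Z0⁻¹ * (s ^ 2)⁻¹) * (fun y => kk (sqn y)) (s⁻¹ • y) := by
    intro y
    unfold rs sqn
    simp only [Prod.smul_fst, Prod.smul_snd, smul_eq_mul]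
    congr 2
    (clear * - hs; field_simp)
  simp_rw [h1]
  rw [integral_const_mul, Measure.integral_comp_smul volume (fun y => kk (sqn y)) s⁻¹]
  have hd : Module.finrank ℝ (ℝ × ℝ) = 2 := by simp
  rw [hd, smul_eq_mul]
  have : |((s⁻¹) ^ 2)⁻¹| = s ^ 2 := by rw [abs_of_pos (by positivity)]; (clear * - hs; field_simp)
  rw [this]
  change Z0⁻¹ * (s ^ 2)⁻¹ * (s ^ 2 * Z0) = 1
  have := Z0_pos.ne'
  field_simp

/-- The bump of width `s` at `x`. -/
noncomputable def bump (s : ℝ) (x z : ℝ × ℝ) : ℝ := rs s (z - x)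

theorem bump_smooth (s : ℝ) (x : ℝ × ℝ) : Sm (bump s x) :=
  (rs_smooth s).comp (contDiff_id.sub contDiff_const)

theorem bump_nonneg (s : ℝ) (x z : ℝ × ℝ) : 0 ≤ bump s x z := rs_nonneg _ _

theorem bump_zero {s : ℝ} (hs : 0 < s) {x z : ℝ × ℝ} (h : s < dist z x) : bump s x z = 0 :=
  rs_zero hs (by rwa [← dist_eq_norm])

theorem bump_supp {s : ℝ} (hs : 0 < s) (x : ℝ × ℝ) :
    Function.support (bump s x) ⊆ Metric.closedBall x s := by
  intro y hy
  rw [Metric.mem_closedBall]
  by_contra h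
  push Not at h
  exact hy (bump_zero hs h)

theorem bump_test {D : Set (ℝ × ℝ)} {s : ℝ} (hs : 0 < s) {x : ℝ × ℝ}
    (h : Metric.closedBall x s ⊆ D) : TestOn D (bump s x) := by
  refine ⟨bump_smooth s x, ?_, ?_⟩
  · exact HasCompactSupport.intro' (isCompact_closedBall x s) Metric.isClosed_closedBall
      fun y hy => by by_contra h; exact hy (bump_supp hs x h)
  · exact (closure_minimal (bump_supp hs x) Metric.isClosed_closedBall).trans h

theorem bump_int {s : ℝ} (hs : 0 < s) (x : ℝ × ℝ) : ∫ z, bump s x z = 1 := by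
  unfold bump
  rw [integral_sub_right_eq_self (fun y => rs s y) x]
  exact rs_int hs

end Vale.Agent.P145.PT
end

section

/-!
`∂ₛ rs s y = s⁻¹ Δ (W(· / s)) (y)`.
-/

namespace Vale.Agent.P145.PT

open MeasureTheory Set Filter Topology

theorem hasFDerivAt_sqn (y : ℝ × ℝ) :
    HasFDerivAt sqn ((2 * y.1) • ContinuousLinearMap.fst ℝ ℝ ℝ
      + (2 * y.2) • ContinuousLinearMap.snd ℝ ℝ ℝ) y := by
  have h1 : HasFDerivAt (fun y : ℝ × ℝ => y.1) (ContinuousLinearMap.fst ℝ ℝ ℝ) y :=
    hasFDerivAt_fst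
  have h2 : HasFDerivAt (fun y : ℝ × ℝ => y.2) (ContinuousLinearMap.snd ℝ ℝ ℝ) y :=
    hasFDerivAt_snd
  have h3 : HasFDerivAt sqn _ y := (h1.pow 2).add (h2.pow 2)
  refine h3.congr_fderiv ?_
  simp only [Nat.add_one_sub_one, pow_one, nsmul_eq_mul, Nat.cast_ofNat]

theorem hasFDerivAt_comp_sqn {g g' : ℝ → ℝ} (hg : ∀ t, HasDerivAt g (g' t) t) (s : ℝ)
    (y : ℝ × ℝ) :
    HasFDerivAt (fun y => g (sqn y / s ^ 2)) (g' (sqn y / s ^ 2) • ((s ^ 2)⁻¹ •
      ((2 * y.1) • ContinuousLinearMap.fst ℝ ℝ ℝ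
        + (2 * y.2) • ContinuousLinearMap.snd ℝ ℝ ℝ))) y := by
  have h1 : HasFDerivAt (fun y => sqn y / s ^ 2) ((s ^ 2)⁻¹ •
      ((2 * y.1) • ContinuousLinearMap.fst ℝ ℝ ℝ
        + (2 * y.2) • ContinuousLinearMap.snd ℝ ℝ ℝ)) y := by
    have := (hasFDerivAt_sqn y).const_mul ((s ^ 2)⁻¹)
    refine this.congr_of_eventuallyEq (Eventually.of_forall fun z => ?_)
    simp only; rw [div_eq_inv_mul]
  exact (hg _).comp_hasFDerivAt y h1

theorem dx_comp_sqn {g g' : ℝ → ℝ} (hg : ∀ t, HasDerivAt g (g' t) t) (s : ℝ) (y : ℝ × ℝ) :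
    dx (fun y => g (sqn y / s ^ 2)) y = g' (sqn y / s ^ 2) * ((s ^ 2)⁻¹ * (2 * y.1)) := by
  unfold dx
  rw [(hasFDerivAt_comp_sqn hg s y).fderiv]
  simp

theorem dy_comp_sqn {g g' : ℝ → ℝ} (hg : ∀ t, HasDerivAt g (g' t) t) (s : ℝ) (y : ℝ × ℝ) :
    dy (fun y => g (sqn y / s ^ 2)) y = g' (sqn y / s ^ 2) * ((s ^ 2)⁻¹ * (2 * y.2)) := by
  unfold dy
  rw [(hasFDerivAt_comp_sqn hg s y).fderiv]
  simp only [smul_add, add_apply, smul_apply, ContinuousLinearMap.coe_fst', smul_eq_mul, mul_zero, ContinuousLinearMap.coe_snd', mul_one, zero_add]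

/-- `W(y / s)`. -/
noncomputable def Ws (s : ℝ) (y : ℝ × ℝ) : ℝ := (2 * Z0)⁻¹ * KK (sqn y / s ^ 2)

theorem Ws_smooth (s : ℝ) : Sm (Ws s) :=
  contDiff_const.mul (KK_smooth.comp (sqn_smooth.div_const _))

theorem Ws_zero {s : ℝ} (hs : 0 < s) {y : ℝ × ℝ} (h : s < ‖y‖) : Ws s y = 0 := by
  unfold Ws
  rw [KK_zero, mul_zero]
  rw [le_div_iff₀ (by positivity), one_mul]
  by_contra h1
  push Not at h1
  exact absurd (norm_le_of_sqn hs.le h1.le) (not_le.2 h)

theorem kk_hasDeriv (t : ℝ) : HasDerivAt kk (deriv kk t) t :=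
  ((kk_smooth.differentiable (by simp)) t).hasDerivAt

theorem lap_Ws (s : ℝ) (y : ℝ × ℝ) :
    lap (Ws s) y = -(2 * Z0⁻¹ * (s ^ 2)⁻¹) *
      (kk (sqn y / s ^ 2) + sqn y / s ^ 2 * deriv kk (sqn y / s ^ 2)) := by
  have hK : Sm (fun y => KK (sqn y / s ^ 2)) := KK_smooth.comp (sqn_smooth.div_const _)
  have hk : Sm (fun y => kk (sqn y / s ^ 2)) := kk_smooth.comp (sqn_smooth.div_const _)
  have hf1 : Sm (fun y : ℝ × ℝ => -(s ^ 2)⁻¹ * (2 * y.1)) :=
    contDiff_const.mul (contDiff_const.mul contDiff_fst)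
  have hf2 : Sm (fun y : ℝ × ℝ => -(s ^ 2)⁻¹ * (2 * y.2)) :=
    contDiff_const.mul (contDiff_const.mul contDiff_snd)
  have e1 : dx (fun y => KK (sqn y / s ^ 2))
      = fun y => kk (sqn y / s ^ 2) * (-(s ^ 2)⁻¹ * (2 * y.1)) := by
    funext y; rw [dx_comp_sqn KK_hasDeriv]; ring
  have e2 : dy (fun y => KK (sqn y / s ^ 2))
      = fun y => kk (sqn y / s ^ 2) * (-(s ^ 2)⁻¹ * (2 * y.2)) := by
    funext y; rw [dy_comp_sqn KK_hasDeriv]; ring
  have e3 : ∀ y : ℝ × ℝ, dx (fun y : ℝ × ℝ => -(s ^ 2)⁻¹ * (2 * y.1)) y = -(s ^ 2)⁻¹ * 2 := by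
    intro y
    rw [dx_smul (contDiff_const.mul contDiff_fst), dx_smul contDiff_fst]
    unfold dx; rw [fderiv_fst]; simp only [ContinuousLinearMap.coe_fst', mul_one, neg_mul]
  have e4 : ∀ y : ℝ × ℝ, dy (fun y : ℝ × ℝ => -(s ^ 2)⁻¹ * (2 * y.2)) y = -(s ^ 2)⁻¹ * 2 := by
    intro y
    rw [dy_smul (contDiff_const.mul contDiff_snd), dy_smul contDiff_snd]
    unfold dy; rw [fderiv_snd]; simp only [ContinuousLinearMap.coe_snd', mul_one, neg_mul]
  have e0 : Ws s = fun y => (2 * Z0)⁻¹ * (fun y => KK (sqn y / s ^ 2)) y := rfl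
  rw [e0, lap_smul hK]
  unfold lap
  rw [e1, e2, dx_mul hk hf1, dy_mul hk hf2, dx_comp_sqn kk_hasDeriv, dy_comp_sqn kk_hasDeriv,
    e3, e4, mul_inv]
  unfold sqn
  ring

theorem rs_hasDeriv {s : ℝ} (hs : 0 < s) (y : ℝ × ℝ) :
    HasDerivAt (fun s => rs s y) (s⁻¹ * lap (Ws s) y) s := by
  have h1 : HasDerivAt (fun s : ℝ => (s ^ 2)⁻¹) (-(2 * s) / (s ^ 2) ^ 2) s := by
    have h0 : HasDerivAt (fun s : ℝ => (s ^ 2)⁻¹) _ s := (hasDerivAt_pow 2 s).inv (by positivity)
    refine h0.congr_deriv ?_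
    simp only [Nat.cast_ofNat, Nat.add_one_sub_one, pow_one]
  have h2 : HasDerivAt (fun s : ℝ => sqn y / s ^ 2) (sqn y * (-(2 * s) / (s ^ 2) ^ 2)) s := by
    have := h1.const_mul (sqn y)
    simpa only [div_eq_mul_inv, neg_mul, mul_neg] using this
  have h3 := (kk_hasDeriv (sqn y / s ^ 2)).comp s h2
  have h4 := (h1.const_mul Z0⁻¹).mul h3
  refine h4.congr_deriv ?_
  rw [lap_Ws]
  simp only [Function.comp]
  have := Z0_pos.ne'
  field_simp
  ring

end Vale.Agent.P145.PT
end

section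

/-!
Convolutions `cv u g x = ∫ u(t) g(x - t) dt` of an integrable function with a test function.
-/

namespace Vale.Agent.P145.PT

open MeasureTheory Set Filter Topology

/-- Convolution. -/
noncomputable def cv (u g : ℝ × ℝ → ℝ) (x : ℝ × ℝ) : ℝ := ∫ t, u t * g (x - t)

theorem cv_eq (u g : ℝ × ℝ → ℝ) :
    cv u g = convolution u g (ContinuousLinearMap.mul ℝ ℝ) volume := by
  funext x
  simp only [cv, convolution, ContinuousLinearMap.mul_apply']

theorem cv_smooth {u g : ℝ × ℝ → ℝ} (hu : Integrable u) (hg : Sm g) (hc : HasCompactSupport g) :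
    Sm (cv u g) := by
  rw [cv_eq]
  exact hc.contDiff_convolution_right _ hu.locallyIntegrable hg

theorem cv_fderiv {u g : ℝ × ℝ → ℝ} (hu : Integrable u) (hg : Sm g) (hc : HasCompactSupport g)
    (x v : ℝ × ℝ) : fderiv ℝ (cv u g) x v = cv u (fun z => fderiv ℝ g z v) x := by
  have h1 := hc.hasFDerivAt_convolution_right (ContinuousLinearMap.mul ℝ ℝ)
    hu.locallyIntegrable (hg.of_le (by exact_mod_cast le_top)) x
  rw [cv_eq, h1.fderiv]
  have h2 : ConvolutionExistsAt u (fderiv ℝ g) x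
      ((ContinuousLinearMap.mul ℝ ℝ).precompR (ℝ × ℝ)) volume := by
    refine (hc.fderiv ℝ).convolutionExists_right _ hu.locallyIntegrable ?_ x
    exact (hg.continuous_fderiv (by simp))
  rw [convolution, ContinuousLinearMap.integral_apply h2]
  unfold cv
  congr 1

theorem cv_dx {u g : ℝ × ℝ → ℝ} (hu : Integrable u) (hg : Sm g) (hc : HasCompactSupport g) :
    dx (cv u g) = cv u (dx g) := by
  funext x; exact cv_fderiv hu hg hc x (1, 0)

theorem cv_dy {u g : ℝ × ℝ → ℝ} (hu : Integrable u) (hg : Sm g) (hc : HasCompactSupport g) :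
    dy (cv u g) = cv u (dy g) := by
  funext x; exact cv_fderiv hu hg hc x (0, 1)

theorem cv_int {u g : ℝ × ℝ → ℝ} (hu : Integrable u) (hg : Continuous g)
    (hc : HasCompactSupport g) (x : ℝ × ℝ) : Integrable (fun t => u t * g (x - t)) := by
  obtain ⟨C, hC⟩ := hc.exists_bound_of_continuous hg
  refine hu.mul_bdd (c := C) ?_ ?_
  · exact (hg.comp (continuous_const.sub continuous_id)).aestronglyMeasurable
  · exact ae_of_all _ fun t => hC _

theorem cv_lap {u g : ℝ × ℝ → ℝ} (hu : Integrable u) (hg : Sm g) (hc : HasCompactSupport g)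
    (x : ℝ × ℝ) : lap (cv u g) x = cv u (lap g) x := by
  have c1 : HasCompactSupport (dx g) := hc.fderiv_apply (𝕜 := ℝ) (1, 0)
  have c2 : HasCompactSupport (dy g) := hc.fderiv_apply (𝕜 := ℝ) (0, 1)
  have c3 : HasCompactSupport (dx (dx g)) := c1.fderiv_apply (𝕜 := ℝ) (1, 0)
  have c4 : HasCompactSupport (dy (dy g)) := c2.fderiv_apply (𝕜 := ℝ) (0, 1)
  unfold lap
  rw [cv_dx hu hg hc, cv_dy hu hg hc, cv_dx hu hg.dx c1, cv_dy hu hg.dy c2]
  unfold cv
  rw [← integral_add (cv_int hu hg.dx.dx.continuous c3 x) (cv_int hu hg.dy.dy.continuous c4 x)]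
  congr 1; funext t; ring

/-! Reflections and translations. -/

theorem fderiv_refl {g : ℝ × ℝ → ℝ} (hg : Sm g) (x z v : ℝ × ℝ) :
    fderiv ℝ (fun z => g (x - z)) z v = - fderiv ℝ g (x - z) v := by
  have h1 : HasFDerivAt (fun z : ℝ × ℝ => x - z) (-ContinuousLinearMap.id ℝ (ℝ × ℝ)) z :=
    (hasFDerivAt_id z).const_sub x
  have h2 := (hg.diff (x - z)).hasFDerivAt.comp z h1
  have h3 : HasFDerivAt (fun z => g (x - z)) _ z := h2
  rw [h3.fderiv]; simp only [ContinuousLinearMap.comp_neg, ContinuousLinearMap.comp_id, neg_apply]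

theorem lap_refl {g : ℝ × ℝ → ℝ} (hg : Sm g) (x z : ℝ × ℝ) :
    lap (fun z => g (x - z)) z = lap g (x - z) := by
  unfold lap
  have e1 : dx (fun z => g (x - z)) = fun z => (fun w => - dx g w) (x - z) := by
    funext w; exact fderiv_refl hg x w (1, 0)
  have e2 : dy (fun z => g (x - z)) = fun z => (fun w => - dy g w) (x - z) := by
    funext w; exact fderiv_refl hg x w (0, 1)
  rw [e1, e2]
  have h1 : dx (fun z => (fun w => - dx g w) (x - z)) z = - dx (fun w => - dx g w) (x - z) :=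
    fderiv_refl hg.dx.neg x z (1, 0)
  have h2 : dy (fun z => (fun w => - dy g w) (x - z)) z = - dy (fun w => - dy g w) (x - z) :=
    fderiv_refl hg.dy.neg x z (0, 1)
  have h3 : dx (fun w => - dx g w) (x - z) = - dx (dx g) (x - z) := by
    unfold dx; rw [fderiv_fun_neg]; rfl
  have h4 : dy (fun w => - dy g w) (x - z) = - dy (dy g) (x - z) := by
    unfold dy; rw [fderiv_fun_neg]; rfl
  rw [h1, h2, h3, h4]; ring

theorem bump_eq (s : ℝ) (x : ℝ × ℝ) : bump s x = fun z => rs s (x - z) := by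
  funext z; unfold bump; rw [← rs_neg, neg_sub]

theorem bump_symm (s : ℝ) (x z : ℝ × ℝ) : bump s x z = bump s z x := by
  rw [bump_eq]; rfl

/-- The mollification `U s x = ∫ u(z) bump s x z dz`. -/
noncomputable def US (u : ℝ × ℝ → ℝ) (s : ℝ) : ℝ × ℝ → ℝ := cv u (rs s)

theorem US_eq (u : ℝ × ℝ → ℝ) (s : ℝ) (x : ℝ × ℝ) : US u s x = ∫ z, u z * bump s x z := by
  unfold US cv; rw [bump_eq]

theorem US_smooth {u : ℝ × ℝ → ℝ} (hu : Integrable u) {s : ℝ} (hs : 0 < s) : Sm (US u s) :=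
  cv_smooth hu (rs_smooth s) (rs_cs hs)

theorem US_lap {u : ℝ × ℝ → ℝ} (hu : Integrable u) {s : ℝ} (hs : 0 < s) (x : ℝ × ℝ) :
    lap (US u s) x = ∫ z, u z * lap (bump s x) z := by
  unfold US
  rw [cv_lap hu (rs_smooth s) (rs_cs hs)]
  unfold cv
  congr 1; funext z
  rw [bump_eq, lap_refl (rs_smooth s)]

theorem US_integrable {u : ℝ × ℝ → ℝ} (hu : Integrable u) {s : ℝ} (hs : 0 < s) :
    Integrable (US u s) := by
  unfold US
  rw [cv_eq]
  exact hu.integrable_convolution _ ((rs_smooth s).continuous.integrable_of_hasCompactSupport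
    (rs_cs hs))

theorem US_L1 {u : ℝ × ℝ → ℝ} (hu : Integrable u) {s : ℝ} (hs : 0 < s) :
    ∫ x, |US u s x| ≤ ∫ z, |u z| := by
  have h1 : ∫ x, US (fun z => |u z|) s x = ∫ z, |u z| := by
    unfold US
    rw [cv_eq, integral_convolution (ContinuousLinearMap.mul ℝ ℝ) hu.abs
      ((rs_smooth s).continuous.integrable_of_hasCompactSupport (rs_cs hs)), rs_int hs]
    simp only [ContinuousLinearMap.mul_apply', mul_one]
  rw [← h1]
  refine integral_mono (US_integrable hu hs).abs (US_integrable hu.abs hs) fun x => ?_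
  simp only
  rw [US_eq, US_eq]
  refine (abs_integral_le_integral_abs).trans (le_of_eq ?_)
  congr 1; funext z
  rw [abs_mul, abs_of_nonneg (bump_nonneg s x z)]

/-- Uniform approximation by mollification. -/
theorem moll_unif {f : ℝ × ℝ → ℝ} (hf : Continuous f) (hc : HasCompactSupport f) {η : ℝ}
    (hη : 0 < η) : ∃ s0 : ℝ, 0 < s0 ∧ ∀ s, 0 < s → s < s0 → ∀ x,
      |(∫ z, f z * bump s x z) - f x| ≤ η := by
  have hu := hc.uniformContinuous_of_continuous hf
  rw [Metric.uniformContinuous_iff] at hu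
  obtain ⟨s0, hs0, h⟩ := hu η hη
  refine ⟨s0, hs0, fun s hs hss x => ?_⟩
  have hbi : Integrable (bump s x) := (bump_test hs (D := univ) (subset_univ _)).int
  have i1 : Integrable (fun z => f z * bump s x z) :=
    (bump_test hs (D := univ) (subset_univ _) (x := x)).intMul' hf
  have e : (∫ z, f z * bump s x z) - f x = ∫ z, (f z - f x) * bump s x z := by
    have e0 : ∀ z, (f z - f x) * bump s x z = f z * bump s x z - f x * bump s x z := by
      intro z; ring
    simp_rw [e0]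
    rw [integral_sub i1 (hbi.const_mul _), integral_const_mul, bump_int hs, mul_one]
  rw [e]
  calc |∫ z, (f z - f x) * bump s x z| ≤ ∫ z, |(f z - f x) * bump s x z| :=
        abs_integral_le_integral_abs
    _ ≤ ∫ z, η * bump s x z := by
        refine integral_mono_of_nonneg (ae_of_all _ fun z => abs_nonneg _) (hbi.const_mul _)
          (ae_of_all _ fun z => ?_)
        simp only
        rw [abs_mul, abs_of_nonneg (bump_nonneg s x z)]
        by_cases hz : s < dist z x
        · rw [bump_zero hs hz]; simp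
        · push Not at hz
          refine mul_le_mul_of_nonneg_right ?_ (bump_nonneg s x z)
          have := h (lt_of_le_of_lt hz hss)
          rw [Real.dist_eq] at this
          exact this.le
    _ = η := by rw [integral_const_mul, bump_int hs, mul_one]

end Vale.Agent.P145.PT
end

section

/-!
The truncation function and the independence of `∫ u bump s x` of the width `s`.
-/

namespace Vale.Agent.P145.PT

open MeasureTheory Set Filter Topology

/-- Smooth version of `(x - ε)⁺`. -/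
noncomputable def FF (ε x : ℝ) : ℝ := ∫ τ in ε..x, Real.smoothTransition ((τ - ε) / ε)

theorem st_cont (ε : ℝ) : Continuous (fun τ : ℝ => Real.smoothTransition ((τ - ε) / ε)) :=
  Real.smoothTransition.continuous.comp ((continuous_id.sub continuous_const).div_const _)

theorem FF_hasDeriv (ε x : ℝ) : HasDerivAt (FF ε) (Real.smoothTransition ((x - ε) / ε)) x :=
  intervalIntegral.integral_hasDerivAt_right ((st_cont ε).intervalIntegrable _ _)
    ((st_cont ε).stronglyMeasurableAtFilter _ _) (st_cont ε).continuousAt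

theorem FF_smooth (ε : ℝ) : ContDiff ℝ ((⊤ : ℕ∞) : WithTop ℕ∞) (FF ε) := by
  have h1 : deriv (FF ε) = fun x => Real.smoothTransition ((x - ε) / ε) := by
    funext t; exact (FF_hasDeriv ε t).deriv
  rw [contDiff_infty_iff_deriv]
  refine ⟨fun t => (FF_hasDeriv ε t).differentiableAt, ?_⟩
  rw [h1]
  exact Real.smoothTransition.contDiff.comp ((contDiff_id.sub contDiff_const).div_const _)

theorem FF_zero {ε x : ℝ} (hε : 0 < ε) (h : x ≤ ε) : FF ε x = 0 := by
  unfold FF
  rw [intervalIntegral.integral_congr (g := fun _ => (0 : ℝ))]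
  · simp
  · intro τ hτ
    rw [uIcc_of_ge h] at hτ
    exact Real.smoothTransition.zero_of_nonpos
      (div_nonpos_of_nonpos_of_nonneg (by linarith [hτ.2]) hε.le)

theorem FF_nonneg {ε : ℝ} (hε : 0 < ε) (x : ℝ) : 0 ≤ FF ε x := by
  rcases le_total x ε with h | h
  · rw [FF_zero hε h]
  · exact intervalIntegral.integral_nonneg h fun _ _ => Real.smoothTransition.nonneg _

theorem FF_le {ε : ℝ} (hε : 0 < ε) {x : ℝ} {C : ℝ} (hC : 0 ≤ C) (h : x ≤ C) : FF ε x ≤ C := by
  rcases le_total x ε with h1 | h1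
  · rw [FF_zero hε h1]; exact hC
  · have : FF ε x ≤ ∫ _ in ε..x, (1 : ℝ) :=
      intervalIntegral.integral_mono_on h1 ((st_cont ε).intervalIntegrable _ _)
        (intervalIntegrable_const) fun _ _ => Real.smoothTransition.le_one _
    rw [intervalIntegral.integral_const, smul_eq_mul, mul_one] at this
    linarith only [hε, h, this]

theorem FF_le_abs {ε : ℝ} (hε : 0 < ε) (x : ℝ) : FF ε x ≤ |x| :=
  FF_le hε (abs_nonneg x) (le_abs_self x)

theorem FF_ge {ε : ℝ} (hε : 0 < ε) (x : ℝ) : x - 2 * ε ≤ FF ε x := by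
  rcases le_total x (2 * ε) with h | h
  · linarith only [h, FF_nonneg hε x]
  · have e : FF ε x = (∫ τ in ε..(2 * ε), Real.smoothTransition ((τ - ε) / ε))
        + ∫ τ in (2 * ε)..x, Real.smoothTransition ((τ - ε) / ε) := by
      unfold FF
      rw [intervalIntegral.integral_add_adjacent_intervals
        ((st_cont ε).intervalIntegrable _ _) ((st_cont ε).intervalIntegrable _ _)]
    have e1 : 0 ≤ ∫ τ in ε..(2 * ε), Real.smoothTransition ((τ - ε) / ε) :=
      intervalIntegral.integral_nonneg (by linarith only [hε]) fun _ _ => Real.smoothTransition.nonneg _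
    have e2 : ∫ τ in (2 * ε)..x, Real.smoothTransition ((τ - ε) / ε)
        = ∫ τ in (2 * ε)..x, (1 : ℝ) := by
      refine intervalIntegral.integral_congr fun τ hτ => ?_
      rw [uIcc_of_le h] at hτ
      refine Real.smoothTransition.one_of_one_le ?_
      rw [le_div_iff₀ hε]; linarith only [hτ.1]
    rw [intervalIntegral.integral_const, smul_eq_mul, mul_one] at e2
    linarith

theorem kk_bound : ∃ B : ℝ, ∀ q : ℝ, 0 ≤ q → |kk q + q * deriv kk q| ≤ B := by
  have hc : Continuous (fun q : ℝ => kk q + q * deriv kk q) :=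
    kk_smooth.continuous.add (continuous_id.mul (kk_smooth.continuous_deriv (by simp only [WithTop.one_le_coe, le_top])))
  obtain ⟨B, hB⟩ := (isCompact_Icc (a := (0 : ℝ)) (b := 1)).exists_bound_of_continuousOn
    hc.continuousOn
  refine ⟨max B 0, fun q hq => ?_⟩
  rcases le_or_gt q 1 with h | h
  · exact (hB q ⟨hq, h⟩).trans (le_max_left _ _)
  · have h1 : kk q = 0 := kk_zero h.le
    have h2 : deriv kk q = 0 := by
      have : kk =ᶠ[𝓝 q] fun _ => 0 := by
        filter_upwards [Ioi_mem_nhds h] with t ht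
        exact kk_zero (le_of_lt ht)
      rw [this.deriv_eq]; simp
    rw [h1, h2]; simp only [mul_zero, add_zero, abs_zero, le_sup_right]

theorem sqn_nonneg (y : ℝ × ℝ) : 0 ≤ sqn y := by unfold sqn; positivity

/-- If `Δu = 0` near `x` in the weak sense, `∫ u bump s x` does not depend on `s`. -/
theorem bump_const {D : Set (ℝ × ℝ)} {u f : ℝ × ℝ → ℝ} (hu : Integrable u)
    (heq : ∀ ψ, TestOn D ψ → ∫ z, u z * lap ψ z = - ∫ z, ψ z * f z)
    {x : ℝ × ℝ} {s t : ℝ} (hs : 0 < s) (hst : s ≤ t) (hb : Metric.closedBall x t ⊆ D)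
    (hf : ∀ z ∈ Metric.closedBall x t, f z = 0) :
    ∫ z, u z * bump t x z = ∫ z, u z * bump s x z := by
  obtain ⟨B, hB⟩ := kk_bound
  have hB0 : 0 ≤ B := (abs_nonneg _).trans (hB 0 le_rfl)
  have hZ := Z0_pos
  have key : ∀ r ∈ Icc s t, HasDerivAt (fun r => ∫ z, u z * bump r x z) 0 r := by
    intro r hr
    have hr0 : 0 < r := hs.trans_le hr.1
    have h1 : HasDerivAt (fun r => ∫ z, u z * bump r x z)
        (∫ z, u z * (r⁻¹ * lap (Ws r) (z - x))) r := by
      refine (hasDerivAt_integral_of_dominated_loc_of_deriv_le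
        (F := fun r z => u z * bump r x z) (F' := fun r z => u z * (r⁻¹ * lap (Ws r) (z - x)))
        (bound := fun z => |u z| * ((r / 2)⁻¹ * (2 * Z0⁻¹ * ((r / 2) ^ 2)⁻¹ * B)))
        (s := Ioi (r / 2)) (Ioi_mem_nhds (by linarith only [hr0])) ?_ ?_ ?_ ?_ ?_ ?_).2
      · refine Eventually.of_forall fun r => ?_
        exact hu.aestronglyMeasurable.mul (bump_smooth r x).continuous.aestronglyMeasurable
      · simp_rw [bump_eq]
        exact cv_int hu (rs_smooth r).continuous (rs_cs hr0) x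
      · refine hu.aestronglyMeasurable.mul (Continuous.aestronglyMeasurable ?_)
        exact continuous_const.mul ((Ws_smooth r).lap.continuous.comp
          (continuous_id.sub continuous_const))
      · refine ae_of_all _ fun z q hq => ?_
        have hq0 : 0 < r / 2 := by linarith only [hr0]
        have hq1 : r / 2 < q := hq
        rw [Real.norm_eq_abs, abs_mul]
        refine mul_le_mul_of_nonneg_left ?_ (abs_nonneg _)
        rw [abs_mul, abs_of_pos (inv_pos.2 (hq0.trans hq1))]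
        refine mul_le_mul (inv_anti₀ hq0 hq1.le) ?_ (abs_nonneg _) (by positivity)
        rw [lap_Ws, abs_mul, abs_neg, abs_of_nonneg (by (clear * - hZ; positivity))]
        refine mul_le_mul ?_ (hB _ (div_nonneg (sqn_nonneg _) (by (clear * -; positivity))))
          (abs_nonneg _) (by positivity)
        refine mul_le_mul_of_nonneg_left ?_ (by positivity)
        exact inv_anti₀ (by positivity) (pow_le_pow_left₀ hq0.le hq1.le 2)
      · exact (hu.abs).mul_const _
      · refine ae_of_all _ fun z q hq => ?_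
        have hq0 : 0 < q := lt_trans (by linarith only [hr0] : (0 : ℝ) < r / 2) hq
        exact (rs_hasDeriv hq0 (z - x)).const_mul (u z)
    have h2 : ∫ z, u z * (r⁻¹ * lap (Ws r) (z - x)) = 0 := by
      have hT : TestOn D (fun z => Ws r (x - z)) := by
        refine ⟨(Ws_smooth r).comp (contDiff_const.sub contDiff_id), ?_, ?_⟩
        · refine HasCompactSupport.intro' (isCompact_closedBall x r) Metric.isClosed_closedBall
            fun y hy => Ws_zero hr0 ?_
          rw [Metric.mem_closedBall, not_le, dist_eq_norm] at hy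
          rwa [← norm_neg, neg_sub]
        · refine (closure_minimal ?_ Metric.isClosed_closedBall).trans
            ((Metric.closedBall_subset_closedBall hr.2).trans hb)
          intro y hy
          by_contra hy'
          rw [Metric.mem_closedBall, not_le, dist_eq_norm] at hy'
          exact hy (Ws_zero hr0 (by rwa [← norm_neg, neg_sub]))
      have h3 := heq _ hT
      have h4 : ∀ z, lap (fun z => Ws r (x - z)) z = lap (Ws r) (z - x) := by
        intro z
        rw [lap_refl (Ws_smooth r), lap_Ws, lap_Ws]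
        have : sqn (x - z) = sqn (z - x) := by unfold sqn; simp only [Prod.fst_sub, Prod.snd_sub]; ring
        rw [this]
      simp_rw [h4] at h3
      have h5 : ∫ z, Ws r (x - z) * f z = 0 := by
        rw [← integral_zero (ℝ × ℝ) ℝ]
        congr 1; funext z
        by_cases hz : z ∈ Metric.closedBall x t
        · rw [hf z hz, mul_zero]
        · rw [Metric.mem_closedBall, not_le, dist_eq_norm] at hz
          rw [Ws_zero hr0, zero_mul]
          rw [← norm_neg, neg_sub]; exact lt_of_le_of_lt hr.2 hz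
      rw [h5, neg_zero] at h3
      have h6 : ∀ z, u z * (r⁻¹ * lap (Ws r) (z - x)) = r⁻¹ * (u z * lap (Ws r) (z - x)) := by
        intro z; ring
      simp_rw [h6]
      rw [integral_const_mul, h3, mul_zero]
    rw [h2] at h1
    exact h1
  have hc : ContinuousOn (fun r => ∫ z, u z * bump r x z) (Icc s t) :=
    fun r hr => (key r hr).continuousAt.continuousWithinAt
  exact constant_of_has_deriv_right_zero hc
    (fun r hr => (key r (Ico_subset_Icc_self hr)).hasDerivWithinAt) t ⟨hst, le_rfl⟩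

end Vale.Agent.P145.PT
end

section

/-!
The truncation argument: a functional `T` with `-Δ T = f` and one-sided decay at the boundary is
dominated by test functions with small energy.
-/

namespace Vale.Agent.P145.PT

open MeasureTheory Set Filter Topology

/-- Distance to the complement. -/
noncomputable def dd (D : Set (ℝ × ℝ)) (x : ℝ × ℝ) : ℝ := Metric.infDist x Dᶜ

theorem dd_cont (D : Set (ℝ × ℝ)) : Continuous (dd D) := Metric.continuous_infDist_pt _

theorem compl_ne {D : Set (ℝ × ℝ)} (hb : Bornology.IsBounded D) : (Dᶜ).Nonempty := by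
  rw [Set.nonempty_compl]
  rintro rfl
  exact NoncompactSpace.noncompact_univ (X := ℝ × ℝ)
    (Metric.isCompact_of_isClosed_isBounded isClosed_univ hb)

theorem dd_pos {D : Set (ℝ × ℝ)} (hD : IsOpen D) (hb : Bornology.IsBounded D) {x : ℝ × ℝ} :
    0 < dd D x ↔ x ∈ D := by
  have := hD.isClosed_compl.notMem_iff_infDist_pos (compl_ne hb) (x := x)
  rw [← notMem_compl_iff, this]; rfl

theorem ball_sub {D : Set (ℝ × ℝ)} {x : ℝ × ℝ} {s : ℝ} (hs : s < dd D x) :
    Metric.closedBall x s ⊆ D := by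
  intro z hz
  by_contra h
  have h1 : dd D x ≤ dist x z := Metric.infDist_le_dist_of_mem h
  rw [Metric.mem_closedBall, dist_comm] at hz
  linarith only [hs, hz, h1]

theorem dd_le_add (D : Set (ℝ × ℝ)) (x z : ℝ × ℝ) : dd D x ≤ dd D z + dist x z :=
  Metric.infDist_le_infDist_add_dist

/-- Smooth cutoff: `0` on `{dd ≤ a}`, `1` on `{dd ≥ b}`. -/
theorem exists_cutoff (D : Set (ℝ × ℝ)) {a b : ℝ} (hab : a < b) :
    ∃ χ : ℝ × ℝ → ℝ, Sm χ ∧ (∀ x, 0 ≤ χ x ∧ χ x ≤ 1) ∧ (∀ x, dd D x ≤ a → χ x = 0) ∧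
      (∀ x, b ≤ dd D x → χ x = 1) := by
  obtain ⟨χ, h0, h1, h2⟩ := exists_contMDiffMap_zero_one_of_isClosed (n := (⊤ : ℕ∞))
    (modelWithCornersSelf ℝ (ℝ × ℝ)) (s := {x | dd D x ≤ a}) (t := {x | b ≤ dd D x})
    (isClosed_le (dd_cont D) continuous_const) (isClosed_le continuous_const (dd_cont D))
    (by
      rw [Set.disjoint_left]
      intro x hx hx'
      exact absurd (lt_of_lt_of_le hab hx') (not_lt.2 hx))
  exact ⟨χ, χ.contMDiff.contDiff, fun x => ⟨(h2 x).1, (h2 x).2⟩, fun x hx => h0 hx,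
    fun x hx => h1 hx⟩

theorem fd_comp {F F' : ℝ → ℝ} (hF : ∀ x, HasDerivAt F (F' x) x) {U : ℝ × ℝ → ℝ} (hU : Sm U)
    (x v : ℝ × ℝ) : fderiv ℝ (fun x => F (U x)) x v = F' (U x) * fderiv ℝ U x v := by
  have h1 := (hF (U x)).comp_hasFDerivAt x (hU.diff x).hasFDerivAt
  have h2 : HasFDerivAt (fun x => F (U x)) _ x := h1
  rw [h2.fderiv]; simp

theorem exists_low {D : Set (ℝ × ℝ)} (hD : IsOpen D) (hb : Bornology.IsBounded D)
    {f : ℝ × ℝ → ℝ} (hf : TestOn D f) : ∃ r : ℝ, 0 < r ∧ ∀ z, dd D z ≤ r → f z = 0 := by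
  rcases (tsupport f).eq_empty_or_nonempty with he | hne
  · refine ⟨1, one_pos, fun z _ => ?_⟩
    by_contra h
    have := subset_tsupport f h
    rw [he] at this; exact this
  · obtain ⟨z0, hz0, hmin⟩ := IsCompact.exists_isMinOn (s := tsupport f) hf.cs hne
      (dd_cont D).continuousOn
    have hp : 0 < dd D z0 := (dd_pos hD hb).2 (hf.2.2 hz0)
    refine ⟨dd D z0 / 2, by linarith only [hp], fun z hz => ?_⟩
    by_contra h
    have h1 := hmin (subset_tsupport f h)
    simp only [mem_ofPred_eq] at h1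
    linarith only [hp, hz, h1]

theorem lemB {D : Set (ℝ × ℝ)} (hD : IsOpen D) (hb : Bornology.IsBounded D)
    {T : (ℝ × ℝ → ℝ) → ℝ} {C : ℝ} (hT : L2Fn D T C) {f : ℝ × ℝ → ℝ} (hf : TestOn D f)
    (heq : ∀ ψ, TestOn D ψ → T (lap ψ) = - ∫ z, ψ z * f z)
    (hdec : ∀ ε : ℝ, 0 < ε → ∃ r : ℝ, 0 < r ∧ ∀ x ∈ D, dd D x < r →
      T (bump (dd D x / 2) x) ≤ ε)
    {θ : ℝ × ℝ → ℝ} (hθ : TestOn D θ) (hθ0 : ∀ z, 0 ≤ θ z) {η : ℝ} (hη : 0 < η) :
    ∃ ψ, TestOn D ψ ∧ energy ψ ≤ (∫ z, f z * ψ z) + η ∧ T θ ≤ (∫ z, θ z * ψ z) + η := by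
  obtain ⟨u, hu, huD, hTu⟩ := rep hD hb hT
  have heq' : ∀ ψ, TestOn D ψ → ∫ z, u z * lap ψ z = - ∫ z, ψ z * f z := by
    intro ψ hψ; rw [← hTu _ hψ.lap]; exact heq ψ hψ
  -- constants
  set I := ∫ z, θ z with hI
  have hI0 : 0 ≤ I := integral_nonneg hθ0
  set N := ∫ z, |u z| with hN
  have hN0 : 0 ≤ N := integral_nonneg fun z => abs_nonneg _
  set ε : ℝ := η / (4 * (I + 1)) with hε
  have hε0 : 0 < ε := by (clear * - hη hI0; positivity)
  have hεI : 2 * ε * I ≤ η / 2 := by
    rw [hε]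
    have : 2 * (η / (4 * (I + 1))) * I = η / 2 * (I / (I + 1)) := by field_simp; ring
    rw [this]
    have : I / (I + 1) ≤ 1 := by rw [div_le_one (by linarith only [hI0])]; linarith only []
    nlinarith only [hη, this]
  obtain ⟨rf, hrf, hfz⟩ := exists_low hD hb hf
  obtain ⟨rt, hrt, htz⟩ := exists_low hD hb hθ
  obtain ⟨rd, hrd, hdd⟩ := hdec ε hε0
  set r : ℝ := min (min (rf / 2) rt) rd with hr
  have hr0 : 0 < r := lt_min (lt_min (by linarith only [hrf]) hrt) hrd
  have hr1 : r ≤ rf / 2 := (min_le_left _ _).trans (min_le_left _ _)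
  have hr2 : r ≤ rt := (min_le_left _ _).trans (min_le_right _ _)
  have hr3 : r ≤ rd := min_le_right _ _
  obtain ⟨s1, hs1, hm1⟩ := moll_unif hf.cont hf.cs (η := η / (N + 1)) (by (clear * - hη; positivity))
  obtain ⟨s2, hs2, hm2⟩ := moll_unif hθ.cont hθ.cs (η := η / (2 * (N + 1))) (by positivity)
  set s : ℝ := min (min (s1 / 2) (s2 / 2)) (r / 4) with hs
  have hs0 : 0 < s := lt_min (lt_min (by linarith only [hs1]) (by linarith only [hs2])) (by linarith only [hr0])
  have hss1 : s < s1 := lt_of_le_of_lt ((min_le_left _ _).trans (min_le_left _ _)) (by linarith only [hs1])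
  have hss2 : s < s2 := lt_of_le_of_lt ((min_le_left _ _).trans (min_le_right _ _)) (by linarith only [hs2])
  have hssr : s ≤ r / 4 := min_le_right _ _
  set U := US u s with hU
  have hUs : Sm U := US_smooth hu hs0
  -- values of U
  have hUv : ∀ x, s < dd D x → U x = T (bump s x) := by
    intro x hx
    rw [hU, US_eq, hTu _ (bump_test hs0 (ball_sub hx))]
  have hUε : ∀ x, r / 2 < dd D x → dd D x < r → U x ≤ ε := by
    intro x hx1 hx2
    have hxD : x ∈ D := (dd_pos hD hb).1 (by linarith only [hs0, hssr, hx1])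
    have h1 := hdd x hxD (lt_of_lt_of_le hx2 hr3)
    have hd2 : dd D x / 2 < dd D x := by linarith only [hs0, hssr, hx1]
    rw [hTu _ (bump_test (by linarith only [hs0, hssr, hx1]) (ball_sub hd2))] at h1
    rw [bump_const hu heq' hs0 (by linarith only [hssr, hx1]) (ball_sub hd2) ?_] at h1
    · rw [hU, US_eq]; exact h1
    · intro z hz
      refine hfz z ?_
      rw [Metric.mem_closedBall] at hz
      have := dd_le_add D z x
      linarith only [hr1, hs0, hssr, hx2, hz, this]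
  -- the cutoff
  obtain ⟨χ, hχs, hχ01, hχ0, hχ1⟩ := exists_cutoff D (show r / 2 < 3 * r / 4 by linarith only [hs0, hssr])
  set ψ : ℝ × ℝ → ℝ := fun x => χ x * FF ε (U x) with hψ
  have hψv : ∀ x, r / 2 < dd D x → ψ x = FF ε (U x) := by
    intro x hx
    rcases le_or_gt (3 * r / 4) (dd D x) with h | h
    · rw [hψ]; simp only; rw [hχ1 x h, one_mul]
    · rw [hψ]; simp only; rw [FF_zero hε0 (hUε x hx (by linarith only [hs0, hssr, h])), mul_zero]
  have hψz : ∀ x, dd D x ≤ r / 2 → ψ x = 0 := by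
    intro x hx; rw [hψ]; simp only; rw [hχ0 x hx, zero_mul]
  have hψ0 : ∀ x, 0 ≤ ψ x := fun x => mul_nonneg (hχ01 x).1 (FF_nonneg hε0 _)
  have hψs : Sm ψ := hχs.mul ((FF_smooth ε).comp hUs)
  have hsub : tsupport ψ ⊆ {x | r / 2 ≤ dd D x} := by
    refine closure_minimal ?_ (isClosed_le continuous_const (dd_cont D))
    intro x hx
    by_contra h
    rw [mem_ofPred_eq, not_le] at h
    exact hx (hψz x h.le)
  have hsubD : tsupport ψ ⊆ D := fun x hx => by
    have h1 : r / 2 ≤ dd D x := hsub hx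
    exact (dd_pos hD hb).1 (by linarith only [hs0, hssr, h1])
  have hψT : TestOn D ψ := by
    refine ⟨hψs, ?_, hsubD⟩
    exact Metric.isCompact_of_isClosed_isBounded (isClosed_tsupport _) (hb.subset hsubD)
  have hψU : ∀ x, ψ x ≤ |U x| := by
    intro x
    calc ψ x ≤ 1 * FF ε (U x) := mul_le_mul_of_nonneg_right (hχ01 x).2 (FF_nonneg hε0 _)
      _ ≤ |U x| := by rw [one_mul]; exact FF_le_abs hε0 _
  have hψI : ∫ x, ψ x ≤ N :=
    (integral_mono hψT.int (US_integrable hu hs0).abs hψU).trans (US_L1 hu hs0)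
  -- derivatives of ψ
  have hd1 : ∀ x, r / 2 < dd D x → ∀ v,
      fderiv ℝ ψ x v = Real.smoothTransition ((U x - ε) / ε) * fderiv ℝ U x v := by
    intro x hx v
    have : ψ =ᶠ[𝓝 x] fun x => FF ε (U x) := by
      filter_upwards [(isOpen_lt continuous_const (dd_cont D)).mem_nhds hx] with y hy
      exact hψv y hy
    rw [this.fderiv_eq]
    exact fd_comp (FF_hasDeriv ε) hUs x v
  have hd2 : ∀ x, dd D x ≤ r / 2 → ∀ v, fderiv ℝ ψ x v = 0 := by
    intro x hx v
    have : IsLocalMin ψ x := Eventually.of_forall fun y => by rw [hψz x hx]; exact hψ0 y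
    rw [this.fderiv_eq_zero]; rfl
  have hpt : ∀ x v, fderiv ℝ ψ x v ^ 2 ≤ fderiv ℝ ψ x v * fderiv ℝ U x v := by
    intro x v
    rcases lt_or_ge (r / 2) (dd D x) with h | h
    · rw [hd1 x h v]
      set a := Real.smoothTransition ((U x - ε) / ε)
      have ha0 : 0 ≤ a := Real.smoothTransition.nonneg _
      have ha1 : a ≤ 1 := Real.smoothTransition.le_one _
      have : a * fderiv ℝ U x v * fderiv ℝ U x v - (a * fderiv ℝ U x v) ^ 2
          = a * (1 - a) * fderiv ℝ U x v ^ 2 := by ring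
      nlinarith only [mul_nonneg (mul_nonneg ha0 (sub_nonneg.2 ha1)) (sq_nonneg (fderiv ℝ U x v))]
    · rw [hd2 x h v]; simp
  have hE1 : energy ψ ≤ ∫ z, (dx ψ z * dx U z + dy ψ z * dy U z) := by
    refine integral_mono hψT.intE ((hψT.dx.intMul hUs.dx.continuous).add
      (hψT.dy.intMul hUs.dy.continuous)) fun z => ?_
    exact add_le_add (hpt z (1, 0)) (hpt z (0, 1))
  have hE2 : ∫ z, (dx ψ z * dx U z + dy ψ z * dy U z) = - ∫ z, ψ z * lap U z := by
    rw [green_id hψT hUs, neg_neg]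
  have hlap : ∀ x, s < dd D x → lap U x = - ∫ z, f z * bump s x z := by
    intro x hx
    rw [hU, US_lap hu hs0, heq' _ (bump_test hs0 (ball_sub hx))]
    congr 2; funext z; ring
  have hE3 : - ∫ z, ψ z * lap U z ≤ (∫ z, f z * ψ z) + η := by
    have e1 : - ∫ z, ψ z * lap U z = ∫ z, -(ψ z * lap U z) := (integral_neg _).symm
    rw [e1]
    have e2 : (∫ z, f z * ψ z) + η / (N + 1) * ∫ z, ψ z
        = ∫ z, (f z * ψ z + η / (N + 1) * ψ z) := by
      rw [integral_add (hf.intMul hψT.cont) (hψT.int.const_mul _), integral_const_mul]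
    have e3 : η / (N + 1) * ∫ z, ψ z ≤ η := by
      calc η / (N + 1) * ∫ z, ψ z ≤ η / (N + 1) * N :=
            mul_le_mul_of_nonneg_left hψI (by (clear * - hη; positivity))
        _ ≤ η := by
            rw [div_mul_eq_mul_div, div_le_iff₀ (by (clear * -; positivity))]
            nlinarith only [hη]
    refine le_trans ?_ (add_le_add le_rfl e3)
    rw [e2]
    refine integral_mono (hψT.intMul hUs.lap.continuous).neg ((hf.intMul hψT.cont).add
      (hψT.int.const_mul _)) fun x => ?_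
    simp only
    rcases lt_or_ge (r / 2) (dd D x) with h | h
    · rw [hlap x (by linarith only [hs0, hssr, h])]
      have h1 := abs_le.1 (hm1 s hs0 hss1 x)
      have h3 := hψ0 x
      have h4 : ψ x * ((∫ z, f z * bump s x z) - f x) ≤ ψ x * (η / (N + 1)) :=
        mul_le_mul_of_nonneg_left h1.2 h3
      nlinarith only [h4]
    · rw [hψz x h]
      simp
  -- comparison with T θ
  have hF : T θ ≤ (∫ z, θ z * ψ z) + η := by
    have g1 : T θ = ∫ z, u z * θ z := hTu θ hθ
    -- θ U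
    have g2 : ∫ x, θ x * U x = ∫ z, u z * (∫ x, θ x * bump s z x) := by
      have hi : Integrable (fun p : (ℝ × ℝ) × (ℝ × ℝ) => θ p.1 * (u p.2 * bump s p.1 p.2))
          (volume.prod volume) := by
        obtain ⟨M, hM⟩ := (rs_cs hs0).exists_bound_of_continuous (rs_smooth s).continuous
        have h1 : Integrable (fun p : (ℝ × ℝ) × (ℝ × ℝ) => (θ p.1 * u p.2) * bump s p.1 p.2)
            (volume.prod volume) := by
          refine (hθ.int.mul_prod hu).mul_bdd (c := M) ?_ (ae_of_all _ fun p => hM _)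
          refine Continuous.aestronglyMeasurable ?_
          exact (rs_smooth s).continuous.comp (continuous_snd.sub continuous_fst)
        refine h1.congr (ae_of_all _ fun p => ?_)
        simp only; ring
      calc ∫ x, θ x * U x = ∫ x, ∫ z, θ x * (u z * bump s x z) := by
            congr 1; funext x; rw [integral_const_mul, hU, US_eq]
        _ = ∫ z, ∫ x, θ x * (u z * bump s x z) := integral_integral_swap hi
        _ = _ := by
            congr 1; funext z
            rw [← integral_const_mul]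
            congr 1; funext x
            rw [bump_symm s z x]; ring
    obtain ⟨Mθ, hMθ⟩ := hθ.cs.exists_bound_of_continuous hθ.cont
    have hcont : Continuous (fun z => ∫ x, θ x * bump s z x) := by
      have : (fun z => ∫ x, θ x * bump s z x) = US θ s := by funext z; rw [US_eq]
      rw [this]; exact (US_smooth hθ.int hs0).continuous
    have hbd : ∀ z, |∫ x, θ x * bump s z x| ≤ Mθ + η / (2 * (N + 1)) := by
      intro z
      have h1 := abs_le.1 (hm2 s hs0 hss2 z)
      have h2 := abs_le.1 (hMθ z)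
      rw [abs_le]; constructor <;> linarith only [h1, h2]
    have g3 : |(∫ x, θ x * U x) - ∫ z, u z * θ z| ≤ η / 2 := by
      rw [g2]
      have i1 : Integrable (fun z => u z * ∫ x, θ x * bump s z x) :=
        hu.mul_bdd hcont.aestronglyMeasurable (ae_of_all _ hbd)
      have i2 : Integrable (fun z => u z * θ z) :=
        hu.mul_bdd hθ.cont.aestronglyMeasurable (ae_of_all _ hMθ)
      rw [← integral_sub i1 i2]
      calc |∫ z, (u z * (∫ x, θ x * bump s z x) - u z * θ z)|
          ≤ ∫ z, |u z * (∫ x, θ x * bump s z x) - u z * θ z| := abs_integral_le_integral_abs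
        _ ≤ ∫ z, |u z| * (η / (2 * (N + 1))) := by
            refine integral_mono_of_nonneg (ae_of_all _ fun z => abs_nonneg _)
              (hu.abs.mul_const _) (ae_of_all _ fun z => ?_)
            simp only
            rw [← mul_sub, abs_mul]
            exact mul_le_mul_of_nonneg_left (hm2 s hs0 hss2 z) (abs_nonneg _)
        _ = N * (η / (2 * (N + 1))) := by rw [integral_mul_const]
        _ ≤ η / 2 := by
            have : N * (η / (2 * (N + 1))) = η / 2 * (N / (N + 1)) := by (clear * - hN0 hη; field_simp)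
            rw [this]
            have : N / (N + 1) ≤ 1 := by rw [div_le_one (by linarith only [hN0])]; linarith only []
            nlinarith only [hη, this]
    have g4 : ∫ x, θ x * U x ≤ (∫ x, θ x * ψ x) + 2 * ε * I := by
      rw [hI, ← integral_const_mul, ← integral_add (hθ.intMul hψT.cont) (hθ.int.const_mul _)]
      refine integral_mono (hθ.intMul hUs.continuous)
        ((hθ.intMul hψT.cont).add (hθ.int.const_mul _)) fun x => ?_
      simp only
      rcases le_or_gt (dd D x) rt with h | h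
      · rw [htz x h]; simp
      · rw [hψv x (by linarith only [hr2, hs0, hssr, h])]
        have := FF_ge hε0 (U x)
        nlinarith only [this, hθ0 x]
    have g5 := abs_le.1 g3
    rw [g1]
    linarith only [hεI, g4, g5]
  exact ⟨ψ, hψT, hE1.trans (hE2.le.trans hE3), hF⟩

end Vale.Agent.P145.PT
end

section

/-!
Identification of the two-point function, uniqueness, and Gaussian moments.
-/

namespace Vale.Agent.P145.PT

open MeasureTheory Set Filter Topology

/-- A test function is a difference of two nonnegative ones. -/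
theorem exists_decomp {D : Set (ℝ × ℝ)} (hD : IsOpen D) (hb : Bornology.IsBounded D)
    {φ : ℝ × ℝ → ℝ} (hφ : TestOn D φ) : ∃ p m : ℝ × ℝ → ℝ, TestOn D p ∧ TestOn D m ∧
      (∀ z, 0 ≤ p z) ∧ (∀ z, 0 ≤ m z) ∧ ∀ z, φ z = p z - m z := by
  obtain ⟨r, hr, hz⟩ := exists_low hD hb hφ
  obtain ⟨χ, hχs, hχ01, hχ0, hχ1⟩ := exists_cutoff D (show r / 2 < r by linarith)
  obtain ⟨B, hB⟩ := hφ.cs.exists_bound_of_continuous hφ.cont
  have hB0 : 0 ≤ B := (norm_nonneg _).trans (hB 0)
  have hsub : tsupport χ ⊆ {x | r / 2 ≤ dd D x} := by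
    refine closure_minimal ?_ (isClosed_le continuous_const (dd_cont D))
    intro x hx
    by_contra h
    rw [mem_ofPred_eq, not_le] at h
    exact hx (hχ0 x h.le)
  have hsubD : tsupport χ ⊆ D := fun x hx => by
    have h1 : r / 2 ≤ dd D x := hsub hx
    exact (dd_pos hD hb).1 (by linarith only [hr, h1])
  have hχT : TestOn D χ := ⟨hχs,
    Metric.isCompact_of_isClosed_isBounded (isClosed_tsupport _) (hb.subset hsubD), hsubD⟩
  refine ⟨fun z => φ z + B * χ z, fun z => B * χ z, hφ.add (hχT.smul B), hχT.smul B,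
    fun z => ?_, fun z => mul_nonneg hB0 (hχ01 z).1, fun z => by ring⟩
  change 0 ≤ φ z + B * χ z
  rcases le_or_gt (dd D z) r with h | h
  · rw [hz z h, zero_add]; exact mul_nonneg hB0 (hχ01 z).1
  · rw [hχ1 z h.le, mul_one]
    have := abs_le.1 (hB z)
    linarith only [this]

theorem L2Fn.sub' {D : Set (ℝ × ℝ)} {T : (ℝ × ℝ → ℝ) → ℝ} {C : ℝ} (hT : L2Fn D T C)
    {f g : ℝ × ℝ → ℝ} (hf : TestOn D f) (hg : TestOn D g) :
    T (fun z => f z - g z) = T f - T g := by
  have h1 := hT.add f (fun z => (-1) * g z) hf (hg.smul (-1))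
  rw [hT.smul (-1) g hg] at h1
  have : (fun z => f z - g z) = fun z => f z + (-1) * g z := by funext z; ring
  rw [this, h1]; ring

theorem L2Fn.comb {D : Set (ℝ × ℝ)} {T S : (ℝ × ℝ → ℝ) → ℝ} {C C' : ℝ} (hT : L2Fn D T C)
    (hS : L2Fn D S C') (c : ℝ) : L2Fn D (fun f => T f + c * S f) (C + |c| * C') where
  add := fun f g hf hg => by rw [hT.add f g hf hg, hS.add f g hf hg]; ring
  smul := fun a f hf => by rw [hT.smul a f hf, hS.smul a f hf]; ring
  bd := fun f hf => by
    calc |T f + c * S f| ≤ |T f| + |c * S f| := abs_add_le _ _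
      _ ≤ C * Real.sqrt (∫ z, f z ^ 2) + |c| * (C' * Real.sqrt (∫ z, f z ^ 2)) := by
          refine add_le_add (hT.bd f hf) ?_
          rw [abs_mul]
          exact mul_le_mul_of_nonneg_left (hS.bd f hf) (abs_nonneg c)
      _ = _ := by ring

theorem L2Fn.neg {D : Set (ℝ × ℝ)} {T : (ℝ × ℝ → ℝ) → ℝ} {C : ℝ} (hT : L2Fn D T C) :
    L2Fn D (fun f => - T f) C where
  add := fun f g hf hg => by rw [hT.add f g hf hg]; ring
  smul := fun a f hf => by rw [hT.smul a f hf]; ring
  bd := fun f hf => by rw [abs_neg]; exact hT.bd f hf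

theorem le_zero_of {D : Set (ℝ × ℝ)} (hD : IsOpen D) (hb : Bornology.IsBounded D)
    {T : (ℝ × ℝ → ℝ) → ℝ} {C : ℝ} (hT : L2Fn D T C)
    (heq : ∀ ψ, TestOn D ψ → T (lap ψ) = 0)
    (hdec : ∀ ε : ℝ, 0 < ε → ∃ r : ℝ, 0 < r ∧ ∀ x ∈ D, dd D x < r →
      T (bump (dd D x / 2) x) ≤ ε)
    {θ : ℝ × ℝ → ℝ} (hθ : TestOn D θ) (hθ0 : ∀ z, 0 ≤ θ z) : T θ ≤ 0 := by
  have hV := V_nonneg hb hθ
  have h : ∀ η : ℝ, 0 < η → T θ ≤ Real.sqrt (V D θ * η) + η := by
    intro η hη
    obtain ⟨ψ, hψ, hE, hTψ⟩ := lemB hD hb hT (TestOn.zero D)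
      (fun ψ hψ => by rw [heq ψ hψ]; simp) hdec hθ hθ0 hη
    have hE' : energy ψ ≤ η := by simpa using hE
    have h1 := pair_le hb hθ hψ
    have h2 : ∫ z, θ z * ψ z ≤ Real.sqrt (V D θ * η) := by
      refine Real.le_sqrt_of_sq_le (h1.trans ?_)
      exact mul_le_mul_of_nonneg_left hE' hV
    linarith
  have ht : Tendsto (fun η : ℝ => Real.sqrt (V D θ * η) + η) (𝓝[>] 0) (𝓝 0) := by
    have : Continuous (fun η : ℝ => Real.sqrt (V D θ * η) + η) := by fun_prop
    have h0 := this.tendsto 0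
    simp only [mul_zero, Real.sqrt_zero, add_zero] at h0
    exact h0.mono_left nhdsWithin_le_nhds
  exact ge_of_tendsto ht (by
    filter_upwards [self_mem_nhdsWithin] with η hη using h η hη)

/-- Uniqueness: an `L²`-bounded functional which is harmonic and decays at the boundary is `0`. -/
theorem uniq {D : Set (ℝ × ℝ)} (hD : IsOpen D) (hb : Bornology.IsBounded D)
    {T : (ℝ × ℝ → ℝ) → ℝ} {C : ℝ} (hT : L2Fn D T C)
    (heq : ∀ ψ, TestOn D ψ → T (lap ψ) = 0)
    (hdec : ∀ ε : ℝ, 0 < ε → ∃ r : ℝ, 0 < r ∧ ∀ x ∈ D, dd D x < r →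
      |T (bump (dd D x / 2) x)| ≤ ε)
    {θ : ℝ × ℝ → ℝ} (hθ : TestOn D θ) : T θ = 0 := by
  have hnn : ∀ θ, TestOn D θ → (∀ z, 0 ≤ θ z) → T θ = 0 := by
    intro θ hθ hθ0
    refine le_antisymm ?_ ?_
    · refine le_zero_of hD hb hT heq (fun ε hε => ?_) hθ hθ0
      obtain ⟨r, hr, h⟩ := hdec ε hε
      exact ⟨r, hr, fun x hx hxr => (le_abs_self _).trans (h x hx hxr)⟩
    · have := le_zero_of hD hb hT.neg (fun ψ hψ => by rw [heq ψ hψ, neg_zero]) (fun ε hε => by
        obtain ⟨r, hr, h⟩ := hdec ε hε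
        exact ⟨r, hr, fun x hx hxr => (neg_le_abs _).trans (h x hx hxr)⟩) hθ hθ0
      linarith
  obtain ⟨p, m, hp, hm, hp0, hm0, hpm⟩ := exists_decomp hD hb hθ
  have : θ = fun z => p z - m z := funext hpm
  rw [this, hT.sub' hp hm, hnn p hp hp0, hnn m hm hm0, sub_zero]

/-- The properties of a limit two-point function: symmetric, linear, positive, Schwinger-Dyson
equation `M(-Δψ, φ) = κ ∫ ψ φ`, boundedness in `L²`, and decay at the boundary. -/
structure Cov (D : Set (ℝ × ℝ)) (κ : ℝ) (M : (ℝ × ℝ → ℝ) → (ℝ × ℝ → ℝ) → ℝ) : Prop where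
  symm : ∀ f g, TestOn D f → TestOn D g → M f g = M g f
  pos : ∀ f, TestOn D f → 0 ≤ M f f
  bd : ∀ g, TestOn D g → ∃ C, L2Fn D (fun f => M f g) C
  sd : ∀ ψ g, TestOn D ψ → TestOn D g → M (lap ψ) g = - (κ * ∫ z, ψ z * g z)
  dec : ∀ g, TestOn D g → (∀ z, 0 ≤ g z) → ∀ ε : ℝ, 0 < ε → ∃ r : ℝ, 0 < r ∧
    ∀ x ∈ D, dd D x < r → M (bump (dd D x / 2) x) g ≤ ε

theorem Cov.addl {D : Set (ℝ × ℝ)} {κ : ℝ} {M : (ℝ × ℝ → ℝ) → (ℝ × ℝ → ℝ) → ℝ} (h : Cov D κ M)
    {f g k : ℝ × ℝ → ℝ} (hf : TestOn D f) (hg : TestOn D g) (hk : TestOn D k) :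
    M (fun z => f z + g z) k = M f k + M g k := by
  obtain ⟨C, hC⟩ := h.bd k hk
  exact hC.add f g hf hg

theorem Cov.smull {D : Set (ℝ × ℝ)} {κ : ℝ} {M : (ℝ × ℝ → ℝ) → (ℝ × ℝ → ℝ) → ℝ} (h : Cov D κ M)
    {f k : ℝ × ℝ → ℝ} (c : ℝ) (hf : TestOn D f) (hk : TestOn D k) :
    M (fun z => c * f z) k = c * M f k := by
  obtain ⟨C, hC⟩ := h.bd k hk
  exact hC.smul c f hf

theorem Cov.quad {D : Set (ℝ × ℝ)} {κ : ℝ} {M : (ℝ × ℝ → ℝ) → (ℝ × ℝ → ℝ) → ℝ} (h : Cov D κ M)
    {f g : ℝ × ℝ → ℝ} (hf : TestOn D f) (hg : TestOn D g) (c : ℝ) :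
    M (fun z => f z + c * g z) (fun z => f z + c * g z)
      = M f f + 2 * c * M f g + c ^ 2 * M g g := by
  have hcg := hg.smul c
  have hs := hf.add hcg
  have e1 : M (fun z => f z + c * g z) (fun z => f z + c * g z)
      = M f (fun z => f z + c * g z) + M (fun z => c * g z) (fun z => f z + c * g z) :=
    h.addl hf hcg hs
  have e2 : M (fun z => c * g z) (fun z => f z + c * g z)
      = c * M g (fun z => f z + c * g z) := h.smull c hg hs
  have e3 : M f (fun z => f z + c * g z) = M f f + c * M f g := by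
    rw [h.symm f _ hf hs]
    have : M (fun z => f z + c * g z) f = M f f + M (fun z => c * g z) f := h.addl hf hcg hf
    rw [this, h.smull c hg hf, h.symm g f hg hf]
  have e4 : M g (fun z => f z + c * g z) = M f g + c * M g g := by
    rw [h.symm g _ hg hs]
    have : M (fun z => f z + c * g z) g = M f g + M (fun z => c * g z) g := h.addl hf hcg hg
    rw [this, h.smull c hg hg]
  rw [e1, e2, e3, e4]; ring

/-- `M(φ + Δψ, φ + Δψ) = M(φ, φ) - κ (2 ∫ φ ψ - ∫ |∇ψ|²)`. -/
theorem Cov.lapquad {D : Set (ℝ × ℝ)} {κ : ℝ} {M : (ℝ × ℝ → ℝ) → (ℝ × ℝ → ℝ) → ℝ}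
    (h : Cov D κ M) {φ ψ : ℝ × ℝ → ℝ} (hφ : TestOn D φ) (hψ : TestOn D ψ) :
    M (fun z => φ z + 1 * lap ψ z) (fun z => φ z + 1 * lap ψ z)
      = M φ φ - κ * ((2 * ∫ z, φ z * ψ z) - energy ψ) := by
  rw [h.quad hφ hψ.lap 1, h.symm φ _ hφ hψ.lap, h.sd ψ φ hψ hφ, h.sd ψ _ hψ hψ.lap,
    energy_eq hψ]
  have : ∫ z, ψ z * φ z = ∫ z, φ z * ψ z := by congr 1; funext z; ring
  rw [this]; ring

/-- The lower bound holds for free. -/
theorem Cov.lower {D : Set (ℝ × ℝ)} {κ : ℝ} (hκ : 0 < κ)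
    {M : (ℝ × ℝ → ℝ) → (ℝ × ℝ → ℝ) → ℝ} (h : Cov D κ M) {φ : ℝ × ℝ → ℝ} (hφ : TestOn D φ) :
    κ * V D φ ≤ M φ φ := by
  have : V D φ ≤ M φ φ / κ := V_le fun ψ hψ => by
    rw [le_div_iff₀ hκ]
    have h1 := h.pos _ (hφ.add (hψ.lap.smul 1))
    rw [h.lapquad hφ hψ] at h1
    linarith
  rwa [le_div_iff₀ hκ, mul_comm] at this

/-- A nonnegative test function is close to a Laplacian in the seminorm of `M`. -/
theorem Cov.approx {D : Set (ℝ × ℝ)} (hD : IsOpen D) (hb : Bornology.IsBounded D) {κ : ℝ}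
    (hκ : 0 < κ) {M : (ℝ × ℝ → ℝ) → (ℝ × ℝ → ℝ) → ℝ} (h : Cov D κ M) {φ : ℝ × ℝ → ℝ}
    (hφ : TestOn D φ) (hφ0 : ∀ z, 0 ≤ φ z) {η : ℝ} (hη : 0 < η) : ∃ ψ, TestOn D ψ ∧
      M (fun z => φ z + 1 * lap ψ z) (fun z => φ z + 1 * lap ψ z) ≤ η := by
  obtain ⟨C, hC⟩ := h.bd φ hφ
  have hT : L2Fn D (fun f => κ⁻¹ * M f φ) (κ⁻¹ * C) :=
    { add := fun f g hf hg => by rw [h.addl hf hg hφ]; ring
      smul := fun c f hf => by rw [h.smull c hf hφ]; ring
      bd := fun f hf => by
        rw [abs_mul, abs_of_pos (inv_pos.2 hκ), mul_assoc]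
        exact mul_le_mul_of_nonneg_left (hC.bd f hf) (inv_pos.2 hκ).le }
  obtain ⟨ψ, hψ, hE, hTψ⟩ := lemB hD hb hT hφ (fun ψ hψ => by
      rw [h.sd ψ φ hψ hφ]; (clear * - hκ; field_simp))
    (fun ε hε => by
      obtain ⟨r, hr, hd⟩ := h.dec φ hφ hφ0 (κ * ε) (by (clear * - hκ hε; positivity))
      refine ⟨r, hr, fun x hx hxr => ?_⟩
      have h1 := hd x hx hxr
      rw [inv_mul_le_iff₀ hκ]
      exact h1) hφ hφ0 (show 0 < η / (2 * κ) by positivity)
  refine ⟨ψ, hψ, ?_⟩
  rw [h.lapquad hφ hψ]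
  rw [inv_mul_le_iff₀ hκ] at hTψ
  have e : κ * (η / (2 * κ)) = η / 2 := by (clear * - hκ hη; field_simp)
  have h2 := mul_le_mul_of_nonneg_left hE hκ.le
  rw [mul_add, e] at h2 hTψ
  linarith only [hTψ, h2]

/-- Identification of the two-point function with the Green function of `D`. -/
theorem Cov.eq_V {D : Set (ℝ × ℝ)} (hD : IsOpen D) (hb : Bornology.IsBounded D) {κ : ℝ}
    (hκ : 0 < κ) {M : (ℝ × ℝ → ℝ) → (ℝ × ℝ → ℝ) → ℝ} (h : Cov D κ M) {φ : ℝ × ℝ → ℝ}
    (hφ : TestOn D φ) : M φ φ = κ * V D φ := by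
  refine le_antisymm ?_ (h.lower hκ hφ)
  refine le_of_forall_pos_le_add fun η hη => ?_
  obtain ⟨p, m, hp, hm, hp0, hm0, hpm⟩ := exists_decomp hD hb hφ
  obtain ⟨ψ1, hψ1, h1⟩ := h.approx hD hb hκ hp hp0 (show 0 < η / 4 by linarith only [hη])
  obtain ⟨ψ2, hψ2, h2⟩ := h.approx hD hb hκ hm hm0 (show 0 < η / 4 by linarith only [hη])
  set a : ℝ × ℝ → ℝ := fun z => p z + 1 * lap ψ1 z with ha
  set b : ℝ × ℝ → ℝ := fun z => m z + 1 * lap ψ2 z with hb'
  have hat : TestOn D a := hp.add (hψ1.lap.smul 1)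
  have hbt : TestOn D b := hm.add (hψ2.lap.smul 1)
  set ψ : ℝ × ℝ → ℝ := fun z => ψ1 z + (-1) * ψ2 z with hψd
  have hψ : TestOn D ψ := hψ1.add (hψ2.smul (-1))
  have e1 : (fun z => φ z + 1 * lap ψ z) = fun z => a z + (-1) * b z := by
    funext z
    rw [hψd, lap_add hψ1.sm (contDiff_const.mul hψ2.sm), lap_smul hψ2.sm, hpm z, ha, hb']
    ring
  have e2 := h.lapquad hφ hψ
  rw [e1, h.quad hat hbt (-1)] at e2
  -- M a b ≥ -(M a a + M b b)/2
  have e3 := h.pos _ (hat.add (hbt.smul 1))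
  rw [h.quad hat hbt 1] at e3
  have e4 := mul_le_mul_of_nonneg_left (le_V hb hφ hψ) hκ.le
  linarith

end Vale.Agent.P145.PT
end

section

/-!
Inner approximation: `V D φ` is the limit of `V` of the inner sets `{dd D > s}`.
-/

namespace Vale.Agent.P145.PT

open MeasureTheory Set Filter Topology

/-- A test function on `D` is a test function on an inner set. -/
theorem TestOn.inner {D : Set (ℝ × ℝ)} (hD : IsOpen D) (hb : Bornology.IsBounded D)
    {f : ℝ × ℝ → ℝ} (hf : TestOn D f) : ∃ s : ℝ, 0 < s ∧ TestOn {x | s < dd D x} f := by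
  obtain ⟨r, hr, hz⟩ := exists_low hD hb hf
  refine ⟨r / 2, by linarith, hf.1, hf.2.1, ?_⟩
  have h : tsupport f ⊆ {x | r ≤ dd D x} := by
    refine closure_minimal ?_ (isClosed_le continuous_const (dd_cont D))
    intro x hx
    by_contra h
    rw [mem_ofPred_eq, not_le] at h
    exact hx (hz x h.le)
  intro x hx
  have h1 : r ≤ dd D x := h hx
  change r / 2 < dd D x
  linarith only [hr, h1]

theorem inner_stab {D D' : Set (ℝ × ℝ)} (hD : IsOpen D) (hb : Bornology.IsBounded D)
    {φ : ℝ × ℝ → ℝ} (hφ : TestOn D' φ) {η : ℝ} (hη : 0 < η) :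
    ∃ s : ℝ, 0 < s ∧ V D φ ≤ V {x | s < dd D x} φ + η := by
  have : Nonempty {ψ : ℝ × ℝ → ℝ // TestOn D ψ} := ⟨⟨_, TestOn.zero _⟩⟩
  obtain ⟨ψ, hψ⟩ := exists_lt_of_lt_ciSup (f := fun ψ : {ψ : ℝ × ℝ → ℝ // TestOn D ψ} =>
    (2 * ∫ z, φ z * ψ.1 z) - energy ψ.1) (b := V D φ - η) (by unfold V; linarith)
  obtain ⟨s, hs, hψs⟩ := ψ.2.inner hD hb
  refine ⟨s, hs, ?_⟩
  have hsub : {x | s < dd D x} ⊆ D := fun x hx =>
    (dd_pos hD hb).1 (hs.trans hx)
  have h1 := le_V (hb.subset hsub) hφ hψs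
  linarith only [hψ, h1]

theorem inner_mono {D : Set (ℝ × ℝ)} {s t : ℝ} (h : s ≤ t) :
    {x | t < dd D x} ⊆ {x | s < dd D x} := fun _ hx => lt_of_le_of_lt h hx

end Vale.Agent.P145.PT
end
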