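import Mathlib
import Vale.Agent.P153.Bd5.B1
import Vale.Agent.P153.Bd5.B2

set_option linter.all false

section

/-!
# P153, finite volume: the model with free `{0,1}` boundary values on the triangular lattice

`reg Λ` is the finite set of Lipschitz functions on `ℤ × ℤ` which vanish off `Λ` and take a value
in `{0, 1}` at every vertex of `Λ` with a neighbour outside `Λ`.
-/

namespace Vale.Agent.P153.Fv

open Finset

/-- the vertices of `Λ` all whose neighbours are in `Λ` -/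
def inner (Λ : Finset (ℤ × ℤ)) : Set (ℤ × ℤ) := {v | v ∈ Λ ∧ ∀ w, Adj v w → w ∈ Λ}

open Classical in
/-- the boundary condition: `0` outside, `{0, 1}` on the boundary, free inside -/
noncomputable def bc (Λ : Finset (ℤ × ℤ)) (v : ℤ × ℤ) : Set ℤ :=
  if v ∉ Λ then {0} else if v ∈ inner Λ then Set.univ else {0, 1}

theorem bc_out {Λ : Finset (ℤ × ℤ)} {v : ℤ × ℤ} (h : v ∉ Λ) : bc Λ v = {0} := by
  simp [bc, h]

theorem bc_inner {Λ : Finset (ℤ × ℤ)} {v : ℤ × ℤ} (h : v ∈ inner Λ) : bc Λ v = Set.univ := by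
  simp [bc, h, h.1]

theorem bc_bd {Λ : Finset (ℤ × ℤ)} {v : ℤ × ℤ} (h : v ∈ Λ) (h' : v ∉ inner Λ) :
    bc Λ v = {0, 1} := by
  simp only [bc, h, not_true_eq_false, ↓reduceIte, h']

theorem zero_mem_bc (Λ : Finset (ℤ × ℤ)) (v : ℤ × ℤ) : (0 : ℤ) ∈ bc Λ v := by
  unfold bc
  split_ifs <;> simp

theorem adj_iff {x y : ℤ × ℤ} : Adj x y ↔ (y.1 = x.1 + 1 ∧ y.2 = x.2) ∨
    (y.1 = x.1 - 1 ∧ y.2 = x.2) ∨ (y.1 = x.1 ∧ y.2 = x.2 + 1) ∨ (y.1 = x.1 ∧ y.2 = x.2 - 1) ∨
    (y.1 = x.1 + 1 ∧ y.2 = x.2 - 1) ∨ (y.1 = x.1 - 1 ∧ y.2 = x.2 + 1) := by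
  unfold Adj
  simp only [Set.mem_insert_iff, Set.mem_singleton_iff, Prod.mk.injEq]
  constructor <;> intro h <;> rcases h with h | h | h | h | h | h <;> omega

theorem adj_comm' {x y : ℤ × ℤ} : Adj x y ↔ Adj y x := by
  rw [adj_iff, adj_iff]
  constructor <;> intro h <;> rcases h with h | h | h | h | h | h <;> omega

/-- every vertex is joined to the outside of a finite set by a horizontal path -/
theorem exists_out (Λ : Finset (ℤ × ℤ)) (v : ℤ × ℤ) : ∃ n ≤ #Λ, (v.1 + (n : ℤ), v.2) ∉ Λ := by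
  classical
  by_contra hcon
  push Not at hcon
  have h1 : (Finset.range (#Λ + 1)).image (fun n : ℕ => (v.1 + (n : ℤ), v.2)) ⊆ Λ := by
    intro w hw
    obtain ⟨n, hn, rfl⟩ := Finset.mem_image.1 hw
    exact hcon n (by simpa only [mem_range, Order.lt_add_one_iff] using hn)
  have h2 := Finset.card_le_card h1
  rw [Finset.card_image_of_injective, Finset.card_range] at h2
  · omega
  · intro a b hab
    simpa only [Prod.mk.injEq, add_right_inj, Nat.cast_inj, and_true] using hab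

theorem finite_reg (Λ : Finset (ℤ × ℤ)) : (Lp Adj (bc Λ)).Finite := by
  refine finite_Lp Λ (fun v hv => ?_) 0 (fun v hv a ha => ?_) (#Λ) (fun v _ => ?_)
  · rw [bc_out hv]
    exact Set.subsingleton_singleton
  · rw [bc_out hv] at ha
    simp [Set.mem_singleton_iff.1 ha]
  · obtain ⟨n, hn, hn'⟩ := exists_out Λ v
    refine ⟨n, hn, fun i => (v.1 + ((n : ℤ) - i), v.2), fun i hi => ?_, ?_, fun a ha => ?_⟩
    · rw [adj_iff]
      right; left
      constructor
      · push_cast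
        ring
      · rfl
    · simp
    · simp only [Nat.cast_zero, sub_zero] at ha
      rw [bc_out hn'] at ha
      simp [Set.mem_singleton_iff.1 ha]

/-- the height functions of the region `Λ` with free `{0,1}` boundary values -/
noncomputable def reg (Λ : Finset (ℤ × ℤ)) : Finset (ℤ × ℤ → ℤ) := (finite_reg Λ).toFinset

theorem reg_isLp (Λ : Finset (ℤ × ℤ)) : IsLp Adj (bc Λ) (reg Λ) := fun h => by simp [reg]

theorem zero_mem_reg (Λ : Finset (ℤ × ℤ)) : (fun _ => 0) ∈ reg Λ :=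
  (reg_isLp Λ _).2 ⟨fun v => zero_mem_bc Λ v, fun _ _ _ => by simp only [sub_self, abs_zero, zero_le_one]⟩

theorem reg_nonempty (Λ : Finset (ℤ × ℤ)) : (reg Λ).Nonempty := ⟨_, zero_mem_reg Λ⟩

theorem mem_reg {Λ : Finset (ℤ × ℤ)} {h : ℤ × ℤ → ℤ} : h ∈ reg Λ ↔
    (∀ v, v ∉ Λ → h v = 0) ∧ (∀ v ∈ Λ, v ∉ inner Λ → h v = 0 ∨ h v = 1) ∧
      ∀ v w, Adj v w → |h v - h w| ≤ 1 := by
  rw [reg_isLp Λ h]
  constructor
  · rintro ⟨h1, h2⟩
    refine ⟨fun v hv => ?_, fun v hv hv' => ?_, h2⟩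
    · have := h1 v
      rw [bc_out hv] at this
      exact this
    · have := h1 v
      rw [bc_bd hv hv'] at this
      exact this
  · rintro ⟨h1, h2, h3⟩
    refine ⟨fun v => ?_, h3⟩
    by_cases hv : v ∈ Λ
    · by_cases hv' : v ∈ inner Λ
      · rw [bc_inner hv']
        trivial
      · rw [bc_bd hv hv']
        exact h2 v hv hv'
    · rw [bc_out hv]
      exact h1 v hv

/-! ### symmetries -/

/-- an automorphism of the triangular lattice -/
def Aut (θ : (ℤ × ℤ) ≃ (ℤ × ℤ)) : Prop := ∀ v w, Adj v w ↔ Adj (θ v) (θ w)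

theorem bc_aut {θ : (ℤ × ℤ) ≃ (ℤ × ℤ)} (hθ : Aut θ) {Λ Λ' : Finset (ℤ × ℤ)}
    (h : ∀ v, θ v ∈ Λ' ↔ v ∈ Λ) (v : ℤ × ℤ) : bc Λ' (θ v) = bc Λ v := by
  have h2 : θ v ∈ inner Λ' ↔ v ∈ inner Λ := by
    constructor
    · rintro ⟨h3, h4⟩
      exact ⟨(h v).1 h3, fun w hw => (h w).1 (h4 _ ((hθ v w).1 hw))⟩
    · rintro ⟨h3, h4⟩
      refine ⟨(h v).2 h3, fun w hw => ?_⟩
      have h5 : Adj v (θ.symm w) := (hθ v (θ.symm w)).2 (by simpa using hw)
      have := (h (θ.symm w)).2 (h4 _ h5)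
      simpa using this
  by_cases h3 : v ∈ Λ
  · by_cases h4 : v ∈ inner Λ
    · rw [bc_inner h4, bc_inner (h2.2 h4)]
    · rw [bc_bd h3 h4, bc_bd ((h v).2 h3) fun h5 => h4 (h2.1 h5)]
  · rw [bc_out h3, bc_out fun h5 => h3 ((h v).1 h5)]

/-- the reflection in row `l` -/
def th (l : ℤ) (v : ℤ × ℤ) : ℤ × ℤ := (v.1 + (v.2 - l), 2 * l - v.2)

theorem th_th (l : ℤ) (v : ℤ × ℤ) : th l (th l v) = v := by
  unfold th
  ext <;> simp <;> ring

theorem th_adj (l : ℤ) {v w : ℤ × ℤ} (h : Adj v w) : Adj (th l v) (th l w) := by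
  rw [adj_iff] at *
  unfold th
  simp only
  rcases h with h | h | h | h | h | h <;> omega

/-- the reflection as an equivalence -/
def thE (l : ℤ) : (ℤ × ℤ) ≃ (ℤ × ℤ) := ⟨th l, th l, th_th l, th_th l⟩

theorem thE_aut (l : ℤ) : Aut (thE l) := fun v w => ⟨fun h => th_adj l h, fun h => by
  have := th_adj l h
  simpa [thE, th_th] using this⟩

/-- the rows `≥ l` -/
def up (l : ℤ) : Set (ℤ × ℤ) := {v | l ≤ v.2}

/-- the rows `≤ l` -/
def dn (l : ℤ) : Set (ℤ × ℤ) := {v | v.2 ≤ l}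

/-- the row `l` -/
def row (l : ℤ) : Set (ℤ × ℤ) := {v | v.2 = l}

theorem up_inter_dn (l : ℤ) : up l ∩ dn l = row l := by
  ext v
  simp only [up, dn, row, Set.mem_inter_iff, Set.mem_ofPred_eq]
  (clear * -; omega)

theorem sep_up_dn (l : ℤ) : Sep Adj (up l) (dn l) := by
  constructor
  · ext v
    simp only [up, dn, Set.mem_union, Set.mem_ofPred_eq, Set.mem_univ, iff_true]
    omega
  · intro v hv w hw
    simp only [up, dn, Set.mem_ofPred_eq] at hv hw
    rw [adj_iff, adj_iff]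
    omega

theorem th_up (l : ℤ) : ∀ v ∈ up l, th l v ∈ dn l := by
  intro v hv
  simp only [up, dn, th, Set.mem_ofPred_eq] at *
  omega

theorem th_row (l : ℤ) : ∀ v ∈ row l, th l v = v := by
  intro v hv
  simp only [row, th, Set.mem_ofPred_eq] at *
  ext <;> simp only [add_eq_left] <;> omega

/-- `Λ` is symmetric with respect to row `l` -/
def SymRow (Λ : Finset (ℤ × ℤ)) (l : ℤ) : Prop := ∀ v, th l v ∈ Λ ↔ v ∈ Λ

theorem bc_th {Λ : Finset (ℤ × ℤ)} {l : ℤ} (h : SymRow Λ l) (v : ℤ × ℤ) :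
    bc Λ (th l v) ⊆ bc Λ v := (bc_aut (thE_aut l) (θ := thE l) h v).le

/-- Markov property in the rows -/
theorem reg_markov (Λ : Finset (ℤ × ℤ)) (l : ℤ) {F : (ℤ × ℤ → ℤ) → ℝ} (hF : Dep (up l) F)
    {h : ℤ × ℤ → ℤ} (hh : h ∈ reg Λ) : cE (reg Λ) (dn l) F h = cE (reg Λ) (row l) F h := by
  have := (reg_isLp Λ).markov (sep_up_dn l) hF hh
  rwa [up_inter_dn] at this

/-- reflection identity in a region symmetric with respect to row `l` -/
theorem reg_reflect {Λ : Finset (ℤ × ℤ)} {l : ℤ} (hΛ : SymRow Λ l)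
    {F G : (ℤ × ℤ → ℤ) → ℝ} (hF : Dep (up l) F) (hG : Dep (up l) G) :
    ev (reg Λ) (fun h => F h * G (h ∘ th l))
      = ev (reg Λ) (fun h => cE (reg Λ) (dn l) F h * cE (reg Λ) (dn l) G h) := by
  have := (reg_isLp Λ).reflect (th_th l) (fun v w h => th_adj l h) (bc_th hΛ) (sep_up_dn l)
    (th_up l) (by rw [up_inter_dn]; exact th_row l) hF hG
  rw [this, up_inter_dn]
  apply ev_congr
  intro h hh
  rw [reg_markov Λ l hF hh, reg_markov Λ l hG hh]

/-- reflection positivity -/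
theorem reg_rp {Λ : Finset (ℤ × ℤ)} {l : ℤ} (hΛ : SymRow Λ l)
    {F : (ℤ × ℤ → ℤ) → ℝ} (hF : Dep (up l) F) :
    0 ≤ ev (reg Λ) (fun h => F h * F (h ∘ th l)) := by
  rw [reg_reflect hΛ hF hF]
  exact ev_nonneg _ _ fun h _ => mul_self_nonneg _

/-- the hexagon of radius `n` -/
noncomputable def hex (n : ℕ) : Finset (ℤ × ℤ) :=
  ((Finset.Icc (-(n : ℤ)) n) ×ˢ (Finset.Icc (-(n : ℤ)) n)).filter
    (fun v => |v.1 + v.2| ≤ n)

theorem mem_hex {n : ℕ} {v : ℤ × ℤ} : v ∈ hex n ↔ |v.1| ≤ n ∧ |v.2| ≤ n ∧ |v.1 + v.2| ≤ n := by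
  simp only [hex, Finset.mem_filter, Finset.mem_product, Finset.mem_Icc, abs_le]
  tauto

theorem hex_sym (n : ℕ) : SymRow (hex n) 0 := by
  intro v
  rw [mem_hex, mem_hex]
  simp only [th, sub_zero, mul_zero, zero_sub, abs_neg]
  rw [show v.1 + v.2 + -v.2 = v.1 by ring]
  tauto

/-- the rectangle: rows `-H ≤ j ≤ H'` of the vertical strip `|2 a + j| ≤ 2 N` -/
noncomputable def rect (N H H' : ℕ) : Finset (ℤ × ℤ) :=
  ((Finset.Icc (-((N : ℤ) + H + H')) (N + H + H')) ×ˢ (Finset.Icc (-(H : ℤ)) H')).filter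
    (fun v => |2 * v.1 + v.2| ≤ 2 * N)

theorem mem_rect {N H H' : ℕ} {v : ℤ × ℤ} :
    v ∈ rect N H H' ↔ (-(H : ℤ) ≤ v.2 ∧ v.2 ≤ H') ∧ |2 * v.1 + v.2| ≤ 2 * N := by
  simp only [rect, Finset.mem_filter, Finset.mem_product, Finset.mem_Icc]
  constructor
  · rintro ⟨⟨_, h2⟩, h3⟩
    exact ⟨h2, h3⟩
  · rintro ⟨h1, h2⟩
    refine ⟨⟨?_, h1⟩, h2⟩
    rw [abs_le] at h2
    constructor <;> omega

end Vale.Agent.P153.Fv
end

section

/-!
P153, block A3: statements of the steps. Each `S_x` is proved as `theorem s_x : S_x` in its own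
file (hypotheses: earlier steps, if any, as arguments).
-/

namespace Vale.Agent.P153.A

open MeasureTheory Filter Topology Relation
open Vale.Agent.P153.GFF (Adj Ht Pat LocLim hexa Plane)
open Vale.Agent.P153.Topo (Conn)

/-- (1) supermodularity. -/
def S_super : Prop := ∀ (D : Finset Pt) (τ τ' : Sp), τ ∈ Adm D → τ' ∈ Adm D →
  w D τ * w D τ' ≤ w D (τ ⊔ τ') * w D (τ ⊓ τ')

/-- (2) the law of tau. -/
def S_e1 : Prop := ∀ (D : Finset Pt), (Adm D).Finite ∧ (Cf D).Finite ∧ (Cf D).Nonempty ∧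
  ∀ F : Om → ℝ, E2 D F = (∑ᶠ τ ∈ Adm D, ∑ᶠ s ∈ (G D τ : Set Sp), F (pr τ s)) /
    ∑ᶠ τ ∈ Adm D, (w D τ : ℝ)

/-- (3) association. -/
def S_fkg : Prop := ∀ (D : Finset Pt) (f g : Sp → ℝ), Monotone f → Monotone g →
  E1 D f * E1 D g ≤ E1 D fun τ => f τ * g τ

/-- (4) smaller domains have larger tau. -/
def S_dom : Prop := ∀ (D D' : Finset Pt), D ⊆ D' → ∀ f : Sp → ℝ, Monotone f → E1 D' f ≤ E1 D f

/-- (5) product structure of separated domains. -/
def S_prod : Prop := ∀ (D D' : Finset Pt), (∀ x ∈ D, ∀ y ∈ D', x ≠ y ∧ ¬ Adj x y) →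
  ∀ f g : Sp → ℝ, Loc D f → Loc D' g → E1 (D ∪ D') (fun τ => f τ * g τ) = E1 D f * E1 D' g

/-- (6) local limits are measures (compactness). -/
def S_comp : Prop := ∀ (X : Type) [Fintype X] [TopologicalSpace X] [DiscreteTopology X]
  [MeasurableSpace X] [BorelSpace X] (ν : Finset Pt → Measure (Pt → X)),
  (∀ D, IsProbabilityMeasure (ν D)) →
  (∀ (B : Finset Pt) (F : (Pt → X) → ℝ), Loc B F → ∃ l : ℝ, Tendsto (fun D => ∫ ω, F ω ∂(ν D))
    atTop (𝓝 l)) →
  ∃ μ : Measure (Pt → X), IsProbabilityMeasure μ ∧ ∀ (B : Finset Pt) (F : (Pt → X) → ℝ), Loc B F →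
    Tendsto (fun D => ∫ ω, F ω ∂(ν D)) atTop (𝓝 (∫ ω, F ω ∂μ))

/-- (7) the limit law of tau exists. -/
def S_mu : Prop := ∃ μ, IsMu μ

/-- (8) it is translation invariant. -/
def S_muInv : Prop := ∀ μ, IsMu μ → ∀ z, μ.map (tr z) = μ

/-- (9) it is mixing. -/
def S_muMix : Prop := ∀ μ, IsMu μ → ∀ (B : Finset Pt) (f g : Sp → ℝ), Loc B f → Loc B g →
  Tendsto (fun z => ∫ τ, f τ * g (tr z τ) ∂μ) cofinite (𝓝 ((∫ τ, f τ ∂μ) * ∫ τ, g τ ∂μ))

/-- (10) finite energy. -/
def S_muFlip : Prop := ∀ μ, IsMu μ → ∀ (x : Pt) (S : Set Sp), MeasurableSet S →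
  μ (flipAt x ⁻¹' S) ≤ 64 * μ S

/-- Two distinct infinite bichromatic clusters. -/
def TwoInf : Set Sp := {τ | ∃ x y, {u | Bich Set.univ τ x u}.Infinite ∧
  {u | Bich Set.univ τ y u}.Infinite ∧ ¬ Bich Set.univ τ x y}

/-- (11) Burton-Keane. -/
def S_bk : Prop := ∀ μ : Measure Sp, IsProbabilityMeasure μ → (∀ z, μ.map (tr z) = μ) →
  (∀ (B : Finset Pt) (f g : Sp → ℝ), Loc B f → Loc B g →
    Tendsto (fun z => ∫ τ, f τ * g (tr z τ) ∂μ) cofinite (𝓝 ((∫ τ, f τ ∂μ) * ∫ τ, g τ ∂μ))) →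
  (∀ (x : Pt) (S : Set Sp), MeasurableSet S → μ (flipAt x ⁻¹' S) ≤ 64 * μ S) → μ TwoInf = 0

/-- The output of (11) used below. -/
def FarLim (μ : Measure Sp) : Prop := ∀ x y, Tendsto (fun R => μ.real (Far R x y)) atTop (𝓝 0)

/-- (12) local form. -/
def S_far : Prop := ∀ μ : Measure Sp, IsProbabilityMeasure μ → μ TwoInf = 0 → FarLim μ

/-- (13) given tau, sigma is given by coins on the bichromatic clusters. -/
def S_coin : Prop := ∀ (D B : Finset Pt) (F : Om → ℝ) (τ : Sp), B ⊆ D → Loc B F → τ ∈ Adm D →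
  (∑ᶠ s ∈ (G D τ : Set Sp), F (pr τ s)) / (w D τ : ℝ) = coin B (Bich Set.univ τ) F τ

/-- (14) localisation of the coin average. -/
def S_coin2 : Prop := ∀ (R : ℕ) (B : Finset Pt) (F : Om → ℝ), B ⊆ bx R → Loc B F →
  Loc (bx (R + 1)) (fun τ => coin B (Bich (bx (R + 1)) τ) F τ) ∧
  ∀ τ : Sp, (∀ x ∈ B, ∀ y ∈ B, τ ∉ Far R x y) →
    coin B (Bich Set.univ τ) F τ = coin B (Bich (bx (R + 1)) τ) F τ

/-- (15) the limit law of (tau, sigma) exists. -/
def S_q : Prop := (∃ μ, IsMu μ ∧ FarLim μ) → ∃ Q, IsQ Q ∧ FarLim (Q.map tau)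

/-- (16) two distant even functions: the coin average factorises. -/
def S_coin3 : Prop := ∀ (R : ℕ) (B : Finset Pt) (F F' : Om → ℝ), B ⊆ bx R → Loc B F → Loc B F' →
  (∀ ω, F (neg ω) = F ω) → (∀ ω, F' (neg ω) = F' ω) → ∀ z : Pt, (2 * (R : ℤ) + 4 < |z.1| ∨
    2 * (R : ℤ) + 4 < |z.2|) → ∀ τ : Sp, (∀ x ∈ B, ∀ y ∈ B, τ ∉ Far R x y) →
    (∀ x ∈ B, ∀ y ∈ B, tr z τ ∉ Far R x y) →
    coin (B ∪ B.image (· + z)) (Bich Set.univ τ) (fun ω => F ω * F' (tr z ω)) τ =
      coin B (Bich (bx (R + 1)) τ) F τ * coin B (Bich (bx (R + 1)) (tr z τ)) F' (tr z τ)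

/-- (17) mixing of even functions. -/
def S_mixQ : Prop := ∀ Q, IsQ Q → FarLim (Q.map tau) → ∀ (B : Finset Pt) (F F' : Om → ℝ),
  Loc B F → Loc B F' → (∀ ω, F (neg ω) = F ω) → (∀ ω, F' (neg ω) = F' ω) →
  Tendsto (fun z => ∫ ω, F ω * F' (tr z ω) ∂Q) cofinite (𝓝 ((∫ ω, F ω ∂Q) * ∫ ω, F' ω ∂Q))

/-- (18) symmetries. -/
def S_sym : Prop := ∀ Q, IsQ Q → (∀ θ : Pt ≃ Pt, (∀ v u, Adj v u ↔ Adj (θ v) (θ u)) →
  Q.map (fun ω x => ω (θ x)) = Q) ∧ Q.map neg = Q ∧ ∀ᵐ ω ∂Q, Comp ω

/-- (19) heights and pairs. -/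
def S_rc : Prop :=
  (∀ ω, Comp ω → ∀ x y, Adj x y → rc ω y - rc ω x = inc (ω x) (ω y)) ∧
  (∀ ω, Comp ω → ∀ x, (rc ω x + cd (ω 0) - cd (ω x)) % 4 = 0) ∧
  (∀ φ : Pt → ℤ, (∀ x y, Adj x y → |φ x - φ y| ≤ 1) → Comp (fun x => enc (φ x)) ∧
    ∀ x, rc (fun x => enc (φ x)) x = φ x - φ 0) ∧
  (∀ ω x, rc (neg ω) x = - rc ω x) ∧
  (∀ ω, Comp ω → ∀ z x, rc (tr z ω) x = rc ω (x + z) - rc ω z) ∧
  Measurable rc ∧ ∀ B : Finset Pt, ∃ B' : Finset Pt, ∀ ω ω' : Om, (∀ x ∈ B', ω x = ω' x) →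
    ∀ x ∈ B, rc ω x = rc ω' x

/-- (20) bijection between heights and pairs. -/
def S_bij : Prop := ∀ D : Finset Pt, Cc D → Set.BijOn (fun φ x => enc (φ x)) (Ht D) (Cf D)

/-- (21) local limits along all exhausting sequences with connected complements. -/
def S_loc : Prop := ∀ Q, IsQ Q → ∀ (B : Finset Pt) (a : Pt → ℤ), Tendsto
  (fun D : Finset Pt => ((Ht D ∩ Pat B a).ncard : ℝ) / (Ht D).ncard) (atTop ⊓ 𝓟 {D | Cc D})
    (𝓝 ((Q.map rc).real (Pat B a)))

/-- (22) domains used. -/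
def S_cc : Prop := (∀ n, Cc (hexa n)) ∧ (∀ N H H', Cc (Fv.rect N H H')) ∧
  ∀ B : Finset Pt, ∃ n : ℕ, (∀ m, n ≤ m → B ⊆ hexa m) ∧ ∀ N H H', n ≤ N → n ≤ H → n ≤ H' →
    B ⊆ Fv.rect N H H'

/-- (23) finite volume reflection positivity, local functions of the recentred heights. -/
def S_rp0 : Prop := ∀ (n : ℕ) (F : (Pt → ℤ) → ℝ),
  (∀ φ ψ, (∀ x : Pt, 0 ≤ x.2 → φ x = ψ x) → F φ = F ψ) →
  0 ≤ ∑ᶠ φ ∈ Ht (hexa n), F (fun x => φ x - φ 0) * F (fun x => φ (GFF.th x) - φ 0)

/-- (24) reflection positivity of the limit. -/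
def S_rp : Prop := ∀ Q, IsQ Q → ∀ F : (Pt → ℤ) → ℝ, Measurable F → (∃ M, ∀ φ, |F φ| ≤ M) →
    (∀ φ ψ, (∀ x, 0 ≤ x.2 → φ x = ψ x) → F φ = F ψ) →
    0 ≤ ∫ φ, F φ * F (fun x => φ (GFF.th x)) ∂(Q.map rc)

/-- (25) gradient Gibbs property. -/
def S_gibbs : Prop := ∀ P : Measure (Pt → ℤ), IsProbabilityMeasure P → LocLim P hexa → GFF.Gibbs P

/-- (26) mixing of even functions of the heights. -/
def S_mixP : Prop := ∀ Q, IsQ Q → FarLim (Q.map tau) → ∀ (B : Finset Pt) (W W' : (Pt → ℤ) → ℝ),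
  (∃ M, ∀ φ, |W φ| ≤ M) → (∃ M, ∀ φ, |W' φ| ≤ M) →
  (∀ φ ψ, (∀ x ∈ B, φ x = ψ x) → W φ = W ψ) → (∀ φ ψ, (∀ x ∈ B, φ x = ψ x) → W' φ = W' ψ) →
  (∀ φ, W (fun x => - φ x) = W φ) → (∀ φ, W' (fun x => - φ x) = W' φ) →
  Tendsto (fun t => ∫ φ, W φ * W' (GFF.shift t φ) ∂(Q.map rc)) cofinite
    (𝓝 ((∫ φ, W φ ∂(Q.map rc)) * ∫ φ, W' φ ∂(Q.map rc)))

end Vale.Agent.P153.A
end

section

/-!
Paths in the triangular lattice `ℤ × ℤ` (adjacency `Step`), and the primitive of a
`ZMod 2`-valued cochain with zero sum around every triangle.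
-/

namespace Vale.Agent.P153.Topo

open Relation

theorem step_symm {x y : ℤ × ℤ} (h : Step x y) : Step y x := by
  unfold Step at h ⊢; rcases h with h | h | h | h | h | h <;> omega

instance (x y : ℤ × ℤ) : Decidable (Step x y) := by unfold Step; infer_instance

variable {S T : Set (ℤ × ℤ)} {x y z : ℤ × ℤ}

end Vale.Agent.P153.Topo
end

section

set_option linter.all false

/-!
P153, block A3, step (15): the limit law of (tau, sigma).
-/

namespace Vale.Agent.P153.A.QLim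

open MeasureTheory Filter Topology Relation
open Vale.Agent.P153.GFF (Adj Ht Pat LocLim hexa)
open Vale.Agent.P153.A

section loc

variable {X : Type}

/-- the restriction to `B` -/
def res (B : Finset Pt) (ω : Pt → X) : B → X := fun b => ω b

theorem loc_factor {B : Finset Pt} {F : (Pt → X) → ℝ} (h : Loc B F) :
    ∃ g : (B → X) → ℝ, F = g ∘ res B := by
  classical
  refine ⟨Function.extend (res B) F (fun _ => 0), ?_⟩
  have hf : Function.FactorsThrough F (res B) := by
    intro ω ω' hω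
    exact h ω ω' fun x hx => congrFun hω ⟨x, hx⟩
  exact (hf.extend_comp (fun _ => 0)).symm

theorem loc_bdd [Finite X] {B : Finset Pt} {F : (Pt → X) → ℝ} (h : Loc B F) :
    ∃ M : ℝ, 0 ≤ M ∧ ∀ ω, |F ω| ≤ M := by
  obtain ⟨g, hg⟩ := loc_factor h
  have : (Set.range fun v => |g v|).Finite := Set.finite_range _
  obtain ⟨M, hM⟩ := this.bddAbove
  refine ⟨max M 0, le_max_right _ _, fun ω => ?_⟩
  rw [hg]
  exact (hM ⟨res B ω, rfl⟩).trans (le_max_left _ _)

theorem loc_meas [Finite X] [MeasurableSpace X] [MeasurableSingletonClass X] {B : Finset Pt}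
    {F : (Pt → X) → ℝ} (h : Loc B F) : Measurable F := by
  obtain ⟨g, hg⟩ := loc_factor h
  rw [hg]
  refine Measurable.comp (Measurable.of_discrete) ?_
  exact measurable_pi_lambda _ fun b => measurable_pi_apply _

end loc

/-- functions on `B` extended by `false` -/
theorem fin_ext (B : Finset Pt) : {t : Sp | ∀ x, x ∉ B → t x = false}.Finite := by
  classical
  refine Set.Finite.of_finite_image (f := res B) (Set.toFinite _) ?_
  intro t ht t' ht' h
  funext x
  by_cases hx : x ∈ B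
  · exact congrFun h ⟨x, hx⟩
  · rw [ht x hx, ht' x hx]

theorem G_fin (D : Finset Pt) (τ : Sp) : (G D τ : Set Sp).Finite :=
  (fin_ext D).subset fun s hs => hs.1

theorem w_pos (D : Finset Pt) (τ : Sp) : 0 < w D τ := by
  have : Finite (G D τ) := (G_fin D τ).to_subtype
  exact Nat.card_pos

theorem coin_bdd {B : Finset Pt} {r : Pt → Pt → Prop} {F : Om → ℝ} {τ : Sp} {M : ℝ}
    (hM : 0 ≤ M) (hF : ∀ ω, |F ω| ≤ M) : |coin B r F τ| ≤ M := by
  unfold coin
  have hfin : {t : Sp | (∀ x, x ∉ B → t x = false) ∧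
      ∀ x ∈ B, ∀ y ∈ B, r x y → t x = t y}.Finite := (fin_ext B).subset fun t ht => ht.1
  rw [finsum_mem_eq_finite_toFinset_sum _ hfin, Set.ncard_eq_toFinset_card _ hfin, abs_div]
  have h1 : |∑ t ∈ hfin.toFinset, F (pr τ t)| ≤ hfin.toFinset.card * M := by
    refine (Finset.abs_sum_le_sum_abs _ _).trans ?_
    refine (Finset.sum_le_sum fun t _ => hF (pr τ t)).trans (le_of_eq ?_)
    rw [Finset.sum_const, nsmul_eq_mul]
  rw [Nat.abs_cast]
  rcases Nat.eq_zero_or_pos hfin.toFinset.card with h0 | h0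
  · rw [h0, Nat.cast_zero, div_zero]; exact hM
  · rw [div_le_iff₀ (by exact_mod_cast h0)]
    linarith

/-! ### expectations as finite sums -/

theorem E2_sum (h1 : S_e1) (D : Finset Pt) :
    ∃ S : Finset Om, S.Nonempty ∧ ∀ F : Om → ℝ, E2 D F = (∑ ω ∈ S, F ω) / S.card := by
  obtain ⟨-, hfin, hne, -⟩ := h1 D
  refine ⟨hfin.toFinset, ?_, fun F => ?_⟩
  · rw [Set.Finite.toFinset_nonempty]; exact hne
  · unfold E2
    rw [finsum_mem_eq_finite_toFinset_sum _ hfin, Set.ncard_eq_toFinset_card _ hfin]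

theorem E1_abs (h1 : S_e1) (D : Finset Pt) {f g k : Sp → ℝ} (h : ∀ τ, |f τ - g τ| ≤ k τ) :
    |E1 D f - E1 D g| ≤ E1 D k := by
  obtain ⟨S, hS, hE⟩ := E2_sum h1 D
  unfold E1
  rw [hE, hE, hE, ← sub_div, ← Finset.sum_sub_distrib, abs_div, Nat.abs_cast]
  refine div_le_div_of_nonneg_right ?_ (by positivity)
  exact (Finset.abs_sum_le_sum_abs _ _).trans (Finset.sum_le_sum fun ω _ => h _)

theorem E1_lin (h1 : S_e1) (D : Finset Pt) {ι : Type} (s : Finset ι) (c : ℝ)
    (f : ι → Sp → ℝ) : E1 D (fun τ => c * ∑ i ∈ s, f i τ) = c * ∑ i ∈ s, E1 D (f i) := by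
  obtain ⟨S, hS, hE⟩ := E2_sum h1 D
  unfold E1
  rw [hE]
  simp only [hE]
  rw [← Finset.mul_sum, Finset.sum_comm, ← Finset.sum_div, mul_div_assoc]

theorem nu_exists (h1 : S_e1) (D : Finset Pt) :
    ∃ ν : Measure Om, IsProbabilityMeasure ν ∧ ∀ F : Om → ℝ, ∫ ω, F ω ∂ν = E2 D F := by
  obtain ⟨S, hS, hE⟩ := E2_sum h1 D
  have hc : (0 : ℝ) < S.card := by exact_mod_cast hS.card_pos
  have hc' : (S.card : ENNReal) ≠ 0 := by
    rw [Nat.cast_ne_zero]; exact hS.card_pos.ne'
  refine ⟨(S.card : ENNReal)⁻¹ • ∑ ω ∈ S, Measure.dirac ω, ⟨?_⟩, fun F => ?_⟩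
  · rw [Measure.smul_apply, Measure.finsetSum_apply]
    simp only [measure_univ, Finset.sum_const, smul_eq_mul, nsmul_eq_mul, mul_one]
    exact ENNReal.inv_mul_cancel hc' (ENNReal.natCast_ne_top _)
  · rw [hE, integral_smul_measure, integral_finset_sum_measure]
    · simp only [integral_dirac]
      rw [ENNReal.toReal_inv, ENNReal.toReal_natCast, smul_eq_mul, div_eq_inv_mul]
    · intro ω _
      exact integrable_dirac (by simp)

/-! ### the coin average -/

/-- the coin average along the bichromatic clusters -/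
noncomputable def cu (B : Finset Pt) (F : Om → ℝ) (τ : Sp) : ℝ := coin B (Bich Set.univ τ) F τ

theorem E2_coin (h1 : S_e1) (h2 : S_coin) {D B : Finset Pt} (hB : B ⊆ D) {F : Om → ℝ}
    (hF : Loc B F) : E2 D F = E1 D (cu B F) := by
  obtain ⟨hA, -, -, hE⟩ := h1 D
  unfold E1
  rw [hE, hE]
  congr 1
  refine finsum_mem_congr rfl fun τ hτ => ?_
  have hw : (w D τ : ℝ) ≠ 0 := by exact_mod_cast (w_pos D τ).ne'
  have h3 := h2 D B F τ hB hF hτ
  rw [div_eq_iff hw] at h3
  rw [h3]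
  have h4 : ∀ s, cu B F (tau (pr τ s)) = cu B F τ := fun s => rfl
  simp only [h4]
  rw [finsum_mem_eq_finite_toFinset_sum _ (G_fin D τ), Finset.sum_const, nsmul_eq_mul,
    mul_comm]
  congr 1
  unfold w
  rw [← Set.ncard_eq_toFinset_card _ (G_fin D τ)]
  rfl

/-! ### the event Far -/

theorem bich_loc {S : Set Pt} {τ τ' : Sp} (h : ∀ x ∈ S, τ x = τ' x) {x y : Pt}
    (hb : Bich S τ x y) : Bich S τ' x y := by
  refine ReflTransGen.mono (r := fun u v => Adj u v ∧ τ u ≠ τ v ∧ u ∈ S ∧ v ∈ S) ?_ _ _ hb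
  rintro u v ⟨h1, h2, h3, h4⟩
  exact ⟨h1, by rw [← h u h3, ← h v h4]; exact h2, h3, h4⟩

theorem far_loc {R : ℕ} {x y : Pt} {τ τ' : Sp} (h : ∀ x ∈ bx (R + 1), τ x = τ' x)
    (hf : τ ∈ Far R x y) : τ' ∈ Far R x y := by
  have h1 : ∀ x ∈ ((bx (R + 1) : Finset Pt) : Set Pt), τ x = τ' x := fun x hx => h x hx
  have h2 : ∀ x ∈ ((bx (R + 1) : Finset Pt) : Set Pt), τ' x = τ x := fun x hx => (h x hx).symm
  obtain ⟨a, ⟨u, hu, hu'⟩, ⟨v, hv, hv'⟩⟩ := hf
  exact ⟨fun hb => a (bich_loc h2 hb), ⟨u, hu, bich_loc h1 hu'⟩, ⟨v, hv, bich_loc h1 hv'⟩⟩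

/-- the indicator of Far -/
noncomputable def fi (R : ℕ) (x y : Pt) : Sp → ℝ := Set.indicator (Far R x y) 1

theorem fi_loc (R : ℕ) (x y : Pt) : Loc (bx (R + 1)) (fi R x y) := by
  classical
  intro τ τ' h
  unfold fi
  by_cases hf : τ ∈ Far R x y
  · rw [Set.indicator_of_mem hf, Set.indicator_of_mem (far_loc h hf)]
    rfl
  · rw [Set.indicator_of_notMem hf, Set.indicator_of_notMem]
    intro hf'
    exact hf (far_loc (fun x hx => (h x hx).symm) hf')

theorem far_meas (R : ℕ) (x y : Pt) : MeasurableSet (Far R x y) := by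
  classical
  have h := loc_meas (fi_loc R x y)
  have e : Far R x y = fi R x y ⁻¹' {1} := by
    ext τ
    unfold fi
    by_cases hf : τ ∈ Far R x y
    · simp [hf]
    · simp [hf]
  rw [e]
  exact h (measurableSet_singleton _)

theorem tau_meas : Measurable tau :=
  measurable_pi_lambda _ fun x => measurable_fst.comp (measurable_pi_apply x)

theorem int_fi (μ : Measure Sp) (R : ℕ) (x y : Pt) : ∫ τ, fi R x y τ ∂μ = μ.real (Far R x y) := by
  unfold fi
  rw [integral_indicator_one (far_meas R x y)]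

/-! ### the limit -/

theorem cu_close (h3 : S_coin2) {R : ℕ} {B : Finset Pt} {F : Om → ℝ} (hB : B ⊆ bx R)
    (hF : Loc B F) {M : ℝ} (hM : 0 ≤ M) (hFM : ∀ ω, |F ω| ≤ M) (τ : Sp) :
    |cu B F τ - coin B (Bich (bx (R + 1)) τ) F τ| ≤
      (2 * M) * ∑ p ∈ B ×ˢ B, fi R p.1 p.2 τ := by
  classical
  have hnn : ∀ p : Pt × Pt, 0 ≤ fi R p.1 p.2 τ := fun p => by
    unfold fi
    exact Set.indicator_nonneg (fun _ _ => zero_le_one) _
  by_cases h : ∀ x ∈ B, ∀ y ∈ B, τ ∉ Far R x y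
  · have : cu B F τ = coin B (Bich (bx (R + 1)) τ) F τ := (h3 R B F hB hF).2 τ h
    rw [this, sub_self, abs_zero]
    exact mul_nonneg (by positivity) (Finset.sum_nonneg fun p _ => hnn p)
  · push Not at h
    obtain ⟨x, hx, y, hy, hxy⟩ := h
    have h4 : (1 : ℝ) ≤ ∑ p ∈ B ×ˢ B, fi R p.1 p.2 τ := by
      calc (1 : ℝ) = fi R x y τ := by
            unfold fi
            rw [Set.indicator_of_mem hxy]; rfl
        _ ≤ _ := Finset.single_le_sum (f := fun p : Pt × Pt => fi R p.1 p.2 τ)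
            (fun p _ => hnn p) (Finset.mk_mem_product hx hy)
    have h5 : |cu B F τ| ≤ M := coin_bdd hM hFM
    have h6 : |coin B (Bich (bx (R + 1)) τ) F τ| ≤ M := coin_bdd hM hFM
    calc |cu B F τ - coin B (Bich (bx (R + 1)) τ) F τ| ≤
          |cu B F τ| + |coin B (Bich (bx (R + 1)) τ) F τ| := abs_sub _ _
      _ ≤ 2 * M * 1 := by linarith
      _ ≤ _ := mul_le_mul_of_nonneg_left h4 (by positivity)

theorem sub_bx (B : Finset Pt) : ∃ R0 : ℕ, ∀ R, R0 ≤ R → B ⊆ bx R := by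
  classical
  refine ⟨∑ p ∈ B, (p.1.natAbs + p.2.natAbs), fun R hR p hp => ?_⟩
  have h1 : p.1.natAbs + p.2.natAbs ≤ ∑ p ∈ B, (p.1.natAbs + p.2.natAbs) :=
    Finset.single_le_sum (f := fun p : Pt => p.1.natAbs + p.2.natAbs) (fun _ _ => Nat.zero_le _) hp
  unfold bx
  rw [Finset.mem_product, Finset.mem_Icc, Finset.mem_Icc]
  omega

theorem lim_exists (h1 : S_e1) (h2 : S_coin) (h3 : S_coin2) {μ : Measure Sp} (hμ : IsMu μ)
    (hfar : FarLim μ) {B : Finset Pt} {F : Om → ℝ} (hF : Loc B F) :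
    ∃ l : ℝ, Tendsto (fun D => E2 D F) atTop (𝓝 l) := by
  classical
  obtain ⟨M, hM, hFM⟩ := loc_bdd hF
  refine cauchySeq_tendsto_of_complete ?_
  rw [Metric.cauchySeq_iff']
  intro ε hε
  obtain ⟨R0, hR0⟩ := sub_bx B
  -- choose R
  have hlim : Tendsto (fun R => (2 * M) * ∑ p ∈ B ×ˢ B, μ.real (Far R p.1 p.2)) atTop (𝓝 0) := by
    have : Tendsto (fun R => (2 * M) * ∑ p ∈ B ×ˢ B, μ.real (Far R p.1 p.2)) atTop
        (𝓝 ((2 * M) * ∑ p ∈ B ×ˢ B, (0 : ℝ))) :=
      (tendsto_finset_sum _ fun p _ => hfar p.1 p.2).const_mul _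
    simpa using this
  obtain ⟨R, hR, hRε⟩ : ∃ R, R0 ≤ R ∧
      (2 * M) * ∑ p ∈ B ×ˢ B, μ.real (Far R p.1 p.2) < ε / 4 := by
    have := ((tendsto_order.1 hlim).2 (ε / 4) (by positivity)).and (eventually_ge_atTop R0)
    obtain ⟨R, h⟩ := this.exists
    exact ⟨R, h.2, h.1⟩
  have hBR := hR0 R hR
  set L : ℝ := ∫ τ, coin B (Bich (bx (R + 1)) τ) F τ ∂μ with hL
  have t1 : Tendsto (fun D => E1 D fun τ => coin B (Bich (bx (R + 1)) τ) F τ) atTop (𝓝 L) :=
    hμ.lim _ _ (h3 R B F hBR hF).1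
  have t2 : Tendsto (fun D => (2 * M) * ∑ p ∈ B ×ˢ B, E1 D (fi R p.1 p.2)) atTop
      (𝓝 ((2 * M) * ∑ p ∈ B ×ˢ B, μ.real (Far R p.1 p.2))) := by
    refine (tendsto_finset_sum _ fun p _ => ?_).const_mul _
    rw [← int_fi]
    exact hμ.lim _ _ (fi_loc R p.1 p.2)
  have ev : ∀ᶠ D : Finset Pt in atTop, dist (E2 D F) L < ε / 2 := by
    have e1 := (Metric.tendsto_nhds.1 t1) (ε / 4) (by positivity)
    have e2 := (tendsto_order.1 t2).2 (ε / 4) hRε
    filter_upwards [e1, e2, eventually_ge_atTop B] with D d1 d2 hBD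
    have hBD' : B ⊆ D := hBD
    rw [E2_coin h1 h2 hBD' hF]
    have d3 := E1_abs h1 D (fun τ => cu_close h3 hBR hF hM hFM τ)
    rw [E1_lin h1 D (B ×ˢ B) (2 * M) (fun p => fi R p.1 p.2)] at d3
    rw [Real.dist_eq] at d1 ⊢
    calc |E1 D (cu B F) - L| ≤ |E1 D (cu B F) - E1 D fun τ => coin B (Bich (bx (R + 1)) τ) F τ| +
          |(E1 D fun τ => coin B (Bich (bx (R + 1)) τ) F τ) - L| := abs_sub_le _ _ _
      _ < ε / 4 + ε / 4 := by linarith
      _ = ε / 2 := by ring
  obtain ⟨N, hN⟩ := eventually_atTop.1 ev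
  refine ⟨N, fun n hn => ?_⟩
  calc dist (E2 n F) (E2 N F) ≤ dist (E2 n F) L + dist (E2 N F) L := dist_triangle_right _ _ _
    _ < ε / 2 + ε / 2 := add_lt_add (hN n hn) (hN N le_rfl)
    _ = ε := by ring

theorem s_q (h_e1 : S_e1) (h_comp : S_comp) (h_coin : S_coin) (h_coin2 : S_coin2) : S_q := by
  classical
  rintro ⟨μ, hμ, hfar⟩
  choose ν hν1 hν2 using nu_exists h_e1
  obtain ⟨Q, hQ1, hQ2⟩ := h_comp (Bool × Bool) ν hν1 (fun B F hF => by
    obtain ⟨l, hl⟩ := lim_exists h_e1 h_coin h_coin2 hμ hfar hF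
    exact ⟨l, by simpa only [hν2] using hl⟩)
  have hQ : IsQ Q := ⟨hQ1, fun B F hF => by simpa only [hν2] using hQ2 B F hF⟩
  refine ⟨Q, hQ, fun x y => ?_⟩
  have key : ∀ R, (Q.map tau).real (Far R x y) = μ.real (Far R x y) := by
    intro R
    have a1 := hμ.lim _ _ (fi_loc R x y)
    have hl : Loc (bx (R + 1)) (fun ω : Om => fi R x y (tau ω)) := by
      intro ω ω' h
      exact fi_loc R x y _ _ fun x hx => congrArg Prod.fst (h x hx)
    have a2 := hQ.lim _ _ hl
    have a3 := tendsto_nhds_unique a1 a2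
    rw [int_fi] at a3
    rw [a3, ← int_fi, integral_map tau_meas.aemeasurable
      (loc_meas (fi_loc R x y)).aestronglyMeasurable]
  simp only [key]
  exact hfar x y

end Vale.Agent.P153.A.QLim

namespace Vale.Agent.P153.A

/-- (15) the limit law of (tau, sigma) exists. -/
theorem s_q (h_e1 : S_e1) (h_comp : S_comp) (h_coin : S_coin) (h_coin2 : S_coin2) : S_q :=
  QLim.s_q h_e1 h_comp h_coin h_coin2

end Vale.Agent.P153.A
end

section

/-!
P153, block A3, leaf (3): association of the law of tau.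
-/

namespace Vale.Agent.P153.A

open MeasureTheory Filter Topology Relation

private theorem fkg_sumG (D : Finset Pt) (τ : Sp) (c : ℝ) :
    (∑ᶠ s ∈ (G D τ : Set Sp), c) = (w D τ : ℝ) * c := by
  by_cases hfin : (G D τ : Set Sp).Finite
  · rw [finsum_mem_eq_finite_toFinset_sum _ hfin, Finset.sum_const, nsmul_eq_mul, w,
      ← Set.ncard_eq_toFinset_card _ hfin]
    rfl
  · by_cases hc : c = 0
    · subst hc
      simp only [SetLike.mem_coe, finsum_zero, mul_zero]
    · have h0 : w D τ = 0 := by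
        unfold w
        rw [Nat.card_eq_zero]
        right
        exact Set.infinite_coe_iff.2 hfin
      rw [h0, Nat.cast_zero, zero_mul]
      apply finsum_mem_eq_zero_of_infinite
      convert (show (G D τ : Set Sp).Infinite from hfin) using 1
      ext x
      simp [hc]

/-- `E1` as a weighted average over the admissible tau. -/
theorem fkg_E1_eq (h2 : S_e1) (D : Finset Pt) (f : Sp → ℝ) :
    E1 D f = (∑ τ ∈ (h2 D).1.toFinset, (w D τ : ℝ) * f τ) /
      ∑ τ ∈ (h2 D).1.toFinset, (w D τ : ℝ) := by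
  have h1 := (h2 D).1
  have h := (h2 D).2.2.2 fun ω => f (tau ω)
  rw [E1, h]
  congr 1
  · rw [finsum_mem_eq_finite_toFinset_sum _ h1]
    apply Finset.sum_congr rfl
    intro τ _
    exact fkg_sumG D τ (f τ)
  · exact finsum_mem_eq_finite_toFinset_sum _ h1

/-- The partition function is positive. -/
theorem fkg_Z_pos (h2 : S_e1) (D : Finset Pt) : 0 < ∑ τ ∈ (h2 D).1.toFinset, (w D τ : ℝ) := by
  have h0 : 0 ≤ ∑ τ ∈ (h2 D).1.toFinset, (w D τ : ℝ) := Finset.sum_nonneg fun _ _ => Nat.cast_nonneg _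
  refine lt_of_le_of_ne h0 fun h => ?_
  have h3 := fkg_E1_eq h2 D fun _ => 1
  rw [← h, div_zero] at h3
  obtain ⟨-, hf, hn, -⟩ := h2 D
  unfold E1 E2 at h3
  rw [finsum_mem_eq_finite_toFinset_sum _ hf, Finset.sum_const, nsmul_eq_mul, mul_one,
    ← Set.ncard_eq_toFinset_card _ hf, div_self] at h3
  · exact one_ne_zero h3
  · have := (Set.ncard_pos hf).2 hn
    exact_mod_cast this.ne'

private theorem fkg_adm_sup {D : Finset Pt} {a b : Sp} (ha : a ∈ Adm D) : a ⊔ b ∈ Adm D := by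
  intro x hx
  rw [Pi.sup_apply, ha x hx]
  rfl

private theorem fkg_adm_inf {D : Finset Pt} {a b : Sp} (ha : a ∈ Adm D) (hb : b ∈ Adm D) :
    a ⊓ b ∈ Adm D := by
  intro x hx
  rw [Pi.inf_apply, ha x hx, hb x hx]
  rfl

open scoped FinsetFamily in
private theorem fkg_nonneg (h1 : S_super) (h2 : S_e1) (D : Finset Pt) (f g : Sp → ℝ)
    (hf : Monotone f) (hg : Monotone g) (hf0 : ∀ x, 0 ≤ f x) (hg0 : ∀ x, 0 ≤ g x) :
    (∑ τ ∈ (h2 D).1.toFinset, (w D τ : ℝ) * f τ) * (∑ τ ∈ (h2 D).1.toFinset, (w D τ : ℝ) * g τ) ≤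
      (∑ τ ∈ (h2 D).1.toFinset, (w D τ : ℝ)) *
        ∑ τ ∈ (h2 D).1.toFinset, (w D τ : ℝ) * (f τ * g τ) := by
  classical
  set A := (h2 D).1.toFinset with hA
  have hmem : ∀ {a}, a ∈ A ↔ a ∈ Adm D := by
    intro a
    rw [hA, Set.Finite.mem_toFinset]
  have hinf : A ⊼ A = A := by
    apply Finset.Subset.antisymm
    · intro x hx
      obtain ⟨a, ha, b, hb, rfl⟩ := Finset.mem_infs.1 hx
      exact hmem.2 (fkg_adm_inf (hmem.1 ha) (hmem.1 hb))
    · exact Finset.subset_infs_self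
  have hsup : A ⊻ A = A := by
    apply Finset.Subset.antisymm
    · intro x hx
      obtain ⟨a, ha, b, hb, rfl⟩ := Finset.mem_sups.1 hx
      exact hmem.2 (fkg_adm_sup (hmem.1 ha))
    · exact Finset.subset_sups_self
  have key := four_functions_theorem (α := Sp) (β := ℝ)
    (f₁ := fun τ => if τ ∈ A then (w D τ : ℝ) * f τ else 0)
    (f₂ := fun τ => if τ ∈ A then (w D τ : ℝ) * g τ else 0)
    (f₃ := fun τ => if τ ∈ A then (w D τ : ℝ) else 0)
    (f₄ := fun τ => if τ ∈ A then (w D τ : ℝ) * (f τ * g τ) else 0)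
    (fun τ => by
      simp only [Pi.zero_apply]
      split_ifs
      · exact mul_nonneg (Nat.cast_nonneg _) (hf0 _)
      · exact le_rfl)
    (fun τ => by
      simp only [Pi.zero_apply]
      split_ifs
      · exact mul_nonneg (Nat.cast_nonneg _) (hg0 _)
      · exact le_rfl)
    (fun τ => by
      simp only [Pi.zero_apply]
      split_ifs
      · exact Nat.cast_nonneg _
      · exact le_rfl)
    (fun τ => by
      simp only [Pi.zero_apply]
      split_ifs
      · exact mul_nonneg (Nat.cast_nonneg _) (mul_nonneg (hf0 _) (hg0 _))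
      · exact le_rfl)
    (fun a b => by
      by_cases ha : a ∈ A
      · by_cases hb : b ∈ A
        · have hs : a ⊔ b ∈ A := hmem.2 (fkg_adm_sup (hmem.1 ha))
          have hi : a ⊓ b ∈ A := hmem.2 (fkg_adm_inf (hmem.1 ha) (hmem.1 hb))
          simp only [if_pos ha, if_pos hb, if_pos hs, if_pos hi]
          have h3 : (w D a : ℝ) * w D b ≤ w D (a ⊔ b) * w D (a ⊓ b) := by
            exact_mod_cast h1 D a b (hmem.1 ha) (hmem.1 hb)
          have h4 : f a * g b ≤ f (a ⊔ b) * g (a ⊔ b) :=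
            mul_le_mul (hf le_sup_left) (hg le_sup_right) (hg0 _) (hf0 _)
          calc (w D a : ℝ) * f a * (w D b * g b) = (w D a * w D b) * (f a * g b) := by ring
            _ ≤ (w D (a ⊔ b) * w D (a ⊓ b)) * (f (a ⊔ b) * g (a ⊔ b)) :=
              mul_le_mul h3 h4 (mul_nonneg (hf0 _) (hg0 _)) (by (clear * -; positivity))
            _ = w D (a ⊓ b) * (w D (a ⊔ b) * (f (a ⊔ b) * g (a ⊔ b))) := by ring
        · simp only [if_neg hb, mul_zero]
          apply mul_nonneg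
          · split_ifs
            · exact Nat.cast_nonneg _
            · exact le_rfl
          · split_ifs
            · exact mul_nonneg (Nat.cast_nonneg _) (mul_nonneg (hf0 _) (hg0 _))
            · exact le_rfl
      · simp only [if_neg ha, zero_mul]
        apply mul_nonneg
        · split_ifs
          · exact Nat.cast_nonneg _
          · exact le_rfl
        · split_ifs
          · exact mul_nonneg (Nat.cast_nonneg _) (mul_nonneg (hf0 _) (hg0 _))
          · exact le_rfl)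
    A A
  rw [hinf, hsup] at key
  simpa only [Finset.sum_ite_mem, Finset.inter_self] using key

/-- (3) association. -/
theorem s_fkg (h1 : S_super) (h2 : S_e1) : S_fkg := by
  intro D f g hf hg
  rw [fkg_E1_eq h2, fkg_E1_eq h2, fkg_E1_eq h2]
  have hZ := fkg_Z_pos h2 D
  have key := fkg_nonneg h1 h2 D (fun τ => f τ - f ⊥) (fun τ => g τ - g ⊥)
    (fun a b h => sub_le_sub_right (hf h) _) (fun a b h => sub_le_sub_right (hg h) _)
    (fun x => sub_nonneg.2 (hf bot_le)) (fun x => sub_nonneg.2 (hg bot_le))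
  set A := (h2 D).1.toFinset
  set Z := ∑ τ ∈ A, (w D τ : ℝ) with hZdef
  have e1 : ∀ (u : Sp → ℝ) (c : ℝ), (∑ τ ∈ A, (w D τ : ℝ) * (u τ - c)) =
      (∑ τ ∈ A, (w D τ : ℝ) * u τ) - c * Z := by
    intro u c
    rw [hZdef, Finset.mul_sum, ← Finset.sum_sub_distrib]
    exact Finset.sum_congr rfl fun _ _ => by ring
  have e2 : (∑ τ ∈ A, (w D τ : ℝ) * ((f τ - f ⊥) * (g τ - g ⊥))) =
      (∑ τ ∈ A, (w D τ : ℝ) * (f τ * g τ)) - g ⊥ * (∑ τ ∈ A, (w D τ : ℝ) * f τ) -
        f ⊥ * (∑ τ ∈ A, (w D τ : ℝ) * g τ) + f ⊥ * g ⊥ * Z := by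
    rw [hZdef, Finset.mul_sum, Finset.mul_sum, Finset.mul_sum, ← Finset.sum_sub_distrib,
      ← Finset.sum_sub_distrib, ← Finset.sum_add_distrib]
    exact Finset.sum_congr rfl fun _ _ => by ring
  rw [e1, e1, e2] at key
  rw [div_mul_div_comm, div_le_div_iff₀ (by (clear * - hZ; positivity)) hZ]
  nlinarith only [key, hZ]

end Vale.Agent.P153.A
end

section

/-!
P153, block A3, step (2): the law of tau.
-/

namespace Vale.Agent.P153.A

namespace E1f

theorem finite_const (D : Set Pt) (hD : D.Finite) (c : Bool) :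
    {s : Sp | ∀ x, x ∉ D → s x = c}.Finite := by
  classical
  have := hD.to_subtype
  refine (Set.finite_range (fun (g : D → Bool) (x : Pt) =>
    if h : x ∈ D then g ⟨x, h⟩ else c)).subset ?_
  intro s hs
  refine ⟨fun x => s x, ?_⟩
  funext x
  by_cases h : x ∈ D
  · simp [h]
  · simp [h, hs x h]

theorem inn_finite (D : Finset Pt) : (inn D).Finite :=
  D.finite_toSet.subset fun _ hx => hx.1

theorem adm_finite (D : Finset Pt) : (Adm D).Finite := finite_const (inn D) (inn_finite D) true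

theorem g_finite (D : Finset Pt) (τ : Sp) : (G D τ : Set Sp).Finite := by
  refine (finite_const (D : Set Pt) D.finite_toSet false).subset ?_
  intro s hs x hx
  exact hs.1 x hx

theorem mem_cf {D : Finset Pt} {τ σ : Sp} : pr τ σ ∈ Cf D ↔ τ ∈ Adm D ∧ σ ∈ G D τ := by
  constructor
  · rintro ⟨h1, h2, h3⟩
    refine ⟨h2, h3, fun x y hxy hne => ?_⟩
    rcases h1 x y hxy with h | h
    · exact absurd h hne
    · exact h
  · rintro ⟨h1, h2, h3⟩
    refine ⟨fun x y hxy => ?_, h1, h2⟩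
    by_cases h : τ x = τ y
    · exact Or.inl h
    · exact Or.inr (h3 x y hxy h)

theorem cf_finite (D : Finset Pt) : (Cf D).Finite := by
  refine (Set.Finite.image2 pr (adm_finite D)
    (finite_const (D : Set Pt) D.finite_toSet false)).subset ?_
  intro ω hω
  exact ⟨tau ω, hω.2.1, fun x => (ω x).2, fun x hx => hω.2.2 x hx, rfl⟩

theorem cf_nonempty (D : Finset Pt) : (Cf D).Nonempty :=
  ⟨pr (fun _ => true) (fun _ => false), fun _ _ _ => Or.inl rfl, fun _ _ => rfl, fun _ _ => rfl⟩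

theorem sum_cf (D : Finset Pt) (F : Om → ℝ) :
    ∑ᶠ ω ∈ Cf D, F ω = ∑ᶠ τ ∈ Adm D, ∑ᶠ s ∈ (G D τ : Set Sp), F (pr τ s) := by
  classical
  rw [finsum_mem_eq_finite_toFinset_sum _ (cf_finite D),
    finsum_mem_eq_finite_toFinset_sum _ (adm_finite D)]
  rw [← Finset.sum_fiberwise_of_maps_to (t := (adm_finite D).toFinset) (g := tau)
    (fun ω hω => by
      rw [Set.Finite.mem_toFinset] at hω ⊢
      exact hω.2.1)]
  refine Finset.sum_congr rfl fun τ hτ => ?_
  rw [Set.Finite.mem_toFinset] at hτ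
  rw [finsum_mem_eq_finite_toFinset_sum _ (g_finite D τ)]
  symm
  refine Finset.sum_bij (fun s _ => pr τ s) ?_ ?_ ?_ ?_
  · intro s hs
    rw [Set.Finite.mem_toFinset] at hs
    rw [Finset.mem_filter, Set.Finite.mem_toFinset]
    exact ⟨mem_cf.2 ⟨hτ, hs⟩, rfl⟩
  · intro s _ s' _ h
    funext x
    exact congrArg Prod.snd (congrFun h x)
  · intro ω hω
    rw [Finset.mem_filter, Set.Finite.mem_toFinset] at hω
    obtain ⟨h1, h2⟩ := hω
    subst h2
    refine ⟨fun x => (ω x).2, ?_, rfl⟩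
    rw [Set.Finite.mem_toFinset]
    exact (mem_cf.1 (show pr (tau ω) (fun x => (ω x).2) ∈ Cf D from h1)).2
  · intro s _
    rfl

theorem ncard_cf (D : Finset Pt) : ((Cf D).ncard : ℝ) = ∑ᶠ τ ∈ Adm D, (w D τ : ℝ) := by
  have h1 := sum_cf D (fun _ => 1)
  have h2 : ∑ᶠ ω ∈ Cf D, (1 : ℝ) = ((Cf D).ncard : ℝ) := by
    rw [finsum_mem_eq_finite_toFinset_sum _ (cf_finite D), Finset.sum_const, nsmul_eq_mul, mul_one,
      ← Set.ncard_eq_toFinset_card _ (cf_finite D)]
  rw [h2] at h1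
  rw [h1]
  refine finsum_mem_congr rfl fun τ _ => ?_
  rw [finsum_mem_eq_finite_toFinset_sum _ (g_finite D τ), Finset.sum_const, nsmul_eq_mul, mul_one,
    ← Set.ncard_eq_toFinset_card _ (g_finite D τ)]
  unfold w
  rw [← Nat.card_coe_set_eq]
  rfl

end E1f

theorem s_e1 : S_e1 := by
  intro D
  refine ⟨E1f.adm_finite D, E1f.cf_finite D, E1f.cf_nonempty D, fun F => ?_⟩
  unfold E2
  rw [E1f.sum_cf, E1f.ncard_cf]

end Vale.Agent.P153.A
end

section

/-!
P153, block A3, leaf (21): local limits along all exhausting families with connected complements.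
-/

namespace Vale.Agent.P153.A

open MeasureTheory Filter Topology Relation
open Vale.Agent.P153.GFF (Adj Ht Pat LocLim hexa Plane)
open Vale.Agent.P153.Topo (Conn)

namespace LocAll

theorem meas_pat (B : Finset Pt) (a : Pt → ℤ) : MeasurableSet (Pat B a) := by
  have h : Pat B a = ⋂ x ∈ B, ⋂ y ∈ B, {φ : Pt → ℤ | φ x - φ y = a x - a y} := by
    ext φ
    simp only [Pat, Prod.forall, Set.mem_ofPred_eq, Set.mem_iInter]
  rw [h]
  refine Finset.measurableSet_biInter _ fun x _ => Finset.measurableSet_biInter _ fun y _ => ?_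
  exact measurableSet_eq_fun ((measurable_pi_apply x).sub (measurable_pi_apply y))
    measurable_const

theorem finsum_ind {X : Type} (A S : Set X) :
    (∑ᶠ x ∈ A, S.indicator (fun _ => (1 : ℝ)) x) = ((A ∩ S).ncard : ℝ) := by
  classical
  have h1 : (∑ᶠ x ∈ A, S.indicator (fun _ => (1 : ℝ)) x) = ∑ᶠ x ∈ A ∩ S, (1 : ℝ) := by
    refine finsum_congr fun x => ?_
    by_cases hA : x ∈ A <;> by_cases hS : x ∈ S <;> simp [hA, hS]
  rw [h1]
  by_cases hf : (A ∩ S).Finite
  · rw [finsum_mem_eq_finite_toFinset_sum _ hf, Set.ncard_eq_toFinset_card _ hf]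
    simp only [Finset.sum_const, nsmul_eq_mul, mul_one]
  · rw [Set.Infinite.ncard hf]
    rw [finsum_mem_eq_zero_of_infinite]
    · simp
    · rw [Function.support_const one_ne_zero, Set.inter_univ]
      exact hf

theorem lip {D : Finset Pt} {φ : Pt → ℤ} (h : φ ∈ Ht D) : ∀ x y, Adj x y → |φ x - φ y| ≤ 1 := by
  intro x y hxy
  exact h.2 x y hxy

end LocAll

open LocAll

theorem s_loc (hrc : S_rc) (hbij : S_bij) : S_loc := by
  intro Q hQ B a
  obtain ⟨-, -, hφ, -, -, hmeas, hloc⟩ := hrc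
  have : IsProbabilityMeasure Q := hQ.prob
  obtain ⟨B', hB'⟩ := hloc B
  set F : Om → ℝ := (rc ⁻¹' Pat B a).indicator (fun _ => (1 : ℝ)) with hF
  have hmem : ∀ ω ω' : Om, (∀ x ∈ B', ω x = ω' x) → (rc ω ∈ Pat B a ↔ rc ω' ∈ Pat B a) := by
    intro ω ω' h
    have h' := hB' ω ω' h
    constructor
    · intro hp x hx y hy
      rw [← h' x hx, ← h' y hy]
      exact hp x hx y hy
    · intro hp x hx y hy
      rw [h' x hx, h' y hy]
      exact hp x hx y hy
  have hL : Loc B' F := by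
    intro ω ω' h
    by_cases hp : rc ω ∈ Pat B a
    · have hp' := (hmem ω ω' h).1 hp
      rw [hF, Set.indicator_of_mem (show ω ∈ rc ⁻¹' Pat B a from hp),
        Set.indicator_of_mem (show ω' ∈ rc ⁻¹' Pat B a from hp')]
    · have hp' : rc ω' ∉ Pat B a := fun hh => hp ((hmem ω ω' h).2 hh)
      rw [hF, Set.indicator_of_notMem (show ω ∉ rc ⁻¹' Pat B a from hp),
        Set.indicator_of_notMem (show ω' ∉ rc ⁻¹' Pat B a from hp')]
  have hlim := (hQ.lim B' F hL).mono_left (inf_le_left : atTop ⊓ 𝓟 {D | Cc D} ≤ atTop)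
  have hint : ∫ ω, F ω ∂Q = (Q.map rc).real (Pat B a) := by
    rw [map_measureReal_apply hmeas (meas_pat B a), hF]
    exact integral_indicator_one (hmeas (meas_pat B a))
  rw [hint] at hlim
  refine hlim.congr' ?_
  filter_upwards [mem_inf_of_right (mem_principal_self {D : Finset Pt | Cc D})] with D hD
  have hb := hbij D hD
  have hpat : ∀ φ ∈ Ht D, (rc (fun x => enc (φ x)) ∈ Pat B a ↔ φ ∈ Pat B a) := by
    intro φ hφ'
    have h1 := (hφ φ (lip hφ')).2
    constructor
    · intro hp x hx y hy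
      have := hp x hx y hy
      rw [h1 x, h1 y] at this
      linarith only [this]
    · intro hp x hx y hy
      have := hp x hx y hy
      rw [h1 x, h1 y]
      linarith only [this]
  have hc1 : (Cf D).ncard = (Ht D).ncard := by
    rw [← hb.image_eq, hb.injOn.ncard_image]
  have hc2 : (Cf D ∩ rc ⁻¹' Pat B a).ncard = (Ht D ∩ Pat B a).ncard := by
    have himg : (fun (φ : Pt → ℤ) x => enc (φ x)) '' (Ht D ∩ Pat B a) =
        Cf D ∩ rc ⁻¹' Pat B a := by
      ext ω
      constructor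
      · rintro ⟨φ, ⟨h1, h2⟩, rfl⟩
        exact ⟨hb.mapsTo h1, (hpat φ h1).2 h2⟩
      · rintro ⟨h1, h2⟩
        obtain ⟨φ, h3, rfl⟩ := hb.surjOn h1
        exact ⟨φ, ⟨h3, (hpat φ h3).1 h2⟩, rfl⟩
    rw [← himg, (hb.injOn.mono Set.inter_subset_left).ncard_image]
  show E2 D F = _
  rw [E2, hc1, hF, finsum_ind, hc2]

end Vale.Agent.P153.A
end

section

/-!
The primitive of an antisymmetric cochain on the triangular lattice whose sum around every
triangle is zero, with values in a commutative group.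
-/

namespace Vale.Agent.P153.Topo

variable {G : Type*} [AddCommGroup G]

/-- Primitive of a function on the integers. -/
theorem exists_primG (f : ℤ → G) : ∃ F : ℤ → G, F 0 = 0 ∧ ∀ i, F (i + 1) = F i + f i := by
  refine ⟨fun i => ∑ k ∈ Finset.Ico 0 i, f k - ∑ k ∈ Finset.Ico i 0, f k, by simp, ?_⟩
  intro i
  rcases le_or_gt 0 i with h | h
  · have e1 : Finset.Ico 0 (i + 1) = insert i (Finset.Ico 0 i) := by
      ext k; simp only [Finset.mem_Ico, Finset.mem_insert]; omega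
    have e2 : Finset.Ico (i + 1) 0 = ∅ := Finset.Ico_eq_empty (by omega)
    have e3 : Finset.Ico i 0 = ∅ := Finset.Ico_eq_empty (by omega)
    simp only [e1, e2, e3, Finset.sum_empty]
    rw [Finset.sum_insert (by simp only [Finset.mem_Ico, lt_self_iff_false, and_false, not_false_eq_true])]
    abel
  · have e1 : Finset.Ico i 0 = insert i (Finset.Ico (i + 1) 0) := by
      ext k; simp only [Finset.mem_Ico, Finset.mem_insert]; omega
    have e2 : Finset.Ico 0 (i + 1) = ∅ := Finset.Ico_eq_empty (by omega)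
    have e3 : Finset.Ico 0 i = ∅ := Finset.Ico_eq_empty (by omega)
    simp only [e1, e2, e3, Finset.sum_empty]
    rw [Finset.sum_insert (by simp only [Finset.mem_Ico, add_le_iff_nonpos_right, Int.reduceLE, false_and, not_false_eq_true])]
    abel

theorem const_of_succG {g : ℤ → G} (h0 : g 0 = 0) (h : ∀ j, g (j + 1) = g j) (j : ℤ) :
    g j = 0 := by
  induction j using Int.induction_on with
  | zero => exact h0
  | succ n ih => rw [h, ih]
  | pred n ih =>
    have := h (-(n : ℤ) - 1)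
    rw [sub_add_cancel] at this
    rw [← this, ih]

/-- An antisymmetric cochain on the edges of the triangular lattice whose sum around every
triangle is zero is the coboundary of a function on the vertices. -/
theorem exists_cobG (c : ℤ × ℤ → ℤ × ℤ → G) (hs : ∀ x y, c x y = - c y x)
    (h1 : ∀ i j, c (i, j) (i + 1, j) + c (i + 1, j) (i, j + 1) + c (i, j + 1) (i, j) = 0)
    (h2 : ∀ i j, c (i + 1, j) (i + 1, j + 1) + c (i + 1, j + 1) (i, j + 1) +
      c (i, j + 1) (i + 1, j) = 0) :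
    ∃ U : ℤ × ℤ → G, ∀ x y, Step x y → c x y = U y - U x := by
  obtain ⟨A, hA0, hA⟩ := exists_primG (fun i => c (i, 0) (i + 1, 0))
  choose B hB0 hB using fun i => exists_primG (fun j => c (i, j) (i, j + 1))
  have hor : ∀ i j, c (i, j) (i + 1, j) = (A (i + 1) + B (i + 1) j) - (A i + B i j) := by
    intro i
    have key : ∀ j, (A (i + 1) + B (i + 1) j) - (A i + B i j) - c (i, j) (i + 1, j) = 0 := by
      apply const_of_succG
      · rw [hB0, hB0, hA]
        abel
      · intro j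
        rw [hB, hB]
        have e1 := h1 i j
        have e2 := h2 i j
        rw [hs (i, j + 1) (i, j)] at e1
        rw [hs (i + 1, j + 1) (i, j + 1), hs (i, j + 1) (i + 1, j)] at e2
        rw [← sub_eq_zero]
        have e3 : A (i + 1) + (B (i + 1) j + c (i + 1, j) (i + 1, j + 1)) -
            (A i + (B i j + c (i, j) (i, j + 1))) - c (i, j + 1) (i + 1, j + 1) -
            (A (i + 1) + B (i + 1) j - (A i + B i j) - c (i, j) (i + 1, j)) =
            (c (i, j) (i + 1, j) + c (i + 1, j) (i, j + 1) + -c (i, j) (i, j + 1)) +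
            (c (i + 1, j) (i + 1, j + 1) + -c (i, j + 1) (i + 1, j + 1) +
              -c (i + 1, j) (i, j + 1)) := by abel
        rw [e3, e1, e2, add_zero]
    intro j
    exact (sub_eq_zero.1 (key j)).symm
  have ver : ∀ i j, c (i, j) (i, j + 1) = (A i + B i (j + 1)) - (A i + B i j) := by
    intro i j
    rw [hB]
    abel
  have dia : ∀ i j, c (i + 1, j) (i, j + 1) =
      (A i + B i (j + 1)) - (A (i + 1) + B (i + 1) j) := by
    intro i j
    have e1 := h1 i j
    rw [hs (i, j + 1) (i, j), hor i j, ver i j] at e1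
    rw [← sub_eq_zero, ← e1]
    abel
  refine ⟨fun x => A x.1 + B x.1 x.2, ?_⟩
  rintro ⟨i, j⟩ ⟨k, l⟩ h
  unfold Step at h
  dsimp only at h ⊢
  rcases h with ⟨rfl, rfl⟩ | ⟨rfl, rfl⟩ | ⟨rfl, rfl⟩ | ⟨rfl, rfl⟩ | ⟨rfl, rfl⟩ | ⟨rfl, rfl⟩
  · exact hor i l
  · have := hor (i - 1) l
    rw [sub_add_cancel] at this
    rw [hs, this]; abel
  · exact ver k j
  · have := ver k (j - 1)
    rw [sub_add_cancel] at this
    rw [hs, this]; abel
  · have := dia i (j - 1)
    rw [sub_add_cancel] at this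
    rw [hs, this]; abel
  · have := dia (i - 1) j
    rw [sub_add_cancel] at this
    rw [this]

/-- The same, with one hypothesis for all oriented triangles. -/
theorem exists_pot (c : ℤ × ℤ → ℤ × ℤ → G) (hs : ∀ x y, Step x y → c x y = - c y x)
    (h : ∀ x y z, Step x y → Step y z → Step z x → c x y + c y z + c z x = 0) :
    ∃ U : ℤ × ℤ → G, ∀ x y, Step x y → c x y = U y - U x := by
  classical
  obtain ⟨U, hU⟩ := exists_cobG (fun x y => if Step x y then c x y else 0)
    (fun x y => by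
      by_cases hxy : Step x y
      · simp only [hxy, step_symm hxy, if_true]
        exact hs x y hxy
      · have : ¬ Step y x := fun h' => hxy (step_symm h')
        simp only [hxy, this, if_false, neg_zero])
    (fun i j => by
      have a1 : Step (i, j) (i + 1, j) := by unfold Step; dsimp only; omega
      have a2 : Step (i + 1, j) (i, j + 1) := by unfold Step; dsimp only; omega
      have a3 : Step (i, j + 1) (i, j) := by unfold Step; dsimp only; omega
      simp only [a1, a2, a3, if_true]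
      exact h _ _ _ a1 a2 a3)
    (fun i j => by
      have a1 : Step (i + 1, j) (i + 1, j + 1) := by unfold Step; dsimp only; (clear * -; omega)
      have a2 : Step (i + 1, j + 1) (i, j + 1) := by unfold Step; dsimp only; omega
      have a3 : Step (i, j + 1) (i + 1, j) := by unfold Step; dsimp only; omega
      simp only [a1, a2, a3, if_true]
      exact h _ _ _ a1 a2 a3)
  refine ⟨U, fun x y hxy => ?_⟩
  rw [← hU x y hxy, if_pos hxy]

end Vale.Agent.P153.Topo
end

section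

/-!
# Almost invariant functionals of a system whose even functionals mix
-/

open MeasureTheory Filter Topology

namespace Vale.Agent.P153.RP

theorem abs_integral_le_sqrt {Ω : Type*} [MeasurableSpace Ω] (P : Measure Ω) [IsProbabilityMeasure P]
    {f : Ω → ℝ} (hf : Measurable f) {M : ℝ} (hM : ∀ ω, |f ω| ≤ M) {ε : ℝ} (h : ∫ ω, f ω ^ 2 ∂P ≤ ε) :
    ∫ ω, |f ω| ∂P ≤ √ε := by
  have hi : Integrable (fun ω => |f ω|) P :=
    Integrable.of_bound (C := M) hf.abs.aestronglyMeasurable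
      (Eventually.of_forall fun ω => by rw [Real.norm_eq_abs, abs_abs]; exact hM ω)
  have hi2 : Integrable (fun ω => f ω ^ 2) P :=
    Integrable.of_bound (C := M ^ 2) (hf.pow_const 2).aestronglyMeasurable
      (Eventually.of_forall fun ω => by
        rw [Real.norm_eq_abs, abs_pow]; exact pow_le_pow_left₀ (abs_nonneg _) (hM ω) 2)
  set m := ∫ ω, |f ω| ∂P with hm
  have hm0 : 0 ≤ m := integral_nonneg fun ω => abs_nonneg _
  have h1 : 0 ≤ ∫ ω, (|f ω| - m) ^ 2 ∂P := integral_nonneg fun ω => sq_nonneg _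
  have h2 : ∫ ω, (|f ω| - m) ^ 2 ∂P = ∫ ω, f ω ^ 2 ∂P - m ^ 2 := by
    have e : ∀ ω, (|f ω| - m) ^ 2 = f ω ^ 2 - 2 * m * |f ω| + m ^ 2 := by
      intro ω
      rw [sub_sq, sq_abs]; ring
    simp_rw [e]
    have i1 : Integrable (fun ω => 2 * m * |f ω|) P := hi.const_mul _
    have i2 : Integrable (fun ω => f ω ^ 2 - 2 * m * |f ω|) P := hi2.sub i1
    rw [integral_add i2 (integrable_const _), integral_sub hi2 i1,
      integral_const_mul, integral_const]
    simp only [probReal_univ, smul_eq_mul, one_mul]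
    rw [← hm]
    ring
  rw [h2] at h1
  apply Real.le_sqrt_of_sq_le
  linarith

/-- the product of two almost invariant functionals is almost constant -/
theorem prod_ineq {Ω : Type*} [MeasurableSpace Ω] (P : Measure Ω) [IsProbabilityMeasure P]
    (T : ℕ → Ω → Ω) (hT : ∀ n, Measurable (T n)) {X Y : Ω → ℝ} (hX : Measurable X) (hY : Measurable Y)
    {M ε : ℝ} (hM : 0 ≤ M) (hXM : ∀ ω, |X ω| ≤ M) (hYM : ∀ ω, |Y ω| ≤ M)
    (hDX : ∀ n, ∫ ω, (X (T n ω) - X ω) ^ 2 ∂P ≤ ε) (hDY : ∀ n, ∫ ω, (Y (T n ω) - Y ω) ^ 2 ∂P ≤ ε)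
    (hmix : Tendsto (fun n => ∫ ω, (X ω * Y ω) * (X (T n ω) * Y (T n ω)) ∂P) atTop
      (𝓝 ((∫ ω, X ω * Y ω ∂P) * ∫ ω, X ω * Y ω ∂P))) :
    ∫ ω, (X ω * Y ω) ^ 2 ∂P ≤ (∫ ω, X ω * Y ω ∂P) ^ 2 + 2 * M ^ 3 * √ε := by
  have hb : ∀ {f : Ω → ℝ} {K : ℝ}, Measurable f → (∀ ω, |f ω| ≤ K) → Integrable f P := by
    intro f K hf hK
    exact Integrable.of_bound (C := K) hf.aestronglyMeasurable
      (Eventually.of_forall fun ω => by rw [Real.norm_eq_abs]; exact hK ω)
  have key : ∀ n, ∫ ω, (X ω * Y ω) ^ 2 ∂P ≤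
      ∫ ω, (X ω * Y ω) * (X (T n ω) * Y (T n ω)) ∂P + 2 * M ^ 3 * √ε := by
    intro n
    have hXT : Measurable fun ω => X (T n ω) := hX.comp (hT n)
    have hYT : Measurable fun ω => Y (T n ω) := hY.comp (hT n)
    have hXD : Measurable fun ω => X (T n ω) - X ω := hXT.sub hX
    have hYD : Measurable fun ω => Y (T n ω) - Y ω := hYT.sub hY
    have h1 : ∫ ω, |X (T n ω) - X ω| ∂P ≤ √ε :=
      abs_integral_le_sqrt P hXD (M := 2 * M) (fun ω => by
        have := abs_sub (X (T n ω)) (X ω)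
        have a := hXM ω
        have b := hXM (T n ω)
        linarith) (hDX n)
    have h2 : ∫ ω, |Y (T n ω) - Y ω| ∂P ≤ √ε :=
      abs_integral_le_sqrt P hYD (M := 2 * M) (fun ω => by
        have := abs_sub (Y (T n ω)) (Y ω)
        have a := hYM ω
        have b := hYM (T n ω)
        linarith only [this, a, b]) (hDY n)
    have hpt : ∀ ω, (X ω * Y ω) ^ 2 ≤ (X ω * Y ω) * (X (T n ω) * Y (T n ω)) +
        M ^ 3 * (|X (T n ω) - X ω| + |Y (T n ω) - Y ω|) := by
      intro ω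
      have e : (X ω * Y ω) ^ 2 = (X ω * Y ω) * (X (T n ω) * Y (T n ω)) -
          (X ω * Y ω) * ((X (T n ω) - X ω) * Y (T n ω)) - (X ω * Y ω) * (X ω * (Y (T n ω) - Y ω)) := by
        ring
      have b1 : -((X ω * Y ω) * ((X (T n ω) - X ω) * Y (T n ω))) ≤ M ^ 3 * |X (T n ω) - X ω| := by
        refine (neg_le_abs _).trans ?_
        rw [abs_mul, abs_mul, abs_mul]
        calc |X ω| * |Y ω| * (|X (T n ω) - X ω| * |Y (T n ω)|) ≤ M * M * (|X (T n ω) - X ω| * M) := by
              gcongr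
              · exact hXM ω
              · exact hYM ω
              · exact hYM _
          _ = M ^ 3 * |X (T n ω) - X ω| := by ring
      have b2 : -((X ω * Y ω) * (X ω * (Y (T n ω) - Y ω))) ≤ M ^ 3 * |Y (T n ω) - Y ω| := by
        refine (neg_le_abs _).trans ?_
        rw [abs_mul, abs_mul, abs_mul]
        calc |X ω| * |Y ω| * (|X ω| * |Y (T n ω) - Y ω|) ≤ M * M * (M * |Y (T n ω) - Y ω|) := by
              gcongr
              · exact hXM ω
              · exact hYM ω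
              · exact hXM ω
          _ = M ^ 3 * |Y (T n ω) - Y ω| := by ring
      rw [e]
      linarith
    have hi1 : Integrable (fun ω => |X (T n ω) - X ω|) P := hb hXD.abs (K := 2 * M) (fun ω => by
        rw [abs_abs]
        have := abs_sub (X (T n ω)) (X ω)
        have a := hXM ω
        have b := hXM (T n ω)
        linarith)
    have hi2 : Integrable (fun ω => |Y (T n ω) - Y ω|) P := hb hYD.abs (K := 2 * M) (fun ω => by
        rw [abs_abs]
        have := abs_sub (Y (T n ω)) (Y ω)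
        have a := hYM ω
        have b := hYM (T n ω)
        linarith)
    have hi3 : Integrable (fun ω => (X ω * Y ω) * (X (T n ω) * Y (T n ω))) P :=
      hb ((hX.mul hY).mul (hXT.mul hYT)) (K := (M * M) * (M * M)) (fun ω => by
        rw [abs_mul, abs_mul, abs_mul]
        gcongr
        · exact hXM ω
        · exact hYM ω
        · exact hXM _
        · exact hYM _)
    have hi4 : Integrable (fun ω => (X ω * Y ω) ^ 2) P :=
      hb ((hX.mul hY).pow_const 2) (K := (M * M) ^ 2) (fun ω => by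
        rw [abs_pow, abs_mul]
        gcongr
        · exact hXM ω
        · exact hYM ω)
    have hi5 : Integrable (fun ω => |X (T n ω) - X ω| + |Y (T n ω) - Y ω|) P := hi1.add hi2
    have hi6 : Integrable (fun ω => M ^ 3 * (|X (T n ω) - X ω| + |Y (T n ω) - Y ω|)) P :=
      hi5.const_mul _
    calc ∫ ω, (X ω * Y ω) ^ 2 ∂P ≤ ∫ ω, ((X ω * Y ω) * (X (T n ω) * Y (T n ω)) +
        M ^ 3 * (|X (T n ω) - X ω| + |Y (T n ω) - Y ω|)) ∂P :=
          integral_mono hi4 (hi3.add hi6) hpt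
      _ = ∫ ω, (X ω * Y ω) * (X (T n ω) * Y (T n ω)) ∂P +
          M ^ 3 * (∫ ω, |X (T n ω) - X ω| ∂P + ∫ ω, |Y (T n ω) - Y ω| ∂P) := by
          rw [integral_add hi3 hi6, integral_const_mul, integral_add hi1 hi2]
      _ ≤ _ := by
          have : M ^ 3 * (∫ ω, |X (T n ω) - X ω| ∂P + ∫ ω, |Y (T n ω) - Y ω| ∂P) ≤ M ^ 3 * (√ε + √ε) := by
            (clear * - h1 h2 hM; gcongr)
          linarith
  refine le_of_tendsto_of_tendsto tendsto_const_nhds (hmix.add_const (2 * M ^ 3 * √ε)) ?_ |>.trans_eq ?_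
  · exact Eventually.of_forall key
  · ring

/-- **key inequality** -/
theorem sq_ineq {Ω : Type*} [MeasurableSpace Ω] (P : Measure Ω) [IsProbabilityMeasure P]
    (T : ℕ → Ω → Ω) (hT : ∀ n, Measurable (T n)) {X Y : Ω → ℝ} (hX : Measurable X) (hY : Measurable Y)
    {M ε : ℝ} (hM : 0 ≤ M) (hXM : ∀ ω, |X ω| ≤ M) (hYM : ∀ ω, |Y ω| ≤ M)
    (hDX : ∀ n, ∫ ω, (X (T n ω) - X ω) ^ 2 ∂P ≤ ε) (hDY : ∀ n, ∫ ω, (Y (T n ω) - Y ω) ^ 2 ∂P ≤ ε)
    (hXY : Tendsto (fun n => ∫ ω, (X ω * Y ω) * (X (T n ω) * Y (T n ω)) ∂P) atTop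
      (𝓝 ((∫ ω, X ω * Y ω ∂P) * ∫ ω, X ω * Y ω ∂P)))
    (hXX : Tendsto (fun n => ∫ ω, (X ω * X ω) * (X (T n ω) * X (T n ω)) ∂P) atTop
      (𝓝 ((∫ ω, X ω * X ω ∂P) * ∫ ω, X ω * X ω ∂P)))
    (hYY : Tendsto (fun n => ∫ ω, (Y ω * Y ω) * (Y (T n ω) * Y (T n ω)) ∂P) atTop
      (𝓝 ((∫ ω, Y ω * Y ω ∂P) * ∫ ω, Y ω * Y ω ∂P))) :
    (∫ ω, X ω * X ω ∂P) * (∫ ω, Y ω * Y ω ∂P) ≤ (∫ ω, X ω * Y ω ∂P) ^ 2 + 4 * M ^ 3 * √ε := by
  have h1 := prod_ineq P T hT hX hY hM hXM hYM hDX hDY hXY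
  have h2 := prod_ineq P T hT hX hX hM hXM hXM hDX hDX hXX
  have h3 := prod_ineq P T hT hY hY hM hYM hYM hDY hDY hYY
  have hb : ∀ {f : Ω → ℝ} {K : ℝ}, Measurable f → (∀ ω, |f ω| ≤ K) → Integrable f P := by
    intro f K hf hK
    exact Integrable.of_bound (C := K) hf.aestronglyMeasurable
      (Eventually.of_forall fun ω => by rw [Real.norm_eq_abs]; exact hK ω)
  set a := ∫ ω, X ω * X ω ∂P with ha
  set b := ∫ ω, Y ω * Y ω ∂P with hb'
  have hiX : Integrable (fun ω => X ω * X ω) P := hb (hX.mul hX) (K := M * M) (fun ω => by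
    rw [abs_mul]; gcongr <;> exact hXM ω)
  have hiY : Integrable (fun ω => Y ω * Y ω) P := hb (hY.mul hY) (K := M * M) (fun ω => by
    rw [abs_mul]; gcongr <;> exact hYM ω)
  have hiXX : Integrable (fun ω => (X ω * X ω) ^ 2) P := hb ((hX.mul hX).pow_const 2) (K := (M * M) ^ 2)
    (fun ω => by rw [abs_pow, abs_mul]; gcongr <;> exact hXM ω)
  have hiYY : Integrable (fun ω => (Y ω * Y ω) ^ 2) P := hb ((hY.mul hY).pow_const 2) (K := (M * M) ^ 2)
    (fun ω => by rw [abs_pow, abs_mul]; gcongr <;> exact hYM ω)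
  have hiXY : Integrable (fun ω => (X ω * Y ω) ^ 2) P := hb ((hX.mul hY).pow_const 2) (K := (M * M) ^ 2)
    (fun ω => by
      rw [abs_pow, abs_mul]
      gcongr
      · exact hXM ω
      · exact hYM ω)
  have h4 : 0 ≤ ∫ ω, ((X ω * X ω - a) + (Y ω * Y ω - b)) ^ 2 ∂P := integral_nonneg fun ω => sq_nonneg _
  have h5 : ∫ ω, ((X ω * X ω - a) + (Y ω * Y ω - b)) ^ 2 ∂P =
      ∫ ω, (X ω * X ω) ^ 2 ∂P + ∫ ω, (Y ω * Y ω) ^ 2 ∂P + 2 * ∫ ω, (X ω * Y ω) ^ 2 ∂P -
        2 * (a + b) * (a + b) + (a + b) ^ 2 := by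
    have e : ∀ ω, ((X ω * X ω - a) + (Y ω * Y ω - b)) ^ 2 = (X ω * X ω) ^ 2 + (Y ω * Y ω) ^ 2 +
        2 * (X ω * Y ω) ^ 2 - 2 * (a + b) * (X ω * X ω + Y ω * Y ω) + (a + b) ^ 2 := by
      intro ω; ring
    simp_rw [e]
    have i1 : Integrable (fun ω => (X ω * X ω) ^ 2 + (Y ω * Y ω) ^ 2) P := hiXX.add hiYY
    have i2 : Integrable (fun ω => 2 * (X ω * Y ω) ^ 2) P := hiXY.const_mul _
    have i3 : Integrable (fun ω => (X ω * X ω) ^ 2 + (Y ω * Y ω) ^ 2 + 2 * (X ω * Y ω) ^ 2) P :=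
      i1.add i2
    have i4 : Integrable (fun ω => X ω * X ω + Y ω * Y ω) P := hiX.add hiY
    have i5 : Integrable (fun ω => 2 * (a + b) * (X ω * X ω + Y ω * Y ω)) P := i4.const_mul _
    have i6 : Integrable (fun ω => (X ω * X ω) ^ 2 + (Y ω * Y ω) ^ 2 + 2 * (X ω * Y ω) ^ 2 -
      2 * (a + b) * (X ω * X ω + Y ω * Y ω)) P := i3.sub i5
    rw [integral_add i6 (integrable_const _), integral_sub i3 i5, integral_add i1 i2,
      integral_add hiXX hiYY, integral_const_mul, integral_const_mul, integral_add hiX hiY,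
      integral_const]
    simp only [probReal_univ, smul_eq_mul, one_mul]
    rw [← ha, ← hb']
  rw [h5] at h4
  linarith

end Vale.Agent.P153.RP
end

section

/-!
# The dyadic monotonicity argument
-/

namespace Vale.Agent.P153.Iso

/-- If `(a r - κ)^2 ≤ B (a r - a (2 r)) + η` for small `r` (every `η`) and `a` is bounded, then
`a r → κ`. -/
theorem dyadic {a : ℝ → ℝ} {κ B C ρ : ℝ} (hB : 0 < B) (hρ : 0 < ρ)
    (ha0 : ∀ r, 0 < r → r < ρ → 0 ≤ a r) (haC : ∀ r, 0 < r → r < ρ → a r ≤ C)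
    (h : ∀ η, 0 < η → ∃ r0, 0 < r0 ∧ ∀ r, 0 < r → r < r0 →
      (a r - κ) ^ 2 ≤ B * (a r - a (2 * r)) + η) :
    ∀ ε, 0 < ε → ∃ r0, 0 < r0 ∧ ∀ r, 0 < r → r < r0 → |a r - κ| ≤ ε := by
  intro ε hε
  -- choose `η`
  set η : ℝ := min (B * ε / 2) (ε ^ 2 / 8) with hη
  have hηpos : 0 < η := by rw [hη]; positivity
  have hη1 : η ≤ B * ε / 2 := min_le_left _ _
  have hη2 : η ≤ ε ^ 2 / 8 := min_le_right _ _
  obtain ⟨r1, hr1, hr⟩ := h η hηpos
  set r0 : ℝ := min r1 (ρ / 2) with hr0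
  have hr0pos : 0 < r0 := by rw [hr0]; (clear * - hr1 hρ; positivity)
  have hr01 : r0 ≤ r1 := min_le_left _ _
  have hr0ρ : r0 ≤ ρ / 2 := min_le_right _ _
  -- `C ≥ 0`
  have hC : 0 ≤ C := (ha0 (ρ / 2) (by linarith only [hr0pos, hr0ρ]) (by linarith only [hr0pos, hr0ρ])).trans
    (haC (ρ / 2) (by linarith only [hr0pos, hr0ρ]) (by linarith only [hr0pos, hr0ρ]))
  set δ : ℝ := ε ^ 2 / (8 * B) with hδ
  have hδpos : 0 < δ := by rw [hδ]; positivity
  have hδB : B * δ = ε ^ 2 / 8 := by rw [hδ]; field_simp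
  -- upper bound
  have hup : ∀ r, 0 < r → r < r0 → a r ≤ κ + ε := by
    intro r hrpos hrr0
    by_contra hcon
    push Not at hcon
    -- iterate downwards
    have step : ∀ n : ℕ, a r + n * δ ≤ a (r / 2 ^ n) := by
      intro n
      induction n with
      | zero => simp
      | succ n ih =>
        set u : ℝ := r / 2 ^ (n + 1) with hu
        have hu2 : 2 * u = r / 2 ^ n := by rw [hu, pow_succ]; (clear * - hrpos; field_simp)
        have hupos : 0 < u := by rw [hu]; positivity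
        have hule : u ≤ r := by
          rw [hu]; apply div_le_self hrpos.le
          exact one_le_pow₀ (by norm_num)
        have hineq := hr u hupos (by linarith only [hr01, hrr0, hule])
        rw [hu2] at hineq
        have hbase : κ + ε < a (r / 2 ^ n) := by
          have : 0 ≤ (n : ℝ) * δ := by (clear * - hε hB; positivity)
          linarith only [hcon, ih, this]
        -- first: a u ≥ a(2u) - η/B
        have h1 : a (r / 2 ^ n) - ε / 2 ≤ a u := by
          have : B * (a (r / 2 ^ n) - a u) ≤ B * (ε / 2) := by nlinarith only [hη1, hineq]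
          have := le_of_mul_le_mul_left this hB
          linarith only [this]
        have h2 : ε / 2 ≤ a u - κ := by linarith only [hbase, h1]
        have h3 : ε ^ 2 / 4 ≤ (a u - κ) ^ 2 := by nlinarith only [hε, hbase, h1]
        have h4 : B * δ ≤ B * (a u - a (r / 2 ^ n)) := by rw [hδB]; linarith only [hη2, hineq, h3]
        have h5 := le_of_mul_le_mul_left h4 hB
        push_cast
        linarith only [ih, h5]
    obtain ⟨n, hn⟩ := exists_nat_gt (C / δ)
    have h1 := step n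
    have h2 : a (r / 2 ^ n) ≤ C := by
      apply haC
      · positivity
      · have : r / 2 ^ n ≤ r := div_le_self hrpos.le (one_le_pow₀ (by norm_num))
        linarith only [hr0ρ, hrpos, hrr0, this]
    have h3 : 0 ≤ a r := ha0 r hrpos (by linarith only [hr0ρ, hrpos, hrr0])
    have h4 : C < n * δ := by
      rw [div_lt_iff₀ hδpos] at hn; exact hn
    linarith only [h1, h2, h3, h4]
  -- lower bound
  obtain ⟨N, hN⟩ := exists_nat_gt (κ / δ)
  have hlow : ∀ r, 0 < r → r < r0 / 2 ^ (N + 1) → κ - ε ≤ a r := by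
    intro r hrpos hrlt
    by_contra hcon
    push Not at hcon
    have step : ∀ n : ℕ, n ≤ N → a (2 ^ n * r) + n * δ ≤ a r := by
      intro n
      induction n with
      | zero => intro _; simp
      | succ n ih =>
        intro hn
        have ih' := ih (by (clear * - hn; omega))
        set u : ℝ := 2 ^ n * r with hu
        have hupos : 0 < u := by rw [hu]; (clear * - hrpos; positivity)
        have hult : u < r0 := by
          rw [lt_div_iff₀ (by positivity)] at hrlt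
          have : (2:ℝ) ^ n ≤ 2 ^ (N + 1) := pow_le_pow_right₀ (by norm_num) (by omega)
          calc u = r * 2 ^ n := by rw [hu]; ring
            _ ≤ r * 2 ^ (N + 1) := by
              exact mul_le_mul_of_nonneg_left this hrpos.le
            _ < r0 := hrlt
        have hineq := hr u hupos (by linarith only [hr01, hult])
        have hu2 : 2 ^ (n + 1) * r = 2 * u := by rw [hu, pow_succ]; ring
        rw [hu2]
        have h0 : 0 ≤ (n : ℝ) * δ := by (clear * - hε hB; positivity)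
        have h2 : ε ≤ κ - a u := by linarith only [hcon, ih', h0]
        have h3 : ε ^ 2 ≤ (a u - κ) ^ 2 := by nlinarith only [hε, hcon, ih', h0]
        have h4 : B * δ ≤ B * (a u - a (2 * u)) := by
          rw [hδB]; nlinarith only [hη2, hineq, h3]
        have h5 := le_of_mul_le_mul_left h4 hB
        push_cast
        linarith only [ih', h5]
    have h1 := step N le_rfl
    have hpos : 0 < (2:ℝ) ^ N * r := by (clear * - hrpos; positivity)
    have hlt : (2:ℝ) ^ N * r < ρ := by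
      rw [lt_div_iff₀ (by positivity)] at hrlt
      have : (2:ℝ) ^ N ≤ 2 ^ (N + 1) := pow_le_pow_right₀ (by norm_num) (by (clear * -; omega))
      calc (2:ℝ) ^ N * r = r * 2 ^ N := by ring
        _ ≤ r * 2 ^ (N + 1) := mul_le_mul_of_nonneg_left this hrpos.le
        _ < r0 := hrlt
        _ ≤ ρ := by linarith only [hr0pos, hr0ρ]
    have h2 := ha0 _ hpos hlt
    have h3 : κ < N * δ := by
      rw [div_lt_iff₀ hδpos] at hN; exact hN
    linarith only [hε, hcon, h1, h2, h3]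
  refine ⟨r0 / 2 ^ (N + 1), by positivity, ?_⟩
  intro r hrpos hrlt
  have hlt : r < r0 := lt_of_lt_of_le hrlt
    (div_le_self hr0pos.le (one_le_pow₀ (by norm_num)))
  rw [abs_le]
  constructor
  · linarith only [hlow r hrpos hrlt]
  · linarith only [hup r hrpos hlt]

end Vale.Agent.P153.Iso
end

section

/-!
# Legs: continuation in the position of a group of observables, from reflection positivity

`leg_ineq`: for a positive semidefinite form with a symmetric positive bounded shift `T`,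
`|⟨x, p(T) y⟩| ≤ sup_{[0,1]} |p| ‖x‖ ‖y‖` for all real polynomials `p`.

`extrap`: a sequence `H` with this property is small at `m ≥ b / r` if it is small at the finitely
many positions `m + (j + k) b`, uniformly in `b`.

`leg_limit`: the form used for families of observables at scale `N`.
-/

open MeasureTheory Polynomial Filter Topology
open scoped NNReal unitInterval
open Vale.Agent.P153.RP

namespace Vale.Agent.P145.FA

/-- polynomial bound for a sequence: `|L_H p| ≤ sup_{[0,1]} |p| · C` -/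
def PolyBdd (H : ℕ → ℝ) (C : ℝ) : Prop :=
  ∀ (p : ℝ[X]) (M : ℝ), (∀ x ∈ Set.Icc (0 : ℝ) 1, |p.eval x| ≤ M) → |Lf H p| ≤ M * C

section form

variable {V : Type*} [AddCommGroup V] [Module ℝ V]

/-- data for a leg: a symmetric positive semidefinite form and a positive symmetric shift with
bounded diagonal correlations -/
structure LegForm (B : V →ₗ[ℝ] V →ₗ[ℝ] ℝ) (T : V →ₗ[ℝ] V) : Prop where
  symm : ∀ x y, B x y = B y x
  nonneg : ∀ x, 0 ≤ B x x
  shift : ∀ x y, B (T x) y = B x (T y)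
  shift_nonneg : ∀ x, 0 ≤ B x (T x)
  bdd : ∀ x, ∃ C : ℝ, ∀ n : ℕ, B x ((T ^ n) x) ≤ C

variable {B : V →ₗ[ℝ] V →ₗ[ℝ] ℝ} {T : V →ₗ[ℝ] V}

theorem LegForm.shift_pow (h : LegForm B T) (i : ℕ) (x y : V) :
    B ((T ^ i) x) y = B x ((T ^ i) y) := by
  induction i generalizing x y with
  | zero => simp only [pow_zero, Module.End.one_apply]
  | succ i ih =>
    rw [pow_succ, Module.End.mul_apply, ih, h.shift, ← Module.End.mul_apply, ← pow_succ',
      ← pow_succ]

theorem LegForm.cs (h : LegForm B T) (x y : V) : B x y ^ 2 ≤ B x x * B y y := by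
  have key : ∀ t : ℝ, 0 ≤ B y y * t ^ 2 + 2 * B x y * t + B x x := by
    intro t
    have := h.nonneg (x + t • y)
    simp only [map_add, map_smul, LinearMap.add_apply, LinearMap.smul_apply, h.symm y x, smul_eq_mul] at this
    linarith
  have := discrim_le_zero (a := B y y) (b := 2 * B x y) (c := B x x) (fun t => by
    have := key t
    linarith)
  unfold discrim at this
  nlinarith

theorem LegForm.abs_le (h : LegForm B T) (x y : V) :
    |B x y| ≤ √(B x x) * √(B y y) := by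
  rw [← Real.sqrt_mul (h.nonneg x)]
  exact Real.abs_le_sqrt (h.cs x y)

theorem LegForm.exists_measure (h : LegForm B T) (x : V) :
    ∃ μ : FiniteMeasure I, ∀ i : ℕ,
      ∫ t : I, (t : ℝ) ^ i ∂(μ : Measure I) = B x ((T ^ i) x) := by
  obtain ⟨C, hC⟩ := h.bdd x
  have hsum : ∀ (s : Finset ℕ) (a : ℕ → ℝ) (k : ℕ),
      ∑ i ∈ s, ∑ j ∈ s, a i * a j * B x ((T ^ (i + j + k)) x) =
      B (∑ i ∈ s, a i • (T ^ i) x) ((T ^ k) (∑ i ∈ s, a i • (T ^ i) x)) := by
    intro s a k
    simp only [map_sum, map_smul, LinearMap.sum_apply, LinearMap.smul_apply, smul_eq_mul,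
      Finset.mul_sum]
    rw [Finset.sum_comm]
    refine Finset.sum_congr rfl fun i _ => Finset.sum_congr rfl fun j _ => ?_
    rw [h.shift_pow, ← Module.End.mul_apply, ← Module.End.mul_apply, ← pow_add, ← pow_add]
    rw [show j + i + k = j + (k + i) by ring]
    ring_nf
  apply hausdorff _ C
  · intro n
    have h0 : 0 ≤ B x ((T ^ n) x) := by
      obtain ⟨m, hm⟩ := Nat.even_or_odd' n
      rcases hm with rfl | rfl
      · rw [two_mul, pow_add, Module.End.mul_apply, ← h.shift_pow]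
        exact h.nonneg _
      · rw [show 2 * m + 1 = m + (1 + m) by ring, pow_add, Module.End.mul_apply, ← h.shift_pow,
          pow_add, pow_one, Module.End.mul_apply]
        exact h.shift_nonneg _
    rw [abs_of_nonneg h0]
    exact hC n
  · intro s a
    have := hsum s a 0
    simp only [add_zero, pow_zero] at this
    rw [this]
    exact h.nonneg _
  · intro s a
    have := hsum s a 1
    simp only [pow_one] at this
    rw [this]
    exact h.shift_nonneg _

theorem LegForm.aeval_eq_Lf (x y : V) (p : ℝ[X]) :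
    B x (aeval T p y) = Lf (fun i => B x ((T ^ i) y)) p := by
  rw [Lf_apply, aeval_eq_sum_range, Polynomial.sum_over_range]
  · simp only [LinearMap.coe_sum, LinearMap.coe_smul, Finset.sum_apply, Pi.smul_apply, map_sum, map_smul, smul_eq_mul, mul_comm]
  · simp only [mul_zero, implies_true]

theorem LegForm.int_eq (x : V) (μ : FiniteMeasure I)
    (hμ : ∀ i : ℕ, ∫ t : I, (t : ℝ) ^ i ∂(μ : Measure I) = B x ((T ^ i) x)) (p : ℝ[X]) :
    B x (aeval T p x) = ∫ t : I, p.eval (t : ℝ) ∂(μ : Measure I) := by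
  rw [aeval_eq_sum_range]
  simp only [LinearMap.sum_apply, map_sum, LinearMap.smul_apply, map_smul, smul_eq_mul]
  simp_rw [eval_eq_sum_range]
  rw [integral_finsetSum]
  · refine Finset.sum_congr rfl fun i _ => ?_
    rw [← hμ i, integral_const_mul]
  · intro i _
    apply Integrable.const_mul
    apply Continuous.integrable_of_hasCompactSupport
    · fun_prop
    · exact HasCompactSupport.of_compactSpace _

/-- **leg inequality** -/
theorem LegForm.leg_ineq (h : LegForm B T) (x y : V) (p : ℝ[X]) (M : ℝ)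
    (hM : ∀ t ∈ Set.Icc (0 : ℝ) 1, |p.eval t| ≤ M) :
    |B x (aeval T p y)| ≤ M * (√(B x x) * √(B y y)) := by
  have hM0 : 0 ≤ M := (abs_nonneg _).trans (hM 0 (by simp only [Set.mem_Icc, Std.le_refl, zero_le_one, and_self]))
  obtain ⟨μ, hμ⟩ := h.exists_measure y
  have h1 : B (aeval T p y) (aeval T p y) ≤ M ^ 2 * B y y := by
    have e1 : B (aeval T p y) (aeval T p y) = B y (aeval T (p * p) y) := by
      rw [map_mul, Module.End.mul_apply]
      have : ∀ (q : ℝ[X]) (u v : V), B (aeval T q u) v = B u (aeval T q v) := by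
        intro q u v
        rw [aeval_eq_sum_range]
        simp only [LinearMap.sum_apply, LinearMap.smul_apply, map_sum, map_smul, h.shift_pow, smul_eq_mul]
      rw [this]
    rw [e1, LegForm.int_eq y μ hμ]
    have e2 : B y y = ∫ t : I, (1 : ℝ) ∂(μ : Measure I) := by
      have := hμ 0
      simpa only [integral_const, FiniteMeasure.measureReal_eq_coe_coeFn, FiniteMeasure.self_eq_mass_mul_normalize,     ProbabilityMeasure.coeFn_univ, mul_one, smul_eq_mul, pow_zero, Module.End.one_apply] using this.symm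
    rw [e2, ← integral_const_mul]
    apply integral_mono
    · apply Continuous.integrable_of_hasCompactSupport
      · fun_prop
      · exact HasCompactSupport.of_compactSpace _
    · exact integrable_const _
    · intro t
      simp only [eval_mul, mul_one]
      have := hM t t.2
      nlinarith only [this, abs_nonneg (p.eval (t : ℝ)), sq_abs (p.eval (t : ℝ))]
  calc |B x (aeval T p y)| ≤ √(B x x) * √(B (aeval T p y) (aeval T p y)) := h.abs_le _ _
    _ ≤ √(B x x) * √(M ^ 2 * B y y) := by gcongr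
    _ = M * (√(B x x) * √(B y y)) := by
      rw [Real.sqrt_mul (sq_nonneg M), Real.sqrt_sq hM0]; ring

/-- the off-diagonal correlations of a leg are `PolyBdd` -/
theorem LegForm.polyBdd (h : LegForm B T) (x y : V) {C : ℝ} (hC : √(B x x) * √(B y y) ≤ C) :
    PolyBdd (fun i => B x ((T ^ i) y)) C := by
  intro p M hM
  have hM0 : 0 ≤ M := (abs_nonneg _).trans (hM 0 (by simp only [Set.mem_Icc, Std.le_refl, zero_le_one, and_self]))
  rw [← LegForm.aeval_eq_Lf]
  exact (h.leg_ineq x y p M hM).trans (by (clear * - hC hM0; gcongr))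

end form

/-! ### extrapolation -/

theorem one_sub_pow_le {x : ℝ} (hx1 : x ≤ 1) (j : ℕ) :
    1 - (1 - x) ^ j ≤ j * x := by
  have := one_add_mul_le_pow (a := -x) (by linarith) j
  have e : (1 + -x) ^ j = (1 - x) ^ j := by ring
  rw [e] at this
  linarith

/-- choice of the exponent -/
theorem exists_exp (η : ℝ) (hη : 0 < η) (r : ℕ) :
    ∃ n : ℕ, ∀ u ∈ Set.Icc (0 : ℝ) 1, u * (1 - u ^ r) ^ n ≤ η := by
  rcases le_or_gt 1 η with h1 | h1
  · refine ⟨0, fun u hu => ?_⟩
    simpa only [pow_zero, mul_one] using hu.2.trans h1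
  obtain ⟨n, hn⟩ := exists_pow_lt_of_lt_one hη (show 1 - η ^ r < 1 by
    have := pow_pos hη r; linarith only [this])
  refine ⟨n, fun u hu => ?_⟩
  have hur : u ^ r ≤ 1 := pow_le_one₀ hu.1 hu.2
  have hur0 : 0 ≤ u ^ r := pow_nonneg hu.1 r
  rcases le_or_gt u η with h2 | h2
  · calc u * (1 - u ^ r) ^ n ≤ u * 1 := by
          gcongr
          · exact hu.1
          · exact pow_le_one₀ (by linarith only [hur]) (by linarith only [hur0])
      _ ≤ η := by linarith
  · calc u * (1 - u ^ r) ^ n ≤ 1 * (1 - η ^ r) ^ n := by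
          have : η ^ r ≤ u ^ r := by (clear * - hη h2; gcongr)
          apply mul_le_mul hu.2 _ (pow_nonneg (by linarith only [hur]) n) zero_le_one
          (clear * - hur this; gcongr)
      _ ≤ η := by linarith only [hn]

/-- **extrapolation**: uniform in the sequence `H`, in the unit `b` and in the position `m` -/
theorem extrap (r j : ℕ) (η : ℝ) (hη : 0 < η) :
    ∃ (D : ℕ) (K : ℝ), 0 ≤ K ∧ ∀ (H : ℕ → ℝ) (C ε : ℝ), 0 ≤ ε → PolyBdd H C →
      ∀ b m : ℕ, b ≤ r * m → (∀ k ≤ D, |H (m + (j + k) * b)| ≤ ε) →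
        |H m| ≤ η * C + K * ε := by
  classical
  obtain ⟨n, hn⟩ := exists_exp (η / (j + 1)) (by positivity) r
  -- `1 - (1 - Y)^n = Y * g`
  obtain ⟨g, hg⟩ : ∃ g : ℝ[X], 1 - (1 - X) ^ n = X * g := by
    have : (1 : ℝ[X]) - (1 - X) ∣ 1 ^ n - (1 - X) ^ n := sub_dvd_pow_sub_pow _ _ _
    rw [one_pow, sub_sub_cancel] at this
    exact this
  set q : ℝ[X] := g ^ j with hq
  refine ⟨q.natDegree, ∑ k ∈ Finset.range (q.natDegree + 1), |q.coeff k|,
    Finset.sum_nonneg fun _ _ => abs_nonneg _, ?_⟩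
  intro H C ε hε hH b m hbm hsmall
  set p : ℝ[X] := X ^ m - X ^ m * X ^ (j * b) * expand ℝ b q with hp
  have hC : 0 ≤ C := by
    have := hH 1 1 (by intro x _; simp)
    have h2 := abs_nonneg (Lf H 1)
    linarith only [this, h2]
  have hbd : ∀ x ∈ Set.Icc (0 : ℝ) 1, |p.eval x| ≤ η := by
    intro x hx
    set y : ℝ := x ^ b with hy
    have hy0 : 0 ≤ y := pow_nonneg hx.1 b
    have hy1 : y ≤ 1 := pow_le_one₀ hx.1 hx.2
    set u : ℝ := x ^ m with hu
    have hu0 : 0 ≤ u := pow_nonneg hx.1 m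
    have hu1 : u ≤ 1 := pow_le_one₀ hx.1 hx.2
    have hge : y * g.eval y = 1 - (1 - y) ^ n := by
      have := congrArg (eval y) hg
      simpa only [eval_mul, eval_X, eval_sub, eval_one, eval_pow] using this.symm
    have hpe : p.eval x = u * (1 - (1 - (1 - y) ^ n) ^ j) := by
      have hyj : x ^ (j * b) = y ^ j := by rw [hy, ← pow_mul, mul_comm]
      simp only [hp, eval_sub, eval_mul, eval_pow, eval_X, expand_eval, hq, hyj]
      rw [← hge, mul_pow]
      ring
    have hz0 : 0 ≤ (1 - y) ^ n := pow_nonneg (by linarith only [hy1]) n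
    have hz1 : (1 - y) ^ n ≤ 1 := pow_le_one₀ (by linarith only [hy1]) (by linarith only [hy0])
    have h1 : (1 - (1 - y) ^ n) ^ j ≤ 1 := pow_le_one₀ (by linarith only [hz1]) (by linarith only [hz0])
    have h2 : 1 - (1 - (1 - y) ^ n) ^ j ≤ j * (1 - y) ^ n := one_sub_pow_le hz1 j
    rw [hpe, abs_of_nonneg (mul_nonneg hu0 (by linarith only [h1]))]
    have h3 : u ^ r ≤ y := by
      rw [hu, hy, ← pow_mul, mul_comm m r]
      exact pow_le_pow_of_le_one hx.1 hx.2 hbm
    have h4 : (1 - y) ^ n ≤ (1 - u ^ r) ^ n := by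
      gcongr
    calc u * (1 - (1 - (1 - y) ^ n) ^ j) ≤ u * (j * (1 - u ^ r) ^ n) := by
          apply mul_le_mul_of_nonneg_left _ hu0
          exact h2.trans (mul_le_mul_of_nonneg_left h4 (by (clear * -; positivity)))
      _ = j * (u * (1 - u ^ r) ^ n) := by ring
      _ ≤ j * (η / (j + 1)) := by
          gcongr
          exact hn u ⟨hu0, hu1⟩
      _ ≤ η := by
          rw [mul_div_assoc', div_le_iff₀ (by (clear * -; positivity))]
          nlinarith only [hη]
  have hL : Lf H p = H m - ∑ k ∈ Finset.range (q.natDegree + 1),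
      q.coeff k * H (m + (j + k) * b) := by
    rw [hp, map_sub, Lf_X_pow]
    congr 1
    have e : expand ℝ b q = ∑ k ∈ Finset.range (q.natDegree + 1),
        q.coeff k • (X : ℝ[X]) ^ (b * k) := by
      conv_lhs => rw [q.as_sum_range_C_mul_X_pow]
      simp only [map_sum, map_mul, expand_C, map_pow, expand_X]
      refine Finset.sum_congr rfl fun k _ => ?_
      rw [← pow_mul, smul_eq_C_mul]
    rw [e, Finset.mul_sum, map_sum]
    refine Finset.sum_congr rfl fun k _ => ?_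
    rw [mul_smul_comm, map_smul, ← pow_add, ← pow_add, Lf_X_pow, smul_eq_mul]
    congr 2
    ring
  have h1 := hH p η hbd
  rw [hL] at h1
  have h2 : |∑ k ∈ Finset.range (q.natDegree + 1), q.coeff k * H (m + (j + k) * b)| ≤
      (∑ k ∈ Finset.range (q.natDegree + 1), |q.coeff k|) * ε := by
    rw [Finset.sum_mul]
    refine (Finset.abs_sum_le_sum_abs _ _).trans (Finset.sum_le_sum fun k hk => ?_)
    rw [abs_mul]
    apply mul_le_mul_of_nonneg_left _ (abs_nonneg _)
    exact hsmall k (Nat.lt_succ_iff.mp (Finset.mem_range.mp hk))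
  have h3 := abs_sub_abs_le_abs_sub (H m)
    (∑ k ∈ Finset.range (q.natDegree + 1), q.coeff k * H (m + (j + k) * b))
  linarith only [h1, h2, h3]

end Vale.Agent.P145.FA
end

section

/-!
P145, block F-A: the product Schwinger-Dyson statement for a pinwheel in real coordinates.
-/

namespace Vale.Agent.P145.FA.Use

open Finset Filter Topology MeasureTheory
open Vale.Agent.P152
open Vale.Agent.P152.GFF.S (Test gffCov)
open Vale.Agent.P145.PT (Sm TestOn lap)

/-- The central box, the width of the corridors and the radius of a pinwheel. -/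
structure PW where
  x1 : ℝ
  x2 : ℝ
  y1 : ℝ
  y2 : ℝ
  e : ℝ
  R : ℝ

/-- The open box. -/
def PW.box (b : PW) : Set (ℝ × ℝ) := {z | b.x1 < z.1 ∧ z.1 < b.x2 ∧ b.y1 < z.2 ∧ z.2 < b.y2}

/-- The four arms. -/
def PW.K1 (b : PW) : Set (ℝ × ℝ) := {z | z.1 ≤ b.x1 - b.e ∧ |z.1| ≤ b.R ∧ |z.2| ≤ b.R}
def PW.K2 (b : PW) : Set (ℝ × ℝ) := {z | b.y2 + b.e ≤ z.2 ∧ b.x1 ≤ z.1 ∧ |z.1| ≤ b.R ∧ |z.2| ≤ b.R}
def PW.K3 (b : PW) : Set (ℝ × ℝ) := {z | b.x2 + b.e ≤ z.1 ∧ z.2 ≤ b.y2 ∧ |z.1| ≤ b.R ∧ |z.2| ≤ b.R}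
def PW.K4 (b : PW) : Set (ℝ × ℝ) := {z | z.2 ≤ b.y1 - b.e ∧ b.x1 ≤ z.1 ∧ z.1 ≤ b.x2 ∧
  |z.1| ≤ b.R ∧ |z.2| ≤ b.R}

/-- Lattice points of a set. -/
def lat (δ : ℝ) (K : Set (ℝ × ℝ)) : Set (ℤ × ℤ) := {q | (δ * (q.1 : ℝ), δ * (q.2 : ℝ)) ∈ K}

lemma zle {δ : ℝ} (hδ : 0 < δ) {x y : ℤ} (h : δ * (x : ℝ) < δ * ((y : ℝ) + 1)) : x ≤ y := by
  have h1 := lt_of_mul_lt_mul_left h hδ.le
  have h2 : x < y + 1 := by exact_mod_cast h1
  omega

lemma zabs {δ : ℝ} (hδ : 0 < δ) {x : ℤ} {ρ N : ℕ} (h : |δ * (x : ℝ)| ≤ δ * (ρ * N)) :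
    |x| ≤ ρ * N := by
  rw [abs_mul, abs_of_pos hδ] at h
  have h1 := le_of_mul_le_mul_left h hδ
  have h2 : ((|x| : ℤ) : ℝ) ≤ ((ρ * N : ℤ) : ℝ) := by push_cast; exact h1
  exact_mod_cast h2

/-! ### Translations -/

lemma lap_add (ψ : ℝ × ℝ → ℝ) (x0 z : ℝ × ℝ) : lap (fun x => ψ (x + x0)) z = lap ψ (z + x0) := by
  have e1 : PT.dx (fun x => ψ (x + x0)) = fun x => PT.dx ψ (x + x0) := by
    funext w; unfold PT.dx; rw [fderiv_comp_add_right]
  have e2 : PT.dy (fun x => ψ (x + x0)) = fun x => PT.dy ψ (x + x0) := by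
    funext w; unfold PT.dy; rw [fderiv_comp_add_right]
  unfold lap
  rw [e1, e2]
  congr 1
  · show fderiv ℝ (fun x => PT.dx ψ (x + x0)) z (1, 0) = fderiv ℝ (PT.dx ψ) (z + x0) (1, 0)
    rw [fderiv_comp_add_right]
  · show fderiv ℝ (fun x => PT.dy ψ (x + x0)) z (0, 1) = fderiv ℝ (PT.dy ψ) (z + x0) (0, 1)
    rw [fderiv_comp_add_right]

lemma sm_add {f : ℝ × ℝ → ℝ} (hf : Sm f) (x0 : ℝ × ℝ) : Sm (fun x => f (x + x0)) :=
  hf.comp (contDiff_id.add contDiff_const)

lemma cs_addr {f : ℝ × ℝ → ℝ} (hf : HasCompactSupport f) (x0 : ℝ × ℝ) :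
    HasCompactSupport (fun x => f (x + x0)) := hf.comp_homeomorph (Homeomorph.addRight x0)

lemma int_addr (f : ℝ × ℝ → ℝ) (x0 : ℝ × ℝ) : ∫ x, f (x + x0) = ∫ x, f x :=
  integral_add_right_eq_self f x0

lemma gffCov_smul (g : ℝ × ℝ → ℝ) (z : ℝ) :
    gffCov (fun x => z * g x) (fun x => z * g x) = z ^ 2 * gffCov g g := by
  unfold P152.GFF.S.gffCov
  rw [← integral_const_mul]
  refine integral_congr_ae (Eventually.of_forall fun x => ?_)
  simp only
  rw [← integral_const_mul]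
  refine integral_congr_ae (Eventually.of_forall fun y => ?_)
  simp only
  ring

end Vale.Agent.P145.FA.Use
end

section

/-!
# P153, block F: free heights on a finite graph with even and odd sites

Integer heights on a finite graph, with prescribed parity and steps at most two; at most one end of
an edge is even. An edge is closed if both ends have modulus at most one. The modulus is positively
associated, together with the products of heights.
-/

namespace Vale.Agent.P153.F.Gh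

open Finset Vale.Agent.P153
open scoped Classical

/-- Sites with a parity (`b = 0` or `b = 1`) and a symmetric neighbour relation; two even sites are
not neighbours. -/
structure Gph (W : Type*) where
  R : W → W → Prop
  b : W → ℤ
  symm : ∀ {u v}, R u v → R v u
  b01 : ∀ u, b u = 0 ∨ b u = 1
  odd : ∀ {u v}, R u v → b u = 1 ∨ b v = 1

/-- Product of heights. -/
def mon {W : Type*} (l : List W) (H : W → ℤ) : ℝ := (l.map fun x => (H x : ℝ)).prod

/-- Modulus. -/
def ab {W : Type*} (H : W → ℤ) : W → ℤ := fun u => |H u|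

/-- Heights with given signs and modulus. -/
def sm {W : Type*} (s : W → ℤˣ) (a : W → ℤ) : W → ℤ := fun u => (s u : ℤ) * a u

/-- The sign of an integer as a unit. -/
def sn (n : ℤ) : ℤˣ := if n < 0 then -1 else 1

theorem sn_mul_abs (n : ℤ) : (sn n : ℤ) * |n| = n := by
  unfold sn
  split_ifs with h
  · simp [abs_of_neg h]
  · push Not at h
    simp [abs_of_nonneg h]

theorem sn_units_mul (u : ℤˣ) {n : ℤ} (hn : 1 ≤ n) : sn ((u : ℤ) * n) = u := by
  unfold sn
  rcases Int.units_eq_one_or u with h1 | h1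
  · subst h1
    have : ¬ n < 0 := by omega
    simp [this]
  · subst h1
    have : (0 : ℤ) < n := by omega
    simp [this]

theorem abs_units (u : ℤˣ) {n : ℤ} (hn : 0 ≤ n) : |(u : ℤ) * n| = n := by
  rcases Int.units_eq_one_or u with h1 | h1 <;> subst h1 <;> simp [abs_of_nonneg hn]

namespace Gph

variable {W : Type*} (N : Gph W) {M : ℤ}

/-- Given parity, steps at most two. -/
def Lp (H : W → ℤ) : Prop := (∀ u, Even (H u - N.b u)) ∧ ∀ u v, N.R u v → |H u - H v| ≤ 2

theorem Lp.inf {N : Gph W} {a a' : W → ℤ} (h : N.Lp a) (h' : N.Lp a') : N.Lp (a ⊓ a') := by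
  refine ⟨fun u => ?_, fun u v huv => ?_⟩
  · rcases min_choice (a u) (a' u) with h1 | h1
    · simpa [h1] using h.1 u
    · simpa [h1] using h'.1 u
  · exact (abs_min_sub_min_le_max (a u) (a' u) (a v) (a' v)).trans
      (max_le (h.2 u v huv) (h'.2 u v huv))

theorem Lp.sup {N : Gph W} {a a' : W → ℤ} (h : N.Lp a) (h' : N.Lp a') : N.Lp (a ⊔ a') := by
  refine ⟨fun u => ?_, fun u v huv => ?_⟩
  · rcases max_choice (a u) (a' u) with h1 | h1
    · simpa [h1] using h.1 u
    · simpa [h1] using h'.1 u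
  · exact (abs_max_sub_max_le_max (a u) (a' u) (a v) (a' v)).trans
      (max_le (h.2 u v huv) (h'.2 u v huv))

theorem b_nonneg (u : W) : 0 ≤ N.b u := by rcases N.b01 u with h | h <;> rw [h]; norm_num

theorem b_le (u : W) : N.b u ≤ 1 := by rcases N.b01 u with h | h <;> rw [h]; norm_num

theorem b_le_of {a : ℤ} {u : W} (h : Even (a - N.b u)) (h0 : 0 ≤ a) : N.b u ≤ a := by
  rcases N.b01 u with h1 | h1
  · rw [h1]; exact h0
  · rw [h1] at h ⊢
    obtain ⟨m, hm⟩ := h
    omega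

theorem eq_b_of {a : ℤ} {u : W} (h : Even (a - N.b u)) (h0 : 0 ≤ a) (h1 : a ≤ 1) : a = N.b u := by
  rcases N.b01 u with h2 | h2 <;> rw [h2] at h ⊢ <;> obtain ⟨m, hm⟩ := h <;> omega

theorem even_abs {n : ℤ} {u : W} (h : Even (n - N.b u)) : Even (|n| - N.b u) := by
  rcases abs_choice n with h1 | h1
  · rw [h1]; exact h
  · rw [h1]
    obtain ⟨m, hm⟩ := h
    exact ⟨-m - N.b u, by omega⟩

/-- The signs compatible with the modulus. -/
def SG (a : W → ℤ) : Subgroup (W → ℤˣ) where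
  carrier := {s | ∀ u v, N.R u v → ¬ (a u ≤ 1 ∧ a v ≤ 1) → s u = s v}
  mul_mem' := by
    rintro s t hs ht u v huv h
    simp [hs u v huv h, ht u v huv h]
  one_mem' := by
    intro u v _ _
    rfl
  inv_mem' := by
    rintro s hs u v huv h
    simp [hs u v huv h]

theorem mem_SG {a : W → ℤ} {s : W → ℤˣ} :
    s ∈ N.SG a ↔ ∀ u v, N.R u v → ¬ (a u ≤ 1 ∧ a v ≤ 1) → s u = s v := Iff.rfl

theorem SG_sup (a a' : W → ℤ) : N.SG (a ⊔ a') = N.SG a ⊓ N.SG a' := by
  ext s
  rw [Subgroup.mem_inf, mem_SG, mem_SG, mem_SG]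
  constructor
  · intro h2
    refine ⟨fun x y hxy h => h2 x y hxy ?_, fun x y hxy h => h2 x y hxy ?_⟩
    · rintro ⟨h3, h4⟩
      simp only [Pi.sup_apply, sup_le_iff] at h3 h4
      exact h ⟨h3.1, h4.1⟩
    · rintro ⟨h3, h4⟩
      simp only [Pi.sup_apply, sup_le_iff] at h3 h4
      exact h ⟨h3.2, h4.2⟩
  · rintro ⟨h2, h4⟩ x y hxy h
    by_cases h5 : a x ≤ 1 ∧ a y ≤ 1
    · apply h4 x y hxy
      rintro ⟨h6, h7⟩
      apply h
      simp only [Pi.sup_apply, sup_le_iff]
      exact ⟨⟨h5.1, h6⟩, ⟨h5.2, h7⟩⟩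
    · exact h2 x y hxy h5

theorem SG_anti {a a' : W → ℤ} (h : a ≤ a') : N.SG a' ≤ N.SG a := by
  intro s hs
  rw [mem_SG] at *
  intro x y hxy hne
  refine hs x y hxy ?_
  rintro ⟨h1, h2⟩
  exact hne ⟨(h x).trans h1, (h y).trans h2⟩

section fin

variable [Fintype W]

/-- The number of the compatible signs. -/
noncomputable def nSG (a : W → ℤ) : ℕ := Nat.card (N.SG a)

theorem nSG_mul (a a' : W → ℤ) : N.nSG a * N.nSG a' ≤ N.nSG (a ⊓ a') * N.nSG (a ⊔ a') := by
  have h := card_mul_card_le (N.SG a) (N.SG a') (N.SG (a ⊓ a')) (N.SG_anti inf_le_left)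
    (N.SG_anti inf_le_right)
  rw [← SG_sup] at h
  unfold nSG
  rw [mul_comm (Nat.card (N.SG (a ⊓ a')))]
  exact h

/-- Finset of the compatible signs. -/
noncomputable def SGF (a : W → ℤ) : Finset (W → ℤˣ) := Finset.univ.filter fun s => s ∈ N.SG a

theorem mem_SGF {a : W → ℤ} {s : W → ℤˣ} : s ∈ N.SGF a ↔ s ∈ N.SG a := by simp [SGF]

theorem card_SGF (a : W → ℤ) : #(N.SGF a) = N.nSG a := by
  unfold SGF nSG
  rw [Nat.card_eq_fintype_card, Fintype.card_subtype]

/-- Heights with modulus at most `M`, minimal off `D`. -/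
noncomputable def Om (M : ℤ) (D : Set W) : Finset (W → ℤ) :=
  (Fintype.piFinset fun _ => Finset.Icc (-M) M).filter fun H =>
    N.Lp H ∧ ∀ u, u ∉ D → |H u| = N.b u

theorem mem_Om {D : Set W} {H : W → ℤ} : H ∈ N.Om M D ↔ (∀ u, |H u| ≤ M) ∧ N.Lp H ∧
    ∀ u, u ∉ D → |H u| = N.b u := by
  unfold Om
  rw [Finset.mem_filter, Fintype.mem_piFinset]
  simp only [Finset.mem_Icc, abs_le]

/-- Moduli at most `M`, minimal off `D`. -/
noncomputable def Ab (M : ℤ) (D : Set W) : Finset (W → ℤ) :=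
  (Fintype.piFinset fun _ => Finset.Icc 0 M).filter fun a => N.Lp a ∧ ∀ u, u ∉ D → a u = N.b u

theorem mem_Ab {D : Set W} {a : W → ℤ} : a ∈ N.Ab M D ↔ (∀ u, 0 ≤ a u ∧ a u ≤ M) ∧ N.Lp a ∧
    ∀ u, u ∉ D → a u = N.b u := by
  unfold Ab
  rw [Finset.mem_filter, Fintype.mem_piFinset]
  simp only [Finset.mem_Icc]

/-- The correction for the zeros. -/
noncomputable def cz (a : W → ℤ) : ℝ := ∏ u, if a u ≤ 0 then (1 / 2 : ℝ) else 1

theorem cz_pos (a : W → ℤ) : 0 < cz a := by
  refine Finset.prod_pos fun u _ => ?_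
  split_ifs <;> norm_num

theorem cz_mul (a a' : W → ℤ) : cz a * cz a' = cz (a ⊓ a') * cz (a ⊔ a') := by
  unfold cz
  rw [← Finset.prod_mul_distrib, ← Finset.prod_mul_distrib]
  refine Finset.prod_congr rfl fun u _ => ?_
  simp only [Pi.inf_apply, Pi.sup_apply]
  rcases le_total (a u) (a' u) with h | h
  · simp only [min_eq_left h, max_eq_right h]
  · simp only [min_eq_right h, max_eq_left h]
    rw [mul_comm]

/-- Decomposition into modulus and signs. -/
theorem sum_Om (D : Set W) (F : (W → ℤ) → ℝ) :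
    ∑ H ∈ N.Om M D, F H = ∑ a ∈ N.Ab M D, cz a * ∑ s ∈ N.SGF a, F (sm s a) := by
  -- the signs of given heights
  set T : (W → ℤ) → Finset (W → ℤˣ) := fun H =>
    Fintype.piFinset fun u => if H u = 0 then Finset.univ else {sn (H u)} with hT
  have hTm : ∀ H s, s ∈ T H ↔ ∀ u, H u ≠ 0 → s u = sn (H u) := by
    intro H s
    rw [hT, Fintype.mem_piFinset]
    refine forall_congr' fun u => ?_
    by_cases h : H u = 0
    · simp only [h, if_true, Finset.mem_univ, ne_eq, not_true_eq_false, false_imp_iff]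
    · simp only [h, if_false, Finset.mem_singleton, ne_eq, not_false_eq_true, true_imp_iff]
  have hTc : ∀ H, cz (ab H) * (#(T H) : ℝ) = 1 := by
    intro H
    rw [hT, Fintype.card_piFinset]
    unfold cz
    push_cast
    rw [← Finset.prod_mul_distrib]
    refine Finset.prod_eq_one fun u _ => ?_
    unfold ab
    by_cases h : H u = 0
    · simp [h]
    · have h1 : ¬ |H u| ≤ 0 := by
        rw [not_le]; exact abs_pos.2 h
      simp [h, h1]
  have h1 : ∑ H ∈ N.Om M D, F H = ∑ H ∈ N.Om M D, ∑ _s ∈ T H, cz (ab H) * F H := by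
    refine Finset.sum_congr rfl fun H _ => ?_
    rw [Finset.sum_const, nsmul_eq_mul, ← mul_assoc, mul_comm (#(T H) : ℝ), hTc, one_mul]
  rw [h1, Finset.sum_sigma' (N.Om M D) T (fun H _ => cz (ab H) * F H)]
  have h2 : ∑ a ∈ N.Ab M D, cz a * ∑ s ∈ N.SGF a, F (sm s a) =
      ∑ a ∈ N.Ab M D, ∑ s ∈ N.SGF a, cz a * F (sm s a) := by
    refine Finset.sum_congr rfl fun a _ => ?_
    rw [Finset.mul_sum]
  rw [h2, Finset.sum_sigma' (N.Ab M D) (fun a => N.SGF a) (fun a s => cz a * F (sm s a))]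
  have hback : ∀ (H : W → ℤ) (s : W → ℤˣ), s ∈ T H → sm s (ab H) = H := by
    intro H s hs
    rw [hTm] at hs
    funext u
    unfold sm ab
    by_cases h : H u = 0
    · simp [h]
    · rw [hs u h]; exact sn_mul_abs _
  refine Finset.sum_nbij' (i := fun p => (⟨ab p.1, p.2⟩ : (_ : W → ℤ) × (W → ℤˣ)))
    (j := fun p => (⟨sm p.2 p.1, p.2⟩ : (_ : W → ℤ) × (W → ℤˣ))) ?_ ?_ ?_ ?_ ?_
  · rintro ⟨H, s⟩ hp
    obtain ⟨hH, hs⟩ := Finset.mem_sigma.1 hp
    simp only at hH hs
    rw [mem_Om] at hH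
    rw [hTm] at hs
    obtain ⟨hM, ⟨hpar, hlip⟩, hout⟩ := hH
    rw [Finset.mem_sigma]
    refine ⟨N.mem_Ab.2 ⟨fun u => ⟨abs_nonneg _, hM u⟩, ⟨fun u => N.even_abs (hpar u),
      fun u v huv => (abs_abs_sub_abs_le (H u) (H v)).trans (hlip u v huv)⟩, hout⟩,
      N.mem_SGF.2 (N.mem_SG.2 fun u v huv hne => ?_)⟩
    have hd := abs_le.1 (hlip u v huv)
    have h3 : H u ≠ 0 := by
      intro h0
      apply hne
      have hv : H v ≤ 1 ∧ -1 ≤ H v := by
        have hb : N.b v = 1 := by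
          rcases N.odd huv with h | h
          · exfalso
            have := hpar u
            rw [h0, h] at this
            obtain ⟨m, hm⟩ := this
            omega
          · exact h
        have := hpar v
        rw [hb] at this
        obtain ⟨m, hm⟩ := this
        omega
      simp only [ab]
      exact ⟨by rw [h0]; simp, abs_le.2 ⟨hv.2, hv.1⟩⟩
    have h4 : H v ≠ 0 := by
      intro h0
      apply hne
      have hv : H u ≤ 1 ∧ -1 ≤ H u := by
        have hb : N.b u = 1 := by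
          rcases N.odd huv with h | h
          · exact h
          · exfalso
            have := hpar v
            rw [h0, h] at this
            obtain ⟨m, hm⟩ := this
            omega
        have := hpar u
        rw [hb] at this
        obtain ⟨m, hm⟩ := this
        omega
      simp only [ab]
      exact ⟨abs_le.2 ⟨hv.2, hv.1⟩, by rw [h0]; simp⟩
    show s u = s v
    rw [hs u h3, hs v h4]
    unfold sn
    by_cases h5 : H u < 0 <;> by_cases h6 : H v < 0
    · rw [if_pos h5, if_pos h6]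
    · exfalso
      apply hne
      simp only [ab]
      rw [abs_of_neg h5, abs_of_nonneg (not_lt.1 h6)]
      omega
    · exfalso
      apply hne
      simp only [ab]
      rw [abs_of_neg h6, abs_of_nonneg (not_lt.1 h5)]
      omega
    · rw [if_neg h5, if_neg h6]
  · rintro ⟨a, s⟩ hp
    obtain ⟨ha, hs⟩ := Finset.mem_sigma.1 hp
    simp only at ha hs
    rw [mem_Ab] at ha
    rw [mem_SGF, mem_SG] at hs
    obtain ⟨hM, ⟨hpar, hlip⟩, hout⟩ := ha
    have habs : ∀ u, |sm s a u| = a u := fun u => abs_units (s u) (hM u).1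
    rw [Finset.mem_sigma]
    refine ⟨N.mem_Om.2 ⟨fun u => ?_, ⟨fun u => ?_, fun u v huv => ?_⟩, fun u hu => ?_⟩,
      (hTm _ _).2 fun u hu => ?_⟩
    · show |sm s a u| ≤ M
      rw [habs]; exact (hM u).2
    · show Even (sm s a u - N.b u)
      have h := hpar u
      rcases Int.units_eq_one_or (s u) with h3 | h3
      · simpa [sm, h3] using h
      · obtain ⟨m, hm⟩ := h
        exact ⟨-m - N.b u, by simp only [sm, h3, Units.val_neg, Units.val_one]; omega⟩
    · show |sm s a u - sm s a v| ≤ 2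
      have h0 := (hM u).1
      have h0' := (hM v).1
      by_cases hc : a u ≤ 1 ∧ a v ≤ 1
      · rcases Int.units_eq_one_or (s u) with h3 | h3 <;>
          rcases Int.units_eq_one_or (s v) with h4 | h4 <;>
          simp only [sm, h3, h4, Units.val_neg, Units.val_one] <;> rw [abs_le] <;> omega
      · have h3 := hs u v huv hc
        have h4 := abs_le.1 (hlip u v huv)
        rcases Int.units_eq_one_or (s v) with h5 | h5 <;>
          simp only [sm, h3, h5, Units.val_neg, Units.val_one] <;> rw [abs_le] <;> omega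
    · show |sm s a u| = N.b u
      rw [habs]; exact hout u hu
    · show s u = sn (sm s a u)
      have h0 : 1 ≤ a u := by
        have := (hM u).1
        by_contra hc
        have h1 : a u = 0 := by omega
        exact hu (by simp [sm, h1])
      exact (sn_units_mul (s u) h0).symm
  · rintro ⟨H, s⟩ hp
    obtain ⟨-, hs⟩ := Finset.mem_sigma.1 hp
    have := hback H s hs
    simp only [this]
  · rintro ⟨a, s⟩ hp
    obtain ⟨ha, -⟩ := Finset.mem_sigma.1 hp
    have h3 : ab (sm s a) = a := by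
      funext u
      exact abs_units (s u) ((N.mem_Ab.1 ha).1 u).1
    simp only [h3]
  · rintro ⟨H, s⟩ hp
    obtain ⟨-, hs⟩ := Finset.mem_sigma.1 hp
    simp only [hback H s hs]

omit [Fintype W] in
theorem ab_sm {a : W → ℤ} (s : W → ℤˣ) (ha : ∀ u, 0 ≤ a u) : ab (sm s a) = a := by
  funext u
  exact abs_units (s u) (ha u)

/-- Moments of the signs. -/
theorem sum_SGF_prod (a : W → ℤ) (l : List W) :
    ∑ s ∈ N.SGF a, (((l.map s).prod : ℤˣ) : ℝ) =
      if ∀ s ∈ N.SG a, (l.map s).prod = 1 then (N.nSG a : ℝ) else 0 := by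
  split_ifs with h
  · rw [← card_SGF, Finset.card_eq_sum_ones, Nat.cast_sum]
    refine Finset.sum_congr rfl fun s hs => ?_
    rw [h s (N.mem_SGF.1 hs)]
    simp
  · push Not at h
    obtain ⟨t, ht, hxy⟩ := h
    have ht1 : (l.map t).prod = -1 := by
      rcases Int.units_eq_one_or (l.map t).prod with h1 | h1
      · exact absurd h1 hxy
      · exact h1
    have hmul : ∀ s : W → ℤˣ, (l.map (t * s)).prod = (l.map t).prod * (l.map s).prod := by
      intro s
      have : l.map (t * s) = l.map fun x => t x * s x := rfl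
      rw [this, List.prod_map_mul]
    have key : ∑ s ∈ N.SGF a, (((l.map s).prod : ℤˣ) : ℝ) =
        ∑ s ∈ N.SGF a, (((l.map (t * s)).prod : ℤˣ) : ℝ) := by
      symm
      refine Finset.sum_nbij' (fun s => t * s) (fun s => t⁻¹ * s) ?_ ?_ ?_ ?_ ?_
      · intro s hs
        exact N.mem_SGF.2 (mul_mem ht (N.mem_SGF.1 hs))
      · intro s hs
        exact N.mem_SGF.2 (mul_mem (inv_mem ht) (N.mem_SGF.1 hs))
      · intro s _; simp
      · intro s _; simp
      · intro s _; rfl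
    have key2 : ∀ s ∈ N.SGF a, (((l.map (t * s)).prod : ℤˣ) : ℝ) =
        -(((l.map s).prod : ℤˣ) : ℝ) := by
      intro s _
      rw [hmul, ht1]
      simp
    rw [Finset.sum_congr rfl key2, Finset.sum_neg_distrib] at key
    linarith

/-- Conditional expectation of a product of heights given the modulus. -/
noncomputable def Fk (l : List W) (a : W → ℤ) : ℝ :=
  (l.map fun x => ((max (a x) 0 : ℤ) : ℝ)).prod *
    if ∀ s ∈ N.SG a, (l.map s).prod = 1 then 1 else 0

omit [Fintype W] in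
theorem prod_max_nonneg (l : List W) (a : W → ℤ) :
    0 ≤ (l.map fun x => ((max (a x) 0 : ℤ) : ℝ)).prod := by
  refine List.prod_nonneg fun y hy => ?_
  obtain ⟨x, -, rfl⟩ := List.mem_map.1 hy
  exact_mod_cast le_max_right (a x) 0

omit [Fintype W] in
theorem prod_max_mono (l : List W) {a a' : W → ℤ} (h : a ≤ a') :
    (l.map fun x => ((max (a x) 0 : ℤ) : ℝ)).prod ≤
      (l.map fun x => ((max (a' x) 0 : ℤ) : ℝ)).prod := by
  induction l with
  | nil => simp
  | cons x l ih =>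
    simp only [List.map_cons, List.prod_cons]
    refine mul_le_mul ?_ ih (prod_max_nonneg l a) ?_
    · exact_mod_cast max_le_max (h x) le_rfl
    · exact_mod_cast le_max_right (a' x) 0

theorem Fk_nonneg (l : List W) (a : W → ℤ) : 0 ≤ N.Fk l a := by
  unfold Fk
  refine mul_nonneg (prod_max_nonneg l a) ?_
  split_ifs <;> norm_num

theorem Fk_mono (l : List W) : Monotone (N.Fk l) := by
  intro a a' h
  unfold Fk
  by_cases h1 : ∀ s ∈ N.SG a, (l.map s).prod = 1
  · have h2 : ∀ s ∈ N.SG a', (l.map s).prod = 1 := fun s hs => h1 s (N.SG_anti h hs)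
    rw [if_pos h1, if_pos h2, mul_one, mul_one]
    exact prod_max_mono l h
  · rw [if_neg h1, mul_zero]
    exact mul_nonneg (prod_max_nonneg l a') (by split_ifs <;> norm_num)

theorem sum_signs {a : W → ℤ} (ha : ∀ u, 0 ≤ a u) (l : List W) :
    ∑ s ∈ N.SGF a, mon l (sm s a) = (N.nSG a : ℝ) * N.Fk l a := by
  have h1 : ∀ s : W → ℤˣ, mon l (sm s a) =
      (l.map fun x => ((max (a x) 0 : ℤ) : ℝ)).prod * (((l.map s).prod : ℤˣ) : ℝ) := by
    intro s
    unfold mon sm
    induction l with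
    | nil => simp
    | cons x l ih =>
      simp only [List.map_cons, List.prod_cons] at ih ⊢
      rw [ih, max_eq_left (ha x)]
      push_cast
      ring
  rw [Finset.sum_congr rfl fun s _ => h1 s, ← Finset.mul_sum, sum_SGF_prod]
  unfold Fk
  split_ifs <;> ring

theorem sum_Om_mon (D : Set W) (X : (W → ℤ) → ℝ) (l : List W) :
    ∑ H ∈ N.Om M D, X (ab H) * mon l H =
      ∑ a ∈ N.Ab M D, (cz a * N.nSG a * X a) * N.Fk l a := by
  rw [N.sum_Om D fun H => X (ab H) * mon l H]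
  refine Finset.sum_congr rfl fun a ha => ?_
  have h0 : ∀ u, 0 ≤ a u := fun u => ((N.mem_Ab.1 ha).1 u).1
  have h1 : ∀ s ∈ N.SGF a, X (ab (sm s a)) * mon l (sm s a) = X a * mon l (sm s a) := by
    intro s _
    rw [ab_sm s h0]
  rw [Finset.sum_congr rfl h1, ← Finset.mul_sum, N.sum_signs h0]
  ring

theorem sum_Om_ab (D : Set W) (X : (W → ℤ) → ℝ) :
    ∑ H ∈ N.Om M D, X (ab H) = ∑ a ∈ N.Ab M D, cz a * N.nSG a * X a := by
  have h := N.sum_Om_mon (M := M) D X []
  have e1 : ∀ H : W → ℤ, mon [] H = 1 := fun H => rfl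
  have e2 : ∀ a : W → ℤ, N.Fk [] a = 1 := by
    intro a
    unfold Fk
    simp
  simp only [e1, e2, mul_one] at h
  exact h

/-- Master inequality. -/
theorem master {D D' : Set W} (hD : D' ⊆ D) {X₁ X₂ : (W → ℤ) → ℝ} (h1 : ∀ a, 0 ≤ X₁ a)
    (h2 : ∀ a, 0 ≤ X₂ a)
    (hX : ∀ a ∈ N.Ab M D', ∀ a' ∈ N.Ab M D, X₁ a * X₂ a' ≤ X₁ (a ⊓ a') * X₂ (a ⊔ a'))
    {B : (W → ℤ) → ℝ} (hB0 : ∀ a, 0 ≤ B a) (hB : Monotone B) (l : List W) :
    (∑ H ∈ N.Om M D', X₁ (ab H) * (B (ab H) * mon l H)) * (∑ H ∈ N.Om M D, X₂ (ab H)) ≤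
      (∑ H ∈ N.Om M D', X₁ (ab H)) * ∑ H ∈ N.Om M D, X₂ (ab H) * (B (ab H) * mon l H) := by
  have r1 : ∀ (D : Set W) (X : (W → ℤ) → ℝ), ∑ H ∈ N.Om M D, X (ab H) * (B (ab H) * mon l H) =
      ∑ a ∈ N.Ab M D, (cz a * N.nSG a * X a) * (B a * N.Fk l a) := by
    intro D X
    have h := N.sum_Om_mon (M := M) D (fun a => X a * B a) l
    have e : ∀ H : W → ℤ, X (ab H) * (B (ab H) * mon l H) = X (ab H) * B (ab H) * mon l H :=
      fun H => by ring
    rw [Finset.sum_congr rfl fun H _ => e H, h]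
    exact Finset.sum_congr rfl fun a _ => by ring
  rw [r1, r1, N.sum_Om_ab, N.sum_Om_ab]
  let w₁ : (W → ℤ) → ℝ := fun a => if a ∈ N.Ab M D' then cz a * N.nSG a * X₁ a else 0
  let w₂ : (W → ℤ) → ℝ := fun a => if a ∈ N.Ab M D then cz a * N.nSG a * X₂ a else 0
  have hp : ∀ a : W → ℤ, 0 ≤ cz a * (N.nSG a : ℝ) := fun a =>
    mul_nonneg (cz_pos a).le (Nat.cast_nonneg _)
  have hw₁ : ∀ a, 0 ≤ w₁ a := fun a => by
    dsimp only [w₁]
    split_ifs
    · exact mul_nonneg (hp a) (h1 a)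
    · exact le_rfl
  have hw₂ : ∀ a, 0 ≤ w₂ a := fun a => by
    dsimp only [w₂]
    split_ifs
    · exact mul_nonneg (hp a) (h2 a)
    · exact le_rfl
  have key := holley_weighted w₁ w₂ (fun a => B a * N.Fk l a) (N.Ab M D') (N.Ab M D) hw₁ hw₂
    (fun a => mul_nonneg (hB0 a) (N.Fk_nonneg l a))
    (fun a a' h => mul_le_mul (hB h) (N.Fk_mono l h) (N.Fk_nonneg l a) (hB0 a'))
    (fun a ha => if_neg ha) (fun a ha => if_neg ha)
    (by
      intro a a'
      by_cases ha : a ∈ N.Ab M D'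
      · by_cases ha' : a' ∈ N.Ab M D
        · have i1 := N.mem_Ab.1 ha
          have i2 := N.mem_Ab.1 ha'
          have hinf : a ⊓ a' ∈ N.Ab M D' := by
            refine N.mem_Ab.2 ⟨fun u => ?_, i1.2.1.inf i2.2.1, fun u hu => ?_⟩
            · have j1 := i1.1 u
              have j2 := i2.1 u
              simp only [Pi.inf_apply]
              exact ⟨le_inf j1.1 j2.1, inf_le_left.trans j1.2⟩
            · have j1 := i1.2.2 u hu
              have j2 := N.b_le_of (i2.2.1.1 u) (i2.1 u).1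
              simp only [Pi.inf_apply]
              rw [j1]
              exact inf_eq_left.2 j2
          have hsup : a ⊔ a' ∈ N.Ab M D := by
            refine N.mem_Ab.2 ⟨fun u => ?_, i1.2.1.sup i2.2.1, fun u hu => ?_⟩
            · have j1 := i1.1 u
              have j2 := i2.1 u
              simp only [Pi.sup_apply]
              exact ⟨le_sup_of_le_left j1.1, sup_le j1.2 j2.2⟩
            · have j1 := i1.2.2 u fun h => hu (hD h)
              have j2 := i2.2.2 u hu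
              simp only [Pi.sup_apply]
              rw [j1, j2]
              exact sup_idem _
          dsimp only [w₁, w₂]
          rw [if_pos ha, if_pos ha', if_pos hinf, if_pos hsup]
          have e1 : (N.nSG a : ℝ) * N.nSG a' ≤ N.nSG (a ⊓ a') * N.nSG (a ⊔ a') := by
            exact_mod_cast N.nSG_mul a a'
          have e2 := hX a ha a' ha'
          have e3 := cz_mul a a'
          calc cz a * (N.nSG a : ℝ) * X₁ a * (cz a' * N.nSG a' * X₂ a')
              = (cz a * cz a') * ((N.nSG a : ℝ) * N.nSG a') * (X₁ a * X₂ a') := by ring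
            _ ≤ (cz a * cz a') * ((N.nSG (a ⊓ a') : ℝ) * N.nSG (a ⊔ a')) *
                (X₁ (a ⊓ a') * X₂ (a ⊔ a')) := by
                refine mul_le_mul (mul_le_mul_of_nonneg_left e1
                  (mul_nonneg (cz_pos a).le (cz_pos a').le)) e2 (mul_nonneg (h1 _) (h2 _)) ?_
                exact mul_nonneg (mul_nonneg (cz_pos a).le (cz_pos a').le) (by positivity)
            _ = _ := by rw [e3]; ring
        · have : w₂ a' = 0 := if_neg ha'
          rw [this, mul_zero]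
          exact mul_nonneg (hw₁ _) (hw₂ _)
      · have : w₁ a = 0 := if_neg ha
        rw [this, zero_mul]
        exact mul_nonneg (hw₁ _) (hw₂ _))
  have e1 : ∑ a ∈ N.Ab M D', w₁ a * (B a * N.Fk l a) =
      ∑ a ∈ N.Ab M D', cz a * (N.nSG a : ℝ) * X₁ a * (B a * N.Fk l a) :=
    Finset.sum_congr rfl fun a ha => by dsimp only [w₁]; rw [if_pos ha]
  have e2 : ∑ a ∈ N.Ab M D, w₂ a * (B a * N.Fk l a) =
      ∑ a ∈ N.Ab M D, cz a * (N.nSG a : ℝ) * X₂ a * (B a * N.Fk l a) :=
    Finset.sum_congr rfl fun a ha => by dsimp only [w₂]; rw [if_pos ha]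
  have e3 : ∑ a ∈ N.Ab M D', w₁ a = ∑ a ∈ N.Ab M D', cz a * (N.nSG a : ℝ) * X₁ a :=
    Finset.sum_congr rfl fun a ha => by dsimp only [w₁]; rw [if_pos ha]
  have e4 : ∑ a ∈ N.Ab M D, w₂ a = ∑ a ∈ N.Ab M D, cz a * (N.nSG a : ℝ) * X₂ a :=
    Finset.sum_congr rfl fun a ha => by dsimp only [w₂]; rw [if_pos ha]
  rw [e1, e2, e3, e4] at key
  exact key

end fin

end Gph

end Vale.Agent.P153.F.Gh
end

section

/-!
# Discrete Prékopa–Leindler inequality (Klartag–Lehec): all dimensions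
-/

namespace Vale.Agent.P153.F.PL

open Finset Function

variable {α : Type*} [DecidableEq α]

/-- The lower midpoint. -/
def fl (a b : α → ℤ) : α → ℤ := fun x => (a x + b x) / 2

/-- The upper midpoint. -/
def ce (a b : α → ℤ) : α → ℤ := fun x => (a x + b x + 1) / 2

/-- Sum over the coordinates of the list. -/
noncomputable def bs (N : ℕ) : List α → ((α → ℤ) → ℝ) → (α → ℤ) → ℝ
  | [], f, ξ => f ξ
  | x :: l, f, ξ => ∑ t ∈ Icc (-(N : ℤ)) N, bs N l f (update ξ x t)

theorem bs_nonneg (N : ℕ) {f : (α → ℤ) → ℝ} (hf : ∀ a, 0 ≤ f a) :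
    ∀ (l : List α) (ξ : α → ℤ), 0 ≤ bs N l f ξ
  | [], ξ => hf ξ
  | _ :: l, _ => sum_nonneg fun _ _ => bs_nonneg N hf l _

theorem fl_update (ξ ξ' : α → ℤ) (x : α) (t t' : ℤ) :
    fl (update ξ x t) (update ξ' x t') = update (fl ξ ξ') x ((t + t') / 2) := by
  funext y
  by_cases h : y = x
  · subst h
    simp [fl]
  · simp [fl, h]

theorem ce_update (ξ ξ' : α → ℤ) (x : α) (t t' : ℤ) :
    ce (update ξ x t) (update ξ' x t') = update (ce ξ ξ') x ((t + t' + 1) / 2) := by
  funext y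
  by_cases h : y = x
  · subst h
    simp [ce]
  · simp [ce, h]

theorem pl (N : ℕ) {f g h k : (α → ℤ) → ℝ} (hf : ∀ a, 0 ≤ f a) (hg : ∀ a, 0 ≤ g a)
    (hh : ∀ a, 0 ≤ h a) (hk : ∀ a, 0 ≤ k a) (H : ∀ a b, f a * g b ≤ h (fl a b) * k (ce a b)) :
    ∀ (l : List α) (ξ ξ' : α → ℤ), bs N l f ξ * bs N l g ξ' ≤
      bs N l h (fl ξ ξ') * bs N l k (ce ξ ξ')
  | [], ξ, ξ' => H ξ ξ'
  | x :: l, ξ, ξ' => by
    refine dim1 N (f := fun t => bs N l f (update ξ x t)) (g := fun t => bs N l g (update ξ' x t))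
      (h := fun t => bs N l h (update (fl ξ ξ') x t))
      (k := fun t => bs N l k (update (ce ξ ξ') x t)) (fun _ => bs_nonneg N hf _ _)
      (fun _ => bs_nonneg N hg _ _) (fun _ => bs_nonneg N hh _ _) (fun _ => bs_nonneg N hk _ _) ?_
    intro t t'
    have := pl N hf hg hh hk H l (update ξ x t) (update ξ' x t')
    rw [fl_update, ce_update] at this
    exact this

/-- The configurations which agree with `ξ` off the list, with values in `[-N, N]` on it. -/
noncomputable def box (N : ℕ) : List α → (α → ℤ) → Set (α → ℤ) := fun l ξ =>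
  {h | (∀ x, x ∉ l → h x = ξ x) ∧ ∀ x ∈ l, |h x| ≤ N}

theorem finite_box (N : ℕ) : ∀ (l : List α) (ξ : α → ℤ), (box N l ξ).Finite
  | [], ξ => by
    refine (Set.finite_singleton ξ).subset fun h hh => ?_
    rw [Set.mem_singleton_iff]
    funext x
    exact hh.1 x (by simp)
  | x :: l, ξ => by
    refine (Set.Finite.biUnion (Icc (-(N : ℤ)) N).finite_toSet
      fun t _ => finite_box N l (update ξ x t)).subset fun h hh => ?_
    rw [Set.mem_iUnion₂]
    refine ⟨h x, ?_, fun y hy => ?_, fun y hy => hh.2 y (List.mem_cons_of_mem _ hy)⟩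
    · have := hh.2 x (by simp)
      rw [abs_le] at this
      simp only [coe_Icc, Set.mem_Icc]
      exact this
    · by_cases hyx : y = x
      · subst hyx
        simp
      · rw [update_of_ne hyx]
        exact hh.1 y (by simp [hyx, hy])

open Classical in
theorem bs_eq (N : ℕ) (f : (α → ℤ) → ℝ) : ∀ (l : List α) (ξ : α → ℤ), l.Nodup →
    bs N l f ξ = ∑ h ∈ (finite_box N l ξ).toFinset, f h
  | [], ξ, _ => by
    have : (finite_box N [] ξ).toFinset = {ξ} := by
      ext h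
      rw [Set.Finite.mem_toFinset, mem_singleton]
      constructor
      · intro hh
        funext x
        exact hh.1 x (by simp)
      · rintro rfl
        exact ⟨fun _ _ => rfl, fun x hx => absurd hx (by simp)⟩
    rw [this, sum_singleton]
    rfl
  | x :: l, ξ, hl => by
    rw [List.nodup_cons] at hl
    have hU : (finite_box N (x :: l) ξ).toFinset =
        (Icc (-(N : ℤ)) N).biUnion fun t => (finite_box N l (update ξ x t)).toFinset := by
      ext h
      rw [Set.Finite.mem_toFinset, mem_biUnion]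
      constructor
      · intro hh
        refine ⟨h x, ?_, ?_⟩
        · have := hh.2 x (by simp)
          rw [abs_le] at this
          rw [mem_Icc]
          exact this
        · rw [Set.Finite.mem_toFinset]
          refine ⟨fun y hy => ?_, fun y hy => hh.2 y (List.mem_cons_of_mem _ hy)⟩
          by_cases hyx : y = x
          · subst hyx
            simp
          · rw [update_of_ne hyx]
            exact hh.1 y (by simp [hyx, hy])
      · rintro ⟨t, ht, hh⟩
        rw [Set.Finite.mem_toFinset] at hh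
        rw [mem_Icc] at ht
        have hx : h x = t := by
          rw [hh.1 x hl.1, update_self]
        refine ⟨fun y hy => ?_, fun y hy => ?_⟩
        · rw [List.mem_cons, not_or] at hy
          rw [hh.1 y hy.2, update_of_ne hy.1]
        · rcases List.mem_cons.1 hy with rfl | hy
          · rw [hx, abs_le]
            exact ht
          · exact hh.2 y hy
    have hb : bs N (x :: l) f ξ = ∑ t ∈ Icc (-(N : ℤ)) N, bs N l f (update ξ x t) := rfl
    rw [hb, hU, sum_biUnion]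
    · exact sum_congr rfl fun t _ => bs_eq N f l _ hl.2
    · intro t _ t' _ hne
      rw [Function.onFun, disjoint_left]
      intro h h1 h2
      rw [Set.Finite.mem_toFinset] at h1 h2
      apply hne
      have e1 := h1.1 x hl.1
      have e2 := h2.1 x hl.1
      rw [update_self] at e1 e2
      rw [← e1, ← e2]

/-- Klartag–Lehec for finite sets: `|A| |B| ≤ |⌊(A+B)/2⌋| |⌈(A+B)/2⌉|`. -/
theorem card_mid {D : Finset α} {A B C E : Set (α → ℤ)} (hA : A.Finite) (hB : B.Finite)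
    (hC : C.Finite) (hE : E.Finite) (h0 : ∀ h ∈ A ∪ B, ∀ x, x ∉ D → h x = 0)
    (h1 : ∀ a ∈ A, ∀ b ∈ B, fl a b ∈ C) (h2 : ∀ a ∈ A, ∀ b ∈ B, ce a b ∈ E) :
    (A.ncard : ℝ) * B.ncard ≤ C.ncard * E.ncard := by
  classical
  -- a bound for the values
  obtain ⟨N, hN⟩ : ∃ N : ℕ, ∀ h ∈ A ∪ B, ∀ x ∈ D, |h x| ≤ N := by
    have hfin : ((fun p : (α → ℤ) × α => |p.1 p.2|) '' ((A ∪ B) ×ˢ (D : Set α))).Finite :=
      ((hA.union hB).prod D.finite_toSet).image _
    obtain ⟨M, hM⟩ := hfin.bddAbove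
    refine ⟨M.toNat, fun h hh x hx => ?_⟩
    have := hM ⟨(h, x), ⟨hh, hx⟩, rfl⟩
    have h3 : |h x| ≤ M := this
    exact h3.trans (Int.self_le_toNat M)
  set l := D.toList with hl
  have hnd : l.Nodup := D.nodup_toList
  set z : α → ℤ := fun _ => 0 with hz
  have hfz : fl z z = z := by
    funext x
    simp [fl, hz]
  have hcz : ce z z = z := by
    funext x
    simp [ce, hz]
  have hmem : ∀ h ∈ A ∪ B, h ∈ (finite_box N l z).toFinset := by
    intro h hh
    rw [Set.Finite.mem_toFinset]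
    refine ⟨fun x hx => h0 h hh x ?_, fun x hx => hN h hh x ?_⟩
    · rwa [hl, Finset.mem_toList] at hx
    · rwa [hl, Finset.mem_toList] at hx
  have hin : ∀ S : Set (α → ℤ), ∀ hS : S.Finite, S ⊆ A ∪ B →
      bs N l (S.indicator fun _ => 1) z = S.ncard := by
    intro S hS hSA
    rw [bs_eq N _ l z hnd, Finset.sum_indicator_eq_sum_filter, Finset.sum_const, nsmul_eq_mul,
      mul_one, Set.ncard_eq_toFinset_card S hS]
    congr 2
    ext h
    rw [Finset.mem_filter, Set.Finite.mem_toFinset hS]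
    exact ⟨fun hh => hh.2, fun hh => ⟨hmem h (hSA hh), hh⟩⟩
  have hle : ∀ S : Set (α → ℤ), ∀ hS : S.Finite,
      bs N l (S.indicator fun _ => 1) z ≤ S.ncard := by
    intro S hS
    rw [bs_eq N _ l z hnd, Finset.sum_indicator_eq_sum_filter, Finset.sum_const, nsmul_eq_mul,
      mul_one, Set.ncard_eq_toFinset_card S hS]
    refine Nat.cast_le.2 (Finset.card_le_card fun h hh => ?_)
    rw [Finset.mem_filter] at hh
    rw [Set.Finite.mem_toFinset]
    exact hh.2
  have hnn : ∀ S : Set (α → ℤ), ∀ a, 0 ≤ S.indicator (fun _ => (1 : ℝ)) a := fun S a =>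
    Set.indicator_nonneg (fun _ _ => zero_le_one) a
  have key := pl N (hnn A) (hnn B) (hnn C) (hnn E) ?_ l z z
  · rw [hfz, hcz, hin A hA Set.subset_union_left, hin B hB Set.subset_union_right] at key
    exact key.trans (mul_le_mul (hle C hC) (hle E hE) (bs_nonneg N (hnn E) l z)
      (Nat.cast_nonneg _))
  · intro a b
    by_cases ha : a ∈ A
    · by_cases hb : b ∈ B
      · rw [Set.indicator_of_mem ha, Set.indicator_of_mem hb, Set.indicator_of_mem (h1 a ha b hb),
          Set.indicator_of_mem (h2 a ha b hb)]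
      · rw [Set.indicator_of_notMem hb, mul_zero]
        exact mul_nonneg (hnn _ _) (hnn _ _)
    · rw [Set.indicator_of_notMem ha, zero_mul]
      exact mul_nonneg (hnn _ _) (hnn _ _)

end Vale.Agent.P153.F.PL
end

section

/-!
# P153: from patterns to functions

The local limit along rectangles, for patterns of height differences, gives the limit of the
expectations of all functions of the height differences in a finite set.
-/

namespace Vale.Agent.P153.Strip

open Finset MeasureTheory Filter Topology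
open Vale.Agent.P153.GFF (Ht Pat LocLim)

theorem gff_bc (D : Finset (ℤ × ℤ)) (v : ℤ × ℤ) : GFF.bc D v = Fv.bc D v := by
  classical
  ext a
  by_cases hv : v ∈ D
  · by_cases hv' : v ∈ Fv.inner D
    · rw [Fv.bc_inner hv']
      simp only [GFF.bc, Set.mem_ofPred_eq, Set.mem_univ, iff_true]
      exact ⟨fun h => absurd hv h, fun ⟨w, h1, h2⟩ => absurd (hv'.2 w h1) h2⟩
    · rw [Fv.bc_bd hv hv']
      simp only [GFF.bc, Set.mem_ofPred_eq, Set.mem_insert_iff, Set.mem_singleton_iff]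
      constructor
      · rintro ⟨-, h⟩
        apply h
        by_contra hcon
        push Not at hcon
        exact hv' ⟨hv, hcon⟩
      · exact fun h => ⟨fun h' => absurd hv h', fun _ => h⟩
  · rw [Fv.bc_out hv]
    simp only [GFF.bc, Set.mem_ofPred_eq, Set.mem_singleton_iff]
    exact ⟨fun h => h.1 hv, fun h => ⟨fun _ => h, fun _ => Or.inl h⟩⟩

theorem Ht_eq_reg (D : Finset (ℤ × ℤ)) : Ht D = (Fv.reg D : Set (ℤ × ℤ → ℤ)) := by
  have : GFF.bc D = Fv.bc D := funext fun v => gff_bc D v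
  unfold Ht
  rw [this]
  ext h
  exact (Fv.reg_isLp D h).symm

/-- A function with steps at most one is bounded by the distance to the origin. -/
theorem lip_bound {φ : ℤ × ℤ → ℤ} (hφ : ∀ x y, GFF.Adj x y → |φ x - φ y| ≤ 1) (x : ℤ × ℤ) :
    |φ x - φ (0, 0)| ≤ |x.1| + |x.2| := by
  have h1 : ∀ (n : ℕ) (y : ℤ), |φ ((n : ℤ), y) - φ (0, y)| ≤ n := by
    intro n
    induction n with
    | zero => intro y; simp
    | succ n ih =>
      intro y
      have := hφ ((n : ℤ) + 1, y) ((n : ℤ), y) (by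
        simp only [GFF.Adj, Int.reduceNeg, sub_add_cancel_left, sub_self, Set.mem_insert_iff, Prod.mk.injEq, reduceCtorEq, and_true, neg_eq_zero, one_ne_zero, zero_ne_one, and_self, zero_eq_neg, Set.mem_singleton_iff, and_false, or_self, or_false, or_true])
      have h2 := ih y
      push_cast
      calc |φ ((n : ℤ) + 1, y) - φ (0, y)|
          = |(φ ((n : ℤ) + 1, y) - φ ((n : ℤ), y)) + (φ ((n : ℤ), y) - φ (0, y))| := by
            congr 1; ring
        _ ≤ _ := (abs_add_le _ _).trans (by linarith only [this, h2])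
  have h2 : ∀ (n : ℕ) (y : ℤ), |φ (-(n : ℤ), y) - φ (0, y)| ≤ n := by
    intro n
    induction n with
    | zero => intro y; simp
    | succ n ih =>
      intro y
      have := hφ (-(n : ℤ) - 1, y) (-(n : ℤ), y) (by
        simp only [GFF.Adj, Int.reduceNeg, sub_sub_cancel, sub_self, Set.mem_insert_iff, Prod.mk.injEq, reduceCtorEq, and_true, one_ne_zero, zero_ne_one, and_self, zero_eq_neg, and_false, Set.mem_singleton_iff, or_self, or_false])
      have h2 := ih y
      push_cast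
      have e : (-1 + -(n : ℤ), y) = (-(n : ℤ) - 1, y) := by congr 1; ring
      have e' : (-((n : ℤ) + 1), y) = (-(n : ℤ) - 1, y) := by congr 1; ring
      rw [e']
      calc |φ (-(n : ℤ) - 1, y) - φ (0, y)|
          = |(φ (-(n : ℤ) - 1, y) - φ (-(n : ℤ), y)) + (φ (-(n : ℤ), y) - φ (0, y))| := by
            congr 1; ring
        _ ≤ _ := (abs_add_le _ _).trans (by linarith)
  have h3 : ∀ n : ℕ, |φ (0, (n : ℤ)) - φ (0, 0)| ≤ n := by
    intro n
    induction n with
    | zero => simp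
    | succ n ih =>
      have := hφ (0, (n : ℤ) + 1) (0, (n : ℤ)) (by
        simp only [GFF.Adj, Int.reduceNeg, sub_self, sub_add_cancel_left, Set.mem_insert_iff, Prod.mk.injEq, zero_ne_one, neg_eq_zero, one_ne_zero, and_self, zero_eq_neg, reduceCtorEq, and_false, and_true, Set.mem_singleton_iff, or_self, or_false, or_true])
      push_cast
      calc |φ (0, (n : ℤ) + 1) - φ (0, 0)|
          = |(φ (0, (n : ℤ) + 1) - φ (0, (n : ℤ))) + (φ (0, (n : ℤ)) - φ (0, 0))| := by
            congr 1; ring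
        _ ≤ _ := (abs_add_le _ _).trans (by linarith only [ih, this])
  have h4 : ∀ n : ℕ, |φ (0, -(n : ℤ)) - φ (0, 0)| ≤ n := by
    intro n
    induction n with
    | zero => simp
    | succ n ih =>
      have := hφ (0, -(n : ℤ) - 1) (0, -(n : ℤ)) (by
        simp only [GFF.Adj, Int.reduceNeg, sub_self, sub_sub_cancel, Set.mem_insert_iff, Prod.mk.injEq, zero_ne_one, one_ne_zero, and_self, zero_eq_neg, reduceCtorEq, and_false, Set.mem_singleton_iff, and_true, or_self, or_false, or_true])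
      push_cast
      have e' : ((0 : ℤ), -((n : ℤ) + 1)) = (0, -(n : ℤ) - 1) := by congr 1; ring
      rw [e']
      calc |φ (0, -(n : ℤ) - 1) - φ (0, 0)|
          = |(φ (0, -(n : ℤ) - 1) - φ (0, -(n : ℤ))) + (φ (0, -(n : ℤ)) - φ (0, 0))| := by
            congr 1; ring
        _ ≤ _ := (abs_add_le _ _).trans (by linarith only [ih, this])
  obtain ⟨a, b⟩ := x
  have h5 : |φ (a, b) - φ (0, b)| ≤ |a| := by
    rcases le_total 0 a with h | h
    · obtain ⟨n, rfl⟩ := Int.eq_ofNat_of_zero_le h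
      rw [abs_of_nonneg h]
      exact h1 n b
    · obtain ⟨n, hn⟩ := Int.eq_ofNat_of_zero_le (neg_nonneg.2 h)
      have : a = -(n : ℤ) := by omega
      subst this
      rw [abs_neg, abs_of_nonneg (by positivity : (0 : ℤ) ≤ (n : ℤ))]
      exact h2 n b
  have h6 : |φ (0, b) - φ (0, 0)| ≤ |b| := by
    rcases le_total 0 b with h | h
    · obtain ⟨n, rfl⟩ := Int.eq_ofNat_of_zero_le h
      rw [abs_of_nonneg h]
      exact h3 n
    · obtain ⟨n, hn⟩ := Int.eq_ofNat_of_zero_le (neg_nonneg.2 h)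
      have : b = -(n : ℤ) := by omega
      subst this
      rw [abs_neg, abs_of_nonneg (by positivity : (0 : ℤ) ≤ (n : ℤ))]
      exact h4 n
  calc |φ (a, b) - φ (0, 0)| = |(φ (a, b) - φ (0, b)) + (φ (0, b) - φ (0, 0))| := by
        congr 1; ring
    _ ≤ _ := (abs_add_le _ _).trans (add_le_add h5 h6)

theorem measurableSet_Pat (B : Finset (ℤ × ℤ)) (a : ℤ × ℤ → ℤ) : MeasurableSet (Pat B a) := by
  have : Pat B a = ⋂ x ∈ B, ⋂ y ∈ B, {φ : ℤ × ℤ → ℤ | φ x - φ y = a x - a y} := by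
    ext φ
    simp only [Pat, Prod.forall, Set.mem_ofPred_eq, Set.mem_iInter]
  rw [this]
  refine Finset.measurableSet_biInter B fun x _ => Finset.measurableSet_biInter B fun y _ => ?_
  exact ((measurable_pi_apply x).sub (measurable_pi_apply y)) (measurableSet_singleton _)

open Classical in
/-- Finitely many patterns suffice for the functions with steps at most one. -/
theorem exists_patterns (B : Finset (ℤ × ℤ)) : ∃ A : Finset (ℤ × ℤ → ℤ),
    ∀ F : (ℤ × ℤ → ℤ) → ℝ,
    (∀ φ ψ : ℤ × ℤ → ℤ, (∀ x ∈ B, ∀ y ∈ B, φ x - φ y = ψ x - ψ y) → F φ = F ψ) →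
    ∀ φ : ℤ × ℤ → ℤ, (∀ x y, GFF.Adj x y → |φ x - φ y| ≤ 1) →
      F φ = ∑ a ∈ A, if φ ∈ Pat (insert (0, 0) B) a then F a else 0 := by
  set B' : Finset (ℤ × ℤ) := insert (0, 0) B with hB'
  set M : ℤ := ∑ x ∈ B', (|x.1| + |x.2|) with hM
  let A : Finset (ℤ × ℤ → ℤ) := ((Fintype.piFinset (fun _ : B' => Finset.Icc (-M) M)).image
    (fun g x => if h : x ∈ B' then g ⟨x, h⟩ else 0)).filter (fun a => a (0, 0) = 0)
  refine ⟨A, fun F hF φ hφ => ?_⟩
  set r : ℤ × ℤ → ℤ := fun x => if x ∈ B' then φ x - φ (0, 0) else 0 with hr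
  have h0 : ((0 : ℤ), (0 : ℤ)) ∈ B' := Finset.mem_insert_self _ _
  have hrA : r ∈ A := by
    simp only [A, Finset.mem_filter, Finset.mem_image, Fintype.mem_piFinset]
    refine ⟨⟨fun x => φ x - φ (0, 0), fun x => ?_, ?_⟩, ?_⟩
    · rw [Finset.mem_Icc]
      have h1 := lip_bound hφ x
      have h2 : |(x : ℤ × ℤ).1| + |(x : ℤ × ℤ).2| ≤ M :=
        Finset.single_le_sum (f := fun x : ℤ × ℤ => |x.1| + |x.2|)
          (fun y _ => by (clear * -; positivity)) x.2
      exact abs_le.1 (h1.trans h2)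
    · funext x
      simp only [hr]
      split_ifs <;> rfl
    · simp [hr, h0]
  have key : ∀ a ∈ A, (φ ∈ Pat B' a ↔ a = r) := by
    intro a ha
    simp only [A, Finset.mem_filter, Finset.mem_image, Fintype.mem_piFinset] at ha
    obtain ⟨⟨g, hg, rfl⟩, ha0⟩ := ha
    constructor
    · intro h
      funext x
      simp only [hr]
      split_ifs with hx
      · have h1 := h x hx (0, 0) h0
        rw [ha0, sub_zero] at h1
        rw [h1]
        simp [hx]
      · rfl
    · intro h x hx y hy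
      rw [h]
      simp only [hr, if_pos hx, if_pos hy]
      ring
  have h1 : ∑ a ∈ A, (if φ ∈ Pat B' a then F a else 0) = ∑ a ∈ A, if a = r then F a else 0 :=
    Finset.sum_congr rfl fun a ha => by simp only [key a ha]
  rw [h1, Finset.sum_ite_eq' A r, if_pos hrA]
  apply hF
  intro x hx y hy
  have hx' : x ∈ B' := Finset.mem_insert_of_mem hx
  have hy' : y ∈ B' := Finset.mem_insert_of_mem hy
  simp only [hr, if_pos hx', if_pos hy']
  ring

end Vale.Agent.P153.Strip
end
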