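import Mathlib
import Vale.Agent.P153.Bd5.B7
import Vale.Agent.P153.Bd5.B5
import Vale.Agent.P153.Bd5.B1
import Vale.Agent.P153.Bd5.B3
import Vale.Agent.P153.Bd5.B2
import Vale.Agent.P153.Bd5.B4
import Vale.Agent.P153.Bd5.B8

set_option linter.all false

section

/-!
# P153, two-point part: the scaling limit of integrals of numerators against the kernels
-/

open MeasureTheory ProbabilityTheory Filter Topology Set
open scoped ENNReal Real

namespace Vale.Agent.P153.TwoPt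

theorem continuous_den : Continuous fun p : ℝ × ℝ => den p.1 p.2 := by
  unfold den
  fun_prop

theorem integral_inv_den {τ : ℝ} (h0 : 0 ≤ τ) (h1 : τ < 1) :
    ∫ θ in Icc (-π) π, 1 / den τ θ = 2 * π / (1 - τ ^ 2) := by
  have h := poisson h0 h1 0
  simp only [Int.cast_zero, mul_zero, Complex.ofReal_zero, Complex.exp_zero, Int.natAbs_zero,
    pow_zero] at h
  have h2 : ∀ θ : ℝ, (1 : ℂ) / (den τ θ : ℂ) = ((1 / den τ θ : ℝ) : ℂ) := by
    intro θ
    push_cast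
    rfl
  simp_rw [h2] at h
  rw [integral_complex_ofReal] at h
  have h3 := Complex.ofReal_injective h
  rw [h3]
  ring

theorem qmp_smul (c : ℝ) (hc : c ≠ 0) : Measure.QuasiMeasurePreserving
    (fun z : ℝ × ℝ => c • z) volume volume := by
  refine ⟨measurable_const_smul c, ?_⟩
  have h := Measure.map_addHaar_smul (volume : Measure (ℝ × ℝ)) hc
  rw [h]
  exact Measure.smul_absolutelyContinuous

/-- the general kernel. -/
noncomputable def Rk (m : Kernel ℝ ℝ) (u : ℝ → ℝ → ℂ) (k θ : ℝ) : ℂ :=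
  ∫ τ, u τ θ / (den τ θ : ℂ) ∂(m k)

/-- the inner integral over `θ`. -/
noncomputable def In (u : ℝ → ℝ → ℂ) (N : ℝ → ℝ → ℂ) (p : ℝ × ℝ) : ℂ :=
  ∫ θ in Icc (-π) π, N θ p.1 * (u p.2 θ / (den p.2 θ : ℂ))

section
variable {V : ℤ → ℤ → ℝ} {m : Kernel ℝ ℝ} {c κ C k0 : ℝ}

theorem stronglyMeasurable_Rk [IsSFiniteKernel m] {u : ℝ → ℝ → ℂ}
    (hu : Measurable fun p : ℝ × ℝ => u p.1 p.2) :
    StronglyMeasurable fun p : ℝ × ℝ => Rk m u p.1 p.2 := by
  have hf : StronglyMeasurable fun q : (ℝ × ℝ) × ℝ => u q.2 q.1.2 / (den q.2 q.1.2 : ℂ) := by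
    refine Measurable.stronglyMeasurable ?_
    have h1 : Measurable fun q : (ℝ × ℝ) × ℝ => (q.2, q.1.2) := by fun_prop
    have h2 : Measurable fun q : (ℝ × ℝ) × ℝ => u q.2 q.1.2 := hu.comp h1
    have h3 : Measurable fun q : (ℝ × ℝ) × ℝ => den q.2 q.1.2 :=
      continuous_den.measurable.comp h1
    exact h2.div (Complex.measurable_ofReal.comp h3)
  have := hf.integral_kernel_prod_right' (κ := m.comap Prod.fst measurable_fst)
  exact this

theorem ae_int (h : Spec V m c κ C k0) : ∀ᵐ k ∂(volume.restrict (Icc (-π) π)),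
    Integrable (fun τ : ℝ => 1 / (1 - τ ^ 2)) (m k) := by
  have := h.sfin
  have h1 := h.int1
  unfold rho at h1
  rw [Measure.integrable_compProd_iff h1.aestronglyMeasurable] at h1
  have h0 : ∀ᵐ k ∂(volume.restrict (Icc (-π) π)), k ≠ 0 := by
    refine ae_restrict_of_ae ?_
    exact Measure.ae_ne volume 0
  filter_upwards [h1.1, ae_restrict_mem measurableSet_Icc, h0] with k hk1 hk2 hk3
  have hc : 0 < 1 - Real.cos k := by
    have h5 : Real.cos k ≠ 1 := by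
      intro h6
      rw [Real.cos_eq_one_iff_of_lt_of_lt (by linarith [hk2.1, Real.pi_pos])
        (by linarith [hk2.2, Real.pi_pos])] at h6
      exact hk3 h6
    have h6 := Real.cos_le_one k
    exact sub_pos.2 (lt_of_le_of_ne h6 h5)
  have h7 := hk1.const_mul (1 - Real.cos k)⁻¹
  refine h7.congr (Eventually.of_forall fun τ => ?_)
  simp only
  rw [← mul_assoc, inv_mul_cancel₀ hc.ne', one_mul]

theorem int_prod_den (k : ℝ) [SFinite (m k)] (hk : Integrable (fun τ : ℝ => 1 / (1 - τ ^ 2)) (m k))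
    (hs : ∀ᵐ τ ∂(m k), 0 ≤ τ ∧ τ < 1) :
    Integrable (fun p : ℝ × ℝ => 1 / den p.1 p.2) ((m k).prod (volume.restrict (Icc (-π) π))) := by
  have hm : Measurable fun p : ℝ × ℝ => 1 / den p.1 p.2 :=
    measurable_const.div continuous_den.measurable
  rw [integrable_prod_iff hm.aestronglyMeasurable]
  constructor
  · filter_upwards [hs] with τ hτ
    refine ContinuousOn.integrableOn_compact isCompact_Icc ?_
    refine Continuous.continuousOn ?_
    have h1 : Continuous fun θ => den τ θ := continuous_den.comp (by fun_prop : Continuous fun θ : ℝ => (τ, θ))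
    exact continuous_const.div h1 fun θ => (den_pos hτ.1 hτ.2 θ).ne'
  · refine (hk.const_mul (2 * π)).congr ?_
    filter_upwards [hs] with τ hτ
    have h1 : ∀ θ : ℝ, ‖1 / den τ θ‖ = 1 / den τ θ := fun θ =>
      Real.norm_of_nonneg (by have := den_pos hτ.1 hτ.2 θ; positivity)
    simp_rw [h1]
    rw [integral_inv_den hτ.1 hτ.2]
    ring

theorem swap (k : ℝ) [SFinite (m k)] (hk : Integrable (fun τ : ℝ => 1 / (1 - τ ^ 2)) (m k))
    (hs : ∀ᵐ τ ∂(m k), 0 ≤ τ ∧ τ < 1) {u : ℝ → ℝ → ℂ} {N : ℝ → ℝ → ℂ}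
    (hu : Measurable fun p : ℝ × ℝ => u p.1 p.2) {U B : ℝ}
    (hU : ∀ τ θ, 0 ≤ τ → τ < 1 → ‖u τ θ‖ ≤ U) (hN : Continuous fun p : ℝ × ℝ => N p.1 p.2)
    (hB : ∀ θ ∈ Icc (-π) π, ‖N θ k‖ ≤ B) :
    ∫ τ, In u N (k, τ) ∂(m k) = ∫ θ in Icc (-π) π, N θ k * Rk m u k θ := by
  unfold In Rk
  have hmeas : Measurable fun p : ℝ × ℝ => N p.2 k * (u p.1 p.2 / (den p.1 p.2 : ℂ)) := by
    have h1 : Measurable fun p : ℝ × ℝ => N p.2 k :=
      hN.measurable.comp (by fun_prop : Measurable fun p : ℝ × ℝ => (p.2, k))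
    exact h1.mul (hu.div (Complex.measurable_ofReal.comp continuous_den.measurable))
  have hint : Integrable (fun p : ℝ × ℝ => N p.2 k * (u p.1 p.2 / (den p.1 p.2 : ℂ)))
      ((m k).prod (volume.restrict (Icc (-π) π))) := by
    refine Integrable.mono' ((int_prod_den k hk hs).const_mul (B * U))
      hmeas.aestronglyMeasurable ?_
    have h1 : ∀ᵐ p ∂((m k).prod (volume.restrict (Icc (-π) π))), 0 ≤ p.1 ∧ p.1 < 1 :=
      Measure.quasiMeasurePreserving_fst.ae hs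
    have h2 : ∀ᵐ p ∂((m k).prod (volume.restrict (Icc (-π) π))), p.2 ∈ Icc (-π) π :=
      Measure.quasiMeasurePreserving_snd.ae (ae_restrict_mem measurableSet_Icc)
    filter_upwards [h1, h2] with p hp1 hp2
    have h3 := den_pos hp1.1 hp1.2 p.2
    rw [norm_mul, norm_div, Complex.norm_real, Real.norm_of_nonneg h3.le]
    have h4 := hU p.1 p.2 hp1.1 hp1.2
    have h5 := hB p.2 hp2
    have hB0 := (norm_nonneg _).trans h5
    rw [mul_assoc, mul_one_div]
    (clear * - h5 h4 h3 hB0; gcongr)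
  rw [integral_integral_swap hint]
  refine integral_congr_ae (Eventually.of_forall fun θ => ?_)
  simp only
  rw [integral_const_mul]

theorem norm_In_le {u : ℝ → ℝ → ℂ} {N : ℝ → ℝ → ℂ} {U B : ℝ}
    (hU : ∀ τ θ, 0 ≤ τ → τ < 1 → ‖u τ θ‖ ≤ U) {p : ℝ × ℝ} (hp : 0 ≤ p.2 ∧ p.2 < 1)
    (hB : ∀ θ ∈ Icc (-π) π, ‖N θ p.1‖ ≤ B) :
    ‖In u N p‖ ≤ B * U * (2 * π) * (1 / (1 - p.2 ^ 2)) := by
  unfold In
  have h1 : Continuous fun θ => den p.2 θ :=
    continuous_den.comp (by fun_prop : Continuous fun θ : ℝ => (p.2, θ))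
  have h2 : IntegrableOn (fun θ => B * U * (1 / den p.2 θ)) (Icc (-π) π) :=
    ((continuous_const.mul (continuous_const.div h1 fun θ =>
      (den_pos hp.1 hp.2 θ).ne')).continuousOn).integrableOn_compact isCompact_Icc
  refine (norm_integral_le_of_norm_le h2 ?_).trans ?_
  · filter_upwards [ae_restrict_mem measurableSet_Icc] with θ hθ
    have h3 := den_pos hp.1 hp.2 θ
    rw [norm_mul, norm_div, Complex.norm_real, Real.norm_of_nonneg h3.le]
    have h4 := hU p.2 θ hp.1 hp.2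
    have h5 := hB θ hθ
    have hB0 := (norm_nonneg _).trans h5
    rw [mul_assoc, mul_one_div]
    (clear * - h5 h4 h3 hB0; gcongr)
  · rw [integral_const_mul, integral_inv_den hp.1 hp.2]
    exact le_of_eq (by ring)

/-- The general limit. -/
theorem nearFar (h : Spec V m c κ C k0) {u : ℝ → ℝ → ℂ}
    (hu : Measurable fun p : ℝ × ℝ => u p.1 p.2) {U : ℝ}
    (hU : ∀ τ θ, 0 ≤ τ → τ < 1 → ‖u τ θ‖ ≤ U) (L : ℕ → ℝ) (hL : ∀ n, 1 ≤ L n)
    (N : ℕ → ℝ → ℝ → ℂ) (hN : ∀ n, Continuous fun p : ℝ × ℝ => N n p.1 p.2)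
    (hI : ∀ n, Integrable (In u (N n)) (rho m)) (b : ℕ → ℝ) (hb : Tendsto b atTop (𝓝 0))
    (hfar : ∀ n, ∀ θ ∈ Icc (-π) π, ∀ k ∈ Icc (-π) π, k0 ≤ |k| → ‖N n θ k‖ ≤ b n)
    (D : ℝ × ℝ → ℝ) (hD : Integrable D)
    (hdom : ∀ n, ∀ᵐ z : ℝ × ℝ, |z.2| < k0 * L n → |z.1| ≤ π * L n →
      ((L n) ^ 2)⁻¹ * (‖N n (z.1 / L n) (z.2 / L n)‖ * ‖Rk m u (z.2 / L n) (z.1 / L n)‖) ≤ D z)
    (hLt : Tendsto L atTop atTop)
    (Lim : ℝ × ℝ → ℂ)
    (hlim : ∀ᵐ z : ℝ × ℝ, Tendsto (fun n => (((L n) ^ 2)⁻¹ : ℂ) *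
      (N n (z.1 / L n) (z.2 / L n) * Rk m u (z.2 / L n) (z.1 / L n))) atTop (𝓝 (Lim z))) :
    Tendsto (fun n => ∫ p, In u (N n) p ∂(rho m)) atTop (𝓝 (∫ z, Lim z)) := by
  have := h.sfin
  have hpi := Real.pi_pos
  have hk0 := h.k0_pos
  have hk1 := h.k0_le
  have hset : MeasurableSet {p : ℝ × ℝ | k0 ≤ |p.1|} :=
    measurableSet_le measurable_const (by fun_prop)
  -- far part
  have hfar' : Tendsto (fun n => ∫ p in {p : ℝ × ℝ | k0 ≤ |p.1|}, In u (N n) p ∂(rho m)) atTop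
      (𝓝 0) := by
    set J : ℝ := ∫ p in {p : ℝ × ℝ | k0 ≤ |p.1|}, 1 / (1 - p.2 ^ 2) ∂(rho m) with hJ
    have h2 : Tendsto (fun n => b n * U * (2 * π) * J) atTop (𝓝 0) := by
      have := ((hb.mul_const U).mul_const (2 * π)).mul_const J
      simpa only [zero_mul] using this
    refine squeeze_zero_norm (fun n => ?_) h2
    rw [hJ, ← integral_const_mul]
    refine norm_integral_le_of_norm_le (h.int_far.const_mul _) ?_
    filter_upwards [ae_restrict_mem hset, ae_restrict_of_ae h.ae_supp, ae_restrict_of_ae h.ae_mem]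
      with p hp1 hp2 hp3
    exact norm_In_le hU hp2 fun θ hθ => hfar n θ hθ p.1 hp3 hp1
  -- near part
  have hcompl : {p : ℝ × ℝ | k0 ≤ |p.1|}ᶜ = Ioo (-k0) k0 ×ˢ univ := by
    ext p
    simp only [mem_compl_iff, mem_ofPred_eq, not_le, abs_lt, mem_prod, mem_Ioo, mem_univ, and_true]
  have hsub : Ioo (-k0) k0 ⊆ Icc (-π) π := fun x hx =>
    ⟨by linarith only [hk1, hx.1, Real.pi_gt_three], by linarith only [hk1, hx.2, Real.pi_gt_three]⟩
  have hRm := stronglyMeasurable_Rk (m := m) hu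
  set F : ℕ → ℝ × ℝ → ℂ := fun n z => N n z.1 z.2 * Rk m u z.2 z.1 with hF
  have hFm : ∀ n, AEStronglyMeasurable (F n) volume := by
    intro n
    have h1 : Measurable fun z : ℝ × ℝ => Rk m u z.2 z.1 :=
      hRm.measurable.comp (by fun_prop : Measurable fun z : ℝ × ℝ => (z.2, z.1))
    exact ((hN n).measurable.mul h1).aestronglyMeasurable
  set A : Set (ℝ × ℝ) := Icc (-π) π ×ˢ Ioo (-k0) k0 with hA
  have hAm : MeasurableSet A := measurableSet_Icc.prod measurableSet_Ioo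
  have hscale : ∀ n, ∀ᵐ z : ℝ × ℝ, z ∈ A → ‖F n z‖ ≤ (L n) ^ 2 * D (L n • z) := by
    intro n
    have hL0 : 0 < L n := by linarith only [hL n]
    have h1 : ∀ᵐ z : ℝ × ℝ, |(L n • z).2| < k0 * L n → |(L n • z).1| ≤ π * L n →
      ((L n) ^ 2)⁻¹ * (‖N n ((L n • z).1 / L n) ((L n • z).2 / L n)‖ *
        ‖Rk m u ((L n • z).2 / L n) ((L n • z).1 / L n)‖) ≤ D (L n • z) :=
      (qmp_smul (L n) hL0.ne').ae (hdom n)
    filter_upwards [h1] with z hz hzA
    have h2 : (L n • z).1 / L n = z.1 := by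
      simp only [Prod.smul_fst, smul_eq_mul]
      (clear * - hL0; field_simp)
    have h3 : (L n • z).2 / L n = z.2 := by
      simp only [Prod.smul_snd, smul_eq_mul]
      (clear * - hL0; field_simp)
    rw [h2, h3] at hz
    have h4 := hz (by
      simp only [Prod.smul_snd, smul_eq_mul, abs_mul, abs_of_pos hL0]
      rw [mul_comm]
      have := abs_lt.2 hzA.2
      (clear * - this hL0; gcongr)) (by
      simp only [Prod.smul_fst, smul_eq_mul, abs_mul, abs_of_pos hL0]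
      rw [mul_comm]
      have := abs_le.2 hzA.1
      (clear * - this hL0; gcongr))
    rw [hF]
    simp only
    rw [norm_mul]
    rw [inv_mul_le_iff₀ (by positivity)] at h4
    exact h4
  have hFint : ∀ n, IntegrableOn (F n) A := by
    intro n
    have hL0 : 0 < L n := by linarith only [hL n]
    have h1 : Integrable (fun z : ℝ × ℝ => (L n) ^ 2 * D (L n • z)) :=
      ((integrable_comp_smul_iff volume D hL0.ne').2 hD).const_mul _
    refine Integrable.mono' h1.integrableOn (hFm n).restrict ?_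
    exact (ae_restrict_iff' hAm).2 (hscale n)
  have hnear : ∀ n, ∫ p in {p : ℝ × ℝ | k0 ≤ |p.1|}ᶜ, In u (N n) p ∂(rho m) =
      ∫ z in A, F n z := by
    intro n
    rw [hcompl]
    have h1 : ∫ p in Ioo (-k0) k0 ×ˢ univ, In u (N n) p ∂(rho m) =
        ∫ k in Ioo (-k0) k0, ∫ τ, In u (N n) (k, τ) ∂(m k) ∂(volume.restrict (Icc (-π) π)) := by
      unfold rho
      rw [Measure.setIntegral_compProd measurableSet_Ioo MeasurableSet.univ]
      · simp only [measurableSet_Ioo, Measure.restrict_restrict, Measure.restrict_univ]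
      · have := hI n
        unfold rho at this
        exact this.integrableOn
    rw [h1, Measure.restrict_restrict measurableSet_Ioo, inter_eq_left.2 hsub]
    have h2 : ∫ k in Ioo (-k0) k0, ∫ τ, In u (N n) (k, τ) ∂(m k) =
        ∫ k in Ioo (-k0) k0, ∫ θ in Icc (-π) π, F n (θ, k) := by
      refine integral_congr_ae ?_
      have h3 := ae_restrict_of_ae_restrict_of_subset hsub (ae_int h)
      filter_upwards [h3, ae_restrict_of_ae h.supp] with k hk1 hk2
      obtain ⟨B, hB⟩ := (isCompact_Icc (a := -π) (b := π)).exists_bound_of_continuousOn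
        (f := fun θ => N n θ k) ((hN n).comp (by fun_prop : Continuous fun θ : ℝ => (θ, k))).continuousOn
      exact swap k hk1 hk2 hu hU (hN n) hB
    rw [h2]
    have h4 := setIntegral_prod (μ := (volume : Measure ℝ)) (ν := (volume : Measure ℝ))
      (fun z : ℝ × ℝ => F n z) (s := Icc (-π) π) (t := Ioo (-k0) k0) (hFint n)
    rw [hA, Measure.volume_eq_prod, h4]
    refine (integral_integral_swap ?_).symm
    have h5 := hFint n
    rw [hA, IntegrableOn, Measure.volume_eq_prod, ← Measure.prod_restrict] at h5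
    exact h5
  have hnear2 : ∀ n, ∫ z in A, F n z =
      ∫ z, (((L n) ^ 2)⁻¹ : ℂ) * A.indicator (F n) ((L n)⁻¹ • z) := by
    intro n
    have hL0 : 0 < L n := by linarith only [hL n]
    rw [integral_const_mul, Measure.integral_comp_inv_smul, ← integral_indicator hAm]
    rw [Module.finrank_prod, Module.finrank_self]
    rw [abs_of_pos (by positivity), Complex.real_smul, ← mul_assoc]
    rw [show (((L n) ^ (1 + 1) : ℝ) : ℂ) = ((L n : ℂ)) ^ 2 by push_cast; ring]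
    rw [inv_mul_cancel₀ (by
      have : (L n : ℂ) ≠ 0 := by exact_mod_cast hL0.ne'
      positivity), one_mul]
  have hnearlim : Tendsto (fun n => ∫ z, (((L n) ^ 2)⁻¹ : ℂ) * A.indicator (F n) ((L n)⁻¹ • z))
      atTop (𝓝 (∫ z, Lim z)) := by
    refine tendsto_integral_of_dominated_convergence (fun z => ‖D z‖) ?_ hD.norm ?_ ?_
    · intro n
      have hL0 : 0 < L n := by linarith only [hL n]
      have h1 : AEStronglyMeasurable (A.indicator (F n)) volume := (hFm n).indicator hAm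
      have h2 := h1.comp_quasiMeasurePreserving (qmp_smul (L n)⁻¹ (inv_ne_zero hL0.ne'))
      exact h2.const_mul _
    · intro n
      have hL0 : 0 < L n := by linarith [hL n]
      filter_upwards [hdom n] with z hz
      by_cases hzA : (L n)⁻¹ • z ∈ A
      · rw [indicator_of_mem hzA]
        have h6 := hzA.1
        have h7 := hzA.2
        simp only [Prod.smul_fst, Prod.smul_snd, smul_eq_mul] at h6 h7
        have h8 : |z.2| < k0 * L n := by
          have := abs_lt.2 h7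
          rw [abs_mul, abs_of_pos (inv_pos.2 hL0), inv_mul_lt_iff₀ hL0] at this
          linarith only [this]
        have h9 : |z.1| ≤ π * L n := by
          have := abs_le.2 h6
          rw [abs_mul, abs_of_pos (inv_pos.2 hL0), inv_mul_le_iff₀ hL0] at this
          linarith
        have h10 := hz h8 h9
        rw [hF]
        simp only [Prod.smul_fst, Prod.smul_snd, smul_eq_mul]
        rw [norm_mul, norm_mul, inv_mul_eq_div (L n) z.1, inv_mul_eq_div (L n) z.2]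
        have h11 : ‖(((L n) ^ 2)⁻¹ : ℂ)‖ = ((L n) ^ 2)⁻¹ := by
          rw [norm_inv, norm_pow, Complex.norm_real, Real.norm_of_nonneg hL0.le]
        rw [h11]
        exact h10.trans (Real.le_norm_self _)
      · rw [indicator_of_notMem hzA]
        simp
    · filter_upwards [hlim] with z hz
      refine hz.congr' ?_
      have h6 : ∀ᶠ n in atTop, |z.2| < k0 * L n := by
        have := (hLt.const_mul_atTop hk0).eventually_gt_atTop (|z.2|)
        exact this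
      have h7 : ∀ᶠ n in atTop, |z.1| < π * L n :=
        (hLt.const_mul_atTop hpi).eventually_gt_atTop (|z.1|)
      filter_upwards [h6, h7] with n hn1 hn2
      have hL0 : 0 < L n := by linarith only [hL n]
      have hzA : (L n)⁻¹ • z ∈ A := by
        refine ⟨?_, ?_⟩
        · simp only [Prod.smul_fst, smul_eq_mul]
          refine abs_le.1 ?_
          rw [abs_mul, abs_of_pos (inv_pos.2 hL0), inv_mul_le_iff₀ hL0]
          linarith
        · simp only [Prod.smul_snd, smul_eq_mul]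
          refine abs_lt.1 ?_
          rw [abs_mul, abs_of_pos (inv_pos.2 hL0), inv_mul_lt_iff₀ hL0]
          linarith
      rw [indicator_of_mem hzA, hF]
      simp only [Prod.smul_fst, Prod.smul_snd, smul_eq_mul]
      rw [inv_mul_eq_div (L n) z.1, inv_mul_eq_div (L n) z.2]
  have htot : ∀ n, ∫ p, In u (N n) p ∂(rho m) =
      ∫ p in {p : ℝ × ℝ | k0 ≤ |p.1|}, In u (N n) p ∂(rho m) +
      ∫ z, (((L n) ^ 2)⁻¹ : ℂ) * A.indicator (F n) ((L n)⁻¹ • z) := by
    intro n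
    rw [← hnear2 n, ← hnear n, integral_add_compl hset (hI n)]
  simp_rw [htot]
  have := hfar'.add hnearlim
  rw [zero_add] at this
  exact this

end

end Vale.Agent.P153.TwoPt
end

section

/-!
# P153, two-point part: the variance of `X` (P1)
-/

open MeasureTheory ProbabilityTheory Filter Topology Set
open scoped ENNReal Real

namespace Vale.Agent.P153.TwoPt

theorem continuous_hat {a : ℤ → ℤ → ℝ} {s : Finset (ℤ × ℤ)} (hs : Sup a s) :
    Continuous fun p : ℝ × ℝ => hat a p.1 p.2 := by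
  simp_rw [hat_eq hs]
  refine continuous_finsetSum _ fun q _ => ?_
  unfold chr
  fun_prop

theorem continuous_den' (τ : ℝ) : Continuous fun θ => den τ θ :=
  continuous_den.comp (by fun_prop : Continuous fun θ : ℝ => (τ, θ))

theorem In_sum {ι : Type*} (S : Finset ι) (A : ι → ℂ) (n x : ι → ℤ) (u : ℝ → ℝ → ℂ) {k τ : ℝ}
    (hu : Continuous fun θ => u τ θ) (h0 : 0 ≤ τ) (h1 : τ < 1) (N : ℝ → ℝ → ℂ)
    (hN : ∀ θ, N θ k = ∑ i ∈ S, A i * Complex.exp (Complex.I * ((θ * n i : ℝ) : ℂ)) *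
      Complex.exp (Complex.I * ((k * x i : ℝ) : ℂ))) :
    In u N (k, τ) = ∑ i ∈ S, A i * Complex.exp (Complex.I * ((k * x i : ℝ) : ℂ)) *
      ∫ θ in Icc (-π) π, Complex.exp (Complex.I * ((θ * n i : ℝ) : ℂ)) * (u τ θ / (den τ θ : ℂ)) := by
  unfold In
  have hc : Continuous fun θ => u τ θ / (den τ θ : ℂ) :=
    hu.div (Complex.continuous_ofReal.comp (continuous_den' τ)) fun θ => by
      exact_mod_cast (den_pos h0 h1 θ).ne'
  have h2 : ∀ θ, N θ k * (u τ θ / (den τ θ : ℂ)) = ∑ i ∈ S,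
      (A i * Complex.exp (Complex.I * ((k * x i : ℝ) : ℂ))) *
      (Complex.exp (Complex.I * ((θ * n i : ℝ) : ℂ)) * (u τ θ / (den τ θ : ℂ))) := by
    intro θ
    rw [hN, Finset.sum_mul]
    refine Finset.sum_congr rfl fun i _ => ?_
    ring
  simp_rw [h2]
  rw [integral_finsetSum]
  · refine Finset.sum_congr rfl fun i _ => ?_
    rw [integral_const_mul]
  · intro i _
    refine ContinuousOn.integrableOn_compact isCompact_Icc ?_
    refine Continuous.continuousOn ?_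
    refine continuous_const.mul (Continuous.mul ?_ hc)
    fun_prop

/-- the weights in `varX`. -/
theorem finsum_pair {b : ℤ × ℤ → ℤ × ℤ → ℝ} {s t : Finset (ℤ × ℤ)}
    (h1 : ∀ p, p ∉ s → ∀ q, b p q = 0) (h2 : ∀ q, q ∉ t → ∀ p, b p q = 0) :
    ∑ᶠ p : ℤ × ℤ, ∑ᶠ q : ℤ × ℤ, b p q = ∑ p ∈ s, ∑ q ∈ t, b p q := by
  rw [finsum_eq_sum_of_support_subset (s := s)]
  · refine Finset.sum_congr rfl fun p _ => ?_
    refine finsum_eq_sum_of_support_subset _ ?_
    intro q hq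
    by_contra h
    exact hq (h2 q h p)
  · intro p hp
    by_contra h
    refine hp ?_
    simp only
    rw [finsum_congr (fun q => h1 p h q), finsum_zero]

section
variable {V : ℤ → ℤ → ℝ} {m : Kernel ℝ ℝ} {c κ C k0 : ℝ}

/-- the numerator of `P1`. -/
noncomputable def N1 (a : ℤ → ℤ → ℝ) (θ k : ℝ) : ℂ := ((‖hat a θ k‖ ^ 2 : ℝ) : ℂ)

theorem N1_eq {a : ℤ → ℤ → ℝ} {s : Finset (ℤ × ℤ)} (hs : Sup a s) (θ k : ℝ) :
    N1 a θ k = ∑ i ∈ s ×ˢ s, ((a i.1.1 i.1.2 * a i.2.1 i.2.2 : ℝ) : ℂ) *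
      Complex.exp (Complex.I * ((θ * ((i.1.1 - i.2.1 : ℤ)) : ℝ) : ℂ)) *
      Complex.exp (Complex.I * ((k * ((i.1.2 - i.2.2 : ℤ)) : ℝ) : ℂ)) := by
  unfold N1
  rw [← Complex.normSq_eq_norm_sq, ← Complex.mul_conj, hat_eq hs, map_sum, Finset.sum_mul_sum,
    Finset.sum_product]
  refine Finset.sum_congr rfl fun p _ => Finset.sum_congr rfl fun q _ => ?_
  unfold chr
  rw [map_mul, Complex.conj_ofReal, ← Complex.exp_conj, map_mul, Complex.conj_I,
    Complex.conj_ofReal]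
  rw [show (a p.1 p.2 : ℂ) * Complex.exp (Complex.I * ((θ * p.1 + k * p.2 : ℝ) : ℂ)) *
    ((a q.1 q.2 : ℂ) * Complex.exp (-Complex.I * ((θ * q.1 + k * q.2 : ℝ) : ℂ))) =
    ((a p.1 p.2 * a q.1 q.2 : ℝ) : ℂ) * (Complex.exp (Complex.I * ((θ * p.1 + k * p.2 : ℝ) : ℂ)) *
      Complex.exp (-Complex.I * ((θ * q.1 + k * q.2 : ℝ) : ℂ))) by push_cast; ring]
  rw [mul_assoc, ← Complex.exp_add, ← Complex.exp_add]
  congr 2
  push_cast
  ring

theorem In_N1 {a : ℤ → ℤ → ℝ} {s : Finset (ℤ × ℤ)} (hs : Sup a s) (h0 : ∑ p ∈ s, a p.1 p.2 = 0)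
    {p : ℝ × ℝ} (hp : 0 ≤ p.2 ∧ p.2 < 1) :
    In (fun _ _ => 1) (N1 a) p = ((-(2 * π) * ∑ i ∈ s ×ˢ s, a i.1.1 i.1.2 * a i.2.1 i.2.2 *
      Wf (i.1.1 - i.2.1) (i.1.2 - i.2.2) p : ℝ) : ℂ) := by
  obtain ⟨k, τ⟩ := p
  obtain ⟨hτ0, hτ1⟩ := hp
  simp only at hτ0 hτ1
  have hreal : In (fun _ _ => 1) (N1 a) (k, τ) =
      (((In (fun _ _ => 1) (N1 a) (k, τ)).re : ℝ) : ℂ) := by
    have : In (fun _ _ => 1) (N1 a) (k, τ) =
        ((∫ θ in Icc (-π) π, ‖hat a θ k‖ ^ 2 * (1 / den τ θ) : ℝ) : ℂ) := by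
      unfold In N1
      rw [← integral_complex_ofReal]
      refine integral_congr_ae (Eventually.of_forall fun θ => ?_)
      simp only
      push_cast
      ring
    rw [this, Complex.ofReal_re]
  rw [hreal]
  congr 1
  rw [In_sum (s ×ˢ s) (fun i => ((a i.1.1 i.1.2 * a i.2.1 i.2.2 : ℝ) : ℂ))
    (fun i => i.1.1 - i.2.1) (fun i => i.1.2 - i.2.2) (fun _ _ => 1) continuous_const hτ0 hτ1 (N1 a)
    (fun θ => N1_eq hs θ k)]
  have hterm : ∀ i : (ℤ × ℤ) × (ℤ × ℤ), ((a i.1.1 i.1.2 * a i.2.1 i.2.2 : ℝ) : ℂ) *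
      Complex.exp (Complex.I * ((k * ((i.1.2 - i.2.2 : ℤ)) : ℝ) : ℂ)) *
      ∫ θ in Icc (-π) π, Complex.exp (Complex.I * ((θ * ((i.1.1 - i.2.1 : ℤ)) : ℝ) : ℂ)) *
        ((1 : ℂ) / (den τ θ : ℂ)) =
      ((a i.1.1 i.1.2 * a i.2.1 i.2.2 * (2 * π * (τ ^ (i.1.1 - i.2.1).natAbs / (1 - τ ^ 2))) : ℝ) : ℂ) *
      Complex.exp (((k * ((i.1.2 - i.2.2 : ℤ)) : ℝ) : ℂ) * Complex.I) := by
    intro i
    simp_rw [mul_one_div]
    rw [poisson hτ0 hτ1]
    push_cast
    ring_nf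
  rw [Finset.sum_congr rfl fun i _ => hterm i, Complex.re_sum]
  have hre : ∀ i : (ℤ × ℤ) × (ℤ × ℤ), (((a i.1.1 i.1.2 * a i.2.1 i.2.2 *
      (2 * π * (τ ^ (i.1.1 - i.2.1).natAbs / (1 - τ ^ 2))) : ℝ) : ℂ) *
      Complex.exp (((k * ((i.1.2 - i.2.2 : ℤ)) : ℝ) : ℂ) * Complex.I)).re =
      2 * π / (1 - τ ^ 2) * (a i.1.1 i.1.2 * a i.2.1 i.2.2) -
      2 * π * (a i.1.1 i.1.2 * a i.2.1 i.2.2 * Wf (i.1.1 - i.2.1) (i.1.2 - i.2.2) (k, τ)) := by
    intro i
    rw [Complex.re_ofReal_mul, Complex.exp_ofReal_mul_I_re]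
    unfold Wf
    simp only
    ring
  rw [Finset.sum_congr rfl fun i _ => hre i, Finset.sum_sub_distrib, ← Finset.mul_sum,
    ← Finset.mul_sum, Finset.sum_product]
  simp_rw [← Finset.mul_sum]
  rw [h0]
  simp only [mul_zero, Finset.sum_const_zero, zero_sub, neg_mul]

theorem varX_eq (h : Spec V m c κ C k0) {a : ℤ → ℤ → ℝ} {s : Finset (ℤ × ℤ)} (hs : Sup a s)
    (h0 : ∑ p ∈ s, a p.1 p.2 = 0) : Integrable (In (fun _ _ => 1) (N1 a)) (rho m) ∧
    varX V a = (1 / (4 * π ^ 2)) * (∫ p, In (fun _ _ => 1) (N1 a) p ∂(rho m)).re := by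
  have hpi := Real.pi_pos
  set G : ℝ × ℝ → ℝ := fun p => -(2 * π) * ∑ i ∈ s ×ˢ s, a i.1.1 i.1.2 * a i.2.1 i.2.2 *
      Wf (i.1.1 - i.2.1) (i.1.2 - i.2.2) p with hG
  have hae : In (fun _ _ => 1) (N1 a) =ᵐ[rho m] fun p => ((G p : ℝ) : ℂ) := by
    filter_upwards [h.ae_supp] with p hp
    exact In_N1 hs h0 hp
  have hGi : Integrable G (rho m) := by
    refine Integrable.const_mul ?_ _
    refine integrable_finsetSum _ fun i _ => ?_
    exact (h.int_W _ _).const_mul _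
  refine ⟨(hGi.ofReal (𝕜 := ℂ)).congr hae.symm, ?_⟩
  rw [integral_congr_ae hae, integral_complex_ofReal, Complex.ofReal_re, hG, integral_const_mul,
    integral_finsetSum _ fun i _ => (h.int_W _ _).const_mul _]
  unfold varX
  rw [finsum_pair (s := s) (t := s) (fun p hp q => by rw [hs p hp]; ring)
    (fun q hq p => by rw [hs q hq]; ring), ← Finset.sum_product']
  simp_rw [integral_const_mul, h.rep']
  rw [Finset.mul_sum, Finset.mul_sum, Finset.mul_sum]
  refine Finset.sum_congr rfl fun i _ => ?_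
  field_simp
  ring

theorem Rk_one (k θ : ℝ) : Rk m (fun _ _ => 1) k θ = (Psi m k θ : ℂ) := by
  unfold Rk Psi
  rw [← integral_complex_ofReal]
  refine integral_congr_ae (Eventually.of_forall fun τ => ?_)
  simp

theorem Psi_nonneg {k : ℝ} (h : ∀ᵐ τ ∂(m k), 0 ≤ τ ∧ τ < 1) (θ : ℝ) : 0 ≤ Psi m k θ := by
  unfold Psi
  refine integral_nonneg_of_ae ?_
  filter_upwards [h] with τ hτ
  exact (one_div_pos.2 (den_pos hτ.1 hτ.2 θ)).le

theorem ae_scale {P : ℝ → Prop} (h : ∀ᵐ k : ℝ, P k) {L : ℝ} (hL : 0 < L) :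
    ∀ᵐ z : ℝ × ℝ, P (z.2 / L) := by
  have h1 : Measure.QuasiMeasurePreserving (fun q : ℝ => q / L) volume volume := by
    have h2 := Measure.map_addHaar_smul (volume : Measure ℝ) (inv_ne_zero hL.ne')
    refine ⟨by fun_prop, ?_⟩
    have h3 : (fun q : ℝ => q / L) = fun q => L⁻¹ • q := by
      funext q
      rw [smul_eq_mul]
      ring
    rw [h3, h2]
    exact Measure.smul_absolutelyContinuous
  have h4 : ∀ᵐ q : ℝ, P (q / L) := h1.ae h
  exact Measure.quasiMeasurePreserving_snd.ae h4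

theorem ae_snd {P : ℝ → Prop} (h : ∀ᵐ k : ℝ, P k) : ∀ᵐ z : ℝ × ℝ, P z.2 :=
  Measure.quasiMeasurePreserving_snd.ae h

theorem ae_fst {P : ℝ → Prop} (h : ∀ᵐ k : ℝ, P k) : ∀ᵐ z : ℝ × ℝ, P z.1 :=
  Measure.quasiMeasurePreserving_fst.ae h

theorem inv_cube_le (z : ℝ × ℝ) :
    ((1 + (z.1 ^ 2 + z.2 ^ 2)) ^ 3)⁻¹ ≤ (1 + ‖z‖ ^ 2) ^ (-(3 : ℝ) / 2) := by
  have h1 := norm_sq_le z
  have h2 : 0 < 1 + ‖z‖ ^ 2 := by positivity
  have h3 : (1 + ‖z‖ ^ 2) ^ (-(3 : ℝ) / 2) = ((1 + ‖z‖ ^ 2) ^ ((3 : ℝ) / 2))⁻¹ := by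
    rw [← Real.rpow_neg h2.le]
    congr 1
    ring
  rw [h3]
  refine inv_anti₀ (by positivity) ?_
  calc (1 + ‖z‖ ^ 2) ^ ((3 : ℝ) / 2) ≤ (1 + ‖z‖ ^ 2) ^ (3 : ℝ) :=
        Real.rpow_le_rpow_of_exponent_le (by nlinarith only []) (by norm_num)
    _ = (1 + ‖z‖ ^ 2) ^ 3 := by
      rw [show (3 : ℝ) = ((3 : ℕ) : ℝ) by norm_num, Real.rpow_natCast]
    _ ≤ _ := by gcongr

end

theorem p1_of (hKB : KBStatement) (hKL : KLStatement) : P1Statement := by
  intro V m c κ C k0 hS f L a M hD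
  have hpi := Real.pi_pos
  have hk0 := hS.k0_pos
  obtain ⟨C1, hC1, hb⟩ := hD.hat_bounds
  obtain ⟨C', hC', hKB1⟩ := hKB V m c κ C k0 hS
  obtain ⟨n0, hn0⟩ := eventually_atTop.1 hb
  rw [← tendsto_add_atTop_iff_nat n0]
  have hshift : Tendsto (fun n => n + n0) atTop atTop := tendsto_add_atTop_nat n0
  have hL1 : ∀ n, 1 ≤ L (n + n0) := fun n => hD.L_pos _
  have hL0 : ∀ n, 0 < L (n + n0) := fun n => by linarith [hL1 n]
  have hLt : Tendsto (fun n => L (n + n0)) atTop atTop := hD.L_top.comp hshift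
  have hsup : ∀ n, Sup (a n) (bx (M * L n)) := fun n => hD.sup (le_refl M) n
  have hzero : ∀ n, ∑ p ∈ bx (M * L n), a n p.1 p.2 = 0 := fun n => hD.sum_zero' (le_refl M) n
  have hLi : Tendsto (fun n => (L (n + n0))⁻¹) atTop (𝓝 0) := hLt.inv_tendsto_atTop
  have hnf := nearFar hS (u := fun _ _ => 1) measurable_const (U := 1) (fun _ _ _ _ => by simp)
    (fun n => L (n + n0)) hL1 (fun n => N1 (a (n + n0)))
    (fun n => by
      unfold N1
      exact Complex.continuous_ofReal.comp ((continuous_hat (hsup _)).norm.pow 2))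
    (fun n => (varX_eq hS (hsup _) (hzero _)).1)
    (fun n => (C1 / k0 ^ 2 * (L (n + n0))⁻¹ ^ 2) ^ 2)
    (by
      have := ((hLi.pow 2).const_mul (C1 / k0 ^ 2)).pow 2
      simpa only [inv_pow, ne_eq, OfNat.ofNat_ne_zero, not_false_eq_true, zero_pow, mul_zero] using this)
    (by
      intro n θ hθ k hk hkk
      have h1 := (hn0 (n + n0) (by omega) θ k (abs_le.2 ⟨hθ.1, hθ.2⟩) (abs_le.2 ⟨hk.1, hk.2⟩)).2.2
      have hL := hL0 n
      unfold N1
      rw [Complex.norm_real, Real.norm_of_nonneg (by (clear * -; positivity))]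
      refine pow_le_pow_left₀ (norm_nonneg _) ?_ 2
      have h2 : k0 ^ 2 ≤ k ^ 2 := by
        rw [← sq_abs k]
        exact pow_le_pow_left₀ hk0.le hkk 2
      have h3 : ‖hat (a (n + n0)) θ k‖ * (L (n + n0) ^ 2 * k0 ^ 2) ≤ C1 :=
        le_trans (by (clear * - h2 hL; gcongr)) h1
      rw [← le_div_iff₀ (by positivity)] at h3
      refine h3.trans (le_of_eq ?_)
      (clear * - hk0 hL hC1; field_simp))
    (fun z => 24 * C1 ^ 2 * C' * (1 + ‖z‖ ^ 2) ^ (-(3 : ℝ) / 2))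
    (integrable_dom.const_mul _)
    (by
      intro n
      have hL := hL0 n
      filter_upwards [ae_scale hKB1 hL, ae_scale hS.supp hL,
        ae_snd (Measure.ae_ne (volume : Measure ℝ) 0)] with z hz1 hz2 hz3 hk hθ
      have hq : z.2 / L (n + n0) ≠ 0 := div_ne_zero hz3 hL.ne'
      have hqk : |z.2 / L (n + n0)| < k0 := by
        rw [abs_div, abs_of_pos hL, div_lt_iff₀ hL]
        exact hk
      have hθ' : |z.1 / L (n + n0)| ≤ π := by
        rw [abs_div, abs_of_pos hL, div_le_iff₀ hL]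
        exact hθ
      have hqπ : |z.2 / L (n + n0)| ≤ π := by
        have := hS.k0_le
        linarith [Real.pi_gt_three]
      have hP := (hz1 hqk hq (z.1 / L (n + n0)) hθ').2.1
      have hP0 := Psi_nonneg hz2 (z.1 / L (n + n0))
      obtain ⟨hb1, hb2, hb3⟩ := hn0 (n + n0) (by omega) (z.1 / L (n + n0)) (z.2 / L (n + n0)) hθ' hqπ
      rw [Rk_one, Complex.norm_real, Real.norm_of_nonneg hP0]
      unfold N1
      rw [Complex.norm_real, Real.norm_of_nonneg (by (clear * -; positivity))]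
      set b := ‖hat (a (n + n0)) (z.1 / L (n + n0)) (z.2 / L (n + n0))‖ with hbdef
      have hb0 : 0 ≤ b := norm_nonneg _
      have hs0 : 0 < z.1 ^ 2 + z.2 ^ 2 := by positivity
      have hd := decay (b := b) (w := z.1) (q := z.2) (C1 := C1) hb0
        (by
          rw [abs_div, abs_div, abs_of_pos hL] at hb1
          calc b ≤ C1 * L (n + n0) * (|z.1| / L (n + n0) + |z.2| / L (n + n0)) := hb1
            _ = _ := by (clear * - hL hz3 hC1; field_simp))
        (by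
          calc b * z.1 ^ 2 = b * (L (n + n0) ^ 2 * (z.1 / L (n + n0)) ^ 2) := by (clear * - hL; field_simp)
            _ ≤ C1 := hb2)
        (by
          calc b * z.2 ^ 2 = b * (L (n + n0) ^ 2 * (z.2 / L (n + n0)) ^ 2) := by (clear * - hL hz3; field_simp)
            _ ≤ C1 := hb3)
      calc (L (n + n0) ^ 2)⁻¹ * (b ^ 2 * Psi m (z.2 / L (n + n0)) (z.1 / L (n + n0)))
          ≤ (L (n + n0) ^ 2)⁻¹ * (b ^ 2 * (C' / ((z.2 / L (n + n0)) ^ 2 +
            (z.1 / L (n + n0)) ^ 2))) := by (clear * - hP hL; gcongr)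
        _ = C' * (b ^ 2 / (z.1 ^ 2 + z.2 ^ 2)) := by
          have : (z.2 / L (n + n0)) ^ 2 + (z.1 / L (n + n0)) ^ 2 =
              (z.1 ^ 2 + z.2 ^ 2) / L (n + n0) ^ 2 := by
            field_simp
            ring
          rw [this]
          (clear * - hL hz3 hC'; field_simp)
        _ ≤ C' * (24 * C1 ^ 2 * ((1 + (z.1 ^ 2 + z.2 ^ 2)) ^ 3)⁻¹) := by
          refine mul_le_mul_of_nonneg_left ?_ hC'.le
          rw [div_le_iff₀ hs0, mul_assoc, mul_comm (_⁻¹) _, ← mul_assoc, ← div_eq_mul_inv,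
            le_div_iff₀ (by (clear * - hz3; positivity))]
          exact hd
        _ ≤ C' * (24 * C1 ^ 2 * (1 + ‖z‖ ^ 2) ^ (-(3 : ℝ) / 2)) := by
          have := inv_cube_le z
          (clear * - this hC1 hC'; gcongr)
        _ = _ := by ring)
    hLt
    (fun z => ((‖FT f z.1 z.2‖ ^ 2 * (κ / (c ^ 2 * z.2 ^ 2 + z.1 ^ 2)) : ℝ) : ℂ))
    (by
      have hkl := hKL V m c κ C k0 hS (fun n => L (n + n0)) hL1 hLt 1
      filter_upwards [ae_snd hkl, ae_snd (Measure.ae_ne (volume : Measure ℝ) 0),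
        ae_fst (Measure.ae_ne (volume : Measure ℝ) 0)] with z hz1 hz2 hz3
      have h1 := (hz1 hz2 z.1 hz3).2
      have h2 := (hat_lim hD z.1 z.2).comp hshift
      have h3 := ((h2.norm.pow 2).mul h1)
      have h4 := (Complex.continuous_ofReal.tendsto _).comp h3
      refine h4.congr fun n => ?_
      simp only [Function.comp_apply]
      rw [Rk_one]
      unfold N1
      push_cast
      ring)
  have hre := (Complex.continuous_re.tendsto _).comp hnf
  have hfin := hre.const_mul (1 / (4 * π ^ 2))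
  have hsig : 1 / (4 * π ^ 2) * (∫ z : ℝ × ℝ, ((‖FT f z.1 z.2‖ ^ 2 *
      (κ / (c ^ 2 * z.2 ^ 2 + z.1 ^ 2)) : ℝ) : ℂ)).re = sig c κ f := by
    rw [integral_complex_ofReal, Complex.ofReal_re]
    unfold sig
    have : ∀ z : ℝ × ℝ, ‖FT f z.1 z.2‖ ^ 2 * (κ / (c ^ 2 * z.2 ^ 2 + z.1 ^ 2)) =
        κ * (‖FT f z.1 z.2‖ ^ 2 / (c ^ 2 * z.2 ^ 2 + z.1 ^ 2)) := fun z => by ring
    simp_rw [this]
    rw [integral_const_mul]
    ring
  rw [hsig] at hfin
  refine hfin.congr fun n => ?_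
  exact ((varX_eq hS (hsup _) (hzero _)).2).symm

end Vale.Agent.P153.TwoPt
end

section

/-!
# P153, two-point part: the covariance of `X` and `X'` (P2)
-/

open MeasureTheory ProbabilityTheory Filter Topology Set
open scoped ENNReal Real

namespace Vale.Agent.P153.TwoPt

/-- the causal symbol. -/
noncomputable def uK (K : ℕ) (τ θ : ℝ) : ℂ :=
  1 - ((τ : ℂ) * Complex.exp (-(Complex.I * (θ : ℂ)))) ^ K

theorem continuous_uK (K : ℕ) : Continuous fun p : ℝ × ℝ => uK K p.1 p.2 := by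
  unfold uK
  (clear * -; fun_prop)

theorem norm_uK_le (K : ℕ) (τ θ : ℝ) (h0 : 0 ≤ τ) (h1 : τ < 1) : ‖uK K τ θ‖ ≤ 2 := by
  unfold uK
  refine (norm_sub_le _ _).trans ?_
  rw [norm_one, norm_pow, norm_tau_exp h0]
  have := pow_le_one₀ (n := K) h0 h1.le
  linarith

theorem exp_mul_uK (K : ℕ) (τ θ : ℝ) (n : ℤ) :
    Complex.exp (Complex.I * ((θ * n : ℝ) : ℂ)) * (uK K τ θ / (den τ θ : ℂ)) =
      Complex.exp (Complex.I * ((θ * n : ℝ) : ℂ)) / (den τ θ : ℂ) -
      ((τ ^ K : ℝ) : ℂ) * (Complex.exp (Complex.I * ((θ * ((n - K : ℤ)) : ℝ) : ℂ)) / (den τ θ : ℂ)) := by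
  have h1 : Complex.exp (Complex.I * ((θ * ((n - K : ℤ)) : ℝ) : ℂ)) =
      Complex.exp (Complex.I * ((θ * n : ℝ) : ℂ)) * Complex.exp (-(Complex.I * (θ : ℂ))) ^ K := by
    rw [← Complex.exp_nat_mul, ← Complex.exp_add]
    congr 1
    push_cast
    ring
  rw [h1]
  unfold uK
  rw [mul_pow]
  push_cast
  ring

theorem integral_uK (K : ℕ) {τ : ℝ} (h0 : 0 ≤ τ) (h1 : τ < 1) (n : ℤ) :
    ∫ θ in Icc (-π) π, Complex.exp (Complex.I * ((θ * n : ℝ) : ℂ)) * (uK K τ θ / (den τ θ : ℂ)) =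
      ((2 * π * (τ ^ n.natAbs / (1 - τ ^ 2)) -
        τ ^ K * (2 * π * (τ ^ (n - K).natAbs / (1 - τ ^ 2))) : ℝ) : ℂ) := by
  have hc : ∀ n : ℤ, Integrable (fun θ => Complex.exp (Complex.I * ((θ * n : ℝ) : ℂ)) /
      (den τ θ : ℂ)) (volume.restrict (Icc (-π) π)) := by
    intro n
    refine ContinuousOn.integrableOn_compact isCompact_Icc ?_
    refine Continuous.continuousOn ?_
    refine Continuous.div (by fun_prop) (Complex.continuous_ofReal.comp (continuous_den' τ))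
      fun θ => ?_
    exact_mod_cast (den_pos h0 h1 θ).ne'
  simp_rw [exp_mul_uK]
  rw [integral_sub (hc n) ((hc (n - K)).const_mul _), integral_const_mul, poisson h0 h1,
    poisson h0 h1]
  push_cast
  ring

/-- the coefficient, in terms of `d = j - iK`. -/
noncomputable def Hc (K : ℕ) (d z : ℤ) (p : ℝ × ℝ) : ℝ :=
  if 0 < d then 2 * π * (Wf (d + K) z p - Wf (d - K) z p) else 0

theorem coef_eq (K : ℕ) (d : ℤ) (p : ℝ × ℝ) :
    2 * π * (p.2 ^ (K - d).natAbs / (1 - p.2 ^ 2)) -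
      p.2 ^ K * (2 * π * (p.2 ^ ((K - d) - K : ℤ).natAbs / (1 - p.2 ^ 2))) = Hc K d 0 p := by
  unfold Hc
  split_ifs with h
  · unfold Wf
    have h1 : ((K : ℤ) - d).natAbs = (d - K).natAbs := by
      rw [← Int.natAbs_neg]
      congr 1
      ring
    have h2 : p.2 ^ (d + K).natAbs = p.2 ^ K * p.2 ^ (((K : ℤ) - d) - K).natAbs := by
      rw [← pow_add]
      congr 1
      omega
    rw [h1, h2]
    simp only [Int.cast_zero, mul_zero, Real.cos_zero]
    ring
  · have h2 : ((K : ℤ) - d).natAbs = K + (((K : ℤ) - d) - K).natAbs := by omega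
    rw [h2, pow_add]
    ring

theorem Wf_sub (d K z : ℤ) (p : ℝ × ℝ) : Wf (d + K) z p - Wf (d - K) z p =
    Real.cos (p.1 * z) * (Wf (d + K) 0 p - Wf (d - K) 0 p) := by
  unfold Wf
  simp only [Int.cast_zero, mul_zero, Real.cos_zero]
  ring

/-- the numerator of `P2`. -/
noncomputable def N2 (G a : ℤ → ℤ → ℝ) (K : ℕ) (θ k : ℝ) : ℂ :=
  Complex.exp (Complex.I * ((θ * K : ℝ) : ℂ)) * hat G (K * θ) k * (starRingEnd ℂ) (hat a θ k)

theorem N2_eq {G a : ℤ → ℤ → ℝ} {t s : Finset (ℤ × ℤ)} (ht : Sup G t) (hs : Sup a s) (K : ℕ)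
    (θ k : ℝ) :
    N2 G a K θ k = ∑ i ∈ t ×ˢ s, ((G i.1.1 i.1.2 * a i.2.1 i.2.2 : ℝ) : ℂ) *
      Complex.exp (Complex.I * ((θ * ((K - (i.2.1 - i.1.1 * K) : ℤ)) : ℝ) : ℂ)) *
      Complex.exp (Complex.I * ((k * ((i.1.2 - i.2.2 : ℤ)) : ℝ) : ℂ)) := by
  unfold N2
  rw [mul_assoc, hat_eq hs, hat_eq ht, map_sum, Finset.sum_mul_sum, Finset.mul_sum,
    Finset.sum_product]
  refine Finset.sum_congr rfl fun p _ => ?_
  rw [Finset.mul_sum]
  refine Finset.sum_congr rfl fun q _ => ?_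
  unfold chr
  rw [map_mul, Complex.conj_ofReal, ← Complex.exp_conj, map_mul, Complex.conj_I,
    Complex.conj_ofReal]
  rw [show Complex.exp (Complex.I * ((θ * K : ℝ) : ℂ)) * (((G p.1 p.2 : ℂ) *
      Complex.exp (Complex.I * ((K * θ * p.1 + k * p.2 : ℝ) : ℂ))) *
    ((a q.1 q.2 : ℂ) * Complex.exp (-Complex.I * ((θ * q.1 + k * q.2 : ℝ) : ℂ)))) =
    ((G p.1 p.2 * a q.1 q.2 : ℝ) : ℂ) * ((Complex.exp (Complex.I * ((θ * K : ℝ) : ℂ)) *
      Complex.exp (Complex.I * ((K * θ * p.1 + k * p.2 : ℝ) : ℂ))) *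
      Complex.exp (-Complex.I * ((θ * q.1 + k * q.2 : ℝ) : ℂ))) by push_cast; ring]
  symm
  rw [mul_assoc, ← Complex.exp_add]
  symm
  rw [← Complex.exp_add, ← Complex.exp_add]
  congr 2
  push_cast
  ring

theorem finsum2 {b : ℤ → ℤ → ℝ} {I J : Finset ℤ} (h : ∀ i x, (i ∉ I ∨ x ∉ J) → b i x = 0) :
    ∑ᶠ i : ℤ, ∑ᶠ x : ℤ, b i x = ∑ p ∈ I ×ˢ J, b p.1 p.2 := by
  rw [Finset.sum_product, finsum_eq_sum_of_support_subset (s := I)]
  · refine Finset.sum_congr rfl fun i _ => ?_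
    refine finsum_eq_sum_of_support_subset _ ?_
    intro x hx
    by_contra h2
    exact hx (h i x (Or.inr h2))
  · intro i hi
    by_contra h2
    refine hi ?_
    simp only
    rw [finsum_congr (fun x => h i x (Or.inl h2)), finsum_zero]

section
variable {V : ℤ → ℤ → ℝ} {m : Kernel ℝ ℝ} {c κ C k0 : ℝ}

theorem In_N2a {G a : ℤ → ℤ → ℝ} {t s : Finset (ℤ × ℤ)} (ht : Sup G t) (hs : Sup a s) (K : ℕ)
    {k τ : ℝ} (hτ0 : 0 ≤ τ) (hτ1 : τ < 1) :
    In (uK K) (N2 G a K) (k, τ) = ∑ i ∈ t ×ˢ s, ((G i.1.1 i.1.2 * a i.2.1 i.2.2 : ℝ) : ℂ) *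
      Complex.exp (Complex.I * ((k * ((i.1.2 - i.2.2 : ℤ)) : ℝ) : ℂ)) *
      ∫ θ in Icc (-π) π, Complex.exp (Complex.I * ((θ * ((K - (i.2.1 - i.1.1 * K) : ℤ)) : ℝ) : ℂ)) *
        (uK K τ θ / (den τ θ : ℂ)) := by
  have hc : Continuous fun θ => uK K τ θ :=
    (continuous_uK K).comp (by fun_prop : Continuous fun θ : ℝ => (τ, θ))
  exact In_sum (t ×ˢ s) (fun i => ((G i.1.1 i.1.2 * a i.2.1 i.2.2 : ℝ) : ℂ))
    (fun i => K - (i.2.1 - i.1.1 * K)) (fun i => i.1.2 - i.2.2) (uK K)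
    hc hτ0 hτ1 (N2 G a K)
    (fun θ => N2_eq ht hs K θ k)

theorem integral_uK_Hc (K : ℕ) {k τ : ℝ} (hτ0 : 0 ≤ τ) (hτ1 : τ < 1) (d : ℤ) :
    ∫ θ in Icc (-π) π, Complex.exp (Complex.I * ((θ * ((K - d : ℤ)) : ℝ) : ℂ)) *
        (uK K τ θ / (den τ θ : ℂ)) = ((Hc K d 0 (k, τ) : ℝ) : ℂ) := by
  rw [integral_uK K hτ0 hτ1, ← coef_eq K d (k, τ)]

theorem In_N2 {G a : ℤ → ℤ → ℝ} {t s : Finset (ℤ × ℤ)} (ht : Sup G t) (hs : Sup a s) (K : ℕ)
    {p : ℝ × ℝ} (hp : 0 ≤ p.2 ∧ p.2 < 1) :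
    In (uK K) (N2 G a K) p = ∑ i ∈ t ×ˢ s, ((G i.1.1 i.1.2 * a i.2.1 i.2.2 : ℝ) : ℂ) *
      Complex.exp (Complex.I * ((p.1 * ((i.1.2 - i.2.2 : ℤ)) : ℝ) : ℂ)) *
      ((Hc K (i.2.1 - i.1.1 * K) 0 p : ℝ) : ℂ) := by
  refine (In_N2a ht hs K hp.1 hp.2).trans ?_
  refine Finset.sum_congr rfl fun i _ => ?_
  rw [integral_uK_Hc (k := p.1) K hp.1 hp.2 (i.2.1 - i.1.1 * K)]

theorem covXX_eq (h : Spec V m c κ C k0) {a : ℤ → ℤ → ℝ} {T S : ℝ} {g : ℝ × ℝ → ℝ} {L : ℝ}
    (hs : Sup a (bx S)) (K : ℕ) (hG : Sup (fun i x => L⁻¹ * g (i * K / L, x / L)) (bx T)) :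
    Integrable (In (uK K) (N2 (fun i x => L⁻¹ * g (i * K / L, x / L)) a K)) (rho m) ∧
    covXX V a K L g = (1 / (4 * π ^ 2)) *
      (∫ p, In (uK K) (N2 (fun i x => L⁻¹ * g (i * K / L, x / L)) a K) p ∂(rho m)).re := by
  have hpi := Real.pi_pos
  set G : ℤ → ℤ → ℝ := fun i x => L⁻¹ * g (i * K / L, x / L) with hGdef
  have hHi : ∀ d z, Integrable (Hc K d z) (rho m) := by
    intro d z
    unfold Hc
    split_ifs
    · exact ((h.int_W _ _).sub (h.int_W _ _)).const_mul _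
    · exact integrable_zero _ _ _
  have hterm : ∀ i : (ℤ × ℤ) × (ℤ × ℤ), Integrable (fun p : ℝ × ℝ =>
      ((G i.1.1 i.1.2 * a i.2.1 i.2.2 : ℝ) : ℂ) *
      Complex.exp (Complex.I * ((p.1 * ((i.1.2 - i.2.2 : ℤ)) : ℝ) : ℂ)) *
      ((Hc K (i.2.1 - i.1.1 * K) 0 p : ℝ) : ℂ)) (rho m) := by
    intro i
    have h1 : Integrable (fun p : ℝ × ℝ => ((Hc K (i.2.1 - i.1.1 * K) 0 p : ℝ) : ℂ)) (rho m) :=
      (hHi _ _).ofReal (𝕜 := ℂ)
    refine Integrable.bdd_mul (c := |G i.1.1 i.1.2 * a i.2.1 i.2.2|) h1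
      (Continuous.aestronglyMeasurable (by fun_prop)) ?_
    refine Eventually.of_forall fun p => ?_
    rw [norm_mul, Complex.norm_real, mul_comm Complex.I, Complex.norm_exp_ofReal_mul_I, mul_one,
      Real.norm_eq_abs]
  have hae : In (uK K) (N2 G a K) =ᵐ[rho m] fun p => ∑ i ∈ bx T ×ˢ bx S,
      ((G i.1.1 i.1.2 * a i.2.1 i.2.2 : ℝ) : ℂ) *
      Complex.exp (Complex.I * ((p.1 * ((i.1.2 - i.2.2 : ℤ)) : ℝ) : ℂ)) *
      ((Hc K (i.2.1 - i.1.1 * K) 0 p : ℝ) : ℂ) := by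
    filter_upwards [h.ae_supp] with p hp
    exact In_N2 hG hs K hp
  have hint : Integrable (In (uK K) (N2 G a K)) (rho m) :=
    (integrable_finsetSum _ fun i _ => hterm i).congr hae.symm
  refine ⟨hint, ?_⟩
  have hre : (∫ p, In (uK K) (N2 G a K) p ∂(rho m)).re = ∑ i ∈ bx T ×ˢ bx S,
      (G i.1.1 i.1.2 * a i.2.1 i.2.2) *
        ∫ p, Hc K (i.2.1 - i.1.1 * K) (i.2.2 - i.1.2) p ∂(rho m) := by
    rw [integral_congr_ae hae, integral_finsetSum _ fun i _ => hterm i, Complex.re_sum]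
    refine Finset.sum_congr rfl fun i _ => ?_
    have h2 : ∀ F : ℝ × ℝ → ℂ, Integrable F (rho m) →
        (∫ p, F p ∂(rho m)).re = ∫ p, (F p).re ∂(rho m) := by
      intro F hF
      exact (integral_re hF).symm
    rw [h2 _ (hterm i), ← integral_const_mul]
    refine integral_congr_ae (Eventually.of_forall fun p => ?_)
    simp only
    rw [mul_assoc, Complex.re_ofReal_mul]
    congr 1
    rw [mul_comm (Complex.exp _), Complex.re_ofReal_mul, mul_comm Complex.I,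
      Complex.exp_ofReal_mul_I_re]
    unfold Hc
    have h3 : Real.cos (p.1 * ((i.1.2 - i.2.2 : ℤ))) = Real.cos (p.1 * ((i.2.2 - i.1.2 : ℤ))) := by
      rw [← Real.cos_neg]
      congr 1
      push_cast
      ring
    split_ifs
    · rw [Wf_sub _ _ (i.2.2 - i.1.2), h3]
      ring
    · simp
  rw [hre]
  unfold covXX
  have hb : ∀ p : ℤ × ℤ, ∑ᶠ j : ℤ, ∑ᶠ y : ℤ, (if p.1 * K < j then a j y *
      ((V (j - p.1 * K + K) (y - p.2) - V (j - p.1 * K - K) (y - p.2)) / 2) else 0) =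
      ∑ q ∈ bx S, (if p.1 * K < q.1 then a q.1 q.2 *
      ((V (q.1 - p.1 * K + K) (q.2 - p.2) - V (q.1 - p.1 * K - K) (q.2 - p.2)) / 2) else 0) := by
    intro p
    refine finsum2 (I := Finset.Icc (-⌊S⌋) ⌊S⌋) (J := Finset.Icc (-⌊S⌋) ⌊S⌋) ?_
    intro j y hjy
    have : a j y = 0 := by
      refine hs (j, y) ?_
      unfold bx
      rw [Finset.mem_product]
      (clear * - hjy; tauto)
    rw [this]
    simp
  rw [finsum2 (I := Finset.Icc (-⌊T⌋) ⌊T⌋) (J := Finset.Icc (-⌊T⌋) ⌊T⌋) (by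
    intro i x hix
    have : G i x = 0 := by
      refine hG (i, x) ?_
      unfold bx
      rw [Finset.mem_product]
      tauto
    rw [hGdef] at this
    simp only at this
    rw [this, zero_mul])]
  have hb2 : ∀ p : ℤ × ℤ, L⁻¹ * g (p.1 * K / L, p.2 / L) * (∑ᶠ j : ℤ, ∑ᶠ y : ℤ,
      (if p.1 * K < j then a j y *
      ((V (j - p.1 * K + K) (y - p.2) - V (j - p.1 * K - K) (y - p.2)) / 2) else 0)) =
      ∑ q ∈ bx S, G p.1 p.2 * (if p.1 * K < q.1 then a q.1 q.2 *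
      ((V (q.1 - p.1 * K + K) (q.2 - p.2) - V (q.1 - p.1 * K - K) (q.2 - p.2)) / 2) else 0) := by
    intro p
    rw [hb p, Finset.mul_sum]
  rw [Finset.sum_congr rfl fun p _ => hb2 p]
  change ∑ p ∈ bx T, _ = _
  rw [Finset.sum_product, Finset.mul_sum]
  refine Finset.sum_congr rfl fun p _ => ?_
  rw [Finset.mul_sum]
  refine Finset.sum_congr rfl fun q _ => ?_
  simp only
  unfold Hc
  by_cases hd : p.1 * K < q.1
  · have hd' : 0 < q.1 - p.1 * K := by omega
    rw [if_pos hd]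
    simp only [if_pos hd']
    rw [integral_const_mul, integral_sub (h.int_W _ _) (h.int_W _ _), h.rep', h.rep']
    field_simp
    ring
  · have hd' : ¬ 0 < q.1 - p.1 * K := by omega
    rw [if_neg hd]
    simp only [if_neg hd']
    simp

theorem Rk_uK (K : ℕ) (k θ : ℝ) : Rk m (uK K) k θ = Om m K k θ := rfl

end

/-- the Riemann sums of the test function of `X'`. -/
theorem hatG_lim {g : ℝ × ℝ → ℝ} (hg : Continuous g) (hgs : HasCompactSupport g) {L : ℕ → ℝ}
    (hL : ∀ n, 1 ≤ L n) (hLt : Tendsto L atTop atTop) {K : ℕ} (hK : 0 < K) {R : ℝ}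
    (hsup : ∀ n, Sup (fun i x => (L n)⁻¹ * g (i * K / L n, x / L n)) (bx (R * L n))) (w q : ℝ) :
    Tendsto (fun n => (K : ℂ) * (L n : ℂ)⁻¹ *
      hat (fun i x => (L n)⁻¹ * g (i * K / L n, x / L n)) (K * (w / L n)) (q / L n)) atTop
      (𝓝 (FT g w q)) := by
  set F : ℝ × ℝ → ℂ := fun z => (g z : ℂ) * Complex.exp (Complex.I * ((w * z.1 + q * z.2 : ℝ) : ℂ))
    with hF
  have hFc : Continuous F := by
    rw [hF]
    fun_prop
  have hFs : HasCompactSupport F := by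
    rw [hF]
    exact (hgs.comp_left (g := fun x : ℝ => (x : ℂ)) (by simp)).mul_right
  have hK' : (0 : ℝ) < K := by exact_mod_cast hK
  have hLi : Tendsto (fun n => 1 / L n) atTop (𝓝 0) := by
    simp_rw [one_div]
    exact hLt.inv_tendsto_atTop
  have hLK : Tendsto (fun n => K / L n) atTop (𝓝 0) := by
    have := hLi.const_mul (K : ℝ)
    simp_rw [mul_one_div, mul_zero] at this
    exact this
  have hr := riemann2 F hFc hFs (fun n => K / L n) (fun n => 1 / L n)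
    (fun n => by have := hL n; positivity) (fun n => by have := hL n; positivity) hLK hLi
    (fun n => bx (R * L n)) (fun n p hp => by
      have h1 := hsup n p hp
      have hL0 : 0 < L n := by linarith only [hL n]
      simp only at h1
      rw [mul_eq_zero, inv_eq_zero] at h1
      rcases h1 with h1 | h1
      · exact absurd h1 hL0.ne'
      · rw [hF]
        simp only [mul_one_div]
        rw [← mul_div_assoc, h1]
        simp only [Complex.ofReal_zero, Complex.ofReal_add, Complex.ofReal_mul, Complex.ofReal_div, Complex.ofReal_intCast, Complex.ofReal_natCast, zero_mul])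
  have hFT : ∫ z, F z = FT g w q := rfl
  rw [hFT] at hr
  refine hr.congr fun n => ?_
  have hL0 : 0 < L n := by linarith only [hL n]
  have hLc : (L n : ℂ) ≠ 0 := by exact_mod_cast hL0.ne'
  rw [hat_eq (hsup n), Finset.smul_sum, Finset.mul_sum]
  refine Finset.sum_congr rfl fun p _ => ?_
  rw [hF]
  unfold chr
  simp only [mul_one_div]
  rw [Complex.real_smul]
  have h2 : (w * (p.1 * (K / L n)) + q * (p.2 / L n) : ℝ) = K * (w / L n) * p.1 + q / L n * p.2 := by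
    ring
  rw [h2, ← mul_div_assoc]
  push_cast
  field_simp

theorem sqrt_bound {b s C1 E : ℝ} (hs : 0 < s) (hC1 : 0 ≤ C1) (hE : 0 ≤ E)
    (h1 : b ^ 2 * (1 + s) ^ 3 ≤ 24 * C1 ^ 2 * s) (h2 : ((1 + s) ^ 3)⁻¹ ≤ E ^ 2) :
    b / Real.sqrt s ≤ 5 * C1 * E := by
  have hsq := Real.sqrt_pos.2 hs
  refine le_of_abs_le (abs_le_of_sq_le_sq ?_ (by positivity))
  rw [div_pow, Real.sq_sqrt hs.le, div_le_iff₀ hs]
  have h3 : b ^ 2 ≤ 24 * C1 ^ 2 * s * ((1 + s) ^ 3)⁻¹ := by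
    rw [← div_eq_mul_inv, le_div_iff₀ (by positivity)]
    exact h1
  calc b ^ 2 ≤ 24 * C1 ^ 2 * s * ((1 + s) ^ 3)⁻¹ := h3
    _ ≤ 24 * C1 ^ 2 * s * E ^ 2 := by gcongr
    _ ≤ (5 * C1 * E) ^ 2 * s := by nlinarith only [hs]

theorem inv_cube_le_sq (z : ℝ × ℝ) :
    ((1 + (z.1 ^ 2 + z.2 ^ 2)) ^ 3)⁻¹ ≤ ((1 + ‖z‖ ^ 2) ^ (-(3 : ℝ) / 2)) ^ 2 := by
  have h1 := norm_sq_le z
  have h2 : 0 < 1 + ‖z‖ ^ 2 := by positivity
  have h3 : ((1 + ‖z‖ ^ 2) ^ (-(3 : ℝ) / 2)) ^ 2 = ((1 + ‖z‖ ^ 2) ^ 3)⁻¹ := by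
    rw [← Real.rpow_natCast, ← Real.rpow_mul h2.le, ← Real.rpow_natCast (1 + ‖z‖ ^ 2) 3,
      ← Real.rpow_neg h2.le]
    congr 1
    norm_num
  rw [h3]
  exact inv_anti₀ (by positivity) (by gcongr)

theorem p2_of (hKB : KBStatement) (hKL : KLStatement) : P2Statement := by
  intro V m c κ C k0 hS f L a M hD g hg hgs K hK
  have hpi := Real.pi_pos
  have hk0 := hS.k0_pos
  obtain ⟨C1, hC1, hb⟩ := hD.hat_bounds
  obtain ⟨C', hC', hKB1⟩ := hKB V m c κ C k0 hS
  obtain ⟨n0, hn0⟩ := eventually_atTop.1 hb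
  obtain ⟨Cg, hCg⟩ := hgs.exists_bound_of_continuous hg
  have hCg0 : 0 ≤ Cg := (norm_nonneg _).trans (hCg 0)
  have hK' : (1 : ℝ) ≤ K := by exact_mod_cast hK
  obtain ⟨R0, hR0⟩ := hgs.isCompact.isBounded.subset_closedBall (0 : ℝ × ℝ)
  set R : ℝ := max R0 0 with hR
  have hRR : R0 ≤ R := le_max_left _ _
  have hR00 : 0 ≤ R := le_max_right _ _
  set G : ℕ → ℤ → ℤ → ℝ := fun n i x => (L n)⁻¹ * g (i * K / L n, x / L n) with hGdef
  have hGsup : ∀ n, Sup (G n) (bx (R * L n)) := by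
    intro n p hp
    have hL : 0 < L n := by linarith only [hD.L_pos n]
    rw [hGdef]
    simp only
    by_contra hne
    have h1 := hR0 (subset_tsupport _ (Function.mem_support.2 (right_ne_zero_of_mul hne)))
    rw [mem_closedBall_zero_iff, Prod.norm_def] at h1
    refine hp (mem_bx.2 ?_)
    have h2 := (le_max_left _ _).trans h1
    have h3 := (le_max_right _ _).trans h1
    simp only [Real.norm_eq_abs, abs_div, abs_of_pos hL, abs_mul] at h2 h3
    rw [div_le_iff₀ hL] at h2 h3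
    rw [abs_of_nonneg (by linarith only [] : (0 : ℝ) ≤ K)] at h2
    have h4 : |(p.1 : ℝ)| ≤ |(p.1 : ℝ)| * K := le_mul_of_one_le_right (abs_nonneg _) hK'
    exact ⟨(h4.trans h2).trans (by (clear * - hRR hL; gcongr)), h3.trans (by gcongr)⟩
  set D0 : ℝ := (2 * R + 1) ^ 2 * Cg with hD0
  have hD00 : 0 ≤ D0 := by (clear * - hCg0; positivity)
  have hGb : ∀ n θ k, ‖hat (G n) θ k‖ ≤ D0 * L n := by
    intro n θ k
    have hL : 0 < L n := by linarith only [hD.L_pos n]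
    have h1 := norm_hat_le (hGsup n) (B := (L n)⁻¹ * Cg) (fun j x => by
      rw [hGdef]
      simp only
      rw [abs_mul, abs_of_pos (inv_pos.2 hL)]
      have := hCg (j * K / L n, x / L n)
      rw [Real.norm_eq_abs] at this
      gcongr) θ k
    refine h1.trans ?_
    have h2 := card_bx' (A := R) hR00 (hD.L_pos n)
    calc ((bx (R * L n)).card : ℝ) * ((L n)⁻¹ * Cg)
        ≤ ((2 * R + 1) ^ 2 * L n ^ 2) * ((L n)⁻¹ * Cg) := by (clear * - h2 hL hCg0; gcongr)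
      _ = _ := by
        rw [hD0]
        (clear * - hL hR00; field_simp)
  rw [← tendsto_add_atTop_iff_nat n0]
  have hshift : Tendsto (fun n => n + n0) atTop atTop := tendsto_add_atTop_nat n0
  have hL1 : ∀ n, 1 ≤ L (n + n0) := fun n => hD.L_pos _
  have hL0 : ∀ n, 0 < L (n + n0) := fun n => by linarith only [hL1 n]
  have hLt : Tendsto (fun n => L (n + n0)) atTop atTop := hD.L_top.comp hshift
  have hsup : ∀ n, Sup (a n) (bx (M * L n)) := fun n => hD.sup (le_refl M) n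
  have hLi : Tendsto (fun n => (L (n + n0))⁻¹) atTop (𝓝 0) := hLt.inv_tendsto_atTop
  have hnormN : ∀ n θ k, ‖N2 (G n) (a n) K θ k‖ ≤ D0 * L n * ‖hat (a n) θ k‖ := by
    intro n θ k
    unfold N2
    rw [norm_mul, norm_mul, RCLike.norm_conj, mul_comm Complex.I,
      Complex.norm_exp_ofReal_mul_I, one_mul]
    have := hGb n (K * θ) k
    gcongr
  have hnf := nearFar hS (u := uK K) (continuous_uK K).measurable (U := 2)
    (fun τ θ h0 h1 => norm_uK_le K τ θ h0 h1)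
    (fun n => L (n + n0)) hL1 (fun n => N2 (G (n + n0)) (a (n + n0)) K)
    (fun n => by
      unfold N2
      have h1 := (continuous_hat (hGsup (n + n0))).comp
        (by fun_prop : Continuous fun p : ℝ × ℝ => ((K : ℝ) * p.1, p.2))
      have h2 := continuous_hat (hsup (n + n0))
      exact (Continuous.mul (by fun_prop) h1).mul (Complex.continuous_conj.comp h2))
    (fun n => (covXX_eq hS (hsup _) K (hGsup _)).1)
    (fun n => D0 * (C1 / k0 ^ 2) * (L (n + n0))⁻¹)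
    (by
      have := hLi.const_mul (D0 * (C1 / k0 ^ 2))
      simpa only [mul_zero] using this)
    (by
      intro n θ hθ k hk hkk
      have h1 := (hn0 (n + n0) (by omega) θ k (abs_le.2 ⟨hθ.1, hθ.2⟩) (abs_le.2 ⟨hk.1, hk.2⟩)).2.2
      have hL := hL0 n
      have h2 : k0 ^ 2 ≤ k ^ 2 := by
        rw [← sq_abs k]
        exact pow_le_pow_left₀ hk0.le hkk 2
      have h3 : ‖hat (a (n + n0)) θ k‖ * (L (n + n0) ^ 2 * k0 ^ 2) ≤ C1 :=
        le_trans (by (clear * - h2 hL; gcongr)) h1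
      rw [← le_div_iff₀ (by (clear * - hL hk0; positivity))] at h3
      refine (hnormN (n + n0) θ k).trans ?_
      calc D0 * L (n + n0) * ‖hat (a (n + n0)) θ k‖
          ≤ D0 * L (n + n0) * (C1 / (L (n + n0) ^ 2 * k0 ^ 2)) := by (clear * - h3 hCg0 hL; gcongr)
        _ = _ := by (clear * - hk0 hC1 hL; field_simp))
    (fun z => D0 * (K * C') * (5 * C1) * (1 + ‖z‖ ^ 2) ^ (-(3 : ℝ) / 2))
    (integrable_dom.const_mul _)
    (by
      intro n
      have hL := hL0 n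
      filter_upwards [ae_scale hKB1 hL,
        ae_snd (Measure.ae_ne (volume : Measure ℝ) 0)] with z hz1 hz3 hk hθ
      have hq : z.2 / L (n + n0) ≠ 0 := div_ne_zero hz3 hL.ne'
      have hqk : |z.2 / L (n + n0)| < k0 := by
        rw [abs_div, abs_of_pos hL, div_lt_iff₀ hL]
        exact hk
      have hθ' : |z.1 / L (n + n0)| ≤ π := by
        rw [abs_div, abs_of_pos hL, div_le_iff₀ hL]
        exact hθ
      have hqπ : |z.2 / L (n + n0)| ≤ π := by
        have := hS.k0_le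
        linarith only [hqk, this, Real.pi_gt_three]
      have hO := (hz1 hqk hq (z.1 / L (n + n0)) hθ').2.2 K
      obtain ⟨hb1, hb2, hb3⟩ := hn0 (n + n0) (by omega) (z.1 / L (n + n0)) (z.2 / L (n + n0)) hθ' hqπ
      have hN := hnormN (n + n0) (z.1 / L (n + n0)) (z.2 / L (n + n0))
      rw [Rk_uK]
      set b := ‖hat (a (n + n0)) (z.1 / L (n + n0)) (z.2 / L (n + n0))‖ with hbdef
      have hb0 : 0 ≤ b := norm_nonneg _
      have hs0 : 0 < z.1 ^ 2 + z.2 ^ 2 := by (clear * - hz3; positivity)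
      have hd := decay (b := b) (w := z.1) (q := z.2) (C1 := C1) hb0
        (by
          rw [abs_div, abs_div, abs_of_pos hL] at hb1
          calc b ≤ C1 * L (n + n0) * (|z.1| / L (n + n0) + |z.2| / L (n + n0)) := hb1
            _ = _ := by (clear * - hL hz3 hC1; field_simp))
        (by
          calc b * z.1 ^ 2 = b * (L (n + n0) ^ 2 * (z.1 / L (n + n0)) ^ 2) := by (clear * - hL; field_simp)
            _ ≤ C1 := hb2)
        (by
          calc b * z.2 ^ 2 = b * (L (n + n0) ^ 2 * (z.2 / L (n + n0)) ^ 2) := by (clear * - hL hz3; field_simp)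
            _ ≤ C1 := hb3)
      have hE0 : 0 ≤ (1 + ‖z‖ ^ 2) ^ (-(3 : ℝ) / 2) := by (clear * -; positivity)
      have hbs := sqrt_bound hs0 hC1.le hE0 hd (inv_cube_le_sq z)
      have hsqrt : Real.sqrt ((z.2 / L (n + n0)) ^ 2 + (z.1 / L (n + n0)) ^ 2) =
          Real.sqrt (z.1 ^ 2 + z.2 ^ 2) / L (n + n0) := by
        have : (z.2 / L (n + n0)) ^ 2 + (z.1 / L (n + n0)) ^ 2 =
              (z.1 ^ 2 + z.2 ^ 2) / L (n + n0) ^ 2 := by
          field_simp
          ring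
        rw [this, Real.sqrt_div hs0.le, Real.sqrt_sq hL.le]
      rw [hsqrt] at hO
      have hsq := Real.sqrt_pos.2 hs0
      calc (L (n + n0) ^ 2)⁻¹ * (‖N2 (G (n + n0)) (a (n + n0)) K (z.1 / L (n + n0))
            (z.2 / L (n + n0))‖ * ‖Om m K (z.2 / L (n + n0)) (z.1 / L (n + n0))‖)
          ≤ (L (n + n0) ^ 2)⁻¹ * ((D0 * L (n + n0) * b) *
            (K * C' / (Real.sqrt (z.1 ^ 2 + z.2 ^ 2) / L (n + n0)))) := by (clear * - hN hO hCg0 hL; gcongr)
        _ = D0 * (K * C') * (b / Real.sqrt (z.1 ^ 2 + z.2 ^ 2)) := by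
          (clear * - hL hz3 hC' hK; field_simp)
        _ ≤ D0 * (K * C') * (5 * C1 * (1 + ‖z‖ ^ 2) ^ (-(3 : ℝ) / 2)) := by (clear * - hbs hCg0 hK hC'; gcongr)
        _ = _ := by ring)
    hLt
    (fun z => (κ : ℂ) * (FT g z.1 z.2 * (starRingEnd ℂ) (FT f z.1 z.2) /
      ((c * |z.2| : ℝ) - Complex.I * (z.1 : ℝ))))
    (by
      have hkl := hKL V m c κ C k0 hS (fun n => L (n + n0)) hL1 hLt K
      filter_upwards [ae_snd hkl, ae_snd (Measure.ae_ne (volume : Measure ℝ) 0),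
        ae_fst (Measure.ae_ne (volume : Measure ℝ) 0)] with z hz1 hz2 hz3
      have h1 := (hz1 hz2 z.1 hz3).1
      have h2 := (Complex.continuous_conj.tendsto _).comp ((hat_lim hD z.1 z.2).comp hshift)
      have h3' : Tendsto (fun n => (K : ℂ) * (L n : ℂ)⁻¹ *
          hat (G n) (K * (z.1 / L n)) (z.2 / L n)) atTop (𝓝 (FT g z.1 z.2)) :=
        hatG_lim hg hgs hD.L_pos hD.L_top hK hGsup z.1 z.2
      have h3 := h3'.comp hshift
      have h4 : Tendsto (fun n => Complex.exp (Complex.I * ((z.1 / L (n + n0) * K : ℝ) : ℂ)))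
          atTop (𝓝 1) := by
        have h5 : Tendsto (fun n => Complex.I * ((z.1 / L (n + n0) * K : ℝ) : ℂ)) atTop (𝓝 0) := by
          have h6 : Tendsto (fun n => z.1 / L (n + n0) * K) atTop (𝓝 0) := by
            have := (hLi.const_mul z.1).mul_const (K : ℝ)
            simpa only [div_eq_mul_inv, mul_zero, zero_mul] using this
          have h7 := ((Complex.continuous_ofReal.tendsto _).comp h6).const_mul Complex.I
          simpa only [Complex.ofReal_mul, Complex.ofReal_div, Complex.ofReal_natCast, Function.comp_apply,     Complex.ofReal_zero, mul_zero] using h7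
        have h8 := (Complex.continuous_exp.tendsto _).comp h5
        rw [Complex.exp_zero] at h8
        exact h8
      have hKc : (K : ℂ) ≠ 0 := by exact_mod_cast hK.ne'
      have h9 := (((h3.const_mul (K : ℂ)⁻¹).mul h4).mul h2).mul h1
      have hlim : (K : ℂ)⁻¹ * FT g z.1 z.2 * 1 * (starRingEnd ℂ) (FT f z.1 z.2) *
          ((κ : ℂ) * K / ((c * |z.2| : ℝ) - Complex.I * (z.1 : ℝ))) =
          (κ : ℂ) * (FT g z.1 z.2 * (starRingEnd ℂ) (FT f z.1 z.2) /
            ((c * |z.2| : ℝ) - Complex.I * (z.1 : ℝ))) := by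
        (clear * - hKc; field_simp)
      rw [hlim] at h9
      refine h9.congr fun n => ?_
      simp only [Function.comp_apply]
      rw [Rk_uK]
      unfold N2
      have hLc : (L (n + n0) : ℂ) ≠ 0 := by exact_mod_cast (hL0 n).ne'
      field_simp)
  have hre := (Complex.continuous_re.tendsto _).comp hnf
  have hfin := hre.const_mul (1 / (4 * π ^ 2))
  have hcov : 1 / (4 * π ^ 2) * (∫ z : ℝ × ℝ, (κ : ℂ) * (FT g z.1 z.2 *
      (starRingEnd ℂ) (FT f z.1 z.2) / ((c * |z.2| : ℝ) - Complex.I * (z.1 : ℝ)))).re =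
      cov c κ g f := by
    rw [integral_const_mul, Complex.re_ofReal_mul]
    unfold cov
    ring
  rw [hcov] at hfin
  refine hfin.congr fun n => ?_
  exact ((covXX_eq hS (hsup _) K (hGsup _)).2).symm

end Vale.Agent.P153.TwoPt
end

section

/-!
# P153, TwoPt: kernel bounds (KB), scaling limits (T) and kernel limits (KL)
-/

open MeasureTheory ProbabilityTheory Filter Topology Set
open scoped ENNReal Real

namespace Vale.Agent.P153.TwoPt

namespace Kern

lemma sq_le_den {τ : ℝ} (h0 : 0 ≤ τ) (θ : ℝ) : (1 - τ) ^ 2 ≤ den τ θ := by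
  unfold den
  have := Real.cos_le_one θ
  nlinarith only [h0, this]

lemma continuous_den (θ : ℝ) : Continuous fun τ => den τ θ := by
  unfold den
  fun_prop

/-- The properties of one measure `m k`. -/
structure Good (μ : Measure ℝ) (C k : ℝ) : Prop where
  C_pos : 0 < C
  k_ne : k ≠ 0
  supp : ∀ᵐ τ ∂μ, 0 ≤ τ ∧ τ < 1
  mass : μ univ ≤ ENNReal.ofReal C
  inv : ∫⁻ τ, ENNReal.ofReal (1 / (1 - τ) ^ 2) ∂μ ≤ ENNReal.ofReal (C / k ^ 2)

namespace Good

variable {μ : Measure ℝ} {C k : ℝ}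

lemma fin (h : Good μ C k) : IsFiniteMeasure μ := ⟨h.mass.trans_lt ENNReal.ofReal_lt_top⟩

lemma real_le (h : Good μ C k) : μ.real univ ≤ C :=
  ENNReal.toReal_le_of_le_ofReal h.C_pos.le h.mass

lemma int2 (h : Good μ C k) : Integrable (fun τ : ℝ => 1 / (1 - τ) ^ 2) μ := by
  refine (lintegral_ofReal_ne_top_iff_integrable ?_ ?_).1
    (h.inv.trans_lt ENNReal.ofReal_lt_top).ne
  · have : Measurable fun τ : ℝ => 1 / (1 - τ) ^ 2 := by (clear * -; fun_prop)
    exact this.aestronglyMeasurable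
  · exact Eventually.of_forall fun τ => by positivity

lemma int2_le (h : Good μ C k) : ∫ τ, 1 / (1 - τ) ^ 2 ∂μ ≤ C / k ^ 2 := by
  rw [integral_eq_lintegral_of_nonneg_ae (Eventually.of_forall fun τ => by (clear * -; positivity))
    h.int2.aestronglyMeasurable]
  have := h.C_pos
  exact ENNReal.toReal_le_of_le_ofReal (by positivity) h.inv

end Good

lemma norm_one_sub_pow {z : ℂ} (hz : ‖z‖ ≤ 1) (K : ℕ) : ‖1 - z ^ K‖ ≤ K * ‖1 - z‖ := by
  induction K with
  | zero => simp only [pow_zero, sub_self, norm_zero, CharP.cast_eq_zero, zero_mul, Std.le_refl]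
  | succ n ih =>
    have e : 1 - z ^ (n + 1) = (1 - z) + z * (1 - z ^ n) := by ring
    rw [e]
    refine (norm_add_le _ _).trans ?_
    rw [norm_mul]
    have : ‖z‖ * ‖1 - z ^ n‖ ≤ 1 * (n * ‖1 - z‖) :=
      mul_le_mul hz ih (norm_nonneg _) zero_le_one
    push_cast
    linarith

lemma norm_neg_exp (τ θ : ℝ) :
    ‖1 - (τ : ℂ) * Complex.exp (-(Complex.I * (θ : ℂ)))‖ ^ 2 = den τ θ := by
  have h := den_eq_norm τ (-θ)
  have e : den τ (-θ) = den τ θ := by
    unfold den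
    rw [Real.cos_neg]
  rw [e] at h
  rw [h]
  congr 4
  push_cast
  ring_nf

lemma norm_z {τ : ℝ} (h0 : 0 ≤ τ) (θ : ℝ) :
    ‖(τ : ℂ) * Complex.exp (-(Complex.I * (θ : ℂ)))‖ = τ := by
  rw [norm_mul, Complex.norm_real, Real.norm_of_nonneg h0,
    show -(Complex.I * (θ : ℂ)) = ((-θ : ℝ) : ℂ) * Complex.I by push_cast; ring,
    Complex.norm_exp_ofReal_mul_I, mul_one]

/-- integrand of the causal kernel -/
noncomputable def omf (K : ℕ) (θ τ : ℝ) : ℂ :=
  (1 - ((τ : ℂ) * Complex.exp (-(Complex.I * (θ : ℂ)))) ^ K) / (den τ θ : ℂ)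

lemma measurable_omf (K : ℕ) (θ : ℝ) : Measurable (omf K θ) := by
  unfold omf
  have h1 := (continuous_den θ).measurable
  have h2 : Continuous fun τ : ℝ =>
      1 - ((τ : ℂ) * Complex.exp (-(Complex.I * (θ : ℂ)))) ^ K := by fun_prop
  exact h2.measurable.div (Complex.measurable_ofReal.comp h1)

lemma norm_omf {τ : ℝ} (h0 : 0 ≤ τ) (h1 : τ < 1) (θ : ℝ) (K : ℕ) :
    ‖omf K θ τ‖ ≤ K / Real.sqrt (den τ θ) := by
  have hd := den_pos h0 h1 θ
  have h2 := norm_one_sub_pow (z := (τ : ℂ) * Complex.exp (-(Complex.I * (θ : ℂ))))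
    (by rw [norm_z h0]; exact h1.le) K
  have h3 : ‖1 - (τ : ℂ) * Complex.exp (-(Complex.I * (θ : ℂ)))‖ = Real.sqrt (den τ θ) := by
    rw [← norm_neg_exp, Real.sqrt_sq (norm_nonneg _)]
  unfold omf
  rw [norm_div, Complex.norm_real, Real.norm_of_nonneg hd.le]
  rw [h3] at h2
  rw [div_le_div_iff₀ hd (Real.sqrt_pos.2 hd)]
  calc ‖1 - ((τ : ℂ) * Complex.exp (-(Complex.I * (θ : ℂ)))) ^ K‖ * Real.sqrt (den τ θ)
      ≤ (K * Real.sqrt (den τ θ)) * Real.sqrt (den τ θ) :=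
        mul_le_mul_of_nonneg_right h2 (Real.sqrt_nonneg _)
    _ = K * den τ θ := by rw [mul_assoc, Real.mul_self_sqrt hd.le]

lemma good_of_spec {V : ℤ → ℤ → ℝ} {m : Kernel ℝ ℝ} {c κ C k0 : ℝ} (hS : Spec V m c κ C k0) :
    ∀ᵐ k : ℝ, |k| < k0 → k ≠ 0 → Good (m k) C k := by
  filter_upwards [hS.supp, hS.mass, hS.inv] with k h1 h2 h3 hk hk0
  exact ⟨hS.C_pos, hk0, h1, h2 hk, h3 hk hk0⟩

end Kern

namespace Kern

/-- The window around `c |k|`. -/
def Win (c ε k : ℝ) : Set ℝ := {τ | abs ((1 - τ) - c * abs k) < ε * |k|}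

/-- The bad set. -/
def Bad (c ε A k : ℝ) : Set ℝ := {τ | 1 - τ ≤ A * |k| ∧ ε * |k| ≤ abs ((1 - τ) - c * abs k)}

lemma measurableSet_Win (c ε k : ℝ) : MeasurableSet (Win c ε k) := by
  exact (isOpen_lt (by fun_prop : Continuous fun τ : ℝ => abs ((1 - τ) - c * abs k))
    (continuous_const (y := ε * |k|))).measurableSet

lemma measurableSet_Bad (c ε A k : ℝ) : MeasurableSet (Bad c ε A k) := by
  exact (isClosed_le (by fun_prop : Continuous fun τ : ℝ => 1 - τ)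
    (continuous_const (y := A * |k|))).measurableSet.inter
    (isClosed_le (continuous_const (y := ε * |k|))
      (by fun_prop : Continuous fun τ : ℝ => abs ((1 - τ) - c * abs k))).measurableSet

lemma Good.int1 {μ : Measure ℝ} {C k : ℝ} (h : Good μ C k) {φ : ℝ → ℂ} (hm : Measurable φ)
    {B L : ℝ} (hL : 0 < L) (hB : 0 ≤ B)
    (hφ : ∀ τ, 0 ≤ τ → τ < 1 → ‖φ τ‖ ≤ B / (L * (1 - τ))) : Integrable φ μ := by
  have := h.fin
  refine (((integrable_const (1 : ℝ)).add h.int2).const_mul (B / L)).mono'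
    hm.aestronglyMeasurable ?_
  filter_upwards [h.supp] with τ hτ
  refine (hφ τ hτ.1 hτ.2).trans ?_
  have h1 : 0 < 1 - τ := by linarith [hτ.2]
  have e : B / (L * (1 - τ)) = B / L * (1 / (1 - τ)) := by (clear * - h1 hL; field_simp)
  rw [e]
  refine mul_le_mul_of_nonneg_left ?_ (by positivity)
  simp only [Pi.add_apply]
  have e2 : 1 + 1 / (1 - τ) ^ 2 - 1 / (1 - τ) = (1 / (1 - τ) - 1 / 2) ^ 2 + 3 / 4 := by
    field_simp
    ring
  have : 0 ≤ (1 / (1 - τ) - 1 / 2) ^ 2 + 3 / 4 := by (clear * -; positivity)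
  linarith only [e2, this]

lemma est {μ : Measure ℝ} {C k : ℝ} (hg : Good μ C k) {c L B ε ε' A δ ρ κ : ℝ} {φ : ℝ → ℂ}
    {ψ0 : ℂ} (hm : Measurable φ) (hφ : ∀ τ, 0 ≤ τ → τ < 1 → ‖φ τ‖ ≤ B / (L * (1 - τ)))
    (hB : 0 ≤ B) (hL : 0 < L) (hδ : 0 < δ) (hA : 0 < A) (hρ : 0 ≤ ρ) (hε' : 0 ≤ ε')
    (hW : ∀ τ ∈ Win c ε k, ‖φ τ - ψ0‖ ≤ ρ)
    (hbad : μ (Bad c ε A k) ≤ ENNReal.ofReal ε')
    (hmass : |(μ (Win c ε k)).toReal - κ| ≤ ε') :
    ‖∫ τ, φ τ ∂μ - κ * ψ0‖ ≤ ρ * C + B / δ * ε' + B * δ * C / (L * k) ^ 2 +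
      B * C / (A * (L * |k|)) + ε' * ‖ψ0‖ := by
  have := hg.fin
  have hk := hg.k_ne
  have hk' : 0 < |k| := abs_pos.2 hk
  have hC := hg.C_pos
  set W := Win c ε k with hWdef
  set D := Bad c ε A k with hDdef
  have hWm : MeasurableSet W := measurableSet_Win c ε k
  have hDm : MeasurableSet D := measurableSet_Bad c ε A k
  have hφi : Integrable φ μ := hg.int1 hm hL hB hφ
  have hWi : Integrable (W.indicator fun _ => ψ0) μ := (integrable_const ψ0).indicator hWm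
  have hDi : Integrable (D.indicator fun _ => (1 : ℝ)) μ := (integrable_const (1 : ℝ)).indicator hDm
  have e1 : ∫ τ, φ τ ∂μ - κ * ψ0 =
      ∫ τ, (φ τ - W.indicator (fun _ => ψ0) τ) ∂μ + (((μ W).toReal - κ : ℝ) : ℂ) * ψ0 := by
    rw [integral_sub hφi hWi, integral_indicator hWm, setIntegral_const]
    simp only [Measure.real]
    push_cast
    rw [Complex.real_smul]
    ring
  have i1 : Integrable (fun τ => ρ + B / δ * D.indicator (fun _ => (1 : ℝ)) τ) μ :=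
    (integrable_const _).add (hDi.const_mul _)
  have i2 : Integrable (fun τ : ℝ => B * δ / L ^ 2 * (1 / (1 - τ) ^ 2) + B / (A * (L * |k|))) μ :=
    (hg.int2.const_mul _).add (integrable_const _)
  have h2 : ‖∫ τ, (φ τ - W.indicator (fun _ => ψ0) τ) ∂μ‖ ≤
      ∫ τ, ((ρ + B / δ * D.indicator (fun _ => (1 : ℝ)) τ) +
        (B * δ / L ^ 2 * (1 / (1 - τ) ^ 2) + B / (A * (L * |k|)))) ∂μ := by
    refine (norm_integral_le_integral_norm _).trans ?_
    refine integral_mono_of_nonneg (Eventually.of_forall fun τ => norm_nonneg _)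
      (i1.add i2) ?_
    filter_upwards [hg.supp] with τ hτ
    have h1 : 0 < 1 - τ := by linarith only [hτ]
    have t1 : 0 ≤ B / δ * D.indicator (fun _ => (1 : ℝ)) τ :=
      mul_nonneg (by (clear * - hB hδ; positivity)) (indicator_nonneg (fun _ _ => zero_le_one) _)
    have t2 : 0 ≤ B * δ / L ^ 2 * (1 / (1 - τ) ^ 2) := by (clear * - hB hδ hL h1; positivity)
    have t3 : 0 ≤ B / (A * (L * |k|)) := by (clear * - hB hA hL hk; positivity)
    by_cases hτW : τ ∈ W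
    · rw [indicator_of_mem hτW]
      have := hW τ hτW
      linarith only [t1, t2, t3, this]
    · rw [indicator_of_notMem hτW, sub_zero]
      have hb := hφ τ hτ.1 hτ.2
      rcases lt_or_ge (L * (1 - τ)) δ with hE | hE
      · have : B / (L * (1 - τ)) ≤ B * δ / L ^ 2 * (1 / (1 - τ) ^ 2) := by
          have e : B * δ / L ^ 2 * (1 / (1 - τ) ^ 2) = B / (L * (1 - τ)) * (δ / (L * (1 - τ))) := by
            (clear * - h1 hL hδ; field_simp)
          rw [e]
          refine le_mul_of_one_le_right (by (clear * - hB hL h1; positivity)) ?_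
          rw [one_le_div (by (clear * - hL h1; positivity))]
          exact hE.le
        linarith only [hρ, t1, t3, hb, this]
      · rcases le_or_gt (1 - τ) (A * |k|) with hE2 | hE2
        · have hD : τ ∈ D := ⟨hE2, not_lt.1 hτW⟩
          rw [indicator_of_mem hD, mul_one]
          have : B / (L * (1 - τ)) ≤ B / δ := div_le_div_of_nonneg_left hB hδ hE
          linarith only [hρ, t2, t3, hb, this]
        · have : B / (L * (1 - τ)) ≤ B / (A * (L * |k|)) := by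
            refine div_le_div_of_nonneg_left hB (by positivity) ?_
            have := mul_le_mul_of_nonneg_left hE2.le hL.le
            linarith only [this]
          linarith only [hρ, t1, t2, hb, this]
  rw [integral_add i1 i2, integral_add (integrable_const _) (hDi.const_mul _),
    integral_add (hg.int2.const_mul _) (integrable_const _), integral_const, integral_const,
    integral_const_mul, integral_const_mul, integral_indicator hDm, setIntegral_const,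
    smul_eq_mul, smul_eq_mul, smul_eq_mul, mul_one] at h2
  have h3 : μ.real univ * ρ ≤ C * ρ := mul_le_mul_of_nonneg_right hg.real_le hρ
  have h4 : B / δ * μ.real D ≤ B / δ * ε' :=
    mul_le_mul_of_nonneg_left (ENNReal.toReal_le_of_le_ofReal hε' hbad) (by (clear * - hB hδ; positivity))
  have h5 : B * δ / L ^ 2 * ∫ τ, 1 / (1 - τ) ^ 2 ∂μ ≤ B * δ / L ^ 2 * (C / k ^ 2) :=
    mul_le_mul_of_nonneg_left hg.int2_le (by (clear * - hB hδ hL; positivity))
  have h6 : μ.real univ * (B / (A * (L * |k|))) ≤ C * (B / (A * (L * |k|))) :=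
    mul_le_mul_of_nonneg_right hg.real_le (by (clear * - hB hA hL hk; positivity))
  have h7 : ‖(((μ W).toReal - κ : ℝ) : ℂ) * ψ0‖ ≤ ε' * ‖ψ0‖ := by
    rw [norm_mul, Complex.norm_real, Real.norm_eq_abs]
    exact mul_le_mul_of_nonneg_right hmass (norm_nonneg _)
  rw [e1]
  refine (norm_add_le _ _).trans ?_
  have e5 : B * δ / L ^ 2 * (C / k ^ 2) = B * δ * C / (L * k) ^ 2 := by
    (clear * - hk hC hL hδ; field_simp)
  have e6 : C * (B / (A * (L * |k|))) = B * C / (A * (L * |k|)) := by ring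
  rw [e5] at h5
  rw [e6] at h6
  linarith only [h2, h3, h4, h5, h6, h7]

lemma ae_scale {P : ℝ → Prop} (h : ∀ᵐ k, P k) {a : ℝ} (ha : a ≠ 0) : ∀ᵐ q, P (q / a) := by
  rw [ae_iff] at h ⊢
  have e : {q : ℝ | ¬ P (q / a)} = (fun q => a⁻¹ * q) ⁻¹' {k | ¬ P k} := by
    ext q
    simp only [mem_ofPred_eq, mem_preimage]
    rw [div_eq_inv_mul]
  rw [e, Real.volume_preimage_mul_left (inv_ne_zero ha), h, mul_zero]

end Kern

open Kern in
/-- (T) from (CONC). -/
theorem t_of_conc (hconc : ConcStatement) : TStatement := by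
  intro V m c κ C k0 hS L hL1 hL
  have hLp : ∀ n, 0 < L n := fun n => lt_of_lt_of_le one_pos (hL1 n)
  obtain ⟨h1, h2, -⟩ := hconc V m c κ C k0 hS
  have hjp : ∀ j : ℕ, (0 : ℝ) < 1 / ((j : ℝ) + 1) := fun j => by positivity
  choose η hη hb using fun j : ℕ => h1 (1 / ((j : ℝ) + 1)) (hjp j) ((j : ℝ) + 1) (by positivity)
  choose η' hη' hb' using fun j : ℕ => h2 (1 / ((j : ℝ) + 1)) (hjp j)
  have hgood : ∀ᵐ q : ℝ, ∀ n, |q / L n| < k0 → q / L n ≠ 0 → Good (m (q / L n)) C (q / L n) :=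
    ae_all_iff.2 fun n => Kern.ae_scale (good_of_spec hS) (hLp n).ne'
  have hB1 : ∀ᵐ q : ℝ, ∀ n, ∀ j : ℕ, |q / L n| < η j → q / L n ≠ 0 →
      m (q / L n) (Bad c (1 / ((j : ℝ) + 1)) ((j : ℝ) + 1) (q / L n)) ≤
        ENNReal.ofReal (1 / ((j : ℝ) + 1)) :=
    ae_all_iff.2 fun n => ae_all_iff.2 fun j => Kern.ae_scale (hb j) (hLp n).ne'
  have hB2 : ∀ᵐ q : ℝ, ∀ n, ∀ j : ℕ, |q / L n| < η' j → q / L n ≠ 0 →
      |(m (q / L n) (Win c (1 / ((j : ℝ) + 1)) (q / L n))).toReal - κ| ≤ 1 / ((j : ℝ) + 1) :=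
    ae_all_iff.2 fun n => ae_all_iff.2 fun j => Kern.ae_scale (hb' j) (hLp n).ne'
  filter_upwards [hgood, hB1, hB2] with q hq1 hq2 hq3 hq φ ψ B hφm hφ hψ hunif
  have hq' : 0 < |q| := abs_pos.2 hq
  have hC := hS.C_pos
  have hc := hS.c_pos
  have hB : 0 ≤ B := by
    have h := (norm_nonneg _).trans (hφ 0 0 le_rfl zero_lt_one)
    rw [sub_zero, mul_one] at h
    by_contra hneg
    exact absurd h (not_le.2 (div_neg_of_neg_of_pos (not_le.1 hneg) (hLp 0)))
  set E0 : ℝ := c * |q| with hE0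
  have hE0p : 0 < E0 := by positivity
  rw [Metric.tendsto_nhds]
  intro ρ0 hρ0
  -- the parameters
  set ρ : ℝ := ρ0 / (8 * (C + 1)) with hρ
  have hρp : 0 < ρ := by positivity
  set δ : ℝ := ρ0 * q ^ 2 / (8 * (B * C + 1)) with hδ
  have hBC : 0 ≤ B * C := by positivity
  have hδp : 0 < δ := by positivity
  set A' : ℝ := max (2 / E0) (2 * E0) + 1 with hA'
  have hA'1 : 1 < A' := by
    have : 0 < max (2 / E0) (2 * E0) := lt_max_of_lt_right (by positivity)
    linarith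
  have hA'i : ∀ E, |E - E0| < E0 / 2 → E ∈ Icc (1 / A') A' := by
    intro E hE
    rw [abs_lt] at hE
    have h3 : 2 / E0 < A' := by
      have := le_max_left (2 / E0) (2 * E0)
      linarith
    have h4 : 2 * E0 < A' := by
      have := le_max_right (2 / E0) (2 * E0)
      linarith
    constructor
    · have h5 : E0 / 2 < E := by linarith
      have h6 : 1 / A' ≤ E0 / 2 := by
        rw [div_lt_iff₀ hE0p] at h3
        rw [div_le_iff₀ (by linarith)]
        linarith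
      linarith
    · linarith
  -- continuity of ψ at E0
  have hcont : ContinuousAt ψ E0 := hψ.continuousAt (Ioi_mem_nhds hE0p)
  obtain ⟨r, hr, hψr⟩ := Metric.continuousAt_iff.1 hcont (ρ / 2) (by positivity)
  have hj0 : Tendsto (fun j : ℕ => 1 / ((j : ℝ) + 1)) atTop (𝓝 0) :=
    tendsto_one_div_add_atTop_nhds_zero_nat
  have j1 : ∀ᶠ j : ℕ in atTop, B / δ * (1 / ((j : ℝ) + 1)) < ρ0 / 8 := by
    have := hj0.const_mul (B / δ)
    rw [mul_zero] at this
    exact this.eventually_lt_const (by positivity)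
  have j2 : ∀ᶠ j : ℕ in atTop, B * C / |q| * (1 / ((j : ℝ) + 1)) < ρ0 / 8 := by
    have := hj0.const_mul (B * C / |q|)
    rw [mul_zero] at this
    exact this.eventually_lt_const (by positivity)
  have j3 : ∀ᶠ j : ℕ in atTop, ‖ψ E0‖ * (1 / ((j : ℝ) + 1)) < ρ0 / 8 := by
    have := hj0.const_mul ‖ψ E0‖
    rw [mul_zero] at this
    exact this.eventually_lt_const (by positivity)
  have j4 : ∀ᶠ j : ℕ in atTop, |q| * (1 / ((j : ℝ) + 1)) < min r (E0 / 2) := by
    have := hj0.const_mul |q|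
    rw [mul_zero] at this
    exact this.eventually_lt_const (by positivity)
  obtain ⟨j, hj1, hj2, hj3, hj4⟩ := (j1.and (j2.and (j3.and j4))).exists
  have hq0 : Tendsto (fun n => |q / L n|) atTop (𝓝 0) := by
    have := (hL.const_div_atTop q).abs
    rwa [abs_zero] at this
  have hu := Metric.tendstoUniformlyOn_iff.1 (hunif A' hA'1) (ρ / 2) (by positivity)
  filter_upwards [hq0.eventually_lt_const hS.k0_pos, hq0.eventually_lt_const (hη j),
    hq0.eventually_lt_const (hη' j), hu] with n n1 n2 n3 n4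
  have hne : q / L n ≠ 0 := div_ne_zero hq (hLp n).ne'
  have hLk : L n * |q / L n| = |q| := by
    rw [abs_div, abs_of_pos (hLp n)]
    have := (hLp n).ne'
    field_simp
  have hLk2 : L n * (q / L n) = q := by
    have := (hLp n).ne'
    field_simp
  have hest := est (c := c) (A := (j : ℝ) + 1) (hq1 n n1 hne) (ψ0 := ψ E0) (hφm n) (hφ n) hB (hLp n)
    hδp (by positivity) hρp.le (hjp j).le (fun τ hτ => by
      have hτ1 : abs ((1 - τ) - c * |q / L n|) < 1 / ((j : ℝ) + 1) * |q / L n| := hτ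
      have hτ2 : |L n * (1 - τ) - E0| < 1 / ((j : ℝ) + 1) * |q| := by
        have e : L n * (1 - τ) - E0 = L n * ((1 - τ) - c * |q / L n|) := by
          rw [hE0, ← hLk]
          ring
        rw [e, abs_mul, abs_of_pos (hLp n)]
        calc L n * abs ((1 - τ) - c * |q / L n|) < L n * (1 / ((j : ℝ) + 1) * |q / L n|) :=
              mul_lt_mul_of_pos_left hτ1 (hLp n)
          _ = 1 / ((j : ℝ) + 1) * (L n * |q / L n|) := by ring
          _ = _ := by rw [hLk]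
      have hτ3 : |L n * (1 - τ) - E0| < min r (E0 / 2) := by
        rw [mul_comm (1 / ((j : ℝ) + 1)) |q|] at hτ2
        exact hτ2.trans hj4
      have h5 := n4 (L n * (1 - τ)) (hA'i _ (hτ3.trans_le (min_le_right _ _)))
      have h6 := hψr (x := L n * (1 - τ)) (by
        rw [Real.dist_eq]
        exact hτ3.trans_le (min_le_left _ _))
      have e7 : 1 - L n * (1 - τ) / L n = τ := by
        have := (hLp n).ne'
        field_simp
        ring
      rw [e7] at h5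
      rw [← dist_eq_norm]
      have h8 := dist_triangle (φ n τ) (ψ (L n * (1 - τ))) (ψ E0)
      rw [dist_comm (φ n τ) (ψ (L n * (1 - τ)))] at h8
      linarith)
    (hq2 n j n2 hne) (hq3 n j n3 hne)
  rw [hLk, hLk2] at hest
  rw [dist_eq_norm]
  refine lt_of_le_of_lt hest ?_
  have k1 : ρ * C < ρ0 / 8 := by
    have e : ρ * C = ρ0 / 8 * (C / (C + 1)) := by
      rw [hρ]
      field_simp
    rw [e]
    have : C / (C + 1) < 1 := (div_lt_one (by positivity)).2 (by linarith)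
    nlinarith
  have k2 : B * δ * C / q ^ 2 < ρ0 / 8 := by
    have e : B * δ * C / q ^ 2 = ρ0 / 8 * (B * C / (B * C + 1)) := by
      rw [hδ]
      field_simp
    rw [e]
    have : B * C / (B * C + 1) < 1 := (div_lt_one (by positivity)).2 (by linarith)
    nlinarith
  have k3 : B * C / (((j : ℝ) + 1) * |q|) = B * C / |q| * (1 / ((j : ℝ) + 1)) := by
    field_simp
  rw [k3]
  have k4 : 1 / ((j : ℝ) + 1) * ‖ψ E0‖ = ‖ψ E0‖ * (1 / ((j : ℝ) + 1)) := mul_comm _ _
  rw [k4]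
  linarith

namespace Kern

/-- `(1 - e^{iws})/s`. -/
noncomputable def Ds (w : ℝ) : ℝ → ℂ :=
  dslope (fun s : ℝ => 1 - Complex.exp (Complex.I * ((w * s : ℝ) : ℂ))) 0

lemma hasDeriv_f (w : ℝ) : HasDerivAt (fun s : ℝ => 1 - Complex.exp (Complex.I * ((w * s : ℝ) : ℂ)))
    (-(Complex.I * w)) 0 := by
  have h1 : HasDerivAt (fun s : ℝ => Complex.I * ((w * s : ℝ) : ℂ)) (Complex.I * w) 0 := by
    have h := ((hasDerivAt_id (0 : ℝ)).const_mul w).ofReal_comp
    have h' := h.const_mul Complex.I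
    simpa using h'
  have h2 := h1.cexp
  have h3 := h2.const_sub (1 : ℂ)
  simpa using h3

lemma continuous_Ds (w : ℝ) : Continuous (Ds w) := by
  rw [← continuousOn_univ]
  refine (continuousOn_dslope univ_mem).2 ⟨?_, (hasDeriv_f w).differentiableAt⟩
  exact (by fun_prop : Continuous fun s : ℝ =>
    1 - Complex.exp (Complex.I * ((w * s : ℝ) : ℂ))).continuousOn

lemma Ds_zero (w : ℝ) : Ds w 0 = -(Complex.I * w) := by
  unfold Ds
  rw [dslope_same, (hasDeriv_f w).deriv]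

lemma Ds_ne (w : ℝ) {s : ℝ} (hs : s ≠ 0) :
    Ds w s = (1 - Complex.exp (Complex.I * ((w * s : ℝ) : ℂ))) / s := by
  unfold Ds
  rw [dslope_of_ne _ hs, slope_def_module]
  simp only [sub_zero, Complex.ofReal_mul, mul_zero, Complex.ofReal_zero, Complex.exp_zero, sub_self, Complex.real_smul, Complex.ofReal_inv, div_eq_inv_mul]

/-- denominator -/
noncomputable def dn (w : ℝ) (p : ℝ × ℝ) : ℂ :=
  Ds w p.1 + p.2 * Complex.exp (Complex.I * ((w * p.1 : ℝ) : ℂ))

/-- numerator -/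
noncomputable def nm (K : ℕ) (w : ℝ) (p : ℝ × ℝ) : ℂ :=
  ∑ j ∈ Finset.range K, (((1 - p.2 * p.1 : ℝ) : ℂ) *
    Complex.exp (-(Complex.I * ((w * p.1 : ℝ) : ℂ)))) ^ j

lemma continuous_dn (w : ℝ) : Continuous (dn w) := by
  unfold dn
  have := (continuous_Ds w).comp (continuous_fst (X := ℝ) (Y := ℝ))
  refine Continuous.add this ?_
  fun_prop

lemma continuous_nm (K : ℕ) (w : ℝ) : Continuous (nm K w) := by
  unfold nm
  fun_prop

lemma dn_eq (w : ℝ) {p : ℝ × ℝ} (h : p.1 ≠ 0) :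
    dn w p = (1 - ((1 - p.2 * p.1 : ℝ) : ℂ) * Complex.exp (Complex.I * ((w * p.1 : ℝ) : ℂ))) /
      p.1 := by
  unfold dn
  rw [Ds_ne w h]
  have : (p.1 : ℂ) ≠ 0 := by exact_mod_cast h
  field_simp
  push_cast
  ring

lemma dn_ne_zero {A w : ℝ} (hA : 0 < A) {p : ℝ × ℝ} (h1 : p.1 ∈ Ico 0 (1 / A))
    (h2 : p.2 ∈ Icc (1 / A) A) : dn w p ≠ 0 := by
  have hp2 : 0 < p.2 := lt_of_lt_of_le (by positivity) h2.1
  rcases eq_or_lt_of_le h1.1 with h | h
  · intro h0
    unfold dn at h0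
    rw [← h, Ds_zero] at h0
    have := congrArg Complex.re h0
    simp only [mul_zero, Complex.ofReal_zero, Complex.exp_zero, mul_one, Complex.add_re, Complex.neg_re, Complex.mul_re, Complex.I_re, Complex.ofReal_re, zero_mul, Complex.I_im, Complex.ofReal_im, sub_self, neg_zero, zero_add, Complex.zero_re] at this
    linarith
  · rw [dn_eq w h.ne']
    have hlt : p.2 * p.1 < 1 := by
      calc p.2 * p.1 ≤ A * p.1 := mul_le_mul_of_nonneg_right h2.2 h.le
        _ < A * (1 / A) := mul_lt_mul_of_pos_left h1.2 hA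
        _ = 1 := by field_simp
    have hpos : 0 < p.2 * p.1 := by positivity
    have hd := den_pos (τ := 1 - p.2 * p.1) (by linarith only [hlt]) (by linarith) (w * p.1)
    rw [den_eq_norm] at hd
    refine div_ne_zero ?_ (by exact_mod_cast h.ne')
    intro h0
    rw [h0] at hd
    simp at hd

lemma key_eq {K : ℕ} {A w L E : ℝ} (hA : 0 < A) (hL : A < L) (hE : E ∈ Icc (1 / A) A) :
    ((L : ℂ))⁻¹ * omf K (w / L) (1 - E / L) = nm K w (1 / L, E) / dn w (1 / L, E) := by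
  have hL0 : 0 < L := hA.trans hL
  have hE0 : 0 < E := lt_of_lt_of_le (by positivity) hE.1
  have hτ0 : 0 ≤ 1 - E / L := by
    rw [sub_nonneg, div_le_one hL0]
    exact hE.2.trans hL.le
  have hτ1 : 1 - E / L < 1 := by
    have : 0 < E / L := by positivity
    linarith
  have hdp := den_pos hτ0 hτ1 (w / L)
  have hfac := den_factor (1 - E / L) (w / L)
  have hdC : (den (1 - E / L) (w / L) : ℂ) ≠ 0 := by exact_mod_cast hdp.ne'
  rw [hfac] at hdC
  have h1 := left_ne_zero_of_mul hdC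
  have h2 := right_ne_zero_of_mul hdC
  have e1 : (1 - ((1 - E / L : ℝ) : ℂ) * Complex.exp (-(Complex.I * ((w / L : ℝ) : ℂ)))) *
      nm K w (1 / L, E) = 1 - (((1 - E / L : ℝ) : ℂ) *
        Complex.exp (-(Complex.I * ((w / L : ℝ) : ℂ)))) ^ K := by
    rw [← mul_neg_geom_sum]
    unfold nm
    simp only [mul_one_div]
  have e2 : dn w (1 / L, E) = (L : ℂ) * (1 - ((1 - E / L : ℝ) : ℂ) *
      Complex.exp (Complex.I * ((w / L : ℝ) : ℂ))) := by
    rw [dn_eq w (by simpa using hL0.ne' : ((1 / L, E) : ℝ × ℝ).1 ≠ 0)]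
    simp only [mul_one_div]
    push_cast
    rw [div_div_eq_mul_div, div_one]
    ring
  have hLC : (L : ℂ) ≠ 0 := by exact_mod_cast hL0.ne'
  unfold omf
  rw [← e1, hfac, e2]
  generalize (1 - ((1 - E / L : ℝ) : ℂ) * Complex.exp (-(Complex.I * ((w / L : ℝ) : ℂ)))) = a at *
  generalize (1 - ((1 - E / L : ℝ) : ℂ) * Complex.exp (Complex.I * ((w / L : ℝ) : ℂ))) = b at *
  (clear * - h2 h1 hLC; field_simp)

end Kern

open Kern in
theorem kl_of_t (hT : TStatement) : KLStatement := by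
  intro V m c κ C k0 hS L hL1 hL K
  have hLp : ∀ n, 0 < L n := fun n => lt_of_lt_of_le one_pos (hL1 n)
  have hc := hS.c_pos
  have hjp : ∀ j : ℕ, (0 : ℝ) < 1 / ((j : ℝ) + 1) := fun j => by positivity
  choose η hη hlim using fun j : ℕ => hS.lim (1 / ((j : ℝ) + 1)) (hjp j)
  have hl : ∀ᵐ q : ℝ, ∀ n, ∀ j : ℕ, |q / L n| < η j → q / L n ≠ 0 → ∀ θ : ℝ, |θ| < η j →
      |(c ^ 2 * (q / L n) ^ 2 + θ ^ 2) * (∫ τ, 1 / den τ θ ∂(m (q / L n))) - κ| ≤
        1 / ((j : ℝ) + 1) :=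
    ae_all_iff.2 fun n => ae_all_iff.2 fun j => Kern.ae_scale (hlim j) (hLp n).ne'
  filter_upwards [hT V m c κ C k0 hS L hL1 hL, hl] with q hq hq2 hq0 w hw
  constructor
  · have h := hq hq0 (fun n τ => ((L n : ℝ) : ℂ)⁻¹ * omf K (w / L n) τ)
      (fun E => (K : ℂ) / ((E : ℂ) - Complex.I * (w : ℝ))) K
      (fun n => (measurable_omf K (w / L n)).const_mul _)
      (fun n τ h0 h1 => by
        have h3 := norm_omf h0 h1 (w / L n) K
        have h4 : 0 < 1 - τ := by linarith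
        have h5 : 1 - τ ≤ Real.sqrt (den τ (w / L n)) :=
          Real.le_sqrt_of_sq_le (sq_le_den h0 _)
        rw [norm_mul, norm_inv, Complex.norm_real, Real.norm_of_nonneg (hLp n).le,
          ← div_eq_inv_mul, mul_comm (L n), ← div_div]
        refine div_le_div_of_nonneg_right (h3.trans ?_) (hLp n).le
        exact div_le_div_of_nonneg_left (Nat.cast_nonneg _) h4 h5)
      (by
        intro E hE
        have hne : (E : ℂ) - Complex.I * (w : ℝ) ≠ 0 := by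
          intro h0
          have := congrArg Complex.im h0
          simp at this
          exact hw this
        refine ContinuousAt.continuousWithinAt ?_
        refine ContinuousAt.div continuousAt_const ?_ hne
        fun_prop)
      (by
        intro A hA
        have hA0 : 0 < A := by linarith
        rw [Metric.tendstoUniformlyOn_iff]
        intro ε hε
        obtain ⟨v, hv, hv2⟩ := IsCompact.mem_uniformity_of_prod (isCompact_Icc (a := 1 / A) (b := A))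
          (f := fun s E => nm K w (s, E) / dn w (s, E)) (s := Ico 0 (1 / A)) (q := 0)
          (u := {p : ℂ × ℂ | dist p.1 p.2 < ε})
          (by
            intro p hp
            refine ContinuousAt.continuousWithinAt ?_
            exact (continuous_nm K w).continuousAt.div (continuous_dn w).continuousAt
              (dn_ne_zero hA0 hp.1 hp.2))
          ⟨le_rfl, by positivity⟩ (Metric.dist_mem_uniformity hε)
        have hs : Tendsto (fun n => 1 / L n) atTop (𝓝[Ico 0 (1 / A)] 0) := by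
          rw [tendsto_nhdsWithin_iff]
          refine ⟨hL.const_div_atTop 1, ?_⟩
          filter_upwards [hL.eventually_gt_atTop A] with n hn
          exact ⟨by have := hLp n; positivity, one_div_lt_one_div_of_lt hA0 hn⟩
        filter_upwards [hs hv, hL.eventually_gt_atTop A] with n hn1 hn2 E hE
        have h6 := hv2 (1 / L n) hn1 E hE
        have h7 : nm K w (0, E) / dn w (0, E) = (K : ℂ) / ((E : ℂ) - Complex.I * (w : ℝ)) := by
          unfold nm dn
          simp only [Ds_zero]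
          simp
          ring
        simp only [mem_ofPred_eq] at h6
        rw [h7] at h6
        rw [key_eq hA0 hn2 hE, dist_comm]
        exact h6)
    have e : ∀ n, ∫ τ, ((L n : ℝ) : ℂ)⁻¹ * omf K (w / L n) τ ∂(m (q / L n)) =
        (L n : ℂ)⁻¹ * Om m K (q / L n) (w / L n) := fun n => integral_const_mul _ _
    simp_rw [e] at h
    rwa [mul_div_assoc]
  · have hq0' : Tendsto (fun n => |q / L n|) atTop (𝓝 0) := by
      have := (hL.const_div_atTop q).abs
      rwa [abs_zero] at this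
    have hw0' : Tendsto (fun n => |w / L n|) atTop (𝓝 0) := by
      have := (hL.const_div_atTop w).abs
      rwa [abs_zero] at this
    have hdpos : 0 < c ^ 2 * q ^ 2 + w ^ 2 := by positivity
    have h1 : Tendsto (fun n => (c ^ 2 * (q / L n) ^ 2 + (w / L n) ^ 2) *
        Psi m (q / L n) (w / L n)) atTop (𝓝 κ) := by
      rw [Metric.tendsto_nhds]
      intro ε hε
      obtain ⟨j, hj⟩ := exists_nat_one_div_lt hε
      filter_upwards [hq0'.eventually_lt_const (hη j), hw0'.eventually_lt_const (hη j)]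
        with n hn1 hn2
      rw [Real.dist_eq]
      refine lt_of_le_of_lt ?_ hj
      exact hq2 n j hn1 (div_ne_zero hq0 (hLp n).ne') _ hn2
    have h2 := h1.div_const (c ^ 2 * q ^ 2 + w ^ 2)
    refine h2.congr fun n => ?_
    have := (hLp n).ne'
    field_simp

theorem kl_of_conc (h : ConcStatement) : KLStatement := kl_of_t (t_of_conc h)

end Vale.Agent.P153.TwoPt
end

section

/-! P153, (P5): square integrability of the multiplier `f^ / (c|q| + iw)`. -/

open MeasureTheory FourierTransform Set Filter Topology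
open scoped Real SchwartzMap ContDiff RealInnerProductSpace

namespace Vale.Agent.P153.TwoPt.P5

lemma FT_eq (f : ℝ × ℝ → ℝ) (w q : ℝ) : FT f w q = FTc (fun z => (f z : ℂ)) w q := rfl

lemma FTc_integrable {f : ℝ × ℝ → ℂ} (hf : Integrable f) (w q : ℝ) :
    Integrable fun z : ℝ × ℝ => f z * Complex.exp (Complex.I * ((w * z.1 + q * z.2 : ℝ) : ℂ)) := by
  refine hf.mul_bdd (c := 1) ?_ (ae_of_all _ fun z => ?_)
  · exact Continuous.aestronglyMeasurable (by (clear * -; fun_prop))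
  · rw [mul_comm]; exact (Complex.norm_exp_ofReal_mul_I _).le

lemma continuous_FTc {f : ℝ × ℝ → ℂ} (hf : Integrable f) :
    Continuous fun p : ℝ × ℝ => FTc f p.1 p.2 := by
  unfold FTc
  refine continuous_of_dominated (bound := fun z => ‖f z‖) ?_ ?_ hf.norm ?_
  · intro p
    exact (FTc_integrable hf p.1 p.2).aestronglyMeasurable
  · intro p
    refine ae_of_all _ fun z => ?_
    rw [norm_mul, mul_comm Complex.I, Complex.norm_exp_ofReal_mul_I, mul_one]
  · refine ae_of_all _ fun z => ?_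
    fun_prop

/-- near the origin -/
lemma FT_near {f : ℝ × ℝ → ℝ} (hc : Continuous f) (hs : HasCompactSupport f)
    (h0 : ∫ z, f z = 0) (p : ℝ × ℝ) : ‖FT f p.1 p.2‖ ≤ (2 * ∫ z : ℝ × ℝ, |f z| * ‖z‖) * ‖p‖ := by
  have hf : Integrable f := hc.integrable_of_hasCompactSupport hs
  have hfc : Integrable fun z => (f z : ℂ) := hf.ofReal
  have e1 : FT f p.1 p.2 = ∫ z : ℝ × ℝ, (f z : ℂ) *
      (Complex.exp (Complex.I * ((p.1 * z.1 + p.2 * z.2 : ℝ) : ℂ)) - 1) := by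
    have h1 : ∫ z : ℝ × ℝ, (f z : ℂ) *
      (Complex.exp (Complex.I * ((p.1 * z.1 + p.2 * z.2 : ℝ) : ℂ)) - 1) =
        FT f p.1 p.2 - ∫ z : ℝ × ℝ, (f z : ℂ) := by
      unfold FT
      rw [← integral_sub (FTc_integrable hfc p.1 p.2) hfc]
      refine integral_congr_ae (ae_of_all _ fun z => ?_)
      simp only
      ring
    rw [h1, integral_complex_ofReal, h0]
    simp
  rw [e1]
  have hi : Integrable fun z : ℝ × ℝ => |f z| * ‖z‖ := by
    refine Continuous.integrable_of_hasCompactSupport (by fun_prop) ?_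
    exact (hs.abs).mul_right
  calc ‖∫ z : ℝ × ℝ, (f z : ℂ) *
      (Complex.exp (Complex.I * ((p.1 * z.1 + p.2 * z.2 : ℝ) : ℂ)) - 1)‖
      ≤ ∫ z : ℝ × ℝ, ‖(f z : ℂ) *
      (Complex.exp (Complex.I * ((p.1 * z.1 + p.2 * z.2 : ℝ) : ℂ)) - 1)‖ :=
        norm_integral_le_integral_norm _
    _ ≤ ∫ z : ℝ × ℝ, 2 * ‖p‖ * (|f z| * ‖z‖) := by
        refine integral_mono_of_nonneg (ae_of_all _ fun z => norm_nonneg _) (hi.const_mul _)
          (ae_of_all _ fun z => ?_)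
        simp only
        rw [norm_mul, Complex.norm_real, Real.norm_eq_abs]
        have h1 := Real.norm_exp_I_mul_ofReal_sub_one_le (x := p.1 * z.1 + p.2 * z.2)
        have h2 : ‖p.1 * z.1 + p.2 * z.2‖ ≤ 2 * ‖p‖ * ‖z‖ := by
          refine (norm_add_le _ _).trans ?_
          rw [norm_mul, norm_mul]
          have a1 := norm_fst_le p
          have a2 := norm_snd_le p
          have a3 := norm_fst_le z
          have a4 := norm_snd_le z
          have b1 := mul_le_mul a1 a3 (norm_nonneg _) (norm_nonneg _)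
          have b2 := mul_le_mul a2 a4 (norm_nonneg _) (norm_nonneg _)
          linarith only [b1, b2]
        have h3 := mul_le_mul_of_nonneg_left (h1.trans h2) (abs_nonneg (f z))
        linarith
    _ = (2 * ∫ z : ℝ × ℝ, |f z| * ‖z‖) * ‖p‖ := by
        rw [integral_const_mul]; ring

lemma norm_toLp_ge (x : ℝ × ℝ) : ‖x‖ ≤ ‖(WithLp.toLp 2 x : E)‖ := by
  have h := WithLp.prod_norm_sq_eq_of_L2 (WithLp.toLp 2 x : E)
  simp only [WithLp.toLp_fst, WithLp.toLp_snd] at h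
  rw [Prod.norm_def]
  refine max_le ?_ ?_
  · exact le_of_sq_le_sq (by (clear * - h; nlinarith [sq_nonneg ‖x.2‖])) (norm_nonneg _)
  · exact le_of_sq_le_sq (by nlinarith [sq_nonneg ‖x.1‖]) (norm_nonneg _)

/-- away from the origin -/
lemma FT_far {f : ℝ × ℝ → ℝ} (hc : ContDiff ℝ 2 f) (hs : HasCompactSupport f) :
    ∃ C : ℝ, 0 ≤ C ∧ ∀ p : ℝ × ℝ, ‖p‖ ^ 2 * ‖FT f p.1 p.2‖ ≤ C := by
  set g : E → ℂ := fun v => (f (WithLp.ofLp v) : ℂ) with hg
  have hs' : HasCompactSupport g := by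
    have h1 : HasCompactSupport (fun z => (f z : ℂ)) := hs.comp_left (g := fun x : ℝ => (x : ℂ)) (by simp)
    exact h1.comp_homeomorph (WithLp.homeomorphProd 2 ℝ ℝ)
  have hc' : ContDiff ℝ 2 g :=
    (Complex.ofRealCLM.contDiff.comp hc).comp (WithLp.prodContinuousLinearEquiv 2 ℝ ℝ ℝ).contDiff
  have hint : ∀ (k n : ℕ), (k : ℕ∞) ≤ 0 → (n : ℕ∞) ≤ 2 →
      Integrable (fun v : E => ‖v‖ ^ k * ‖iteratedFDeriv ℝ n g v‖) := by
    intro k n _ hn
    have h1 : Continuous (fun v : E => iteratedFDeriv ℝ n g v) :=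
      hc'.continuous_iteratedFDeriv (by exact_mod_cast hn)
    refine Continuous.integrable_of_hasCompactSupport (by (clear * - h1; fun_prop)) ?_
    exact ((hs'.iteratedFDeriv n).norm).mul_left
  have h2 := fun w : E => Real.pow_mul_norm_iteratedFDeriv_fourier_le (K := 0) (N := 2)
    (by exact_mod_cast hc') hint (k := 0) (n := 2) le_rfl le_rfl w
  set C := (2 * π) ^ 0 * (2 * (0 : ℕ) + 2) ^ 2 *
      ∑ p ∈ Finset.range (0 + 1) ×ˢ Finset.range (2 + 1),
        ∫ v : E, ‖v‖ ^ p.1 * ‖iteratedFDeriv ℝ p.2 g v‖ with hC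
  have hC0 : 0 ≤ C := le_trans (by positivity) (h2 0)
  refine ⟨(2 * π) ^ 2 * C, by (clear * -; positivity), fun p => ?_⟩
  have h3 := h2 (WithLp.toLp 2 (sc • p))
  rw [norm_iteratedFDeriv_zero] at h3
  have h4 : FT f p.1 p.2 = 𝓕 g (WithLp.toLp 2 (sc • p)) := by
    rw [FT_eq, FTc_eq]
  rw [← h4] at h3
  have h5 := norm_toLp_ge (sc • p)
  rw [norm_smul] at h5
  have h6 : ‖sc‖ = (2 * π)⁻¹ := by
    unfold sc
    rw [norm_neg, Real.norm_eq_abs, abs_of_pos (by positivity)]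
  rw [h6] at h5
  have h7 : ‖p‖ ≤ (2 * π) * ‖(WithLp.toLp 2 (sc • p) : E)‖ := by
    have := mul_le_mul_of_nonneg_left h5 (show (0 : ℝ) ≤ 2 * π by positivity)
    rwa [← mul_assoc, mul_inv_cancel₀ (by positivity), one_mul] at this
  have h8 : ‖p‖ ^ 2 ≤ ((2 * π) * ‖(WithLp.toLp 2 (sc • p) : E)‖) ^ 2 :=
    pow_le_pow_left₀ (norm_nonneg _) h7 2
  calc ‖p‖ ^ 2 * ‖FT f p.1 p.2‖
      ≤ ((2 * π) * ‖(WithLp.toLp 2 (sc • p) : E)‖) ^ 2 * ‖FT f p.1 p.2‖ :=
        mul_le_mul_of_nonneg_right h8 (norm_nonneg _)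
    _ = (2 * π) ^ 2 * (‖(WithLp.toLp 2 (sc • p) : E)‖ ^ 2 * ‖FT f p.1 p.2‖) := by ring
    _ ≤ (2 * π) ^ 2 * C := mul_le_mul_of_nonneg_left h3 (by positivity)

/-- the multiplier `f^ / (c|q| + iw)` -/
noncomputable def Wf (c : ℝ) (f : ℝ × ℝ → ℝ) (p : ℝ × ℝ) : ℂ :=
  FT f p.1 p.2 / ((c * |p.2| : ℝ) + Complex.I * (p.1 : ℝ))

lemma norm_den_sq (c : ℝ) (p : ℝ × ℝ) :
    ‖((c * |p.2| : ℝ) : ℂ) + Complex.I * (p.1 : ℝ)‖ ^ 2 = c ^ 2 * p.2 ^ 2 + p.1 ^ 2 := by
  rw [← Complex.normSq_eq_norm_sq, Complex.normSq_apply]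
  simp only [Complex.add_re, Complex.ofReal_re, Complex.mul_re, Complex.I_re, Complex.I_im,
    Complex.ofReal_im, Complex.add_im, Complex.mul_im]
  rw [show c ^ 2 * p.2 ^ 2 = c ^ 2 * |p.2| ^ 2 by rw [sq_abs]]
  ring

lemma norm_den_ge {c : ℝ} (hc : 0 < c) (p : ℝ × ℝ) :
    min c 1 * ‖p‖ ≤ ‖((c * |p.2| : ℝ) : ℂ) + Complex.I * (p.1 : ℝ)‖ := by
  have h := norm_den_sq c p
  have hm : 0 < min c 1 := lt_min hc one_pos
  refine le_of_sq_le_sq ?_ (norm_nonneg _)
  rw [h, mul_pow]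
  have h1 : (min c 1) ^ 2 ≤ c ^ 2 := pow_le_pow_left₀ hm.le (min_le_left _ _) 2
  have h2 : (min c 1) ^ 2 ≤ 1 := by
    have := pow_le_pow_left₀ hm.le (min_le_right c 1) 2
    simpa only [sq_le_one_iff_abs_le_one, ge_iff_le, one_pow] using this
  rw [Prod.norm_def]
  rcases max_cases ‖p.1‖ ‖p.2‖ with ⟨e, _⟩ | ⟨e, _⟩
  · rw [e, Real.norm_eq_abs, sq_abs]
    nlinarith only [h2]
  · rw [e, Real.norm_eq_abs, sq_abs]
    nlinarith only [h1]

lemma measurable_Wf (c : ℝ) {f : ℝ × ℝ → ℝ} (hc : Continuous f) (hs : HasCompactSupport f) :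
    Measurable (Wf c f) := by
  have hf : Integrable f := hc.integrable_of_hasCompactSupport hs
  have h1 : Measurable fun p : ℝ × ℝ => FT f p.1 p.2 :=
    (continuous_FTc (f := fun z => (f z : ℂ)) hf.ofReal).measurable
  unfold Wf
  refine h1.div ?_
  exact Continuous.measurable (by fun_prop)

lemma integrable_Wf {c : ℝ} (hc0 : 0 < c) {f : ℝ × ℝ → ℝ} (hc : ContDiff ℝ 2 f)
    (hs : HasCompactSupport f) (h0 : ∫ z, f z = 0) : Integrable fun p => ‖Wf c f p‖ ^ 2 := by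
  obtain ⟨C, hC0, hC⟩ := FT_far hc hs
  set A := 2 * ∫ z : ℝ × ℝ, |f z| * ‖z‖ with hA
  have hA0 : 0 ≤ A := by
    have : 0 ≤ ∫ z : ℝ × ℝ, |f z| * ‖z‖ := integral_nonneg fun z => by (clear * -; positivity)
    linarith
  have hm : 0 < min c 1 := lt_min hc0 one_pos
  set B := 8 * (A + C) / min c 1 with hB
  have hB0 : 0 ≤ B := by (clear * - hC0 hc0; positivity)
  have key : ∀ p : ℝ × ℝ, (1 + ‖p‖) ^ 3 * ‖Wf c f p‖ ≤ B := by
    intro p
    rcases eq_or_ne p 0 with rfl | hp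
    · simp [Wf, hB0]
    have hp0 : 0 < ‖p‖ := norm_pos_iff.2 hp
    have hd := norm_den_ge hc0 p
    have hd0 : 0 < ‖((c * |p.2| : ℝ) : ℂ) + Complex.I * (p.1 : ℝ)‖ :=
      lt_of_lt_of_le (mul_pos hm hp0) hd
    have hn : FT_near hc.continuous hs h0 p = FT_near hc.continuous hs h0 p := rfl
    have n1 := FT_near hc.continuous hs h0 p
    have n2 := hC p
    unfold Wf
    rw [norm_div, ← mul_div_assoc, div_le_iff₀ hd0]
    have hBd : B * (min c 1 * ‖p‖) ≤ B * ‖((c * |p.2| : ℝ) : ℂ) + Complex.I * (p.1 : ℝ)‖ :=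
      mul_le_mul_of_nonneg_left hd hB0
    refine le_trans ?_ hBd
    have e1 : B * (min c 1 * ‖p‖) = 8 * (A + C) * ‖p‖ := by
      rw [hB]; field_simp
    rw [e1]
    rcases le_total ‖p‖ 1 with hle | hge
    · have h1 : (1 + ‖p‖) ^ 3 ≤ 8 := by
        have := pow_le_pow_left₀ (by positivity) (show 1 + ‖p‖ ≤ 2 by linarith only [hle]) 3
        norm_num at this ⊢
        exact this
      calc (1 + ‖p‖) ^ 3 * ‖FT f p.1 p.2‖ ≤ 8 * (A * ‖p‖) :=
            mul_le_mul h1 n1 (norm_nonneg _) (by norm_num)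
        _ ≤ 8 * (A + C) * ‖p‖ := by nlinarith only [hC0, hp0]
    · have h1 : (1 + ‖p‖) ^ 3 ≤ 8 * ‖p‖ ^ 3 := by
        have := pow_le_pow_left₀ (by positivity) (show 1 + ‖p‖ ≤ 2 * ‖p‖ by linarith only [hge]) 3
        rw [mul_pow] at this
        norm_num at this ⊢
        exact this
      calc (1 + ‖p‖) ^ 3 * ‖FT f p.1 p.2‖ ≤ (8 * ‖p‖ ^ 3) * ‖FT f p.1 p.2‖ :=
            mul_le_mul_of_nonneg_right h1 (norm_nonneg _)
        _ = 8 * ‖p‖ * (‖p‖ ^ 2 * ‖FT f p.1 p.2‖) := by ring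
        _ ≤ 8 * ‖p‖ * C := mul_le_mul_of_nonneg_left n2 (by positivity)
        _ ≤ 8 * (A + C) * ‖p‖ := by nlinarith only [hA0, hp0]
  have hI : Integrable (fun p : ℝ × ℝ => B ^ 2 * (1 + ‖p‖) ^ (-(6 : ℝ))) := by
    refine (integrable_one_add_norm (E := ℝ × ℝ) (μ := volume) (r := 6) ?_).const_mul _
    simp; norm_num
  refine hI.mono' ?_ (ae_of_all _ fun p => ?_)
  · exact ((measurable_Wf c hc.continuous hs).norm.pow_const 2).aestronglyMeasurable
  · rw [norm_pow, norm_norm]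
    have h1 := key p
    have h2 : 0 < 1 + ‖p‖ := by positivity
    have h3 : (1 + ‖p‖) ^ (-(6 : ℝ)) = ((1 + ‖p‖) ^ 6)⁻¹ := by
      rw [Real.rpow_neg h2.le]
      norm_cast
    rw [h3, ← div_eq_mul_inv, le_div_iff₀ (by (clear * -; positivity))]
    have h4 := pow_le_pow_left₀ (by (clear * -; positivity)) h1 2
    calc ‖Wf c f p‖ ^ 2 * (1 + ‖p‖) ^ 6 = ((1 + ‖p‖) ^ 3 * ‖Wf c f p‖) ^ 2 := by ring
      _ ≤ B ^ 2 := h4

end Vale.Agent.P153.TwoPt.P5
end

section

/-! P153, (P5): completeness of the innovations. -/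

open MeasureTheory FourierTransform Set Filter Topology
open scoped Real SchwartzMap ContDiff ComplexConjugate

namespace Vale.Agent.P153.TwoPt.P5

lemma conj_FTc (h : ℝ × ℝ → ℂ) (w q : ℝ) : conj (FTc h w q) = FTc (fun z => conj (h z)) (-w) (-q) := by
  unfold FTc
  rw [← integral_conj]
  refine integral_congr_ae (ae_of_all _ fun z => ?_)
  simp only [map_mul, ← Complex.exp_conj, Complex.conj_I, Complex.conj_ofReal]
  congr 2
  push_cast
  ring

lemma FT_neg (f : ℝ × ℝ → ℝ) (w q : ℝ) : FT f (-w) (-q) = conj (FT f w q) := by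
  rw [FT_eq, FT_eq, conj_FTc]
  simp only [Complex.conj_ofReal]

lemma Wf_neg (c : ℝ) (f : ℝ × ℝ → ℝ) (p : ℝ × ℝ) : conj (Wf c f (-p)) = Wf c f p := by
  unfold Wf
  rw [map_div₀, Prod.fst_neg, Prod.snd_neg, FT_neg, Complex.conj_conj, abs_neg]
  congr 1
  simp only [map_add, map_mul, map_neg, Complex.conj_I, Complex.conj_ofReal, Complex.ofReal_neg]
  ring

/-- the transform of the real part -/
lemma FT_re {h : ℝ × ℝ → ℂ} (hi : Integrable h) (p : ℝ × ℝ) :
    FT (fun z => (h z).re) p.1 p.2 = (FTc h p.1 p.2 + conj (FTc h (-p).1 (-p).2)) / 2 := by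
  rw [conj_FTc, Prod.fst_neg, Prod.snd_neg, neg_neg, neg_neg, FT_eq]
  have hi' : Integrable fun z => conj (h z) := by
    have := Complex.conjCLE.toContinuousLinearMap.integrable_comp hi
    exact this
  unfold FTc
  rw [← integral_add (FTc_integrable hi p.1 p.2) (FTc_integrable hi' p.1 p.2), ← integral_div]
  refine integral_congr_ae (ae_of_all _ fun z => ?_)
  simp only
  have h1 : h z + conj (h z) = 2 * ((h z).re : ℂ) := by
    rw [Complex.add_conj]; push_cast; ring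
  rw [← add_mul, h1]
  ring

/-- the integrand of the defect, from the integral of the square -/
lemma dist_re {h : ℝ × ℝ → ℂ} (hi : Integrable h) (c : ℝ) (f : ℝ × ℝ → ℝ) (p : ℝ × ℝ) :
    ‖FT (fun z => (h z).re) p.1 p.2 - Wf c f p‖ ^ 2 ≤
      (‖FTc h p.1 p.2 - Wf c f p‖ ^ 2 + ‖FTc h (-p).1 (-p).2 - Wf c f (-p)‖ ^ 2) / 2 := by
  have e1 : FT (fun z => (h z).re) p.1 p.2 - Wf c f p =
      ((FTc h p.1 p.2 - Wf c f p) + conj (FTc h (-p).1 (-p).2 - Wf c f (-p))) / 2 := by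
    rw [FT_re hi, map_sub, Wf_neg]; ring
  rw [e1]
  set a := FTc h p.1 p.2 - Wf c f p
  have e2 : ‖conj (FTc h (-p).1 (-p).2 - Wf c f (-p))‖ = ‖FTc h (-p).1 (-p).2 - Wf c f (-p)‖ :=
    Complex.norm_conj _
  set b := conj (FTc h (-p).1 (-p).2 - Wf c f (-p))
  rw [← e2, norm_div]
  have h1 : ‖a + b‖ ≤ ‖a‖ + ‖b‖ := norm_add_le _ _
  have h2 : ‖a + b‖ ^ 2 ≤ (‖a‖ + ‖b‖) ^ 2 := pow_le_pow_left₀ (norm_nonneg _) h1 2
  have h3 : ‖(2 : ℂ)‖ = 2 := by simp
  rw [h3, div_pow]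
  nlinarith only [h2, sq_nonneg (‖a‖ - ‖b‖)]

/-- the defect as an `L²` distance -/
lemma defect {c κ : ℝ} (hc0 : 0 < c) {f g : ℝ × ℝ → ℝ} (hf : ContDiff ℝ 2 f)
    (hfs : HasCompactSupport f) (h0 : ∫ z, f z = 0) (hg : ContDiff ℝ ∞ g)
    (hgs : HasCompactSupport g) :
    sig c κ f - 2 * cov c κ g f + κ * ∫ z : ℝ × ℝ, g z ^ 2 =
      κ / (4 * π ^ 2) * ∫ p : ℝ × ℝ, ‖FT g p.1 p.2 - Wf c f p‖ ^ 2 := by
  have iW := integrable_Wf hc0 hf hfs h0
  have mW := (measurable_Wf c hf.continuous hfs).aestronglyMeasurable (μ := volume)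
  have gc : ContDiff ℝ ∞ (fun z => (g z : ℂ)) := Complex.ofRealCLM.contDiff.comp hg
  have gs : HasCompactSupport (fun z => (g z : ℂ)) := hgs.comp_left (g := fun x : ℝ => (x : ℂ)) (by simp)
  have gi : Integrable g := hg.continuous.integrable_of_hasCompactSupport hgs
  have cG : Continuous fun p : ℝ × ℝ => FT g p.1 p.2 := continuous_FTc (f := fun z => (g z : ℂ)) gi.ofReal
  have plG : ∫ p : ℝ × ℝ, ‖FT g p.1 p.2‖ ^ 2 = 4 * π ^ 2 * ∫ z : ℝ × ℝ, g z ^ 2 := by
    have h1 := plancherel gs gc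
    simp only [FT_eq]
    rw [h1]
    congr 2
    ext z
    rw [Complex.norm_real, Real.norm_eq_abs, sq_abs]
  have iG : Integrable fun p : ℝ × ℝ => ‖FT g p.1 p.2‖ ^ 2 := by
    obtain ⟨H, hH⟩ := toE gs gc
    have e0 : (fun v : E => (g (WithLp.ofLp v) : ℂ)) = H := by ext v; exact (hH v).symm
    have m1 : MemLp (fun v : E => (𝓕 H : 𝓢(E, ℂ)) v) 2 volume := (𝓕 H : 𝓢(E, ℂ)).memLp 2 volume
    have i1 : Integrable fun v : E => ‖(𝓕 H : 𝓢(E, ℂ)) v‖ ^ 2 :=
      (memLp_two_iff_integrable_sq_norm m1.1).1 m1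
    have i2 : Integrable (fun x : ℝ × ℝ => ‖(𝓕 H : 𝓢(E, ℂ)) (WithLp.toLp 2 x)‖ ^ 2) :=
      (WithLp.volume_preserving_toLp ℝ ℝ).integrable_comp_of_integrable i1
    have i3 := Integrable.comp_smul (f := fun x : ℝ × ℝ =>
      ‖(𝓕 H : 𝓢(E, ℂ)) (WithLp.toLp 2 x)‖ ^ 2) i2 sc_ne
    refine i3.congr (ae_of_all _ fun p => ?_)
    simp only
    rw [FT_eq, FTc_eq, e0, SchwartzMap.fourier_coe]
  have MG : MemLp (fun p : ℝ × ℝ => FT g p.1 p.2) 2 volume :=
    (memLp_two_iff_integrable_sq_norm cG.aestronglyMeasurable).2 iG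
  have MW : MemLp (Wf c f) 2 volume := (memLp_two_iff_integrable_sq_norm mW).2 iW
  have iX : Integrable fun p : ℝ × ℝ => FT g p.1 p.2 * conj (Wf c f p) := by
    have h1 := MG.integrable_mul (MW.star)
    exact h1
  have eX : ∀ p : ℝ × ℝ, FT g p.1 p.2 * (starRingEnd ℂ) (FT f p.1 p.2) /
      ((c * |p.2| : ℝ) - Complex.I * (p.1 : ℝ)) = FT g p.1 p.2 * conj (Wf c f p) := by
    intro p
    unfold Wf
    rw [map_div₀, mul_div_assoc]
    congr 2
    simp only [map_add, map_mul, Complex.conj_I, Complex.conj_ofReal]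
    ring
  have eW : ∀ p : ℝ × ℝ, ‖FT f p.1 p.2‖ ^ 2 / (c ^ 2 * p.2 ^ 2 + p.1 ^ 2) = ‖Wf c f p‖ ^ 2 := by
    intro p
    unfold Wf
    rw [norm_div, div_pow, norm_den_sq]
  have eD : ∀ p : ℝ × ℝ, ‖FT g p.1 p.2 - Wf c f p‖ ^ 2 =
      ‖FT g p.1 p.2‖ ^ 2 - 2 * (FT g p.1 p.2 * conj (Wf c f p)).re + ‖Wf c f p‖ ^ 2 := by
    intro p
    rw [← Complex.normSq_eq_norm_sq, ← Complex.normSq_eq_norm_sq, ← Complex.normSq_eq_norm_sq,
      Complex.normSq_sub]
    ring
  have eI : ∫ p : ℝ × ℝ, ‖FT g p.1 p.2 - Wf c f p‖ ^ 2 = (∫ p : ℝ × ℝ, ‖FT g p.1 p.2‖ ^ 2) -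
      2 * (∫ p : ℝ × ℝ, FT g p.1 p.2 * conj (Wf c f p)).re + ∫ p : ℝ × ℝ, ‖Wf c f p‖ ^ 2 := by
    simp only [eD]
    have i1 : Integrable fun p : ℝ × ℝ => 2 * (FT g p.1 p.2 * conj (Wf c f p)).re := iX.re.const_mul 2
    have i2 : Integrable fun p : ℝ × ℝ => ‖FT g p.1 p.2‖ ^ 2 -
      2 * (FT g p.1 p.2 * conj (Wf c f p)).re := iG.sub i1
    rw [integral_add i2 iW, integral_sub iG i1, integral_const_mul]
    have hre : ∫ p : ℝ × ℝ, (FT g p.1 p.2 * conj (Wf c f p)).re =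
        (∫ p : ℝ × ℝ, FT g p.1 p.2 * conj (Wf c f p)).re := integral_re iX
    rw [hre]
  unfold sig cov
  simp only [eX, eW]
  rw [eI, plG]
  have hpi : (4 * π ^ 2 : ℝ) ≠ 0 := by positivity
  field_simp
  ring

theorem p5 : P5Statement := by
  intro c κ hc0 hκ f hf hfs h0 ε hε
  have iW := integrable_Wf hc0 hf hfs h0
  have mW := measurable_Wf c hf.continuous hfs
  set δ := ε * (4 * π ^ 2) / (κ + 1) with hδ
  have hδ0 : 0 < δ := by (clear * - hε hκ; positivity)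
  obtain ⟨h, hs, hc, hi, hle⟩ := approx mW iW hδ0
  have hint : Integrable h := hc.continuous.integrable_of_hasCompactSupport hs
  have gc : ContDiff ℝ ∞ (fun z => (h z).re) := Complex.reCLM.contDiff.comp hc
  have gs : HasCompactSupport (fun z => (h z).re) := hs.comp_left (g := fun x : ℂ => x.re) (by simp)
  refine ⟨fun z => (h z).re, gc.continuous, gs, ?_⟩
  rw [defect hc0 hf hfs h0 gc gs]
  have i2 : Integrable fun p : ℝ × ℝ => ‖FTc h (-p).1 (-p).2 - Wf c f (-p)‖ ^ 2 :=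
    hi.comp_neg
  have e2 : ∫ p : ℝ × ℝ, ‖FTc h (-p).1 (-p).2 - Wf c f (-p)‖ ^ 2 =
      ∫ p : ℝ × ℝ, ‖FTc h p.1 p.2 - Wf c f p‖ ^ 2 :=
    integral_neg_eq_self (fun p : ℝ × ℝ => ‖FTc h p.1 p.2 - Wf c f p‖ ^ 2) volume
  have h1 : ∫ p : ℝ × ℝ, ‖FT (fun z => (h z).re) p.1 p.2 - Wf c f p‖ ^ 2 ≤ δ := by
    refine le_trans (integral_mono_of_nonneg (ae_of_all _ fun p => by (clear * -; positivity))
      ((hi.add i2).div_const 2) (ae_of_all _ fun p => dist_re hint c f p)) ?_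
    rw [integral_div]
    have e3 : ∫ p : ℝ × ℝ, ((fun p : ℝ × ℝ => ‖FTc h p.1 p.2 - Wf c f p‖ ^ 2) +
        fun p : ℝ × ℝ => ‖FTc h (-p).1 (-p).2 - Wf c f (-p)‖ ^ 2) p =
        (∫ p : ℝ × ℝ, ‖FTc h p.1 p.2 - Wf c f p‖ ^ 2) +
          ∫ p : ℝ × ℝ, ‖FTc h p.1 p.2 - Wf c f p‖ ^ 2 := by
      refine (integral_add hi i2).trans ?_
      rw [e2]
    rw [e3]
    linarith only [hle]
  calc κ / (4 * π ^ 2) * ∫ p : ℝ × ℝ, ‖FT (fun z => (h z).re) p.1 p.2 - Wf c f p‖ ^ 2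
      ≤ κ / (4 * π ^ 2) * δ := mul_le_mul_of_nonneg_left h1 (by (clear * - hκ; positivity))
    _ = κ / (κ + 1) * ε := by
        rw [hδ]
        have hpi : (4 * π ^ 2 : ℝ) ≠ 0 := by positivity
        (clear * - hκ hε; field_simp)
    _ ≤ ε := by
        have : κ / (κ + 1) ≤ 1 := by rw [div_le_one (by linarith)]; linarith
        nlinarith only [hε, this]

end Vale.Agent.P153.TwoPt.P5
end

section

/-!
# P153, two-point part: assembled (P1-P6 all proved)
-/

namespace Vale.Agent.P153.TwoPt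

theorem kl_all : KLStatement := kl_of_conc conc

/-- (P1) the variance of `X`. -/
theorem p1 : P1Statement := p1_of KB kl_all

/-- (P2) the covariance of `X` and `X'`. -/
theorem p2 : P2Statement := p2_of KB kl_all

/-- (P5) completeness of the innovations. -/
theorem p5 : P5Statement := P5.p5

end Vale.Agent.P153.TwoPt
end

section

/-!
P145, block F-A: from characteristic functions to moments in the Schwinger-Dyson equations.
-/

namespace Vale.Agent.P145.FA.Use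

open MeasureTheory Filter Topology Complex

/-- Squeeze with a free parameter. -/
lemma tendsto_of_param {x : ℕ → ℂ} {C h0 : ℝ} (h0pos : 0 < h0)
    (h : ∀ η : ℝ, 0 < η → η < h0 → ∃ y : ℕ → ℝ, Tendsto y atTop (𝓝 0) ∧
      ∀ᶠ n in atTop, ‖x n‖ ≤ y n + C * η) : Tendsto x atTop (𝓝 0) := by
  rw [Metric.tendsto_atTop']
  intro ε hε
  have hC : (0 : ℝ) < |C| + 1 := by (clear * -; positivity)
  set η : ℝ := min (h0 / 2) (ε / 4 / (|C| + 1)) with hη
  have hη0 : 0 < η := lt_min (by linarith only [h0pos]) (by positivity)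
  have hη1 : η < h0 := (min_le_left _ _).trans_lt (by linarith only [h0pos])
  have hη2 : η ≤ ε / 4 / (|C| + 1) := min_le_right _ _
  obtain ⟨y, hy, hxy⟩ := h η hη0 hη1
  have h1 : ∀ᶠ n in atTop, y n < ε / 2 := hy.eventually (gt_mem_nhds (by linarith only [hε]))
  obtain ⟨N, hN⟩ := eventually_atTop.1 (h1.and hxy)
  refine ⟨N, fun n hn => ?_⟩
  obtain ⟨a1, a2⟩ := hN n hn.le
  have h3 : C * η ≤ ε / 4 := by
    have h4 : C * η ≤ (|C| + 1) * η := mul_le_mul_of_nonneg_right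
      ((le_abs_self C).trans (by linarith only [])) hη0.le
    have h5 : (|C| + 1) * η ≤ ε / 4 := by
      rw [le_div_iff₀ hC] at hη2
      (clear * - hη2; linarith)
    linarith only [h4, h5]
  rw [dist_zero_right]
  linarith only [hε, a1, a2, h3]

lemma norm_expI (x : ℝ) : ‖cexp (I * x)‖ = 1 := by
  rw [mul_comm]
  exact Complex.norm_exp_ofReal_mul_I x

lemma expI_sub_one (x : ℝ) : ‖cexp (I * x) - 1‖ ≤ |x| := by
  have := Real.norm_exp_I_mul_ofReal_sub_one_le (x := x)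
  rwa [Real.norm_eq_abs] at this

lemma expI_taylor (x : ℝ) : ‖cexp (I * x) - 1 - I * x‖ ≤ 3 * x ^ 2 := by
  have hn : ‖(I * x : ℂ)‖ = |x| := by simp
  by_cases hx : |x| ≤ 1
  · have h := Complex.norm_exp_sub_one_sub_id_le (x := I * x) (by rw [hn]; exact hx)
    rw [hn, sq_abs] at h
    nlinarith only [h]
  · push Not at hx
    have h1 := norm_sub_le (cexp (I * x) - 1) (I * x)
    rw [hn] at h1
    have h2 := expI_sub_one x
    have h3 : |x| ≤ x ^ 2 := by rw [← sq_abs]; nlinarith only [hx]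
    linarith only [hx, h1, h2, h3]

variable {Ω : Type*} [MeasurableSpace Ω]

/-- Bounded moments. -/
def BM (M : ℕ → Measure Ω) (V : ℕ → Ω → ℝ) : Prop :=
  (∀ n, Measurable (V n)) ∧ ∀ k : ℕ, ∃ C : ℝ, 0 ≤ C ∧ ∀ᶠ n in atTop,
    Integrable (fun ω => |V n ω| ^ k) (M n) ∧ ∫ ω, |V n ω| ^ k ∂(M n) ≤ C

/-- The integrand. -/
noncomputable def aj (κp : ℝ) (j : ℕ) (t u v : ℝ) : ℂ :=
  (I * u + κp * t) * (I * v) ^ j * cexp (I * ((t * v : ℝ) : ℂ)) +
    κp * j * (I * v) ^ (j - 1) * cexp (I * ((t * v : ℝ) : ℂ))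

lemma norm_Iv (v : ℝ) (j : ℕ) : ‖(I * v : ℂ) ^ j‖ = |v| ^ j := by
  rw [norm_pow]; simp

lemma aj_step (κp : ℝ) (j : ℕ) (t η u v : ℝ) (hη : 0 < η) :
    ‖aj κp j (t + η) u v - aj κp j t u v - η * aj κp (j + 1) t u v‖ ≤
      η ^ 2 * (3 * (|u| + |κp * t|) * |v| ^ (j + 2) + 3 * |κp| * (1 + j) * |v| ^ (j + 1)) := by
  have e0 : cexp (I * (((t + η) * v : ℝ) : ℂ)) =
      cexp (I * ((t * v : ℝ) : ℂ)) * cexp (I * ((η * v : ℝ) : ℂ)) := by
    rw [← Complex.exp_add]; congr 1; push_cast; ring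
  set A := cexp (I * ((t * v : ℝ) : ℂ)) with hA
  set B := cexp (I * ((η * v : ℝ) : ℂ)) with hB
  have hAn : ‖A‖ = 1 := norm_expI _
  have hB0 : ‖B - 1‖ ≤ η * |v| := by
    have := expI_sub_one (η * v)
    rwa [abs_mul, abs_of_pos hη] at this
  have hB1 : ‖B - 1 - I * ((η * v : ℝ) : ℂ)‖ ≤ 3 * (η * v) ^ 2 := expI_taylor _
  have key : aj κp j (t + η) u v - aj κp j t u v - η * aj κp (j + 1) t u v =
      (I * u + κp * t) * (I * v) ^ j * A * (B - 1 - I * ((η * v : ℝ) : ℂ)) +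
      κp * η * (I * v) ^ j * A * (B - 1) +
      κp * j * (I * v) ^ (j - 1) * A * (B - 1 - I * ((η * v : ℝ) : ℂ)) := by
    unfold aj
    rw [e0, ← hA]
    rcases j with _ | j
    · simp only [Nat.cast_zero, pow_zero]
      push_cast
      simp only [pow_one, pow_zero]
      ring
    · simp only [Nat.add_sub_cancel]
      push_cast
      ring
  rw [key]
  have n1 : ‖(I * u + κp * t : ℂ)‖ ≤ |u| + |κp * t| := by
    refine (norm_add_le _ _).trans (le_of_eq ?_)
    rw [norm_mul, Complex.norm_I, one_mul, Complex.norm_real, Real.norm_eq_abs,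
      ← Complex.ofReal_mul, Complex.norm_real, Real.norm_eq_abs]
  have T1 : ‖(I * u + κp * t) * (I * v) ^ j * A * (B - 1 - I * ((η * v : ℝ) : ℂ))‖ ≤
      η ^ 2 * (3 * (|u| + |κp * t|) * |v| ^ (j + 2)) := by
    rw [norm_mul, norm_mul, norm_mul, hAn, mul_one, norm_Iv]
    calc ‖(I * u + κp * t : ℂ)‖ * |v| ^ j * ‖B - 1 - I * ((η * v : ℝ) : ℂ)‖
        ≤ (|u| + |κp * t|) * |v| ^ j * (3 * (η * v) ^ 2) :=
          mul_le_mul (mul_le_mul_of_nonneg_right n1 (by (clear * -; positivity))) hB1 (norm_nonneg _)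
            (by (clear * -; positivity))
      _ = η ^ 2 * (3 * (|u| + |κp * t|) * |v| ^ (j + 2)) := by
          rw [pow_add, sq_abs]; ring
  have T2 : ‖(κp : ℂ) * η * (I * v) ^ j * A * (B - 1)‖ ≤ η ^ 2 * (|κp| * |v| ^ (j + 1)) := by
    rw [norm_mul, norm_mul, norm_mul, norm_mul, hAn, mul_one, norm_Iv, Complex.norm_real,
      Complex.norm_real, Real.norm_eq_abs, Real.norm_eq_abs, abs_of_pos hη]
    calc |κp| * η * |v| ^ j * ‖B - 1‖ ≤ |κp| * η * |v| ^ j * (η * |v|) :=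
          mul_le_mul_of_nonneg_left hB0 (by (clear * - hη; positivity))
      _ = η ^ 2 * (|κp| * |v| ^ (j + 1)) := by ring
  have T3 : ‖(κp : ℂ) * j * (I * v) ^ (j - 1) * A * (B - 1 - I * ((η * v : ℝ) : ℂ))‖ ≤
      η ^ 2 * (3 * |κp| * j * |v| ^ (j + 1)) := by
    rcases j with _ | j
    · simp
    · rw [norm_mul, norm_mul, norm_mul, norm_mul, hAn, mul_one, norm_Iv, Complex.norm_real,
        Real.norm_eq_abs, Complex.norm_natCast]
      simp only [Nat.add_sub_cancel]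
      calc |κp| * ((j + 1 : ℕ) : ℝ) * |v| ^ j * ‖B - 1 - I * ((η * v : ℝ) : ℂ)‖
          ≤ |κp| * ((j + 1 : ℕ) : ℝ) * |v| ^ j * (3 * (η * v) ^ 2) :=
            mul_le_mul_of_nonneg_left hB1 (by (clear * -; positivity))
        _ = η ^ 2 * (3 * |κp| * ((j + 1 : ℕ) : ℝ) * |v| ^ (j + 1 + 1)) := by
            rw [show |v| ^ (j + 1 + 1) = |v| ^ j * |v| ^ 2 by ring, sq_abs]; ring
  refine (norm_add_le _ _).trans ((add_le_add (norm_add_le _ _) le_rfl).trans ?_)
  have hp : 0 ≤ η ^ 2 * (|κp| * |v| ^ (j + 1)) := by (clear * - hη; positivity)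
  calc _ ≤ η ^ 2 * (3 * (|u| + |κp * t|) * |v| ^ (j + 2)) + η ^ 2 * (|κp| * |v| ^ (j + 1)) +
        η ^ 2 * (3 * |κp| * j * |v| ^ (j + 1)) := add_le_add (add_le_add T1 T2) T3
    _ ≤ _ := by nlinarith only [hp]

lemma norm_aj_le (κp : ℝ) (j : ℕ) (t u v : ℝ) : ‖aj κp j t u v‖ ≤
    (|u| + |κp * t|) * |v| ^ j + |κp| * j * |v| ^ (j - 1) := by
  unfold aj
  refine (norm_add_le _ _).trans (add_le_add ?_ ?_)
  · rw [norm_mul, norm_mul, norm_expI, mul_one, norm_Iv]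
    refine mul_le_mul_of_nonneg_right ?_ (by (clear * -; positivity))
    refine (norm_add_le _ _).trans (le_of_eq ?_)
    rw [norm_mul, Complex.norm_I, one_mul, Complex.norm_real, Real.norm_eq_abs,
      ← Complex.ofReal_mul, Complex.norm_real, Real.norm_eq_abs]
  · rw [norm_mul, norm_mul, norm_mul, norm_expI, mul_one, norm_Iv, Complex.norm_real,
      Real.norm_eq_abs, Complex.norm_natCast]

variable {M : ℕ → Measure Ω} {U V : ℕ → Ω → ℝ}

lemma BM.prod (hU : BM M U) (hV : BM M V) (a b : ℕ) : ∃ C : ℝ, 0 ≤ C ∧ ∀ᶠ n in atTop,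
    Integrable (fun ω => |U n ω| ^ a * |V n ω| ^ b) (M n) ∧
    ∫ ω, |U n ω| ^ a * |V n ω| ^ b ∂(M n) ≤ C := by
  obtain ⟨C1, hC1, h1⟩ := hU.2 (2 * a)
  obtain ⟨C2, hC2, h2⟩ := hV.2 (2 * b)
  refine ⟨C1 + C2, by (clear * - hC1 hC2; positivity), ?_⟩
  filter_upwards [h1, h2] with n hn1 hn2
  have key : ∀ ω, |U n ω| ^ a * |V n ω| ^ b ≤ |U n ω| ^ (2 * a) + |V n ω| ^ (2 * b) := by
    intro ω
    rw [pow_mul', pow_mul']
    nlinarith only []
  have hm : AEStronglyMeasurable (fun ω => |U n ω| ^ a * |V n ω| ^ b) (M n) := by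
    have m1 := hU.1 n
    have m2 := hV.1 n
    have m3 : Measurable (fun ω => |U n ω| ^ a * |V n ω| ^ b) := by fun_prop
    exact m3.aestronglyMeasurable
  have hi : Integrable (fun ω => |U n ω| ^ a * |V n ω| ^ b) (M n) := by
    refine (hn1.1.add hn2.1).mono' hm (Eventually.of_forall fun ω => ?_)
    rw [Real.norm_eq_abs, abs_of_nonneg (by (clear * -; positivity))]
    exact key ω
  refine ⟨hi, ?_⟩
  refine (integral_mono hi (hn1.1.add hn2.1) key).trans ?_
  have e : ∫ ω, (|U n ω| ^ (2 * a) + |V n ω| ^ (2 * b)) ∂(M n) =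
      ∫ ω, |U n ω| ^ (2 * a) ∂(M n) + ∫ ω, |V n ω| ^ (2 * b) ∂(M n) := integral_add hn1.1 hn2.1
  exact e.le.trans (add_le_add hn1.2 hn2.2)

lemma meas_aj (hU : ∀ n, Measurable (U n)) (hV : ∀ n, Measurable (V n)) (κp : ℝ) (j : ℕ) (t : ℝ)
    (n : ℕ) : AEStronglyMeasurable (fun ω => aj κp j t (U n ω) (V n ω)) (M n) := by
  have m1 := hU n
  have m2 := hV n
  have m3 : Measurable (fun ω => aj κp j t (U n ω) (V n ω)) := by
    unfold aj
    fun_prop
  exact m3.aestronglyMeasurable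

lemma aj_int (hU : BM M U) (hV : BM M V) (κp : ℝ) (j : ℕ) (t : ℝ) :
    ∀ᶠ n in atTop, Integrable (fun ω => aj κp j t (U n ω) (V n ω)) (M n) := by
  obtain ⟨C1, hC1, h1⟩ := hU.prod hV 1 j
  obtain ⟨C2, hC2, h2⟩ := hV.2 j
  obtain ⟨C3, hC3, h3⟩ := hV.2 (j - 1)
  filter_upwards [h1, h2, h3] with n hn1 hn2 hn3
  refine ((hn1.1.add (hn2.1.const_mul |κp * t|)).add (hn3.1.const_mul (|κp| * j))).mono'
    (meas_aj hU.1 hV.1 κp j t n) (Eventually.of_forall fun ω => ?_)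
  refine (norm_aj_le κp j t _ _).trans (le_of_eq ?_)
  simp only [Pi.add_apply, pow_one]
  ring

lemma aj_tendsto (hU : BM M U) (hV : BM M V) (κp : ℝ)
    (h0 : ∀ t : ℝ, Tendsto (fun n => ∫ ω, aj κp 0 t (U n ω) (V n ω) ∂(M n)) atTop (𝓝 0)) (j : ℕ) :
    ∀ t : ℝ, Tendsto (fun n => ∫ ω, aj κp j t (U n ω) (V n ω) ∂(M n)) atTop (𝓝 0) := by
  induction j with
  | zero => exact h0
  | succ j ih =>
    intro t
    obtain ⟨C1, hC1, h1⟩ := hU.prod hV 1 (j + 2)
    obtain ⟨C2, hC2, h2⟩ := hV.2 (j + 2)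
    obtain ⟨C3, hC3, h3⟩ := hV.2 (j + 1)
    refine tendsto_of_param (C := 3 * C1 + 3 * |κp * t| * C2 + 3 * |κp| * (1 + j) * C3) one_pos
      fun η hη _ => ?_
    refine ⟨fun n => η⁻¹ * (‖∫ ω, aj κp j (t + η) (U n ω) (V n ω) ∂(M n)‖ +
      ‖∫ ω, aj κp j t (U n ω) (V n ω) ∂(M n)‖), ?_, ?_⟩
    · have a1 := (ih (t + η)).norm
      have a2 := (ih t).norm
      rw [norm_zero] at a1 a2
      have := (a1.add a2).const_mul η⁻¹
      rwa [add_zero, mul_zero] at this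
    · filter_upwards [h1, h2, h3, aj_int hU hV κp j (t + η), aj_int hU hV κp j t,
        aj_int hU hV κp (j + 1) t] with n hn1 hn2 hn3 i1 i2 i3
      set R : Ω → ℂ := fun ω => aj κp j (t + η) (U n ω) (V n ω) - aj κp j t (U n ω) (V n ω) -
        η * aj κp (j + 1) t (U n ω) (V n ω) with hR
      have e1 : ∫ ω, R ω ∂(M n) = ∫ ω, aj κp j (t + η) (U n ω) (V n ω) ∂(M n) -
          ∫ ω, aj κp j t (U n ω) (V n ω) ∂(M n) -
          η * ∫ ω, aj κp (j + 1) t (U n ω) (V n ω) ∂(M n) := by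
        have i12 : Integrable (fun ω => aj κp j (t + η) (U n ω) (V n ω) -
          aj κp j t (U n ω) (V n ω)) (M n) := i1.sub i2
        rw [hR, integral_sub i12 (i3.const_mul _), integral_sub i1 i2, integral_const_mul]
      set b : Ω → ℝ := fun ω => 3 * (|U n ω| ^ 1 * |V n ω| ^ (j + 2)) +
        3 * |κp * t| * |V n ω| ^ (j + 2) + 3 * |κp| * (1 + j) * |V n ω| ^ (j + 1) with hb
      have ib1 : Integrable (fun ω => 3 * (|U n ω| ^ 1 * |V n ω| ^ (j + 2))) (M n) :=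
        hn1.1.const_mul _
      have ib2 : Integrable (fun ω => 3 * |κp * t| * |V n ω| ^ (j + 2)) (M n) :=
        hn2.1.const_mul _
      have ib3 : Integrable (fun ω => 3 * |κp| * (1 + j) * |V n ω| ^ (j + 1)) (M n) :=
        hn3.1.const_mul _
      have eb : ∫ ω, b ω ∂(M n) ≤ 3 * C1 + 3 * |κp * t| * C2 + 3 * |κp| * (1 + j) * C3 := by
        have i12 : Integrable (fun ω => 3 * (|U n ω| ^ 1 * |V n ω| ^ (j + 2)) +
          3 * |κp * t| * |V n ω| ^ (j + 2)) (M n) := ib1.add ib2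
        rw [hb, integral_add i12 ib3, integral_add ib1 ib2, integral_const_mul,
          integral_const_mul, integral_const_mul]
        refine add_le_add (add_le_add ?_ ?_) ?_
        · exact mul_le_mul_of_nonneg_left hn1.2 (by norm_num)
        · exact mul_le_mul_of_nonneg_left hn2.2 (by (clear * -; positivity))
        · exact mul_le_mul_of_nonneg_left hn3.2 (by (clear * -; positivity))
      have e2 : ‖∫ ω, R ω ∂(M n)‖ ≤ η ^ 2 *
          (3 * C1 + 3 * |κp * t| * C2 + 3 * |κp| * (1 + j) * C3) := by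
        have h5 : ‖∫ ω, R ω ∂(M n)‖ ≤ ∫ ω, η ^ 2 * b ω ∂(M n) := by
          refine norm_integral_le_of_norm_le (((ib1.add ib2).add ib3).const_mul (η ^ 2))
            (Eventually.of_forall fun ω => ?_)
          refine (aj_step κp j t η _ _ hη).trans (le_of_eq ?_)
          simp only [hb]
          ring
        rw [integral_const_mul] at h5
        exact h5.trans (mul_le_mul_of_nonneg_left eb (by positivity))
      have e3 : (η : ℂ) * ∫ ω, aj κp (j + 1) t (U n ω) (V n ω) ∂(M n) =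
          ∫ ω, aj κp j (t + η) (U n ω) (V n ω) ∂(M n) -
          ∫ ω, aj κp j t (U n ω) (V n ω) ∂(M n) - ∫ ω, R ω ∂(M n) := by
        rw [e1]; ring
      have e4 : η * ‖∫ ω, aj κp (j + 1) t (U n ω) (V n ω) ∂(M n)‖ ≤
          ‖∫ ω, aj κp j (t + η) (U n ω) (V n ω) ∂(M n)‖ +
          ‖∫ ω, aj κp j t (U n ω) (V n ω) ∂(M n)‖ +
          η ^ 2 * (3 * C1 + 3 * |κp * t| * C2 + 3 * |κp| * (1 + j) * C3) := by
        have h6 := congrArg norm e3
        rw [norm_mul, Complex.norm_real, Real.norm_eq_abs, abs_of_pos hη] at h6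
        rw [h6]
        exact (norm_sub_le _ _).trans (add_le_add (norm_sub_le _ _) e2)
      have e5 : ‖∫ ω, aj κp (j + 1) t (U n ω) (V n ω) ∂(M n)‖ =
          η⁻¹ * (η * ‖∫ ω, aj κp (j + 1) t (U n ω) (V n ω) ∂(M n)‖) := by
        rw [← mul_assoc, inv_mul_cancel₀ hη.ne', one_mul]
      rw [e5]
      refine (mul_le_mul_of_nonneg_left e4 (inv_nonneg.2 hη.le)).trans (le_of_eq ?_)
      (clear * - hη; field_simp)

/-- The base case. -/
lemma a0_tendsto [∀ n, IsFiniteMeasure (M n)] (hU : BM M U) (hV : BM M V) {κ p q : ℝ}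
    (h : ∀ s t : ℝ, Tendsto (fun n => ∫ ω, cexp (I * ((t * V n ω : ℝ) : ℂ)) *
      (cexp (I * ((s * U n ω : ℝ) : ℂ)) -
        ((Real.exp (-(κ * (s * t * p)) - κ / 2 * (s ^ 2 * q)) : ℝ) : ℂ)) ∂(M n)) atTop (𝓝 0))
    (t : ℝ) : Tendsto (fun n => ∫ ω, aj (κ * p) 0 t (U n ω) (V n ω) ∂(M n)) atTop (𝓝 0) := by
  obtain ⟨C1, hC1, h1⟩ := hU.2 2
  obtain ⟨C2, hC2, h2⟩ := hU.2 0
  set D : ℝ := |κ * p * t| + |κ / 2 * q| with hD
  have hD0 : 0 ≤ D := by (clear * -; positivity)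
  refine tendsto_of_param (C := 3 * C1 + (D ^ 2 + D) * C2) (h0 := (1 + D)⁻¹) (by (clear * -; positivity))
    fun s hs hs1 => ?_
  have hs2 : s * (1 + D) < 1 := by
    have h5 : s < 1 / (1 + D) := by rwa [one_div]
    rwa [lt_div_iff₀ (by (clear * -; positivity))] at h5
  have hs3 : s ≤ 1 := by nlinarith only [hs2, hD0]
  set al : ℝ := Real.exp (-(κ * (s * t * p)) - κ / 2 * (s ^ 2 * q)) with hal
  have hal1 : |al - 1 + κ * p * t * s| ≤ (D ^ 2 + D) * s ^ 2 := by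
    set x : ℝ := -(κ * (s * t * p)) - κ / 2 * (s ^ 2 * q) with hx
    have hx1 : |x| ≤ D * s := by
      have e : x = -(s * (κ * p * t)) - s ^ 2 * (κ / 2 * q) := by rw [hx]; ring
      rw [e]
      refine (abs_sub _ _).trans ?_
      rw [abs_neg, abs_mul s, abs_mul (s ^ 2), abs_of_pos hs,
        abs_of_pos (by positivity : 0 < s ^ 2), hD]
      have : s ^ 2 * |κ / 2 * q| ≤ s * |κ / 2 * q| :=
        mul_le_mul_of_nonneg_right (by nlinarith only [hD0, hs, hs2]) (abs_nonneg _)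
      nlinarith only [this]
    have hx2 : |x| ≤ 1 := hx1.trans (by nlinarith only [hs, hs2])
    have h3 := Real.abs_exp_sub_one_sub_id_le hx2
    have h4 : al - 1 + κ * p * t * s = (al - 1 - x) + -(s ^ 2 * (κ / 2 * q)) := by rw [hx]; ring
    rw [h4]
    refine (abs_add_le _ _).trans ?_
    rw [abs_neg, abs_mul, abs_of_pos (by positivity : 0 < s ^ 2)]
    have h5 : x ^ 2 ≤ (D * s) ^ 2 := sq_le_sq' (by linarith only [hx1, neg_abs_le x]) ((le_abs_self x).trans hx1)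
    have h6 : |κ / 2 * q| ≤ D := by rw [hD]; linarith only [abs_nonneg (κ * p * t)]
    nlinarith only [h3, h5, h6]
  refine ⟨fun n => s⁻¹ * ‖∫ ω, cexp (I * ((t * V n ω : ℝ) : ℂ)) *
      (cexp (I * ((s * U n ω : ℝ) : ℂ)) - (al : ℂ)) ∂(M n)‖, ?_, ?_⟩
  · have a1 := (h s t).norm
    rw [norm_zero] at a1
    have := a1.const_mul s⁻¹
    rwa [mul_zero] at this
  · filter_upwards [h1, h2, aj_int hU hV (κ * p) 0 t] with n hn1 hn2 i1
    have mU := hU.1 n
    have mV := hV.1 n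
    have i2 : Integrable (fun ω => cexp (I * ((t * V n ω : ℝ) : ℂ)) *
      (cexp (I * ((s * U n ω : ℝ) : ℂ)) - (al : ℂ))) (M n) := by
      refine Integrable.of_bound (C := 1 + |al|) ?_ (Eventually.of_forall fun ω => ?_)
      · have m3 : Measurable (fun ω => cexp (I * ((t * V n ω : ℝ) : ℂ)) *
          (cexp (I * ((s * U n ω : ℝ) : ℂ)) - (al : ℂ))) := by fun_prop
        exact m3.aestronglyMeasurable
      · rw [norm_mul, norm_expI, one_mul]
        refine (norm_sub_le _ _).trans ?_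
        rw [norm_expI, Complex.norm_real, Real.norm_eq_abs]
    set R : Ω → ℂ := fun ω => cexp (I * ((t * V n ω : ℝ) : ℂ)) *
      (cexp (I * ((s * U n ω : ℝ) : ℂ)) - (al : ℂ)) - s * aj (κ * p) 0 t (U n ω) (V n ω) with hR
    have e1 : ∫ ω, R ω ∂(M n) = ∫ ω, cexp (I * ((t * V n ω : ℝ) : ℂ)) *
      (cexp (I * ((s * U n ω : ℝ) : ℂ)) - (al : ℂ)) ∂(M n) -
        s * ∫ ω, aj (κ * p) 0 t (U n ω) (V n ω) ∂(M n) := by
      rw [hR, integral_sub i2 (i1.const_mul _), integral_const_mul]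
    have hRb : ∀ ω, ‖R ω‖ ≤ s ^ 2 * (3 * |U n ω| ^ 2 + (D ^ 2 + D) * |U n ω| ^ 0) := by
      intro ω
      have e : R ω = cexp (I * ((t * V n ω : ℝ) : ℂ)) *
          ((cexp (I * ((s * U n ω : ℝ) : ℂ)) - 1 - I * ((s * U n ω : ℝ) : ℂ)) -
            ((al - 1 + κ * p * t * s : ℝ) : ℂ)) := by
        rw [hR]
        simp only [aj]
        push_cast
        ring
      rw [e, norm_mul, norm_expI, one_mul]
      refine (norm_sub_le _ _).trans ?_
      rw [Complex.norm_real, Real.norm_eq_abs]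
      have h7 := expI_taylor (s * U n ω)
      rw [sq_abs, pow_zero]
      linarith
    have e2 : ‖∫ ω, R ω ∂(M n)‖ ≤ s ^ 2 * (3 * C1 + (D ^ 2 + D) * C2) := by
      have ib : Integrable (fun ω => 3 * |U n ω| ^ 2 + (D ^ 2 + D) * |U n ω| ^ 0) (M n) :=
        (hn1.1.const_mul _).add (hn2.1.const_mul _)
      have h5 : ‖∫ ω, R ω ∂(M n)‖ ≤
          ∫ ω, s ^ 2 * (3 * |U n ω| ^ 2 + (D ^ 2 + D) * |U n ω| ^ 0) ∂(M n) :=
        norm_integral_le_of_norm_le (ib.const_mul _) (Eventually.of_forall hRb)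
      rw [integral_const_mul, integral_add (hn1.1.const_mul _) (hn2.1.const_mul _),
        integral_const_mul, integral_const_mul] at h5
      refine h5.trans (mul_le_mul_of_nonneg_left (add_le_add ?_ ?_) (by positivity))
      · exact mul_le_mul_of_nonneg_left hn1.2 (by norm_num)
      · exact mul_le_mul_of_nonneg_left hn2.2 (by (clear * -; positivity))
    have e3 : (s : ℂ) * ∫ ω, aj (κ * p) 0 t (U n ω) (V n ω) ∂(M n) =
        ∫ ω, cexp (I * ((t * V n ω : ℝ) : ℂ)) *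
      (cexp (I * ((s * U n ω : ℝ) : ℂ)) - (al : ℂ)) ∂(M n) - ∫ ω, R ω ∂(M n) := by
      rw [e1]; ring
    have e4 : s * ‖∫ ω, aj (κ * p) 0 t (U n ω) (V n ω) ∂(M n)‖ ≤
        ‖∫ ω, cexp (I * ((t * V n ω : ℝ) : ℂ)) *
      (cexp (I * ((s * U n ω : ℝ) : ℂ)) - (al : ℂ)) ∂(M n)‖ +
        s ^ 2 * (3 * C1 + (D ^ 2 + D) * C2) := by
      have h6 := congrArg norm e3
      rw [norm_mul, Complex.norm_real, Real.norm_eq_abs, abs_of_pos hs] at h6
      rw [h6]
      exact (norm_sub_le _ _).trans (add_le_add le_rfl e2)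
    have e5 : ‖∫ ω, aj (κ * p) 0 t (U n ω) (V n ω) ∂(M n)‖ =
        s⁻¹ * (s * ‖∫ ω, aj (κ * p) 0 t (U n ω) (V n ω) ∂(M n)‖) := by
      rw [← mul_assoc, inv_mul_cancel₀ hs.ne', one_mul]
    rw [e5]
    refine (mul_le_mul_of_nonneg_left e4 (inv_nonneg.2 hs.le)).trans (le_of_eq ?_)
    (clear * - hs; field_simp)

/-- **Moments.** From the characteristic functions to the Schwinger-Dyson equation for the
moments. -/
theorem moments [∀ n, IsFiniteMeasure (M n)] (hU : BM M U) (hV : BM M V) {κ p q : ℝ}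
    (h : ∀ s t : ℝ, Tendsto (fun n => ∫ ω, cexp (I * ((t * V n ω : ℝ) : ℂ)) *
      (cexp (I * ((s * U n ω : ℝ) : ℂ)) -
        ((Real.exp (-(κ * (s * t * p)) - κ / 2 * (s ^ 2 * q)) : ℝ) : ℂ)) ∂(M n)) atTop (𝓝 0))
    (k : ℕ) : Tendsto (fun n => (∫ ω, U n ω * V n ω ^ k ∂(M n)) -
      κ * p * k * ∫ ω, V n ω ^ (k - 1) ∂(M n)) atTop (𝓝 0) := by
  have h1 := aj_tendsto hU hV (κ * p) (a0_tendsto hU hV h) k 0
  have h2 := h1.norm
  rw [norm_zero] at h2
  refine squeeze_zero_norm' ?_ h2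
  obtain ⟨C1, hC1, g1⟩ := hU.prod hV 1 k
  obtain ⟨C2, hC2, g2⟩ := hV.2 (k - 1)
  filter_upwards [g1, g2] with n hn1 hn2
  have mU := hU.1 n
  have mV := hV.1 n
  have i1 : Integrable (fun ω => U n ω * V n ω ^ k) (M n) := by
    refine hn1.1.mono' ?_ (Eventually.of_forall fun ω => ?_)
    · have m3 : Measurable (fun ω => U n ω * V n ω ^ k) := by fun_prop
      exact m3.aestronglyMeasurable
    · rw [Real.norm_eq_abs, abs_mul, abs_pow, pow_one]
  have i2 : Integrable (fun ω => V n ω ^ (k - 1)) (M n) := by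
    refine hn2.1.mono' ?_ (Eventually.of_forall fun ω => ?_)
    · have m3 : Measurable (fun ω => V n ω ^ (k - 1)) := by fun_prop
      exact m3.aestronglyMeasurable
    · rw [Real.norm_eq_abs, abs_pow]
  have e : ∀ ω, aj (κ * p) k 0 (U n ω) (V n ω) =
      I ^ (k + 1) * ((U n ω * V n ω ^ k - κ * p * k * V n ω ^ (k - 1) : ℝ) : ℂ) := by
    intro ω
    unfold aj
    rcases k with _ | k
    · simp
    · simp only [Nat.add_sub_cancel, zero_mul, Complex.ofReal_zero, mul_zero, Complex.exp_zero,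
        mul_one, add_zero, mul_pow]
      push_cast
      have hI : I ^ (k + 1 + 1) = - I ^ k := by rw [pow_add, pow_add]; simp [mul_assoc]
      have hI1 : I * (U n ω : ℂ) * (I ^ (k + 1) * (V n ω : ℂ) ^ (k + 1)) =
        I ^ (k + 1 + 1) * (U n ω * V n ω ^ (k + 1)) := by ring
      rw [hI1, hI]
      ring
  simp only [e]
  rw [integral_const_mul, norm_mul, norm_pow, Complex.norm_I, one_pow, one_mul,
    integral_complex_ofReal, Complex.norm_real, integral_sub i1 (i2.const_mul _),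
    integral_const_mul]

end Vale.Agent.P145.FA.Use
end

section

/-!
# P153-F: tails of linear functionals of the plane measure, from the discrete midpoint inequality
-/

namespace Vale.Agent.P153.F.PL

open Finset MeasureTheory Filter Topology
open Vale.Agent.P153.GFF (Ht Pat LocLim hexa)

/-- Local limits: expectations of functions of the height differences. -/
theorem lim_loc {P : Measure (ℤ × ℤ → ℤ)} [IsProbabilityMeasure P]
    (hl : ∀ᵐ φ ∂P, ∀ x y, GFF.Adj x y → |φ x - φ y| ≤ 1) (hP : LocLim P hexa)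
    (B : Finset (ℤ × ℤ)) (F : (ℤ × ℤ → ℤ) → ℝ)
    (hF : ∀ φ ψ : ℤ × ℤ → ℤ, (∀ x ∈ B, ∀ y ∈ B, φ x - φ y = ψ x - ψ y) → F φ = F ψ) :
    Tendsto (fun n => Vale.Agent.P153.ev (Fv.reg (hexa n)) F) atTop (𝓝 (∫ φ, F φ ∂P)) := by
  classical
  obtain ⟨A, hA⟩ := Strip.exists_patterns B
  set B' : Finset (ℤ × ℤ) := insert (0, 0) B with hB'
  have e1 : ∀ n, Vale.Agent.P153.ev (Fv.reg (hexa n)) F =
      ∑ a ∈ A, F a * (((Ht (hexa n) ∩ Pat B' a).ncard : ℝ) / (Ht (hexa n)).ncard) := by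
    intro n
    have h1 : ∀ φ ∈ Fv.reg (hexa n), F φ = ∑ a ∈ A, if φ ∈ Pat B' a then F a else 0 :=
      fun φ hφ => hA F hF φ fun x y hxy => (Fv.mem_reg.1 hφ).2.2 x y hxy
    unfold Vale.Agent.P153.ev
    rw [Finset.sum_congr rfl h1, Finset.sum_comm, Finset.sum_div]
    refine Finset.sum_congr rfl fun a _ => ?_
    rw [← Finset.sum_filter, Finset.sum_const, nsmul_eq_mul, Strip.Ht_eq_reg]
    rw [Set.ncard_coe_finset]
    have h2 : ((Fv.reg (hexa n) : Set (ℤ × ℤ → ℤ)) ∩ Pat B' a) =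
        (((Fv.reg (hexa n)).filter fun φ => φ ∈ Pat B' a : Finset (ℤ × ℤ → ℤ)) :
          Set (ℤ × ℤ → ℤ)) := by
      ext φ
      simp
    rw [h2, Set.ncard_coe_finset, mul_comm, mul_div_assoc]
  have e2 : ∫ φ, F φ ∂P = ∑ a ∈ A, F a * P.real (Pat B' a) := by
    have h1 : ∀ᵐ φ ∂P, F φ = ∑ a ∈ A, (Pat B' a).indicator (fun _ => F a) φ := by
      filter_upwards [hl] with φ hφ
      rw [hA F hF φ hφ]
      refine Finset.sum_congr rfl fun a _ => ?_
      simp only [Set.indicator_apply]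
    rw [integral_congr_ae h1, integral_finsetSum]
    · refine Finset.sum_congr rfl fun a _ => ?_
      rw [integral_indicator_const _ (Strip.measurableSet_Pat B' a), smul_eq_mul, mul_comm]
    · intro a _
      exact (integrable_const _).indicator (Strip.measurableSet_Pat B' a)
  simp only [e1]
  rw [e2]
  exact tendsto_finsetSum _ fun a _ => (hP B' a).const_mul _

/-- Linear functional of the heights. -/
def lin (B : Finset (ℤ × ℤ)) (a : ℤ × ℤ → ℝ) (φ : ℤ × ℤ → ℤ) : ℝ := ∑ v ∈ B, a v * φ v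

theorem lin_fl (B : Finset (ℤ × ℤ)) (a : ℤ × ℤ → ℝ) (φ ψ : ℤ × ℤ → ℤ) :
    (lin B a φ + lin B a ψ) / 2 - (∑ v ∈ B, |a v|) / 2 ≤ lin B a (fl φ ψ) := by
  unfold lin
  rw [← sum_add_distrib, sum_div, sum_div, ← sum_sub_distrib]
  refine sum_le_sum fun v _ => ?_
  have h1 : ((2 * ((φ v + ψ v) / 2) : ℤ) : ℝ) ≤ ((φ v + ψ v : ℤ) : ℝ) :=
    Int.cast_le.2 (by omega)
  have h2 : ((φ v + ψ v : ℤ) : ℝ) ≤ ((2 * ((φ v + ψ v) / 2) + 1 : ℤ) : ℝ) :=
    Int.cast_le.2 (by omega)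
  push_cast at h1 h2
  have h3 : (fl φ ψ v : ℤ) = (φ v + ψ v) / 2 := rfl
  rw [h3]
  set m : ℝ := (((φ v + ψ v) / 2 : ℤ) : ℝ) with hm
  have h4 : |a v * (m - ((φ v : ℝ) + ψ v) / 2)| ≤ |a v| * (1 / 2) := by
    rw [abs_mul]
    refine mul_le_mul_of_nonneg_left ?_ (abs_nonneg _)
    rw [abs_le]
    constructor <;> linarith
  have h5 := (abs_le.1 h4).1
  linarith

theorem lin_ce (B : Finset (ℤ × ℤ)) (a : ℤ × ℤ → ℝ) (φ ψ : ℤ × ℤ → ℤ) :
    (lin B a φ + lin B a ψ) / 2 - (∑ v ∈ B, |a v|) / 2 ≤ lin B a (ce φ ψ) := by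
  unfold lin
  rw [← sum_add_distrib, sum_div, sum_div, ← sum_sub_distrib]
  refine sum_le_sum fun v _ => ?_
  have h1 : ((2 * ((φ v + ψ v + 1) / 2) : ℤ) : ℝ) ≤ ((φ v + ψ v + 1 : ℤ) : ℝ) :=
    Int.cast_le.2 (by omega)
  have h2 : ((φ v + ψ v : ℤ) : ℝ) ≤ ((2 * ((φ v + ψ v + 1) / 2) : ℤ) : ℝ) :=
    Int.cast_le.2 (by omega)
  push_cast at h1 h2
  have h3 : (ce φ ψ v : ℤ) = (φ v + ψ v + 1) / 2 := rfl
  rw [h3]
  set m : ℝ := (((φ v + ψ v + 1) / 2 : ℤ) : ℝ) with hm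
  have h4 : |a v * (m - ((φ v : ℝ) + ψ v) / 2)| ≤ |a v| * (1 / 2) := by
    rw [abs_mul]
    refine mul_le_mul_of_nonneg_left ?_ (abs_nonneg _)
    rw [abs_le]
    constructor <;> linarith
  have h5 := (abs_le.1 h4).1
  linarith

theorem ht_fl {D : Finset (ℤ × ℤ)} {φ ψ : ℤ × ℤ → ℤ} (h1 : φ ∈ Ht D) (h2 : ψ ∈ Ht D) :
    fl φ ψ ∈ Ht D := by
  refine ⟨fun v => ⟨fun hv => ?_, fun hw => ?_⟩, fun v w hvw => ?_⟩
  · have e1 := (h1.1 v).1 hv
    have e2 := (h2.1 v).1 hv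
    unfold fl
    omega
  · have e1 := (h1.1 v).2 hw
    have e2 := (h2.1 v).2 hw
    unfold fl
    omega
  · have e1 := h1.2 v w hvw
    have e2 := h2.2 v w hvw
    unfold fl
    rw [abs_le] at *
    omega

theorem ht_ce {D : Finset (ℤ × ℤ)} {φ ψ : ℤ × ℤ → ℤ} (h1 : φ ∈ Ht D) (h2 : ψ ∈ Ht D) :
    ce φ ψ ∈ Ht D := by
  refine ⟨fun v => ⟨fun hv => ?_, fun hw => ?_⟩, fun v w hvw => ?_⟩
  · have e1 := (h1.1 v).1 hv
    have e2 := (h2.1 v).1 hv
    unfold ce
    omega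
  · have e1 := (h1.1 v).2 hw
    have e2 := (h2.1 v).2 hw
    unfold ce
    omega
  · have e1 := h1.2 v w hvw
    have e2 := h2.2 v w hvw
    unfold ce
    rw [abs_le] at *
    omega

open Classical in
/-- Indicator of `t ≤ X`. -/
noncomputable def tl (B : Finset (ℤ × ℤ)) (a : ℤ × ℤ → ℝ) (t : ℝ) (φ : ℤ × ℤ → ℤ) : ℝ :=
  if t ≤ lin B a φ then 1 else 0

theorem ev_tl (D B : Finset (ℤ × ℤ)) (a : ℤ × ℤ → ℝ) (t : ℝ) :
    Vale.Agent.P153.ev (Fv.reg D) (tl B a t) =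
      ((({φ | φ ∈ Ht D ∧ t ≤ lin B a φ} : Set (ℤ × ℤ → ℤ)).ncard : ℕ) : ℝ) /
        ((Fv.reg D).card : ℝ) := by
  classical
  unfold Vale.Agent.P153.ev tl
  congr 1
  rw [← Finset.sum_filter, Finset.sum_const, nsmul_eq_mul, mul_one, Strip.Ht_eq_reg]
  have : {φ : ℤ × ℤ → ℤ | φ ∈ (Fv.reg D : Set (ℤ × ℤ → ℤ)) ∧ t ≤ lin B a φ} =
      (((Fv.reg D).filter fun φ => t ≤ lin B a φ : Finset (ℤ × ℤ → ℤ)) : Set (ℤ × ℤ → ℤ)) := by
    ext φ
    simp
  rw [this, Set.ncard_coe_finset]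

theorem ev_tl_mul (D B : Finset (ℤ × ℤ)) (a : ℤ × ℤ → ℝ) (t s : ℝ) :
    Vale.Agent.P153.ev (Fv.reg D) (tl B a t) * Vale.Agent.P153.ev (Fv.reg D) (tl B a s) ≤
      Vale.Agent.P153.ev (Fv.reg D) (tl B a ((t + s) / 2 - (∑ v ∈ B, |a v|) / 2)) ^ 2 := by
  rw [ev_tl, ev_tl, ev_tl, div_mul_div_comm, div_pow, sq ((Fv.reg D).card : ℝ)]
  refine div_le_div_of_nonneg_right ?_ (by positivity)
  rw [sq]
  have hfin : (Ht D).Finite := by
    rw [Strip.Ht_eq_reg]
    exact Finset.finite_toSet _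
  refine card_mid (D := D) (hfin.subset fun _ h => h.1) (hfin.subset fun _ h => h.1)
    (hfin.subset fun _ h => h.1) (hfin.subset fun _ h => h.1) ?_ ?_ ?_
  · rintro h (hh | hh) x hx
    · exact (hh.1.1 x).1 hx
    · exact (hh.1.1 x).1 hx
  · intro φ hφ ψ hψ
    refine ⟨ht_fl hφ.1 hψ.1, le_trans ?_ (lin_fl B a φ ψ)⟩
    have h1 : t ≤ lin B a φ := hφ.2
    have h2 : s ≤ lin B a ψ := hψ.2
    linarith
  · intro φ hφ ψ hψ
    refine ⟨ht_ce hφ.1 hψ.1, le_trans ?_ (lin_ce B a φ ψ)⟩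
    have h1 : t ≤ lin B a φ := hφ.2
    have h2 : s ≤ lin B a ψ := hψ.2
    linarith

theorem lin_grad {B : Finset (ℤ × ℤ)} {a : ℤ × ℤ → ℝ} (ha : ∑ v ∈ B, a v = 0) {φ ψ : ℤ × ℤ → ℤ}
    (h : ∀ x ∈ B, ∀ y ∈ B, φ x - φ y = ψ x - ψ y) : lin B a φ = lin B a ψ := by
  rcases B.eq_empty_or_nonempty with hB | ⟨x₀, hx₀⟩
  · subst hB
    simp [lin]
  · have h1 : ∀ η : ℤ × ℤ → ℤ, lin B a η = ∑ v ∈ B, a v * ((η v - η x₀ : ℤ) : ℝ) := by
      intro η
      unfold lin
      have h2 : ∑ v ∈ B, a v * ((η v - η x₀ : ℤ) : ℝ) =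
          ∑ v ∈ B, a v * η v - (∑ v ∈ B, a v) * η x₀ := by
        rw [sum_mul, ← sum_sub_distrib]
        refine sum_congr rfl fun v _ => ?_
        push_cast
        ring
      rw [h2, ha]
      ring
    rw [h1, h1]
    exact sum_congr rfl fun v hv => by rw [h v hv x₀ hx₀]

theorem measurable_lin (B : Finset (ℤ × ℤ)) (a : ℤ × ℤ → ℝ) : Measurable (lin B a) := by
  unfold lin
  refine Finset.measurable_fun_sum _ fun v _ => ?_
  have h1 : Measurable fun φ : ℤ × ℤ → ℤ => φ v := measurable_pi_apply v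
  exact (measurable_from_top (f := fun n : ℤ => (n : ℝ))).comp h1 |>.const_mul _

/-- The midpoint inequality for the tails in the plane. -/
theorem tail_mid {P : Measure (ℤ × ℤ → ℤ)} [IsProbabilityMeasure P]
    (hl : ∀ᵐ φ ∂P, ∀ x y, GFF.Adj x y → |φ x - φ y| ≤ 1) (hP : LocLim P hexa)
    {B : Finset (ℤ × ℤ)} {a : ℤ × ℤ → ℝ} (ha : ∑ v ∈ B, a v = 0) (t s : ℝ) :
    P.real {φ | t ≤ lin B a φ} * P.real {φ | s ≤ lin B a φ} ≤
      P.real {φ | (t + s) / 2 - (∑ v ∈ B, |a v|) / 2 ≤ lin B a φ} ^ 2 := by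
  have hm := measurable_lin B a
  have e : ∀ t, ∫ φ, tl B a t φ ∂P = P.real {φ | t ≤ lin B a φ} := by
    intro t
    have h1 : tl B a t = ({φ | t ≤ lin B a φ} : Set (ℤ × ℤ → ℤ)).indicator (fun _ => (1 : ℝ)) := by
      funext φ
      simp only [tl, Set.indicator_apply, Set.mem_ofPred_eq]
    rw [h1, integral_indicator_const _ (measurableSet_le measurable_const hm), smul_eq_mul, mul_one]
  have hF : ∀ t, ∀ φ ψ : ℤ × ℤ → ℤ, (∀ x ∈ B, ∀ y ∈ B, φ x - φ y = ψ x - ψ y) →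
      tl B a t φ = tl B a t ψ := by
    intro t φ ψ h
    unfold tl
    rw [lin_grad ha h]
  have h1 := lim_loc hl hP B (tl B a t) (hF t)
  have h2 := lim_loc hl hP B (tl B a s) (hF s)
  have h3 := lim_loc hl hP B (tl B a ((t + s) / 2 - (∑ v ∈ B, |a v|) / 2)) (hF _)
  rw [e] at h1 h2 h3
  exact le_of_tendsto_of_tendsto' (h1.mul h2) (h3.pow 2) fun n => ev_tl_mul _ B a t s

end Vale.Agent.P153.F.PL
end

section

/-!
# P153-F: all moments of linear functionals of the plane measure, from the second moment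
-/

namespace Vale.Agent.P153.F.PL

open Finset MeasureTheory Filter Topology
open Vale.Agent.P153.GFF (Ht Pat LocLim hexa)

/-- Tails from the midpoint inequality. -/
theorem tail_iter {F : ℝ → ℝ} (hF0 : ∀ t, 0 ≤ F t) (hanti : Antitone F) {c t₀ : ℝ} (hc : 0 ≤ c)
    (ht0 : 0 ≤ t₀) (hmid : ∀ t s, F t * F s ≤ F ((t + s) / 2 - c) ^ 2) (h1 : F t₀ ≤ 1 / 16)
    (h2 : 15 / 16 ≤ F (-t₀)) (j : ℕ) : F (2 ^ j * (2 * t₀ + 2 * c)) ≤ (1 / 15 : ℝ) ^ 2 ^ j := by
  have key : ∀ j : ℕ, F (2 ^ j * (2 * t₀ + 2 * c) - (t₀ + 2 * c)) ≤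
      15 / 16 * (1 / 15 : ℝ) ^ 2 ^ j := by
    intro j
    induction j with
    | zero =>
      have e : (2 : ℝ) ^ 0 * (2 * t₀ + 2 * c) - (t₀ + 2 * c) = t₀ := by ring
      rw [e]
      refine h1.trans ?_
      norm_num
    | succ j ih =>
      set u := (2 : ℝ) ^ j * (2 * t₀ + 2 * c) - (t₀ + 2 * c) with hu
      have e : (2 : ℝ) ^ (j + 1) * (2 * t₀ + 2 * c) - (t₀ + 2 * c) = 2 * u + t₀ + 2 * c := by
        rw [hu, pow_succ]
        ring
      rw [e]
      have h3 := hmid (2 * u + t₀ + 2 * c) (-t₀)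
      have e2 : (2 * u + t₀ + 2 * c + -t₀) / 2 - c = u := by ring
      rw [e2] at h3
      have h4 : F u ^ 2 ≤ (15 / 16 * (1 / 15 : ℝ) ^ 2 ^ j) ^ 2 :=
        pow_le_pow_left₀ (hF0 u) ih 2
      have h5 : F (2 * u + t₀ + 2 * c) * (15 / 16) ≤ F (2 * u + t₀ + 2 * c) * F (-t₀) :=
        mul_le_mul_of_nonneg_left h2 (hF0 _)
      have h6 : (15 / 16 * (1 / 15 : ℝ) ^ 2 ^ j) ^ 2 =
          (15 / 16 * (1 / 15 : ℝ) ^ 2 ^ (j + 1)) * (15 / 16) := by
        rw [pow_succ 2 j, pow_mul]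
        ring
      rw [h6] at h4
      have h7 := h5.trans (h3.trans h4)
      exact le_of_mul_le_mul_right h7 (by norm_num)
  refine (hanti ?_).trans ((key j).trans ?_)
  · linarith
  · have : (0 : ℝ) ≤ (1 / 15 : ℝ) ^ 2 ^ j := by positivity
    linarith

/-- The constants. -/
noncomputable def Ck (k : ℕ) : ℝ := 1 + ∑' j : ℕ, (2 * (2 : ℝ) ^ j) ^ (2 * k) *
  (2 * (1 / 15 : ℝ) ^ 2 ^ j)

theorem summable_ck (k : ℕ) : Summable fun j : ℕ => (2 * (2 : ℝ) ^ j) ^ (2 * k) *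
    (2 * (1 / 15 : ℝ) ^ 2 ^ j) := by
  have h1 : Summable fun n : ℕ => (n : ℝ) ^ (2 * k) * (1 / 15 : ℝ) ^ n :=
    summable_pow_mul_geometric_of_norm_lt_one _ (by norm_num)
  have h2 : Function.Injective fun j : ℕ => 2 ^ j := Nat.pow_right_injective le_rfl
  have h3 := (h1.comp_injective h2).mul_left ((2 : ℝ) ^ (2 * k) * 2)
  refine h3.congr fun j => ?_
  simp only [Function.comp, Nat.cast_pow, Nat.cast_ofNat]
  rw [mul_pow]
  ring

theorem ck_nonneg (k : ℕ) : 0 ≤ Ck k := by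
  unfold Ck
  have : 0 ≤ ∑' j : ℕ, (2 * (2 : ℝ) ^ j) ^ (2 * k) * (2 * (1 / 15 : ℝ) ^ 2 ^ j) :=
    tsum_nonneg fun j => by positivity
  linarith

open Classical in
theorem pow_le_layers {x b : ℝ} (hx : 0 ≤ x) (hb : 0 < b) (k : ℕ) : ∀ J : ℕ, x < 2 ^ J * b →
    x ^ (2 * k) ≤ b ^ (2 * k) * (1 + ∑ j ∈ range J,
      (2 * (2 : ℝ) ^ j) ^ (2 * k) * if 2 ^ j * b ≤ x then 1 else 0) := by
  intro J
  induction J with
  | zero =>
    intro h
    simp only [range_zero, sum_empty, add_zero, mul_one]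
    refine pow_le_pow_left₀ hx ?_ _
    have : (2 : ℝ) ^ 0 * b = b := by ring
    linarith
  | succ J ih =>
    intro h
    have hb2 : 0 ≤ b ^ (2 * k) := by positivity
    have hs : 0 ≤ ∑ j ∈ range J, (2 * (2 : ℝ) ^ j) ^ (2 * k) *
        (if 2 ^ j * b ≤ x then (1 : ℝ) else 0) := by
      refine sum_nonneg fun j _ => mul_nonneg (by positivity) ?_
      split_ifs <;> norm_num
    rw [sum_range_succ]
    by_cases hJ : 2 ^ J * b ≤ x
    · rw [if_pos hJ, mul_one]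
      have h1 : x ^ (2 * k) ≤ (2 ^ (J + 1) * b) ^ (2 * k) := pow_le_pow_left₀ hx h.le _
      have h2 : ((2 : ℝ) ^ (J + 1) * b) ^ (2 * k) = b ^ (2 * k) * (2 * (2 : ℝ) ^ J) ^ (2 * k) := by
        rw [← mul_pow]
        congr 1
        rw [pow_succ]
        ring
      rw [h2] at h1
      refine h1.trans (mul_le_mul_of_nonneg_left ?_ hb2)
      linarith
    · push Not at hJ
      rw [if_neg (not_le.2 hJ), mul_zero, add_zero]
      exact ih hJ

theorem mom_of_tail {Ω : Type*} [MeasurableSpace Ω] (μ : Measure Ω) [IsProbabilityMeasure μ]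
    {X : Ω → ℝ} (hX : Measurable X) {M : ℝ} (hM : ∀ᵐ ω ∂μ, |X ω| ≤ M) {b : ℝ} (hb : 0 < b)
    (ht : ∀ j : ℕ, μ.real {ω | 2 ^ j * b ≤ |X ω|} ≤ 2 * (1 / 15 : ℝ) ^ 2 ^ j) (k : ℕ) :
    ∫ ω, X ω ^ (2 * k) ∂μ ≤ b ^ (2 * k) * Ck k := by
  classical
  obtain ⟨J, hJ⟩ : ∃ J : ℕ, M < 2 ^ J * b := by
    obtain ⟨J, hJ⟩ := pow_unbounded_of_one_lt (M / b) (one_lt_two (α := ℝ))
    exact ⟨J, by rwa [div_lt_iff₀ hb] at hJ⟩
  have hm : ∀ j : ℕ, MeasurableSet {ω | 2 ^ j * b ≤ |X ω|} := fun j =>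
    measurableSet_le measurable_const hX.abs
  set G : Ω → ℝ := fun ω => b ^ (2 * k) * (1 + ∑ j ∈ range J, (2 * (2 : ℝ) ^ j) ^ (2 * k) *
    ({ω | 2 ^ j * b ≤ |X ω|} : Set Ω).indicator (fun _ => (1 : ℝ)) ω) with hG
  have hGi : Integrable G μ := by
    refine Integrable.const_mul ?_ _
    refine (integrable_const _).add (integrable_finsetSum _ fun j _ => ?_)
    exact ((integrable_const _).indicator (hm j)).const_mul _
  have hle : ∀ᵐ ω ∂μ, X ω ^ (2 * k) ≤ G ω := by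
    filter_upwards [hM] with ω hω
    have h1 := pow_le_layers (abs_nonneg (X ω)) hb k J (lt_of_le_of_lt hω hJ)
    rw [pow_mul, sq_abs, ← pow_mul] at h1
    refine h1.trans (le_of_eq ?_)
    simp only [hG, Set.indicator_apply, Set.mem_ofPred_eq]
  have hXi : Integrable (fun ω => X ω ^ (2 * k)) μ := by
    refine Integrable.mono' hGi (hX.pow_const _).aestronglyMeasurable ?_
    filter_upwards [hle] with ω hω
    rw [Real.norm_eq_abs, abs_of_nonneg (by rw [pow_mul]; positivity)]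
    exact hω
  refine (integral_mono_ae hXi hGi hle).trans ?_
  rw [hG]
  rw [integral_const_mul, integral_add (integrable_const _)
    (integrable_finsetSum _ fun j _ => ((integrable_const _).indicator (hm j)).const_mul _),
    integral_finsetSum _ fun j _ => ((integrable_const _).indicator (hm j)).const_mul _]
  refine mul_le_mul_of_nonneg_left ?_ (by positivity)
  unfold Ck
  rw [integral_const, probReal_univ, one_smul]
  refine add_le_add le_rfl ?_
  refine le_trans (sum_le_sum fun j _ => ?_) (Summable.sum_le_tsum (range J)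
    (fun j _ => by positivity) (summable_ck k))
  rw [integral_const_mul, integral_indicator_const _ (hm j), smul_eq_mul, mul_one]
  exact mul_le_mul_of_nonneg_left (ht j) (by positivity)

theorem lin_bdd {P : Measure (ℤ × ℤ → ℤ)}
    (hl : ∀ᵐ φ ∂P, ∀ x y, GFF.Adj x y → |φ x - φ y| ≤ 1)
    {B : Finset (ℤ × ℤ)} {a : ℤ × ℤ → ℝ} (ha : ∑ v ∈ B, a v = 0) :
    ∃ M : ℝ, ∀ᵐ φ ∂P, |lin B a φ| ≤ M := by
  refine ⟨∑ v ∈ B, |a v| * ((|v.1| + |v.2| : ℤ) : ℝ), ?_⟩
  filter_upwards [hl] with φ hφ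
  have h1 : lin B a φ = ∑ v ∈ B, a v * ((φ v - φ (0, 0) : ℤ) : ℝ) := by
    unfold lin
    have h2 : ∑ v ∈ B, a v * ((φ v - φ (0, 0) : ℤ) : ℝ) =
        ∑ v ∈ B, a v * φ v - (∑ v ∈ B, a v) * φ (0, 0) := by
      rw [sum_mul, ← sum_sub_distrib]
      refine sum_congr rfl fun v _ => ?_
      push_cast
      ring
    rw [h2, ha]
    ring
  rw [h1]
  refine (abs_sum_le_sum_abs _ _).trans (sum_le_sum fun v _ => ?_)
  rw [abs_mul]
  refine mul_le_mul_of_nonneg_left ?_ (abs_nonneg _)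
  rw [← Int.cast_abs]
  exact Int.cast_le.2 (Strip.lip_bound hφ v)

theorem lin_neg (B : Finset (ℤ × ℤ)) (a : ℤ × ℤ → ℝ) (φ : ℤ × ℤ → ℤ) :
    lin B (fun v => -a v) φ = -lin B a φ := by
  unfold lin
  rw [← sum_neg_distrib]
  exact sum_congr rfl fun v _ => by ring

/-- **All moments of a linear functional with total weight zero.** -/
theorem moment (k : ℕ) {P : Measure (ℤ × ℤ → ℤ)} [IsProbabilityMeasure P]
    (hl : ∀ᵐ φ ∂P, ∀ x y, GFF.Adj x y → |φ x - φ y| ≤ 1) (hP : LocLim P hexa)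
    {B : Finset (ℤ × ℤ)} {a : ℤ × ℤ → ℝ} (ha : ∑ v ∈ B, a v = 0) :
    ∫ φ, lin B a φ ^ (2 * k) ∂P ≤
      81 ^ k * Ck k * (∫ φ, lin B a φ ^ 2 ∂P + (∑ v ∈ B, |a v|) ^ 2) ^ k := by
  set σ := ∫ φ, lin B a φ ^ 2 ∂P with hσ
  set S := ∑ v ∈ B, |a v| with hS
  have hS0 : 0 ≤ S := sum_nonneg fun _ _ => abs_nonneg _
  have hσ0 : 0 ≤ σ := integral_nonneg fun _ => sq_nonneg _
  rcases eq_or_lt_of_le hS0 with hz | hSp
  · -- the functional vanishes
    have hz' : ∀ v ∈ B, a v = 0 := fun v hv => by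
      have := (sum_eq_zero_iff_of_nonneg fun _ _ => abs_nonneg _).1 hz.symm v hv
      exact abs_eq_zero.1 this
    have h0 : ∀ φ, lin B a φ = 0 := fun φ => by
      unfold lin
      exact sum_eq_zero fun v hv => by rw [hz' v hv, zero_mul]
    rcases Nat.eq_zero_or_pos k with hk | hk
    · subst hk
      simp only [Nat.mul_zero, pow_zero, integral_const, probReal_univ, one_smul, mul_one, one_mul]
      unfold Ck
      have : 0 ≤ ∑' j : ℕ, (2 * (2 : ℝ) ^ j) ^ (2 * 0) * (2 * (1 / 15 : ℝ) ^ 2 ^ j) :=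
        tsum_nonneg fun j => by positivity
      linarith
    · have h1 : ∫ φ, lin B a φ ^ (2 * k) ∂P = 0 := by
        simp only [h0]
        rw [zero_pow (by omega)]
        simp
      rw [h1]
      have := ck_nonneg k
      positivity
  set m := √(σ + S ^ 2) with hm
  have hmp : 0 < m := Real.sqrt_pos.2 (by positivity)
  have hm2 : m ^ 2 = σ + S ^ 2 := Real.sq_sqrt (by positivity)
  have hSm : S ≤ m := Real.le_sqrt_of_sq_le (by linarith)
  obtain ⟨M, hM⟩ := lin_bdd hl ha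
  have hX := measurable_lin B a
  have hXi : Integrable (fun φ => lin B a φ ^ 2) P := by
    refine Integrable.mono' (integrable_const (M ^ 2)) (hX.pow_const 2).aestronglyMeasurable ?_
    filter_upwards [hM] with φ hφ
    rw [Real.norm_eq_abs, abs_of_nonneg (sq_nonneg _), ← sq_abs]
    exact pow_le_pow_left₀ (abs_nonneg _) hφ 2
  -- Chebyshev
  have hch : P.real {φ | 4 * m ≤ |lin B a φ|} ≤ 1 / 16 := by
    have h1 := mul_meas_ge_le_integral_of_nonneg (μ := P) (f := fun φ => lin B a φ ^ 2)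
      (Eventually.of_forall fun φ => sq_nonneg _) hXi ((4 * m) ^ 2)
    have h2 : P.real {φ | (4 * m) ^ 2 ≤ lin B a φ ^ 2} = P.real {φ | 4 * m ≤ |lin B a φ|} := by
      congr 1
      ext φ
      simp only [Set.mem_ofPred_eq]
      rw [← sq_abs (lin B a φ)]
      exact pow_le_pow_iff_left₀ (by positivity) (abs_nonneg _) two_ne_zero
    rw [h2] at h1
    have h3 : (4 * m) ^ 2 * P.real {φ | 4 * m ≤ |lin B a φ|} ≤ m ^ 2 := by
      refine h1.trans ?_
      rw [hm2]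
      have : ∫ φ, lin B a φ ^ 2 ∂P = σ := rfl
      rw [this]
      have := sq_nonneg S
      linarith
    have h4 : 0 < m ^ 2 := by positivity
    have h5 : m ^ 2 * (16 * P.real {φ | 4 * m ≤ |lin B a φ|}) ≤ m ^ 2 * 1 := by
      calc m ^ 2 * (16 * P.real {φ | 4 * m ≤ |lin B a φ|})
          = (4 * m) ^ 2 * P.real {φ | 4 * m ≤ |lin B a φ|} := by ring
        _ ≤ m ^ 2 := h3
        _ = m ^ 2 * 1 := by ring
    have h6 := le_of_mul_le_mul_left h5 h4
    linarith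
  -- one-sided tails
  have side : ∀ a' : ℤ × ℤ → ℝ, (a' = a ∨ a' = fun v => -a v) → ∀ j : ℕ,
      P.real {φ | 2 ^ j * (9 * m) ≤ lin B a' φ} ≤ (1 / 15 : ℝ) ^ 2 ^ j := by
    intro a' ha' j
    have hab : ∀ φ, |lin B a' φ| = |lin B a φ| := by
      intro φ
      rcases ha' with rfl | rfl
      · rfl
      · rw [lin_neg, abs_neg]
    have hsum : ∑ v ∈ B, a' v = 0 := by
      rcases ha' with rfl | rfl
      · exact ha
      · rw [sum_neg_distrib, ha, neg_zero]
    have hS' : ∑ v ∈ B, |a' v| = S := by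
      rcases ha' with rfl | rfl
      · rfl
      · simp only [abs_neg]
        rfl
    set F : ℝ → ℝ := fun t => P.real {φ | t ≤ lin B a' φ} with hF
    have hanti : Antitone F := by
      intro t s hts
      refine measureReal_mono (fun φ hφ => ?_)
      have : s ≤ lin B a' φ := hφ
      exact hts.trans this
    have h1 : F (4 * m) ≤ 1 / 16 := by
      refine le_trans (measureReal_mono fun φ hφ => ?_) hch
      have h2 : 4 * m ≤ lin B a' φ := hφ
      have h3 : 4 * m ≤ |lin B a φ| := by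
        rw [← hab]
        exact h2.trans (le_abs_self _)
      exact h3
    have h2 : 15 / 16 ≤ F (-(4 * m)) := by
      have h3 : P.real ({φ | -(4 * m) ≤ lin B a' φ}ᶜ) ≤ 1 / 16 := by
        refine le_trans (measureReal_mono fun φ hφ => ?_) hch
        have h4 : ¬ -(4 * m) ≤ lin B a' φ := hφ
        push Not at h4
        have h5 : 4 * m ≤ |lin B a φ| := by
          rw [← hab]
          have := neg_le_abs (lin B a' φ)
          linarith
        exact h5
      have h6 := probReal_compl_eq_one_sub (μ := P)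
        (measurableSet_le (measurable_const (a := -(4 * m))) (measurable_lin B a'))
      have h7 : P.real ({φ | -(4 * m) ≤ lin B a' φ}ᶜ) = 1 - F (-(4 * m)) := h6
      rw [h7] at h3
      linarith
    have h3 := tail_iter (F := F) (fun t => measureReal_nonneg) hanti (c := S / 2) (t₀ := 4 * m)
      (by positivity) (by positivity) (fun t s => by
        have := tail_mid hl hP hsum t s
        rw [hS'] at this
        exact this) h1 h2 j
    refine (hanti ?_).trans h3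
    refine mul_le_mul_of_nonneg_left ?_ (by positivity)
    linarith
  have htail : ∀ j : ℕ, P.real {φ | 2 ^ j * (9 * m) ≤ |lin B a φ|} ≤
      2 * (1 / 15 : ℝ) ^ 2 ^ j := by
    intro j
    have h1 := side a (Or.inl rfl) j
    have h2 := side (fun v => -a v) (Or.inr rfl) j
    have h3 : {φ | 2 ^ j * (9 * m) ≤ |lin B a φ|} ⊆
        {φ | 2 ^ j * (9 * m) ≤ lin B a φ} ∪ {φ | 2 ^ j * (9 * m) ≤ lin B (fun v => -a v) φ} := by
      intro φ hφ
      have h4 : 2 ^ j * (9 * m) ≤ |lin B a φ| := hφ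
      rcases le_abs.1 h4 with h5 | h5
      · exact Or.inl h5
      · refine Or.inr ?_
        have h6 : 2 ^ j * (9 * m) ≤ lin B (fun v => -a v) φ := by rwa [lin_neg]
        exact h6
    have h4 := (measureReal_mono (μ := P) h3).trans (measureReal_union_le _ _)
    linarith
  have hfin := mom_of_tail P hX hM (b := 9 * m) (by positivity) htail k
  refine hfin.trans (le_of_eq ?_)
  rw [pow_mul, mul_pow, hm2, mul_pow]
  norm_num
  ring

end Vale.Agent.P153.F.PL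
end
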