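import Mathlib
import Vale.Agent.P153.Bd5.B3
import Vale.Agent.P153.Bd5.B1
import Vale.Agent.P153.Bd5.B4

set_option linter.all false

section

/-!
# P153: neutral second moments of the even rows under the plane measure

Everything is expressed by `GFF.Vrow P j z = E φ(ev j z)²`.
-/

namespace Vale.Agent.P153.CLT

open MeasureTheory Filter Finset
open scoped Topology ENNReal

variable {P : Measure (ℤ × ℤ → ℤ)}

/-- The height at the site `p.2` of the even row `p.1`. -/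
def hev (p : ℤ × ℤ) (φ : ℤ × ℤ → ℤ) : ℝ := ((φ (GFF.ev p.1 p.2) : ℤ) : ℝ)

lemma measurable_hev (p : ℤ × ℤ) : Measurable (hev p) := measurable_coord _

lemma ev_sub (j x j' x' : ℤ) : GFF.ev (j - j') (x - x') + GFF.ev j' x' = GFF.ev j x := by
  unfold GFF.ev
  ext
  · simp only [Prod.mk_add_mk]; ring
  · simp only [Prod.mk_add_mk]; ring

/-- A Lipschitz height which vanishes at the origin is bounded at every site. -/
lemma abs_le_of_lip (φ : ℤ × ℤ → ℤ) (h : ∀ x y, GFF.Adj x y → |φ x - φ y| ≤ 1) (h0 : φ 0 = 0)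
    (v : ℤ × ℤ) : |φ v| ≤ |v.1| + |v.2| := by
  have h1 : ∀ (n : ℕ) (a b : ℤ), |φ (a + n, b) - φ (a, b)| ≤ n := by
    intro n a b
    induction n with
    | zero => simp
    | succ k ih =>
      have h2 := h (a + k, b) (a + k + 1, b) (by
        unfold GFF.Adj
        simp only [Int.reduceNeg, add_sub_cancel_left, sub_self, Set.mem_insert_iff, Prod.mk.injEq, reduceCtorEq, and_true, one_ne_zero, zero_ne_one, and_self, zero_eq_neg, and_false, Set.mem_singleton_iff, or_self, or_false])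
      push_cast
      rw [← add_assoc]
      rw [abs_le] at *
      constructor <;> linarith only [ih, h2]
  have h2 : ∀ (n : ℕ) (a b : ℤ), |φ (a, b + n) - φ (a, b)| ≤ n := by
    intro n a b
    induction n with
    | zero => simp
    | succ k ih =>
      have h2 := h (a, b + k) (a, b + k + 1) (by
        unfold GFF.Adj
        simp only [Int.reduceNeg, sub_self, add_sub_cancel_left, Set.mem_insert_iff, Prod.mk.injEq, zero_ne_one, one_ne_zero, and_self, zero_eq_neg, reduceCtorEq, and_false, Set.mem_singleton_iff, and_true, or_self, or_false, or_true])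
      push_cast
      rw [← add_assoc]
      rw [abs_le] at *
      constructor <;> linarith only [ih, h2]
  have h3 : |φ (v.1, 0) - φ (0, 0)| ≤ |v.1| := by
    rcases le_total 0 v.1 with hv | hv
    · have := h1 v.1.toNat 0 0
      rw [zero_add, Int.toNat_of_nonneg hv] at this
      rwa [abs_of_nonneg hv]
    · have := h1 (-v.1).toNat v.1 0
      rw [Int.toNat_of_nonneg (by linarith), add_neg_cancel, abs_sub_comm] at this
      rwa [abs_of_nonpos hv]
  have h4 : |φ (v.1, v.2) - φ (v.1, 0)| ≤ |v.2| := by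
    rcases le_total 0 v.2 with hv | hv
    · have := h2 v.2.toNat v.1 0
      rw [zero_add, Int.toNat_of_nonneg hv] at this
      rwa [abs_of_nonneg hv]
    · have := h2 (-v.2).toNat v.1 v.2
      rw [Int.toNat_of_nonneg (by linarith), add_neg_cancel, abs_sub_comm] at this
      rwa [abs_of_nonpos hv]
  have h0' : φ (0, 0) = 0 := h0
  rw [h0', sub_zero] at h3
  have e : φ v = φ (v.1, v.2) - φ (v.1, 0) + φ (v.1, 0) := by ring
  rw [e]
  exact (abs_add_le _ _).trans (by linarith)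

/-- Bounded a.s., measurable. -/
lemma coord_bdd (hP : GFF.Plane P) (v : ℤ × ℤ) :
    ∀ᵐ φ ∂P, |((φ v : ℤ) : ℝ)| ≤ |(v.1 : ℝ)| + |(v.2 : ℝ)| := by
  filter_upwards [hP.lip, hP.zero] with φ h1 h0
  have := abs_le_of_lip φ h1 h0 v
  exact_mod_cast this

lemma integrable_mul_coord (hP : GFF.Plane P) (v w : ℤ × ℤ) :
    Integrable (fun φ : ℤ × ℤ → ℤ => ((φ v : ℤ) : ℝ) * ((φ w : ℤ) : ℝ)) P := by
  have := hP.prob
  refine Integrable.of_bound ((measurable_coord v).mul (measurable_coord w)).aestronglyMeasurable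
    ((|(v.1 : ℝ)| + |(v.2 : ℝ)|) * (|(w.1 : ℝ)| + |(w.2 : ℝ)|)) ?_
  filter_upwards [coord_bdd hP v, coord_bdd hP w] with φ h1 h2
  rw [Real.norm_eq_abs, abs_mul]
  exact mul_le_mul h1 h2 (abs_nonneg _) (by (clear * -; positivity))

/-- Mean square differences of the even rows. -/
theorem msd_eq (hP : GFF.Plane P) (p q : ℤ × ℤ) :
    ∫ φ, (hev p φ - hev q φ) ^ 2 ∂P = GFF.Vrow P (p.1 - q.1) (p.2 - q.2) := by
  unfold GFF.Vrow GFF.var2
  have h1 := Plane.integral_shift hP (GFF.ev q.1 q.2)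
    (fun φ => ((φ (GFF.ev (p.1 - q.1) (p.2 - q.2)) : ℤ) : ℝ) ^ 2)
    ((measurable_coord _).pow_const 2)
  rw [← h1]
  refine integral_congr_ae (Eventually.of_forall fun φ => ?_)
  unfold hev GFF.shift
  simp only [ev_sub]
  push_cast
  ring

lemma Vrow_neg_neg (hP : GFF.Plane P) (j z : ℤ) :
    GFF.Vrow P (-j) (-z) = GFF.Vrow P j z := by
  have h1 := msd_eq hP (0, 0) (j, z)
  have h2 := msd_eq hP (j, z) (0, 0)
  simp only [zero_sub, sub_zero] at h1 h2
  rw [← h1, ← h2]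
  refine integral_congr_ae (Eventually.of_forall fun φ => ?_)
  simp only
  ring

lemma var2_rot (hP : GFF.Plane P) (v : ℤ × ℤ) : GFF.var2 P (GFF.rot v) = GFF.var2 P v := by
  unfold GFF.var2
  conv_rhs => rw [← hP.rot]
  rw [integral_map (measurable_pi_iff.2 fun x => measurable_pi_apply _).aemeasurable
    ((measurable_coord v).pow_const 2).aestronglyMeasurable]

lemma var2_swap (hP : GFF.Plane P) (v : ℤ × ℤ) : GFF.var2 P (v.2, v.1) = GFF.var2 P v := by
  unfold GFF.var2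
  conv_rhs => rw [← hP.swap]
  rw [integral_map (measurable_pi_iff.2 fun x => measurable_pi_apply _).aemeasurable
    ((measurable_coord v).pow_const 2).aestronglyMeasurable]

/-- Reflection of a row: `Vrow P j (-z) = Vrow P j z`. -/
lemma Vrow_neg_right (hP : GFF.Plane P) (j z : ℤ) : GFF.Vrow P j (-z) = GFF.Vrow P j z := by
  rw [← Vrow_neg_neg hP j z]
  unfold GFF.Vrow
  -- `th (ev j x) = ev (-j) x`, `th = swap ∘ rot`
  have h1 := var2_swap hP (GFF.rot (GFF.ev j (-z)))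
  rw [var2_rot hP] at h1
  rw [← h1]
  congr 1
  unfold GFF.rot GFF.ev
  ext
  · simp only [sub_neg_eq_add]; ring
  · simp

lemma Vrow_neg_left (hP : GFF.Plane P) (j z : ℤ) : GFF.Vrow P (-j) z = GFF.Vrow P j z := by
  rw [← Vrow_neg_right hP (-j) z, Vrow_neg_neg hP]

/-- **Neutral bilinear forms of the even rows.** -/
theorem plane_bilin (hP : GFF.Plane P) (S T : Finset (ℤ × ℤ)) (a b : ℤ × ℤ → ℝ)
    (ha : ∑ p ∈ S, a p = 0) (hb : ∑ q ∈ T, b q = 0) :
    ∫ φ, (∑ p ∈ S, a p * hev p φ) * (∑ q ∈ T, b q * hev q φ) ∂P =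
      -(1 / 2) * ∑ p ∈ S, ∑ q ∈ T, a p * b q * GFF.Vrow P (p.1 - q.1) (p.2 - q.2) := by
  have hint : ∀ p q : ℤ × ℤ, Integrable (fun φ => (hev p φ - hev q φ) ^ 2) P := by
    intro p q
    have e : (fun φ => (hev p φ - hev q φ) ^ 2) =
        fun φ => hev p φ * hev p φ - (hev p φ * hev q φ + hev p φ * hev q φ) +
          hev q φ * hev q φ := by
      funext φ; ring
    rw [e]
    exact ((integrable_mul_coord hP _ _).sub ((integrable_mul_coord hP _ _).add
      (integrable_mul_coord hP _ _))).add (integrable_mul_coord hP _ _)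
  have hpt : ∀ φ, (∑ p ∈ S, a p * hev p φ) * (∑ q ∈ T, b q * hev q φ) =
      -(1 / 2) * ∑ p ∈ S, ∑ q ∈ T, a p * b q * (hev p φ - hev q φ) ^ 2 := by
    intro φ
    have e1 : ∑ p ∈ S, ∑ q ∈ T, a p * b q * (hev p φ - hev q φ) ^ 2 =
        (∑ p ∈ S, a p * hev p φ ^ 2) * (∑ q ∈ T, b q) -
        2 * ((∑ p ∈ S, a p * hev p φ) * (∑ q ∈ T, b q * hev q φ)) +
        (∑ p ∈ S, a p) * (∑ q ∈ T, b q * hev q φ ^ 2) := by
      rw [Finset.sum_mul_sum, Finset.sum_mul_sum, Finset.sum_mul_sum, Finset.mul_sum,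
        ← Finset.sum_sub_distrib, ← Finset.sum_add_distrib]
      refine Finset.sum_congr rfl fun p _ => ?_
      rw [Finset.mul_sum, ← Finset.sum_sub_distrib, ← Finset.sum_add_distrib]
      refine Finset.sum_congr rfl fun q _ => ?_
      ring
    rw [e1, ha, hb]
    ring
  simp_rw [hpt]
  rw [integral_const_mul, integral_finsetSum _ fun p _ => integrable_finsetSum _ fun q _ =>
    (hint p q).const_mul _]
  congr 1
  refine Finset.sum_congr rfl fun p _ => ?_
  rw [integral_finsetSum _ fun q _ => (hint p q).const_mul _]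
  refine Finset.sum_congr rfl fun q _ => ?_
  rw [integral_const_mul, msd_eq hP]

/-- The mean square of the vertical increments over a block. -/
theorem wKl_eq (hP : GFF.Plane P) (K l : ℕ) :
    wKl P K l = ∑ x ∈ Finset.range l, ∑ y ∈ Finset.range l,
      (GFF.Vrow P K ((x : ℤ) - y) - GFF.Vrow P 0 ((x : ℤ) - y)) := by
  have hint : ∀ p q : ℤ × ℤ, Integrable (fun φ => (hev p φ - hev q φ) ^ 2) P := by
    intro p q
    have e : (fun φ => (hev p φ - hev q φ) ^ 2) =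
        fun φ => hev p φ * hev p φ - (hev p φ * hev q φ + hev p φ * hev q φ) +
          hev q φ * hev q φ := by
      funext φ; ring
    rw [e]
    exact ((integrable_mul_coord hP _ _).sub ((integrable_mul_coord hP _ _).add
      (integrable_mul_coord hP _ _))).add (integrable_mul_coord hP _ _)
  have hint2 : ∀ x y : ℤ, Integrable (fun φ => (hev (K, x) φ - hev (0, x) φ) *
      (hev (K, y) φ - hev (0, y) φ)) P := by
    intro x y
    have e : (fun φ => (hev (K, x) φ - hev (0, x) φ) * (hev (K, y) φ - hev (0, y) φ)) =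
        fun φ => hev (K, x) φ * hev (K, y) φ - (hev (K, x) φ * hev (0, y) φ +
          hev (0, x) φ * hev (K, y) φ) + hev (0, x) φ * hev (0, y) φ := by
      funext φ; ring
    rw [e]
    exact ((integrable_mul_coord hP _ _).sub ((integrable_mul_coord hP _ _).add
      (integrable_mul_coord hP _ _))).add (integrable_mul_coord hP _ _)
  have h2 : ∀ x y : ℤ, ∫ φ, (hev (K, x) φ - hev (0, x) φ) * (hev (K, y) φ - hev (0, y) φ) ∂P =
      GFF.Vrow P K (x - y) - GFF.Vrow P 0 (x - y) := by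
    intro x y
    have e : ∀ φ, (hev (K, x) φ - hev (0, x) φ) * (hev (K, y) φ - hev (0, y) φ) =
        (1 / 2) * (((hev (K, x) φ - hev (0, y) φ) ^ 2 + (hev (0, x) φ - hev (K, y) φ) ^ 2) -
          ((hev (K, x) φ - hev (K, y) φ) ^ 2 + (hev (0, x) φ - hev (0, y) φ) ^ 2)) := by
      intro φ; ring
    simp_rw [e]
    have i1 : Integrable (fun φ => (hev (K, x) φ - hev (0, y) φ) ^ 2 +
        (hev (0, x) φ - hev (K, y) φ) ^ 2) P := (hint _ _).add (hint _ _)
    have i2 : Integrable (fun φ => (hev (K, x) φ - hev (K, y) φ) ^ 2 +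
        (hev (0, x) φ - hev (0, y) φ) ^ 2) P := (hint _ _).add (hint _ _)
    rw [integral_const_mul, integral_sub i1 i2,
      integral_add (hint _ _) (hint _ _), integral_add (hint _ _) (hint _ _), msd_eq hP,
      msd_eq hP, msd_eq hP, msd_eq hP]
    simp only [sub_zero, zero_sub, sub_self]
    rw [Vrow_neg_left hP]
    ring
  unfold wKl
  have h3 : ∀ φ : ℤ × ℤ → ℤ, (∑ x ∈ Finset.Ico (0 : ℤ) l, (((φ (GFF.ev K x) : ℤ) : ℝ) -
      ((φ (GFF.ev 0 x) : ℤ) : ℝ))) ^ 2 = ∑ x ∈ Finset.range l, ∑ y ∈ Finset.range l,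
      (hev (K, (x : ℤ)) φ - hev (0, (x : ℤ)) φ) * (hev (K, (y : ℤ)) φ - hev (0, (y : ℤ)) φ) := by
    intro φ
    have e : ∑ x ∈ Finset.Ico (0 : ℤ) l, (((φ (GFF.ev K x) : ℤ) : ℝ) -
        ((φ (GFF.ev 0 x) : ℤ) : ℝ)) =
        ∑ x ∈ Finset.range l, (hev (K, (x : ℤ)) φ - hev (0, (x : ℤ)) φ) := by
      have e1 : Finset.Ico (0 : ℤ) l = (Finset.range l).map Nat.castEmbedding := by
        ext z
        simp only [Finset.mem_Ico, Finset.mem_map, Finset.mem_range, Nat.castEmbedding_apply]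
        constructor
        · rintro ⟨h1, h2⟩
          exact ⟨z.toNat, by omega, by omega⟩
        · rintro ⟨a, ha, rfl⟩
          omega
      rw [e1, Finset.sum_map]
      rfl
    rw [e, sq, Finset.sum_mul_sum]
  simp_rw [h3]
  rw [integral_finsetSum _ fun x _ => integrable_finsetSum _ fun y _ => hint2 _ _]
  refine Finset.sum_congr rfl fun x _ => ?_
  rw [integral_finsetSum _ fun y _ => hint2 _ _]
  refine Finset.sum_congr rfl fun y _ => ?_
  rw [h2]

/-- Cesàro means of the translates of a nonnegative summable function. -/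
lemma cesaro {f : ℤ → ℝ} (hf : ∀ z, 0 ≤ f z) (hs : Summable f) :
    Tendsto (fun l : ℕ => (1 / (l : ℝ)) * ∑ x ∈ Finset.range l, ∑ y ∈ Finset.range l,
      f ((x : ℤ) - y)) atTop (𝓝 (∑' z, f z)) := by
  have hup : ∀ l : ℕ, ∀ x : ℕ, ∑ y ∈ Finset.range l, f ((x : ℤ) - y) ≤ ∑' z, f z := by
    intro l x
    have e : ∑ y ∈ Finset.range l, f ((x : ℤ) - y) =
        ∑ z ∈ (Finset.range l).image (fun y : ℕ => (x : ℤ) - y), f z := by
      rw [Finset.sum_image]
      intro a _ b _ h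
      simp only at h
      omega
    rw [e]
    exact hs.sum_le_tsum _ fun z _ => hf z
  have hS0 : 0 ≤ ∑' z, f z := tsum_nonneg hf
  rw [Metric.tendsto_atTop]
  intro e he
  -- a finite window with almost the whole mass
  obtain ⟨R, hR⟩ : ∃ R : ℕ, ∑' z, f z - e / 2 < ∑ z ∈ Finset.Icc (-(R : ℤ)) R, f z := by
    have h1 : ∀ᶠ s : Finset ℤ in atTop, ∑' z, f z - e / 2 < ∑ z ∈ s, f z :=
      hs.hasSum.eventually (lt_mem_nhds (by linarith only [he]))
    obtain ⟨s, hs1⟩ := h1.exists_forall_of_atTop.imp fun s h => h s le_rfl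
    obtain ⟨R, hR⟩ := (s.finite_toSet.image fun z : ℤ => z.natAbs).bddAbove
    refine ⟨R, hs1.trans_le ?_⟩
    refine Finset.sum_le_sum_of_subset_of_nonneg ?_ fun z _ _ => hf z
    intro z hz
    have := hR ⟨z, hz, rfl⟩
    simp only at this
    rw [Finset.mem_Icc]
    omega
  obtain ⟨N, hN⟩ := exists_nat_gt ((2 * R * (∑' z, f z)) / (e / 2))
  refine ⟨max N (2 * R + 1), fun l hl => ?_⟩
  have hl1 : 2 * R + 1 ≤ l := (le_max_right _ _).trans hl
  have hl0 : (0 : ℝ) < l := by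
    have : 0 < l := by omega
    exact_mod_cast this
  have hNl : (N : ℝ) ≤ l := by exact_mod_cast (le_max_left _ _).trans hl
  have hU : ∑ x ∈ Finset.range l, ∑ y ∈ Finset.range l, f ((x : ℤ) - y) ≤ l * ∑' z, f z := by
    refine (Finset.sum_le_sum fun x _ => hup l x).trans ?_
    rw [Finset.sum_const, Finset.card_range, nsmul_eq_mul]
  have hL : ((l : ℝ) - 2 * R) * (∑' z, f z - e / 2) ≤
      ∑ x ∈ Finset.range l, ∑ y ∈ Finset.range l, f ((x : ℤ) - y) := by
    rcases le_or_gt (∑' z, f z - e / 2) 0 with h0 | h0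
    · refine le_trans ?_ (Finset.sum_nonneg fun x _ => Finset.sum_nonneg fun y _ => hf _)
      refine mul_nonpos_of_nonneg_of_nonpos ?_ h0
      have : ((2 * R + 1 : ℕ) : ℝ) ≤ l := by exact_mod_cast hl1
      push_cast at this
      linarith only [this]
    · have h2 : ∑ x ∈ Finset.Ico R (l - R), ∑ y ∈ Finset.range l, f ((x : ℤ) - y) ≤
          ∑ x ∈ Finset.range l, ∑ y ∈ Finset.range l, f ((x : ℤ) - y) := by
        refine Finset.sum_le_sum_of_subset_of_nonneg ?_ fun x _ _ =>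
          Finset.sum_nonneg fun y _ => hf _
        intro x hx
        rw [Finset.mem_Ico] at hx
        rw [Finset.mem_range]
        (clear * - hx; omega)
      refine le_trans ?_ h2
      have h3 : ∀ x ∈ Finset.Ico R (l - R), ∑' z, f z - e / 2 ≤
          ∑ y ∈ Finset.range l, f ((x : ℤ) - y) := by
        intro x hx
        rw [Finset.mem_Ico] at hx
        refine hR.le.trans ?_
        have e1 : ∑ y ∈ Finset.range l, f ((x : ℤ) - y) =
            ∑ z ∈ (Finset.range l).image (fun y : ℕ => (x : ℤ) - y), f z := by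
          rw [Finset.sum_image]
          intro a _ b _ h
          simp only at h
          omega
        rw [e1]
        refine Finset.sum_le_sum_of_subset_of_nonneg ?_ fun z _ _ => hf z
        intro z hz
        rw [Finset.mem_Icc] at hz
        rw [Finset.mem_image]
        refine ⟨((x : ℤ) - z).toNat, ?_, ?_⟩
        · rw [Finset.mem_range]
          omega
        · omega
      have h4 := Finset.sum_le_sum h3
      rw [Finset.sum_const, Nat.card_Ico, nsmul_eq_mul] at h4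
      refine le_trans (le_of_eq ?_) h4
      congr 1
      have h5 : ((l - R - R : ℕ) : ℝ) = (l : ℝ) - R - R := by
        rw [Nat.cast_sub (by (clear * - hl1; omega)), Nat.cast_sub (by omega)]
      rw [h5]
      ring
  have hN2 : 2 * R * (∑' z, f z) < l * (e / 2) := by
    rw [div_lt_iff₀ (by positivity)] at hN
    refine hN.trans_le ?_
    gcongr
  rw [Real.dist_eq, abs_lt]
  have hR0 : (0 : ℝ) ≤ R := Nat.cast_nonneg _
  constructor
  · rw [neg_lt_sub_iff_lt_add, one_div, inv_mul_eq_div]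
    rw [← sub_lt_iff_lt_add', lt_div_iff₀ hl0]
    nlinarith only [hL, hN2, he]
  · rw [one_div, inv_mul_eq_div, sub_lt_iff_lt_add', div_lt_iff₀ hl0]
    nlinarith only [hU, hN2, hS0]

/-- **The constant of the local squares.** -/
theorem wKl_lim (hP : GFF.Plane P) {m : ProbabilityTheory.Kernel ℝ ℝ} {c κ C k0 : ℝ}
    (hS : TwoPt.Spec (GFF.Vrow P) m c κ C k0) (h3 : TwoPt.P3Statement) (h4 : TwoPt.P4Statement)
    (h6 : TwoPt.P6Statement)
    (hTK : ∀ K l : ℕ, 0 ≤ ∑ x ∈ Finset.range l, ∑ y ∈ Finset.range l,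
      TwoPt.TK (GFF.Vrow P) K ((x : ℤ) - y))
    (hCK : ∀ K : ℕ, 0 < K → ∀ z, 0 ≤ TwoPt.CK (GFF.Vrow P) K z) (ε : ℝ) (hε : 0 < ε) :
    ∃ K0 : ℕ, ∀ K ≥ K0, ∃ l0 : ℕ, ∀ l ≥ l0, |wKl P K l / (K * l) - κ| ≤ ε := by
  obtain ⟨K1, hK1⟩ := h6 _ _ _ _ _ _ hS (ε / 3) (by positivity)
  have h4' := h4 _ _ _ _ _ _ hS hCK
  rw [Metric.tendsto_atTop] at h4'
  obtain ⟨K2, hK2⟩ := h4' (ε / 3) (by positivity)
  refine ⟨max (max K1 K2) 1, fun K hK => ?_⟩
  have hKa : K1 ≤ K := (le_max_left _ _).trans ((le_max_left _ _).trans hK)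
  have hKb : K2 ≤ K := (le_max_right _ _).trans ((le_max_left _ _).trans hK)
  have hKc : 0 < K := lt_of_lt_of_le one_pos ((le_max_right _ _).trans hK)
  have hK0 : (0 : ℝ) < K := by exact_mod_cast hKc
  obtain ⟨l1, hl1⟩ := hK1 K hKa
  have hs := h3 _ _ _ _ _ _ hS K hKc (hCK K hKc)
  have hces := cesaro (hCK K hKc) hs
  rw [Metric.tendsto_atTop] at hces
  obtain ⟨l2, hl2⟩ := hces (K * (ε / 3)) (by (clear * - hKc hε; positivity))
  refine ⟨max (max l1 l2) 1, fun l hl => ?_⟩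
  have hla : l1 ≤ l := (le_max_left _ _).trans ((le_max_left _ _).trans hl)
  have hlb : l2 ≤ l := (le_max_right _ _).trans ((le_max_left _ _).trans hl)
  have hlc : 0 < l := lt_of_lt_of_le one_pos ((le_max_right _ _).trans hl)
  have hl0 : (0 : ℝ) < l := by exact_mod_cast hlc
  have a1 := hl1 l hla
  have a2 := hl2 l hlb
  have a3 := hK2 K hKb
  have a4 := hTK K l
  rw [Real.dist_eq] at a2 a3
  have e1 : wKl P K l = ∑ x ∈ Finset.range l, ∑ y ∈ Finset.range l,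
      TwoPt.TK (GFF.Vrow P) K ((x : ℤ) - y) + ∑ x ∈ Finset.range l, ∑ y ∈ Finset.range l,
      TwoPt.CK (GFF.Vrow P) K ((x : ℤ) - y) := by
    rw [wKl_eq hP, ← Finset.sum_add_distrib]
    refine Finset.sum_congr rfl fun x _ => ?_
    rw [← Finset.sum_add_distrib]
    refine Finset.sum_congr rfl fun y _ => ?_
    unfold TwoPt.TK TwoPt.CK
    ring
  set T := ∑ x ∈ Finset.range l, ∑ y ∈ Finset.range l, TwoPt.TK (GFF.Vrow P) K ((x : ℤ) - y)
  set S := ∑ x ∈ Finset.range l, ∑ y ∈ Finset.range l, TwoPt.CK (GFF.Vrow P) K ((x : ℤ) - y)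
  have e2 : wKl P K l / (K * l) - κ = (1 / (l : ℝ)) * T / K +
      ((1 / (l : ℝ)) * S - ∑' z, TwoPt.CK (GFF.Vrow P) K z) / K +
      ((∑' z, TwoPt.CK (GFF.Vrow P) K z) / K - κ) := by
    rw [e1]
    field_simp
    ring
  rw [e2]
  have b1 : |(1 / (l : ℝ)) * T / K| ≤ ε / 3 := by
    rw [abs_of_nonneg (by (clear * - hlc a4 hKc; positivity)), div_le_iff₀ hK0]
    exact a1
  have b2 : |((1 / (l : ℝ)) * S - ∑' z, TwoPt.CK (GFF.Vrow P) K z) / K| ≤ ε / 3 := by
    rw [abs_div, abs_of_pos hK0, div_le_iff₀ hK0]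
    linarith only [a2]
  have b3 := abs_add_le ((1 / (l : ℝ)) * T / K +
      ((1 / (l : ℝ)) * S - ∑' z, TwoPt.CK (GFF.Vrow P) K z) / K)
      ((∑' z, TwoPt.CK (GFF.Vrow P) K z) / K - κ)
  have b4 := abs_add_le ((1 / (l : ℝ)) * T / K)
      (((1 / (l : ℝ)) * S - ∑' z, TwoPt.CK (GFF.Vrow P) K z) / K)
  linarith only [a3, b1, b2, b3, b4]

end Vale.Agent.P153.CLT
end

section

/-!
# P153 GFF: staggered sums of the even rows vanish in mean square
-/

open MeasureTheory Filter Topology Set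

namespace Vale.Agent.P153.GFF

open Vale.Agent.P153.CLT (coord_bdd integrable_mul_coord measurable_coord msd_eq hev)

variable {P : Measure (ℤ × ℤ → ℤ)}

/-- the four cosets of `2ℤ²` -/
def four (q : (ℤ × ℤ) × (Bool × Bool)) : ℤ × ℤ :=
  (2 * q.1.1 + if q.2.1 then 1 else 0, 2 * q.1.2 + if q.2.2 then 1 else 0)

def fourE : (ℤ × ℤ) × (Bool × Bool) ≃ ℤ × ℤ where
  toFun := four
  invFun v := ((v.1 / 2, v.2 / 2), (decide (v.1 % 2 = 1), decide (v.2 % 2 = 1)))
  left_inv := by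
    rintro ⟨⟨j, z⟩, b, c⟩
    cases b <;> cases c <;> simp [four] <;> omega
  right_inv := by
    rintro ⟨x, y⟩
    rcases Int.emod_two_eq_zero_or_one x with h | h <;>
      rcases Int.emod_two_eq_zero_or_one y with h' | h' <;>
      simp only [four, h, h'] <;> ext <;> simp <;> omega

lemma finsum_four {F : ℤ × ℤ → ℝ} (hF : (Function.support F).Finite) :
    ∑ᶠ v, F v = ∑ᶠ w : ℤ × ℤ, (F (2 * w.1, 2 * w.2) + F (2 * w.1 + 1, 2 * w.2) +
      F (2 * w.1, 2 * w.2 + 1) + F (2 * w.1 + 1, 2 * w.2 + 1)) := by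
  rw [← finsum_comp_equiv fourE (f := F), finsum_curry]
  · apply finsum_congr
    intro p
    rw [finsum_eq_sum_of_fintype, Fintype.sum_prod_type, Fintype.sum_bool, Fintype.sum_bool,
      Fintype.sum_bool]
    simp only [fourE, Equiv.coe_fn_mk, four, ↓reduceIte, Bool.false_eq_true, add_zero]
    ring
  · show (fourE ⁻¹' (Function.support F)).Finite
    exact hF.preimage fourE.injective.injOn

/-- staggering: `1` on (odd, even), `-1` on (even, even), `0` on the odd rows -/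
noncomputable def s0 (v : ℤ × ℤ) : ℝ :=
  (if 2 ∣ v.2 then 1 else 0) - 2 * (if 2 ∣ v.1 ∧ 2 ∣ v.2 then 1 else 0)

lemma s0_four (w : ℤ × ℤ) : s0 (2 * w.1, 2 * w.2) = -1 ∧ s0 (2 * w.1 + 1, 2 * w.2) = 1 ∧
    s0 (2 * w.1, 2 * w.2 + 1) = 0 ∧ s0 (2 * w.1 + 1, 2 * w.2 + 1) = 0 := by
  have h1 : ¬(2 : ℤ) ∣ 2 * w.1 + 1 := by omega
  have h2 : ¬(2 : ℤ) ∣ 2 * w.2 + 1 := by omega
  refine ⟨?_, ?_, ?_, ?_⟩ <;> unfold s0 <;> simp [h1, h2]
  norm_num

/-- the horizontal gradient at the even-even site `2 w` -/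
noncomputable def gr (w : ℤ × ℤ) (φ : ℤ × ℤ → ℤ) : ℝ :=
  (φ (2 * w.1 + 1, 2 * w.2) : ℝ) - φ (2 * w.1, 2 * w.2)

lemma ev_two (w : ℤ × ℤ) : (2 * w.1, 2 * w.2) = ev w.2 (2 * w.1 + w.2) := by
  unfold ev
  ext <;> simp

lemma ev_two' (w : ℤ × ℤ) : (2 * w.1 + 1, 2 * w.2) = ev w.2 (2 * w.1 + w.2 + 1) := by
  unfold ev
  ext <;> simp only
  ring

lemma measurable_gr (w : ℤ × ℤ) : Measurable (gr w) :=
  (measurable_coord _).sub (measurable_coord _)

lemma gr_le (hP : Plane P) (w : ℤ × ℤ) : ∀ᵐ φ ∂P, |gr w φ| ≤ 1 := by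
  filter_upwards [hP.lip] with φ h
  have h1 := h (2 * w.1 + 1, 2 * w.2) (2 * w.1, 2 * w.2) (by
    unfold Adj
    simp only [Int.reduceNeg, sub_add_cancel_left, sub_self, mem_insert_iff, Prod.mk.injEq, reduceCtorEq, and_true, neg_eq_zero, one_ne_zero, zero_ne_one, and_self, zero_eq_neg, mem_singleton_iff, and_false, or_self, or_false, or_true])
  unfold gr
  exact_mod_cast h1

/-- correlations of the horizontal gradients -/
lemma gr_corr (hP : Plane P) (w w' : ℤ × ℤ) : ∫ φ, gr w φ * gr w' φ ∂P =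
    1 / 2 * (Vrow P (w.2 - w'.2) (2 * (w.1 - w'.1) + (w.2 - w'.2) + 1) +
      Vrow P (w.2 - w'.2) (2 * (w.1 - w'.1) + (w.2 - w'.2) - 1) -
      2 * Vrow P (w.2 - w'.2) (2 * (w.1 - w'.1) + (w.2 - w'.2))) := by
  set a : ℤ × ℤ := (w.2, 2 * w.1 + w.2 + 1) with ha
  set b : ℤ × ℤ := (w.2, 2 * w.1 + w.2) with hb
  set c : ℤ × ℤ := (w'.2, 2 * w'.1 + w'.2 + 1) with hc
  set d : ℤ × ℤ := (w'.2, 2 * w'.1 + w'.2) with hd
  have hi : ∀ p q : ℤ × ℤ, Integrable (fun φ => (hev p φ - hev q φ) ^ 2) P := by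
    intro p q
    have e : (fun φ => (hev p φ - hev q φ) ^ 2) = fun φ => hev p φ * hev p φ -
        (hev p φ * hev q φ + hev p φ * hev q φ) + hev q φ * hev q φ := by
      ext φ
      ring
    rw [e]
    exact ((integrable_mul_coord hP _ _).sub ((integrable_mul_coord hP _ _).add
      (integrable_mul_coord hP _ _))).add (integrable_mul_coord hP _ _)
  have h1 : ∀ φ, gr w φ * gr w' φ = 1 / 2 * ((hev a φ - hev d φ) ^ 2 + (hev b φ - hev c φ) ^ 2 -
      (hev a φ - hev c φ) ^ 2 - (hev b φ - hev d φ) ^ 2) := by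
    intro φ
    unfold gr hev
    rw [ev_two, ev_two', ev_two w', ev_two' w', ha, hb, hc, hd]
    ring
  simp_rw [h1]
  have i1 : Integrable (fun φ => (hev a φ - hev d φ) ^ 2 + (hev b φ - hev c φ) ^ 2) P :=
    (hi _ _).add (hi _ _)
  have i2 : Integrable (fun φ => (hev a φ - hev d φ) ^ 2 + (hev b φ - hev c φ) ^ 2 -
      (hev a φ - hev c φ) ^ 2) P := i1.sub (hi _ _)
  rw [integral_const_mul, integral_sub i2 (hi _ _), integral_sub i1 (hi _ _),
    integral_add (hi _ _) (hi _ _), msd_eq hP, msd_eq hP, msd_eq hP, msd_eq hP]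
  have e1 : a.2 - d.2 = 2 * (w.1 - w'.1) + (w.2 - w'.2) + 1 := by simp only [ha, hd]; ring
  have e2 : b.2 - c.2 = 2 * (w.1 - w'.1) + (w.2 - w'.2) - 1 := by simp only [hb, hc]; ring
  have e3 : a.2 - c.2 = 2 * (w.1 - w'.1) + (w.2 - w'.2) := by simp only [ha, hc]; ring
  have e4 : b.2 - d.2 = 2 * (w.1 - w'.1) + (w.2 - w'.2) := by simp only [hb, hd]; ring
  rw [e1, e2, e3, e4]
  simp only [ha, hb, hc, hd]
  ring

lemma gr_int (hP : Plane P) (w w' : ℤ × ℤ) : Integrable (fun φ => gr w φ * gr w' φ) P := by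
  have := hP.prob
  refine Integrable.of_bound ((measurable_gr w).mul (measurable_gr w')).aestronglyMeasurable 1 ?_
  filter_upwards [gr_le hP w, gr_le hP w'] with φ h1 h2
  rw [Real.norm_eq_abs, abs_mul]
  nlinarith [abs_nonneg (gr w φ), abs_nonneg (gr w' φ)]

/-- decay of the correlations of the horizontal gradients -/
lemma gr_dec (hP : Plane P) (hdec : Tendsto (fun p : ℤ × ℤ => Vrow P p.1 (p.2 + 1) +
    Vrow P p.1 (p.2 - 1) - 2 * Vrow P p.1 p.2) cofinite (𝓝 0)) {ε : ℝ} (hε : 0 < ε) :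
    ∃ T : Finset (ℤ × ℤ), ∀ w w' : ℤ × ℤ, w - w' ∉ T → |∫ φ, gr w φ * gr w' φ ∂P| ≤ ε := by
  have hinj : Function.Injective fun t : ℤ × ℤ => ((t.2, 2 * t.1 + t.2) : ℤ × ℤ) := by
    intro a b h
    simp only [Prod.mk.injEq] at h
    ext
    · omega
    · omega
  have h1 := hdec.comp hinj.tendsto_cofinite
  have h2 := h1.eventually (Metric.ball_mem_nhds (0 : ℝ) hε)
  rw [Filter.eventually_cofinite] at h2
  refine ⟨h2.toFinset, fun w w' h => ?_⟩
  rw [Set.Finite.mem_toFinset, Set.mem_ofPred_eq, not_not, Function.comp_apply, Real.dist_eq,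
    sub_zero] at h
  rw [gr_corr hP, abs_mul]
  simp only [Prod.fst_sub, Prod.snd_sub] at h
  rw [abs_of_pos (by norm_num : (0 : ℝ) < 1 / 2)]
  linarith

lemma gr_corr_le (hP : Plane P) (w w' : ℤ × ℤ) : |∫ φ, gr w φ * gr w' φ ∂P| ≤ 1 := by
  have := hP.prob
  rw [← Real.norm_eq_abs]
  refine (norm_integral_le_of_norm_le_const (C := 1) ?_).trans ?_
  · filter_upwards [gr_le hP w, gr_le hP w'] with φ h1 h2
    rw [Real.norm_eq_abs, abs_mul]
    nlinarith [abs_nonneg (gr w φ), abs_nonneg (gr w' φ)]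
  · simp

/-- first part: weighted sums of the gradients -/
lemma sum_gr_le (hP : Plane P) (U : Finset (ℤ × ℤ)) (β : ℤ × ℤ → ℝ) {m ε : ℝ}
    (hβ : ∀ w, |β w| ≤ m) (T : Finset (ℤ × ℤ))
    (hT : ∀ w w' : ℤ × ℤ, w - w' ∉ T → |∫ φ, gr w φ * gr w' φ ∂P| ≤ ε) (hε : 0 ≤ ε) :
    ∫ φ, (∑ w ∈ U, β w * gr w φ) ^ 2 ∂P ≤ m ^ 2 * (U.card * (T.card + ε * U.card)) := by
  have hm : 0 ≤ m := (abs_nonneg _).trans (hβ 0)
  have h1 : ∀ φ, (∑ w ∈ U, β w * gr w φ) ^ 2 =
      ∑ w ∈ U, ∑ w' ∈ U, (β w * β w') * (gr w φ * gr w' φ) := by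
    intro φ
    rw [sq, Finset.sum_mul_sum]
    refine Finset.sum_congr rfl fun w _ => Finset.sum_congr rfl fun w' _ => ?_
    ring
  simp_rw [h1]
  rw [integral_finsetSum _ fun w _ => integrable_finsetSum _ fun w' _ =>
    (gr_int hP w w').const_mul _]
  have h2 : ∀ w ∈ U, ∫ φ, ∑ w' ∈ U, (β w * β w') * (gr w φ * gr w' φ) ∂P ≤
      m ^ 2 * (T.card + ε * U.card) := by
    intro w _
    rw [integral_finsetSum _ fun w' _ => (gr_int hP w w').const_mul _]
    have h3 : ∀ w' ∈ U, ∫ φ, (β w * β w') * (gr w φ * gr w' φ) ∂P ≤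
        m ^ 2 * ((if w - w' ∈ T then 1 else 0) + ε) := by
      intro w' _
      rw [integral_const_mul]
      refine (le_abs_self _).trans ?_
      rw [abs_mul, abs_mul, sq]
      have h4 : |∫ φ, gr w φ * gr w' φ ∂P| ≤ (if w - w' ∈ T then 1 else 0) + ε := by
        split_ifs with h
        · linarith only [hε, gr_corr_le hP w w']
        · linarith [hT w w' h]
      exact mul_le_mul (mul_le_mul (hβ w) (hβ w') (abs_nonneg _) hm) h4 (abs_nonneg _)
        (by (clear * - hm; positivity))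
    refine (Finset.sum_le_sum h3).trans ?_
    rw [← Finset.mul_sum, Finset.sum_add_distrib, Finset.sum_const, nsmul_eq_mul]
    apply mul_le_mul_of_nonneg_left _ (by positivity)
    have h5 : (∑ w' ∈ U, if w - w' ∈ T then (1 : ℝ) else 0) ≤ T.card := by
      rw [Finset.sum_boole]
      have h6 : (U.filter fun w' => w - w' ∈ T).card ≤ T.card := by
        apply Finset.card_le_card_of_injOn (fun w' => w - w')
        · intro w' hw'
          exact (Finset.mem_filter.1 hw').2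
        · intro a _ b _ hab
          exact sub_right_injective hab
      exact_mod_cast h6
    rw [mul_comm (U.card : ℝ) ε]
    linarith only [h5]
  refine (Finset.sum_le_sum h2).trans ?_
  rw [Finset.sum_const, nsmul_eq_mul]
  apply le_of_eq
  ring

/-- second part: small weights -/
lemma sum_small (hP : Plane P) (U : Finset (ℤ × ℤ)) (g : ℤ × ℤ → ℤ × ℤ) (γ : ℤ × ℤ → ℝ) {m v : ℝ}
    (hγ : ∀ w ∈ U, |γ w| ≤ m) (hv : ∀ w ∈ U, var2 P (g w) ≤ v) :
    ∫ φ, (∑ w ∈ U, γ w * (φ (g w) : ℝ)) ^ 2 ∂P ≤ m ^ 2 * (U.card ^ 2 * v) := by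
  have h1 : ∀ φ : ℤ × ℤ → ℤ, (∑ w ∈ U, γ w * (φ (g w) : ℝ)) ^ 2 ≤
      U.card * ∑ w ∈ U, m ^ 2 * (φ (g w) : ℝ) ^ 2 := by
    intro φ
    refine (sq_sum_le_card_mul_sum_sq).trans ?_
    apply mul_le_mul_of_nonneg_left _ (by (clear * -; positivity))
    refine Finset.sum_le_sum fun w hw => ?_
    rw [mul_pow]
    apply mul_le_mul_of_nonneg_right _ (by positivity)
    rw [← sq_abs (γ w)]
    exact pow_le_pow_left₀ (abs_nonneg _) (hγ w hw) 2
  have hi : ∀ w : ℤ × ℤ, Integrable (fun φ : ℤ × ℤ → ℤ => (φ w : ℝ) ^ 2) P := by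
    intro w
    have := integrable_mul_coord hP w w
    simpa only [sq] using this
  have hint : Integrable (fun φ : ℤ × ℤ → ℤ =>
      (U.card : ℝ) * ∑ w ∈ U, m ^ 2 * (φ (g w) : ℝ) ^ 2) P :=
    (integrable_finsetSum _ fun w _ => (hi (g w)).const_mul _).const_mul _
  refine (integral_mono_of_nonneg (ae_of_all _ fun φ => sq_nonneg _) hint (ae_of_all _ h1)).trans ?_
  rw [integral_const_mul, integral_finsetSum _ fun w _ => (hi (g w)).const_mul _]
  have h2 : ∑ w ∈ U, ∫ φ : ℤ × ℤ → ℤ, m ^ 2 * (φ (g w) : ℝ) ^ 2 ∂P ≤ ∑ w ∈ U, m ^ 2 * v := by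
    refine Finset.sum_le_sum fun w hw => ?_
    rw [integral_const_mul]
    exact mul_le_mul_of_nonneg_left (hv w hw) (by (clear * -; positivity))
  rw [Finset.sum_const, nsmul_eq_mul] at h2
  refine (mul_le_mul_of_nonneg_left h2 (by (clear * -; positivity))).trans (le_of_eq ?_)
  ring

lemma sq_int (hP : Plane P) (U : Finset (ℤ × ℤ)) (g : ℤ × ℤ → ℤ × ℤ) (γ : ℤ × ℤ → ℝ) :
    Integrable (fun φ : ℤ × ℤ → ℤ => (∑ w ∈ U, γ w * (φ (g w) : ℝ)) ^ 2) P := by
  have h1 : (fun φ : ℤ × ℤ → ℤ => (∑ w ∈ U, γ w * (φ (g w) : ℝ)) ^ 2) =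
      fun φ => ∑ w ∈ U, ∑ w' ∈ U, (γ w * γ w') * ((φ (g w) : ℝ) * (φ (g w') : ℝ)) := by
    ext φ
    rw [sq, Finset.sum_mul_sum]
    refine Finset.sum_congr rfl fun w _ => Finset.sum_congr rfl fun w' _ => ?_
    ring
  rw [h1]
  exact integrable_finsetSum _ fun w _ => integrable_finsetSum _ fun w' _ =>
    (integrable_mul_coord hP _ _).const_mul _

lemma gr_sq_int (hP : Plane P) (U : Finset (ℤ × ℤ)) (β : ℤ × ℤ → ℝ) :
    Integrable (fun φ : ℤ × ℤ → ℤ => (∑ w ∈ U, β w * gr w φ) ^ 2) P := by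
  have h1 : (fun φ : ℤ × ℤ → ℤ => (∑ w ∈ U, β w * gr w φ) ^ 2) =
      fun φ => ∑ w ∈ U, ∑ w' ∈ U, (β w * β w') * (gr w φ * gr w' φ) := by
    ext φ
    rw [sq, Finset.sum_mul_sum]
    refine Finset.sum_congr rfl fun w _ => Finset.sum_congr rfl fun w' _ => ?_
    ring
  rw [h1]
  exact integrable_finsetSum _ fun w _ => integrable_finsetSum _ fun w' _ =>
    (gr_int hP _ _).const_mul _

/-- Staggered sums of the even rows: finite form. -/
lemma stag_fin (hP : Plane P) {ε : ℝ} (hε : 0 ≤ ε) (T : Finset (ℤ × ℤ))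
    (hT : ∀ w w' : ℤ × ℤ, w - w' ∉ T → |∫ φ, gr w φ * gr w' φ ∂P| ≤ ε) {A : ℝ} (hA0 : 0 ≤ A)
    (hA : ∀ j z : ℤ, Vrow P j z ≤ A * (1 + |(j : ℝ)| + |(z : ℝ)|)) {K : ℝ} (hK : 0 < K)
    {δ : ℝ} (hδ : 0 < δ) (hδ1 : δ ≤ 1) (b : ℤ × ℤ → ℝ) (h1 : ∀ v, |b v| ≤ K * δ ^ 2)
    (h2 : ∀ v, |b (v + (1, 0)) - b v| ≤ K * δ ^ 3)
    (h3 : ∀ v, b v ≠ 0 → |(v.1 : ℝ)| ≤ K / δ ∧ |(v.2 : ℝ)| ≤ K / δ) :
    ∫ φ, (∑ᶠ v : ℤ × ℤ, s0 v * b v * (φ v : ℝ)) ^ 2 ∂P ≤
      2 * (K ^ 2 * (2 * K + 3) ^ 2 * (δ ^ 2 * T.card + ε * (2 * K + 3) ^ 2)) +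
      2 * (K ^ 2 * (2 * K + 3) ^ 4 * (5 * A * (K + 1)) * δ) := by
  set N : ℤ := ⌈K / δ⌉ with hN
  have hNpos : 0 < N := Int.ceil_pos.2 (by positivity)
  have hN1 : K / δ ≤ N := Int.le_ceil _
  have hN2 : (N : ℝ) < K / δ + 1 := Int.ceil_lt_add_one _
  set U : Finset (ℤ × ℤ) := Finset.Icc (-N) N ×ˢ Finset.Icc (-N) N with hU
  have hsup : ∀ v, b v ≠ 0 → |v.1| ≤ N ∧ |v.2| ≤ N := by
    intro v hv
    obtain ⟨a1, a2⟩ := h3 v hv
    constructor
    · have : |(v.1 : ℝ)| ≤ N := a1.trans hN1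
      exact_mod_cast this
    · have : |(v.2 : ℝ)| ≤ N := a2.trans hN1
      exact_mod_cast this
  have hfin : (Function.support b).Finite := by
    apply Set.Finite.subset (Finset.Icc (-N) N ×ˢ Finset.Icc (-N) N : Finset (ℤ × ℤ)).finite_toSet
    intro v hv
    obtain ⟨a1, a2⟩ := hsup v hv
    rw [abs_le] at a1 a2
    rw [Finset.mem_coe, Finset.mem_product, Finset.mem_Icc, Finset.mem_Icc]
    exact ⟨a1, a2⟩
  have key : ∀ φ : ℤ × ℤ → ℤ, ∑ᶠ v : ℤ × ℤ, s0 v * b v * (φ v : ℝ) =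
      (∑ w ∈ U, b (2 * w.1 + 1, 2 * w.2) * gr w φ) +
      ∑ w ∈ U, (b (2 * w.1 + 1, 2 * w.2) - b (2 * w.1, 2 * w.2)) * (φ (2 * w.1, 2 * w.2) : ℝ) := by
    intro φ
    have hf : (Function.support fun v : ℤ × ℤ => s0 v * b v * (φ v : ℝ)).Finite := by
      apply hfin.subset
      intro v hv
      rw [Function.mem_support] at hv ⊢
      intro h
      apply hv
      rw [h, mul_zero, zero_mul]
    rw [finsum_four hf, ← Finset.sum_add_distrib]
    have e1 : ∀ w : ℤ × ℤ, s0 (2 * w.1, 2 * w.2) * b (2 * w.1, 2 * w.2) *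
        ((φ (2 * w.1, 2 * w.2) : ℤ) : ℝ) + s0 (2 * w.1 + 1, 2 * w.2) * b (2 * w.1 + 1, 2 * w.2) *
        ((φ (2 * w.1 + 1, 2 * w.2) : ℤ) : ℝ) +
      s0 (2 * w.1, 2 * w.2 + 1) * b (2 * w.1, 2 * w.2 + 1) *
        ((φ (2 * w.1, 2 * w.2 + 1) : ℤ) : ℝ) +
      s0 (2 * w.1 + 1, 2 * w.2 + 1) * b (2 * w.1 + 1, 2 * w.2 + 1) *
        ((φ (2 * w.1 + 1, 2 * w.2 + 1) : ℤ) : ℝ) =
        b (2 * w.1 + 1, 2 * w.2) * gr w φ +
        (b (2 * w.1 + 1, 2 * w.2) - b (2 * w.1, 2 * w.2)) * (φ (2 * w.1, 2 * w.2) : ℝ) := by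
      intro w
      obtain ⟨q1, q2, q3, q4⟩ := s0_four w
      rw [q1, q2, q3, q4]
      unfold gr
      ring
    simp_rw [e1]
    apply finsum_eq_sum_of_support_subset
    intro w hw
    rw [Function.mem_support] at hw
    rw [hU, Finset.mem_coe, Finset.mem_product, Finset.mem_Icc, Finset.mem_Icc]
    by_cases hb1 : b (2 * w.1 + 1, 2 * w.2) = 0
    · by_cases hb2 : b (2 * w.1, 2 * w.2) = 0
      · exfalso
        apply hw
        rw [hb1, hb2]
        ring
      · obtain ⟨a1, a2⟩ := hsup _ hb2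
        rw [abs_le] at a1 a2
        simp only at a1 a2
        omega
    · obtain ⟨a1, a2⟩ := hsup _ hb1
      rw [abs_le] at a1 a2
      simp only at a1 a2
      omega
  simp_rw [key]
  have hX := sum_gr_le hP U (fun w => b (2 * w.1 + 1, 2 * w.2)) (fun w => h1 _) T hT hε
  have hcard : (U.card : ℝ) ≤ ((2 * K + 3) / δ) ^ 2 := by
    have e : (U.card : ℝ) = (2 * N + 1) ^ 2 := by
      rw [hU, Finset.card_product, Int.card_Icc, sq]
      push_cast
      have : ((N + 1 - -N).toNat : ℝ) = 2 * N + 1 := by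
        have h : ((N + 1 - -N).toNat : ℤ) = 2 * N + 1 := by
          rw [Int.toNat_of_nonneg (by omega)]
          ring
        exact_mod_cast h
      rw [this]
    rw [e]
    have hNr : (0 : ℝ) < N := by exact_mod_cast hNpos
    apply pow_le_pow_left₀ (by positivity)
    have h5 : 1 ≤ 1 / δ := by
      rw [le_div_iff₀ hδ]
      linarith only [hδ1]
    have h6 : (2 * K + 3) / δ = 2 * (K / δ) + 3 * (1 / δ) := by ring
    rw [h6]
    linarith only [hN2, h5]
  have hY := sum_small hP U (fun w => (2 * w.1, 2 * w.2))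
    (fun w => b (2 * w.1 + 1, 2 * w.2) - b (2 * w.1, 2 * w.2)) (m := K * δ ^ 3)
    (v := 5 * A * (K + 1) / δ) (fun w _ => by
      have := h2 (2 * w.1, 2 * w.2)
      simpa only [ge_iff_le, Prod.mk_add_mk, add_zero] using this) (fun w hw => by
      rw [hU, Finset.mem_product, Finset.mem_Icc, Finset.mem_Icc] at hw
      have e : var2 P (2 * w.1, 2 * w.2) = Vrow P w.2 (2 * w.1 + w.2) := by
        unfold Vrow
        rw [← ev_two]
      rw [e]
      refine (hA _ _).trans ?_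
      have a1 : |(w.1 : ℝ)| ≤ N := by
        rw [abs_le]
        constructor
        · exact_mod_cast hw.1.1
        · exact_mod_cast hw.1.2
      have a2 : |(w.2 : ℝ)| ≤ N := by
        rw [abs_le]
        constructor
        · exact_mod_cast hw.2.1
        · exact_mod_cast hw.2.2
      have a3 : |((2 * w.1 + w.2 : ℤ) : ℝ)| ≤ 3 * N := by
        push_cast
        refine (abs_add_le _ _).trans ?_
        rw [abs_mul, abs_of_pos (by norm_num : (0 : ℝ) < 2)]
        linarith only [a1, a2]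
      have h5 : 1 ≤ 1 / δ := by
        rw [le_div_iff₀ hδ]
        linarith only [hδ1]
      have h6 : 5 * A * (K + 1) / δ = A * (5 * (K / δ) + 5 * (1 / δ)) := by ring
      rw [h6]
      apply mul_le_mul_of_nonneg_left _ hA0
      have h7 : 0 ≤ K / δ := by (clear * - hK hδ; positivity)
      linarith only [hN2, a2, a3, h5, h7])
  have hsq : ∀ φ : ℤ × ℤ → ℤ, ((∑ w ∈ U, b (2 * w.1 + 1, 2 * w.2) * gr w φ) +
      ∑ w ∈ U, (b (2 * w.1 + 1, 2 * w.2) - b (2 * w.1, 2 * w.2)) *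
        (φ (2 * w.1, 2 * w.2) : ℝ)) ^ 2 ≤
      2 * (∑ w ∈ U, b (2 * w.1 + 1, 2 * w.2) * gr w φ) ^ 2 +
      2 * (∑ w ∈ U, (b (2 * w.1 + 1, 2 * w.2) - b (2 * w.1, 2 * w.2)) *
        (φ (2 * w.1, 2 * w.2) : ℝ)) ^ 2 := by
    intro φ
    nlinarith only [sq_nonneg ((∑ w ∈ U, b (2 * w.1 + 1, 2 * w.2) * gr w φ) -       ∑ w ∈ U, (b (2 * w.1 + 1, 2 * w.2) - b (2 * w.1, 2 * w.2)) *         (φ (2 * w.1, 2 * w.2) : ℝ))]
  have i1 := (gr_sq_int hP U (fun w => b (2 * w.1 + 1, 2 * w.2))).const_mul 2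
  have i2 := (sq_int hP U (fun w => (2 * w.1, 2 * w.2))
    (fun w => b (2 * w.1 + 1, 2 * w.2) - b (2 * w.1, 2 * w.2))).const_mul 2
  have i3 : Integrable (fun φ : ℤ × ℤ → ℤ =>
      2 * (∑ w ∈ U, b (2 * w.1 + 1, 2 * w.2) * gr w φ) ^ 2 +
      2 * (∑ w ∈ U, (b (2 * w.1 + 1, 2 * w.2) - b (2 * w.1, 2 * w.2)) *
        (φ (2 * w.1, 2 * w.2) : ℝ)) ^ 2) P := i1.add i2
  refine (integral_mono_of_nonneg (ae_of_all _ fun φ => sq_nonneg _) i3
    (ae_of_all _ hsq)).trans ?_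
  rw [integral_add i1 i2, integral_const_mul, integral_const_mul]
  have hc0 : (0 : ℝ) ≤ U.card := by (clear * -; positivity)
  have q1 : (K * δ ^ 2) ^ 2 * (U.card * (T.card + ε * U.card)) ≤
      K ^ 2 * (2 * K + 3) ^ 2 * (δ ^ 2 * T.card + ε * (2 * K + 3) ^ 2) := by
    have q2 : (U.card : ℝ) * (T.card + ε * U.card) ≤
        ((2 * K + 3) / δ) ^ 2 * (T.card + ε * ((2 * K + 3) / δ) ^ 2) := by
      apply mul_le_mul hcard _ (by (clear * - hε; positivity)) (by positivity)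
      have := mul_le_mul_of_nonneg_left hcard hε
      linarith only [this]
    refine (mul_le_mul_of_nonneg_left q2 (by positivity)).trans (le_of_eq ?_)
    (clear * - hδ hK; field_simp)
  have q3 : (K * δ ^ 3) ^ 2 * ((U.card : ℝ) ^ 2 * (5 * A * (K + 1) / δ)) ≤
      K ^ 2 * (2 * K + 3) ^ 4 * (5 * A * (K + 1)) * δ := by
    have q4 : (U.card : ℝ) ^ 2 ≤ (((2 * K + 3) / δ) ^ 2) ^ 2 := pow_le_pow_left₀ hc0 hcard 2
    have q5 : (U.card : ℝ) ^ 2 * (5 * A * (K + 1) / δ) ≤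
        (((2 * K + 3) / δ) ^ 2) ^ 2 * (5 * A * (K + 1) / δ) :=
      mul_le_mul_of_nonneg_right q4 (by (clear * - hA0 hK hδ; positivity))
    refine (mul_le_mul_of_nonneg_left q5 (by positivity)).trans (le_of_eq ?_)
    (clear * - hK hδ; field_simp)
  linarith only [hX, hY, q1, q3]

theorem stag (hP : Plane P) (hdec : Tendsto (fun p : ℤ × ℤ => Vrow P p.1 (p.2 + 1) +
    Vrow P p.1 (p.2 - 1) - 2 * Vrow P p.1 p.2) cofinite (𝓝 0)) {A : ℝ} (hA0 : 0 ≤ A)
    (hA : ∀ j z : ℤ, Vrow P j z ≤ A * (1 + |(j : ℝ)| + |(z : ℝ)|)) {K : ℝ} (hK : 0 < K)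
    (δ : ℕ → ℝ) (hδ : ∀ n, 0 < δ n) (hδ1 : ∀ n, δ n ≤ 1) (ht : Tendsto δ atTop (𝓝 0))
    (b : ℕ → ℤ × ℤ → ℝ) (h1 : ∀ n v, |b n v| ≤ K * δ n ^ 2)
    (h2 : ∀ n v, |b n (v + (1, 0)) - b n v| ≤ K * δ n ^ 3)
    (h3 : ∀ n v, b n v ≠ 0 → |(v.1 : ℝ)| ≤ K / δ n ∧ |(v.2 : ℝ)| ≤ K / δ n) :
    Tendsto (fun n => ∫ φ, (∑ᶠ v : ℤ × ℤ, s0 v * b n v * (φ v : ℝ)) ^ 2 ∂P) atTop (𝓝 0) := by
  rw [Metric.tendsto_atTop']
  intro η hη
  set c : ℝ := 2 * (K ^ 2 * (2 * K + 3) ^ 4) with hc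
  have hcpos : 0 < c := by positivity
  obtain ⟨T, hT⟩ := gr_dec hP hdec (ε := η / (4 * c)) (by positivity)
  have h4 : Tendsto (fun n => 2 * (K ^ 2 * (2 * K + 3) ^ 2 * (δ n ^ 2 * T.card)) +
      2 * (K ^ 2 * (2 * K + 3) ^ 4 * (5 * A * (K + 1)) * δ n)) atTop (𝓝 0) := by
    have e1 : Tendsto (fun n => δ n ^ 2) atTop (𝓝 0) := by simpa only [ne_eq, OfNat.ofNat_ne_zero, not_false_eq_true, zero_pow] using ht.pow 2
    have e2 := ((e1.mul_const (T.card : ℝ)).const_mul (K ^ 2 * (2 * K + 3) ^ 2)).const_mul 2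
    have e3 := (ht.const_mul (K ^ 2 * (2 * K + 3) ^ 4 * (5 * A * (K + 1)))).const_mul 2
    simpa only [zero_mul, mul_zero, add_zero] using e2.add e3
  obtain ⟨N, hN⟩ := Filter.eventually_atTop.1 (h4.eventually (gt_mem_nhds (half_pos hη)))
  refine ⟨N, fun n hn => ?_⟩
  have h5 := stag_fin hP (by positivity) T hT hA0 hA hK (hδ n) (hδ1 n) (b n) (h1 n) (h2 n) (h3 n)
  have h6 := hN n hn.le
  have h7 : 2 * (K ^ 2 * (2 * K + 3) ^ 2 * (δ n ^ 2 * T.card + η / (4 * c) * (2 * K + 3) ^ 2)) =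
      2 * (K ^ 2 * (2 * K + 3) ^ 2 * (δ n ^ 2 * T.card)) + c * (η / (4 * c)) := by
    rw [hc]
    ring
  have h8 : c * (η / (4 * c)) = η / 4 := by
    (clear * - hcpos hη; field_simp)
  rw [Real.dist_eq, sub_zero, abs_of_nonneg (integral_nonneg fun φ => sq_nonneg _)]
  linarith only [hη, h5, h6, h8]

end Vale.Agent.P153.GFF
end

section

/-!
# P153, (G2), part one: the row spectral integrals at small momentum
-/

open MeasureTheory ProbabilityTheory Filter Topology Set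
open scoped ENNReal Real

namespace Vale.Agent.P153.GFF.G2w

open TwoPt TwoPt.Cn

theorem pow_close {x y r : ℝ} (hx0 : 0 ≤ x) (hy0 : 0 ≤ y) (hx : x ≤ r) (hy : y ≤ r) (hr : r < 1)
    (n : ℕ) : |x ^ n - y ^ n| * (1 - r) ≤ |x - y| * (1 - r ^ n) := by
  have hr0 : 0 ≤ r := hx0.trans hx
  induction n with
  | zero => simp
  | succ n ih =>
    have e : x ^ (n + 1) - y ^ (n + 1) = x * (x ^ n - y ^ n) + (x - y) * y ^ n := by ring
    have h1 : |x ^ (n + 1) - y ^ (n + 1)| ≤ r * |x ^ n - y ^ n| + |x - y| * r ^ n := by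
      rw [e]
      refine (abs_add_le _ _).trans ?_
      rw [abs_mul, abs_mul, abs_of_nonneg hx0, abs_of_nonneg (pow_nonneg hy0 n)]
      (clear * - hx hy0 hy; gcongr)
    have h2 : 0 ≤ 1 - r := by linarith only [hr]
    have h3 : r ^ n ≤ 1 := pow_le_one₀ hr0 hr.le
    calc |x ^ (n + 1) - y ^ (n + 1)| * (1 - r)
        ≤ (r * |x ^ n - y ^ n| + |x - y| * r ^ n) * (1 - r) := by (clear * - h1 hr; gcongr)
      _ = r * (|x ^ n - y ^ n| * (1 - r)) + |x - y| * (r ^ n * (1 - r)) := by ring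
      _ ≤ r * (|x - y| * (1 - r ^ n)) + |x - y| * (r ^ n * (1 - r)) := by (clear * - ih hr0; gcongr)
      _ ≤ |x - y| * (1 - r ^ (n + 1)) := by
        have h4 : 0 ≤ |x - y| * ((1 - r) * (1 - r ^ n)) :=
          mul_nonneg (abs_nonneg _) (mul_nonneg h2 (by linarith only [h3]))
        have h5 : r ^ (n + 1) = r ^ n * r := pow_succ _ _
        rw [h5]
        nlinarith only [h4]

theorem pow_close' {x y r : ℝ} (hx0 : 0 ≤ x) (hy0 : 0 ≤ y) (hx : x ≤ r) (hy : y ≤ r) (hr : r < 1)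
    (n : ℕ) : |x ^ n - y ^ n| ≤ |x - y| / (1 - r) := by
  rw [le_div_iff₀ (by linarith only [hr])]
  refine (pow_close hx0 hy0 hx hy hr n).trans ?_
  have hr0 : 0 ≤ r := hx0.trans hx
  have h3 : 0 ≤ r ^ n := pow_nonneg hr0 n
  nlinarith only [h3, abs_nonneg (x - y)]

/-- pointwise closeness near the atom -/
theorem pt_near {c δ k τ : ℝ} (hc : 0 < c) (hδc : δ ≤ c / 2) (hk : k ≠ 0)
    (hck : c * |k| ≤ 1 / 2) (h0 : 0 ≤ τ) (h1 : τ < 1)
    (h : abs ((1 - τ) - c * abs k) < δ * |k|) (n : ℕ) :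
    |(|k| * (τ ^ n / (1 - τ ^ 2))) - 1 / (2 * c) * Real.exp (-(c * |k|)) ^ n| ≤
      3 * δ / c ^ 2 + 4 * |k| := by
  have hK : 0 < |k| := abs_pos.mpr hk
  set K := |k| with hKd
  obtain ⟨h2, h3⟩ := abs_lt.mp h
  set u := 1 - τ with hu
  have hcK : 0 < c * K := by positivity
  have hδ : 0 < δ := by
    by_contra hn
    push Not at hn
    have : 0 ≤ |u - c * K| := abs_nonneg _
    have : δ * K ≤ 0 := by nlinarith only [hK, hn]
    linarith only [h2, h3, this]
  have hu1 : c * K / 2 ≤ u := by nlinarith only [h2, hδc, hK]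
  have hu2 : u ≤ 3 / 2 * (c * K) := by nlinarith only [h3, hδc, hK]
  have hu0 : 0 < u := by linarith only [h1]
  have hu3 : u ≤ 3 / 4 := by linarith only [hck, hu2]
  have hτu : τ = 1 - u := by rw [hu]; ring
  have hden : 1 - τ ^ 2 = u * (2 - u) := by rw [hτu]; ring
  -- first factor
  have a1 : |K / (1 - τ ^ 2) - 1 / (2 * c)| ≤ 2 * δ / c ^ 2 + 9 / 4 * K := by
    rw [hden]
    have hu4 : 0 < 2 - u := by linarith only [h0]
    have e : K / (u * (2 - u)) - 1 / (2 * c) = (2 * (c * K - u) + u ^ 2) / (2 * c * (u * (2 - u))) := by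
      field_simp
      ring
    rw [e, abs_div, abs_of_pos (show 0 < 2 * c * (u * (2 - u)) by (clear * - hc h1 hu4; positivity)),
      div_le_iff₀ (by positivity)]
    have b1 : |2 * (c * K - u) + u ^ 2| ≤ 2 * (δ * K) + u ^ 2 := by
      rw [abs_le]
      constructor <;> nlinarith only [h2, h3]
    have b2 : c ^ 2 * K ≤ 2 * c * (u * (2 - u)) := by
      have : c * K / 2 * 1 ≤ u * (2 - u) := by
        gcongr
        linarith only [h0]
      nlinarith only [hc, this]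
    have b3 : u ^ 2 ≤ (3 / 2 * (c * K)) ^ 2 := by (clear * - h1 hu2; gcongr)
    calc |2 * (c * K - u) + u ^ 2| ≤ 2 * (δ * K) + u ^ 2 := b1
      _ ≤ 2 * (δ * K) + (3 / 2 * (c * K)) ^ 2 := by linarith only [b3]
      _ = (2 * δ / c ^ 2 + 9 / 4 * K) * (c ^ 2 * K) := by field_simp; ring
      _ ≤ _ := by (clear * - b2 hδ hc hk; gcongr)
  -- second factor
  have hexp := Real.abs_exp_sub_one_sub_id_le (x := -(c * K)) (by rw [abs_neg, abs_of_pos hcK]; linarith only [hck])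
  obtain ⟨c1, c2⟩ := abs_le.mp hexp
  set y := Real.exp (-(c * K)) with hy
  have hy0 : 0 < y := Real.exp_pos _
  have hy1 : y ≤ 1 - c * K / 2 := by nlinarith only [c2, hck, hcK]
  have a2 : |τ ^ n - y ^ n| ≤ (δ * K + (c * K) ^ 2) / (c * K / 2) := by
    have hm := pow_close' (x := τ) (y := y) (r := 1 - c * K / 2) h0 hy0.le (by linarith only [hu1]) hy1
      (by linarith only [hcK]) n
    refine hm.trans ?_
    rw [show 1 - (1 - c * K / 2) = c * K / 2 by ring]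
    gcongr
    rw [abs_le]
    constructor <;> nlinarith only [h2, c1, h3, c2]
  have a2' : (δ * K + (c * K) ^ 2) / (c * K / 2) = 2 * δ / c + 2 * c * K := by
    (clear * - hK hδ hc; field_simp)
  rw [a2'] at a2
  have hτn0 : 0 ≤ τ ^ n := pow_nonneg h0 n
  have hτn1 : τ ^ n ≤ 1 := pow_le_one₀ h0 h1.le
  have e : K * (τ ^ n / (1 - τ ^ 2)) - 1 / (2 * c) * y ^ n =
      (K / (1 - τ ^ 2) - 1 / (2 * c)) * τ ^ n + 1 / (2 * c) * (τ ^ n - y ^ n) := by ring
  rw [e]
  refine (abs_add_le _ _).trans ?_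
  rw [abs_mul, abs_mul, abs_of_nonneg hτn0, abs_of_pos (show 0 < 1 / (2 * c) by positivity)]
  calc |K / (1 - τ ^ 2) - 1 / (2 * c)| * τ ^ n + 1 / (2 * c) * |τ ^ n - y ^ n|
      ≤ (2 * δ / c ^ 2 + 9 / 4 * K) * 1 + 1 / (2 * c) * (2 * δ / c + 2 * c * K) := by (clear * - a1 hτn1 h0 hδ hc hk a2; gcongr)
    _ = 3 * δ / c ^ 2 + 13 / 4 * K := by field_simp; ring
    _ ≤ _ := by linarith only [hK]

theorem integrable_pow {m : Kernel ℝ ℝ} {C k : ℝ} (h : Good m C k) (n : ℕ) :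
    Integrable (fun τ => τ ^ n / (1 - τ ^ 2)) (m k) := by
  refine h.integrable_inv.mono' (by fun_prop : Measurable fun τ : ℝ => τ ^ n / (1 - τ ^ 2)).aestronglyMeasurable ?_
  filter_upwards [h.supp] with τ hτ
  have h1 : 0 < 1 - τ := by linarith [hτ.2]
  have h2 : 0 < 1 - τ ^ 2 := by nlinarith only [hτ]
  have h3 : τ ^ n ≤ 1 := pow_le_one₀ hτ.1 hτ.2.le
  have h4 : 0 ≤ τ ^ n := pow_nonneg hτ.1 n
  rw [Real.norm_eq_abs, abs_of_nonneg (by (clear * - h4 h2; positivity))]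
  have h5 : (1 - τ) ^ 2 ≤ 1 - τ ^ 2 := by nlinarith only [hτ]
  gcongr

/-- uniform asymptotics of the row integrals at small momentum -/
theorem conc_unif {V : ℤ → ℤ → ℝ} {m : Kernel ℝ ℝ} {c κ C k0 : ℝ} (hS : Spec V m c κ C k0)
    {ε : ℝ} (hε : 0 < ε) : ∃ η > 0, ∀ᵐ k : ℝ, |k| < η → k ≠ 0 → Good m C k ∧ ∀ n : ℕ,
      |(∫ τ, τ ^ n / (1 - τ ^ 2) ∂(m k)) - κ / (2 * c * |k|) * Real.exp (-(c * |k|)) ^ n| ≤
        ε / |k| := by
  have hc := hS.c_pos
  have hC := hS.C_pos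
  have hκ := hS.κ_nonneg
  set δ := min (c / 2) (ε * c ^ 2 / (18 * C)) with hδd
  have hδ : 0 < δ := lt_min (by (clear * - hc; positivity)) (by (clear * - hε hc hC; positivity))
  set A := 6 * C / ε with hAd
  have hA : 0 < A := by positivity
  set s := ε / (6 * C) with hsd
  have hs : 0 < s := by positivity
  obtain ⟨η1, hη1, h1⟩ := conc_a hS hA hδ (ε := 4 * s * ε / 6) (by positivity)
  obtain ⟨η2, hη2, h2⟩ := conc_b hS hδ (ε := c * ε / 3) (by positivity)
  refine ⟨min (min k0 (min η1 η2)) (min (1 / (2 * c)) (ε / (24 * C))),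
    lt_min (lt_min hS.k0_pos (lt_min hη1 hη2)) (lt_min (by positivity) (by positivity)), ?_⟩
  filter_upwards [ae_good hS, h1, h2] with k hg g1 g2 hk hk0
  simp only [lt_min_iff] at hk
  obtain ⟨⟨hka, hkb, hkc⟩, hkd, hke⟩ := hk
  have hG := hg hka hk0
  refine ⟨hG, fun n => ?_⟩
  have hfin := hG.fin
  have f1 := g1 hkb hk0
  have f2 := g2 hkc hk0
  have hK : 0 < |k| := abs_pos.mpr hk0
  have hck : c * |k| ≤ 1 / 2 := by
    rw [lt_div_iff₀ (by positivity)] at hkd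
    linarith only [hkd]
  set S1 := {τ : ℝ | abs ((1 - τ) - c * abs k) < δ * |k|} with hS1
  set S2 := {τ : ℝ | 1 - τ ≤ A * |k| ∧ δ * |k| ≤ abs ((1 - τ) - c * abs k)} with hS2
  have hS1m : MeasurableSet S1 := measurableSet_near δ c k
  have hS2m : MeasurableSet S2 := by
    have h1 : MeasurableSet {τ : ℝ | 1 - τ ≤ A * |k|} := measurableSet_le (by fun_prop) (by fun_prop)
    have h2 : MeasurableSet {τ : ℝ | δ * |k| ≤ abs ((1 - τ) - c * abs k)} :=
      measurableSet_le (by fun_prop) (by fun_prop)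
    exact h1.inter h2
  set Y := 1 / (2 * c) * Real.exp (-(c * |k|)) ^ n with hY
  have hY0 : 0 ≤ Y := by positivity
  have hY1 : Y ≤ 1 / (2 * c) := by
    have : Real.exp (-(c * |k|)) ^ n ≤ 1 := pow_le_one₀ (Real.exp_pos _).le
      (Real.exp_le_one_iff.2 (by have := mul_pos hc hK; linarith only [this]))
    calc Y ≤ 1 / (2 * c) * 1 := by rw [hY]; (clear * - this hc; gcongr)
      _ = _ := mul_one _
  set W := 3 * δ / c ^ 2 + 4 * |k| with hW
  have hW0 : 0 ≤ W := by (clear * - hc hε hC hk0; positivity)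
  have hint := integrable_pow hG n
  have i0 : Integrable (fun τ => |k| * (τ ^ n / (1 - τ ^ 2))) (m k) := hint.const_mul _
  have i1 : Integrable (S1.indicator fun _ => Y) (m k) := (integrable_const _).indicator hS1m
  have i2 : Integrable (S2.indicator fun _ => 1 / (4 * s)) (m k) :=
    (integrable_const _).indicator hS2m
  have i3 : Integrable (fun τ => s * k ^ 2 * (1 / (1 - τ) ^ 2)) (m k) :=
    hG.integrable_inv.const_mul _
  have key : |∫ τ, (|k| * (τ ^ n / (1 - τ ^ 2)) - S1.indicator (fun _ => Y) τ) ∂(m k)| ≤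
      ∫ τ, ((W + 1 / A) + S2.indicator (fun _ => 1 / (4 * s)) τ + s * k ^ 2 * (1 / (1 - τ) ^ 2))
        ∂(m k) := by
    rw [← Real.norm_eq_abs]
    refine norm_integral_le_of_norm_le (((integrable_const _).add i2).add i3) ?_
    filter_upwards [hG.supp] with τ hτ
    rw [Real.norm_eq_abs]
    have hu : 0 < 1 - τ := by linarith only [hτ]
    have hu2 : 0 < 1 - τ ^ 2 := by nlinarith only [hτ]
    have hτn1 : τ ^ n ≤ 1 := pow_le_one₀ hτ.1 hτ.2.le
    have hτn0 : 0 ≤ τ ^ n := pow_nonneg hτ.1 n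
    have hle : |k| * (τ ^ n / (1 - τ ^ 2)) ≤ |k| / (1 - τ) := by
      rw [← mul_div_assoc]
      have : 1 - τ ≤ 1 - τ ^ 2 := by nlinarith only [hτ]
      gcongr
      nlinarith only [hK, hτn1]
    have hge : 0 ≤ |k| * (τ ^ n / (1 - τ ^ 2)) := by (clear * - hk0 hτn0 hu2; positivity)
    have hp3 : 0 ≤ s * k ^ 2 * (1 / (1 - τ) ^ 2) := by (clear * - hε hC hk0 hu; positivity)
    have hp2 : 0 ≤ S2.indicator (fun _ => 1 / (4 * s)) τ :=
      indicator_nonneg (fun _ _ => by positivity) τ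
    by_cases m1 : τ ∈ S1
    · rw [indicator_of_mem m1]
      have := pt_near hc (min_le_left _ _) hk0 hck hτ.1 hτ.2 m1 n
      have : 0 < 1 / A := by positivity
      (clear hκ hδd hδ hAd hA hsd hs η1 hη1 h1 η2 hη2 h2 hkb hkc hke hK g2 f2 hS1 g1 f1 hS2 hS1m hS2m hY hY0 hY1 hW hW0 hint i0 i1 i2 i3 hu2 hτn1 hτn0 hle hge; linarith)
    · rw [indicator_of_notMem m1, sub_zero, abs_of_nonneg hge]
      by_cases m2 : 1 - τ ≤ A * |k|
      · have m3 : τ ∈ S2 := ⟨m2, not_lt.mp m1⟩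
        rw [indicator_of_mem m3]
        have : |k| / (1 - τ) ≤ 1 / (4 * s) + s * k ^ 2 * (1 / (1 - τ) ^ 2) := by
          set q := |k| / (1 - τ) with hq
          have e1 : s * k ^ 2 * (1 / (1 - τ) ^ 2) = s * q ^ 2 := by
            rw [hq, div_pow, sq_abs]; ring
          rw [e1]
          have e2 : 1 / (4 * s) + s * q ^ 2 - q = s * (q - 1 / (2 * s)) ^ 2 := by
            field_simp
            ring
          have e3 : 0 ≤ s * (q - 1 / (2 * s)) ^ 2 := by (clear * - hε hC; positivity)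
          linarith only [e2, e3]
        have : 0 < 1 / A := by positivity
        linarith
      · have : |k| / (1 - τ) ≤ 1 / A := by
          rw [div_le_div_iff₀ hu hA]
          nlinarith only [m2]
        linarith only [hW0, hle, hp3, hp2, this]
  have i12 : Integrable (fun τ => (W + 1 / A) + S2.indicator (fun _ => 1 / (4 * s)) τ) (m k) :=
    (integrable_const _).add i2
  rw [integral_sub i0 i1, integral_add i12 i3, integral_add (integrable_const _) i2, integral_const_mul, integral_const_mul,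
    integral_indicator_const _ hS1m, integral_indicator_const _ hS2m, integral_const, smul_eq_mul,
    smul_eq_mul, smul_eq_mul] at key
  have hmass := hG.real_le hC.le
  have hmass0 : 0 ≤ (m k).real univ := measureReal_nonneg
  have hinv : ∫ τ, 1 / (1 - τ) ^ 2 ∂(m k) ≤ C / k ^ 2 := by
    rw [integral_eq_lintegral_of_nonneg_ae (Eventually.of_forall fun τ => by (clear * -; positivity))
      hG.integrable_inv.aestronglyMeasurable]
    exact ENNReal.toReal_le_of_le_ofReal (by (clear * - hC hk0; positivity)) hG.inv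
  have t1 : (m k).real univ * (W + 1 / A) ≤ ε / 6 + ε / 6 + ε / 6 := by
    have w1 : C * (3 * δ / c ^ 2) ≤ ε / 6 := by
      have : δ ≤ ε * c ^ 2 / (18 * C) := min_le_right _ _
      calc C * (3 * δ / c ^ 2) ≤ C * (3 * (ε * c ^ 2 / (18 * C)) / c ^ 2) := by (clear * - this hc hC; gcongr)
        _ = ε / 6 := by field_simp; ring
    have w2 : C * (4 * |k|) ≤ ε / 6 := by
      rw [lt_div_iff₀ (by positivity)] at hke
      linarith only [hke]
    have w3 : C * (1 / A) = ε / 6 := by rw [hAd]; field_simp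
    calc (m k).real univ * (W + 1 / A) ≤ C * (W + 1 / A) := by (clear * - hmass hc hε hC hk0; gcongr)
      _ = C * (3 * δ / c ^ 2) + C * (4 * |k|) + C * (1 / A) := by rw [hW]; ring
      _ ≤ _ := by linarith only [w1, w2, w3]
  have t2 : (m k).real S2 * (1 / (4 * s)) ≤ ε / 6 := by
    calc (m k).real S2 * (1 / (4 * s)) ≤ 4 * s * ε / 6 * (1 / (4 * s)) := by gcongr
      _ = ε / 6 := by field_simp
  have t3 : s * k ^ 2 * (∫ τ, 1 / (1 - τ) ^ 2 ∂(m k)) ≤ ε / 6 := by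
    calc s * k ^ 2 * (∫ τ, 1 / (1 - τ) ^ 2 ∂(m k)) ≤ s * k ^ 2 * (C / k ^ 2) := by (clear * - hinv hε hC hk0; gcongr)
      _ = ε / 6 := by rw [hsd]; (clear * - hC hk0 hε; field_simp)
  have t4 : |(m k).real S1 * Y - κ * Y| ≤ ε / 6 := by
    rw [← sub_mul, abs_mul, abs_of_nonneg hY0]
    calc |(m k).real S1 - κ| * Y ≤ c * ε / 3 * (1 / (2 * c)) := by gcongr
      _ = ε / 6 := by field_simp; ring
  have fin : |(|k| * ∫ τ, τ ^ n / (1 - τ ^ 2) ∂(m k)) - κ * Y| ≤ ε := by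
    have e : (|k| * ∫ τ, τ ^ n / (1 - τ ^ 2) ∂(m k)) - κ * Y =
        ((|k| * ∫ τ, τ ^ n / (1 - τ ^ 2) ∂(m k)) - (m k).real S1 * Y) +
          ((m k).real S1 * Y - κ * Y) := by ring
    rw [e]
    refine (abs_add_le _ _).trans ?_
    linarith only [key, t1, t2, t3, t4]
  have e2 : (∫ τ, τ ^ n / (1 - τ ^ 2) ∂(m k)) - κ / (2 * c * |k|) * Real.exp (-(c * |k|)) ^ n =
      ((|k| * ∫ τ, τ ^ n / (1 - τ ^ 2) ∂(m k)) - κ * Y) / |k| := by
    rw [hY]
    (clear * - hk0 hc; field_simp)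
  rw [e2, abs_div, abs_abs]
  (clear * - fin hk0; gcongr)

end Vale.Agent.P153.GFF.G2w
end

section

/-!
# P153, (G2), part two: bounds of the row integrals
-/

open MeasureTheory ProbabilityTheory Filter Topology Set
open scoped ENNReal Real

namespace Vale.Agent.P153.GFF.G2w

open TwoPt TwoPt.Cn

/-- the row integral -/
noncomputable def FF (m : Kernel ℝ ℝ) (n : ℕ) (z k : ℝ) : ℝ :=
  ∫ τ, (1 - Real.cos (k * z) * τ ^ n) / (1 - τ ^ 2) ∂(m k)

theorem FF_meas (m : Kernel ℝ ℝ) [IsSFiniteKernel m] (n : ℕ) (z : ℝ) :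
    StronglyMeasurable (FF m n z) := by
  have h : Measurable (fun p : ℝ × ℝ => (1 - Real.cos (p.1 * z) * p.2 ^ n) / (1 - p.2 ^ 2)) := by
    fun_prop
  exact h.stronglyMeasurable.integral_kernel_prod_right' (κ := m)

theorem FF_eq {m : Kernel ℝ ℝ} {C k : ℝ} (h : Good m C k) (n : ℕ) (z : ℝ) :
    FF m n z k = (∫ τ, τ ^ 0 / (1 - τ ^ 2) ∂(m k)) -
      Real.cos (k * z) * ∫ τ, τ ^ n / (1 - τ ^ 2) ∂(m k) := by
  rw [← integral_const_mul, ← integral_sub (integrable_pow h 0)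
    ((integrable_pow h n).const_mul _)]
  refine integral_congr_ae (Eventually.of_forall fun τ => ?_)
  simp only [pow_zero]
  ring

/-- main term -/
noncomputable def GG (c κ : ℝ) (n : ℕ) (z t : ℝ) : ℝ :=
  κ / (2 * c * t) * (1 - Real.cos (t * z) * Real.exp (-(c * t)) ^ n)

theorem FF_main {V : ℤ → ℤ → ℝ} {m : Kernel ℝ ℝ} {c κ C k0 : ℝ} (hS : Spec V m c κ C k0)
    {ε : ℝ} (hε : 0 < ε) : ∃ η > 0, ∀ᵐ k : ℝ, |k| < η → k ≠ 0 → ∀ (n : ℕ) (z : ℝ),
      |FF m n z k - GG c κ n z (abs k)| ≤ ε / |k| := by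
  obtain ⟨η, hη, h⟩ := conc_unif hS (half_pos hε)
  refine ⟨η, hη, ?_⟩
  filter_upwards [h] with k hk h1 h2 n z
  obtain ⟨hG, h3⟩ := hk h1 h2
  have hK : 0 < |k| := abs_pos.mpr h2
  rw [FF_eq hG]
  have a1 := h3 0
  have a2 := h3 n
  have hcos : Real.cos (|k| * z) = Real.cos (k * z) := by
    rcases abs_choice k with h | h
    · rw [h]
    · rw [h, neg_mul, Real.cos_neg]
  have e : (∫ τ, τ ^ 0 / (1 - τ ^ 2) ∂(m k)) - Real.cos (k * z) * ∫ τ, τ ^ n / (1 - τ ^ 2) ∂(m k) -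
      GG c κ n z (abs k) = ((∫ τ, τ ^ 0 / (1 - τ ^ 2) ∂(m k)) -
        κ / (2 * c * |k|) * Real.exp (-(c * |k|)) ^ 0) - Real.cos (k * z) *
        ((∫ τ, τ ^ n / (1 - τ ^ 2) ∂(m k)) - κ / (2 * c * |k|) * Real.exp (-(c * |k|)) ^ n) := by
    unfold GG
    rw [hcos, pow_zero (Real.exp _)]
    ring
  rw [e]
  refine (abs_sub _ _).trans ?_
  rw [abs_mul]
  have hc := Real.abs_cos_le_one (k * z)
  calc _ ≤ ε / 2 / |k| + 1 * (ε / 2 / |k|) := by (clear * - a1 hc a2; gcongr)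
    _ = ε / |k| := by ring

theorem FF_bd {m : Kernel ℝ ℝ} {C k : ℝ} (h : Good m C k) (hC : 0 ≤ C) (hk : k ≠ 0) (n : ℕ)
    (z : ℝ) : |FF m n z k| ≤ C * (|k| * z ^ 2 + n) := by
  have hfin := h.fin
  have hK : 0 < |k| := abs_pos.mpr hk
  have i3 : Integrable (fun τ => |k| * z ^ 2 / 2 * (k ^ 2 * (1 / (1 - τ) ^ 2))) (m k) :=
    (h.integrable_inv.const_mul _).const_mul _
  have key : |FF m n z k| ≤
      ∫ τ, ((|k| * z ^ 2 / 2 * (1 / 4) + n) + |k| * z ^ 2 / 2 * (k ^ 2 * (1 / (1 - τ) ^ 2)))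
        ∂(m k) := by
    rw [← Real.norm_eq_abs]
    refine norm_integral_le_of_norm_le ((integrable_const _).add i3) ?_
    filter_upwards [h.supp] with τ hτ
    have hu : 0 < 1 - τ := by linarith [hτ.2]
    have hu2 : 0 < 1 - τ ^ 2 := by nlinarith only [hτ]
    have huu : 1 - τ ≤ 1 - τ ^ 2 := by nlinarith only [hτ]
    have hτn1 : τ ^ n ≤ 1 := pow_le_one₀ hτ.1 hτ.2.le
    have hτn0 : 0 ≤ τ ^ n := pow_nonneg hτ.1 n
    have hc1 := Real.cos_le_one (k * z)
    have hc2 := Real.one_sub_sq_div_two_le_cos (x := k * z)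
    have hb : 1 - τ ^ n ≤ n * (1 - τ) := by
      have := one_add_mul_le_pow (a := τ - 1) (by linarith only [hτ]) n
      have e : 1 + (τ - 1) = τ := by ring
      rw [e] at this
      linarith only [this]
    have hnum : 1 - Real.cos (k * z) * τ ^ n ≤ k ^ 2 * z ^ 2 / 2 + n * (1 - τ) := by nlinarith only [hc2, hb, hτn1, hc1]
    have hnum0 : 0 ≤ 1 - Real.cos (k * z) * τ ^ n := by nlinarith only [hτn1, hτn0, hc1]
    rw [Real.norm_eq_abs, abs_of_nonneg (by (clear * - hnum0 hu2; positivity))]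
    set q := |k| / (1 - τ) with hq
    have hq0 : 0 ≤ q := by positivity
    calc (1 - Real.cos (k * z) * τ ^ n) / (1 - τ ^ 2)
        ≤ (k ^ 2 * z ^ 2 / 2 + n * (1 - τ)) / (1 - τ) := by (clear * - hk hu hnum huu; gcongr)
      _ = |k| * z ^ 2 / 2 * q + n := by
        rw [hq, ← sq_abs k]
        field_simp
      _ ≤ |k| * z ^ 2 / 2 * (1 / 4 + q ^ 2) + n := by
        gcongr
        nlinarith only [sq_nonneg (q - 1 / 2)]
      _ = _ := by
        rw [hq, div_pow, sq_abs]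
        ring
  rw [integral_add (integrable_const _) i3, integral_const, integral_const_mul, integral_const_mul,
    smul_eq_mul] at key
  have hmass := h.real_le hC
  have hinv : ∫ τ, 1 / (1 - τ) ^ 2 ∂(m k) ≤ C / k ^ 2 := by
    rw [integral_eq_lintegral_of_nonneg_ae (Eventually.of_forall fun τ => by (clear * -; positivity))
      h.integrable_inv.aestronglyMeasurable]
    exact ENNReal.toReal_le_of_le_ofReal (by positivity) h.inv
  have hk2 : 0 < k ^ 2 := by positivity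
  calc |FF m n z k| ≤ _ := key
    _ ≤ C * (|k| * z ^ 2 / 2 * (1 / 4) + n) + |k| * z ^ 2 / 2 * (k ^ 2 * (C / k ^ 2)) := by
      gcongr
    _ = C * (5 / 8 * (|k| * z ^ 2) + n) := by field_simp; ring
    _ ≤ _ := by
      have : 0 ≤ |k| * z ^ 2 := by (clear * - hk; positivity)
      exact mul_le_mul_of_nonneg_left (by linarith only [this]) hC

theorem FF_far {V : ℤ → ℤ → ℝ} {m : Kernel ℝ ℝ} {c κ C k0 : ℝ} (hS : Spec V m c κ C k0)
    {η : ℝ} (hη : 0 < η) (hηπ : η ≤ π) : ∃ D : ℝ≥0∞, D ≠ ⊤ ∧ ∀ (n : ℕ) (z : ℝ),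
      ∫⁻ k in Icc (-π) π ∩ {k | η ≤ |k|}, ‖FF m n z k‖ₑ ≤ D := by
  have hcos : 0 < 1 - Real.cos η := by
    have := Real.cos_lt_cos_of_nonneg_of_le_pi le_rfl hηπ hη
    rw [Real.cos_zero] at this
    linarith only [this]
  refine ⟨2 * ((ENNReal.ofReal (1 - Real.cos η))⁻¹ * ∫⁻ k in Icc (-π) π,
    ENNReal.ofReal (1 - Real.cos k) * ∫⁻ τ, ENNReal.ofReal (1 / (1 - τ ^ 2)) ∂(m k)), ?_, ?_⟩
  · refine ENNReal.mul_ne_top (by norm_num) (ENNReal.mul_ne_top ?_ hS.fin)
    rw [ENNReal.inv_ne_top]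
    simpa only [ne_eq, ENNReal.ofReal_eq_zero, tsub_le_iff_right, zero_add, not_le, sub_pos] using hcos
  · intro n z
    have hm : MeasurableSet (Icc (-π) π ∩ {k : ℝ | η ≤ |k|}) :=
      measurableSet_Icc.inter (measurableSet_le measurable_const (by fun_prop))
    have hsf := hS.sfin
    have hPm : Measurable fun k : ℝ => ENNReal.ofReal (1 - Real.cos k) *
        ∫⁻ τ, ENNReal.ofReal (1 / (1 - τ ^ 2)) ∂(m k) := by
      have h1 : Measurable fun p : ℝ × ℝ => ENNReal.ofReal (1 / (1 - p.2 ^ 2)) := by fun_prop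
      have h2 : Measurable fun k : ℝ => ∫⁻ τ, ENNReal.ofReal (1 / (1 - τ ^ 2)) ∂(m k) :=
        Measurable.lintegral_kernel_prod_right' (κ := m) h1
      have h3 : Measurable fun k : ℝ => ENNReal.ofReal (1 - Real.cos k) := by fun_prop
      exact h3.mul h2
    calc ∫⁻ k in Icc (-π) π ∩ {k | η ≤ |k|}, ‖FF m n z k‖ₑ
        ≤ ∫⁻ k in Icc (-π) π ∩ {k | η ≤ |k|}, 2 * ((ENNReal.ofReal (1 - Real.cos η))⁻¹ *
          (ENNReal.ofReal (1 - Real.cos k) *
            ∫⁻ τ, ENNReal.ofReal (1 / (1 - τ ^ 2)) ∂(m k))) := by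
          refine lintegral_mono_ae ?_
          filter_upwards [ae_restrict_of_ae hS.supp, ae_restrict_mem hm] with k hk hkm
          have h1 : ‖FF m n z k‖ₑ ≤ 2 * ∫⁻ τ, ENNReal.ofReal (1 / (1 - τ ^ 2)) ∂(m k) := by
            unfold FF
            refine (enorm_integral_le_lintegral_enorm _).trans ?_
            rw [← lintegral_const_mul _ (by fun_prop)]
            refine lintegral_mono_ae ?_
            filter_upwards [hk] with τ hτ
            have hu2 : 0 < 1 - τ ^ 2 := by nlinarith only [hτ]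
            have hτn1 : τ ^ n ≤ 1 := pow_le_one₀ hτ.1 hτ.2.le
            have hτn0 : 0 ≤ τ ^ n := pow_nonneg hτ.1 n
            have hc1 := Real.cos_le_one (k * z)
            have hc2 := Real.neg_one_le_cos (k * z)
            have hnum : 1 - Real.cos (k * z) * τ ^ n ≤ 2 := by nlinarith only [hc2, hτn1, hτn0]
            have hnum0 : 0 ≤ 1 - Real.cos (k * z) * τ ^ n := by nlinarith only [hc1, hτn1, hτn0]
            rw [Real.enorm_eq_ofReal (by (clear * - hnum0 hu2; positivity)), show (2 : ℝ≥0∞) = ENNReal.ofReal 2 by simp,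
              ← ENNReal.ofReal_mul (by norm_num)]
            refine ENNReal.ofReal_le_ofReal ?_
            rw [mul_one_div]
            (clear * - hnum hu2; gcongr)
          refine h1.trans ?_
          gcongr
          rw [← mul_assoc]
          have h2 : 1 ≤ (ENNReal.ofReal (1 - Real.cos η))⁻¹ * ENNReal.ofReal (1 - Real.cos k) := by
            have h3 : ENNReal.ofReal (1 - Real.cos η) ≤ ENNReal.ofReal (1 - Real.cos k) := by
              refine ENNReal.ofReal_le_ofReal ?_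
              have h4 : Real.cos k ≤ Real.cos η := by
                rw [← Real.cos_abs k]
                refine Real.cos_le_cos_of_nonneg_of_le_pi hη.le ?_ hkm.2
                exact abs_le.2 hkm.1
              linarith only [h4]
            have h5 : (ENNReal.ofReal (1 - Real.cos η)) ≠ 0 := by simpa only [ne_eq, ENNReal.ofReal_eq_zero, tsub_le_iff_right, zero_add, not_le, sub_pos] using hcos
            calc (1 : ℝ≥0∞) = (ENNReal.ofReal (1 - Real.cos η))⁻¹ *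
                ENNReal.ofReal (1 - Real.cos η) :=
                  (ENNReal.inv_mul_cancel h5 ENNReal.ofReal_ne_top).symm
              _ ≤ _ := by (clear * - h3; gcongr)
          calc ∫⁻ τ, ENNReal.ofReal (1 / (1 - τ ^ 2)) ∂(m k)
              = 1 * ∫⁻ τ, ENNReal.ofReal (1 / (1 - τ ^ 2)) ∂(m k) := (one_mul _).symm
            _ ≤ _ := by (clear * - h2; gcongr)
      _ = 2 * ((ENNReal.ofReal (1 - Real.cos η))⁻¹ *
          ∫⁻ k in Icc (-π) π ∩ {k | η ≤ |k|}, ENNReal.ofReal (1 - Real.cos k) *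
            ∫⁻ τ, ENNReal.ofReal (1 / (1 - τ ^ 2)) ∂(m k)) := by
          rw [lintegral_const_mul _ (hPm.const_mul _), lintegral_const_mul _ hPm]
      _ ≤ _ := by
          gcongr
          exact inter_subset_left

end Vale.Agent.P153.GFF.G2w
end
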