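import Mathlib
import Vale.Agent.P153.Bd5.B3
import Vale.Agent.P153.Bd5.B1
import Vale.Agent.P153.Bd5.B2

set_option linter.all false

section

/-!
# P153 GFF: the weights of the smeared interpolated field
-/

open MeasureTheory Filter Topology Set

namespace Vale.Agent.P153.GFF

/-- Position of a vertex. -/
noncomputable def pos (v : ℤ × ℤ) : ℝ × ℝ := ((v.1 : ℝ) + v.2 / 2, v.2 * (√3 / 2))

lemma hat_eq_ker (z : ℝ × ℝ) (v : ℤ × ℤ) :
    hat (z.1 - z.2 / √3 - v.1) (2 * z.2 / √3 - v.2) = ker (z - pos v) := by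
  have h3 : (0 : ℝ) < √3 := by positivity
  unfold ker pos
  simp only [Prod.fst_sub, Prod.snd_sub]
  congr 1
  · field_simp
    ring
  · field_simp

/-- The weight of the vertex `v` at mesh `δ`. -/
noncomputable def wt (δ : ℝ) (f : ℝ × ℝ → ℝ) (v : ℤ × ℤ) : ℝ :=
  δ ^ 2 * ∫ u : ℝ × ℝ, ker u * f (δ • (u + pos v))

lemma wt_eq {δ : ℝ} (f : ℝ × ℝ → ℝ) (v : ℤ × ℤ) :
    wt δ f v = δ ^ 2 * ∫ u : ℝ × ℝ, ker (u - pos v) * f (δ • u) := by
  unfold wt
  congr 1
  rw [← integral_add_right_eq_self (fun u : ℝ × ℝ => ker (u - pos v) * f (δ • u)) (pos v)]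
  congr 1
  ext u
  rw [add_sub_cancel_right]

lemma smear_eq {δ : ℝ} (hδ : 0 < δ) (h : ℤ × ℤ → ℤ) (f : ℝ × ℝ → ℝ) :
    smear h δ f = δ ^ 2 * ∫ u : ℝ × ℝ, interp h u * f (δ • u) := by
  unfold smear
  have h1 := Measure.integral_comp_smul (μ := (volume : Measure (ℝ × ℝ)))
    (fun u : ℝ × ℝ => interp h u * f (δ • u)) δ⁻¹
  have h2 : Module.finrank ℝ (ℝ × ℝ) = 2 := by simp
  rw [h2] at h1
  have h3 : |((δ⁻¹) ^ 2)⁻¹| = δ ^ 2 := by
    rw [inv_pow, inv_inv, abs_of_pos (by positivity)]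
  rw [h3, smul_eq_mul] at h1
  rw [← h1]
  congr 1
  ext z
  rw [smul_smul, mul_inv_cancel₀ hδ.ne', one_smul]
  congr 2
  · ext
    · simp only [Prod.smul_fst, smul_eq_mul]
      field_simp
    · simp only [Prod.smul_snd, smul_eq_mul]
      (clear * - hδ; field_simp)

/-- a finite set outside of which the weights vanish -/
noncomputable def box (δ R : ℝ) : Finset (ℤ × ℤ) :=
  Finset.Icc (-⌈2 * (R / δ) + 6⌉) ⌈2 * (R / δ) + 6⌉ ×ˢ
    Finset.Icc (-⌈2 * (R / δ) + 6⌉) ⌈2 * (R / δ) + 6⌉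

lemma ker_zero_of_box {δ R : ℝ} (hδ : 0 < δ) (hR : 0 ≤ R) {f : ℝ × ℝ → ℝ}
    (hf : ∀ z : ℝ × ℝ, (R < |z.1| ∨ R < |z.2|) → f z = 0) {v : ℤ × ℤ} (hv : v ∉ box δ R)
    (u : ℝ × ℝ) : ker (u - pos v) * f (δ • u) = 0 := by
  by_contra hne
  have hk : ker (u - pos v) ≠ 0 := fun h => hne (by rw [h, zero_mul])
  have hfu : f (δ • u) ≠ 0 := fun h => hne (by rw [h, mul_zero])
  have h1 : ¬(2 < |(u - pos v).1| ∨ 1 < |(u - pos v).2|) := fun h => hk (ker_eq_zero h)
  have h2 : ¬(R < |(δ • u).1| ∨ R < |(δ • u).2|) := fun h => hfu (hf _ h)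
  rw [not_or, not_lt, not_lt] at h1 h2
  obtain ⟨h1a, h1b⟩ := h1
  obtain ⟨h2a, h2b⟩ := h2
  rw [Prod.smul_fst, smul_eq_mul, abs_mul, abs_of_pos hδ] at h2a
  rw [Prod.smul_snd, smul_eq_mul, abs_mul, abs_of_pos hδ] at h2b
  have h3 : |u.1| ≤ R / δ := by
    rw [le_div_iff₀ hδ]
    linarith only [h2a]
  have h4 : |u.2| ≤ R / δ := by
    rw [le_div_iff₀ hδ]
    linarith only [h2b]
  have hq : 0 ≤ R / δ := by (clear * - hR hδ; positivity)
  simp only [Prod.fst_sub, Prod.snd_sub, pos] at h1a h1b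
  have h5 : (1 : ℝ) ≤ √3 := by
    rw [Real.one_le_sqrt]
    norm_num
  have h6 : |(v.2 : ℝ)| ≤ 2 * (R / δ) + 2 := by
    have h7 : |(v.2 : ℝ) * (√3 / 2)| ≤ R / δ + 1 := by
      have := abs_sub_abs_le_abs_sub ((v.2 : ℝ) * (√3 / 2)) u.2
      rw [abs_sub_comm] at this
      linarith only [h1b, h4, this]
    rw [abs_mul, abs_of_pos (by positivity : (0 : ℝ) < √3 / 2)] at h7
    nlinarith only [h5, h7, hq]
  have h8 : |(v.1 : ℝ)| ≤ 2 * (R / δ) + 4 := by
    have h9 : |(v.1 : ℝ) + v.2 / 2| ≤ R / δ + 2 := by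
      have := abs_sub_abs_le_abs_sub ((v.1 : ℝ) + v.2 / 2) u.1
      rw [abs_sub_comm] at this
      linarith only [h1a, h3, this]
    have h10 : |(v.1 : ℝ)| ≤ |(v.1 : ℝ) + v.2 / 2| + |(v.2 : ℝ) / 2| := by
      have := abs_sub ((v.1 : ℝ) + v.2 / 2) ((v.2 : ℝ) / 2)
      rw [add_sub_cancel_right] at this
      exact this
    rw [abs_div, abs_of_pos (by norm_num : (0 : ℝ) < 2)] at h10
    linarith
  apply hv
  have hc := Int.le_ceil (2 * (R / δ) + 6)
  rw [box, Finset.mem_product, Finset.mem_Icc, Finset.mem_Icc]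
  rw [abs_le] at h6 h8
  refine ⟨⟨?_, ?_⟩, ?_, ?_⟩
  · have : (-(⌈2 * (R / δ) + 6⌉ : ℝ)) ≤ v.1 := by (clear * - h8 hc; linarith)
    exact_mod_cast this
  · have : (v.1 : ℝ) ≤ ⌈2 * (R / δ) + 6⌉ := by linarith only [h8, hc]
    exact_mod_cast this
  · have : (-(⌈2 * (R / δ) + 6⌉ : ℝ)) ≤ v.2 := by linarith only [h6, hc]
    exact_mod_cast this
  · have : (v.2 : ℝ) ≤ ⌈2 * (R / δ) + 6⌉ := by linarith
    exact_mod_cast this

lemma wt_zero_of_box {δ R : ℝ} (hδ : 0 < δ) (hR : 0 ≤ R) {f : ℝ × ℝ → ℝ}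
    (hf : ∀ z : ℝ × ℝ, (R < |z.1| ∨ R < |z.2|) → f z = 0) {v : ℤ × ℤ} (hv : v ∉ box δ R) :
    wt δ f v = 0 := by
  rw [wt_eq]
  simp_rw [ker_zero_of_box hδ hR hf hv]
  simp

lemma smear_eq_sum {δ R : ℝ} (hδ : 0 < δ) (hR : 0 ≤ R) {f : ℝ × ℝ → ℝ} (hc : Continuous f)
    (hs : HasCompactSupport f) (hf : ∀ z : ℝ × ℝ, (R < |z.1| ∨ R < |z.2|) → f z = 0)
    (h : ℤ × ℤ → ℤ) : smear h δ f = ∑ v ∈ box δ R, (h v : ℝ) * wt δ f v := by
  rw [smear_eq hδ]
  have h1 : ∀ u : ℝ × ℝ, interp h u * f (δ • u) =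
      ∑ v ∈ box δ R, (h v : ℝ) * (ker (u - pos v) * f (δ • u)) := by
    intro u
    by_cases hu : f (δ • u) = 0
    · rw [hu, mul_zero]
      symm
      apply Finset.sum_eq_zero
      intro v _
      rw [mul_zero, mul_zero]
    · unfold interp
      rw [finsum_eq_sum_of_support_subset (s := box δ R), Finset.sum_mul]
      · apply Finset.sum_congr rfl
        intro v _
        rw [hat_eq_ker]
        ring
      · intro v hv
        rw [Function.mem_support] at hv
        by_contra hvb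
        have := ker_zero_of_box hδ hR hf hvb u
        rcases mul_eq_zero.1 this with h0 | h0
        · apply hv
          rw [hat_eq_ker, h0, mul_zero]
        · exact hu h0
  simp_rw [h1]
  rw [integral_finset_sum, Finset.mul_sum]
  · apply Finset.sum_congr rfl
    intro v _
    rw [integral_const_mul, wt_eq]
    ring
  · intro v _
    apply Integrable.const_mul
    apply Continuous.integrable_of_hasCompactSupport
    · exact (continuous_ker.comp (by fun_prop)).mul (hc.comp (by fun_prop))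
    · apply HasCompactSupport.mul_left
      exact hs.comp_homeomorph (Homeomorph.smulOfNeZero δ hδ.ne')

lemma interp_one (z : ℝ × ℝ) : interp (fun _ => 1) z = 1 := by
  unfold interp
  have := hat_sum (z.1 - z.2 / √3) (2 * z.2 / √3)
  rw [← this]
  congr 1
  ext v
  push_cast
  rw [one_mul]

lemma sum_wt {δ R : ℝ} (hδ : 0 < δ) (hR : 0 ≤ R) {f : ℝ × ℝ → ℝ} (hc : Continuous f)
    (hs : HasCompactSupport f) (hf : ∀ z : ℝ × ℝ, (R < |z.1| ∨ R < |z.2|) → f z = 0) :
    ∑ v ∈ box δ R, wt δ f v = ∫ z, f z := by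
  have h1 := smear_eq_sum hδ hR hc hs hf (fun _ => 1)
  push_cast at h1
  simp_rw [one_mul] at h1
  rw [← h1]
  unfold smear
  simp_rw [interp_one, one_mul]

end Vale.Agent.P153.GFF
end

section

/-!
# P153 GFF: bounds for the weights; they form a discretisation in the sense of `TwoPt.Disc`
-/

open MeasureTheory Filter Topology Set

namespace Vale.Agent.P153.GFF

/-- Second differences of a smooth compactly supported function. -/
lemma second_diff {f : ℝ × ℝ → ℝ} (hf : ContDiff ℝ 2 f) (hs : HasCompactSupport f) :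
    ∃ M, 0 ≤ M ∧ ∀ x y, |f (x + y) - 2 * f x + f (x - y)| ≤ M * ‖y‖ ^ 2 := by
  obtain ⟨C, hC⟩ := (hf.fderiv_right (m := 1) (by (clear * -; norm_num))).lipschitzWith_of_hasCompactSupport
    (hs.fderiv ℝ) (by norm_num)
  refine ⟨2 * C, by (clear * -; positivity), fun x y => ?_⟩
  have hd : ∀ z, DifferentiableAt ℝ f z := fun z => hf.differentiable (by norm_num) z
  set g : ℝ → ℝ := fun t => f (x + t • y) + f (x - t • y) with hg
  have hg' : ∀ t, HasDerivAt g (fderiv ℝ f (x + t • y) y - fderiv ℝ f (x - t • y) y) t := by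
    intro t
    have h1 : HasDerivAt (fun t : ℝ => x + t • y) y t := by
      simpa using ((hasDerivAt_id t).smul_const y).const_add x
    have h2 : HasDerivAt (fun t : ℝ => x - t • y) (-y) t := by
      simpa only [id_eq, one_smul] using ((hasDerivAt_id t).smul_const y).const_sub x
    have h3 := (hd (x + t • y)).hasFDerivAt.comp_hasDerivAt t h1
    have h4 := (hd (x - t • y)).hasFDerivAt.comp_hasDerivAt t h2
    have h5 := h3.add h4
    rw [map_neg, ← sub_eq_add_neg] at h5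
    exact h5
  have hb : ∀ t ∈ Icc (0 : ℝ) 1,
      ‖fderiv ℝ f (x + t • y) y - fderiv ℝ f (x - t • y) y‖ ≤ 2 * C * ‖y‖ ^ 2 := by
    intro t ht
    rw [← sub_apply]
    refine (ContinuousLinearMap.le_opNorm _ _).trans ?_
    have h1 := hC.dist_le_mul (x + t • y) (x - t • y)
    rw [dist_eq_norm, dist_eq_norm] at h1
    have h2 : x + t • y - (x - t • y) = (2 * t) • y := by
      rw [add_sub_sub_cancel, ← add_smul]
      congr 1
      ring
    rw [h2, norm_smul, Real.norm_eq_abs, abs_of_nonneg (by linarith [ht.1])] at h1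
    have h3 : (C : ℝ) * (2 * t * ‖y‖) ≤ 2 * C * ‖y‖ := by
      have hC0 : (0 : ℝ) ≤ C := C.2
      have hy := norm_nonneg y
      nlinarith only [mul_nonneg (mul_nonneg hC0 hy) (by linarith [ht.2] : 0 ≤ 1 - t)]
    calc ‖fderiv ℝ f (x + t • y) - fderiv ℝ f (x - t • y)‖ * ‖y‖
        ≤ (2 * C * ‖y‖) * ‖y‖ := mul_le_mul_of_nonneg_right (h1.trans h3) (norm_nonneg _)
      _ = 2 * C * ‖y‖ ^ 2 := by ring
  have h6 := (convex_Icc (0 : ℝ) 1).norm_image_sub_le_of_norm_hasDerivWithin_le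
    (fun t ht => (hg' t).hasDerivWithinAt) hb (left_mem_Icc.2 zero_le_one)
    (right_mem_Icc.2 zero_le_one)
  rw [sub_zero, norm_one, mul_one, Real.norm_eq_abs] at h6
  have h7 : g 1 - g 0 = f (x + y) - 2 * f x + f (x - y) := by
    simp only [hg, one_smul, zero_smul, add_zero, sub_zero]
    ring
  rw [← h7]
  exact h6

/-- Constants of a test function. -/
structure Csts (f : ℝ × ℝ → ℝ) (K : ℝ) : Prop where
  pos : 0 < K
  cont : Continuous f
  supp : HasCompactSupport f
  zero : ∀ z : ℝ × ℝ, (K < |z.1| ∨ K < |z.2|) → f z = 0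
  bdd : ∀ z, |f z| ≤ K
  lip : ∀ x y, |f x - f y| ≤ K * ‖x - y‖
  sec : ∀ x y, |f (x + y) - 2 * f x + f (x - y)| ≤ K * ‖y‖ ^ 2

lemma Test.csts {f : ℝ × ℝ → ℝ} (hf : Test f) : ∃ K, Csts f K := by
  obtain ⟨h1, h2, h3⟩ := hf
  have hc : Continuous f := h1.continuous
  obtain ⟨B, hB⟩ := hc.bounded_above_of_compact_support h2
  obtain ⟨C, hC⟩ := h1.lipschitzWith_of_hasCompactSupport h2 (by simp)
  obtain ⟨M, hM0, hM⟩ := second_diff (by exact_mod_cast contDiff_infty.1 h1 2) h2
  obtain ⟨R, hR⟩ := h2.isCompact.isBounded.subset_closedBall (0 : ℝ × ℝ)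
  have hBn : 0 ≤ B := (norm_nonneg _).trans (hB 0)
  have hCn : (0 : ℝ) ≤ C := C.2
  refine ⟨1 + |R| + B + C + M, by (clear * - hBn hM0; positivity), hc, h2, ?_, ?_, ?_, ?_⟩
  · intro z hz
    by_contra hne
    have h4 : z ∈ tsupport f := subset_tsupport _ hne
    have h5 := hR h4
    rw [mem_closedBall_zero_iff, Prod.norm_def, sup_le_iff, Real.norm_eq_abs, Real.norm_eq_abs] at h5
    have := le_abs_self R
    rcases hz with h | h <;> linarith only [hM0, hBn, h5, this, h]
  · intro z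
    have := hB z
    rw [Real.norm_eq_abs] at this
    have := abs_nonneg R
    (clear h1 h2 h3 hc hB hC hM hR hBn hCn; linarith)
  · intro x y
    have h4 := hC.dist_le_mul x y
    rw [Real.dist_eq, dist_eq_norm] at h4
    refine h4.trans (mul_le_mul_of_nonneg_right ?_ (norm_nonneg _))
    have := abs_nonneg R
    linarith
  · intro x y
    refine (hM x y).trans (mul_le_mul_of_nonneg_right ?_ (by (clear * -; positivity)))
    have := abs_nonneg R
    linarith only [hBn, this]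

/-! ### Bounds for the weights -/

lemma ker_int {f : ℝ × ℝ → ℝ} (hc : Continuous f) (δ : ℝ) (v : ℝ × ℝ) :
    Integrable (fun u : ℝ × ℝ => ker u * f (δ • (u + v))) := by
  apply Continuous.integrable_of_hasCompactSupport
  · exact continuous_ker.mul (hc.comp (by fun_prop))
  · apply HasCompactSupport.mul_right
    apply HasCompactSupport.intro (isCompact_closedBall (0 : ℝ × ℝ) 2)
    intro z hz
    apply ker_eq_zero
    rw [mem_closedBall_zero_iff, Prod.norm_def, sup_le_iff, Real.norm_eq_abs, Real.norm_eq_abs,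
      not_and_or, not_le, not_le] at hz
    rcases hz with h | h
    · exact Or.inl h
    · exact Or.inr (by linarith)

/-- the kernel is supported in the ball of radius two -/
lemma ker_mul_le (u : ℝ × ℝ) {a b : ℝ} (h : ‖u‖ ≤ 2 → |a| ≤ b) :
    |ker u * a| ≤ ker u * b := by
  by_cases hu : ker u = 0
  · rw [hu]
    simp
  · rw [abs_mul, abs_of_nonneg (ker_nonneg u)]
    apply mul_le_mul_of_nonneg_left _ (ker_nonneg u)
    apply h
    by_contra hn
    apply hu
    apply ker_eq_zero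
    rw [Prod.norm_def, sup_le_iff, Real.norm_eq_abs, Real.norm_eq_abs, not_and_or, not_le,
      not_le] at hn
    rcases hn with h | h
    · exact Or.inl h
    · exact Or.inr (by linarith)

lemma ker_bound {G : ℝ × ℝ → ℝ} {b : ℝ} (h : ∀ u : ℝ × ℝ, ‖u‖ ≤ 2 → |G u| ≤ b) :
    |∫ u : ℝ × ℝ, ker u * G u| ≤ b := by
  have hb : 0 ≤ b := (abs_nonneg _).trans (h 0 (by simp only [norm_zero, Nat.ofNat_nonneg]))
  have h1 : |∫ u : ℝ × ℝ, ker u * G u| ≤ ∫ u : ℝ × ℝ, ker u * b := by
    rw [← Real.norm_eq_abs]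
    apply norm_integral_le_of_norm_le (integrable_ker.mul_const b)
    apply ae_of_all
    intro u
    rw [Real.norm_eq_abs]
    exact ker_mul_le u (h u)
  rw [integral_mul_const, integral_ker] at h1
  have h3 : √3 / 2 ≤ 1 := by
    have : √3 ≤ 2 := Real.sqrt_le_iff.2 ⟨by norm_num, by norm_num⟩
    linarith only [this]
  exact h1.trans (by nlinarith only [hb, h3])

lemma pos_add (v w : ℤ × ℤ) : pos (v + w) = pos v + pos w := by
  unfold pos
  ext <;> simp <;> ring

lemma pos_sub (v w : ℤ × ℤ) : pos (v - w) = pos v - pos w := by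
  unfold pos
  ext <;> simp <;> ring

variable {f : ℝ × ℝ → ℝ} {K δ : ℝ}

lemma abs_wt_le (hf : Csts f K) (hδ : 0 < δ) (v : ℤ × ℤ) : |wt δ f v| ≤ K * δ ^ 2 := by
  unfold wt
  rw [abs_mul, abs_of_pos (by positivity), mul_comm]
  exact mul_le_mul_of_nonneg_right (ker_bound fun u _ => hf.bdd _) (by positivity)

lemma wt_lip (hf : Csts f K) (hδ : 0 < δ) (v w : ℤ × ℤ) :
    |wt δ f v - wt δ f w| ≤ K * δ ^ 3 * ‖pos v - pos w‖ := by
  have h1 : wt δ f v - wt δ f w =
      δ ^ 2 * ∫ u : ℝ × ℝ, ker u * (f (δ • (u + pos v)) - f (δ • (u + pos w))) := by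
    unfold wt
    rw [← mul_sub, ← integral_sub (ker_int hf.cont δ _) (ker_int hf.cont δ _)]
    congr 2
    ext u
    ring
  rw [h1, abs_mul, abs_of_pos (by positivity : (0 : ℝ) < δ ^ 2)]
  have h2 : |∫ u : ℝ × ℝ, ker u * (f (δ • (u + pos v)) - f (δ • (u + pos w)))| ≤
      K * (δ * ‖pos v - pos w‖) := by
    apply ker_bound
    intro u _
    refine (hf.lip _ _).trans (le_of_eq ?_)
    rw [← smul_sub, add_sub_add_left_eq_sub, norm_smul, Real.norm_eq_abs, abs_of_pos hδ]
  calc δ ^ 2 * |∫ u : ℝ × ℝ, ker u * (f (δ • (u + pos v)) - f (δ • (u + pos w)))|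
      ≤ δ ^ 2 * (K * (δ * ‖pos v - pos w‖)) := mul_le_mul_of_nonneg_left h2 (by positivity)
    _ = K * δ ^ 3 * ‖pos v - pos w‖ := by ring

lemma wt_sec (hf : Csts f K) (hδ : 0 < δ) (v y : ℤ × ℤ) :
    |wt δ f (v + y) - 2 * wt δ f v + wt δ f (v - y)| ≤ K * δ ^ 4 * ‖pos y‖ ^ 2 := by
  have h1 : wt δ f (v + y) - 2 * wt δ f v + wt δ f (v - y) =
      δ ^ 2 * ∫ u : ℝ × ℝ, ker u * (f (δ • (u + pos v) + δ • pos y) - 2 * f (δ • (u + pos v)) +
        f (δ • (u + pos v) - δ • pos y)) := by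
    have h0 : ∫ u : ℝ × ℝ, ker u * (f (δ • (u + pos v) + δ • pos y) - 2 * f (δ • (u + pos v)) +
        f (δ • (u + pos v) - δ • pos y)) = (∫ u : ℝ × ℝ, ker u * f (δ • (u + pos (v + y)))) -
        2 * (∫ u : ℝ × ℝ, ker u * f (δ • (u + pos v))) +
        ∫ u : ℝ × ℝ, ker u * f (δ • (u + pos (v - y))) := by
      have i1 : Integrable (fun u : ℝ × ℝ => ker u * f (δ • (u + pos (v + y))) -
          2 * (ker u * f (δ • (u + pos v)))) :=
        (ker_int hf.cont δ _).sub ((ker_int hf.cont δ _).const_mul 2)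
      rw [← integral_const_mul, ← integral_sub (ker_int hf.cont δ _)
        ((ker_int hf.cont δ _).const_mul 2), ← integral_add i1 (ker_int hf.cont δ _)]
      congr 1
      ext u
      rw [pos_add, pos_sub, ← smul_add, ← smul_sub, add_assoc, add_sub_assoc]
      ring
    rw [h0]
    unfold wt
    ring
  rw [h1, abs_mul, abs_of_pos (by positivity : (0 : ℝ) < δ ^ 2)]
  have h2 : |∫ u : ℝ × ℝ, ker u * (f (δ • (u + pos v) + δ • pos y) - 2 * f (δ • (u + pos v)) +
        f (δ • (u + pos v) - δ • pos y))| ≤ K * (δ * ‖pos y‖) ^ 2 := by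
    apply ker_bound
    intro u _
    refine (hf.sec _ _).trans (le_of_eq ?_)
    rw [norm_smul, Real.norm_eq_abs, abs_of_pos hδ]
  refine (mul_le_mul_of_nonneg_left h2 (by positivity)).trans (le_of_eq ?_)
  ring

lemma wt_close (hf : Csts f K) (hδ : 0 < δ) (v : ℤ × ℤ) (z : ℝ × ℝ) (r : ℝ)
    (hz : ‖δ • pos v - z‖ ≤ r) :
    |wt δ f v / δ ^ 2 - √3 / 2 * f z| ≤ K * (2 * δ + r) := by
  have h1 : wt δ f v / δ ^ 2 - √3 / 2 * f z =
      ∫ u : ℝ × ℝ, ker u * (f (δ • (u + pos v)) - f z) := by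
    unfold wt
    rw [mul_div_cancel_left₀ _ (by positivity), ← integral_ker, ← integral_mul_const,
      ← integral_sub (ker_int hf.cont δ _) (integrable_ker.mul_const _)]
    congr 1
    ext u
    ring
  rw [h1]
  apply ker_bound
  intro u hu
  refine (hf.lip _ _).trans (mul_le_mul_of_nonneg_left ?_ hf.pos.le)
  have h2 : δ • (u + pos v) - z = δ • u + (δ • pos v - z) := by
    rw [smul_add]
    abel
  rw [h2]
  refine (norm_add_le _ _).trans ?_
  rw [norm_smul, Real.norm_eq_abs, abs_of_pos hδ]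
  nlinarith only [hz, hδ, hu]

end Vale.Agent.P153.GFF
end

section

/-!
# P153 GFF: the even-row weights of the smeared field are a `TwoPt.Disc` sequence
-/

open MeasureTheory Filter Topology Set

namespace Vale.Agent.P153.GFF

/-- all sites from the even rows -/
def rho (q : (ℤ × ℤ) × Bool) : ℤ × ℤ := ev q.1.1 q.1.2 + (0, if q.2 then 1 else 0)

/-- `rho` is a bijection -/
def rhoE : (ℤ × ℤ) × Bool ≃ ℤ × ℤ where
  toFun := rho
  invFun v := ((v.2 / 2, v.1 + v.2 / 2), decide (v.2 % 2 = 1))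
  left_inv := by
    rintro ⟨⟨j, z⟩, b⟩
    cases b <;> simp [rho, ev] <;> omega
  right_inv := by
    rintro ⟨x, y⟩
    rcases Int.emod_two_eq_zero_or_one y with h | h
    · simp only [rho, ev, h]
      ext <;> simp <;> omega
    · simp only [rho, ev, h]
      ext <;> simp <;> omega

lemma finsum_rho {F : ℤ × ℤ → ℝ} (hF : (Function.support F).Finite) :
    ∑ᶠ v, F v = ∑ᶠ p : ℤ × ℤ, (F (ev p.1 p.2) + F (ev p.1 p.2 + (0, 1))) := by
  rw [← finsum_comp_equiv rhoE (f := F), finsum_curry]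
  · apply finsum_congr
    intro p
    rw [finsum_eq_sum_of_fintype, Fintype.sum_bool, add_comm]
    have h00 : ev p.1 p.2 + (0, 0) = ev p.1 p.2 := by ext <;> simp
    simp only [rhoE, Equiv.coe_fn_mk, rho, Bool.false_eq_true, ↓reduceIte, h00]
  · show (rhoE ⁻¹' (Function.support F)).Finite
    exact hF.preimage rhoE.injective.injOn

/-- the weights on the even rows -/
noncomputable def rowW (δ : ℝ) (f : ℝ × ℝ → ℝ) (j x : ℤ) : ℝ :=
  wt δ f (ev j x) + wt δ f (ev j x + (0, 1))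

/-- the test function in the coordinates of the even rows -/
noncomputable def ft (f : ℝ × ℝ → ℝ) (p : ℝ × ℝ) : ℝ := √3 * f (p.2, √3 * p.1)

lemma pos_ev (j x : ℤ) : pos (ev j x) = ((x : ℝ), √3 * j) := by
  unfold pos ev
  ext
  · push_cast
    ring
  · push_cast
    ring

lemma pos_one : pos (0, 1) = (1 / 2, √3 / 2) := by
  unfold pos
  ext <;> simp

lemma sqrt3_le : √3 ≤ 2 := Real.sqrt_le_iff.2 ⟨by norm_num, by norm_num⟩

variable {f : ℝ × ℝ → ℝ} {K δ : ℝ}

lemma wt_supp (hf : Csts f K) (hδ : 0 < δ) (v : ℤ × ℤ) (hv : wt δ f v ≠ 0) :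
    |(v.1 : ℝ)| ≤ 2 * (K / δ) + 7 ∧ |(v.2 : ℝ)| ≤ 2 * (K / δ) + 7 := by
  have h1 : v ∈ box δ K := by
    by_contra h
    exact hv (wt_zero_of_box hδ hf.pos.le hf.zero h)
  rw [box, Finset.mem_product, Finset.mem_Icc, Finset.mem_Icc] at h1
  obtain ⟨⟨a, b⟩, c, d⟩ := h1
  have hc := Int.ceil_lt_add_one (2 * (K / δ) + 6)
  have a' : (-(⌈2 * (K / δ) + 6⌉ : ℝ)) ≤ v.1 := by exact_mod_cast a
  have b' : (v.1 : ℝ) ≤ ⌈2 * (K / δ) + 6⌉ := by exact_mod_cast b
  have c' : (-(⌈2 * (K / δ) + 6⌉ : ℝ)) ≤ v.2 := by exact_mod_cast c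
  have d' : (v.2 : ℝ) ≤ ⌈2 * (K / δ) + 6⌉ := by exact_mod_cast d
  rw [abs_le, abs_le]
  refine ⟨⟨by linarith only [hc, a'], by linarith only [hc, b']⟩, by (clear * - hc c'; linarith), by linarith only [hc, d']⟩

lemma wt_support_finite (hf : Csts f K) (hδ : 0 < δ) : (Function.support (wt δ f)).Finite := by
  apply Set.Finite.subset (box δ K).finite_toSet
  intro v hv
  by_contra h
  exact hv (wt_zero_of_box hδ hf.pos.le hf.zero h)

lemma finsum_wt (hf : Csts f K) (hδ : 0 < δ) : ∑ᶠ v, wt δ f v = ∫ z, f z := by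
  rw [finsum_eq_sum_of_support_subset (s := box δ K), sum_wt hδ hf.pos.le hf.cont hf.supp hf.zero]
  intro v hv
  by_contra h
  exact hv (wt_zero_of_box hδ hf.pos.le hf.zero h)

lemma smear_finsum (hf : Csts f K) (hδ : 0 < δ) (h : ℤ × ℤ → ℤ) :
    smear h δ f = ∑ᶠ v : ℤ × ℤ, (h v : ℝ) * wt δ f v := by
  rw [finsum_eq_sum_of_support_subset (s := box δ K),
    smear_eq_sum hδ hf.pos.le hf.cont hf.supp hf.zero]
  intro v hv
  by_contra hb
  apply hv
  simp only
  rw [wt_zero_of_box hδ hf.pos.le hf.zero hb, mul_zero]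

lemma rowW_supp (hf : Csts f K) (hδ : 0 < δ) (hδ1 : δ ≤ 1) (j x : ℤ)
    (h : (4 * K + 20) * (1 / δ) < |(j : ℝ)| ∨ (4 * K + 20) * (1 / δ) < |(x : ℝ)|) :
    rowW δ f j x = 0 := by
  have hi : 1 ≤ 1 / δ := by
    rw [le_div_iff₀ hδ]
    linarith
  have hK := hf.pos
  have hKd : K / δ = K * (1 / δ) := by ring
  have key : ∀ e : ℤ, (e = 0 ∨ e = 1) → wt δ f (ev j x + (0, e)) = 0 := by
    intro e he
    by_contra hne
    obtain ⟨h1, h2⟩ := wt_supp hf hδ _ hne
    simp only [ev, Prod.fst_add, Prod.snd_add, add_zero] at h1 h2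
    push_cast at h1 h2
    have he1 : |(e : ℝ)| ≤ 1 := by
      rcases he with h | h <;> simp [h]
    rw [hKd] at h1 h2
    have h3 : |(j : ℝ)| ≤ K * (1 / δ) + 4 := by
      have h4 : |2 * (j : ℝ)| ≤ |2 * (j : ℝ) + e| + |(e : ℝ)| := by
        have := abs_sub (2 * (j : ℝ) + e) (e : ℝ)
        rw [add_sub_cancel_right] at this
        exact this
      rw [abs_mul, abs_of_pos (by norm_num : (0 : ℝ) < 2)] at h4
      linarith only [h2, he1, h4]
    have h5 : |(x : ℝ)| ≤ 3 * (K * (1 / δ)) + 11 := by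
      have h6 : |(x : ℝ)| ≤ |(x : ℝ) - j| + |(j : ℝ)| := by
        have := abs_add_le ((x : ℝ) - j) (j : ℝ)
        rw [sub_add_cancel] at this
        exact this
      linarith only [h1, h3, h6]
    have h7 : 0 < K * (1 / δ) := by positivity
    rcases h with h | h
    · nlinarith only [hi, h3, h7, h]
    · linarith
  have k0 := key 0 (Or.inl rfl)
  have k1 := key 1 (Or.inr rfl)
  unfold rowW
  have : ev j x + (0, 0) = ev j x := by
    ext <;> simp
  rw [this] at k0
  rw [k0, k1, add_zero]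

theorem disc (hf : Csts f K) (h0 : ∫ z, f z = 0) (δ : ℕ → ℝ) (hδ : ∀ n, 0 < δ n)
    (hδ1 : ∀ n, δ n ≤ 1) (ht : Tendsto δ atTop (𝓝 0)) :
    TwoPt.Disc (ft f) (fun n => 1 / δ n) (fun n j x => rowW (δ n) f j x) (8 * K + 20) := by
  have hK := hf.pos
  have h3 : (0 : ℝ) < √3 := by positivity
  have hev1 : ∀ j x : ℤ, ev (j + 1) x = ev j x + (-1, 2) := by
    intro j x
    unfold ev
    ext <;> simp only [Int.reduceNeg, Prod.mk_add_mk] <;> ring
  have hev2 : ∀ j x : ℤ, ev (j - 1) x = ev j x - (-1, 2) := by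
    intro j x
    unfold ev
    ext <;> simp only [Int.reduceNeg, Prod.mk_sub_mk, sub_neg_eq_add] <;> ring
  have hev3 : ∀ j x : ℤ, ev j (x + 1) = ev j x + (1, 0) := by
    intro j x
    unfold ev
    ext <;> simp only [Prod.mk_add_mk, add_zero]
    ring
  have hev4 : ∀ j x : ℤ, ev j (x - 1) = ev j x - (1, 0) := by
    intro j x
    unfold ev
    ext <;> simp only [Prod.mk_sub_mk, sub_zero]
    ring
  have hp1 : ‖pos (-1, 2)‖ ≤ 2 := by
    unfold pos
    rw [Prod.norm_def, sup_le_iff, Real.norm_eq_abs, Real.norm_eq_abs]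
    constructor
    · norm_num
    · push_cast
      rw [abs_of_nonneg (by positivity)]
      linarith only [sqrt3_le]
  have hp2 : ‖pos (1, 0)‖ ≤ 1 := by
    unfold pos
    rw [Prod.norm_def, sup_le_iff, Real.norm_eq_abs, Real.norm_eq_abs]
    constructor <;> norm_num
  constructor
  · linarith only [hK]
  · intro n
    rw [le_div_iff₀ (hδ n)]
    linarith [hδ1 n]
  · have h5 : Tendsto δ atTop (𝓝[>] 0) :=
      tendsto_nhdsWithin_iff.2 ⟨ht, Eventually.of_forall fun n => hδ n⟩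
    have h6 := tendsto_inv_nhdsGT_zero.comp h5
    refine h6.congr fun n => ?_
    rw [Function.comp_apply, one_div]
  · unfold ft
    exact continuous_const.mul (hf.cont.comp (by fun_prop))
  · have h5 : ft f = fun p => √3 * f (Homeomorph.smulOfNeZero (1 : ℝ) one_ne_zero (p.2, √3 * p.1)) := by
      ext p
      unfold ft
      simp
    apply HasCompactSupport.intro (isCompact_closedBall (0 : ℝ × ℝ) K)
    intro p hp
    unfold ft
    rw [hf.zero, mul_zero]
    rw [mem_closedBall_zero_iff, Prod.norm_def, sup_le_iff, Real.norm_eq_abs, Real.norm_eq_abs,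
      not_and_or, not_le, not_le] at hp
    rcases hp with h | h
    · right
      show K < |√3 * p.1|
      rw [abs_mul, abs_of_pos h3]
      have : 1 ≤ √3 := by
        rw [Real.one_le_sqrt]
        norm_num
      nlinarith only [hK, this, h]
    · left
      exact h
  · intro n j x h
    apply rowW_supp hf (hδ n) (hδ1 n)
    have hi : 0 < 1 / δ n := one_div_pos.2 (hδ n)
    rcases h with h | h
    · left
      nlinarith only [h, hK, hi]
    · right
      nlinarith only [h, hK, hi]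
  · intro n
    have h5 := finsum_rho (wt_support_finite hf (hδ n))
    rw [finsum_wt hf (hδ n), h0] at h5
    exact h5.symm
  · intro ε hε
    have h5 : Tendsto (fun n => 5 * K * δ n) atTop (𝓝 0) := by
      simpa only [mul_zero] using ht.const_mul (5 * K)
    filter_upwards [h5.eventually (gt_mem_nhds hε)] with n hn j x
    have hd := hδ n
    have e1 : (1 / δ n) ^ 2 * rowW (δ n) f j x =
        wt (δ n) f (ev j x) / (δ n) ^ 2 + wt (δ n) f (ev j x + (0, 1)) / (δ n) ^ 2 := by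
      unfold rowW
      (clear * - hd; field_simp)
    have e2 : ft f ((j : ℝ) / (1 / δ n), (x : ℝ) / (1 / δ n)) =
        √3 / 2 * f ((x : ℝ) * δ n, √3 * (j * δ n)) + √3 / 2 * f ((x : ℝ) * δ n, √3 * (j * δ n)) := by
      unfold ft
      simp only [div_div_eq_mul_div, div_one]
      ring
    rw [e1, e2]
    have e3 := wt_close hf hd (ev j x) ((x : ℝ) * δ n, √3 * (j * δ n)) 0 (by
      rw [pos_ev]
      have : δ n • ((x : ℝ), √3 * (j : ℝ)) - ((x : ℝ) * δ n, √3 * (j * δ n)) = 0 := by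
        ext <;> simp <;> ring
      rw [this, norm_zero])
    have e4 := wt_close hf hd (ev j x + (0, 1)) ((x : ℝ) * δ n, √3 * (j * δ n)) (δ n) (by
      rw [pos_add, pos_ev, pos_one]
      have : δ n • (((x : ℝ), √3 * (j : ℝ)) + (1 / 2, √3 / 2)) - ((x : ℝ) * δ n, √3 * (j * δ n)) =
          (δ n * (1 / 2), δ n * (√3 / 2)) := by
        ext <;> simp only [one_div, Prod.mk_add_mk, Prod.smul_mk, smul_eq_mul, Prod.mk_sub_mk] <;> ring
      rw [this, Prod.norm_def, sup_le_iff, Real.norm_eq_abs, Real.norm_eq_abs]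
      constructor
      · rw [abs_of_pos (by positivity)]
        linarith only [hd]
      · rw [abs_of_pos (by positivity)]
        nlinarith only [hd, sqrt3_le])
    have e5 : wt (δ n) f (ev j x) / (δ n) ^ 2 + wt (δ n) f (ev j x + (0, 1)) / (δ n) ^ 2 -
        (√3 / 2 * f ((x : ℝ) * δ n, √3 * (j * δ n)) + √3 / 2 * f ((x : ℝ) * δ n, √3 * (j * δ n))) =
        (wt (δ n) f (ev j x) / (δ n) ^ 2 - √3 / 2 * f ((x : ℝ) * δ n, √3 * (j * δ n))) +
        (wt (δ n) f (ev j x + (0, 1)) / (δ n) ^ 2 - √3 / 2 * f ((x : ℝ) * δ n, √3 * (j * δ n))) := by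
      ring
    rw [e5]
    refine (abs_add_le _ _).trans ?_
    linarith only [hn, e3, e4]
  · intro n j x
    have hd := hδ n
    have e1 := wt_sec hf hd (ev j x) (-1, 2)
    have e2 := wt_sec hf hd (ev j x + (0, 1)) (-1, 2)
    have e3 : K * δ n ^ 4 * ‖pos (-1, 2)‖ ^ 2 ≤ K * δ n ^ 4 * 4 := by
      apply mul_le_mul_of_nonneg_left _ (by (clear * - hK hd; positivity))
      nlinarith only [hp1, norm_nonneg (pos (-1, 2))]
    have e4 : rowW (δ n) f (j + 1) x - 2 * rowW (δ n) f j x + rowW (δ n) f (j - 1) x =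
        (wt (δ n) f (ev j x + (-1, 2)) - 2 * wt (δ n) f (ev j x) + wt (δ n) f (ev j x - (-1, 2))) +
        (wt (δ n) f (ev j x + (0, 1) + (-1, 2)) - 2 * wt (δ n) f (ev j x + (0, 1)) +
          wt (δ n) f (ev j x + (0, 1) - (-1, 2))) := by
      unfold rowW
      rw [hev1, hev2, add_right_comm (ev j x) (-1, 2) (0, 1), sub_add_eq_add_sub]
      ring_nf
    rw [e4]
    refine (abs_add_le _ _).trans ?_
    have e5 : (8 * K + 20) / (1 / δ n) ^ 4 = (8 * K + 20) * δ n ^ 4 := by
      (clear * - hd hK; field_simp)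
    rw [e5]
    have : 0 < δ n ^ 4 := by positivity
    linarith
  · intro n j x
    have hd := hδ n
    have e1 := wt_sec hf hd (ev j x) (1, 0)
    have e2 := wt_sec hf hd (ev j x + (0, 1)) (1, 0)
    have e3 : K * δ n ^ 4 * ‖pos (1, 0)‖ ^ 2 ≤ K * δ n ^ 4 * 1 := by
      apply mul_le_mul_of_nonneg_left _ (by (clear * - hK hd; positivity))
      nlinarith only [hp2, norm_nonneg (pos (1, 0))]
    have e4 : rowW (δ n) f j (x + 1) - 2 * rowW (δ n) f j x + rowW (δ n) f j (x - 1) =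
        (wt (δ n) f (ev j x + (1, 0)) - 2 * wt (δ n) f (ev j x) + wt (δ n) f (ev j x - (1, 0))) +
        (wt (δ n) f (ev j x + (0, 1) + (1, 0)) - 2 * wt (δ n) f (ev j x + (0, 1)) +
          wt (δ n) f (ev j x + (0, 1) - (1, 0))) := by
      unfold rowW
      rw [hev3, hev4, add_right_comm (ev j x) (1, 0) (0, 1), sub_add_eq_add_sub]
      ring_nf
    rw [e4]
    refine (abs_add_le _ _).trans ?_
    have e5 : (8 * K + 20) / (1 / δ n) ^ 4 = (8 * K + 20) * δ n ^ 4 := by
      (clear * - hd hK; field_simp)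
    rw [e5]
    have : 0 < δ n ^ 4 := by positivity
    nlinarith only [e1, e2, e3, this, hK]

end Vale.Agent.P153.GFF
end

section

/-!
P153: conversion of the plane theorem to the normalisation of the problem (odd heights).
-/

namespace Vale.Agent.P153.GFF

open MeasureTheory ProbabilityTheory Filter Topology

/-- Doubling of the heights. -/
def dbl (φ : ℤ × ℤ → ℤ) : ℤ × ℤ → ℤ := fun x => 2 * φ x

theorem measurable_dbl : Measurable dbl :=
  measurable_pi_iff.2 fun x => (measurable_pi_apply x).const_mul 2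

theorem measurableSet_Pat (B : Finset (ℤ × ℤ)) (a : ℤ × ℤ → ℤ) : MeasurableSet (Pat B a) := by
  have : Pat B a = ⋂ x ∈ B, ⋂ y ∈ B, {φ | φ x - φ y = a x - a y} := by
    ext φ
    simp only [Pat, Prod.forall, Set.mem_ofPred_eq, Set.mem_iInter]
  rw [this]
  refine Finset.measurableSet_biInter _ fun x _ => Finset.measurableSet_biInter _ fun y _ => ?_
  have hm : Measurable fun φ : ℤ × ℤ → ℤ => φ x - φ y :=
    (measurable_pi_apply x).sub (measurable_pi_apply y)
  exact hm (MeasurableSet.of_discrete (s := {a x - a y}))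

theorem adj_symm' {x y : ℤ × ℤ} (h : Adj x y) : Adj y x := by
  unfold Adj at h ⊢
  simp only [Set.mem_insert_iff, Set.mem_singleton_iff, Prod.mk.injEq] at h ⊢
  rcases h with h | h | h | h | h | h
  · exact Or.inr (Or.inl ⟨by omega, by omega⟩)
  · exact Or.inl ⟨by omega, by omega⟩
  · exact Or.inr (Or.inr (Or.inr (Or.inl ⟨by omega, by omega⟩)))
  · exact Or.inr (Or.inr (Or.inl ⟨by omega, by omega⟩))
  · exact Or.inr (Or.inr (Or.inr (Or.inr (Or.inr ⟨by omega, by omega⟩))))
  · exact Or.inr (Or.inr (Or.inr (Or.inr (Or.inl ⟨by omega, by omega⟩))))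

/-- The bijection from `Ht D` onto `Odd2 D`. -/
def toOdd (h : ℤ × ℤ → ℤ) : ℤ × ℤ → ℤ := fun x => 2 * h x - 1

theorem toOdd_inj : Function.Injective toOdd := by
  intro g h hgh
  funext x
  have := congrFun hgh x
  simp only [toOdd] at this
  omega

theorem toOdd_image (D : Finset (ℤ × ℤ)) : toOdd '' Ht D = Odd2 D := by
  ext g
  constructor
  · rintro ⟨h, ⟨h1, h2⟩, rfl⟩
    refine ⟨fun x => ⟨h x - 1, by simp only [toOdd]; ring⟩, fun x _ y _ hxy => ?_, fun x _ hx' => ?_,
      fun x hx => ?_⟩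
    · have := h2 x y hxy
      simp only [toOdd]
      rw [abs_le] at this ⊢
      omega
    · have := (h1 x).2 hx'
      simp only [toOdd]
      omega
    · have := (h1 x).1 hx
      simp only [toOdd]
      omega
  · rintro ⟨h1, h2, h3, h4⟩
    refine ⟨fun x => (g x + 1) / 2, ⟨fun v => ⟨fun hv => ?_, fun hv => ?_⟩, fun v w hvw => ?_⟩, ?_⟩
    · show (g v + 1) / 2 = 0
      rw [h4 v hv]
      rfl
    · show (g v + 1) / 2 = 0 ∨ (g v + 1) / 2 = 1
      by_cases hD : v ∈ D
      · rcases h3 v hD hv with h | h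
        · right; rw [h]; rfl
        · left; rw [h]; rfl
      · left; rw [h4 v hD]; rfl
    · show |(g v + 1) / 2 - (g w + 1) / 2| ≤ 1
      obtain ⟨k, hk⟩ := h1 v
      obtain ⟨l, hl⟩ := h1 w
      by_cases hv : v ∈ D
      · by_cases hw : w ∈ D
        · have := h2 v hv w hw hvw
          rw [abs_le] at this ⊢
          omega
        · have h5 := h3 v hv ⟨w, hvw, hw⟩
          have h6 := h4 w hw
          rw [abs_le]
          (clear * - hk hl h5 h6; omega)
      · by_cases hw : w ∈ D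
        · have h5 := h3 w hw ⟨v, adj_symm' hvw, hv⟩
          have h6 := h4 v hv
          rw [abs_le]
          omega
        · have h5 := h4 v hv
          have h6 := h4 w hw
          rw [abs_le]
          omega
    · funext x
      obtain ⟨k, hk⟩ := h1 x
      simp only [toOdd]
      omega

theorem toOdd_image_Pat (D B : Finset (ℤ × ℤ)) (a : ℤ × ℤ → ℤ)
    (ha : ∀ x ∈ B, ∀ y ∈ B, (a x - a y) % 2 = 0) :
    toOdd '' (Ht D ∩ Pat B fun x => a x / 2) = Odd2 D ∩ Pat B a := by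
  rw [Set.image_inter toOdd_inj, toOdd_image]
  ext g
  constructor
  · rintro ⟨h1, h, h2, rfl⟩
    refine ⟨h1, fun x hx y hy => ?_⟩
    have h3 := h2 x hx y hy
    have h4 := ha x hx y hy
    simp only [toOdd]
    simp only at h3
    omega
  · rintro ⟨h1, h2⟩
    refine ⟨h1, ?_⟩
    rw [← toOdd_image] at h1
    obtain ⟨h, h3, rfl⟩ := h1
    refine ⟨h, fun x hx y hy => ?_, rfl⟩
    have h5 := h2 x hx y hy
    have h4 := ha x hx y hy
    simp only [toOdd] at h5
    show h x - h y = a x / 2 - a y / 2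
    omega

theorem dbl_preimage (B : Finset (ℤ × ℤ)) (a : ℤ × ℤ → ℤ)
    (ha : ∀ x ∈ B, ∀ y ∈ B, (a x - a y) % 2 = 0) :
    dbl ⁻¹' Pat B a = Pat B fun x => a x / 2 := by
  ext φ
  constructor
  · intro h x hx y hy
    have h1 := h x hx y hy
    have h2 := ha x hx y hy
    simp only [dbl] at h1
    show φ x - φ y = a x / 2 - a y / 2
    omega
  · intro h x hx y hy
    have h1 := h x hx y hy
    have h2 := ha x hx y hy
    simp only [dbl]
    simp only at h1
    omega

theorem map_dbl_real (P : Measure (ℤ × ℤ → ℤ)) (B : Finset (ℤ × ℤ)) (a : ℤ × ℤ → ℤ) :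
    (P.map dbl) (Pat B a) = P (dbl ⁻¹' Pat B a) :=
  Measure.map_apply measurable_dbl (measurableSet_Pat B a)

theorem oddLim_map {P : Measure (ℤ × ℤ → ℤ)} {D : ℕ → Finset (ℤ × ℤ)} (h : LocLim P D) :
    OddLim (P.map dbl) D := by
  intro B a
  have e0 : ∀ n, (Odd2 (D n)).ncard = (Ht (D n)).ncard := fun n => by
    rw [← toOdd_image, Set.ncard_image_of_injective _ toOdd_inj]
  by_cases ha : ∀ x ∈ B, ∀ y ∈ B, (a x - a y) % 2 = 0
  · have e1 : ∀ n, (Odd2 (D n) ∩ Pat B a).ncard = (Ht (D n) ∩ Pat B fun x => a x / 2).ncard :=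
      fun n => by
        rw [← toOdd_image_Pat _ _ _ ha, Set.ncard_image_of_injective _ toOdd_inj]
    have e2 : (P.map dbl).real (Pat B a) = P.real (Pat B fun x => a x / 2) := by
      rw [Measure.real, map_dbl_real, dbl_preimage B a ha, Measure.real]
    rw [e2]
    simp only [e0, e1]
    exact h B _
  · push Not at ha
    obtain ⟨x, hx, y, hy, hxy⟩ := ha
    have e1 : ∀ n, Odd2 (D n) ∩ Pat B a = ∅ := fun n => by
      rw [Set.eq_empty_iff_forall_notMem]
      rintro g ⟨hg, hg'⟩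
      obtain ⟨k, hk⟩ := hg.1 x
      obtain ⟨l, hl⟩ := hg.1 y
      have := hg' x hx y hy
      omega
    have e2 : dbl ⁻¹' Pat B a = ∅ := by
      rw [Set.eq_empty_iff_forall_notMem]
      intro φ hφ
      have := hφ x hx y hy
      simp only [dbl] at this
      omega
    have e3 : (P.map dbl).real (Pat B a) = 0 := by
      rw [Measure.real, map_dbl_real, e2]
      simp
    rw [e3]
    simp [e1]

theorem oddGibbs_map {P : Measure (ℤ × ℤ → ℤ)} (h : Gibbs P) : OddGibbs (P.map dbl) := by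
  intro A B a a' hAB hA ha ha' hl hl' haa
  have h1 : ∀ x ∈ B, ∀ y ∈ B, (a x - a y) % 2 = 0 := fun x _ y _ => by
    obtain ⟨k, hk⟩ := ha x
    obtain ⟨l, hl⟩ := ha y
    (clear * - hk hl; omega)
  have h2 : ∀ x ∈ B, ∀ y ∈ B, (a' x - a' y) % 2 = 0 := fun x _ y _ => by
    obtain ⟨k, hk⟩ := ha' x
    obtain ⟨l, hl⟩ := ha' y
    omega
  rw [map_dbl_real, map_dbl_real, dbl_preimage B a h1, dbl_preimage B a' h2]
  apply h A B _ _ hAB hA
  · intro x hx y hy hxy
    have h3 := hl x hx y hy hxy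
    have h4 := h1 x hx y hy
    show |a x / 2 - a y / 2| ≤ 1
    rw [abs_le] at h3 ⊢
    omega
  · intro x hx y hy hxy
    have h3 := hl' x hx y hy hxy
    have h4 := h2 x hx y hy
    show |a' x / 2 - a' y / 2| ≤ 1
    rw [abs_le] at h3 ⊢
    omega
  · intro x hx hxA
    show a x / 2 = a' x / 2
    rw [haa x hx hxA]

theorem map_dbl_comm {P : Measure (ℤ × ℤ → ℤ)} {T : (ℤ × ℤ → ℤ) → (ℤ × ℤ → ℤ)}
    (hT : Measurable T) (hc : ∀ φ, T (dbl φ) = dbl (T φ)) (h : P.map T = P) :
    (P.map dbl).map T = P.map dbl := by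
  rw [Measure.map_map hT measurable_dbl]
  have : T ∘ dbl = dbl ∘ T := by
    funext φ
    exact hc φ
  rw [this, ← Measure.map_map measurable_dbl hT, h]

/-- The measure of the plane theorem, in the normalisation of the problem. -/
theorem odd_out {P : Measure (ℤ × ℤ → ℤ)} (hP : Plane P) :
    IsProbabilityMeasure (P.map dbl) ∧ (∀ᵐ φ ∂(P.map dbl), φ 0 = 0) ∧
    OddLim (P.map dbl) hexa ∧ OddGibbs (P.map dbl) ∧
    (∀ t, (P.map dbl).map (shift t) = P.map dbl) ∧
    (P.map dbl).map (fun φ x => φ (rot x)) = P.map dbl ∧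
    (P.map dbl).map (fun φ x => φ (x.2, x.1)) = P.map dbl := by
  have := hP.prob
  refine ⟨Measure.isProbabilityMeasure_map measurable_dbl.aemeasurable, ?_, oddLim_map hP.lim,
    oddGibbs_map hP.gibbs, fun t => ?_, ?_, ?_⟩
  · rw [ae_map_iff measurable_dbl.aemeasurable]
    · filter_upwards [hP.zero] with φ hφ
      show 2 * φ 0 = 0
      rw [hφ, mul_zero]
    · have hm : Measurable fun φ : ℤ × ℤ → ℤ => φ 0 := measurable_pi_apply 0
      exact hm (MeasurableSet.of_discrete (s := {(0 : ℤ)}))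
  · apply map_dbl_comm _ _ (hP.shift t)
    · exact measurable_pi_iff.2 fun x => (measurable_pi_apply (x + t)).sub (measurable_pi_apply t)
    · intro φ
      funext x
      simp only [shift, dbl]
      ring
  · apply map_dbl_comm _ _ hP.rot
    · exact measurable_pi_iff.2 fun x => measurable_pi_apply (rot x)
    · intro φ
      rfl
  · apply map_dbl_comm _ _ hP.swap
    · exact measurable_pi_iff.2 fun x => measurable_pi_apply (x.2, x.1)
    · intro φ
      rfl

end Vale.Agent.P153.GFF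
end

section

/-!
# B5, part 4: translation inequalities for the upper density
-/

open MeasureTheory Filter Topology Set Metric
open scoped ENNReal

namespace Vale.Agent.P153.Iso

/-- From a.e. real part to a.e. complex number. -/
theorem ae_re {P : ℝ → Prop} (h : ∀ᵐ x : ℝ, P x) : ∀ᵐ w : ℂ, P w.re := by
  have h1 : ∀ᵐ p : ℝ × ℝ, P p.1 := Measure.quasiMeasurePreserving_fst.ae h
  exact (Complex.volume_preserving_equiv_real_prod.quasiMeasurePreserving).ae h1

theorem ae_add {P : ℂ → Prop} (v : ℂ) (h : ∀ᵐ w : ℂ, P w) : ∀ᵐ w : ℂ, P (w + v) :=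
  (measurePreserving_add_right volume v).quasiMeasurePreserving.ae h

theorem sqrt3_lt : √(3:ℝ) < 1.8 := by
  rw [Real.sqrt_lt' (by norm_num)]; norm_num

theorem sqrt3_gt : (1.7:ℝ) < √3 := by
  rw [Real.lt_sqrt (by norm_num)]; norm_num

theorem ratio_bound {y a t u : ℝ} (hy : 0 < y) (hu0 : 0 ≤ u) (hu4 : u ≤ 1 / 4)
    (ha : 7 / 8 * y ≤ a) (ht : t = -(u * y)) : (a / (a + t)) ^ 2 ≤ 1 + 12 * u := by
  have ha0 : 0 < a := by linarith
  have huy : u * y ≤ 1 / 4 * y := mul_le_mul_of_nonneg_right hu4 hy.le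
  have hat : 0 < a + t := by rw [ht]; linarith
  have hlow : a * (1 - 8 / 7 * u) ≤ a + t := by
    rw [ht]
    have : u * (7 / 8 * y) ≤ u * a := mul_le_mul_of_nonneg_left ha hu0
    linarith only [this]
  have hlow0 : 0 ≤ a * (1 - 8 / 7 * u) := mul_nonneg ha0.le (by linarith only [hu4])
  have hsq := pow_le_pow_left₀ hlow0 hlow 2
  have hpoly : 1 ≤ (1 + 12 * u) * (1 - 8 / 7 * u) ^ 2 := by
    have e : (1 + 12 * u) * (1 - 8 / 7 * u) ^ 2 - 1
        = u * (68 / 7 - 1280 / 49 * u + 768 / 49 * u ^ 2) := by ring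
    have : 0 ≤ u * (68 / 7 - 1280 / 49 * u + 768 / 49 * u ^ 2) := by
      apply mul_nonneg hu0
      nlinarith only [hu4]
    linarith only [this]
  rw [div_pow, div_le_iff₀ (by positivity)]
  calc a ^ 2 = a ^ 2 * 1 := by ring
    _ ≤ a ^ 2 * ((1 + 12 * u) * (1 - 8 / 7 * u) ^ 2) :=
        mul_le_mul_of_nonneg_left hpoly (by positivity)
    _ = (1 + 12 * u) * (a * (1 - 8 / 7 * u)) ^ 2 := by ring
    _ ≤ _ := mul_le_mul_of_nonneg_left hsq (by positivity)

namespace DensHyp

variable {φ : ℂ → ℝ} {m : ℝ → Measure ℝ} {C ρ : ℝ}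

theorem C_nonneg (h : DensHyp φ m C ρ) : 0 ≤ C := by
  have h1 := h.rep
  by_contra hC
  push Not at hC
  have h2 : ∀ᵐ z : ℂ, z ∉ ball (0:ℂ) ρ := by
    filter_upwards [h1] with z hz hlt
    rw [mem_ball, dist_zero_right] at hlt
    have h3 := hz hlt
    have h4 := abs_nonneg (φ z - Psi m z.re z.im)
    linarith
  have h3 : volume (ball (0:ℂ) ρ) = 0 := measure_eq_zero_iff_ae_notMem.2 h2
  exact (measure_ball_pos volume (0:ℂ) h.rho_pos).ne' h3

/-- The good properties of a.e. point. -/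
theorem good (h : DensHyp φ m C ρ) : ∀ᵐ w : ℂ, ‖w‖ < ρ →
    (∀ᵐ τ ∂(m w.re), 0 ≤ τ ∧ τ < 1) ∧ IsFiniteMeasure (m w.re) ∧
      |φ w - Psi m w.re w.im| ≤ C := by
  filter_upwards [ae_re h.supp, ae_re h.fin, h.rep] with w h1 h2 h3 hw
  refine ⟨h1, ⟨?_⟩, h3 hw⟩
  exact lt_top_iff_ne_top.2 (h2 (lt_of_le_of_lt (Complex.abs_re_le_norm w) hw))

/-- Translation by `t i`, a.e. form. -/
theorem transl_ae (h : DensHyp φ m C ρ) {z : ℂ} {t : ℝ} (hy : 0 < z.im) (ht : |t| ≤ z.im / 4)
    (hz : 2 * ‖z‖ < ρ) (hz1 : ‖z‖ ≤ 1) :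
    ∀ᵐ w : ℂ, w ∈ closedBall z (z.im / 8) →
      φ (w + t * Complex.I) ≤ (1 + 12 * |t| / z.im) * φ w + 5 * C := by
  have hC := h.C_nonneg
  filter_upwards [h.good, ae_add (t * Complex.I) h.good] with w hw1 hw2 hw
  rw [mem_closedBall, dist_eq_norm] at hw
  have him : |w.im - z.im| ≤ z.im / 8 := by
    have := Complex.abs_im_le_norm (w - z)
    rw [Complex.sub_im] at this
    exact this.trans hw
  have hzim : z.im ≤ ‖z‖ := (le_abs_self _).trans (Complex.abs_im_le_norm z)
  have hwn : ‖w‖ ≤ ‖z‖ + z.im / 8 := by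
    calc ‖w‖ = ‖z + (w - z)‖ := by congr 1; ring
      _ ≤ ‖z‖ + ‖w - z‖ := norm_add_le _ _
      _ ≤ _ := by linarith only [hw]
  have hwn' : ‖w + t * Complex.I‖ ≤ ‖z‖ + z.im / 8 + z.im / 4 := by
    calc ‖w + t * Complex.I‖ ≤ ‖w‖ + ‖(t:ℂ) * Complex.I‖ := norm_add_le _ _
      _ = ‖w‖ + |t| := by simp
      _ ≤ _ := by linarith only [ht, hwn]
  obtain ⟨hs, hf, h1⟩ := hw1 (by linarith only [hy, hz, hzim, hwn])
  obtain ⟨-, -, h2⟩ := hw2 (by linarith only [hy, hz, hzim, hwn'])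
  have hre : (w + t * Complex.I).re = w.re := by simp
  have him2 : (w + t * Complex.I).im = w.im + t := by simp
  rw [hre, him2] at h2
  rw [abs_le] at him ht h1 h2
  have s3 := sqrt3_lt
  have s3p : 0 < √(3:ℝ) := by positivity
  have hpi := Real.pi_gt_d2
  have hwim : 0 < w.im := by linarith only [hy, him]
  have hwt : 0 < w.im + t := by linarith only [ht, him, hwim]
  have hφ := h.nonneg w
  have hψ0 : 0 ≤ Psi m w.re w.im := psi_nonneg hs
  have bound : ∀ y : ℝ, y ≤ 3 / 2 → √3 * y < Real.pi := by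
    intro y hy
    nlinarith only [s3, hpi, s3p, hy]
  rcases le_total 0 t with htn | htn
  · -- up
    have h3 : Psi m w.re (w.im + t) ≤ Psi m w.re w.im := by
      unfold Psi
      exact psi_anti hs (by positivity) (mul_le_mul_of_nonneg_left (by linarith only [htn]) s3p.le)
        (bound _ (by linarith only [ht, hz1, him, hzim]))
    have h4 : 0 ≤ 12 * |t| / z.im * φ w := by (clear * - hy hφ; positivity)
    have h5 : (1 + 12 * |t| / z.im) * φ w = φ w + 12 * |t| / z.im * φ w := by ring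
    linarith only [h1, h2, h3, h4]
  · -- down
    have h3 : Psi m w.re (w.im + t) ≤ (w.im / (w.im + t)) ^ 2 * Psi m w.re w.im := by
      unfold Psi
      have := psi_le (μ := m w.re) (θ := √3 * (w.im + t)) (θ' := √3 * w.im) hs (by (clear * - hwt; positivity))
        (mul_le_mul_of_nonneg_left (by linarith only [htn]) s3p.le) (bound _ (by linarith only [hz1, him, hzim]))
      have e : (√3 * w.im) / (√3 * (w.im + t)) = w.im / (w.im + t) := by
        (clear * - hwt hwim; field_simp)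
      rwa [e] at this
    have habs : |t| = -t := abs_of_nonpos htn
    set u : ℝ := -t / z.im with hu
    have hu0 : 0 ≤ u := by rw [hu]; exact div_nonneg (by linarith only [htn]) hy.le
    have htu : t = -(u * z.im) := by rw [hu]; (clear * - hy; field_simp)
    have hu4 : u ≤ 1 / 4 := by rw [hu, div_le_iff₀ hy]; linarith only [ht]
    have h12 : 12 * |t| / z.im = 12 * u := by rw [habs, hu]; ring
    rw [h12]
    have h5 : (w.im / (w.im + t)) ^ 2 ≤ 1 + 12 * u :=
      ratio_bound hy hu0 hu4 (by linarith only [him]) htu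
    have h8 : (w.im / (w.im + t)) ^ 2 * Psi m w.re w.im ≤ (1 + 12 * u) * (φ w + C) := by
      apply mul_le_mul h5 (by linarith only [h1]) hψ0 (by (clear * - hu0; positivity))
    have h9 : 12 * u * C ≤ 3 * C := mul_le_mul_of_nonneg_right (by linarith only [hu4]) hC
    have h10 : (1 + 12 * u) * (φ w + C) = (1 + 12 * u) * φ w + C + 12 * u * C := by ring
    linarith only [h2, h3, h8, h9]

/-- Translation by `t i`, upper density. -/
theorem ub_transl (h : DensHyp φ m C ρ) {z : ℂ} {t : ℝ} (hy : 0 < z.im) (ht : |t| ≤ z.im / 4)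
    (hz : 2 * ‖z‖ < ρ) (hz1 : ‖z‖ ≤ 1) :
    ub φ (z + t * Complex.I) ≤ ENNReal.ofReal (1 + 12 * |t| / z.im) * ub φ z +
      ENNReal.ofReal (5 * C) := by
  have hC := h.C_nonneg
  refine ub_add_le (s0 := z.im / 8) (by positivity) ENNReal.ofReal_ne_top h.meas ?_
  filter_upwards [h.transl_ae hy ht hz hz1] with w hw hwb
  rw [← ENNReal.ofReal_mul (by (clear * - hy; positivity)), ← ENNReal.ofReal_add
    (mul_nonneg (by positivity) (h.nonneg w)) (by positivity)]
  exact ENNReal.ofReal_le_ofReal (hw hwb)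

end DensHyp

end Vale.Agent.P153.Iso
end

section

/-!
# B5, part 5: symmetry and equicontinuity of the upper density
-/

open MeasureTheory Filter Topology Set Metric
open scoped ENNReal

namespace Vale.Agent.P153.Iso

theorem sqrt3_sq : √(3:ℝ) ^ 2 = 3 := Real.sq_sqrt (by norm_num)

theorem norm_om : ‖om‖ = 1 := by
  rw [Complex.norm_def, Complex.normSq_apply]
  have : om.re * om.re + om.im * om.im = 1 := by
    simp only [om]
    nlinarith only [sqrt3_sq]
  rw [this, Real.sqrt_one]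

theorem om_mul_re (z : ℂ) : (om * z).re = z.re / 2 - √3 / 2 * z.im := by
  simp only [om, Complex.mul_re]; ring

theorem om_mul_im (z : ℂ) : (om * z).im = √3 / 2 * z.re + z.im / 2 := by
  simp only [om, Complex.mul_im]; ring

/-- Real upper density. -/
noncomputable def U (φ : ℂ → ℝ) (z : ℂ) : ℝ := (ub φ z).toReal

theorem U_nonneg (φ : ℂ → ℝ) (z : ℂ) : 0 ≤ U φ z := ENNReal.toReal_nonneg

/-- Induction over the fundamental sector `0 ≤ θ ≤ 30°`. -/
theorem sector_induct {P : ℂ → Prop} (hrot : ∀ z, P (om * z) → P z)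
    (hrefl : ∀ z, P ((starRingEnd ℂ) z) → P z)
    (hs : ∀ z : ℂ, 0 < z.re → 0 ≤ z.im → √3 * z.im ≤ z.re → P z) :
    ∀ z : ℂ, z ≠ 0 → P z := by
  have h3 := sqrt3_sq
  have hs3 : 0 < √(3:ℝ) := by positivity
  have hom2 : om * om = ⟨-1 / 2, √3 / 2⟩ := by
    apply Complex.ext
    · rw [om_mul_re]; simp only [om]; linarith
    · rw [om_mul_im]; simp only [om]; ring
  have hom3 : om * (om * om) = -1 := by
    rw [hom2]
    apply Complex.ext
    · rw [om_mul_re]; simp only [Complex.neg_re, Complex.one_re]; linarith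
    · rw [om_mul_im]; simp only [Complex.neg_im, Complex.one_im]; ring
  have hneg : ∀ z, P (-z) → P z := by
    intro z hz
    apply hrot; apply hrot; apply hrot
    have : om * (om * (om * z)) = -z := by
      calc om * (om * (om * z)) = (om * (om * om)) * z := by ring
        _ = -z := by rw [hom3]; ring
    rw [this]; exact hz
  -- inverse rotation
  have hinv : ∀ z w : ℂ, om * w = z → P w → P z := by
    intro z w hw hP
    have hz : w = -(om * (om * z)) := by
      rw [← hw]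
      calc w = -(-1 * w) := by ring
        _ = -((om * (om * om)) * w) := by rw [hom3]
        _ = _ := by ring
    rw [hz] at hP
    apply hrot; apply hrot
    apply hneg
    exact hP
  -- wide sector
  have hwide : ∀ z : ℂ, 0 < z.re → √3 * |z.im| ≤ z.re → P z := by
    intro z h0 h1
    rcases le_total 0 z.im with h | h
    · rw [abs_of_nonneg h] at h1
      exact hs z h0 h h1
    · rw [abs_of_nonpos h] at h1
      apply hrefl
      apply hs
      · simpa only [Complex.conj_re] using h0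
      · simp only [Complex.conj_im]; linarith only [h]
      · simp only [Complex.conj_im, Complex.conj_re]; linarith only [h1]
  -- first quadrant
  have hquad : ∀ z : ℂ, 0 ≤ z.re → 0 ≤ z.im → z ≠ 0 → P z := by
    intro z hx hy hz
    by_cases c : √3 * z.im ≤ z.re
    · apply hwide z _ (by rwa [abs_of_nonneg hy])
      rcases hx.lt_or_eq with h | h
      · exact h
      · exfalso
        rw [← h] at c
        have : z.im = 0 := by nlinarith only [hy, hs3, c]
        exact hz (Complex.ext h.symm this)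
    · push Not at c
      have hy0 : 0 < z.im := by
        by_contra hcon
        have : z.im = 0 := le_antisymm (not_lt.1 hcon) hy
        rw [this] at c; simp at c; linarith only [hx, c]
      set w : ℂ := ⟨z.re / 2 + √3 / 2 * z.im, -(√3 / 2) * z.re + z.im / 2⟩ with hw
      have hwz : om * w = z := by
        apply Complex.ext
        · rw [om_mul_re, hw]; simp only; nlinarith only [h3, hx]
        · rw [om_mul_im, hw]; simp only; nlinarith only [h3, hy]
      apply hinv z w hwz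
      apply hwide
      · rw [hw]; simp only; (clear * - hx hy0; positivity)
      · rw [hw]; simp only
        rw [← abs_of_pos hs3, ← abs_mul, abs_of_pos hs3, abs_le]
        constructor
        · have : √3 * (-(√3 / 2) * z.re + z.im / 2) = -(√3 ^ 2 / 2) * z.re + √3 / 2 * z.im := by
            ring
          rw [this, h3]; nlinarith only [c]
        · have : √3 * (-(√3 / 2) * z.re + z.im / 2) = -(√3 ^ 2 / 2) * z.re + √3 / 2 * z.im := by
            ring
          rw [this, h3]; nlinarith only [hx]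
  intro z hz
  rcases le_total 0 z.re with hx | hx <;> rcases le_total 0 z.im with hy | hy
  · exact hquad z hx hy hz
  · apply hrefl
    apply hquad
    · simpa only [Complex.conj_re] using hx
    · simp only [Complex.conj_im]; linarith only [hy]
    · simpa using hz
  · apply hneg
    apply hrefl
    apply hquad
    · simp only [Complex.conj_re, Complex.neg_re]; linarith only [hx]
    · simp only [Complex.conj_im, Complex.neg_im]; linarith only [hy]
    · simpa only [map_neg, ne_eq, neg_eq_zero, map_eq_zero] using hz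
  · apply hneg
    apply hquad
    · simp only [Complex.neg_re]; linarith only [hx]
    · simp only [Complex.neg_im]; linarith only [hy]
    · simpa using hz

namespace DensHyp

variable {φ : ℂ → ℝ} {m : ℝ → Measure ℝ} {C ρ : ℝ}

theorem ub_om (h : DensHyp φ m C ρ) (z : ℂ) : ub φ (om * z) = ub φ z := by
  have hc : om ∈ Submonoid.unitSphere ℂ := by
    rw [Submonoid.unitSphere]
    simp only [Submonoid.mem_mk, Subsemigroup.mem_mk, mem_sphere_iff_norm, sub_zero, norm_om]
  set c : Circle := ⟨om, hc⟩ with hcdef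
  have hT : ∀ w, rotation c w = om * w := fun w => rotation_apply c w
  have := ub_isometry h.meas (rotation c) (by
    filter_upwards [h.rot] with w hw
    rw [hT]; exact hw) z
  rwa [hT] at this

theorem ub_conj (h : DensHyp φ m C ρ) (z : ℂ) : ub φ ((starRingEnd ℂ) z) = ub φ z := by
  have := ub_isometry h.meas Complex.conjLIE (by
    filter_upwards [h.refl] with w hw
    rw [Complex.conjLIE_apply]; exact hw) z
  rwa [Complex.conjLIE_apply] at this

theorem U_om (h : DensHyp φ m C ρ) (z : ℂ) : U φ (om * z) = U φ z := by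
  unfold U; rw [h.ub_om]

theorem U_conj (h : DensHyp φ m C ρ) (z : ℂ) : U φ ((starRingEnd ℂ) z) = U φ z := by
  unfold U; rw [h.ub_conj]

theorem ub_bdd (h : DensHyp φ m C ρ) {z : ℂ} (hz0 : z ≠ 0) (hz : 2 * ‖z‖ < ρ) :
    ub φ z ≤ ENNReal.ofReal (4 * C / ‖z‖ ^ 2) := by
  have hn : 0 < ‖z‖ := norm_pos_iff.2 hz0
  refine ub_le (s0 := ‖z‖ / 2) (by (clear * - hz0; positivity)) ?_
  filter_upwards [h.bdd] with w hw hwb
  rw [mem_closedBall, dist_eq_norm] at hwb
  have h1 : ‖z‖ / 2 ≤ ‖w‖ := by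
    have : ‖z‖ ≤ ‖w‖ + ‖w - z‖ := by
      calc ‖z‖ = ‖w - (w - z)‖ := by congr 1; ring
        _ ≤ _ := norm_sub_le _ _
    linarith
  have h2 : ‖w‖ < ρ := by
    calc ‖w‖ = ‖z + (w - z)‖ := by congr 1; ring
      _ ≤ ‖z‖ + ‖w - z‖ := norm_add_le _ _
      _ < ρ := by linarith
  apply ENNReal.ofReal_le_ofReal
  rw [le_div_iff₀ (by positivity)]
  have h3 := hw h2
  have h4 : ‖z‖ ^ 2 ≤ 4 * ‖w‖ ^ 2 := by nlinarith only [hn, h1]
  calc φ w * ‖z‖ ^ 2 ≤ φ w * (4 * ‖w‖ ^ 2) := mul_le_mul_of_nonneg_left h4 (h.nonneg w)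
    _ = 4 * (‖w‖ ^ 2 * φ w) := by ring
    _ ≤ 4 * C := by linarith only [h3]

theorem ub_ne_top (h : DensHyp φ m C ρ) {z : ℂ} (hz0 : z ≠ 0) (hz : 2 * ‖z‖ < ρ) :
    ub φ z ≠ ∞ := ne_top_of_le_ne_top ENNReal.ofReal_ne_top (h.ub_bdd hz0 hz)

theorem U_bdd (h : DensHyp φ m C ρ) {z : ℂ} (hz0 : z ≠ 0) (hz : 2 * ‖z‖ < ρ) :
    U φ z ≤ 4 * C / ‖z‖ ^ 2 := by
  have hC := h.C_nonneg
  have h1 := h.ub_bdd hz0 hz
  unfold U
  have := ENNReal.toReal_mono ENNReal.ofReal_ne_top h1
  rwa [ENNReal.toReal_ofReal (by positivity)] at this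

/-- Translation by `t i`, real form. -/
theorem U_transl (h : DensHyp φ m C ρ) {z : ℂ} {t : ℝ} (hy : 0 < z.im) (ht : |t| ≤ z.im / 4)
    (hz : 2 * ‖z‖ < ρ) (hz1 : ‖z‖ ≤ 1) :
    U φ (z + t * Complex.I) ≤ (1 + 12 * |t| / z.im) * U φ z + 5 * C := by
  have hC := h.C_nonneg
  have hz0 : z ≠ 0 := by
    intro h0
    rw [h0] at hy; simp at hy
  have h1 := h.ub_transl hy ht hz hz1
  have h2 := h.ub_ne_top hz0 hz
  have h3 : ENNReal.ofReal (1 + 12 * |t| / z.im) * ub φ z + ENNReal.ofReal (5 * C) ≠ ∞ :=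
    ENNReal.add_ne_top.2 ⟨ENNReal.mul_ne_top ENNReal.ofReal_ne_top h2, ENNReal.ofReal_ne_top⟩
  have h4 := ENNReal.toReal_mono h3 h1
  rw [ENNReal.toReal_add (ENNReal.mul_ne_top ENNReal.ofReal_ne_top h2) ENNReal.ofReal_ne_top,
    ENNReal.toReal_mul, ENNReal.toReal_ofReal (by (clear * - hy; positivity)),
    ENNReal.toReal_ofReal (by positivity)] at h4
  exact h4

theorem norm_om_mul (z : ℂ) : ‖om * z‖ = ‖z‖ := by rw [norm_mul, norm_om, one_mul]

theorem two_steps {C q f1 f2 A B D : ℝ} (hC : 0 ≤ C) (hq0 : 0 ≤ q) (hq1 : q ≤ 1 / 32)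
    (hA : 0 ≤ A) (hB : 0 ≤ B) (h1 : f1 ≤ 48 * q) (h2 : f2 ≤ 52 * q)
    (s1 : B ≤ (1 + f1) * A + 5 * C) (s2 : D ≤ (1 + f2) * B + 5 * C) :
    D ≤ (1 + 200 * q) * A + 20 * C := by
  have g1 : B ≤ (1 + 48 * q) * A + 5 * C := by
    have := mul_le_mul_of_nonneg_right h1 hA
    linarith only [s1, this]
  have g2 : D ≤ (1 + 52 * q) * B + 5 * C := by
    have := mul_le_mul_of_nonneg_right h2 hB
    linarith only [s2, this]
  have g3 : (1 + 52 * q) * B ≤ (1 + 52 * q) * ((1 + 48 * q) * A + 5 * C) :=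
    mul_le_mul_of_nonneg_left g1 (by positivity)
  have g4 : (1 + 52 * q) * (1 + 48 * q) ≤ 1 + 200 * q := by nlinarith only [hq0, hq1]
  have g5 := mul_le_mul_of_nonneg_right g4 hA
  have g6 : (1 + 52 * q) * (5 * C) ≤ 15 * C := by nlinarith only [hC, hq1]
  have g7 : (1 + 52 * q) * ((1 + 48 * q) * A + 5 * C)
      = (1 + 52 * q) * (1 + 48 * q) * A + (1 + 52 * q) * (5 * C) := by ring
  linarith only [g2, g3, g5, g6]

/-- Two steps in the sector. -/
theorem U_equi_sector (h : DensHyp φ m C ρ) {z : ℂ} (h0 : 0 < z.re) (h1 : 0 ≤ z.im)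
    (h2 : √3 * z.im ≤ z.re) (hz : 4 * ‖z‖ < ρ) (hz1 : 4 * ‖z‖ ≤ 1) {v : ℂ}
    (hv : ‖v‖ ≤ ‖z‖ / 32) :
    U φ (z + v) ≤ (1 + 200 * ‖v‖ / ‖z‖) * U φ z + 20 * C := by
  have hC := h.C_nonneg
  have h3 := sqrt3_sq
  have s3l := sqrt3_gt
  have s3u := sqrt3_lt
  set N := ‖z‖ with hN
  have hN2 : N ^ 2 = z.re ^ 2 + z.im ^ 2 := by
    rw [hN, ← Complex.normSq_eq_norm_sq, Complex.normSq_apply]; ring
  have hNpos : 0 < N := norm_pos_iff.2 (by intro hh; rw [hh] at h0; simp at h0)
  have hx : √3 / 2 * N ≤ z.re := by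
    apply le_of_sq_le_sq _ h0.le
    have : 3 * z.im ^ 2 ≤ z.re ^ 2 := by
      have := pow_le_pow_left₀ (by (clear * - h1; positivity)) h2 2
      rw [mul_pow, h3] at this
      exact this
    rw [mul_pow, div_pow, h3, hN2]; linarith only [this]
  set a : ℝ := v.re / √3 + v.im with ha
  set b : ℝ := v.re / √3 - v.im with hb
  have s3p : 0 < √(3:ℝ) := by positivity
  have hre := Complex.abs_re_le_norm v
  have him := Complex.abs_im_le_norm v
  have hre' : |v.re / √3| ≤ ‖v‖ := by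
    rw [abs_div, abs_of_pos s3p, div_le_iff₀ s3p]
    nlinarith only [hre, s3l, norm_nonneg v]
  have haa : |a| ≤ 2 * ‖v‖ := by
    rw [ha]; exact (abs_add_le _ _).trans (by linarith only [him, hre'])
  have hbb : |b| ≤ 2 * ‖v‖ := by
    rw [hb]; exact (abs_sub _ _).trans (by linarith only [him, hre'])
  set u2 : ℂ := ⟨√3 / 2, 1 / 2⟩ with hu2
  set u3 : ℂ := ⟨√3 / 2, -1 / 2⟩ with hu3
  have e2 : om * u2 = Complex.I := by
    apply Complex.ext
    · rw [om_mul_re, hu2]; simp only [Complex.I_re]; ring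
    · rw [om_mul_im, hu2]; simp only [Complex.I_im]; nlinarith only [h3]
  have e3 : om * u3 = u2 := by
    apply Complex.ext
    · rw [om_mul_re, hu3, hu2]; simp only; ring
    · rw [om_mul_im, hu3, hu2]; simp only; nlinarith only [h3]
  have hva : v = a * u2 + b * u3 := by
    apply Complex.ext
    · simp only [Complex.add_re, Complex.mul_re, Complex.ofReal_re, Complex.ofReal_im, hu2, hu3,
        ha, hb]
      field_simp; ring
    · simp only [Complex.add_im, Complex.mul_im, Complex.ofReal_re, Complex.ofReal_im, hu2, hu3,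
        ha, hb]
      field_simp; ring
  -- step 1
  have i1 : N / 2 ≤ (om * z).im := by
    rw [om_mul_im]; nlinarith only [h0, h1, hx, s3l, hNpos]
  have s1 : U φ (z + a * u2) ≤ (1 + 12 * |a| / (om * z).im) * U φ z + 5 * C := by
    have := h.U_transl (z := om * z) (t := a) (by linarith only [hNpos, i1]) (by linarith only [hv, hNpos, haa, i1])
      (by rw [norm_om_mul]; linarith only [hz, hNpos]) (by rw [norm_om_mul]; linarith only [hz1])
    rw [h.U_om] at this
    have e : om * z + a * Complex.I = om * (z + a * u2) := by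
      rw [← e2]; ring
    rw [e, h.U_om] at this
    exact this
  -- step 2
  set z2 : ℂ := z + a * u2 with hz2
  have nu2 : ‖u2‖ = 1 := by
    have : ‖om * u2‖ = 1 := by rw [e2, Complex.norm_I]
    rwa [norm_om_mul] at this
  have nz2 : ‖z2‖ ≤ N + |a| := by
    rw [hz2]
    refine (norm_add_le _ _).trans ?_
    rw [norm_mul, nu2, mul_one, Complex.norm_real, Real.norm_eq_abs]
  have i2 : 15 / 32 * N ≤ (om * (om * z2)).im := by
    have e : om * (om * z2) = om * (om * z) + a * (om * Complex.I) := by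
      rw [hz2, ← e2]; ring
    rw [e, Complex.add_im, Complex.im_ofReal_mul, om_mul_im, om_mul_im, om_mul_im, om_mul_re,
      Complex.I_re, Complex.I_im]
    have : √3 / 2 * (z.re / 2 - √3 / 2 * z.im) + (√3 / 2 * z.re + z.im / 2) / 2
        = √3 / 2 * z.re - z.im / 2 := by linear_combination (-(z.im) / 4) * h3
    have hc : N / 2 ≤ √3 / 2 * z.re - z.im / 2 := by
      have t1 : √3 * z.im ≤ z.re := h2
      have t2 : √3 * (√3 / 2 * z.re - z.im / 2) ≥ z.re := by
        have : √3 * (√3 / 2 * z.re - z.im / 2) = √3 ^ 2 / 2 * z.re - √3 * z.im / 2 := by ring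
        rw [this, h3]; linarith only [h2]
      have t3 : √3 * (N / 2) ≤ √3 * (√3 / 2 * z.re - z.im / 2) := by
        calc √3 * (N / 2) = √3 / 2 * N := by ring
          _ ≤ z.re := hx
          _ ≤ _ := t2
      exact le_of_mul_le_mul_left t3 s3p
    have habs := neg_abs_le a
    rw [this]
    linarith only [hv, haa, hc, habs]
  have s2 : U φ (z2 + b * u3) ≤ (1 + 12 * |b| / (om * (om * z2)).im) * U φ z2 + 5 * C := by
    have := h.U_transl (z := om * (om * z2)) (t := b) (by linarith only [hNpos, i2]) (by (clear * - hv hNpos hbb i2; linarith))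
      (by rw [norm_om_mul, norm_om_mul]; linarith only [hz, hv, hNpos, haa, nz2]) (by rw [norm_om_mul, norm_om_mul]; linarith only [hz1, hv, haa, nz2])
    rw [h.U_om, h.U_om] at this
    have e : om * (om * z2) + b * Complex.I = om * (om * (z2 + b * u3)) := by
      rw [← e2, ← e3]; ring
    rw [e, h.U_om, h.U_om] at this
    exact this
  have hzv : z + v = z2 + b * u3 := by rw [hz2]; nth_rewrite 1 [hva]; ring
  rw [hzv]
  -- combine
  set q : ℝ := ‖v‖ / N with hq
  have hq0 : 0 ≤ q := by (clear * - hNpos; positivity)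
  have hq1 : q ≤ 1 / 32 := by rw [hq, div_le_iff₀ hNpos]; linarith only [hv]
  have hqv : 200 * ‖v‖ / N = 200 * q := by rw [hq]; ring
  rw [hqv]
  have hvq : ‖v‖ = q * N := by rw [hq]; (clear * - hNpos; field_simp)
  have f1 : 12 * |a| / (om * z).im ≤ 48 * q := by
    rw [div_le_iff₀ (by linarith only [hNpos, i1])]
    have : 48 * q * (N / 2) ≤ 48 * q * (om * z).im := mul_le_mul_of_nonneg_left i1 (by (clear * - hNpos; positivity))
    linarith only [haa, hvq, this]
  have f2 : 12 * |b| / (om * (om * z2)).im ≤ 52 * q := by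
    rw [div_le_iff₀ (by linarith only [hNpos, i2])]
    have : 52 * q * (15 / 32 * N) ≤ 52 * q * (om * (om * z2)).im :=
      mul_le_mul_of_nonneg_left i2 (by (clear * - hNpos; positivity))
    have : 0 ≤ q * N := by (clear * - hNpos; positivity)
    linarith
  exact two_steps hC hq0 hq1 (U_nonneg φ z) (U_nonneg φ z2) f1 f2 s1 s2

/-- Equicontinuity of the upper density. -/
theorem U_equi (h : DensHyp φ m C ρ) {z : ℂ} (hz0 : z ≠ 0) (hz : 4 * ‖z‖ < ρ)
    (hz1 : 4 * ‖z‖ ≤ 1) {v : ℂ} (hv : ‖v‖ ≤ ‖z‖ / 32) :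
    U φ (z + v) ≤ (1 + 200 * ‖v‖ / ‖z‖) * U φ z + 20 * C := by
  revert z
  have key : ∀ z : ℂ, z ≠ 0 → (4 * ‖z‖ < ρ → 4 * ‖z‖ ≤ 1 → ∀ v : ℂ, ‖v‖ ≤ ‖z‖ / 32 →
      U φ (z + v) ≤ (1 + 200 * ‖v‖ / ‖z‖) * U φ z + 20 * C) := by
    apply sector_induct
    · intro z hP h1 h2 v hv
      have := hP (by rwa [norm_om_mul]) (by rwa [norm_om_mul]) (om * v)
        (by rwa [norm_om_mul, norm_om_mul])
      rwa [← mul_add, h.U_om, h.U_om, norm_om_mul, norm_om_mul] at this
    · intro z hP h1 h2 v hv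
      have hn : ∀ w : ℂ, ‖(starRingEnd ℂ) w‖ = ‖w‖ := fun w => Complex.norm_conj w
      have := hP (by rwa [hn]) (by rwa [hn]) ((starRingEnd ℂ) v) (by rwa [hn, hn])
      rwa [← map_add, h.U_conj, h.U_conj, hn, hn] at this
    · intro z h0 h1 h2 hz hz1 v hv
      exact h.U_equi_sector h0 h1 h2 hz hz1 hv
  intro z hz0 hz hz1 hv
  exact key z hz0 hz hz1 v hv

end DensHyp

end Vale.Agent.P153.Iso
end
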