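import Mathlib
import Vale.Agent.P153.Bd5.B8
import Vale.Agent.P153.Bd5.B3
import Vale.Agent.P153.Bd5.B1
import Vale.Agent.P153.Bd5.B2
import Vale.Agent.P153.Bd5.B5
import Vale.Agent.P153.Bd5.B7

set_option linter.all false

section

/-!
# P153, block A2: potentials of closed 1-cochains on the triangular lattice

A closed 1-cochain with bounded support on the triangular lattice `ℤ × ℤ` is the coboundary of a
function which vanishes far away; the function is obtained by summation along horizontal rays.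
-/

namespace Vale.Agent.P153.Tau

open Finset Vale.Agent.P153

variable {G : Type*} [AddCommGroup G]

/-- antisymmetric, closed on triangles, and zero on edges with an end outside the box of
radius `R` -/
structure Coch (η : ℤ × ℤ → ℤ × ℤ → G) (R : ℤ) : Prop where
  anti : ∀ x y, Adj x y → η y x = -η x y
  tri : ∀ x y z, Adj x y → Adj y z → Adj x z → η x y + η y z = η x z
  far : ∀ x y, Adj x y → (R < |x.1| ∨ R < |x.2|) → η x y = 0

/-- sum along the horizontal ray from `x` to the right -/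
def pot (η : ℤ × ℤ → ℤ × ℤ → G) (R : ℤ) (x : ℤ × ℤ) : G :=
  ∑ k ∈ range (R + 1 - x.1).toNat, η (x.1 + k, x.2) (x.1 + k + 1, x.2)

theorem adj_e1 (x : ℤ × ℤ) : Adj x (x.1 + 1, x.2) := by
  rw [Fv.adj_iff]; left; simp

theorem adj_e2 (x : ℤ × ℤ) : Adj x (x.1, x.2 + 1) := by
  rw [Fv.adj_iff]; right; right; left; simp

theorem adj_e3 (x : ℤ × ℤ) : Adj x (x.1 + 1, x.2 - 1) := by
  rw [Fv.adj_iff]; simp only [sub_eq_self, one_ne_zero, and_false, add_eq_left, false_and, and_true, and_self, true_or, or_true]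

variable {η : ℤ × ℤ → ℤ × ℤ → G} {R : ℤ}

theorem pot_right {x : ℤ × ℤ} (hx : R < x.1) : pot η R x = 0 := by
  have : (R + 1 - x.1).toNat = 0 := by omega
  rw [pot, this]
  simp only [range_zero, sum_empty]

theorem Coch.e1 (h : Coch η R) (x : ℤ × ℤ) :
    pot η R x = η x (x.1 + 1, x.2) + pot η R (x.1 + 1, x.2) := by
  by_cases hx : R < x.1
  · rw [pot_right hx, pot_right (x := (x.1 + 1, x.2)) (by simp only [Order.lt_add_one_iff]; omega),
      h.far x _ (adj_e1 x) (Or.inl (lt_of_lt_of_le hx (le_abs_self _)))]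
    simp only [add_zero]
  · have h1 : (R + 1 - x.1).toNat = (R + 1 - (x.1 + 1)).toNat + 1 := by omega
    rw [pot, h1, sum_range_succ', add_comm]
    congr 1
    · simp
    · rw [pot]
      refine sum_congr rfl fun k _ => ?_
      push_cast
      congr 2 <;> ring

theorem Coch.far_e2 (h : Coch η R) (n : ℕ) : ∀ x : ℤ × ℤ, R + 1 - n ≤ x.1 →
    pot η R x = η x (x.1, x.2 + 1) + pot η R (x.1, x.2 + 1) := by
  induction n with
  | zero =>
    intro x hx
    have hx : R < x.1 := by push_cast at hx; omega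
    rw [pot_right hx, pot_right (x := (x.1, x.2 + 1)) hx,
      h.far x _ (adj_e2 x) (Or.inl (lt_of_lt_of_le hx (le_abs_self _)))]
    simp only [add_zero]
  | succ n ih =>
    intro x hx
    have h1 := ih (x.1 + 1, x.2) (by push_cast at hx ⊢; omega)
    have h2 := h.e1 x
    have h3 := h.e1 (x.1, x.2 + 1)
    simp only at h1 h3
    have t1 := h.tri x (x.1, x.2 + 1) (x.1 + 1, x.2) (adj_e2 x)
      (by rw [Fv.adj_iff]; simp only [left_eq_add, one_ne_zero, and_false, add_eq_left, false_and, add_sub_cancel_right, and_true, and_self, true_or, or_true]) (adj_e1 x)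
    have t2 := h.tri (x.1, x.2 + 1) (x.1 + 1, x.2) (x.1 + 1, x.2 + 1)
      (by rw [Fv.adj_iff]; simp only [left_eq_add, one_ne_zero, and_false, add_eq_left, false_and, add_sub_cancel_right, and_true, and_self, true_or, or_true]) (by rw [Fv.adj_iff]; simp) (by rw [Fv.adj_iff]; simp only [and_self, and_true, add_eq_left, one_ne_zero, left_eq_add, add_sub_cancel_right, and_false, or_self, or_false, true_or])
    rw [h2, h1, h3, ← t1, ← t2]
    abel

theorem Coch.e2 (h : Coch η R) (x : ℤ × ℤ) :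
    pot η R x = η x (x.1, x.2 + 1) + pot η R (x.1, x.2 + 1) :=
  h.far_e2 (R + 1 - x.1).toNat x (by omega)

theorem Coch.e3 (h : Coch η R) (x : ℤ × ℤ) :
    pot η R x = η x (x.1 + 1, x.2 - 1) + pot η R (x.1 + 1, x.2 - 1) := by
  have h2 := h.e1 x
  have h3 := h.e2 (x.1 + 1, x.2 - 1)
  simp only [sub_add_cancel] at h3
  have t1 := h.tri x (x.1 + 1, x.2 - 1) (x.1 + 1, x.2) (adj_e3 x)
    (by rw [Fv.adj_iff]; simp) (adj_e1 x)
  rw [h2, h3, ← t1]
  abel

/-- the potential -/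
theorem Coch.sub (h : Coch η R) {x y : ℤ × ℤ} (hxy : Adj x y) :
    pot η R x - pot η R y = η x y := by
  have key : ∀ x y : ℤ × ℤ, Adj x y → (y = (x.1 + 1, x.2) ∨ y = (x.1, x.2 + 1) ∨
      y = (x.1 + 1, x.2 - 1)) → pot η R x - pot η R y = η x y := by
    rintro x y - (rfl | rfl | rfl)
    · rw [h.e1 x]; abel
    · rw [h.e2 x]; abel
    · rw [h.e3 x]; abel
  rcases Fv.adj_iff.1 hxy with ⟨h1, h2⟩ | ⟨h1, h2⟩ | ⟨h1, h2⟩ | ⟨h1, h2⟩ | ⟨h1, h2⟩ | ⟨h1, h2⟩
  · exact key x y hxy (Or.inl (Prod.ext h1 h2))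
  · have := key y x (Fv.adj_comm'.1 hxy) (Or.inl (Prod.ext (by simp; omega) h2.symm))
    rw [h.anti x y hxy] at this
    rw [← neg_sub, this, neg_neg]
  · exact key x y hxy (Or.inr (Or.inl (Prod.ext h1 h2)))
  · have := key y x (Fv.adj_comm'.1 hxy) (Or.inr (Or.inl (Prod.ext h1.symm (by simp; omega))))
    rw [h.anti x y hxy] at this
    rw [← neg_sub, this, neg_neg]
  · exact key x y hxy (Or.inr (Or.inr (Prod.ext h1 h2)))
  · have := key y x (Fv.adj_comm'.1 hxy)
      (Or.inr (Or.inr (Prod.ext (by simp; omega) (by simp; omega))))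
    rw [h.anti x y hxy] at this
    rw [← neg_sub, this, neg_neg]

theorem Coch.up (h : Coch η R) {x : ℤ × ℤ} (hx : R < |x.1|) (k : ℕ) :
    pot η R (x.1, x.2 + k) = pot η R x := by
  induction k with
  | zero => simp
  | succ k ih =>
    have h1 := h.e2 (x.1, x.2 + k)
    rw [h.far (x.1, x.2 + (k : ℤ)) _ (adj_e2 (x.1, x.2 + (k : ℤ))) (Or.inl hx), zero_add] at h1
    rw [← ih, h1]
    push_cast
    simp [add_assoc]

/-- the potential vanishes far away -/
theorem Coch.pot_far (h : Coch η R) {x : ℤ × ℤ} (hx : R < |x.1| ∨ R < |x.2|) :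
    pot η R x = 0 := by
  have key : ∀ x : ℤ × ℤ, R < |x.2| → pot η R x = 0 := by
    intro x hx
    rw [pot]
    exact sum_eq_zero fun k _ => h.far (x.1 + k, x.2) _ (adj_e1 (x.1 + k, x.2)) (Or.inr hx)
  rcases hx with hx | hx
  · rw [← h.up hx (R + 1 - x.2).toNat]
    apply key
    have h1 : (R + 1 - x.2 : ℤ) ≤ (R + 1 - x.2).toNat := Int.self_le_toNat _
    have h2 : R < x.2 + ((R + 1 - x.2).toNat : ℤ) := by omega
    exact lt_of_lt_of_le h2 (le_abs_self _)
  · exact key x hx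

/-- every vertex off `D` is the origin of a lattice ray which does not meet `D` -/
def Ray (D : Finset (ℤ × ℤ)) : Prop :=
  ∀ x, x ∉ D → ∃ e : ℤ × ℤ, Adj 0 e ∧ ∀ k : ℕ, (x.1 + k * e.1, x.2 + k * e.2) ∉ D

theorem adj_zero {e : ℤ × ℤ} : Adj 0 e ↔ e = (1, 0) ∨ e = (-1, 0) ∨ e = (0, 1) ∨ e = (0, -1) ∨
    e = (1, -1) ∨ e = (-1, 1) := by
  rw [Fv.adj_iff]
  simp only [Prod.fst_zero, zero_add, Prod.snd_zero, zero_sub, Prod.ext_iff]

theorem adj_ray (x e : ℤ × ℤ) (he : Adj 0 e) (k : ℕ) :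
    Adj (x.1 + k * e.1, x.2 + k * e.2) (x.1 + (k + 1 : ℕ) * e.1, x.2 + (k + 1 : ℕ) * e.2) := by
  rw [Fv.adj_iff]
  rw [Fv.adj_iff] at he
  push_cast
  simp only [Prod.fst_zero, zero_add, Prod.snd_zero, zero_sub] at he
  rcases he with ⟨h1, h2⟩ | ⟨h1, h2⟩ | ⟨h1, h2⟩ | ⟨h1, h2⟩ | ⟨h1, h2⟩ | ⟨h1, h2⟩ <;>
    rw [h1, h2] <;> ring_nf <;> simp

theorem ray_far (x e : ℤ × ℤ) (he : Adj 0 e) (R : ℤ) :
    ∃ k : ℕ, R < |x.1 + k * e.1| ∨ R < |x.2 + k * e.2| := by
  refine ⟨(|R| + |x.1| + |x.2| + 1).toNat, ?_⟩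
  have h0 : (0 : ℤ) ≤ |R| + |x.1| + |x.2| + 1 := by (clear * -; positivity)
  rw [Int.toNat_of_nonneg h0]
  have a1 := le_abs_self R
  have a2 := neg_abs_le x.1
  have a3 := le_abs_self x.1
  have a4 := neg_abs_le x.2
  have a5 := le_abs_self x.2
  rcases adj_zero.1 he with rfl | rfl | rfl | rfl | rfl | rfl <;> simp only [lt_abs] <;> omega

/-- the potential vanishes off `D` if the cochain vanishes on the edges off `D` -/
theorem Coch.pot_off (h : Coch η R) {D : Finset (ℤ × ℤ)} (hD : Ray D)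
    (h0 : ∀ x y, Adj x y → x ∉ D → y ∉ D → η x y = 0) {x : ℤ × ℤ} (hx : x ∉ D) :
    pot η R x = 0 := by
  obtain ⟨e, he, hk⟩ := hD x hx
  have key : ∀ k : ℕ, pot η R (x.1 + k * e.1, x.2 + k * e.2) = pot η R x := by
    intro k
    induction k with
    | zero => simp
    | succ k ih =>
      have h1 := h.sub (adj_ray x e he k)
      rw [h0 _ _ (adj_ray x e he k) (hk k) (hk (k + 1)), sub_eq_zero] at h1
      rw [← h1, ih]
  obtain ⟨k, hk2⟩ := ray_far x e he R
  rw [← key k]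
  exact h.pot_far hk2

/-- two functions which differ by constants on edges and agree far away are equal -/
theorem eq_of_sub {f g : ℤ × ℤ → G} (h : ∀ x y, Adj x y → f x - f y = g x - g y)
    (h0 : ∀ x : ℤ × ℤ, R < |x.1| → f x = g x) : f = g := by
  funext x
  have key : ∀ k : ℕ, f (x.1 + k, x.2) - f x = g (x.1 + k, x.2) - g x := by
    intro k
    induction k with
    | zero => simp
    | succ k ih =>
      have h1 := h _ _ (adj_e1 (x.1 + k, x.2))
      simp only at h1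
      push_cast
      rw [← add_assoc]
      have h2 : f (x.1 + k + 1, x.2) - f x =
          (f (x.1 + k, x.2) - f x) - (f (x.1 + k, x.2) - f (x.1 + k + 1, x.2)) := by abel
      have h3 : g (x.1 + k + 1, x.2) - g x =
          (g (x.1 + k, x.2) - g x) - (g (x.1 + k, x.2) - g (x.1 + k + 1, x.2)) := by abel
      rw [h2, h3, ih, h1]
  have h1 := key (|R| + |x.1| + 1).toNat
  have h2 := h0 (x.1 + ((|R| + |x.1| + 1).toNat : ℤ), x.2) (by
    have h0 : (0 : ℤ) ≤ |R| + |x.1| + 1 := by (clear * -; positivity)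
    rw [Int.toNat_of_nonneg h0]
    have a1 := le_abs_self R
    have a2 := neg_abs_le x.1
    simp only [lt_abs]
    omega)
  rw [h2] at h1
  exact sub_right_injective h1

end Vale.Agent.P153.Tau
end

section

/-!
# P153, L1: the weight of the spin `τ` is log-supermodular (linear algebra over `F₂`)

`G D A` = the spins `σ` (values in `ZMod 2`, zero off `D`) which do not disagree on the edges
between `A` and its complement, `A = {τ = +}`.
-/

namespace Vale.Agent.P153.L1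

open Finset Vale.Agent.P153 Vale.Agent.P153.Tau

/-- the spins `σ` supported in `D` which are compatible with `A = {τ = +}` -/
def G (D : Finset (ℤ × ℤ)) (A : Set (ℤ × ℤ)) : Submodule (ZMod 2) (ℤ × ℤ → ZMod 2) where
  carrier := {s | (∀ x, x ∉ D → s x = 0) ∧ ∀ x y, Adj x y → ¬ (x ∈ A ↔ y ∈ A) → s x = s y}
  add_mem' := by
    rintro s t ⟨h1, h2⟩ ⟨h3, h4⟩
    exact ⟨fun x hx => by rw [Pi.add_apply, h1 x hx, h3 x hx, add_zero],
      fun x y hxy hA => by rw [Pi.add_apply, Pi.add_apply, h2 x y hxy hA, h4 x y hxy hA]⟩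
  zero_mem' := ⟨fun _ _ => rfl, fun _ _ _ _ => rfl⟩
  smul_mem' := by
    rintro c s ⟨h1, h2⟩
    exact ⟨fun x hx => by rw [Pi.smul_apply, h1 x hx, smul_zero],
      fun x y hxy hA => by rw [Pi.smul_apply, Pi.smul_apply, h2 x y hxy hA]⟩

/-- the number of compatible spins `σ` -/
noncomputable def w (D : Finset (ℤ × ℤ)) (A : Set (ℤ × ℤ)) : ℕ := Nat.card (G D A)

/-- functions supported in `D` whose coboundary lives on the edges inside `X` -/
def L (D : Finset (ℤ × ℤ)) (X : Set (ℤ × ℤ)) : Submodule (ZMod 2) (ℤ × ℤ → ZMod 2) where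
  carrier := {s | (∀ x, x ∉ D → s x = 0) ∧ ∀ x y, Adj x y → ¬ (x ∈ X ∧ y ∈ X) → s x = s y}
  add_mem' := by
    rintro s t ⟨h1, h2⟩ ⟨h3, h4⟩
    exact ⟨fun x hx => by rw [Pi.add_apply, h1 x hx, h3 x hx, add_zero],
      fun x y hxy hA => by rw [Pi.add_apply, Pi.add_apply, h2 x y hxy hA, h4 x y hxy hA]⟩
  zero_mem' := ⟨fun _ _ => rfl, fun _ _ _ _ => rfl⟩
  smul_mem' := by
    rintro c s ⟨h1, h2⟩
    exact ⟨fun x hx => by rw [Pi.smul_apply, h1 x hx, smul_zero],
      fun x y hxy hA => by rw [Pi.smul_apply, Pi.smul_apply, h2 x y hxy hA]⟩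

theorem mem_L {D : Finset (ℤ × ℤ)} {X : Set (ℤ × ℤ)} {s : ℤ × ℤ → ZMod 2} :
    s ∈ L D X ↔ (∀ x, x ∉ D → s x = 0) ∧ ∀ x y, Adj x y → ¬ (x ∈ X ∧ y ∈ X) → s x = s y :=
  Iff.rfl

variable {D : Finset (ℤ × ℤ)} {A B : Set (ℤ × ℤ)}

/-- functions supported in `D` -/
theorem finite_supp (D : Finset (ℤ × ℤ)) : {s : ℤ × ℤ → ZMod 2 | ∀ x, x ∉ D → s x = 0}.Finite := by
  classical
  apply Set.Finite.of_finite_image (f := fun s : ℤ × ℤ → ZMod 2 => fun x : D => s x)
  · exact Set.toFinite _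
  · intro s hs t ht hst
    funext x
    by_cases hx : x ∈ D
    · exact congrFun hst ⟨x, hx⟩
    · rw [hs x hx, ht x hx]

instance (D : Finset (ℤ × ℤ)) (A : Set (ℤ × ℤ)) : Finite (G D A) :=
  ((finite_supp D).subset fun _ hs => hs.1).to_subtype

instance (D : Finset (ℤ × ℤ)) (A : Set (ℤ × ℤ)) : Finite (L D A) :=
  ((finite_supp D).subset fun _ hs => hs.1).to_subtype

theorem L_le_G : L D A ≤ G D A := by
  rintro s ⟨h1, h2⟩
  exact ⟨h1, fun x y hxy hA => h2 x y hxy fun h => hA ⟨fun _ => h.2, fun _ => h.1⟩⟩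

theorem L_le_G' : L D Aᶜ ≤ G D A := by
  rintro s ⟨h1, h2⟩
  refine ⟨h1, fun x y hxy hA => h2 x y hxy fun h => hA ⟨fun h' => absurd h' h.1,
    fun h' => absurd h' h.2⟩⟩

theorem inf_eq : L D A ⊓ L D B = L D (A ∩ B) := by
  ext s
  rw [Submodule.mem_inf, mem_L, mem_L, mem_L]
  constructor
  · rintro ⟨⟨h1, h2⟩, -, h4⟩
    refine ⟨h1, fun x y hxy h => ?_⟩
    by_cases hA : x ∈ A ∧ y ∈ A
    · exact h4 x y hxy fun hB => h ⟨⟨hA.1, hB.1⟩, ⟨hA.2, hB.2⟩⟩
    · exact h2 x y hxy hA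
  · rintro ⟨h1, h2⟩
    exact ⟨⟨h1, fun x y hxy h => h2 x y hxy fun h' => h ⟨h'.1.1, h'.2.1⟩⟩,
      h1, fun x y hxy h => h2 x y hxy fun h' => h ⟨h'.1.2, h'.2.2⟩⟩

theorem sup_le_union : L D A ⊔ L D B ≤ L D (A ∪ B) := by
  refine sup_le ?_ ?_
  · rintro s ⟨h1, h2⟩
    exact ⟨h1, fun x y hxy h => h2 x y hxy fun h' => h ⟨Or.inl h'.1, Or.inl h'.2⟩⟩
  · rintro s ⟨h1, h2⟩
    exact ⟨h1, fun x y hxy h => h2 x y hxy fun h' => h ⟨Or.inr h'.1, Or.inr h'.2⟩⟩

/-- a bound for the coordinates of `D` -/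
theorem exists_box (D : Finset (ℤ × ℤ)) : ∃ R : ℤ, ∀ x ∈ D, |x.1| ≤ R ∧ |x.2| ≤ R := by
  classical
  refine ⟨∑ x ∈ D, (|x.1| + |x.2|), fun x hx => ?_⟩
  have h1 : |x.1| + |x.2| ≤ ∑ x ∈ D, (|x.1| + |x.2|) :=
    Finset.single_le_sum (f := fun x : ℤ × ℤ => |x.1| + |x.2|) (fun y _ => by positivity) hx
  have h2 := abs_nonneg x.1
  have h3 := abs_nonneg x.2
  constructor <;> linarith only [h1, h2, h3]

theorem inf_bot : L D A ⊓ L D Aᶜ = ⊥ := by
  rw [inf_eq, Set.inter_compl_self, eq_bot_iff]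
  rintro s ⟨h1, h2⟩
  rw [Submodule.mem_bot]
  obtain ⟨R, hR⟩ := exists_box D
  refine eq_of_sub (R := R) (fun x y hxy => ?_) fun x hx => ?_
  · rw [h2 x y hxy fun h => h.1, sub_self]
    simp
  · exact h1 x fun hxD => absurd (hR x hxD).1 (not_le.2 hx)

open Classical in
/-- the part of the coboundary of `s` on the edges inside `A` -/
noncomputable def eta (A : Set (ℤ × ℤ)) (s : ℤ × ℤ → ZMod 2) (x y : ℤ × ℤ) : ZMod 2 :=
  if x ∈ A ∧ y ∈ A then s x - s y else 0

theorem coch_eta {s : ℤ × ℤ → ZMod 2} (hs : s ∈ G D A) {R : ℤ}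
    (hR : ∀ x ∈ D, |x.1| ≤ R ∧ |x.2| ≤ R) : Coch (eta A s) (R + 1) := by
  classical
  obtain ⟨h1, h2⟩ := hs
  refine ⟨?_, ?_, ?_⟩
  · intro x y _
    unfold eta
    by_cases h : x ∈ A ∧ y ∈ A
    · rw [if_pos h, if_pos ⟨h.2, h.1⟩]
      ring
    · rw [if_neg h, if_neg (fun h' => h ⟨h'.2, h'.1⟩), neg_zero]
  · intro x y z hxy hyz hxz
    unfold eta
    by_cases hx : x ∈ A <;> by_cases hy : y ∈ A <;> by_cases hz : z ∈ A
    · simp [hx, hy, hz]
    · have e1 := h2 x z hxz (by (clear * - hz hx; tauto))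
      have e2 := h2 y z hyz (by (clear * - hz hy; tauto))
      simp only [hx, hy, and_self, ↓reduceIte, e1, e2, sub_self, hz, and_false, add_zero]
    · have e1 := h2 x y hxy (by (clear * - hy hx; tauto))
      have e2 := h2 y z hyz (by (clear * - hy hz; tauto))
      simp [hx, hy, hz, e1, e2]
    · simp [hx, hy, hz]
    · have e1 := h2 x y hxy (by (clear * - hx hy; tauto))
      have e2 := h2 x z hxz (by (clear * - hx hz; tauto))
      simp [hx, hy, hz, ← e1, ← e2]
    · simp [hx, hy, hz]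
    · simp [hx, hy, hz]
    · simp [hx, hy, hz]
  · intro x y hxy hx
    have h3 : x ∉ D := by
      intro hxD
      have := hR x hxD
      omega
    have h4 : y ∉ D := by
      intro hyD
      have := hR y hyD
      rw [Fv.adj_iff] at hxy
      rcases hx with hx | hx
      · have h5 : |x.1| ≤ |y.1| + 1 := by
          have h6 : |x.1 - y.1| ≤ 1 := by rw [abs_le]; omega
          have h7 := abs_sub_abs_le_abs_sub x.1 y.1
          linarith only [h6, h7]
        omega
      · have h5 : |x.2| ≤ |y.2| + 1 := by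
          have h6 : |x.2 - y.2| ≤ 1 := by rw [abs_le]; omega
          have h7 := abs_sub_abs_le_abs_sub x.2 y.2
          linarith only [h6, h7]
        omega
    unfold eta
    rw [h1 x h3, h1 y h4, sub_self, ite_self]

theorem sup_eq (hD : Ray D) : L D A ⊔ L D Aᶜ = G D A := by
  classical
  apply le_antisymm (sup_le L_le_G L_le_G')
  intro s hs
  obtain ⟨R, hR⟩ := exists_box D
  have hc := coch_eta hs hR
  set p := pot (eta A s) (R + 1) with hp
  have hp1 : p ∈ L D A := by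
    refine ⟨fun x hx => hc.pot_off hD (fun x y _ hxD hyD => ?_) hx, fun x y hxy h => ?_⟩
    · unfold eta
      rw [hs.1 x hxD, hs.1 y hyD, sub_self, ite_self]
    · have h1 := hc.sub hxy
      rw [eta, if_neg h, sub_eq_zero] at h1
      exact h1
  have hp2 : s - p ∈ L D Aᶜ := by
    refine ⟨fun x hx => by rw [Pi.sub_apply, hs.1 x hx, hp1.1 x hx, sub_zero],
      fun x y hxy h => ?_⟩
    rw [Pi.sub_apply, Pi.sub_apply]
    have h1 := hc.sub hxy
    by_cases hA : x ∈ A ∧ y ∈ A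
    · rw [eta, if_pos hA] at h1
      linear_combination -h1
    · rw [eta, if_neg hA] at h1
      have h2 : s x = s y := by
        refine hs.2 x y hxy fun hiff => ?_
        by_cases hx : x ∈ A
        · exact hA ⟨hx, hiff.1 hx⟩
        · exact h ⟨hx, fun hy => hx (hiff.2 hy)⟩
      rw [h2]
      linear_combination -h1
  have : s = p + (s - p) := by abel
  rw [this]
  exact Submodule.add_mem_sup hp1 hp2

/-- cardinality of sum and intersection -/
theorem card_sup_inf {M : Type*} [AddCommGroup M] [Module (ZMod 2) M] (P Q : Submodule (ZMod 2) M)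
    [Finite P] [Finite Q] :
    Nat.card P * Nat.card Q = Nat.card (P ⊔ Q : Submodule (ZMod 2) M) *
      Nat.card (P ⊓ Q : Submodule (ZMod 2) M) := by
  have : Fact (Nat.Prime 2) := ⟨Nat.prime_two⟩
  have : Module.Finite (ZMod 2) P := Module.Finite.of_finite
  have : Module.Finite (ZMod 2) Q := Module.Finite.of_finite
  have : Finite (P ⊓ Q : Submodule (ZMod 2) M) :=
    Finite.of_injective (Submodule.inclusion (inf_le_left : P ⊓ Q ≤ P))
      (Submodule.inclusion_injective _)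
  have : Module.Finite (ZMod 2) (P ⊔ Q : Submodule (ZMod 2) M) := inferInstance
  have : Module.Finite (ZMod 2) (P ⊓ Q : Submodule (ZMod 2) M) := Module.Finite.of_finite
  rw [Module.natCard_eq_pow_finrank (K := ZMod 2) (V := P),
    Module.natCard_eq_pow_finrank (K := ZMod 2) (V := Q),
    Module.natCard_eq_pow_finrank (K := ZMod 2) (V := (P ⊔ Q : Submodule (ZMod 2) M)),
    Module.natCard_eq_pow_finrank (K := ZMod 2) (V := (P ⊓ Q : Submodule (ZMod 2) M)),
    ← pow_add, ← pow_add, Submodule.finrank_sup_add_finrank_inf_eq]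

theorem card_le {P Q : Submodule (ZMod 2) (ℤ × ℤ → ZMod 2)} [Finite Q] (h : P ≤ Q) :
    Nat.card P ≤ Nat.card Q :=
  Nat.card_le_card_of_injective (Submodule.inclusion h) (Submodule.inclusion_injective h)

theorem w_eq (hD : Ray D) (A : Set (ℤ × ℤ)) : w D A = Nat.card (L D A) * Nat.card (L D Aᶜ) := by
  rw [card_sup_inf, sup_eq hD, inf_bot, w]
  simp only [Submodule.mem_bot, Nat.card_eq_fintype_card, Fintype.card_unique, mul_one]

theorem card_L_mul (A B : Set (ℤ × ℤ)) :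
    Nat.card (L D A) * Nat.card (L D B) ≤ Nat.card (L D (A ∪ B)) * Nat.card (L D (A ∩ B)) := by
  rw [card_sup_inf, inf_eq]
  exact Nat.mul_le_mul_right _ (card_le sup_le_union)

/-- supermodularity for regions with rays -/
theorem w_mul_le_of_ray (hD : Ray D) (A B : Set (ℤ × ℤ)) :
    w D A * w D B ≤ w D (A ∪ B) * w D (A ∩ B) := by
  rw [w_eq hD, w_eq hD, w_eq hD, w_eq hD]
  have h1 := card_L_mul (D := D) A B
  have h2 := card_L_mul (D := D) Aᶜ Bᶜ
  rw [← Set.compl_inter, ← Set.compl_union] at h2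
  calc Nat.card (L D A) * Nat.card (L D Aᶜ) * (Nat.card (L D B) * Nat.card (L D Bᶜ))
      = (Nat.card (L D A) * Nat.card (L D B)) * (Nat.card (L D Aᶜ) * Nat.card (L D Bᶜ)) := by ring
    _ ≤ (Nat.card (L D (A ∪ B)) * Nat.card (L D (A ∩ B))) *
        (Nat.card (L D (A ∩ B)ᶜ) * Nat.card (L D (A ∪ B)ᶜ)) := Nat.mul_le_mul h1 h2
    _ = _ := by ring

/-! ### Arbitrary finite regions -/

/-- extension by the free spins of `X \ D` -/
theorem card_mul {D X : Finset (ℤ × ℤ)} (hDX : D ⊆ X) (hA : ∀ x, x ∉ A → x ∈ D)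
    (hA' : ∀ x, x ∉ A → ∀ y, Adj x y → y ∈ D) :
    w X A = w D A * Nat.card {t : ℤ × ℤ → ZMod 2 // ∀ x, x ∉ X \ D → t x = 0} := by
  classical
  rw [w, w, ← Nat.card_prod]
  have key : ∀ x y, Adj x y → ¬ (x ∈ A ↔ y ∈ A) → x ∈ D ∧ y ∈ D := by
    intro x y hxy h
    by_cases hx : x ∈ A
    · have hy : y ∉ A := fun hy => h ⟨fun _ => hy, fun _ => hx⟩
      exact ⟨hA' y hy x (Fv.adj_comm'.1 hxy), hA y hy⟩
    · exact ⟨hA x hx, hA' x hx y hxy⟩
  refine Nat.card_congr
    { toFun := fun s => (⟨fun x => if x ∈ D then s.1 x else 0, ?_, ?_⟩,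
        ⟨fun x => if x ∈ D then 0 else s.1 x, ?_⟩)
      invFun := fun p => ⟨fun x => if x ∈ D then p.1.1 x else p.2.1 x, ?_, ?_⟩
      left_inv := ?_
      right_inv := ?_ }
  · intro x hx
    simp only [if_neg hx]
  · intro x y hxy h
    obtain ⟨hx, hy⟩ := key x y hxy h
    simp only [if_pos hx, if_pos hy]
    exact s.2.2 x y hxy h
  · intro x hx
    by_cases hxD : x ∈ D
    · simp only [if_pos hxD]
    · simp only [if_neg hxD]
      exact s.2.1 x fun hxX => hx (Finset.mem_sdiff.2 ⟨hxX, hxD⟩)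
  · intro x hx
    have hxD : x ∉ D := fun h => hx (hDX h)
    simp only [if_neg hxD]
    exact p.2.2 x fun h => hx (Finset.mem_sdiff.1 h).1
  · intro x y hxy h
    obtain ⟨hx, hy⟩ := key x y hxy h
    simp only [if_pos hx, if_pos hy]
    exact p.1.2.2 x y hxy h
  · intro s
    apply Subtype.ext
    funext x
    by_cases hx : x ∈ D <;> simp [hx]
  · rintro ⟨⟨s, hs⟩, ⟨t, ht⟩⟩
    apply Prod.ext
    · apply Subtype.ext
      funext x
      by_cases hx : x ∈ D
      · simp [hx]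
      · simp [hx, hs.1 x hx]
    · apply Subtype.ext
      funext x
      by_cases hx : x ∈ D
      · have := ht x (by simp [hx])
        simp [hx, this]
      · simp [hx]

/-- every finite set is contained in a region with rays -/
theorem exists_ray (D : Finset (ℤ × ℤ)) : ∃ X, D ⊆ X ∧ Ray X := by
  obtain ⟨R, hR⟩ := exists_box D
  refine ⟨Finset.Icc (-R) R ×ˢ Finset.Icc (-R) R, fun x hx => ?_, fun x hx => ?_⟩
  · have h := hR x hx
    rw [abs_le, abs_le] at h
    simp only [Finset.mem_product, Finset.mem_Icc]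
    exact h
  · simp only [Finset.mem_product, Finset.mem_Icc] at hx
    have h4 : x.1 < -R ∨ R < x.1 ∨ x.2 < -R ∨ R < x.2 := by omega
    rcases h4 with h | h | h | h
    · refine ⟨(-1, 0), adj_zero.2 (by simp), fun k => ?_⟩
      simp only [Finset.mem_product, Finset.mem_Icc]
      omega
    · refine ⟨(1, 0), adj_zero.2 (by simp only [Int.reduceNeg, Prod.mk.injEq, reduceCtorEq, and_true, one_ne_zero, zero_ne_one, and_self, zero_eq_neg, and_false, or_self, or_false]), fun k => ?_⟩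
      simp only [Finset.mem_product, Finset.mem_Icc]
      omega
    · refine ⟨(0, -1), adj_zero.2 (by simp only [Int.reduceNeg, Prod.mk.injEq, zero_ne_one, neg_eq_zero, one_ne_zero, and_self, zero_eq_neg, reduceCtorEq, and_false, and_true, or_self, or_false, or_true]), fun k => ?_⟩
      simp only [Finset.mem_product, Finset.mem_Icc]
      omega
    · refine ⟨(0, 1), adj_zero.2 (by simp only [Prod.mk.injEq, zero_ne_one, one_ne_zero, and_self, Int.reduceNeg, zero_eq_neg, reduceCtorEq, and_false, and_true, or_self, or_false, or_true]), fun k => ?_⟩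
      simp only [Finset.mem_product, Finset.mem_Icc]
      omega

/-- supermodularity for arbitrary finite regions: `A` and `B` contain everything off the interior
of `D` -/
theorem w_mul_le {D : Finset (ℤ × ℤ)} {A B : Set (ℤ × ℤ)} (hA : ∀ x, x ∉ A → x ∈ D)
    (hA' : ∀ x, x ∉ A → ∀ y, Adj x y → y ∈ D) (hB : ∀ x, x ∉ B → x ∈ D)
    (hB' : ∀ x, x ∉ B → ∀ y, Adj x y → y ∈ D) :
    w D A * w D B ≤ w D (A ∪ B) * w D (A ∩ B) := by
  obtain ⟨X, hDX, hX⟩ := exists_ray D
  have h1 := w_mul_le_of_ray hX A B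
  have hU : ∀ x, x ∉ A ∪ B → x ∈ D := fun x hx => hA x fun h => hx (Or.inl h)
  have hU' : ∀ x, x ∉ A ∪ B → ∀ y, Adj x y → y ∈ D := fun x hx => hA' x fun h => hx (Or.inl h)
  have hI : ∀ x, x ∉ A ∩ B → x ∈ D := fun x hx => by
    by_cases h : x ∈ A
    · exact hB x fun h' => hx ⟨h, h'⟩
    · exact hA x h
  have hI' : ∀ x, x ∉ A ∩ B → ∀ y, Adj x y → y ∈ D := fun x hx => by
    by_cases h : x ∈ A
    · exact hB' x fun h' => hx ⟨h, h'⟩
    · exact hA' x h
  rw [card_mul hDX hA hA', card_mul hDX hB hB', card_mul hDX hU hU', card_mul hDX hI hI'] at h1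
  have hfin : Finite {t : ℤ × ℤ → ZMod 2 // ∀ x, x ∉ X \ D → t x = 0} :=
    (finite_supp (X \ D)).to_subtype
  have hne : Nonempty {t : ℤ × ℤ → ZMod 2 // ∀ x, x ∉ X \ D → t x = 0} := ⟨⟨0, fun _ _ => rfl⟩⟩
  have hc : 0 < Nat.card {t : ℤ × ℤ → ZMod 2 // ∀ x, x ∉ X \ D → t x = 0} := Nat.card_pos
  set c := Nat.card {t : ℤ × ℤ → ZMod 2 // ∀ x, x ∉ X \ D → t x = 0}
  have h2 : (w D A * w D B) * (c * c) ≤ (w D (A ∪ B) * w D (A ∩ B)) * (c * c) := by
    calc (w D A * w D B) * (c * c) = w D A * c * (w D B * c) := by ring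
      _ ≤ w D (A ∪ B) * c * (w D (A ∩ B) * c) := h1
      _ = _ := by ring
  exact Nat.le_of_mul_le_mul_right h2 (Nat.mul_pos hc hc)

end Vale.Agent.P153.L1
end

section

/-!
# P153, (1): supermodularity of the weight of tau
-/

namespace Vale.Agent.P153.A

open Vale.Agent.P153.GFF (Adj)

/-- a spin as a function with values in `ZMod 2` -/
def toZ (s : Sp) : ℤ × ℤ → ZMod 2 := fun x => if s x then 1 else 0

theorem w_eq_L1 (D : Finset Pt) (τ : Sp) : w D τ = L1.w D {x | τ x = true} := by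
  classical
  rw [w, L1.w]
  have hA : ∀ x y : Pt, ¬ (x ∈ {x : Pt | τ x = true} ↔ y ∈ {x : Pt | τ x = true}) ↔ τ x ≠ τ y := by
    intro x y
    simp only [Set.mem_setOf_eq]
    cases τ x <;> cases τ y <;> simp
  refine Nat.card_congr
    { toFun := fun s => ⟨toZ s.1, ?_, ?_⟩
      invFun := fun s => ⟨fun x => decide (s.1 x = 1), ?_, ?_⟩
      left_inv := ?_
      right_inv := ?_ }
  · intro x hx
    have := s.2.1 x hx
    simp [toZ, this]
  · intro x y hxy h
    have := s.2.2 x y hxy ((hA x y).1 h)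
    simp [toZ, this]
  · intro x hx
    have := s.2.1 x hx
    simp [this]
  · intro x y hxy h
    have := s.2.2 x y hxy ((hA x y).2 h)
    simp [this]
  · intro s
    apply Subtype.ext
    funext x
    show decide (toZ s.1 x = 1) = s.1 x
    unfold toZ
    cases s.1 x <;> simp
  · intro s
    apply Subtype.ext
    funext x
    show toZ (fun x => decide (s.1 x = 1)) x = s.1 x
    unfold toZ
    have h2 : ∀ a : ZMod 2, (if (decide (a = 1)) = true then (1 : ZMod 2) else 0) = a := by decide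
    exact h2 _

theorem s_super : S_super := by
  intro D τ τ' hτ hτ'
  rw [w_eq_L1, w_eq_L1, w_eq_L1, w_eq_L1]
  have h1 : ∀ σ ∈ Adm D, ∀ x, x ∉ {x : Pt | σ x = true} → x ∈ inn D := by
    intro σ hσ x hx
    by_contra h
    exact hx (hσ x h)
  have h2 : {x : Pt | (τ ⊔ τ') x = true} = {x | τ x = true} ∪ {x | τ' x = true} := by
    ext x
    simp only [Set.mem_setOf_eq, Set.mem_union, Pi.sup_apply]
    cases τ x <;> cases τ' x <;> simp
  have h3 : {x : Pt | (τ ⊓ τ') x = true} = {x | τ x = true} ∩ {x | τ' x = true} := by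
    ext x
    simp only [Set.mem_setOf_eq, Set.mem_inter_iff, Pi.inf_apply]
    cases τ x <;> cases τ' x <;> simp
  rw [h2, h3]
  exact L1.w_mul_le (fun x hx => (h1 τ hτ x hx).1) (fun x hx => (h1 τ hτ x hx).2)
    (fun x hx => (h1 τ' hτ' x hx).1) (fun x hx => (h1 τ' hτ' x hx).2)

end Vale.Agent.P153.A
end

section

/-!
P153, block A3, leaf (18): symmetries of the limit measure.
-/

namespace Vale.Agent.P153.A

open MeasureTheory Filter Topology
open Vale.Agent.P153.GFF (Adj)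

/-- Two probability measures with the same integrals of local functions are equal. -/
theorem sym_ext {X : Type} [MeasurableSpace X] {μ ν : Measure (Pt → X)} [IsProbabilityMeasure μ]
    [IsProbabilityMeasure ν]
    (h : ∀ (B : Finset Pt) (F : (Pt → X) → ℝ), Loc B F → Measurable F →
      ∫ ω, F ω ∂μ = ∫ ω, F ω ∂ν) : μ = ν := by
  refine ext_of_generate_finite (measurableCylinders fun _ : Pt => X)
    generateFrom_measurableCylinders.symm isPiSystem_measurableCylinders (fun S hS => ?_)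
    (by simp)
  obtain ⟨s, T, hT, rfl⟩ := (mem_measurableCylinders _).1 hS
  have hm : MeasurableSet (cylinder s T : Set (Pt → X)) := hT.cylinder
  have h1 := h s ((cylinder s T : Set (Pt → X)).indicator fun _ => (1 : ℝ))
    (fun ω ω' hω => by
      have e : (ω ∈ (cylinder s T : Set (Pt → X))) ↔ ω' ∈ (cylinder s T : Set (Pt → X)) := by
        rw [mem_cylinder, mem_cylinder]
        have : s.restrict ω = s.restrict ω' := funext fun x => hω x.1 x.2
        rw [this]
      by_cases h2 : ω ∈ (cylinder s T : Set (Pt → X))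
      · rw [Set.indicator_of_mem h2, Set.indicator_of_mem (e.1 h2)]
      · rw [Set.indicator_of_notMem h2, Set.indicator_of_notMem (fun h3 => h2 (e.2 h3))])
    (measurable_const.indicator hm)
  rw [integral_indicator_const _ hm, integral_indicator_const _ hm, smul_eq_mul, smul_eq_mul,
    mul_one, mul_one] at h1
  exact (measureReal_eq_measureReal_iff (by finiteness) (by finiteness)).1 h1

theorem sym_E2 {D D' : Finset Pt} {T : Om → Om} (h : Set.BijOn T (Cf D) (Cf D')) (F : Om → ℝ) :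
    E2 D (fun ω => F (T ω)) = E2 D' F := by
  unfold E2
  rw [finsum_mem_eq_of_bijOn T h (fun _ _ => rfl), ← h.image_eq,
    Set.ncard_image_of_injOn h.injOn]

/-- automorphisms of the lattice -/
theorem sym_bij {θ : Pt ≃ Pt} (hθ : ∀ v u, Adj v u ↔ Adj (θ v) (θ u)) (D : Finset Pt) :
    Set.BijOn (fun (ω : Om) x => ω (θ x)) (Cf D) (Cf (D.image θ.symm)) := by
  have hD : ∀ x, x ∈ D.image θ.symm ↔ θ x ∈ D := by
    intro x
    rw [Finset.mem_image]
    constructor
    · rintro ⟨y, hy, rfl⟩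
      rwa [θ.apply_symm_apply]
    · intro h
      exact ⟨θ x, h, θ.symm_apply_apply x⟩
  have hi : ∀ x, x ∈ inn (D.image θ.symm) ↔ θ x ∈ inn D := by
    intro x
    unfold inn
    rw [Set.mem_setOf_eq, Set.mem_setOf_eq, hD]
    refine and_congr_right fun _ => ⟨fun h w hw => ?_, fun h w hw => ?_⟩
    · have h1 := h (θ.symm w) ((hθ _ _).2 (by rwa [θ.apply_symm_apply]))
      rwa [hD, θ.apply_symm_apply] at h1
    · rw [hD]
      exact h _ ((hθ _ _).1 hw)
  have hC : ∀ ω : Om, (fun x => ω (θ x)) ∈ Cf (D.image θ.symm) ↔ ω ∈ Cf D := by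
    intro ω
    unfold Cf Comp
    simp only [Set.mem_setOf_eq, hD, hi]
    refine and_congr ⟨fun h x y hxy => ?_, fun h x y hxy => h _ _ ((hθ _ _).1 hxy)⟩
      (and_congr ⟨fun h x hx => ?_, fun h x hx => h _ hx⟩ ⟨fun h x hx => ?_, fun h x hx => h _ hx⟩)
    · have := h (θ.symm x) (θ.symm y) ((hθ _ _).2 (by
        rwa [θ.apply_symm_apply, θ.apply_symm_apply]))
      rwa [θ.apply_symm_apply, θ.apply_symm_apply] at this
    · have := h (θ.symm x) (by rwa [θ.apply_symm_apply])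
      rwa [θ.apply_symm_apply] at this
    · have := h (θ.symm x) (by rwa [θ.apply_symm_apply])
      rwa [θ.apply_symm_apply] at this
  refine ⟨fun ω hω => (hC ω).2 hω, fun ω _ ω' _ h => ?_, fun ω' hω' => ?_⟩
  · funext x
    have := congrFun h (θ.symm x)
    simpa using this
  · refine ⟨fun x => ω' (θ.symm x), ?_, ?_⟩
    · rw [← hC]
      simpa using hω'
    · funext x
      simp

/-- flip sigma on `D` -/
def negOn (D : Finset Pt) (ω : Om) : Om := fun x =>
  ((ω x).1, if x ∈ D then !(ω x).2 else (ω x).2)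

theorem negOn_negOn (D : Finset Pt) (ω : Om) : negOn D (negOn D ω) = ω := by
  funext x
  unfold negOn
  by_cases h : x ∈ D <;> simp [h]

theorem negOn_mem {D : Finset Pt} {ω : Om} (h : ω ∈ Cf D) : negOn D ω ∈ Cf D := by
  obtain ⟨h1, h2, h3⟩ := h
  have hbd : ∀ x y, Adj x y → x ∈ D → y ∉ D → (ω x).1 = true ∧ (ω y).1 = true := by
    intro x y hxy hx hy
    exact ⟨h2 x fun h => hy (h.2 y hxy), h2 y fun h => hy h.1⟩
  have hsymm : ∀ x y, Adj x y → Adj y x := by
    intro x y hxy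
    unfold Adj at hxy ⊢
    simp only [Set.mem_insert_iff, Set.mem_singleton_iff, Prod.mk.injEq] at hxy ⊢
    omega
  refine ⟨fun x y hxy => ?_, fun x hx => h2 x hx, fun x hx => ?_⟩
  · unfold negOn
    by_cases hx : x ∈ D
    · by_cases hy : y ∈ D
      · rcases h1 x y hxy with h | h
        · exact Or.inl h
        · right
          simp [hx, hy, h]
      · left
        rw [(hbd x y hxy hx hy).1, (hbd x y hxy hx hy).2]
    · by_cases hy : y ∈ D
      · left
        have := hbd y x (hsymm x y hxy) hy hx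
        rw [this.1, this.2]
      · rcases h1 x y hxy with h | h
        · exact Or.inl h
        · right
          simp [hx, hy, h]
  · unfold negOn
    simp [hx, h3 x hx]

theorem negOn_bij (D : Finset Pt) : Set.BijOn (negOn D) (Cf D) (Cf D) :=
  ⟨fun _ h => negOn_mem h, fun ω _ ω' _ h => by
    rw [← negOn_negOn D ω, h, negOn_negOn], fun ω h => ⟨negOn D ω, negOn_mem h, negOn_negOn D ω⟩⟩

theorem sym_tendsto (θ : Pt ≃ Pt) :
    Tendsto (fun D : Finset Pt => D.image θ.symm) atTop atTop := by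
  refine tendsto_atTop_atTop.2 fun B => ⟨B.image θ, fun D hD x hx => ?_⟩
  rw [Finset.mem_image]
  exact ⟨θ x, hD (Finset.mem_image_of_mem _ hx), θ.symm_apply_apply x⟩

theorem s_sym : S_sym := by
  intro Q hQ
  haveI := hQ.prob
  refine ⟨fun θ hθ => ?_, ?_, ?_⟩
  · have hT : Measurable (fun (ω : Om) x => ω (θ x)) :=
      measurable_pi_lambda _ fun x => measurable_pi_apply (θ x)
    haveI : IsProbabilityMeasure (Q.map (fun (ω : Om) x => ω (θ x))) :=
      Measure.isProbabilityMeasure_map hT.aemeasurable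
    refine sym_ext fun B F hF hFm => ?_
    rw [integral_map hT.aemeasurable hFm.aestronglyMeasurable]
    have hl : Loc (B.image θ) (fun ω : Om => F fun x => ω (θ x)) := fun ω ω' h =>
      hF _ _ fun x hx => h _ (Finset.mem_image_of_mem _ hx)
    have h1 := hQ.lim _ _ hl
    have h2 := (hQ.lim _ _ hF).comp (sym_tendsto θ)
    refine tendsto_nhds_unique h1 (h2.congr fun D => ?_)
    exact (sym_E2 (sym_bij hθ D) F).symm
  · have hT : Measurable neg := by
      refine measurable_pi_lambda _ fun x => ?_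
      have : (fun ω : Om => neg ω x) = (fun p : Bool × Bool => (p.1, !p.2)) ∘ fun ω : Om => ω x := rfl
      rw [this]
      exact (Measurable.of_discrete).comp (measurable_pi_apply x)
    haveI : IsProbabilityMeasure (Q.map neg) := Measure.isProbabilityMeasure_map hT.aemeasurable
    refine sym_ext fun B F hF hFm => ?_
    rw [integral_map hT.aemeasurable hFm.aestronglyMeasurable]
    have hl : Loc B (fun ω : Om => F (neg ω)) := fun ω ω' h =>
      hF _ _ fun x hx => by unfold neg; rw [h x hx]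
    have h1 := hQ.lim _ _ hl
    have h2 := hQ.lim _ _ hF
    refine tendsto_nhds_unique (h1.congr' ?_) h2
    filter_upwards [eventually_ge_atTop B] with D hD
    rw [← sym_E2 (negOn_bij D) F]
    congr 1
    funext ω
    refine hF _ _ fun x hx => ?_
    unfold neg negOn
    simp [hD hx]
  · unfold Comp
    rw [ae_all_iff]
    intro x
    rw [ae_all_iff]
    intro y
    by_cases hxy : Adj x y
    swap
    · exact Eventually.of_forall fun ω h => absurd h hxy
    set S : Set Om := {ω | ¬ ((ω x).1 = (ω y).1 ∨ (ω x).2 = (ω y).2)} with hS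
    have hSm : MeasurableSet S := by
      have e : S = (fun ω : Om => (ω x, ω y)) ⁻¹'
          {p : (Bool × Bool) × (Bool × Bool) | ¬ (p.1.1 = p.2.1 ∨ p.1.2 = p.2.2)} := rfl
      rw [e]
      exact ((measurable_pi_apply x).prodMk (measurable_pi_apply y)) (MeasurableSet.of_discrete)
    have hl : Loc {x, y} (S.indicator fun _ => (1 : ℝ)) := by
      intro ω ω' h
      have hx := h x (by simp)
      have hy := h y (by simp)
      by_cases h1 : ω ∈ S
      · have h2 : ω' ∈ S := by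
          rw [hS, Set.mem_setOf_eq] at h1 ⊢
          rwa [← hx, ← hy]
        rw [Set.indicator_of_mem h1, Set.indicator_of_mem h2]
      · have h2 : ω' ∉ S := by
          rw [hS, Set.mem_setOf_eq] at h1 ⊢
          rwa [← hx, ← hy]
        rw [Set.indicator_of_notMem h1, Set.indicator_of_notMem h2]
    have h1 := hQ.lim _ _ hl
    have h0 : ∀ D : Finset Pt, E2 D (S.indicator fun _ => (1 : ℝ)) = 0 := by
      intro D
      unfold E2
      rw [div_eq_zero_iff]
      left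
      refine finsum_mem_eq_zero_of_forall_eq_zero fun ω hω => ?_
      refine Set.indicator_of_notMem ?_ _
      rw [hS, Set.mem_setOf_eq, not_not]
      exact hω.1 x y hxy
    have h2 : ∫ ω, S.indicator (fun _ => (1 : ℝ)) ω ∂Q = 0 := by
      refine tendsto_nhds_unique h1 ?_
      simp only [h0]
      exact tendsto_const_nhds
    rw [integral_indicator_const _ hSm, smul_eq_mul, mul_one] at h2
    have h3 : Q S = 0 := (measureReal_eq_zero_iff (by finiteness)).1 h2
    have h4 : ∀ᵐ ω ∂Q, ω ∉ S := measure_eq_zero_iff_ae_notMem.1 h3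
    filter_upwards [h4] with ω hω _
    rw [hS, Set.mem_setOf_eq, not_not] at hω
    exact hω

end Vale.Agent.P153.A
end

section

/-!
# The concrete mesoscopic boxes
-/

namespace Vale.Agent.P153.Asm

open Finset

/-- Rows `I0 * K, (I0 + 1) * K, ...`, blocks of `l` sites with indices in `C`. -/
def bgeo (K : ℕ) (I0 : ℤ) (C : Finset ℤ) (l : ℕ) : Geo (↥C × Fin l) ↥C where
  K := K
  I0 := I0
  x := fun i => (i.1 : ℤ) * l + ((i.2 : ℕ) : ℤ)
  b := fun i => i.1

/-- The weights. -/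
noncomputable def bwt (g : ℝ × ℝ → ℝ) (L : ℝ) (K : ℕ) (I0 : ℤ) (C : Finset ℤ) (l : ℕ) (j : ℕ)
    (i : ↥C × Fin l) : ℝ :=
  L⁻¹ * g (((I0 + j : ℤ) : ℝ) * K / L, (((i.1 : ℤ) * l + ((i.2 : ℕ) : ℤ) : ℤ) : ℝ) / L)

/-- Kernel of a translation invariant mean square difference. -/
def tV (V : ℤ → ℤ → ℝ) (p q : ℤ × ℤ) : ℝ := V (p.1 - q.1) (p.2 - q.2)

end Vale.Agent.P153.Asm
end

section

/-!
# Error terms of the plane inequality for the concrete boxes
-/

namespace Vale.Agent.P153.Asm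

open MeasureTheory Filter Finset
open scoped Topology ENNReal
open Vale.Agent.P153.CLT

section geometry

variable (K : ℕ) (I0 : ℤ) (C : Finset ℤ) (l : ℕ)

lemma bgeo_inj : Function.Injective (bgeo K I0 C l).x := by
  rintro ⟨c, r⟩ ⟨c', r'⟩ h
  have h1 : (c : ℤ) * l + ((r : ℕ) : ℤ) = (c' : ℤ) * l + ((r' : ℕ) : ℤ) := h
  have hr := r.2
  have hr' := r'.2
  have h2 : (c : ℤ) = c' := by
    have hl : (0 : ℤ) < l := by omega
    have e1 : ((c : ℤ) * l + ((r : ℕ) : ℤ)) / l = c := by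
      rw [add_comm, Int.add_mul_ediv_right _ _ hl.ne', Int.ediv_eq_zero_of_lt (by omega) (by omega),
        zero_add]
    have e2 : ((c' : ℤ) * l + ((r' : ℕ) : ℤ)) / l = c' := by
      rw [add_comm, Int.add_mul_ediv_right _ _ hl.ne', Int.ediv_eq_zero_of_lt (by omega) (by omega),
        zero_add]
    rw [← e1, ← e2, h1]
  have h3 : r = r' := by
    apply Fin.ext
    rw [h2] at h1
    omega
  exact Prod.ext (Subtype.ext h2) h3

variable {R : Type*} [AddCommMonoid R]

lemma sum_sT (F : ↥C × Fin l → R) (c : ↥C) :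
    ∑ i ∈ sT (bgeo K I0 C l).b {c}, F i = ∑ r : Fin l, F (c, r) := by
  unfold sT
  rw [Finset.sum_filter, Fintype.sum_prod_type, Finset.sum_eq_single c]
  · refine Finset.sum_congr rfl fun r _ => ?_
    rw [if_pos]
    exact Finset.mem_singleton_self c
  · intro c' _ hc'
    refine Finset.sum_eq_zero fun r _ => ?_
    rw [if_neg]
    exact fun h => hc' (Finset.mem_singleton.1 h)
  · intro h
    exact absurd (Finset.mem_univ _) h

lemma sum_block (F : ℤ → R) (c : ↥C) :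
    ∑ r : Fin l, F ((c : ℤ) * l + ((r : ℕ) : ℤ)) =
      ∑ x ∈ Finset.Ico ((c : ℤ) * l) ((c : ℤ) * l + l), F x := by
  rw [← Finset.sum_range fun r : ℕ => F ((c : ℤ) * l + (r : ℤ))]
  refine Finset.sum_bij (fun (r : ℕ) _ => (c : ℤ) * l + (r : ℤ)) ?_ ?_ ?_ ?_
  · intro r hr
    rw [Finset.mem_range] at hr
    rw [Finset.mem_Ico]
    omega
  · intro a _ b _ h
    omega
  · intro x hx
    rw [Finset.mem_Ico] at hx
    exact ⟨(x - (c : ℤ) * l).toNat, by rw [Finset.mem_range]; omega, by omega⟩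
  · intro r _
    rfl

lemma sum_steps (F : ℤ → R) (J : ℕ) :
    ∑ j ∈ Finset.range J, F (I0 + j) = ∑ i ∈ Finset.Ico I0 (I0 + J), F i := by
  refine Finset.sum_bij (fun (j : ℕ) _ => I0 + (j : ℤ)) ?_ ?_ ?_ ?_
  · intro r hr
    rw [Finset.mem_range] at hr
    rw [Finset.mem_Ico]
    omega
  · intro a _ b _ h
    omega
  · intro x hx
    rw [Finset.mem_Ico] at hx
    exact ⟨(x - I0).toNat, by rw [Finset.mem_range]; omega, by omega⟩
  · intro r _
    rfl

end geometry

/-- **(i)** the deviation of the local squares in orthogonal coordinates. -/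
theorem dev_eq {Ω : Type*} [mΩ : MeasurableSpace Ω] (P : Measure Ω) (h : ℤ × ℤ → Ω → ℝ)
    (g : ℝ × ℝ → ℝ) (L : ℝ) (K : ℕ) (I0 : ℤ) (C : Finset ℤ) (l J : ℕ) (s : ℝ) :
    dev P h (bgeo K I0 C l) (bwt g L K I0 C l) J s =
      ∫ ω, |∑ i ∈ Finset.Ico I0 (I0 + J), ∑ c ∈ C,
        (∑ x ∈ Finset.Ico (c * l) (c * l + l), (L⁻¹ * g ((i : ℝ) * K / L, (x : ℝ) / L)) *
          (h ((i + 1) * K, x) ω - h (i * K, x) ω)) ^ 2 - s| ∂P := by
  unfold dev
  congr 1
  funext ω
  congr 2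
  rw [← sum_steps I0 (fun i : ℤ => ∑ c ∈ C,
        (∑ x ∈ Finset.Ico (c * (l : ℤ)) (c * l + l), (L⁻¹ * g ((i : ℝ) * K / L, (x : ℝ) / L)) *
          (h ((i + 1) * K, x) ω - h (i * K, x) ω)) ^ 2) J]
  refine Finset.sum_congr rfl fun j _ => ?_
  rw [← Finset.sum_coe_sort C fun c : ℤ =>
    (∑ x ∈ Finset.Ico (c * (l : ℤ)) (c * l + l), (L⁻¹ * g (((I0 + j : ℤ) : ℝ) * K / L,
      (x : ℝ) / L)) * (h ((I0 + j + 1) * K, x) ω - h ((I0 + j) * K, x) ω)) ^ 2]
  refine Finset.sum_congr rfl fun c _ => ?_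
  congr 1
  unfold yloc
  rw [sum_sT, ← sum_block C l (fun x : ℤ => (L⁻¹ * g (((I0 + j : ℤ) : ℝ) * K / L,
      (x : ℝ) / L)) * (h ((I0 + j + 1) * K, x) ω - h ((I0 + j) * K, x) ω)) c]
  refine Finset.sum_congr rfl fun r _ => ?_
  unfold bwt bgeo Geo.site Geo.base Geo.l
  push_cast
  rw [← add_assoc]

section kernels

variable (V : ℤ → ℤ → ℝ) (K : ℕ) (I0 : ℤ) (C : Finset ℤ) (l : ℕ)

lemma crV_eq (j : ℕ) (i i' : ↥C × Fin l) :
    crV (tV V) ((bgeo K I0 C l).l j) ((bgeo K I0 C l).site j i) ((bgeo K I0 C l).site j i') =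
      TwoPt.CK V K ((bgeo K I0 C l).x i - (bgeo K I0 C l).x i') := by
  unfold crV tV rho TwoPt.CK Geo.site
  simp only
  rw [Geo.l_succ]
  have e1 : (bgeo K I0 C l).l j + ((bgeo K I0 C l).K : ℤ) - (2 * (bgeo K I0 C l).l j -
      ((bgeo K I0 C l).l j + ((bgeo K I0 C l).K : ℤ))) = 2 * K := by
    change (bgeo K I0 C l).l j + (K : ℤ) - (2 * (bgeo K I0 C l).l j -
      ((bgeo K I0 C l).l j + (K : ℤ))) = 2 * K
    ring
  rw [e1, sub_self]

lemma trV_eq (j : ℕ) (i i' : ↥C × Fin l) :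
    trV (tV V) ((bgeo K I0 C l).l j) ((bgeo K I0 C l).site j i) ((bgeo K I0 C l).base j i)
      ((bgeo K I0 C l).site j i') ((bgeo K I0 C l).base j i') =
      TwoPt.TK V K ((bgeo K I0 C l).x i - (bgeo K I0 C l).x i') := by
  unfold trV tV rho TwoPt.TK Geo.site Geo.base
  simp only
  rw [Geo.l_succ]
  have e1 : (bgeo K I0 C l).l j + ((bgeo K I0 C l).K : ℤ) - (2 * (bgeo K I0 C l).l j -
      ((bgeo K I0 C l).l j + ((bgeo K I0 C l).K : ℤ))) = 2 * K := by
    change (bgeo K I0 C l).l j + (K : ℤ) - (2 * (bgeo K I0 C l).l j -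
      ((bgeo K I0 C l).l j + (K : ℤ))) = 2 * K
    ring
  have e2 : (bgeo K I0 C l).l j - (2 * (bgeo K I0 C l).l j -
      ((bgeo K I0 C l).l j + ((bgeo K I0 C l).K : ℤ))) = K := by
    change (bgeo K I0 C l).l j - (2 * (bgeo K I0 C l).l j -
      ((bgeo K I0 C l).l j + (K : ℤ))) = K
    ring
  have e3 : (bgeo K I0 C l).l j + ((bgeo K I0 C l).K : ℤ) - (bgeo K I0 C l).l j = K := by
    change (bgeo K I0 C l).l j + (K : ℤ) - (bgeo K I0 C l).l j = K
    ring
  rw [e1, e2, e3, sub_self]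
  ring

lemma ddV_eq (hV : ∀ z, V (-(K : ℤ)) z = V K z) (j : ℕ) (i i' : ↥C × Fin l) :
    ddV (tV V) ((bgeo K I0 C l).site j i) ((bgeo K I0 C l).base j i)
      ((bgeo K I0 C l).site j i') ((bgeo K I0 C l).base j i') =
      TwoPt.CK V K ((bgeo K I0 C l).x i - (bgeo K I0 C l).x i') +
      TwoPt.TK V K ((bgeo K I0 C l).x i - (bgeo K I0 C l).x i') := by
  unfold ddV tV TwoPt.TK TwoPt.CK Geo.site Geo.base
  simp only
  rw [Geo.l_succ]
  have e3 : (bgeo K I0 C l).l j + ((bgeo K I0 C l).K : ℤ) - (bgeo K I0 C l).l j = K := by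
    change (bgeo K I0 C l).l j + (K : ℤ) - (bgeo K I0 C l).l j = K
    ring
  have e4 : (bgeo K I0 C l).l j - ((bgeo K I0 C l).l j + ((bgeo K I0 C l).K : ℤ)) = -(K : ℤ) := by
    change (bgeo K I0 C l).l j - ((bgeo K I0 C l).l j + (K : ℤ)) = -(K : ℤ)
    ring
  rw [e3, e4, sub_self, sub_self, hV]
  ring

end kernels

section bounds

variable {V : ℤ → ℤ → ℝ} {K : ℕ} {g : ℝ × ℝ → ℝ} {Gm : ℝ} {L : ℝ}

lemma abs_bwt (hL : 0 < L) (hg : ∀ z, |g z| ≤ Gm) (I0 : ℤ) (C : Finset ℤ) (l j : ℕ)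
    (i : ↥C × Fin l) : |bwt g L K I0 C l j i| ≤ Gm / L := by
  unfold bwt
  rw [abs_mul, abs_of_pos (inv_pos.2 hL), div_eq_inv_mul Gm L]
  exact mul_le_mul_of_nonneg_left (hg _) (inv_pos.2 hL).le

lemma x_sub_same (I0 : ℤ) (C : Finset ℤ) (l : ℕ) (c : ↥C) (r r' : Fin l) :
    (bgeo K I0 C l).x (c, r) - (bgeo K I0 C l).x (c, r') =
      ((r : ℕ) : ℤ) - ((r' : ℕ) : ℤ) := by
  change ((c : ℤ) * l + ((r : ℕ) : ℤ)) - ((c : ℤ) * l + ((r' : ℕ) : ℤ)) = _
  ring

lemma sum_le_tsum_x {f : ℤ → ℝ} (hf : ∀ z, 0 ≤ f z) (hs : Summable f) (I0 : ℤ) (C : Finset ℤ)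
    (l : ℕ) (z : ℤ) : ∑ i' : ↥C × Fin l, f (z - (bgeo K I0 C l).x i') ≤ ∑' y, f y := by
  classical
  have e : ∑ i' : ↥C × Fin l, f (z - (bgeo K I0 C l).x i') =
      ∑ y ∈ Finset.univ.image (fun i' : ↥C × Fin l => z - (bgeo K I0 C l).x i'), f y := by
    rw [Finset.sum_image]
    intro a _ b _ h
    exact bgeo_inj K I0 C l (by simpa using h)
  rw [e]
  exact hs.sum_le_tsum _ fun y _ => hf y

/-- **(ii)** -/
theorem vcross_le (hf : ∀ z, 0 ≤ TwoPt.CK V K z) (hs : Summable (TwoPt.CK V K)) (hL : 0 < L)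
    (hg : ∀ z, |g z| ≤ Gm) (I0 : ℤ) (C : Finset ℤ) (l J : ℕ) :
    vcross (tV V) (bgeo K I0 C l) (bwt g L K I0 C l) J ≤
      J * C.card * (Gm / L) ^ 2 * (l * ∑' z, TwoPt.CK V K z -
        ∑ x ∈ range l, ∑ y ∈ range l, TwoPt.CK V K ((x : ℤ) - y)) := by
  have hGm : 0 ≤ Gm / L := div_nonneg ((abs_nonneg _).trans (hg 0)) hL.le
  set S := ∑' z, TwoPt.CK V K z with hS
  have h1 : ∀ j ∈ range J, ∑ i : ↥C × Fin l, ∑ i' : ↥C × Fin l,
      (if (bgeo K I0 C l).b i = (bgeo K I0 C l).b i' then 0 else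
        |bwt g L K I0 C l j i| * |bwt g L K I0 C l j i'| *
        crV (tV V) ((bgeo K I0 C l).l j) ((bgeo K I0 C l).site j i)
          ((bgeo K I0 C l).site j i')) ≤
      C.card * ((Gm / L) ^ 2 * (l * S -
        ∑ x ∈ range l, ∑ y ∈ range l, TwoPt.CK V K ((x : ℤ) - y))) := by
    intro j _
    rw [Fintype.sum_prod_type]
    have h2 : ∀ c ∈ (Finset.univ : Finset ↥C), ∑ r : Fin l, ∑ i' : ↥C × Fin l,
      (if (bgeo K I0 C l).b (c, r) = (bgeo K I0 C l).b i' then 0 else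
        |bwt g L K I0 C l j (c, r)| * |bwt g L K I0 C l j i'| *
        crV (tV V) ((bgeo K I0 C l).l j) ((bgeo K I0 C l).site j (c, r))
          ((bgeo K I0 C l).site j i')) ≤
        (Gm / L) ^ 2 * (l * S -
        ∑ x ∈ range l, ∑ y ∈ range l, TwoPt.CK V K ((x : ℤ) - y)) := by
      intro c _
      have h3 : ∀ r ∈ (Finset.univ : Finset (Fin l)), ∑ i' : ↥C × Fin l,
          (if (bgeo K I0 C l).b (c, r) = (bgeo K I0 C l).b i' then 0 else
          |bwt g L K I0 C l j (c, r)| * |bwt g L K I0 C l j i'| *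
          crV (tV V) ((bgeo K I0 C l).l j) ((bgeo K I0 C l).site j (c, r))
          ((bgeo K I0 C l).site j i')) ≤ (Gm / L) ^ 2 * (S -
          ∑ r' : Fin l, TwoPt.CK V K (((r : ℕ) : ℤ) - ((r' : ℕ) : ℤ))) := by
        intro r _
        have h4 : ∑ i' : ↥C × Fin l,
          (if (bgeo K I0 C l).b (c, r) = (bgeo K I0 C l).b i' then 0 else
          |bwt g L K I0 C l j (c, r)| * |bwt g L K I0 C l j i'| *
          crV (tV V) ((bgeo K I0 C l).l j) ((bgeo K I0 C l).site j (c, r))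
          ((bgeo K I0 C l).site j i')) ≤ (Gm / L) ^ 2 * ∑ i' : ↥C × Fin l,
          (if (bgeo K I0 C l).b (c, r) = (bgeo K I0 C l).b i' then 0 else
          TwoPt.CK V K ((bgeo K I0 C l).x (c, r) - (bgeo K I0 C l).x i')) := by
          rw [Finset.mul_sum]
          refine Finset.sum_le_sum fun i' _ => ?_
          split_ifs
          · simp
          · rw [crV_eq]
            refine mul_le_mul_of_nonneg_right ?_ (hf _)
            rw [sq]
            exact mul_le_mul (abs_bwt hL hg I0 C l j _) (abs_bwt hL hg I0 C l j _)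
              (abs_nonneg _) hGm
        refine h4.trans (mul_le_mul_of_nonneg_left ?_ (sq_nonneg _))
        have h5 := sum_le_tsum_x (K := K) hf hs I0 C l ((bgeo K I0 C l).x (c, r))
        have h6 : ∑ r' : Fin l, TwoPt.CK V K (((r : ℕ) : ℤ) - ((r' : ℕ) : ℤ)) =
            ∑ i' : ↥C × Fin l, (if (bgeo K I0 C l).b (c, r) = (bgeo K I0 C l).b i' then
              TwoPt.CK V K ((bgeo K I0 C l).x (c, r) - (bgeo K I0 C l).x i') else 0) := by
          rw [Fintype.sum_prod_type, Finset.sum_eq_single c]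
          · refine Finset.sum_congr rfl fun r' _ => ?_
            rw [if_pos (show (bgeo K I0 C l).b (c, r) = (bgeo K I0 C l).b (c, r') from rfl),
              x_sub_same]
          · intro c' _ hc'
            refine Finset.sum_eq_zero fun r' _ => ?_
            rw [if_neg]
            exact fun h => hc' h.symm
          · intro h
            exact absurd (Finset.mem_univ _) h
        rw [h6, le_sub_iff_add_le, ← Finset.sum_add_distrib]
        refine le_trans (le_of_eq ?_) h5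
        refine Finset.sum_congr rfl fun i' _ => ?_
        split_ifs <;> simp
      refine (Finset.sum_le_sum h3).trans (le_of_eq ?_)
      rw [← Finset.mul_sum, Finset.sum_sub_distrib, Finset.sum_const, Finset.card_univ,
        Fintype.card_fin, nsmul_eq_mul,
        Finset.sum_range fun x : ℕ => ∑ y ∈ range l, TwoPt.CK V K ((x : ℤ) - y)]
      congr 2
      refine Finset.sum_congr rfl fun r _ => ?_
      rw [Finset.sum_range fun y : ℕ => TwoPt.CK V K (((r : ℕ) : ℤ) - y)]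
    refine (Finset.sum_le_sum h2).trans (le_of_eq ?_)
    rw [Finset.sum_const, Finset.card_univ, Fintype.card_coe, nsmul_eq_mul]
  unfold vcross
  refine (Finset.sum_le_sum h1).trans (le_of_eq ?_)
  rw [Finset.sum_const, Finset.card_range, nsmul_eq_mul]
  ring

/-- **(iii)** -/
theorem vsq_le (hf : ∀ z, 0 ≤ TwoPt.CK V K z) (hs : Summable (TwoPt.CK V K)) (hL : 0 < L)
    (hg : ∀ z, |g z| ≤ Gm) (I0 : ℤ) (C : Finset ℤ) (l J : ℕ) :
    vsq (tV V) (bgeo K I0 C l) (bwt g L K I0 C l) J ≤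
      J * C.card * (Gm / L) ^ 2 * (l * ∑' z, TwoPt.CK V K z) := by
  have hGm : 0 ≤ Gm / L := div_nonneg ((abs_nonneg _).trans (hg 0)) hL.le
  set S := ∑' z, TwoPt.CK V K z with hS
  have h1 : ∀ j ∈ range J, ∀ c ∈ (Finset.univ : Finset ↥C),
      ∑ i ∈ sT (bgeo K I0 C l).b {c}, ∑ i' ∈ sT (bgeo K I0 C l).b {c},
        bwt g L K I0 C l j i * bwt g L K I0 C l j i' *
        crV (tV V) ((bgeo K I0 C l).l j) ((bgeo K I0 C l).site j i)
          ((bgeo K I0 C l).site j i') ≤ (Gm / L) ^ 2 * (l * S) := by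
    intro j _ c _
    rw [sum_sT]
    have h2 : ∀ r ∈ (Finset.univ : Finset (Fin l)), ∑ i' ∈ sT (bgeo K I0 C l).b {c},
        bwt g L K I0 C l j (c, r) * bwt g L K I0 C l j i' *
        crV (tV V) ((bgeo K I0 C l).l j) ((bgeo K I0 C l).site j (c, r))
          ((bgeo K I0 C l).site j i') ≤ (Gm / L) ^ 2 * S := by
      intro r _
      have h3 : ∑ i' ∈ sT (bgeo K I0 C l).b {c},
        bwt g L K I0 C l j (c, r) * bwt g L K I0 C l j i' *
        crV (tV V) ((bgeo K I0 C l).l j) ((bgeo K I0 C l).site j (c, r))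
          ((bgeo K I0 C l).site j i') ≤ ∑ i' : ↥C × Fin l,
          (Gm / L) ^ 2 * TwoPt.CK V K ((bgeo K I0 C l).x (c, r) - (bgeo K I0 C l).x i') := by
        refine (Finset.sum_le_sum (g := fun i' => (Gm / L) ^ 2 *
          TwoPt.CK V K ((bgeo K I0 C l).x (c, r) - (bgeo K I0 C l).x i')) fun i' _ => ?_).trans
          (Finset.sum_le_sum_of_subset_of_nonneg (Finset.subset_univ _) fun i' _ _ =>
            mul_nonneg (sq_nonneg _) (hf _))
        rw [crV_eq]
        refine mul_le_mul_of_nonneg_right ?_ (hf _)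
        rw [sq]
        refine (le_abs_self _).trans ?_
        rw [abs_mul]
        exact mul_le_mul (abs_bwt hL hg I0 C l j _) (abs_bwt hL hg I0 C l j _)
          (abs_nonneg _) hGm
      refine h3.trans ?_
      rw [← Finset.mul_sum]
      exact mul_le_mul_of_nonneg_left
        (sum_le_tsum_x (K := K) hf hs I0 C l ((bgeo K I0 C l).x (c, r))) (sq_nonneg _)
    refine (Finset.sum_le_sum h2).trans (le_of_eq ?_)
    rw [Finset.sum_const, Finset.card_univ, Fintype.card_fin, nsmul_eq_mul]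
    ring
  unfold vsq
  refine (Finset.sum_le_sum fun j hj => Finset.sum_le_sum fun c hc => h1 j hj c hc).trans
    (le_of_eq ?_)
  rw [Finset.sum_const, Finset.sum_const, Finset.card_univ, Fintype.card_coe, Finset.card_range,
    nsmul_eq_mul, nsmul_eq_mul]
  ring

/-- **(iv)** -/
theorem vdel_le (hL : 0 < L) (hg : ∀ z, |g z| ≤ Gm) (I0 : ℤ) (C : Finset ℤ) (l J : ℕ)
    {om Ti E : ℝ} (hE : 0 ≤ E)
    (hom : ∀ j ∈ range J, ∀ i : ↥C × Fin l, |bwt g L K I0 C l j i -
      L⁻¹ * g (((I0 + j : ℤ) : ℝ) * K / L, ((i.1 : ℤ) : ℝ) * l / L)| ≤ om / L)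
    (hTi : ∀ z : ℤ, |z| < l → |TwoPt.TK V K z| ≤ Ti)
    (hTE : ∑ x ∈ range l, ∑ y ∈ range l, TwoPt.TK V K ((x : ℤ) - y) ≤ E) :
    vdel (tV V) (bgeo K I0 C l) (bwt g L K I0 C l) J ≤
      J * C.card * ((Gm / L) ^ 2 * E + 2 * (Gm / L) * (om / L) * l ^ 2 * Ti) := by
  have hGm : 0 ≤ Gm / L := div_nonneg ((abs_nonneg _).trans (hg 0)) hL.le
  have h1 : ∀ j ∈ range J, ∀ c ∈ (Finset.univ : Finset ↥C),
      ∑ i ∈ sT (bgeo K I0 C l).b {c}, ∑ i' ∈ sT (bgeo K I0 C l).b {c},
        bwt g L K I0 C l j i * bwt g L K I0 C l j i' *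
        trV (tV V) ((bgeo K I0 C l).l j) ((bgeo K I0 C l).site j i) ((bgeo K I0 C l).base j i)
          ((bgeo K I0 C l).site j i') ((bgeo K I0 C l).base j i') ≤
      (Gm / L) ^ 2 * E + 2 * (Gm / L) * (om / L) * l ^ 2 * Ti := by
    intro j hj c _
    set q : ℝ := L⁻¹ * g (((I0 + j : ℤ) : ℝ) * K / L, ((c : ℤ) : ℝ) * l / L) with hq
    have hqb : |q| ≤ Gm / L := by
      rw [hq, abs_mul, abs_of_pos (inv_pos.2 hL), div_eq_inv_mul Gm L]
      exact mul_le_mul_of_nonneg_left (hg _) (inv_pos.2 hL).le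
    rw [sum_sT]
    have h2 : ∀ r ∈ (Finset.univ : Finset (Fin l)), ∑ i' ∈ sT (bgeo K I0 C l).b {c},
        bwt g L K I0 C l j (c, r) * bwt g L K I0 C l j i' *
        trV (tV V) ((bgeo K I0 C l).l j) ((bgeo K I0 C l).site j (c, r))
          ((bgeo K I0 C l).base j (c, r))
          ((bgeo K I0 C l).site j i') ((bgeo K I0 C l).base j i') ≤
        ∑ r' : Fin l, (q ^ 2 * TwoPt.TK V K (((r : ℕ) : ℤ) - ((r' : ℕ) : ℤ)) +
          2 * (Gm / L) * (om / L) * Ti) := by
      intro r _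
      rw [sum_sT]
      refine Finset.sum_le_sum fun r' _ => ?_
      rw [trV_eq, x_sub_same]
      have hT := hTi (((r : ℕ) : ℤ) - ((r' : ℕ) : ℤ)) (by
        have := r.2
        have := r'.2
        rw [abs_lt]
        constructor <;> omega)
      set T := TwoPt.TK V K (((r : ℕ) : ℤ) - ((r' : ℕ) : ℤ))
      set a := bwt g L K I0 C l j (c, r)
      set b := bwt g L K I0 C l j (c, r')
      have ha : |a - q| ≤ om / L := hom j hj (c, r)
      have hb : |b - q| ≤ om / L := hom j hj (c, r')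
      have hb2 : |b| ≤ Gm / L := abs_bwt hL hg I0 C l j _
      have hom0 : 0 ≤ om / L := (abs_nonneg _).trans ha
      have e : a * b * T = q ^ 2 * T + ((a - q) * b + q * (b - q)) * T := by ring
      rw [e]
      refine add_le_add le_rfl ?_
      have h3 : |(a - q) * b + q * (b - q)| ≤ 2 * (Gm / L) * (om / L) := by
        refine (abs_add_le _ _).trans ?_
        rw [abs_mul, abs_mul]
        have h4 : |a - q| * |b| ≤ (om / L) * (Gm / L) := mul_le_mul ha hb2 (abs_nonneg _) hom0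
        have h5 : |q| * |b - q| ≤ (Gm / L) * (om / L) := mul_le_mul hqb hb (abs_nonneg _) hGm
        linarith
      calc ((a - q) * b + q * (b - q)) * T ≤ |((a - q) * b + q * (b - q)) * T| := le_abs_self _
        _ = |(a - q) * b + q * (b - q)| * |T| := abs_mul _ _
        _ ≤ 2 * (Gm / L) * (om / L) * Ti := mul_le_mul h3 hT (abs_nonneg _) (by positivity)
    refine (Finset.sum_le_sum h2).trans ?_
    have h6 : ∑ r : Fin l, ∑ r' : Fin l, (q ^ 2 * TwoPt.TK V K (((r : ℕ) : ℤ) - ((r' : ℕ) : ℤ)) +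
          2 * (Gm / L) * (om / L) * Ti) =
        q ^ 2 * ∑ x ∈ range l, ∑ y ∈ range l, TwoPt.TK V K ((x : ℤ) - y) +
          2 * (Gm / L) * (om / L) * l ^ 2 * Ti := by
      simp only [Finset.sum_add_distrib]
      rw [Finset.sum_const, Finset.sum_const, Finset.card_univ, Fintype.card_fin, nsmul_eq_mul,
        nsmul_eq_mul]
      have h7 : ∑ r : Fin l, ∑ r' : Fin l, q ^ 2 * TwoPt.TK V K (((r : ℕ) : ℤ) - ((r' : ℕ) : ℤ)) =
          q ^ 2 * ∑ x ∈ range l, ∑ y ∈ range l, TwoPt.TK V K ((x : ℤ) - y) := by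
        rw [Finset.sum_range fun x : ℕ => ∑ y ∈ range l, TwoPt.TK V K ((x : ℤ) - y),
          Finset.mul_sum]
        refine Finset.sum_congr rfl fun r _ => ?_
        rw [Finset.sum_range fun y : ℕ => TwoPt.TK V K (((r : ℕ) : ℤ) - y), Finset.mul_sum]
      rw [h7]
      ring
    rw [h6]
    refine add_le_add ?_ le_rfl
    have hq2 : q ^ 2 ≤ (Gm / L) ^ 2 := by
      rw [← sq_abs]
      exact pow_le_pow_left₀ (abs_nonneg _) hqb 2
    calc q ^ 2 * ∑ x ∈ range l, ∑ y ∈ range l, TwoPt.TK V K ((x : ℤ) - y)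
        ≤ q ^ 2 * E := mul_le_mul_of_nonneg_left hTE (sq_nonneg _)
      _ ≤ (Gm / L) ^ 2 * E := mul_le_mul_of_nonneg_right hq2 hE
  unfold vdel
  refine (Finset.sum_le_sum fun j hj => Finset.sum_le_sum fun c hc => h1 j hj c hc).trans
    (le_of_eq ?_)
  rw [Finset.sum_const, Finset.sum_const, Finset.card_univ, Fintype.card_coe, Finset.card_range,
    nsmul_eq_mul, nsmul_eq_mul]
  ring

/-- **(v)** -/
theorem vloc_eq (hV : ∀ z, V (-(K : ℤ)) z = V K z) (I0 : ℤ) (C : Finset ℤ) (l J : ℕ)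
    (w : ℕ → ↥C × Fin l → ℝ) :
    vloc (tV V) (bgeo K I0 C l) w J =
      vsq (tV V) (bgeo K I0 C l) w J + vdel (tV V) (bgeo K I0 C l) w J := by
  unfold vloc vsq vdel
  simp only [← Finset.sum_add_distrib]
  refine Finset.sum_congr rfl fun j _ => Finset.sum_congr rfl fun c _ =>
    Finset.sum_congr rfl fun i _ => Finset.sum_congr rfl fun i' _ => ?_
  rw [ddV_eq V K I0 C l hV, crV_eq, trV_eq]
  ring

end bounds

end Vale.Agent.P153.Asm
end

section

/-!
P153, bounded domains: product form of the Schwinger-Dyson (null) property for the plane measure of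
the uniform Lipschitz model on the triangular lattice: definitions.

`pth φ = 2 φ` are the even heights (steps `0, ±2`); `mu0 P` is the law of the absolute heights: the
law of `2 φ` times counting measure on the even constants. A direction `D : Dir` consists of a
linear form `D.l`, the reflections `D.θ m` in the lines `D.l = m` and the translation `D.s`;
`D.l D.s = 2`.
-/

namespace Vale.Agent.P153.F.SD

open Finset Filter Topology MeasureTheory

/-- Absolute heights. -/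
abbrev Hgt : Type := ℤ × ℤ → ℤ

/-- Fields of the plane measure. -/
abbrev Fld : Type := ℤ × ℤ → ℤ

/-- Even heights. -/
def pth (φ : Fld) : Hgt := fun q => 2 * φ q

/-- Law of the even heights times counting measure on the even constants. -/
noncomputable def mu0 (P : Measure Fld) : Measure Hgt :=
  Measure.sum fun k : ℤ => P.map (fun φ q => pth φ q + 2 * k)

/-- Pull-back of a height function along a map of the lattice. -/
def pb (g : ℤ × ℤ → ℤ × ℤ) (h : Hgt) : Hgt := fun q => h (g q)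

/-- Directions. -/
structure Dir where
  l : ℤ × ℤ → ℤ
  θ : ℤ → ℤ × ℤ → ℤ × ℤ
  s : ℤ × ℤ

/-- Rows. -/
def dY : Dir := ⟨fun q => q.2, fun m q => (q.1 + q.2 - m, 2 * m - q.2), (-1, 2)⟩

/-- Lines `q.1 = m`. -/
def dX : Dir := ⟨fun q => q.1, fun m q => (2 * m - q.1, q.1 + q.2 - m), (2, -1)⟩

/-- Lines `q.1 + q.2 = m`. -/
def dA : Dir := ⟨fun q => q.1 + q.2, fun m q => (m - q.2, m - q.1), (1, 1)⟩

/-- Opposite direction. -/
def Dir.neg (D : Dir) : Dir := ⟨fun q => - D.l q, fun m q => D.θ (-m) q, - D.s⟩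

/-- Algebraic properties of a direction. -/
structure Dir.Good (D : Dir) : Prop where
  l_add : ∀ q r, D.l (q + r) = D.l q + D.l r
  l_s : D.l D.s = 2
  l_θ : ∀ m q, D.l (D.θ m q) = 2 * m - D.l q
  θθ : ∀ m q, D.θ m (D.θ m q) = q
  θ_s : ∀ m q, D.θ m (q + D.s) = D.θ m q - D.s
  θ_succ : ∀ m q, D.θ (m + 1) q = D.θ m q + D.s

/-- The functional `F` depends only on the heights of finitely many vertices of `A`. -/
def Loc {R : Type} (A : Set (ℤ × ℤ)) (F : Hgt → R) : Prop :=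
  ∃ Λ : Finset (ℤ × ℤ), (∀ q ∈ Λ, q ∈ A) ∧ ∀ h h' : Hgt, (∀ q ∈ Λ, h q = h' q) → F h = F h'

/-- Admissible functionals: local in `A`, bounded, integrable. -/
structure Adm {R : Type} [NormedAddCommGroup R] (P : Measure Fld) (A : Set (ℤ × ℤ))
    (F : Hgt → R) : Prop where
  loc : Loc A F
  bdd : ∃ C : ℝ, ∀ h, ‖F h‖ ≤ C
  int : Integrable F (mu0 P)

/-- Translate of a functional by `n • D.s`. -/
def tr {R : Type} (D : Dir) (n : ℕ) (F : Hgt → R) : Hgt → R :=
  fun h => F (pb (fun q => q + n • D.s) h)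

/-- The height law is invariant under the reflections and the translation of `D`. -/
def Inv (P : Measure Fld) (D : Dir) : Prop :=
  (∀ m, (mu0 P).map (pb (D.θ m)) = mu0 P) ∧ (mu0 P).map (pb (fun q => q + D.s)) = mu0 P

/-- Reflection positivity. -/
def RP (P : Measure Fld) (D : Dir) : Prop :=
  ∀ (m : ℤ) (F : Hgt → ℝ), Adm P {q | m ≤ D.l q} F → 0 ≤ ∫ h, F h * F (pb (D.θ m) h) ∂(mu0 P)

/-- Extrapolation along a direction, for complex functionals: if the two groups `G n`, `F n` are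
separated by a strip of width `2 N n` and the integral tends to zero when `F n` is translated by
`k * N n` steps for every large integer `k`, it tends to zero for `k = 0`. -/
def LegLim (P : Measure Fld) (D : Dir) : Prop :=
  ∀ (N : ℕ → ℕ) (m : ℕ → ℤ) (F G : ℕ → Hgt → ℂ) (C : ℝ),
    (∀ n, Adm P {q | m n + 2 * N n ≤ D.l q} (F n)) → (∀ n, Adm P {q | D.l q ≤ m n} (G n)) →
    (∀ n, ∫ h, ‖F n h‖ ^ 2 ∂(mu0 P) ≤ C) → (∀ n, ∫ h, ‖G n h‖ ^ 2 ∂(mu0 P) ≤ C) →
    (∃ k0 : ℕ, ∀ k, k0 ≤ k →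
      Tendsto (fun n => ∫ h, G n h * tr D (k * N n) (F n) h ∂(mu0 P)) atTop (𝓝 0)) →
    (∀ n, 1 ≤ N n) →
    Tendsto (fun n => ∫ h, G n h * F n h ∂(mu0 P)) atTop (𝓝 0)

/-- Linear functionals of the heights. -/
noncomputable def ev (w : (ℤ × ℤ) →₀ ℝ) (h : Hgt) : ℝ := w.sum fun q a => a * (h q : ℝ)

/-- Total mass. -/
noncomputable def mass (w : (ℤ × ℤ) →₀ ℝ) : ℝ := w.sum fun _ a => a

/-- Reflection in the row `0`. -/
noncomputable def rf (w : (ℤ × ℤ) →₀ ℝ) : (ℤ × ℤ) →₀ ℝ := w.mapDomain fun q => (q.1 + q.2, - q.2)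

/-- The null functional. -/
noncomputable def Yf (w u : (ℤ × ℤ) →₀ ℝ) (α : ℝ) (h : Hgt) : ℂ :=
  Complex.exp (Complex.I * (ev w h : ℂ)) * (Complex.exp (Complex.I * (ev u h : ℂ)) - (α : ℂ))

/-- Macroscopic input: Gaussian limits of the neutral functionals built from `w n`, `u n`, `φ n`
and their reflections. -/
structure SDseq (P : Measure Fld) (w u φ : ℕ → (ℤ × ℤ) →₀ ℝ) (α : ℝ) : Prop where
  mu : ∀ n, mass (u n) = 0
  mφ : ∀ n, mass (φ n) = 1
  lim : ∃ L : ℝ → ℝ → ℝ → ℂ,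
    (∀ s t z : ℝ, (s = 0 ∨ s = 1) → (t = 0 ∨ t = 1) →
      Tendsto (fun n => ∫ ω, Complex.exp (Complex.I * ((ev (w n - rf (w n) + s • u n - t • rf (u n)
        + z • (rf (φ n) - φ n)) (pth ω) : ℝ) : ℂ)) ∂P) atTop (𝓝 (L s t z))) ∧
    (∀ t z : ℝ, (t = 0 ∨ t = 1) → L 1 t z = α * L 0 t z) ∧
    (∀ s z : ℝ, (s = 0 ∨ s = 1) → L s 1 z = α * L s 0 z)

/-- Tightness of `ev (φ n)` relative to `G n`. -/
def Tight (P : Measure Fld) (φ : ℕ → (ℤ × ℤ) →₀ ℝ) (G : ℕ → Hgt → ℂ) : Prop :=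
  ∀ ε > 0, ∃ K0 : ℝ, ∀ K ≥ K0, ∀ᶠ n in atTop,
    ∫ h, ‖G n h‖ * (1 - Real.exp (-((ev (φ n) h) ^ 2 / (2 * K ^ 2)))) ∂(mu0 P) ≤ ε

/-- Localised null functional. -/
noncomputable def Wf (w u φ : (ℤ × ℤ) →₀ ℝ) (α K : ℝ) (h : Hgt) : ℂ :=
  Yf w u α h * ((Real.exp (-((ev φ h) ^ 2 / (2 * K ^ 2))) : ℝ) : ℂ)

end Vale.Agent.P153.F.SD
end

section

/-! P153, product Schwinger-Dyson, half-plane statement: linear functionals, integrals against `mu0`, and the
Cauchy-Schwarz inequality of the reflection positive form. -/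

namespace Vale.Agent.P153.F.SD

open Finset Filter Topology MeasureTheory
open Vale.Agent.P145.FA (gauss_sum PolyBdd LegForm extrap)

/-! ### linear functionals -/

lemma ev_add (w u : (ℤ × ℤ) →₀ ℝ) (h : Hgt) : ev (w + u) h = ev w h + ev u h := by
  unfold ev
  exact Finsupp.sum_add_index' (fun q => by simp) (fun q a b => by ring)

lemma ev_smul (c : ℝ) (w : (ℤ × ℤ) →₀ ℝ) (h : Hgt) : ev (c • w) h = c * ev w h := by
  unfold ev
  rw [Finsupp.sum_smul_index' (fun q => by simp), Finsupp.mul_sum]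
  exact Finsupp.sum_congr fun q _ => by rw [smul_eq_mul, mul_assoc]

lemma ev_sub (w u : (ℤ × ℤ) →₀ ℝ) (h : Hgt) : ev (w - u) h = ev w h - ev u h := by
  have e : w - u = w + (-1 : ℝ) • u := by
    ext q
    simp only [sub_eq_add_neg, Finsupp.coe_add, Finsupp.coe_neg, Pi.add_apply, Pi.neg_apply, neg_smul, one_smul]
  rw [e, ev_add, ev_smul]
  ring

lemma ev_shift (w : (ℤ × ℤ) →₀ ℝ) (h : Hgt) (c : ℤ) :
    ev w (fun q => h q + c) = ev w h + mass w * c := by
  unfold ev mass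
  rw [Finsupp.sum_mul, ← Finsupp.sum_add]
  exact Finsupp.sum_congr fun q _ => by push_cast; ring

lemma ev_rf (w : (ℤ × ℤ) →₀ ℝ) (h : Hgt) : ev (rf w) h = ev w (pb (dY.θ 0) h) := by
  unfold ev rf
  rw [Finsupp.sum_mapDomain_index (fun q => by simp only [zero_mul]) (fun q a b => by ring)]
  refine Finsupp.sum_congr fun q _ => ?_
  simp only [pb, dY, mul_zero, zero_sub, sub_zero]

lemma mass_rf (w : (ℤ × ℤ) →₀ ℝ) : mass (rf w) = mass w := by
  unfold mass rf
  rw [Finsupp.sum_mapDomain_index (fun q => by simp) (fun q a b => by ring)]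

lemma measurable_ev (w : (ℤ × ℤ) →₀ ℝ) : Measurable (ev w) := by
  unfold ev Finsupp.sum
  refine Finset.measurable_sum _ fun q _ => ?_
  refine Measurable.const_mul ?_ _
  exact measurable_from_top.comp (measurable_pi_apply q)

lemma measurable_pb (g : ℤ × ℤ → ℤ × ℤ) : Measurable (pb g) :=
  measurable_pi_iff.2 fun q => measurable_pi_apply (g q)

/-! ### the measure -/

lemma measurable_pthq (q : ℤ × ℤ) : Measurable fun ω : Fld => pth ω q :=
  (measurable_from_top (f := fun a : ℤ => 2 * a)).comp (measurable_pi_apply q)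

lemma measurable_hk (k : ℤ) : Measurable fun (ω : Fld) (q : ℤ × ℤ) => pth ω q + 2 * k :=
  measurable_pi_iff.2 fun q => (measurable_pthq q).add_const _

variable {P : Measure (Fld)}

lemma map_le_mu0 (k : ℤ) : P.map (fun (ω : Fld) (q : ℤ × ℤ) => pth ω q + 2 * k) ≤ mu0 P :=
  Measure.le_sum (fun k : ℤ => P.map (fun (ω : Fld) (q : ℤ × ℤ) => pth ω q + 2 * k)) k

/-- integral against `mu0` -/
lemma hasSum_mu0 {R : Type*} [NormedAddCommGroup R] [NormedSpace ℝ R] {F : Hgt → R}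
    (hF : Integrable F (mu0 P)) :
    HasSum (fun k : ℤ => ∫ ω, F (fun q => pth ω q + 2 * k) ∂P) (∫ h, F h ∂(mu0 P)) := by
  have h := hasSum_integral_measure (show Integrable F (Measure.sum fun k : ℤ =>
    P.map (fun (ω : Fld) (q : ℤ × ℤ) => pth ω q + 2 * k)) from hF)
  have e : ∀ k : ℤ, ∫ h, F h ∂(P.map (fun (ω : Fld) (q : ℤ × ℤ) => pth ω q + 2 * k)) =
      ∫ ω, F (fun q => pth ω q + 2 * k) ∂P := fun k =>
    integral_map (measurable_hk k).aemeasurable (hF.1.mono_measure (map_le_mu0 k))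
  simp only [e] at h
  exact h

/-- nonnegative integrals against `mu0` -/
lemma lintegral_mu0 {F : Hgt → ENNReal} (hF : Measurable F) :
    ∫⁻ h, F h ∂(mu0 P) = ∫⁻ ω, ∑' k : ℤ, F (fun q => pth ω q + 2 * k) ∂P := by
  have h := lintegral_tsum (μ := P) (f := fun (k : ℤ) (ω : Fld) =>
    F (fun q => pth ω q + 2 * k)) (fun k => (hF.comp (measurable_hk k)).aemeasurable)
  unfold mu0
  rw [lintegral_sum_measure, h]
  exact tsum_congr fun k => lintegral_map hF (measurable_hk k)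

/-- functions dominated by a Gaussian of a charged functional are integrable -/
lemma integrable_gauss [IsProbabilityMeasure P] {φ : (ℤ × ℤ) →₀ ℝ} (hφ : mass φ = 1) {K : ℝ}
    (hK : 1 ≤ K) : Integrable (fun h => Real.exp (-((ev φ h) ^ 2 / K ^ 2))) (mu0 P) := by
  obtain ⟨C, hC, hg⟩ := gauss_sum
  have hm : Measurable fun h => Real.exp (-((ev φ h) ^ 2 / K ^ 2)) :=
    Real.measurable_exp.comp (((measurable_ev φ).pow_const 2).div_const _).neg
  refine ⟨hm.aestronglyMeasurable, ?_⟩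
  rw [hasFiniteIntegral_iff_ofReal (Eventually.of_forall fun h => (Real.exp_pos _).le)]
  have h0 := lintegral_mu0 (P := P) (F := fun h => ENNReal.ofReal
    (Real.exp (-((ev φ h) ^ 2 / K ^ 2)))) (ENNReal.measurable_ofReal.comp hm)
  rw [h0]
  have h1 : ∀ ω : Fld, ∑' k : ℤ, ENNReal.ofReal
      (Real.exp (-((ev φ (fun q => pth ω q + 2 * k)) ^ 2 / K ^ 2))) ≤
      ENNReal.ofReal (K * √Real.pi / 2 + C * (K * Real.exp (-K ^ 2))) := by
    intro ω
    have e : ∀ k : ℤ, ev φ (fun q => pth ω q + 2 * k) = ev φ (pth ω) + 2 * k := by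
      intro k
      rw [ev_shift, hφ]
      push_cast
      ring
    simp only [e]
    obtain ⟨hs, hb⟩ := hg K hK (ev φ (pth ω))
    rw [← ENNReal.ofReal_tsum_of_nonneg (fun k => (Real.exp_pos _).le) hs]
    refine ENNReal.ofReal_le_ofReal ?_
    have := (abs_le.1 hb).2
    linarith only [this]
  refine (lintegral_mono h1).trans_lt ?_
  rw [lintegral_const, measure_univ, mul_one]
  exact ENNReal.ofReal_lt_top

/-- integral of a product of a gradient functional and a Gaussian in the level -/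
lemma integral_gauss [IsProbabilityMeasure P] {F : Hgt → ℂ} {Z : Fld → ℂ}
    {T : Fld → ℝ} {K B : ℝ} (hK : 1 ≤ K) (hFi : Integrable F (mu0 P))
    (hZ : ∀ ω, ‖Z ω‖ ≤ B) (hT : Measurable T) (hZm : Measurable Z)
    (hF : ∀ (ω : Fld) (k : ℤ), F (fun q => pth ω q + 2 * k) =
      Z ω * ((Real.exp (-((T ω + 2 * k) ^ 2 / K ^ 2)) : ℝ) : ℂ)) :
    ∫ h, F h ∂(mu0 P) = ∫ ω, Z ω *
      ((∑' k : ℤ, Real.exp (-((T ω + 2 * k) ^ 2 / K ^ 2)) : ℝ) : ℂ) ∂P := by
  obtain ⟨C, hC, hg⟩ := gauss_sum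
  have h1 := hasSum_mu0 hFi
  simp only [hF] at h1
  have hB : 0 ≤ B := (norm_nonneg _).trans (hZ (fun _ => 0))
  have hmk : ∀ k : ℤ, Measurable fun ω => Z ω *
      ((Real.exp (-((T ω + 2 * k) ^ 2 / K ^ 2)) : ℝ) : ℂ) := fun k =>
    hZm.mul (Complex.measurable_ofReal.comp (Real.measurable_exp.comp
      ((((hT.add_const _).pow_const 2).div_const _).neg)))
  have h2 : ∫ ω, ∑' k : ℤ, Z ω * ((Real.exp (-((T ω + 2 * k) ^ 2 / K ^ 2)) : ℝ) : ℂ) ∂P =
      ∑' k : ℤ, ∫ ω, Z ω * ((Real.exp (-((T ω + 2 * k) ^ 2 / K ^ 2)) : ℝ) : ℂ) ∂P := by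
    refine integral_tsum (fun k => (hmk k).aestronglyMeasurable) ?_
    have hme : ∀ k : ℤ, Measurable fun ω => ENNReal.ofReal
        (Real.exp (-((T ω + 2 * k) ^ 2 / K ^ 2))) := fun k =>
      ENNReal.measurable_ofReal.comp (Real.measurable_exp.comp
        ((((hT.add_const _).pow_const 2).div_const _).neg))
    have hle : ∑' k : ℤ, ∫⁻ ω, ‖Z ω * ((Real.exp (-((T ω + 2 * k) ^ 2 / K ^ 2)) : ℝ) : ℂ)‖ₑ ∂P ≤
        ENNReal.ofReal B * ENNReal.ofReal (K * √Real.pi / 2 + C * (K * Real.exp (-K ^ 2))) := by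
      calc ∑' k : ℤ, ∫⁻ ω, ‖Z ω * ((Real.exp (-((T ω + 2 * k) ^ 2 / K ^ 2)) : ℝ) : ℂ)‖ₑ ∂P
          ≤ ∑' k : ℤ, ENNReal.ofReal B * ∫⁻ ω, ENNReal.ofReal
              (Real.exp (-((T ω + 2 * k) ^ 2 / K ^ 2))) ∂P := by
            refine ENNReal.tsum_le_tsum fun k => ?_
            rw [← lintegral_const_mul _ (hme k)]
            refine lintegral_mono fun ω => ?_
            rw [enorm_mul, ← ofReal_norm, ← ofReal_norm, Complex.norm_real, Real.norm_eq_abs,
              abs_of_pos (Real.exp_pos _)]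
            exact mul_le_mul' (ENNReal.ofReal_le_ofReal (hZ ω)) le_rfl
        _ = ENNReal.ofReal B * ∫⁻ ω, ∑' k : ℤ, ENNReal.ofReal
              (Real.exp (-((T ω + 2 * k) ^ 2 / K ^ 2))) ∂P := by
            rw [ENNReal.tsum_mul_left, lintegral_tsum (fun k => (hme k).aemeasurable)]
        _ ≤ ENNReal.ofReal B * ∫⁻ _ω, ENNReal.ofReal
              (K * √Real.pi / 2 + C * (K * Real.exp (-K ^ 2))) ∂P := by
            refine mul_le_mul' le_rfl (lintegral_mono fun ω => ?_)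
            obtain ⟨hs, hb⟩ := hg K hK (T ω)
            rw [← ENNReal.ofReal_tsum_of_nonneg (fun k => (Real.exp_pos _).le) hs]
            refine ENNReal.ofReal_le_ofReal ?_
            have := (abs_le.1 hb).2
            linarith only [this]
        _ = _ := by rw [lintegral_const, measure_univ, mul_one]
    exact (hle.trans_lt (ENNReal.mul_lt_top ENNReal.ofReal_lt_top ENNReal.ofReal_lt_top)).ne
  rw [← h1.tsum_eq, ← h2]
  refine integral_congr_ae (Eventually.of_forall fun ω => ?_)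
  simp only
  rw [tsum_mul_left, Complex.ofReal_tsum]

/-! ### reflections -/

lemma mp_refl (hI : Inv P dY) : MeasurePreserving (pb (dY.θ 0)) (mu0 P) (mu0 P) :=
  ⟨measurable_pb _, hI.1 0⟩

lemma pb_pb (h : Hgt) : pb (dY.θ 0) (pb (dY.θ 0) h) = h := by
  funext q
  show h _ = h q
  congr 1
  ext <;> simp only [dY, Int.reduceNeg, sub_zero, mul_zero, zero_sub, add_neg_cancel_right, sub_neg_eq_add, zero_add, Prod.mk.eta]

/-- reflected functionals -/
lemma Adm.refl {R : Type} [NormedAddCommGroup R] (hI : Inv P dY) {F : Hgt → R}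
    {A B : Set (ℤ × ℤ)} (hF : Adm P A F) (hAB : ∀ q ∈ A, dY.θ 0 q ∈ B) :
    Adm P B (fun h => F (pb (dY.θ 0) h)) := by
  obtain ⟨Λ, hΛ, hloc⟩ := hF.loc
  obtain ⟨C, hC⟩ := hF.bdd
  refine ⟨⟨Λ.image (dY.θ 0), ?_, ?_⟩, ⟨C, fun h => hC _⟩, ?_⟩
  · intro q hq
    obtain ⟨r, hr, rfl⟩ := Finset.mem_image.1 hq
    exact hAB r (hΛ r hr)
  · intro h h' hh
    refine hloc _ _ fun q hq => ?_
    exact hh _ (Finset.mem_image_of_mem _ hq)
  · exact (mp_refl hI).integrable_comp_of_integrable hF.int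

lemma Adm.lin {A : Set (ℤ × ℤ)} {F G : Hgt → ℝ} (hF : Adm P A F) (hG : Adm P A G) (t : ℝ) :
    Adm P A (fun h => F h + t * G h) := by
  classical
  obtain ⟨Λ, h1, h2⟩ := hF.loc
  obtain ⟨Λ', h1', h2'⟩ := hG.loc
  obtain ⟨C, hC⟩ := hF.bdd
  obtain ⟨C', hC'⟩ := hG.bdd
  refine ⟨⟨Λ ∪ Λ', fun q hq => ?_, fun h h' hh => ?_⟩, ⟨C + |t| * C', fun h => ?_⟩,
    hF.int.add (hG.int.const_mul t)⟩
  · rcases Finset.mem_union.1 hq with hq | hq
    · exact h1 q hq
    · exact h1' q hq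
  · simp only
    rw [h2 h h' fun q hq => hh q (Finset.mem_union_left _ hq),
      h2' h h' fun q hq => hh q (Finset.mem_union_right _ hq)]
  · refine (norm_add_le _ _).trans (add_le_add (hC h) ?_)
    rw [norm_mul, Real.norm_eq_abs]
    exact mul_le_mul_of_nonneg_left (hC' h) (abs_nonneg _)

/-- products of admissible functionals are integrable -/
lemma Adm.int_mul {A B : Set (ℤ × ℤ)} {F G : Hgt → ℝ} (hF : Adm P A F) (hG : Adm P B G) :
    Integrable (fun h => F h * G h) (mu0 P) := by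
  obtain ⟨C, hC⟩ := hF.bdd
  exact hG.int.bdd_mul hF.int.1 (Eventually.of_forall hC)

/-- Cauchy-Schwarz inequality of the reflection form. -/
lemma rp_cs (hI : Inv P dY) (hR : RP P dY) {F G : Hgt → ℝ} (hF : Adm P {q | 0 ≤ q.2} F)
    (hG : Adm P {q | 0 ≤ q.2} G) :
    (∫ h, F h * G (pb (dY.θ 0) h) ∂(mu0 P)) ^ 2 ≤ (∫ h, F h * F (pb (dY.θ 0) h) ∂(mu0 P)) *
      ∫ h, G h * G (pb (dY.θ 0) h) ∂(mu0 P) := by
  have hU : ∀ q ∈ {q : ℤ × ℤ | 0 ≤ q.2}, dY.θ 0 q ∈ {q : ℤ × ℤ | q.2 ≤ 0} := by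
    intro q hq
    simp only [Set.mem_ofPred_eq, dY] at hq ⊢
    omega
  have hF' := hF.refl hI hU
  have hG' := hG.refl hI hU
  have iFF := hF.int_mul hF'
  have iFG := hF.int_mul hG'
  have iGF := hG.int_mul hF'
  have iGG := hG.int_mul hG'
  have hsym : ∫ h, G h * F (pb (dY.θ 0) h) ∂(mu0 P) = ∫ h, F h * G (pb (dY.θ 0) h) ∂(mu0 P) := by
    have h1 := integral_map (μ := mu0 P) (φ := pb (dY.θ 0)) (measurable_pb _).aemeasurable
      (f := fun h => F h * G (pb (dY.θ 0) h)) (by rw [hI.1 0]; exact iFG.1)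
    rw [hI.1 0] at h1
    rw [h1]
    refine integral_congr_ae (Eventually.of_forall fun h => ?_)
    simp only [pb_pb]
    ring
  have key : ∀ t : ℝ, 0 ≤ (∫ h, G h * G (pb (dY.θ 0) h) ∂(mu0 P)) * t ^ 2 +
      2 * (∫ h, F h * G (pb (dY.θ 0) h) ∂(mu0 P)) * t +
        ∫ h, F h * F (pb (dY.θ 0) h) ∂(mu0 P) := by
    intro t
    have h0 := hR 0 _ ((show Adm P {q | (0 : ℤ) ≤ dY.l q} F from hF).lin
      (show Adm P {q | (0 : ℤ) ≤ dY.l q} G from hG) t)
    have e : ∫ h, (F h + t * G h) * (F (pb (dY.θ 0) h) + t * G (pb (dY.θ 0) h)) ∂(mu0 P) =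
        (∫ h, G h * G (pb (dY.θ 0) h) ∂(mu0 P)) * t ^ 2 +
      2 * (∫ h, F h * G (pb (dY.θ 0) h) ∂(mu0 P)) * t +
        ∫ h, F h * F (pb (dY.θ 0) h) ∂(mu0 P) := by
      have e1 : ∀ h : Hgt, (F h + t * G h) * (F (pb (dY.θ 0) h) + t * G (pb (dY.θ 0) h)) =
          F h * F (pb (dY.θ 0) h) + (t * (F h * G (pb (dY.θ 0) h)) +
            (t * (G h * F (pb (dY.θ 0) h)) + t ^ 2 * (G h * G (pb (dY.θ 0) h)))) := by
        intro h; ring
      simp only [e1]
      have i3 : Integrable (fun h => t * (G h * F (pb (dY.θ 0) h)) +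
          t ^ 2 * (G h * G (pb (dY.θ 0) h))) (mu0 P) := (iGF.const_mul t).add (iGG.const_mul _)
      have i2 : Integrable (fun h => t * (F h * G (pb (dY.θ 0) h)) +
          (t * (G h * F (pb (dY.θ 0) h)) + t ^ 2 * (G h * G (pb (dY.θ 0) h)))) (mu0 P) :=
        (iFG.const_mul t).add i3
      rw [integral_add iFF i2, integral_add (iFG.const_mul t) i3,
        integral_add (iGF.const_mul t) (iGG.const_mul _), integral_const_mul,
        integral_const_mul, integral_const_mul, hsym]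
      ring
    rw [← e]
    exact h0
  have := discrim_le_zero (a := ∫ h, G h * G (pb (dY.θ 0) h) ∂(mu0 P))
    (b := 2 * ∫ h, F h * G (pb (dY.θ 0) h) ∂(mu0 P))
    (c := ∫ h, F h * F (pb (dY.θ 0) h) ∂(mu0 P)) (fun t => by
    have := key t
    rwa [pow_two] at this)
  unfold discrim at this
  linarith

end Vale.Agent.P153.F.SD
end

section

/-!
P153, product Schwinger-Dyson: proof of `S_leg` (reflection positivity of the height law in a direction implies
the leg inequality and the extrapolation along that direction).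
-/

namespace Vale.Agent.P153.F.SD

open Finset Filter Topology MeasureTheory Polynomial
open Vale.Agent.P145.FA (gauss_sum PolyBdd LegForm extrap)

/-! ### sequences -/

theorem leg_limit_seq (F : ℕ → ℕ → ℝ) (N : ℕ → ℕ) (C : ℝ)
    (hF : ∀ n, ∃ H : ℕ → ℝ, PolyBdd H C ∧ ∀ i, F n i = H (N n + i))
    (k0 : ℕ) (hlarge : ∀ k, k0 ≤ k → Tendsto (fun n => F n (k * N n)) atTop (𝓝 0)) :
    Tendsto (fun n => F n 0) atTop (𝓝 0) := by
  rw [Metric.tendsto_atTop]
  intro ε hε
  obtain ⟨D, K, hK, hD⟩ := extrap 1 k0 (ε / (4 * (|C| + 1))) (by positivity)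
  have h1 : ∀ k : ℕ, ∀ᶠ n : ℕ in atTop, |F n ((k0 + k) * N n)| ≤ ε / (4 * (K + 1)) := by
    intro k
    have := hlarge (k0 + k) (Nat.le_add_right _ _)
    rw [Metric.tendsto_atTop] at this
    obtain ⟨M, hM⟩ := this (ε / (4 * (K + 1))) (by positivity)
    filter_upwards [eventually_ge_atTop M] with n hn
    have := hM n hn
    rw [Real.dist_eq, sub_zero] at this
    exact this.le
  have h2 : ∀ᶠ n : ℕ in atTop, ∀ k ∈ Finset.range (D + 1),
      |F n ((k0 + k) * N n)| ≤ ε / (4 * (K + 1)) := by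
    rw [Filter.eventually_all_finset]
    exact fun k _ => h1 k
  obtain ⟨M, hM⟩ := eventually_atTop.mp h2
  refine ⟨M, fun n hn => ?_⟩
  obtain ⟨H, hH, hFH⟩ := hF n
  have h3 := hD H C (ε / (4 * (K + 1))) (by positivity) hH (N n) (N n) (by omega) (fun k hk => by
    rw [← hFH]
    exact hM n hn k (Finset.mem_range.mpr (Nat.lt_succ_of_le hk)))
  rw [Real.dist_eq, sub_zero, hFH 0, add_zero]
  refine lt_of_le_of_lt h3 ?_
  have h4 : ε / (4 * (|C| + 1)) * C ≤ ε / 4 := by
    rw [div_mul_eq_mul_div, div_le_div_iff₀ (by (clear * -; positivity)) (by positivity)]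
    have := le_abs_self C
    nlinarith only [hε, this]
  have h5 : K * (ε / (4 * (K + 1))) ≤ ε / 4 := by
    rw [mul_div_assoc', div_le_div_iff₀ (by positivity) (by positivity)]
    nlinarith only [hε]
  linarith

theorem Lf_add (H H' : ℕ → ℝ) (p : ℝ[X]) :
    Vale.Agent.P153.RP.Lf (fun i => H i + H' i) p = Vale.Agent.P153.RP.Lf H p + Vale.Agent.P153.RP.Lf H' p := by
  simp only [Vale.Agent.P153.RP.Lf_apply, Polynomial.sum_def, add_mul, Finset.sum_add_distrib]

theorem Lf_sub (H H' : ℕ → ℝ) (p : ℝ[X]) :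
    Vale.Agent.P153.RP.Lf (fun i => H i - H' i) p = Vale.Agent.P153.RP.Lf H p - Vale.Agent.P153.RP.Lf H' p := by
  simp only [Vale.Agent.P153.RP.Lf_apply, Polynomial.sum_def, sub_mul, Finset.sum_sub_distrib]

theorem polyBdd_add {H H' : ℕ → ℝ} {C C' : ℝ} (h : PolyBdd H C) (h' : PolyBdd H' C') :
    PolyBdd (fun i => H i + H' i) (C + C') := by
  intro p M hM
  rw [Lf_add, mul_add]
  exact (abs_add_le _ _).trans (add_le_add (h p M hM) (h' p M hM))

theorem polyBdd_sub {H H' : ℕ → ℝ} {C C' : ℝ} (h : PolyBdd H C) (h' : PolyBdd H' C') :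
    PolyBdd (fun i => H i - H' i) (C + C') := by
  intro p M hM
  rw [Lf_sub, mul_add]
  exact (abs_sub _ _).trans (add_le_add (h p M hM) (h' p M hM))

/-! ### local functionals -/

theorem measurable_pbS (g : ℤ × ℤ → ℤ × ℤ) : Measurable (pb g) := by
  unfold pb
  exact measurable_pi_lambda _ fun x => measurable_pi_apply _

theorem Loc.monoS {R : Type} {A A' : Set (ℤ × ℤ)} {F : Hgt → R} (h : Loc A F) (hA : A ⊆ A') :
    Loc A' F := by
  obtain ⟨Λ, h1, h2⟩ := h
  exact ⟨Λ, fun q hq => hA (h1 q hq), h2⟩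

theorem Loc.measS {A : Set (ℤ × ℤ)} {F : Hgt → ℝ} (h : Loc A F) : Measurable F := by
  classical
  obtain ⟨s, -, hs⟩ := h
  let g : (s → ℤ) → ℝ := fun y => F (fun x => if hx : x ∈ s then y ⟨x, hx⟩ else 0)
  have hg : Measurable g := measurable_of_countable g
  have hF : F = g ∘ (fun h : Hgt => fun x : s => h x) := by
    funext ω
    apply hs
    intro x hx
    simp [hx]
  rw [hF]
  exact hg.comp (measurable_pi_lambda _ fun x => measurable_pi_apply _)

theorem Loc.comp₂ {R S U : Type} {A : Set (ℤ × ℤ)} {F : Hgt → R} {G : Hgt → S} (hF : Loc A F)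
    (hG : Loc A G) (f : R → S → U) : Loc A (fun h => f (F h) (G h)) := by
  classical
  obtain ⟨s, hs, hds⟩ := hF
  obtain ⟨t, ht, hdt⟩ := hG
  refine ⟨s ∪ t, fun x hx => ?_, fun a b hab => ?_⟩
  · rcases Finset.mem_union.mp hx with h | h
    · exact hs x h
    · exact ht x h
  · have e1 : F a = F b := hds a b fun i hi => hab i (Finset.mem_union_left _ hi)
    have e2 : G a = G b := hdt a b fun i hi => hab i (Finset.mem_union_right _ hi)
    show f (F a) (G a) = f (F b) (G b)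
    rw [e1, e2]

theorem Loc.comp {R S : Type} {A : Set (ℤ × ℤ)} {F : Hgt → R} (hF : Loc A F)
    (f : R → S) : Loc A (fun h => f (F h)) :=
  hF.comp₂ hF (fun a _ => f a)

theorem Loc.pull {R : Type} {A A' : Set (ℤ × ℤ)} {F : Hgt → R} (hF : Loc A F)
    {r : ℤ × ℤ → ℤ × ℤ} (hr : ∀ x ∈ A, r x ∈ A') : Loc A' (fun h => F (pb r h)) := by
  classical
  obtain ⟨s, hs, hds⟩ := hF
  refine ⟨s.image r, fun x hx => ?_, fun a b hab => ?_⟩
  · obtain ⟨y, hy, rfl⟩ := Finset.mem_image.mp hx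
    exact hr y (hs y hy)
  · apply hds
    intro i hi
    exact hab _ (Finset.mem_image_of_mem r hi)

variable {P : Measure (Fld)}

theorem Adm.mono {R : Type} [NormedAddCommGroup R] {A A' : Set (ℤ × ℤ)} {F : Hgt → R}
    (h : Adm P A F) (hA : A ⊆ A') : Adm P A' F :=
  ⟨h.loc.monoS hA, h.bdd, h.int⟩

theorem Adm.measurable {A : Set (ℤ × ℤ)} {F : Hgt → ℝ} (h : Adm P A F) : Measurable F :=
  h.loc.measS

theorem Adm.sq_int {R : Type} [NormedAddCommGroup R] {A : Set (ℤ × ℤ)} {F : Hgt → R}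
    (h : Adm P A F) : Integrable (fun x => ‖F x‖ ^ 2) (mu0 P) := by
  obtain ⟨C, hC⟩ := h.bdd
  refine (h.int.norm.const_mul C).mono (h.int.norm.aestronglyMeasurable.pow 2) ?_
  refine Filter.Eventually.of_forall fun x => ?_
  rw [Real.norm_eq_abs, Real.norm_eq_abs, abs_of_nonneg (by positivity), sq,
    abs_of_nonneg (mul_nonneg ((norm_nonneg _).trans (hC x)) (norm_nonneg _))]
  exact mul_le_mul_of_nonneg_right (hC x) (norm_nonneg _)

theorem Adm.memLp {A : Set (ℤ × ℤ)} {F : Hgt → ℝ} (h : Adm P A F) : MemLp F 2 (mu0 P) := by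
  rw [memLp_two_iff_integrable_sq h.int.aestronglyMeasurable]
  have := h.sq_int
  simpa only [Real.norm_eq_abs, sq_abs] using this

theorem Adm.pull {A A' : Set (ℤ × ℤ)} {F : Hgt → ℝ} (hF : Adm P A F) {r : ℤ × ℤ → ℤ × ℤ}
    (hr : ∀ x ∈ A, r x ∈ A') (hm : (mu0 P).map (pb r) = mu0 P) :
    Adm P A' (fun h => F (pb r h)) := by
  obtain ⟨C, hC⟩ := hF.bdd
  refine ⟨hF.loc.pull hr, ⟨C, fun h => hC _⟩, ?_⟩
  have := hF.int
  rw [← hm] at this
  exact this.comp_measurable (measurable_pbS r)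

theorem Adm.reS {A : Set (ℤ × ℤ)} {F : Hgt → ℂ} (h : Adm P A F) :
    Adm P A (fun x => (F x).re) := by
  obtain ⟨C, hC⟩ := h.bdd
  exact ⟨h.loc.comp _, ⟨C, fun x => (Complex.abs_re_le_norm _).trans (hC x)⟩, h.int.re⟩

theorem Adm.imS {A : Set (ℤ × ℤ)} {F : Hgt → ℂ} (h : Adm P A F) :
    Adm P A (fun x => (F x).im) := by
  obtain ⟨C, hC⟩ := h.bdd
  exact ⟨h.loc.comp _, ⟨C, fun x => (Complex.abs_im_le_norm _).trans (hC x)⟩, h.int.im⟩

theorem int_pull {r : ℤ × ℤ → ℤ × ℤ} (hm : (mu0 P).map (pb r) = mu0 P) {F : Hgt → ℝ}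
    (hF : Measurable F) : ∫ h, F (pb r h) ∂(mu0 P) = ∫ h, F h ∂(mu0 P) := by
  have := integral_map (μ := mu0 P) (measurable_pbS r).aemeasurable (f := F)
    hF.aestronglyMeasurable
  rw [hm] at this
  exact this.symm

theorem int_mul_le {F G : Hgt → ℝ} (hF : MemLp F 2 (mu0 P)) (hG : MemLp G 2 (mu0 P)) :
    ∫ h, F h * G h ∂(mu0 P) ≤ ((∫ h, F h ^ 2 ∂(mu0 P)) + ∫ h, G h ^ 2 ∂(mu0 P)) / 2 := by
  rw [← integral_add hF.integrable_sq hG.integrable_sq, ← integral_div]
  apply integral_mono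
  · exact hF.integrable_mul hG
  · exact (hF.integrable_sq.add hG.integrable_sq).div_const 2
  · intro h
    simp only
    nlinarith [sq_nonneg (F h - G h)]

/-! ### the form of a direction -/

variable {D : Dir}

theorem Dir.Good.θ_pred (hD : D.Good) (m : ℤ) (q : ℤ × ℤ) :
    D.θ m q - D.s = D.θ (m - 1) q := by
  have := hD.θ_succ (m - 1) q
  rw [sub_add_cancel] at this
  rw [this, add_sub_cancel_right]

theorem pb_pbS (g g' : ℤ × ℤ → ℤ × ℤ) (h : Hgt) : pb g (pb g' h) = pb (fun q => g' (g q)) h := rfl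

/-- the space of functionals above the line `l = m` -/
def Vsp (P : Measure (Fld)) (D : Dir) (m : ℤ) : Submodule ℝ (Hgt → ℝ) where
  carrier := {F | Adm P {q | m ≤ D.l q} F}
  add_mem' := by
    intro F G hF hG
    obtain ⟨C, hC⟩ := hF.bdd
    obtain ⟨E, hE⟩ := hG.bdd
    exact ⟨hF.loc.comp₂ hG.loc (fun a b => a + b),
      ⟨C + E, fun h => (norm_add_le _ _).trans (add_le_add (hC h) (hE h))⟩, hF.int.add hG.int⟩
  zero_mem' := ⟨⟨∅, by simp, fun _ _ _ => rfl⟩, ⟨0, fun h => by simp⟩, integrable_zero _ _ _⟩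
  smul_mem' := by
    intro c F hF
    obtain ⟨C, hC⟩ := hF.bdd
    refine ⟨hF.loc.comp (fun a => c • a), ⟨‖c‖ * C, fun h => ?_⟩, hF.int.smul c⟩
    rw [Pi.smul_apply, norm_smul]
    exact mul_le_mul_of_nonneg_left (hC h) (norm_nonneg _)

/-- the shift on `Vsp` -/
noncomputable def Tsp (hD : D.Good) (hI : Inv P D) (m : ℤ) : Vsp P D m →ₗ[ℝ] Vsp P D m where
  toFun F := ⟨fun h => F.1 (pb (fun q => q + D.s) h),
    F.2.pull (fun x hx => by
      show m ≤ D.l (x + D.s)
      rw [hD.l_add, hD.l_s]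
      have : m ≤ D.l x := hx
      linarith) hI.2⟩
  map_add' F G := by ext h; rfl
  map_smul' c F := by ext h; rfl

/-- the reflection form -/
noncomputable def Bsp (hI : Inv P D) (m : ℤ) : Vsp P D m →ₗ[ℝ] Vsp P D m →ₗ[ℝ] ℝ :=
  have hmem : ∀ G : Vsp P D m, MemLp (fun h => G.1 (pb (D.θ m) h)) 2 (mu0 P) := fun G =>
    (G.2.pull (A' := Set.univ) (fun _ _ => trivial) (hI.1 m)).memLp
  LinearMap.mk₂ ℝ (fun F G => ∫ h, F.1 h * G.1 (pb (D.θ m) h) ∂(mu0 P))
    (by
      intro F F' G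
      rw [← integral_add]
      · congr 1; ext h
        simp only [Submodule.coe_add, Pi.add_apply]; ring
      · exact F.2.memLp.integrable_mul (hmem G)
      · exact F'.2.memLp.integrable_mul (hmem G))
    (by
      intro c F G
      rw [smul_eq_mul, ← integral_const_mul]
      congr 1; ext h
      simp only [Submodule.coe_smul, Pi.smul_apply, smul_eq_mul]; ring)
    (by
      intro F G G'
      rw [← integral_add]
      · congr 1; ext h
        simp only [Submodule.coe_add, Pi.add_apply]; ring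
      · exact F.2.memLp.integrable_mul (hmem G)
      · exact F.2.memLp.integrable_mul (hmem G'))
    (by
      intro c F G
      rw [smul_eq_mul, ← integral_const_mul]
      congr 1; ext h
      simp only [Submodule.coe_smul, Pi.smul_apply, smul_eq_mul]; ring)

theorem Bsp_apply (hI : Inv P D) (m : ℤ) (F G : Vsp P D m) :
    Bsp hI m F G = ∫ h, F.1 h * G.1 (pb (D.θ m) h) ∂(mu0 P) := rfl

theorem Bsp_le (hI : Inv P D) (m : ℤ) (F G : Vsp P D m) :
    Bsp hI m F G ≤ ((∫ h, F.1 h ^ 2 ∂(mu0 P)) + ∫ h, G.1 h ^ 2 ∂(mu0 P)) / 2 := by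
  rw [Bsp_apply]
  refine (int_mul_le F.2.memLp
    (G.2.pull (A' := Set.univ) (fun _ _ => trivial) (hI.1 m)).memLp).trans ?_
  have : ∫ h, G.1 (pb (D.θ m) h) ^ 2 ∂(mu0 P) = ∫ h, G.1 h ^ 2 ∂(mu0 P) :=
    int_pull (hI.1 m) (F := fun h => G.1 h ^ 2) (G.2.measurable.pow_const 2)
  rw [this]

theorem Tsp_pow_apply (hD : D.Good) (hI : Inv P D) (m : ℤ) (F : Vsp P D m) (n : ℕ) (h : Hgt) :
    ((Tsp hD hI m ^ n) F).1 h = tr D n F.1 h := by
  induction n generalizing h with
  | zero =>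
    show F.1 h = F.1 (pb (fun q => q + 0 • D.s) h)
    exact congrArg F.1 (by funext q; simp [pb])
  | succ n ih =>
    rw [pow_succ', Module.End.mul_apply]
    show ((Tsp hD hI m ^ n) F).1 (pb (fun q => q + D.s) h) = _
    rw [ih]
    refine congrArg F.1 ?_
    funext q
    show h (q + n • D.s + D.s) = h (q + (n + 1) • D.s)
    rw [add_smul, one_smul, add_assoc]

theorem Tsp_sq (hD : D.Good) (hI : Inv P D) (m : ℤ) (F : Vsp P D m) (n : ℕ) :
    ∫ h, ((Tsp hD hI m ^ n) F).1 h ^ 2 ∂(mu0 P) = ∫ h, F.1 h ^ 2 ∂(mu0 P) := by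
  induction n with
  | zero => simp only [pow_zero, Module.End.one_apply]
  | succ n ih =>
    rw [pow_succ', Module.End.mul_apply]
    have h1 := int_pull hI.2 (F := fun h => ((Tsp hD hI m ^ n) F).1 h ^ 2)
      (((Tsp hD hI m ^ n) F).2.measurable.pow_const 2)
    rw [← ih, ← h1]
    rfl

/-- the reflection form with the shift is a leg -/
theorem legForm (hD : D.Good) (hI : Inv P D) (hR : RP P D) (m : ℤ) :
    LegForm (Bsp hI m) (Tsp hD hI m) where
  symm F G := by
    rw [Bsp_apply, Bsp_apply]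
    have hm : Measurable (fun h => F.1 h * G.1 (pb (D.θ m) h)) :=
      F.2.measurable.mul (G.2.measurable.comp (measurable_pbS _))
    rw [← int_pull (hI.1 m) hm]
    congr 1; ext h
    have : pb (D.θ m) (pb (D.θ m) h) = h := by
      funext q
      simp only [pb, hD.θθ]
    simp only [this]; ring
  nonneg F := hR m F.1 F.2
  shift F G := by
    rw [Bsp_apply, Bsp_apply]
    have hm : Measurable (fun h => F.1 h * G.1 (pb (fun q => D.θ m q - D.s) h)) :=
      F.2.measurable.mul (G.2.measurable.comp (measurable_pbS _))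
    have e : ∫ h, F.1 (pb (fun q => q + D.s) h) * G.1 (pb (D.θ m) h) ∂(mu0 P) =
        ∫ h, F.1 h * G.1 (pb (fun q => D.θ m q - D.s) h) ∂(mu0 P) := by
      rw [← int_pull hI.2 hm]
      congr 1; ext h
      have e3 : pb (D.θ m) h = pb (fun q => D.θ m q - D.s) (pb (fun q => q + D.s) h) := by
        funext q
        show h (D.θ m q) = h (D.θ m q - D.s + D.s)
        rw [sub_add_cancel]
      rw [← e3]
    have e2 : ∀ h, (Tsp hD hI m G).1 (pb (D.θ m) h) = G.1 (pb (fun q => D.θ m q - D.s) h) := by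
      intro h
      show G.1 (pb (fun q => q + D.s) (pb (D.θ m) h)) = _
      rw [pb_pbS]
      simp only [hD.θ_s]
    simp only [e2]
    exact e
  shift_nonneg F := by
    rw [Bsp_apply]
    have e2 : ∀ h, (Tsp hD hI m F).1 (pb (D.θ m) h) = F.1 (pb (D.θ (m - 1)) h) := by
      intro h
      show F.1 (pb (fun q => q + D.s) (pb (D.θ m) h)) = _
      rw [pb_pbS]
      simp only [hD.θ_s, hD.θ_pred]
    simp only [e2]
    exact hR (m - 1) F.1 (F.2.mono fun x hx => by
      have : m ≤ D.l x := hx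
      show m - 1 ≤ D.l x
      linarith only [this])
  bdd F := ⟨∫ h, F.1 h ^ 2 ∂(mu0 P), fun n => by
    refine (Bsp_le hI m F ((Tsp hD hI m ^ n) F)).trans ?_
    rw [Tsp_sq]
    linarith only []⟩

/-- correlations of `F` above and `G` below the line `l = m` -/
theorem legSeq (hD : D.Good) (hI : Inv P D) (hR : RP P D) {m : ℤ} {F G : Hgt → ℝ}
    (hF : Adm P {q | m ≤ D.l q} F) (hG : Adm P {q | D.l q ≤ m} G) :
    PolyBdd (fun i => ∫ h, G h * tr D i F h ∂(mu0 P))
      (√(∫ h, F h ^ 2 ∂(mu0 P)) * √(∫ h, G h ^ 2 ∂(mu0 P))) := by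
  have hG' : Adm P {q | m ≤ D.l q} (fun h => G (pb (D.θ m) h)) :=
    hG.pull (fun x hx => by
      have : D.l x ≤ m := hx
      show m ≤ D.l (D.θ m x)
      rw [hD.l_θ]
      linarith only [this]) (hI.1 m)
  let x : Vsp P D m := ⟨_, hG'⟩
  let y : Vsp P D m := ⟨_, hF⟩
  have hL := legForm hD hI hR m
  have b1 : Bsp hI m x x ≤ ∫ h, G h ^ 2 ∂(mu0 P) := by
    refine (Bsp_le hI m x x).trans ?_
    have e : ∫ h, x.1 h ^ 2 ∂(mu0 P) = ∫ h, G h ^ 2 ∂(mu0 P) :=
      int_pull (hI.1 m) (F := fun h => G h ^ 2) (hG.measurable.pow_const 2)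
    rw [e]; linarith only []
  have b2 : Bsp hI m y y ≤ ∫ h, F h ^ 2 ∂(mu0 P) := by
    refine (Bsp_le hI m y y).trans ?_
    show (_ + _) / 2 ≤ _
    linarith only []
  have key := hL.polyBdd x y (C := √(∫ h, F h ^ 2 ∂(mu0 P)) * √(∫ h, G h ^ 2 ∂(mu0 P))) (by
    rw [mul_comm]
    (clear * - hI b2 b1; gcongr))
  have e : (fun i => ∫ h, G h * tr D i F h ∂(mu0 P)) =
      fun i => Bsp hI m x ((Tsp hD hI m ^ i) y) := by
    funext i
    rw [Bsp_apply]
    have hm2 : Measurable (fun h => G h * tr D i F h) :=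
      hG.measurable.mul (hF.measurable.comp (measurable_pbS _))
    rw [← int_pull (hI.1 m) hm2]
    congr 1; ext h
    rw [Tsp_pow_apply]
  rw [e]
  exact key

theorem map_tr (hI : Inv P D) (n : ℕ) :
    (mu0 P).map (pb (fun q => q + n • D.s)) = mu0 P := by
  induction n with
  | zero =>
    have : pb (fun q => q + 0 • D.s) = id := by
      funext h q; simp [pb]
    rw [this, Measure.map_id]
  | succ n ih =>
    have : pb (fun q => q + (n + 1) • D.s) = pb (fun q => q + n • D.s) ∘ pb (fun q => q + D.s) := by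
      funext h q
      simp only [pb, Function.comp]
      congr 1
      rw [add_smul, one_smul, add_assoc]
    rw [this, ← Measure.map_map (measurable_pbS _) (measurable_pbS _), hI.2, ih]

theorem map_tr_neg (hI : Inv P D) (n : ℕ) :
    (mu0 P).map (pb (fun q => q - n • D.s)) = mu0 P := by
  conv_lhs => rw [← map_tr hI n]
  rw [Measure.map_map (measurable_pbS _) (measurable_pbS _)]
  have : pb (fun q => q - n • D.s) ∘ pb (fun q => q + n • D.s) = id := by
    funext h q; simp only [Function.comp, pb, nsmul_eq_mul, sub_add_cancel, id_eq]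
  rw [this, Measure.map_id]

/-- the same with a strip of width `2 N` -/
theorem legSeq' (hD : D.Good) (hI : Inv P D) (hR : RP P D) {m : ℤ} {N : ℕ} {F G : Hgt → ℝ}
    {C : ℝ} (hF : Adm P {q | m + 2 * N ≤ D.l q} F) (hG : Adm P {q | D.l q ≤ m} G)
    (h1 : ∫ h, F h ^ 2 ∂(mu0 P) ≤ C) (h2 : ∫ h, G h ^ 2 ∂(mu0 P) ≤ C) :
    ∃ H : ℕ → ℝ, PolyBdd H C ∧ ∀ i, ∫ h, G h * tr D i F h ∂(mu0 P) = H (N + i) := by
  have hls : ∀ n : ℕ, D.l (n • D.s) = 2 * n := by
    intro n
    induction n with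
    | zero =>
      have h0 := hD.l_add 0 0
      rw [add_zero] at h0
      have : D.l 0 = 0 := by linarith only [h0]
      simpa using this
    | succ n ih =>
      rw [add_smul, one_smul, hD.l_add, ih, hD.l_s]
      push_cast; ring
  have hF' : Adm P {q | m ≤ D.l q} (fun h => F (pb (fun q => q - N • D.s) h)) :=
    hF.pull (fun x hx => by
      have h3 : m + 2 * N ≤ D.l x := hx
      have h4 := hD.l_add (x - N • D.s) (N • D.s)
      rw [sub_add_cancel, hls] at h4
      show m ≤ D.l (x - N • D.s)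
      linarith only [h3, h4]) (map_tr_neg hI N)
  have hC : 0 ≤ C := le_trans (integral_nonneg fun h => sq_nonneg _) h1
  refine ⟨fun i => ∫ h, G h * tr D i (fun h => F (pb (fun q => q - N • D.s) h)) h ∂(mu0 P),
    fun p M hM => ?_, fun i => ?_⟩
  · have hM0 : 0 ≤ M := (abs_nonneg _).trans (hM 0 (by simp only [Set.mem_Icc, Std.le_refl, zero_le_one, and_self]))
    refine (legSeq hD hI hR hF' hG p M hM).trans ?_
    have e : ∫ h, F (pb (fun q => q - N • D.s) h) ^ 2 ∂(mu0 P) = ∫ h, F h ^ 2 ∂(mu0 P) :=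
      int_pull (map_tr_neg hI N) (F := fun h => F h ^ 2) (hF.measurable.pow_const 2)
    rw [e]
    have : √(∫ h, F h ^ 2 ∂(mu0 P)) * √(∫ h, G h ^ 2 ∂(mu0 P)) ≤ C := by
      calc _ ≤ √C * √C := by (clear * - h1 h2; gcongr)
        _ = C := Real.mul_self_sqrt hC
    (clear * - this hM0; gcongr)
  · congr 1; ext h
    have e3 : pb (fun q => q + i • D.s) h =
        pb (fun q => q - N • D.s) (pb (fun q => q + (N + i) • D.s) h) := by
      funext q
      show h (q + i • D.s) = h (q - N • D.s + (N + i) • D.s)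
      rw [add_smul]
      congr 1
      abel
    show G h * F (pb (fun q => q + i • D.s) h) = G h * F (pb (fun q => q - N • D.s)
      (pb (fun q => q + (N + i) • D.s) h))
    rw [← e3]

theorem norm_sq_int_re {A : Set (ℤ × ℤ)} {F : Hgt → ℂ} (hF : Adm P A F) {C : ℝ}
    (h : ∫ x, ‖F x‖ ^ 2 ∂(mu0 P) ≤ C) : ∫ x, (F x).re ^ 2 ∂(mu0 P) ≤ C := by
  refine le_trans (integral_mono hF.reS.memLp.integrable_sq hF.sq_int fun x => ?_) h
  have := Complex.abs_re_le_norm (F x)
  show (F x).re ^ 2 ≤ ‖F x‖ ^ 2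
  rw [← sq_abs]
  (clear * - this; gcongr)

theorem norm_sq_int_im {A : Set (ℤ × ℤ)} {F : Hgt → ℂ} (hF : Adm P A F) {C : ℝ}
    (h : ∫ x, ‖F x‖ ^ 2 ∂(mu0 P) ≤ C) : ∫ x, (F x).im ^ 2 ∂(mu0 P) ≤ C := by
  refine le_trans (integral_mono hF.imS.memLp.integrable_sq hF.sq_int fun x => ?_) h
  have := Complex.abs_im_le_norm (F x)
  show (F x).im ^ 2 ≤ ‖F x‖ ^ 2
  rw [← sq_abs]
  gcongr

theorem s_leg (hD : D.Good) (hI : Inv P D) (hR : RP P D) : LegLim P D := by
  intro N m F G C hF hG h1 h2 hlarge _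
  obtain ⟨k0, hk⟩ := hlarge
  -- integrability of the product of two real admissible functionals
  have hprod : ∀ {A B : Set (ℤ × ℤ)} {f g : Hgt → ℝ}, Adm P A f → Adm P B g →
      Integrable (fun h => f h * g h) (mu0 P) := fun ha hb =>
    ha.memLp.integrable_mul hb.memLp
  have htr : ∀ (n i : ℕ) {A : Set (ℤ × ℤ)} {f : Hgt → ℝ}, Adm P A f →
      Adm P Set.univ (tr D i f) := fun n i A f ha =>
    ha.pull (fun _ _ => trivial) (map_tr hI i)
  have hre : ∀ n i, (∫ h, G n h * tr D i (F n) h ∂(mu0 P)).re =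
      (∫ h, (G n h).re * tr D i (fun h => (F n h).re) h ∂(mu0 P)) -
      ∫ h, (G n h).im * tr D i (fun h => (F n h).im) h ∂(mu0 P) := by
    intro n i
    have hI1 : Integrable (fun h => (G n h).re * tr D i (fun h => (F n h).re) h) (mu0 P) :=
      hprod (hG n).reS (htr n i (hF n).reS)
    have hI2 : Integrable (fun h => (G n h).im * tr D i (fun h => (F n h).im) h) (mu0 P) :=
      hprod (hG n).imS (htr n i (hF n).imS)
    have hI3 : Integrable (fun h => (G n h).re * tr D i (fun h => (F n h).im) h) (mu0 P) :=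
      hprod (hG n).reS (htr n i (hF n).imS)
    have hI4 : Integrable (fun h => (G n h).im * tr D i (fun h => (F n h).re) h) (mu0 P) :=
      hprod (hG n).imS (htr n i (hF n).reS)
    have e : (fun h => G n h * tr D i (F n) h) = fun h =>
        (((G n h).re * tr D i (fun h => (F n h).re) h -
          (G n h).im * tr D i (fun h => (F n h).im) h : ℝ) : ℂ) +
        (((G n h).re * tr D i (fun h => (F n h).im) h +
          (G n h).im * tr D i (fun h => (F n h).re) h : ℝ) : ℂ) * Complex.I := by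
      funext h
      apply Complex.ext <;> simp [tr, Complex.mul_re, Complex.mul_im]
    rw [e, integral_add (hI1.sub hI2).ofReal ((hI3.add hI4).ofReal.mul_const _),
      integral_mul_const, integral_complex_ofReal, integral_complex_ofReal,
      integral_sub hI1 hI2]
    simp only [Complex.ofReal_sub, Complex.add_re, Complex.sub_re, Complex.ofReal_re, Complex.mul_re, Complex.I_re, mul_zero, Complex.ofReal_im, Complex.I_im, mul_one, sub_self, add_zero]
  have him : ∀ n i, (∫ h, G n h * tr D i (F n) h ∂(mu0 P)).im =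
      (∫ h, (G n h).re * tr D i (fun h => (F n h).im) h ∂(mu0 P)) +
      ∫ h, (G n h).im * tr D i (fun h => (F n h).re) h ∂(mu0 P) := by
    intro n i
    have hI1 : Integrable (fun h => (G n h).re * tr D i (fun h => (F n h).re) h) (mu0 P) :=
      hprod (hG n).reS (htr n i (hF n).reS)
    have hI2 : Integrable (fun h => (G n h).im * tr D i (fun h => (F n h).im) h) (mu0 P) :=
      hprod (hG n).imS (htr n i (hF n).imS)
    have hI3 : Integrable (fun h => (G n h).re * tr D i (fun h => (F n h).im) h) (mu0 P) :=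
      hprod (hG n).reS (htr n i (hF n).imS)
    have hI4 : Integrable (fun h => (G n h).im * tr D i (fun h => (F n h).re) h) (mu0 P) :=
      hprod (hG n).imS (htr n i (hF n).reS)
    have e : (fun h => G n h * tr D i (F n) h) = fun h =>
        (((G n h).re * tr D i (fun h => (F n h).re) h -
          (G n h).im * tr D i (fun h => (F n h).im) h : ℝ) : ℂ) +
        (((G n h).re * tr D i (fun h => (F n h).im) h +
          (G n h).im * tr D i (fun h => (F n h).re) h : ℝ) : ℂ) * Complex.I := by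
      funext h
      apply Complex.ext <;> simp [tr, Complex.mul_re, Complex.mul_im]
    rw [e, integral_add (hI1.sub hI2).ofReal ((hI3.add hI4).ofReal.mul_const _),
      integral_mul_const, integral_complex_ofReal, integral_complex_ofReal,
      integral_add hI3 hI4]
    simp
  have tr0 : ∀ n h, tr D 0 (F n) h = F n h := by
    intro n h
    exact congrArg (F n) (by funext q; simp [pb])
  have key1 : Tendsto (fun n => (∫ h, G n h * tr D 0 (F n) h ∂(mu0 P)).re) atTop (𝓝 0) := by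
    refine leg_limit_seq (fun n i => (∫ h, G n h * tr D i (F n) h ∂(mu0 P)).re) N (C + C)
      (fun n => ?_) k0 (fun k hk0 => ?_)
    · obtain ⟨H, hH, e⟩ := legSeq' hD hI hR (hF n).reS (hG n).reS
        (norm_sq_int_re (hF n) (h1 n)) (norm_sq_int_re (hG n) (h2 n))
      obtain ⟨H', hH', e'⟩ := legSeq' hD hI hR (hF n).imS (hG n).imS
        (norm_sq_int_im (hF n) (h1 n)) (norm_sq_int_im (hG n) (h2 n))
      exact ⟨_, polyBdd_sub hH hH', fun i => by rw [hre, e, e']⟩
    · exact (Complex.continuous_re.tendsto _).comp (hk k hk0)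
  have key2 : Tendsto (fun n => (∫ h, G n h * tr D 0 (F n) h ∂(mu0 P)).im) atTop (𝓝 0) := by
    refine leg_limit_seq (fun n i => (∫ h, G n h * tr D i (F n) h ∂(mu0 P)).im) N (C + C)
      (fun n => ?_) k0 (fun k hk0 => ?_)
    · obtain ⟨H, hH, e⟩ := legSeq' hD hI hR (hF n).imS (hG n).reS
        (norm_sq_int_im (hF n) (h1 n)) (norm_sq_int_re (hG n) (h2 n))
      obtain ⟨H', hH', e'⟩ := legSeq' hD hI hR (hF n).reS (hG n).imS
        (norm_sq_int_re (hF n) (h1 n)) (norm_sq_int_im (hG n) (h2 n))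
      exact ⟨_, polyBdd_add hH hH', fun i => by rw [him, e, e']⟩
    · exact (Complex.continuous_im.tendsto _).comp (hk k hk0)
  simp only [tr0] at key1 key2
  have key3 := (Complex.continuous_ofReal.tendsto _).comp key1
  have key4 := (Complex.continuous_ofReal.tendsto _).comp key2
  have := key3.add (key4.mul_const Complex.I)
  simp only [Function.comp_def, Complex.re_add_im, Complex.ofReal_zero, zero_mul,
    add_zero] at this
  exact this

end Vale.Agent.P153.F.SD
end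

section

/-! P153, product Schwinger-Dyson, half-plane statement: the reflected square of the null functional. -/

namespace Vale.Agent.P153.F.SD

open Finset Filter Topology MeasureTheory
open Vale.Agent.P145.FA (gauss_sum PolyBdd LegForm extrap)

variable {P : Measure (Fld)}

lemma ev_congr {w : (ℤ × ℤ) →₀ ℝ} {h h' : Hgt} (hh : ∀ q ∈ w.support, h q = h' q) :
    ev w h = ev w h' := by
  unfold ev
  exact Finsupp.sum_congr fun q hq => by rw [hh q hq]

lemma norm_exp_ev (x : ℝ) : ‖Complex.exp (Complex.I * (x : ℂ))‖ = 1 := by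
  rw [mul_comm]; exact Complex.norm_exp_ofReal_mul_I x

lemma norm_fac (x α : ℝ) : ‖Complex.exp (Complex.I * (x : ℂ)) - (α : ℂ)‖ ≤ 1 + |α| := by
  refine (norm_sub_le _ _).trans ?_
  rw [norm_exp_ev, Complex.norm_real, Real.norm_eq_abs]

lemma norm_Yf (w u : (ℤ × ℤ) →₀ ℝ) (α : ℝ) (h : Hgt) : ‖Yf w u α h‖ ≤ 1 + |α| := by
  unfold Yf
  rw [norm_mul, norm_exp_ev, one_mul]
  exact norm_fac _ _

lemma measurable_Yf (w u : (ℤ × ℤ) →₀ ℝ) (α : ℝ) : Measurable (Yf w u α) := by
  have h1 : ∀ v : (ℤ × ℤ) →₀ ℝ, Measurable fun h : Hgt =>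
      Complex.exp (Complex.I * (ev v h : ℂ)) := fun v =>
    Complex.measurable_exp.comp ((Complex.measurable_ofReal.comp (measurable_ev v)).const_mul _)
  exact (h1 w).mul ((h1 u).sub_const _)

lemma norm_Wf (w u φ : (ℤ × ℤ) →₀ ℝ) (α K : ℝ) (h : Hgt) :
    ‖Wf w u φ α K h‖ ≤ (1 + |α|) * Real.exp (-((ev φ h) ^ 2 / (2 * K ^ 2))) := by
  unfold Wf
  rw [norm_mul, Complex.norm_real, Real.norm_eq_abs, abs_of_pos (Real.exp_pos _)]
  exact mul_le_mul_of_nonneg_right (norm_Yf _ _ _ _) (Real.exp_pos _).le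

lemma measurable_Wf (w u φ : (ℤ × ℤ) →₀ ℝ) (α K : ℝ) : Measurable (Wf w u φ α K) :=
  (measurable_Yf w u α).mul (Complex.measurable_ofReal.comp (Real.measurable_exp.comp
    (((measurable_ev φ).pow_const 2).div_const _).neg))

lemma integrable_gauss2 [IsProbabilityMeasure P] {φ : (ℤ × ℤ) →₀ ℝ} (hφ : mass φ = 1) {K : ℝ}
    (hK : 1 ≤ K) : Integrable (fun h => Real.exp (-((ev φ h) ^ 2 / (2 * K ^ 2)))) (mu0 P) := by
  have h2 : (1 : ℝ) ≤ √2 := by
    rw [show (1 : ℝ) = √1 by simp]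
    exact Real.sqrt_le_sqrt (by norm_num)
  have h := integrable_gauss (P := P) hφ (K := √2 * K) (by nlinarith)
  rwa [mul_pow, Real.sq_sqrt (by norm_num)] at h

lemma adm_Wf [IsProbabilityMeasure P] {w u φ : (ℤ × ℤ) →₀ ℝ} (hφ : mass φ = 1) (α : ℝ) {K : ℝ}
    (hK : 1 ≤ K) {A : Set (ℤ × ℤ)}
    (hA : ∀ q, q ∈ w.support ∨ q ∈ u.support ∨ q ∈ φ.support → q ∈ A) :
    Adm P A (Wf w u φ α K) := by
  classical
  refine ⟨⟨w.support ∪ (u.support ∪ φ.support), fun q hq => ?_, fun h h' hh => ?_⟩,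
    ⟨(1 + |α|), fun h => ?_⟩, ?_⟩
  · simp only [Finset.mem_union] at hq
    exact hA q hq
  · have e1 : ev w h = ev w h' := ev_congr fun q hq => hh q (Finset.mem_union_left _ hq)
    have e2 : ev u h = ev u h' := ev_congr fun q hq =>
      hh q (Finset.mem_union_right _ (Finset.mem_union_left _ hq))
    have e3 : ev φ h = ev φ h' := ev_congr fun q hq =>
      hh q (Finset.mem_union_right _ (Finset.mem_union_right _ hq))
    unfold Wf Yf
    rw [e1, e2, e3]
  · refine (norm_Wf w u φ α K h).trans (mul_le_of_le_one_right (by positivity) ?_)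
    exact Real.exp_le_one_iff.2 (neg_nonpos.2 (by (clear * - hK; positivity)))
  · refine Integrable.mono' ((integrable_gauss2 hφ hK).const_mul (1 + |α|))
      (measurable_Wf w u φ α K).aestronglyMeasurable (Eventually.of_forall (norm_Wf w u φ α K))

/-- gradient part of the reflected square -/
noncomputable def Zf (w u φ : (ℤ × ℤ) →₀ ℝ) (α : ℝ) (ω : Fld) : ℂ :=
  Complex.exp (Complex.I * ((ev w (pth ω) - ev (rf w) (pth ω) : ℝ) : ℂ)) *
    (Complex.exp (Complex.I * (ev u (pth ω) : ℂ)) - (α : ℂ)) *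
    (Complex.exp (Complex.I * ((-ev (rf u) (pth ω) : ℝ) : ℂ)) - (α : ℂ))

lemma measurable_evp (v : (ℤ × ℤ) →₀ ℝ) : Measurable fun ω => ev v (pth ω) :=
  (measurable_ev v).comp (measurable_pi_iff.2 fun q => measurable_pthq q)

lemma measurable_expc {X : Fld → ℝ} (hX : Measurable X) :
    Measurable fun ω => Complex.exp (Complex.I * (X ω : ℂ)) :=
  Complex.measurable_exp.comp ((Complex.measurable_ofReal.comp hX).const_mul _)

lemma measurable_Zf (w u φ : (ℤ × ℤ) →₀ ℝ) (α : ℝ) : Measurable (Zf w u φ α) :=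
  ((measurable_expc ((measurable_evp w).sub (measurable_evp _))).mul
    ((measurable_expc (measurable_evp u)).sub_const _)).mul
    ((measurable_expc (measurable_evp (rf u)).neg).sub_const _)

lemma norm_Zf (w u φ : (ℤ × ℤ) →₀ ℝ) (α : ℝ) (ω : Fld) :
    ‖Zf w u φ α ω‖ ≤ (1 + |α|) ^ 2 := by
  unfold Zf
  rw [norm_mul, norm_mul, norm_exp_ev, one_mul, pow_two]
  exact mul_le_mul (norm_fac _ _) (norm_fac _ _) (norm_nonneg _) (by positivity)

/-- the reflected square, before summation over the levels -/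
lemma Wf_refl {w u φ : (ℤ × ℤ) →₀ ℝ} (hu : mass u = 0) (hφ : mass φ = 1) (α K : ℝ) (hK : K ≠ 0)
    (ω : Fld) (k : ℤ) :
    Wf w u φ α K (fun q => pth ω q + 2 * k) *
      (starRingEnd ℂ) (Wf w u φ α K (pb (dY.θ 0) (fun q => pth ω q + 2 * k))) =
    (Zf w u φ α ω * ((Real.exp (-((ev (rf φ) (pth ω) - ev φ (pth ω)) ^ 2 / (4 * K ^ 2))) : ℝ) : ℂ)) *
      ((Real.exp (-(((ev φ (pth ω) + ev (rf φ) (pth ω)) / 2 + 2 * k) ^ 2 / K ^ 2)) : ℝ) : ℂ) := by
  have e : ∀ v : (ℤ × ℤ) →₀ ℝ, ev v (fun q => pth ω q + 2 * k) = ev v (pth ω) + mass v * (2 * k) := by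
    intro v
    rw [ev_shift]
    push_cast
    ring
  unfold Wf Yf Zf
  simp only [← ev_rf, e, hu, hφ, mass_rf]
  simp only [map_mul, map_sub, Complex.conj_ofReal, ← Complex.exp_conj, map_add, Complex.conj_I]
  have hexp : Real.exp (-((ev φ (pth ω) + 1 * (2 * k)) ^ 2 / (2 * K ^ 2))) *
      Real.exp (-((ev (rf φ) (pth ω) + 1 * (2 * k)) ^ 2 / (2 * K ^ 2))) =
      Real.exp (-((ev (rf φ) (pth ω) - ev φ (pth ω)) ^ 2 / (4 * K ^ 2))) *
      Real.exp (-(((ev φ (pth ω) + ev (rf φ) (pth ω)) / 2 + 2 * k) ^ 2 / K ^ 2)) := by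
    rw [← Real.exp_add, ← Real.exp_add]
    congr 1
    field_simp
    ring
  have hexpC : ((Real.exp (-((ev φ (pth ω) + 1 * (2 * k)) ^ 2 / (2 * K ^ 2))) : ℝ) : ℂ) *
      ((Real.exp (-((ev (rf φ) (pth ω) + 1 * (2 * k)) ^ 2 / (2 * K ^ 2))) : ℝ) : ℂ) =
      ((Real.exp (-((ev (rf φ) (pth ω) - ev φ (pth ω)) ^ 2 / (4 * K ^ 2))) : ℝ) : ℂ) *
      ((Real.exp (-(((ev φ (pth ω) + ev (rf φ) (pth ω)) / 2 + 2 * k) ^ 2 / K ^ 2)) : ℝ) : ℂ) := by
    rw [← Complex.ofReal_mul, ← Complex.ofReal_mul, hexp]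
  have hw : Complex.exp (Complex.I * ((ev w (pth ω) + mass w * (2 * k) : ℝ) : ℂ)) *
      Complex.exp (-Complex.I * ((ev (rf w) (pth ω) + mass w * (2 * k) : ℝ) : ℂ)) =
      Complex.exp (Complex.I * ((ev w (pth ω) - ev (rf w) (pth ω) : ℝ) : ℂ)) := by
    rw [← Complex.exp_add]
    congr 1
    push_cast
    ring
  have hu1 : Complex.exp (Complex.I * ((ev u (pth ω) + 0 * (2 * k) : ℝ) : ℂ)) =
      Complex.exp (Complex.I * (ev u (pth ω) : ℂ)) := by
    rw [zero_mul, add_zero]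
  have hu2 : Complex.exp (-Complex.I * ((ev (rf u) (pth ω) + 0 * (2 * k) : ℝ) : ℂ)) =
      Complex.exp (Complex.I * ((-ev (rf u) (pth ω) : ℝ) : ℂ)) := by
    rw [zero_mul, add_zero]
    congr 1
    push_cast
    ring
  rw [hu1, hu2]
  calc _ = (Complex.exp (Complex.I * ((ev w (pth ω) + mass w * (2 * k) : ℝ) : ℂ)) *
      Complex.exp (-Complex.I * ((ev (rf w) (pth ω) + mass w * (2 * k) : ℝ) : ℂ))) *
      (Complex.exp (Complex.I * (ev u (pth ω) : ℂ)) - (α : ℂ)) *
      (Complex.exp (Complex.I * ((-ev (rf u) (pth ω) : ℝ) : ℂ)) - (α : ℂ)) *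
      (((Real.exp (-((ev φ (pth ω) + 1 * (2 * k)) ^ 2 / (2 * K ^ 2))) : ℝ) : ℂ) *
      ((Real.exp (-((ev (rf φ) (pth ω) + 1 * (2 * k)) ^ 2 / (2 * K ^ 2))) : ℝ) : ℂ)) := by ring
    _ = _ := by
      rw [hw, hexpC]
      ring

end Vale.Agent.P153.F.SD
end

section

/-!
# P153, block F-B: the closed edges of the limit law satisfy the hypotheses of the RSW theorem
-/

namespace Vale.Agent.P153.F.RSW

open MeasureTheory Filter Topology
open Vale.Agent.P153.A
open Vale.Agent.P153.A.QLim (loc_meas tau_meas)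

/-- The event as a function of the spins. -/
noncomputable def ind (E : Set (ℤ × ℤ) → Prop) : Sp → ℝ :=
  {s : Sp | E (Wp s)}.indicator fun _ => (1 : ℝ)

theorem ind_one {E : Set (ℤ × ℤ) → Prop} {s : Sp} (h : E (Wp s)) : ind E s = 1 :=
  Set.indicator_of_mem (s := {s : Sp | E (Wp s)}) h _

theorem ind_zero {E : Set (ℤ × ℤ) → Prop} {s : Sp} (h : ¬ E (Wp s)) : ind E s = 0 :=
  Set.indicator_of_notMem (s := {s : Sp | E (Wp s)}) h _

theorem ind_mono {E : Set (ℤ × ℤ) → Prop} (h : Inc E) : Monotone (ind E) := by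
  intro s t hst
  by_cases h1 : E (Wp s)
  · rw [ind_one h1, ind_one (h _ _ (Wp_mono hst) h1)]
  · rw [ind_zero h1]
    exact Set.indicator_nonneg (fun _ _ => zero_le_one) _

theorem ind_loc {E : Set (ℤ × ℤ) → Prop} (h : Loc E) : ∃ B : Finset Pt, A.Loc B (ind E) := by
  obtain ⟨N, hN⟩ := h
  refine ⟨bx (N.toNat + 1), fun s t hst => ?_⟩
  have hv : ∀ z : ℤ × ℤ, |z.1| ≤ N → |z.2| ≤ N → v1 z ∈ bx (N.toNat + 1) ∧
      v2 z ∈ bx (N.toNat + 1) := by
    intro z h1 h2
    rw [abs_le] at h1 h2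
    unfold bx v1 v2
    simp only [Finset.mem_product, Finset.mem_Icc, Nat.cast_add, Nat.cast_one]
    omega
  have key : ∀ z : ℤ × ℤ, |z.1| ≤ N → |z.2| ≤ N → (z ∈ Wp s ↔ z ∈ Wp t) := by
    intro z h1 h2
    obtain ⟨h3, h4⟩ := hv z h1 h2
    show (z ∈ Mid ∧ s (v1 z) = true ∧ s (v2 z) = true) ↔
      (z ∈ Mid ∧ t (v1 z) = true ∧ t (v2 z) = true)
    rw [hst _ h3, hst _ h4]
  by_cases h1 : E (Wp s)
  · rw [ind_one h1, ind_one (hN _ _ key h1)]
  · rw [ind_zero h1, ind_zero fun h2 => h1 (hN _ _ (fun z a b => (key z a b).symm) h2)]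

theorem Wp_comp {T : ℤ × ℤ → ℤ × ℤ} {θ : Pt → Pt} (hM : ∀ z, T z ∈ Mid ↔ z ∈ Mid)
    (h : ∀ z, (v1 (T z) = θ (v1 z) ∧ v2 (T z) = θ (v2 z)) ∨
      (v1 (T z) = θ (v2 z) ∧ v2 (T z) = θ (v1 z))) (s : Sp) :
    {z | T z ∈ Wp s} = Wp fun x => s (θ x) := by
  ext z
  show (T z ∈ Mid ∧ s (v1 (T z)) = true ∧ s (v2 (T z)) = true) ↔
    (z ∈ Mid ∧ s (θ (v1 z)) = true ∧ s (θ (v2 z)) = true)
  rw [hM]
  rcases h z with ⟨h1, h2⟩ | ⟨h1, h2⟩
  · rw [h1, h2]
  · rw [h1, h2, and_comm (a := s (θ (v2 z)) = true)]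

variable {Q : Measure Om}

theorem meas_ev {E : Set (ℤ × ℤ) → Prop} (h : Loc E) :
    MeasurableSet {ω : Om | E (Wp (tau ω))} := by
  obtain ⟨B, hB⟩ := ind_loc h
  have h1 : Measurable fun ω : Om => ind E (tau ω) := (A.QLim.loc_meas hB).comp tau_meas
  have h2 : {ω : Om | E (Wp (tau ω))} = (fun ω : Om => ind E (tau ω)) ⁻¹' {1} := by
    ext ω
    show E (Wp (tau ω)) ↔ ind E (tau ω) = 1
    by_cases h3 : E (Wp (tau ω))
    · rw [ind_one h3]; exact ⟨fun _ => rfl, fun _ => h3⟩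
    · rw [ind_zero h3]
      exact ⟨fun h4 => absurd h4 h3, fun h4 => absurd h4 (by norm_num)⟩
  rw [h2]
  exact h1 (measurableSet_singleton _)

theorem int_ind {E : Set (ℤ × ℤ) → Prop} (h : Loc E) :
    ∫ ω, ind E (tau ω) ∂Q = pW Q E := by
  have h1 : (fun ω : Om => ind E (tau ω)) = {ω : Om | E (Wp (tau ω))}.indicator 1 := by
    funext ω
    by_cases h3 : E (Wp (tau ω))
    · rw [ind_one h3, Set.indicator_of_mem (s := {ω : Om | E (Wp (tau ω))}) h3]; rfl
    · rw [ind_zero h3, Set.indicator_of_notMem (s := {ω : Om | E (Wp (tau ω))}) h3]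
  rw [h1, integral_indicator_one (meas_ev h)]
  rfl

theorem lim_ind (hQ : IsQ Q) {E : Set (ℤ × ℤ) → Prop} (h : Loc E) :
    Tendsto (fun D => E1 D (ind E)) atTop (𝓝 (pW Q E)) := by
  obtain ⟨B, hB⟩ := ind_loc h
  rw [← int_ind h]
  exact hQ.lim B (fun ω => ind E (tau ω)) fun ω ω' h => hB _ _ fun x hx =>
    congrArg Prod.fst (h x hx)

theorem pW_fkg (hQ : IsQ Q) {E F : Set (ℤ × ℤ) → Prop} (hE : IL E) (hF : IL F) :
    pW Q E * pW Q F ≤ pW Q fun S => E S ∧ F S := by
  have h1 : (fun s => ind E s * ind F s) = ind fun S => E S ∧ F S := by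
    funext s
    by_cases h2 : E (Wp s)
    · by_cases h3 : F (Wp s)
      · rw [ind_one h2, ind_one h3, ind_one (E := fun S => E S ∧ F S) ⟨h2, h3⟩, one_mul]
      · rw [ind_zero h3, mul_zero, ind_zero (E := fun S => E S ∧ F S) fun h => h3 h.2]
    · rw [ind_zero h2, zero_mul, ind_zero (E := fun S => E S ∧ F S) fun h => h2 h.1]
  refine le_of_tendsto_of_tendsto ((lim_ind hQ hE.2).mul (lim_ind hQ hF.2))
    (lim_ind hQ (hE.and hF).2) (Eventually.of_forall fun D => ?_)
  have h2 := s_fkg s_super s_e1 D (ind E) (ind F) (ind_mono hE.1) (ind_mono hF.1)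
  rw [h1] at h2
  exact h2

theorem pW_sym (hQ : IsQ Q) (θ : Pt ≃ Pt) (hθ : ∀ v u, GFF.Adj v u ↔ GFF.Adj (θ v) (θ u))
    {T : ℤ × ℤ → ℤ × ℤ} (hM : ∀ z, T z ∈ Mid ↔ z ∈ Mid)
    (h : ∀ z, (v1 (T z) = θ (v1 z) ∧ v2 (T z) = θ (v2 z)) ∨
      (v1 (T z) = θ (v2 z) ∧ v2 (T z) = θ (v1 z))) {E : Set (ℤ × ℤ) → Prop} (hE : IL E) :
    pW Q (fun S => E {z | T z ∈ S}) = pW Q E := by
  have hm : Measurable fun (ω : Om) x => ω (θ x) :=
    measurable_pi_lambda _ fun x => measurable_pi_apply _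
  unfold pW
  have h1 : {ω : Om | E {z | T z ∈ Wp (tau ω)}} =
      (fun (ω : Om) x => ω (θ x)) ⁻¹' {ω : Om | E (Wp (tau ω))} := by
    ext ω
    show E {z | T z ∈ Wp (tau ω)} ↔ E (Wp (tau fun x => ω (θ x)))
    rw [Wp_comp hM h (tau ω)]
    rfl
  rw [h1, ← map_measureReal_apply hm (meas_ev hE.2), (s_sym Q hQ).1 θ hθ]

theorem adj_iff {x y : ℤ × ℤ} : GFF.Adj x y ↔
    (y.1 - x.1 = 1 ∧ y.2 - x.2 = 0) ∨ (y.1 - x.1 = -1 ∧ y.2 - x.2 = 0) ∨
    (y.1 - x.1 = 0 ∧ y.2 - x.2 = 1) ∨ (y.1 - x.1 = 0 ∧ y.2 - x.2 = -1) ∨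
    (y.1 - x.1 = 1 ∧ y.2 - x.2 = -1) ∨ (y.1 - x.1 = -1 ∧ y.2 - x.2 = 1) := by
  unfold GFF.Adj
  simp only [Set.mem_insert_iff, Set.mem_singleton_iff, Prod.mk.injEq]

/-- Translation. -/
def tSh (a b : ℤ) : Pt ≃ Pt where
  toFun x := (x.1 + a, x.2 + b)
  invFun x := (x.1 - a, x.2 - b)
  left_inv x := by simp
  right_inv x := by simp

/-- Reflection `(i, j) ↦ (-i - j, j)`. -/
def tX : Pt ≃ Pt where
  toFun x := (-x.1 - x.2, x.2)
  invFun x := (-x.1 - x.2, x.2)
  left_inv x := by ext <;> simp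
  right_inv x := by ext <;> simp

/-- Reflection `(i, j) ↦ (i + j, -j)`. -/
def tY : Pt ≃ Pt where
  toFun x := (x.1 + x.2, -x.2)
  invFun x := (x.1 + x.2, -x.2)
  left_inv x := by ext <;> simp
  right_inv x := by ext <;> simp

/-- Reflection `(i, j) ↦ (j, i)`. -/
def tS : Pt ≃ Pt where
  toFun x := (x.2, x.1)
  invFun x := (x.2, x.1)
  left_inv _ := rfl
  right_inv _ := rfl

theorem tSh_ap (a b : ℤ) (x : Pt) : tSh a b x = (x.1 + a, x.2 + b) := rfl
theorem tX_ap (x : Pt) : tX x = (-x.1 - x.2, x.2) := rfl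
theorem tY_ap (x : Pt) : tY x = (x.1 + x.2, -x.2) := rfl
theorem tS_ap (x : Pt) : tS x = (x.2, x.1) := rfl

theorem mid_iff {z : ℤ × ℤ} : z ∈ Mid ↔ z.1 % 2 = 1 ∨ z.2 % 2 = 1 := by
  show (Odd z.1 ∨ Odd z.2) ↔ _
  rw [Int.odd_iff, Int.odd_iff]

/-- The closed edges of the limit law. -/
noncomputable def ptQ (hQ : IsQ Q) : PT where
  p := pW Q
  nonneg _ := measureReal_nonneg
  le_one _ := by
    have := hQ.prob
    exact measureReal_le_one
  mono E F h := by
    have := hQ.prob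
    exact measureReal_mono (fun ω hω => h _ (Wp_sub _) hω)
  or_le E F := by
    have := hQ.prob
    exact measureReal_union_le {ω : Om | E (Wp (tau ω))} {ω : Om | F (Wp (tau ω))}
  fkg E F hE hF := pW_fkg hQ hE hF
  shift a b E hE := by
    refine pW_sym hQ (tSh a b) (fun v u => ?_) (T := fun z => (z.1 + 2 * a, z.2 + 2 * b))
      (fun z => ?_) (fun z => ?_) hE
    · rw [adj_iff, adj_iff, tSh_ap, tSh_ap]
      dsimp only
      omega
    · rw [mid_iff, mid_iff]
      dsimp only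
      omega
    · left
      unfold v1 v2
      rw [tSh_ap, tSh_ap]
      dsimp only
      refine ⟨Prod.ext ?_ ?_, Prod.ext ?_ ?_⟩ <;> dsimp only <;> omega
  reflx E hE := by
    refine pW_sym hQ tX (fun v u => ?_) (T := fun z => (-z.1 - z.2, z.2))
      (fun z => ?_) (fun z => ?_) hE
    · rw [adj_iff, adj_iff, tX_ap, tX_ap]
      dsimp only
      omega
    · rw [mid_iff, mid_iff]
      dsimp only
      omega
    · unfold v1 v2
      rw [tX_ap, tX_ap]
      simp only [Prod.mk.injEq]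
      rcases Int.emod_two_eq_zero_or_one z.2 with h2 | h2
      · rcases Int.emod_two_eq_zero_or_one z.1 with h1 | h1
        · left; refine ⟨⟨?_, ?_⟩, ?_, ?_⟩ <;> first | trivial | omega
        · right; refine ⟨⟨?_, ?_⟩, ?_, ?_⟩ <;> first | trivial | omega
      · left; refine ⟨⟨?_, ?_⟩, ?_, ?_⟩ <;> first | trivial | omega
  refly E hE := by
    refine pW_sym hQ tY (fun v u => ?_) (T := fun z => (z.1 + z.2, -z.2))
      (fun z => ?_) (fun z => ?_) hE
    · rw [adj_iff, adj_iff, tY_ap, tY_ap]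
      dsimp only
      omega
    · rw [mid_iff, mid_iff]
      dsimp only
      omega
    · unfold v1 v2
      rw [tY_ap, tY_ap]
      simp only [Prod.mk.injEq]
      rcases Int.emod_two_eq_zero_or_one z.1 with h1 | h1 <;>
        rcases Int.emod_two_eq_zero_or_one z.2 with h2 | h2 <;> omega
  swap E hE := by
    refine pW_sym hQ tS (fun v u => ?_) (T := fun z => (z.2, z.1))
      (fun z => ?_) (fun z => ?_) hE
    · rw [adj_iff, adj_iff, tS_ap, tS_ap]
      dsimp only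
      omega
    · rw [mid_iff, mid_iff]
      dsimp only
      omega
    · exact Or.inr ⟨rfl, rfl⟩

end Vale.Agent.P153.F.RSW
end

section

/-!
The Courant-Lebesgue lemma: among the circles `|p - x| = r`, `R₁ < r < R₂`, there is one on which a
function of small energy has small oscillation.
-/

namespace Vale.Agent.P145.PT

open MeasureTheory Set Filter Topology

/-- The point of the circle. -/
noncomputable def cp (x : ℝ × ℝ) (r θ : ℝ) : ℝ × ℝ := (x.1 + r * Real.cos θ, x.2 + r * Real.sin θ)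

/-- The angular derivative. -/
noncomputable def GG (ψ : ℝ × ℝ → ℝ) (x : ℝ × ℝ) (r θ : ℝ) : ℝ :=
  dx ψ (cp x r θ) * (-(r * Real.sin θ)) + dy ψ (cp x r θ) * (r * Real.cos θ)

theorem fderiv_eq_dxdy (ψ : ℝ × ℝ → ℝ) (z v : ℝ × ℝ) :
    fderiv ℝ ψ z v = dx ψ z * v.1 + dy ψ z * v.2 := by
  unfold dx dy
  have : v = v.1 • ((1, 0) : ℝ × ℝ) + v.2 • ((0, 1) : ℝ × ℝ) := by ext <;> simp
  conv_lhs => rw [this]
  rw [map_add, map_smul, map_smul]; simp only [smul_eq_mul]; ring

theorem GG_hasDeriv {ψ : ℝ × ℝ → ℝ} (hψ : Sm ψ) (x : ℝ × ℝ) (r θ : ℝ) :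
    HasDerivAt (fun θ => ψ (cp x r θ)) (GG ψ x r θ) θ := by
  have h1 : HasDerivAt (fun θ => cp x r θ) (-(r * Real.sin θ), r * Real.cos θ) θ := by
    refine HasDerivAt.prodMk ?_ ?_
    · have := ((Real.hasDerivAt_cos θ).const_mul r).const_add x.1
      refine this.congr_deriv ?_; ring
    · have := ((Real.hasDerivAt_sin θ).const_mul r).const_add x.2
      exact this
  have h2 := (hψ.diff (cp x r θ)).hasFDerivAt.comp_hasDerivAt θ h1
  refine h2.congr_deriv ?_
  rw [fderiv_eq_dxdy]; rfl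

theorem cp_cont (x : ℝ × ℝ) : Continuous (fun q : ℝ × ℝ => cp x q.1 q.2) := by
  unfold cp; fun_prop

theorem GG_cont {ψ : ℝ × ℝ → ℝ} (hψ : Sm ψ) (x : ℝ × ℝ) :
    Continuous (fun q : ℝ × ℝ => GG ψ x q.1 q.2) := by
  unfold GG
  have h1 := hψ.dx.continuous.comp (cp_cont x)
  have h2 := hψ.dy.continuous.comp (cp_cont x)
  have h3 : Continuous (fun q : ℝ × ℝ => -(q.1 * Real.sin q.2)) := by fun_prop
  have h4 : Continuous (fun q : ℝ × ℝ => q.1 * Real.cos q.2) := by fun_prop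
  exact (h1.mul h3).add (h2.mul h4)

theorem GG_sq_le (ψ : ℝ × ℝ → ℝ) (x : ℝ × ℝ) {r θ : ℝ} (hr : 0 < r) :
    r⁻¹ * GG ψ x r θ ^ 2 ≤ r * (dx ψ (cp x r θ) ^ 2 + dy ψ (cp x r θ) ^ 2) := by
  unfold GG
  set a := dx ψ (cp x r θ)
  set b := dy ψ (cp x r θ)
  have h := Real.sin_sq_add_cos_sq θ
  have e : (a * (-(r * Real.sin θ)) + b * (r * Real.cos θ)) ^ 2
      = r ^ 2 * ((a ^ 2 + b ^ 2) * (Real.sin θ ^ 2 + Real.cos θ ^ 2)
        - (a * Real.cos θ + b * Real.sin θ) ^ 2) := by ring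
  rw [e, h, mul_one]
  have : r⁻¹ * (r ^ 2 * (a ^ 2 + b ^ 2 - (a * Real.cos θ + b * Real.sin θ) ^ 2))
      = r * (a ^ 2 + b ^ 2) - r * (a * Real.cos θ + b * Real.sin θ) ^ 2 := by
    field_simp
  rw [this]
  have : 0 ≤ r * (a * Real.cos θ + b * Real.sin θ) ^ 2 := by (clear * - hr; positivity)
  linarith only [this]

theorem polar_energy {D : Set (ℝ × ℝ)} {ψ : ℝ × ℝ → ℝ} (hψ : TestOn D ψ) (x : ℝ × ℝ)
    {R₁ R₂ q : ℝ} (h1 : 0 < R₁) (h12 : R₁ < R₂)
    (hq : ∀ r ∈ Ioo R₁ R₂, q ≤ ∫ θ in Ioo (-Real.pi) Real.pi, GG ψ x r θ ^ 2) :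
    q * Real.log (R₂ / R₁) ≤ energy ψ := by
  set e : ℝ × ℝ → ℝ := fun z => dx ψ z ^ 2 + dy ψ z ^ 2 with he
  have hec : Continuous e := (hψ.dx.cont.pow 2).add (hψ.dy.cont.pow 2)
  have hei : Integrable e := hψ.intE
  have e1 : energy ψ = ∫ p, e (x + p) := (integral_add_left_eq_self e x).symm
  have e2 : ∫ p, e (x + p) = ∫ p in polarCoord.target, p.1 • e (x + polarCoord.symm p) :=
    (integral_comp_polarCoord_symm (fun p => e (x + p))).symm
  have hcp : ∀ p : ℝ × ℝ, x + polarCoord.symm p = cp x p.1 p.2 := by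
    intro p; rw [polarCoord_symm_apply]; rfl
  have hi0 : IntegrableOn (fun p : ℝ × ℝ => p.1 • e (x + polarCoord.symm p)) polarCoord.target := by
    have h := (integrableOn_image_iff_integrableOn_abs_det_fderiv_smul volume
      polarCoord.open_target.measurableSet
      (fun p _ => (hasFDerivAt_polarCoord_symm p).hasFDerivWithinAt)
      polarCoord.symm.injOn (fun p => e (x + p))).1 ?_
    · refine h.congr_fun (fun p hp => ?_) polarCoord.open_target.measurableSet
      have : 0 < p.1 := hp.1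
      simp only [det_fderivPolarCoordSymm, abs_of_pos this]
    · exact (hei.comp_add_left x).integrableOn
  set S : Set (ℝ × ℝ) := Ioo R₁ R₂ ×ˢ Ioo (-Real.pi) Real.pi with hS
  have hSsub : S ⊆ polarCoord.target := by
    rintro p ⟨hp1, hp2⟩
    exact ⟨h1.trans hp1.1, hp2⟩
  have hSm : MeasurableSet S := measurableSet_Ioo.prod measurableSet_Ioo
  have e3 : ∫ p in S, p.1 • e (x + polarCoord.symm p)
      ≤ ∫ p in polarCoord.target, p.1 • e (x + polarCoord.symm p) := by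
    refine setIntegral_mono_set hi0 ?_ (LE.le.eventuallyLE hSsub)
    refine (ae_restrict_iff' polarCoord.open_target.measurableSet).2 (ae_of_all _ fun p hp => ?_)
    have : 0 < p.1 := hp.1
    simp only [Pi.zero_apply, smul_eq_mul]
    exact mul_nonneg this.le (by rw [he]; (clear * -; positivity))
  have hcontG : ContinuousOn (fun p : ℝ × ℝ => p.1⁻¹ * GG ψ x p.1 p.2 ^ 2)
      (Icc R₁ R₂ ×ˢ Icc (-Real.pi) Real.pi) := by
    refine ContinuousOn.mul ?_ ((GG_cont hψ.sm x).pow 2).continuousOn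
    exact ContinuousOn.inv₀ continuous_fst.continuousOn
      (fun p hp => (lt_of_lt_of_le h1 hp.1.1).ne')
  have hGi : IntegrableOn (fun p : ℝ × ℝ => p.1⁻¹ * GG ψ x p.1 p.2 ^ 2) S :=
    (hcontG.integrableOn_compact (isCompact_Icc.prod isCompact_Icc)).mono_set
      (prod_mono Ioo_subset_Icc_self Ioo_subset_Icc_self)
  have e4 : ∫ p in S, p.1⁻¹ * GG ψ x p.1 p.2 ^ 2 ≤ ∫ p in S, p.1 • e (x + polarCoord.symm p) := by
    refine setIntegral_mono_on hGi (hi0.mono_set hSsub) hSm fun p hp => ?_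
    rw [hcp, smul_eq_mul]
    exact GG_sq_le ψ x (h1.trans hp.1.1)
  have e5 : ∫ p in S, p.1⁻¹ * GG ψ x p.1 p.2 ^ 2
      = ∫ r in Ioo R₁ R₂, ∫ θ in Ioo (-Real.pi) Real.pi, r⁻¹ * GG ψ x r θ ^ 2 := by
    rw [hS]
    exact setIntegral_prod _ hGi
  have hlogi : IntegrableOn (fun r : ℝ => q * r⁻¹) (Ioo R₁ R₂) := by
    have : ContinuousOn (fun r : ℝ => q * r⁻¹) (Icc R₁ R₂) :=
      continuousOn_const.mul (continuousOn_id.inv₀ fun r hr => (lt_of_lt_of_le h1 hr.1).ne')
    exact this.integrableOn_Icc.mono_set Ioo_subset_Icc_self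
  have e6 : ∫ r in Ioo R₁ R₂, q * r⁻¹
      ≤ ∫ r in Ioo R₁ R₂, ∫ θ in Ioo (-Real.pi) Real.pi, r⁻¹ * GG ψ x r θ ^ 2 := by
    refine setIntegral_mono_on hlogi ?_ measurableSet_Ioo fun r hr => ?_
    · have := hGi
      rw [hS, IntegrableOn, Measure.volume_eq_prod, ← Measure.prod_restrict] at this
      exact this.integral_prod_left
    · rw [integral_const_mul, mul_comm q]
      exact mul_le_mul_of_nonneg_left (hq r hr) (inv_nonneg.2 (h1.trans hr.1).le)
  have e7 : ∫ r in Ioo R₁ R₂, q * r⁻¹ = q * Real.log (R₂ / R₁) := by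
    rw [integral_const_mul, ← integral_Ioc_eq_integral_Ioo,
      ← intervalIntegral.integral_of_le h12.le, integral_inv_of_pos h1 (h1.trans h12)]
  rw [e1, e2, ← e7]
  exact e6.trans (e5.symm.le.trans (e4.trans e3))

/-- Courant-Lebesgue. -/
theorem courant {D : Set (ℝ × ℝ)} {ψ : ℝ × ℝ → ℝ} (hψ : TestOn D ψ) (x : ℝ × ℝ)
    {R₁ R₂ δ : ℝ} (h1 : 0 < R₁) (h12 : R₁ < R₂) (hδ : 0 < δ)
    (hE : energy ψ < δ ^ 2 * Real.log (R₂ / R₁))
    (hz : ∀ r ∈ Ioo R₁ R₂, ∃ θ₀ ∈ Icc (-Real.pi) Real.pi, ψ (cp x r θ₀) = 0) :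
    ∃ r ∈ Ioo R₁ R₂, ∀ θ ∈ Icc (-Real.pi) Real.pi, |ψ (cp x r θ)| ≤ 4 * δ := by
  have hex : ∃ r ∈ Ioo R₁ R₂, ∫ θ in Ioo (-Real.pi) Real.pi, GG ψ x r θ ^ 2 < δ ^ 2 := by
    by_contra hc
    push Not at hc
    have := polar_energy hψ x h1 h12 hc
    linarith only [hE, this]
  obtain ⟨r, hr, hlt⟩ := hex
  obtain ⟨θ₀, hθ₀, hz0⟩ := hz r hr
  refine ⟨r, hr, fun θ hθ => ?_⟩
  have hGc : Continuous (fun θ => GG ψ x r θ) :=
    (GG_cont hψ.sm x).comp (continuous_const.prodMk continuous_id)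
  have hftc : ∫ t in θ₀..θ, GG ψ x r t = ψ (cp x r θ) := by
    rw [intervalIntegral.integral_eq_sub_of_hasDerivAt (fun t _ => GG_hasDeriv hψ.sm x r t)
      (hGc.intervalIntegrable _ _), hz0, sub_zero]
  rw [← hftc]
  have hpi := Real.pi_pos
  have hsub : uIoc θ₀ θ ⊆ Ioc (-Real.pi) Real.pi := by
    rw [uIoc]
    exact Ioc_subset_Ioc (le_min hθ₀.1 hθ.1) (max_le hθ₀.2 hθ.2)
  have hi1 : IntegrableOn (fun t => |GG ψ x r t|) (Ioc (-Real.pi) Real.pi) :=
    (hGc.abs.integrableOn_Icc).mono_set Ioc_subset_Icc_self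
  have hi2 : IntegrableOn (fun t => GG ψ x r t ^ 2) (Ioc (-Real.pi) Real.pi) :=
    ((hGc.pow 2).integrableOn_Icc).mono_set Ioc_subset_Icc_self
  have hi3 : IntegrableOn (fun t => δ / 2 + (2 * δ)⁻¹ * GG ψ x r t ^ 2)
      (Ioc (-Real.pi) Real.pi) := by
    refine Integrable.add ?_ (hi2.const_mul _)
    exact integrableOn_const (hs := by simp only [Real.volume_Ioc, sub_neg_eq_add, ne_eq, ENNReal.ofReal_ne_top, not_false_eq_true])
  calc |∫ t in θ₀..θ, GG ψ x r t| ≤ ∫ t in uIoc θ₀ θ, |GG ψ x r t| := by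
        have := intervalIntegral.norm_integral_le_integral_norm_uIoc (f := fun t => GG ψ x r t)
          (a := θ₀) (b := θ) (μ := volume)
        simpa only [ge_iff_le, Real.norm_eq_abs] using this
    _ ≤ ∫ t in Ioc (-Real.pi) Real.pi, |GG ψ x r t| :=
        setIntegral_mono_set hi1 (ae_of_all _ fun t => abs_nonneg _)
          (LE.le.eventuallyLE hsub)
    _ ≤ ∫ t in Ioc (-Real.pi) Real.pi, (δ / 2 + (2 * δ)⁻¹ * GG ψ x r t ^ 2) := by
        refine setIntegral_mono_on hi1 hi3 measurableSet_Ioc fun t _ => ?_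
        have h0 : 0 ≤ (2 * δ)⁻¹ * (|GG ψ x r t| - δ) ^ 2 := by (clear * - hδ; positivity)
        have e : (2 * δ)⁻¹ * (|GG ψ x r t| - δ) ^ 2
            = δ / 2 + (2 * δ)⁻¹ * GG ψ x r t ^ 2 - |GG ψ x r t| := by
          rw [sub_sq, sq_abs]; field_simp; ring
        linarith
    _ = Real.pi * δ + (2 * δ)⁻¹ * ∫ t in Ioo (-Real.pi) Real.pi, GG ψ x r t ^ 2 := by
        have hi4 : Integrable (fun _ : ℝ => δ / 2)
            (volume.restrict (Ioc (-Real.pi) Real.pi)) := integrable_const _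
        rw [integral_add hi4 (hi2.const_mul _),
          setIntegral_const, integral_const_mul, integral_Ioc_eq_integral_Ioo]
        congr 1
        rw [Measure.real, Real.volume_Ioc, ENNReal.toReal_ofReal (by linarith only [hpi]), smul_eq_mul]
        ring
    _ ≤ Real.pi * δ + (2 * δ)⁻¹ * δ ^ 2 := by
        (clear * - hlt hδ; gcongr)
    _ = (Real.pi + 1 / 2) * δ := by (clear * - hδ; field_simp)
    _ ≤ 4 * δ := by
        refine mul_le_mul_of_nonneg_right ?_ hδ.le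
        linarith only [Real.pi_lt_d2]

/-- Every point of the circle is `cp x r θ`. -/
theorem exists_angle (x p : ℝ × ℝ) {r : ℝ} (hr : 0 ≤ r) (h : sqn (p - x) = r ^ 2) :
    ∃ θ ∈ Icc (-Real.pi) Real.pi, p = cp x r θ := by
  set z : ℂ := ⟨p.1 - x.1, p.2 - x.2⟩ with hz
  have hn : ‖z‖ = r := by
    have : ‖z‖ ^ 2 = r ^ 2 := by
      rw [← h, Complex.sq_norm, Complex.normSq_apply]
      simp only [hz, sqn, Prod.fst_sub, Prod.snd_sub]; ring
    exact (pow_left_inj₀ (norm_nonneg _) hr two_ne_zero).1 this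
  refine ⟨z.arg, ⟨(Complex.neg_pi_lt_arg z).le, Complex.arg_le_pi z⟩, ?_⟩
  have h1 := Complex.norm_mul_cos_arg z
  have h2 := Complex.norm_mul_sin_arg z
  rw [hn] at h1 h2
  refine Prod.ext ?_ ?_
  · change p.1 = x.1 + r * Real.cos z.arg
    rw [h1, hz]; ring
  · change p.2 = x.2 + r * Real.sin z.arg
    rw [h2, hz]; ring

end Vale.Agent.P145.PT
end

section

/-!
Stability of the Dirichlet form under shrinking of outer approximations.
-/

namespace Vale.Agent.P145.PT

open MeasureTheory Set Filter Topology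

theorem energy_sub {D : Set (ℝ × ℝ)} {f g : ℝ × ℝ → ℝ} (hf : TestOn D f) (hg : TestOn D g)
    (c : ℝ) : energy (fun z => f z + c * g z) = energy f
      + 2 * c * (∫ z, (dx f z * dx g z + dy f z * dy g z)) + c ^ 2 * energy g := by
  have i1 : Integrable (fun z => dx f z * dx g z + dy f z * dy g z) :=
    (hf.dx.intMul hg.dx.cont).add (hf.dy.intMul hg.dy.cont)
  have hcg : Sm (fun z => c * g z) := contDiff_const.mul hg.sm
  have j2 : Integrable (fun z => 2 * c * (dx f z * dx g z + dy f z * dy g z)) := i1.const_mul _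
  have j3 : Integrable (fun z => (dx f z ^ 2 + dy f z ^ 2)
    + 2 * c * (dx f z * dx g z + dy f z * dy g z)) := hf.intE.add j2
  unfold energy
  rw [← integral_const_mul, ← integral_const_mul, ← integral_add hf.intE j2,
    ← integral_add j3 (hg.intE.const_mul _)]
  congr 1; funext z
  rw [dx_add hf.sm hcg, dy_add hf.sm hcg, dx_smul hg.sm, dy_smul hg.sm]
  ring

/-- Truncation of a near maximiser inside a circle. -/
theorem trunc {D D₀ : Set (ℝ × ℝ)} (hb : Bornology.IsBounded D) {φ ψ : ℝ × ℝ → ℝ}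
    (hφ : TestOn D₀ φ) (hψ : TestOn D ψ) {τ : ℝ}
    (hJ : V D φ - τ ≤ (2 * ∫ z, φ z * ψ z) - energy ψ) {x : ℝ × ℝ} {r ε : ℝ} (hε : 0 < ε)
    (hc : ∀ p, sqn (p - x) = r ^ 2 → ψ p < ε) (hφ0 : ∀ p, sqn (p - x) < r ^ 2 → φ p = 0) :
    ∃ a, TestOn D a ∧ energy a ≤ τ ∧ ∀ p, sqn (p - x) < r ^ 2 → ψ p ≤ a p + 2 * ε := by
  classical
  set a : ℝ × ℝ → ℝ := fun p => if sqn (p - x) < r ^ 2 then FF ε (ψ p) else 0 with ha
  have hcs : Continuous (fun p : ℝ × ℝ => sqn (p - x)) :=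
    sqn_smooth.continuous.comp (continuous_id.sub continuous_const)
  -- local form
  have hloc1 : ∀ p, sqn (p - x) < r ^ 2 → a =ᶠ[𝓝 p] fun p => FF ε (ψ p) := by
    intro p hp
    filter_upwards [(isOpen_lt hcs continuous_const).mem_nhds hp] with y hy
    rw [ha]; simp only; rw [if_pos hy]
  have hloc2 : ∀ p, r ^ 2 < sqn (p - x) → a =ᶠ[𝓝 p] fun _ => 0 := by
    intro p hp
    filter_upwards [(isOpen_lt continuous_const hcs).mem_nhds hp] with y hy
    rw [ha]; simp only; rw [if_neg (not_lt.2 (le_of_lt hy))]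
  have hloc3 : ∀ p, sqn (p - x) = r ^ 2 → a =ᶠ[𝓝 p] fun _ => 0 := by
    intro p hp
    filter_upwards [(isOpen_lt hψ.cont continuous_const).mem_nhds (hc p hp)] with y hy
    rw [ha]; simp only
    split_ifs
    · exact FF_zero hε (le_of_lt hy)
    · rfl
  have hsm : Sm a := by
    refine contDiff_iff_contDiffAt.2 fun p => ?_
    rcases lt_trichotomy (sqn (p - x)) (r ^ 2) with h | h | h
    · exact ((FF_smooth ε).comp hψ.sm).contDiffAt.congr_of_eventuallyEq (hloc1 p h)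
    · exact contDiffAt_const.congr_of_eventuallyEq (hloc3 p h)
    · exact contDiffAt_const.congr_of_eventuallyEq (hloc2 p h)
  have hsupp : tsupport a ⊆ tsupport ψ := by
    refine closure_mono fun p hp => ?_
    intro h0
    refine hp ?_
    rw [ha]; simp only
    split_ifs
    · exact FF_zero hε (by rw [h0]; exact hε.le)
    · rfl
  have hat : TestOn D a := by
    refine ⟨hsm, ?_, hsupp.trans hψ.2.2⟩
    exact hψ.2.1.of_isClosed_subset (isClosed_tsupport _) hsupp
  refine ⟨a, hat, ?_, fun p hp => ?_⟩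
  · -- energy
    have hpt : ∀ p v, fderiv ℝ a p v ^ 2 ≤ fderiv ℝ ψ p v * fderiv ℝ a p v := by
      intro p v
      have hz : ∀ c : ℝ × ℝ → ℝ, c =ᶠ[𝓝 p] (fun _ => 0) → fderiv ℝ c p v = 0 := by
        intro c hc'
        rw [hc'.fderiv_eq]; simp
      rcases lt_trichotomy (sqn (p - x)) (r ^ 2) with h | h | h
      · rw [(hloc1 p h).fderiv_eq, fd_comp (FF_hasDeriv ε) hψ.sm]
        set b := Real.smoothTransition ((ψ p - ε) / ε)
        have hb0 : 0 ≤ b := Real.smoothTransition.nonneg _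
        have hb1 : b ≤ 1 := Real.smoothTransition.le_one _
        have : fderiv ℝ ψ p v * (b * fderiv ℝ ψ p v) - (b * fderiv ℝ ψ p v) ^ 2
            = b * (1 - b) * fderiv ℝ ψ p v ^ 2 := by ring
        nlinarith only [mul_nonneg (mul_nonneg hb0 (sub_nonneg.2 hb1)) (sq_nonneg (fderiv ℝ ψ p v))]
      · rw [hz a (hloc3 p h)]; simp
      · rw [hz a (hloc2 p h)]; simp
    have hE1 : energy a ≤ ∫ z, (dx ψ z * dx a z + dy ψ z * dy a z) := by
      refine integral_mono hat.intE ((hψ.dx.intMul hat.dx.cont).add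
        (hψ.dy.intMul hat.dy.cont)) fun z => ?_
      exact add_le_add (hpt z (1, 0)) (hpt z (0, 1))
    have h1 := le_V hb hφ (hψ.add (hat.smul (-1)))
    rw [energy_sub hψ hat (-1)] at h1
    have h2 : ∫ z, φ z * (ψ z + -1 * a z) = ∫ z, φ z * ψ z := by
      congr 1; funext z
      by_cases hz : sqn (z - x) < r ^ 2
      · rw [hφ0 z hz]; simp
      · have : a z = 0 := by rw [ha]; simp only; rw [if_neg hz]
        rw [this]; simp
    rw [h2] at h1
    linarith only [hJ, hE1, h1]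
  · have : a p = FF ε (ψ p) := by rw [ha]; simp only; rw [if_pos hp]
    rw [this]
    linarith only [FF_ge hε (ψ p)]

/-- Cauchy-Schwarz. -/
theorem cs2 {D D' : Set (ℝ × ℝ)} {f g : ℝ × ℝ → ℝ} (hf : TestOn D f) (hg : TestOn D' g) :
    |∫ z, f z * g z| ≤ Real.sqrt (∫ z, f z ^ 2) * Real.sqrt (∫ z, g z ^ 2) := by
  have h0 : 0 ≤ ∫ z, f z ^ 2 := integral_nonneg fun z => sq_nonneg _
  rw [← Real.sqrt_mul h0, ← Real.sqrt_sq_eq_abs]
  refine Real.sqrt_le_sqrt ?_
  have hfg : Integrable (fun z => f z * g z) := hf.intMul hg.cont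
  have h : ∀ t : ℝ, 0 ≤ (∫ z, f z ^ 2) * (t * t) + (-(2 * ∫ z, f z * g z)) * t
      + ∫ z, g z ^ 2 := by
    intro t
    have j1 : Integrable (fun z => (t * t) * f z ^ 2) := hf.intSq.const_mul _
    have j2 : Integrable (fun z => (-(2 * t)) * (f z * g z)) := hfg.const_mul _
    have j3 : Integrable (fun z => (t * t) * f z ^ 2 + (-(2 * t)) * (f z * g z)) := j1.add j2
    have e2 : (∫ z, f z ^ 2) * (t * t) + (-(2 * ∫ z, f z * g z)) * t + ∫ z, g z ^ 2
        = ∫ z, ((t * t) * f z ^ 2 + (-(2 * t)) * (f z * g z) + g z ^ 2) := by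
      rw [integral_add j3 hg.intSq, integral_add j1 j2, integral_const_mul, integral_const_mul]
      ring
    rw [e2]
    refine integral_nonneg fun z => ?_
    have : (t * t) * f z ^ 2 + (-(2 * t)) * (f z * g z) + g z ^ 2 = (t * f z - g z) ^ 2 := by ring
    simp only [Pi.zero_apply, this]; (clear * -; positivity)
  have := discrim_le_zero h
  unfold discrim at this
  linarith

/-- The exterior condition used for the stability. -/
def Ext (D : Set (ℝ × ℝ)) : Prop :=
  ∀ R : ℝ, 0 < R → ∃ s : ℝ, 0 < s ∧ ∃ ρ : ℝ, 0 < ρ ∧ ∀ x ∈ D, dd D x < ρ → ∀ r : ℝ, R ≤ r →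
    ∃ p, sqn (p - x) = r ^ 2 ∧ p ∉ Metric.thickening s D

theorem sqn_le_of_norm (y : ℝ × ℝ) : sqn y ≤ 2 * ‖y‖ ^ 2 := by
  have h1 := norm_fst_le y
  have h2 := norm_snd_le y
  rw [Real.norm_eq_abs] at h1 h2
  have h3 : y.1 ^ 2 ≤ ‖y‖ ^ 2 := by
    rw [← sq_abs y.1]; exact pow_le_pow_left₀ (abs_nonneg _) h1 2
  have h4 : y.2 ^ 2 ≤ ‖y‖ ^ 2 := by
    rw [← sq_abs y.2]; exact pow_le_pow_left₀ (abs_nonneg _) h2 2
  unfold sqn; linarith

theorem norm_sq_le_sqn (y : ℝ × ℝ) : ‖y‖ ^ 2 ≤ sqn y := by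
  have h := norm_le_of_sqn (Real.sqrt_nonneg (sqn y)) (y := y)
    (by rw [Real.sq_sqrt (sqn_nonneg y)])
  calc ‖y‖ ^ 2 ≤ Real.sqrt (sqn y) ^ 2 := pow_le_pow_left₀ (norm_nonneg _) h 2
    _ = sqn y := Real.sq_sqrt (sqn_nonneg y)

theorem stab {D : Set (ℝ × ℝ)} (hD : IsOpen D) (hb : Bornology.IsBounded D) (hext : Ext D)
    {φ : ℝ × ℝ → ℝ} (hφ : TestOn D φ) (hφ0 : ∀ z, 0 ≤ φ z) {η : ℝ} (hη : 0 < η) :
    ∃ s : ℝ, 0 < s ∧ V (Metric.thickening s D) φ ≤ V D φ + η := by
  by_contra hcon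
  push Not at hcon
  -- the outer domains
  set s : ℕ → ℝ := fun n => 1 / ((n : ℝ) + 1) with hs
  have hs0 : ∀ n, 0 < s n := fun n => by positivity
  have hs1 : ∀ n, s n ≤ 1 := fun n => by
    rw [hs]; simp only; rw [div_le_one (by positivity)]
    linarith only []
  have hst : Tendsto s atTop (𝓝 0) := tendsto_one_div_add_atTop_nhds_zero_nat
  set E : ℕ → Set (ℝ × ℝ) := fun n => Metric.thickening (s n) D with hE
  have hEb : ∀ n, Bornology.IsBounded (E n) := fun n => hb.thickening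
  have hDE : ∀ n, D ⊆ E n := fun n => Metric.self_subset_thickening (hs0 n) D
  have hE0 : ∀ n, E n ⊆ Metric.thickening 1 D := fun n => Metric.thickening_mono (hs1 n) D
  have hE0b : Bornology.IsBounded (Metric.thickening (1 : ℝ) D) := hb.thickening
  have hVn : ∀ n, V D φ + η < V (E n) φ := fun n => hcon (s n) (hs0 n)
  set V0 := V (Metric.thickening (1 : ℝ) D) φ with hV0
  have hVn0 : ∀ n, V (E n) φ ≤ V0 := fun n => V_mono hE0b (hE0 n) hφ
  have hVD : 0 ≤ V D φ := V_nonneg hb hφ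
  -- near maximisers
  have hψex : ∀ n, ∃ ψ, TestOn (E n) ψ ∧ V (E n) φ - s n ≤ (2 * ∫ z, φ z * ψ z) - energy ψ := by
    intro n
    have : Nonempty {ψ : ℝ × ℝ → ℝ // TestOn (E n) ψ} := ⟨⟨_, TestOn.zero _⟩⟩
    obtain ⟨ψ, hψ⟩ := exists_lt_of_lt_ciSup (f := fun ψ : {ψ : ℝ × ℝ → ℝ // TestOn (E n) ψ} =>
      (2 * ∫ z, φ z * ψ.1 z) - energy ψ.1) (b := V (E n) φ - s n)
      (by have := hs0 n; unfold V; linarith only [this])
    exact ⟨ψ.1, ψ.2, hψ.le⟩
  choose ψ hψ hJ using hψex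
  have hI2 : ∀ n, (∫ z, φ z * ψ n z) ^ 2 ≤ V (E n) φ * energy (ψ n) := fun n =>
    pair_le (hEb n) hφ (hψ n)
  have hen : ∀ n, energy (ψ n) ≤ 2 + 4 * V0 := by
    intro n
    have h1 := hI2 n
    have h2 := hJ n
    have h3 := energy_nonneg (ψ n)
    have h4 := hVn n
    have h5 := hVn0 n
    have h6 := hs1 n
    by_contra hc
    push Not at hc
    set I := ∫ z, φ z * ψ n z
    set e := energy (ψ n)
    have h7 : e - 1 ≤ 2 * I := by linarith only [hη, hVD, h4, h6, h2]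
    have h8 : (e - 1) ^ 2 ≤ 4 * I ^ 2 := by nlinarith only [hη, h4, hc, hVD, h5, h6, h2, h3]
    have h9 : 4 * I ^ 2 ≤ 4 * (V0 * e) := by nlinarith only [h1, h5, h3]
    nlinarith only [h1, h8, h5, h3, hc]
  have hIlow : ∀ n, V (E n) φ - Real.sqrt (s n * V0) ≤ ∫ z, φ z * ψ n z := by
    intro n
    have h1 := hI2 n
    have h2 := hJ n
    have h4 := hVn n
    have h5 := hVn0 n
    have h6 := hs0 n
    set I := ∫ z, φ z * ψ n z
    set e := energy (ψ n)
    set v := V (E n) φ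
    have hv : 0 < v := by linarith
    by_contra hc
    push Not at hc
    have h7 : Real.sqrt (s n * V0) < v - I := by linarith
    have h8 : s n * V0 < (v - I) ^ 2 := by
      have h80 : 0 ≤ s n * V0 := mul_nonneg h6.le (by linarith)
      calc s n * V0 = Real.sqrt (s n * V0) ^ 2 := (Real.sq_sqrt h80).symm
        _ < (v - I) ^ 2 := pow_lt_pow_left₀ h7 (Real.sqrt_nonneg _) two_ne_zero
    have h9 : v * (v - s n + e) ≤ v * (2 * I) := mul_le_mul_of_nonneg_left (by linarith only [h2]) hv.le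
    nlinarith only [h1, h8, h9, h6, h5]
  -- Poincaré
  obtain ⟨R, hR0, hR⟩ := bdd_fst hE0b
  have hψ2 : ∀ n, ∫ z, ψ n z ^ 2 ≤ 4 * R ^ 2 * (2 + 4 * V0) := by
    intro n
    refine (poincare (fun z hz => hR z (hE0 n hz)) (hψ n)).trans ?_
    exact mul_le_mul_of_nonneg_left ((energy_ge_dx (hψ n)).trans (hen n)) (by (clear * - hR0; positivity))
  set K := Real.sqrt (4 * R ^ 2 * (2 + 4 * V0)) with hK
  have hpair : ∀ θ, TestOn D θ → ∀ n, |∫ z, θ z * ψ n z| ≤ K * Real.sqrt (∫ z, θ z ^ 2) := by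
    intro θ hθ n
    rw [mul_comm]
    refine (cs2 hθ (hψ n)).trans ?_
    exact mul_le_mul_of_nonneg_left (Real.sqrt_le_sqrt (hψ2 n)) (Real.sqrt_nonneg _)
  -- ultrafilter limits
  set 𝒰 : Ultrafilter ℕ := Filter.hyperfilter ℕ with h𝒰
  have h𝒰le : (𝒰 : Filter ℕ) ≤ atTop := Nat.hyperfilter_le_atTop
  set T : (ℝ × ℝ → ℝ) → ℝ := fun θ => limUnder (𝒰 : Filter ℕ) (fun n => ∫ z, θ z * ψ n z) with hT
  have hlim : ∀ θ, TestOn D θ → Tendsto (fun n => ∫ z, θ z * ψ n z) (𝒰 : Filter ℕ) (𝓝 (T θ)) := by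
    intro θ hθ
    refine tendsto_nhds_limUnder ?_
    set B := K * Real.sqrt (∫ z, θ z ^ 2)
    obtain ⟨L, -, hL⟩ := (isCompact_closedBall (0 : ℝ) B).ultrafilter_le_nhds
      (𝒰.map (fun n => ∫ z, θ z * ψ n z)) (by
        rw [Filter.le_principal_iff, Ultrafilter.mem_coe, Ultrafilter.mem_map]
        refine Filter.mem_of_superset Filter.univ_mem fun n _ => ?_
        rw [mem_preimage, mem_closedBall_zero_iff, Real.norm_eq_abs]
        exact hpair θ hθ n)
    exact ⟨L, hL⟩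
  have hneb : (𝒰 : Filter ℕ).NeBot := 𝒰.neBot
  have hTf : L2Fn D T K :=
    { add := fun f g hf hg => by
        refine tendsto_nhds_unique (hlim _ (hf.add hg)) ?_
        refine ((hlim f hf).add (hlim g hg)).congr fun n => ?_
        rw [← integral_add (hf.intMul (hψ n).cont) (hg.intMul (hψ n).cont)]
        congr 1; funext z; ring
      smul := fun c f hf => by
        refine tendsto_nhds_unique (hlim _ (hf.smul c)) ?_
        refine ((hlim f hf).const_mul c).congr fun n => ?_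
        rw [← integral_const_mul]
        congr 1; funext z; ring
      bd := fun f hf => le_of_tendsto (hlim f hf).abs (Eventually.of_forall fun n => hpair f hf n) }
  have hst𝒰 : Tendsto s (𝒰 : Filter ℕ) (𝓝 0) := hst.mono_left h𝒰le
  have hsqrt : ∀ c : ℝ, Tendsto (fun n => Real.sqrt (s n * c)) (𝒰 : Filter ℕ) (𝓝 0) := by
    intro c
    have h1 : Tendsto (fun n => s n * c) (𝒰 : Filter ℕ) (𝓝 (0 * c)) := hst𝒰.mul_const c
    rw [zero_mul] at h1
    have h2 := (Real.continuous_sqrt.tendsto 0).comp h1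
    rwa [Real.sqrt_zero] at h2
  -- the equation
  have heq : ∀ χ, TestOn D χ → T (lap χ) = - ∫ z, χ z * φ z := by
    intro χ hχ
    have hb2 : ∀ n, |(∫ z, φ z * χ z) - ∫ z, (dx (ψ n) z * dx χ z + dy (ψ n) z * dy χ z)|
        ≤ Real.sqrt (s n * energy χ) := by
      intro n
      have hχn : TestOn (E n) χ := hχ.mono (hDE n)
      set b := (∫ z, φ z * χ z) - ∫ z, (dx (ψ n) z * dx χ z + dy (ψ n) z * dy χ z) with hbdef
      have h : ∀ t : ℝ, 0 ≤ energy χ * (t * t) + (-(2 * b)) * t + s n := by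
        intro t
        have h1 := le_V (hEb n) hφ ((hψ n).add (hχn.smul t))
        rw [energy_sub (hψ n) hχn t] at h1
        have h2 : ∫ z, φ z * (ψ n z + t * χ z) = (∫ z, φ z * ψ n z) + t * ∫ z, φ z * χ z := by
          rw [← integral_const_mul, ← integral_add (hφ.intMul (hψ n).cont)
            ((hφ.intMul hχ.cont).const_mul _)]
          congr 1; funext z; ring
        rw [h2] at h1
        have h3 := hJ n
        rw [hbdef]
        linarith
      have hd := discrim_le_zero h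
      unfold discrim at hd
      rw [← Real.sqrt_sq_eq_abs]
      refine Real.sqrt_le_sqrt ?_
      nlinarith only [hd]
    refine tendsto_nhds_unique (hlim _ hχ.lap) ?_
    have h1 : ∀ n, ∫ z, lap χ z * ψ n z
        = ((∫ z, φ z * χ z) - ∫ z, (dx (ψ n) z * dx χ z + dy (ψ n) z * dy χ z))
          - ∫ z, χ z * φ z := by
      intro n
      have h2 : ∫ z, lap χ z * ψ n z = ∫ z, ψ n z * lap χ z := by
        congr 1; funext z; ring
      have h3 : ∫ z, χ z * φ z = ∫ z, φ z * χ z := by congr 1; funext z; ring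
      rw [h2, h3, green_id (hψ n) hχ.sm]; ring
    simp_rw [h1]
    have h4 : Tendsto (fun n => (∫ z, φ z * χ z)
        - ∫ z, (dx (ψ n) z * dx χ z + dy (ψ n) z * dy χ z)) (𝒰 : Filter ℕ) (𝓝 0) :=
      squeeze_zero_norm (fun n => by rw [Real.norm_eq_abs]; exact hb2 n) (hsqrt (energy χ))
    simpa only [zero_sub] using h4.sub_const (∫ z, χ z * φ z)
  -- decay
  have hdec : ∀ ε : ℝ, 0 < ε → ∃ r : ℝ, 0 < r ∧ ∀ x ∈ D, dd D x < r →
      T (bump (dd D x / 2) x) ≤ ε := by
    intro ε hε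
    obtain ⟨rφ, hrφ, hφz⟩ := exists_low hD hb hφ
    set δ : ℝ := ε / 16 with hδ
    have hδ0 : 0 < δ := by (clear * - hε; positivity)
    set E0 : ℝ := 2 + 4 * V0 with hE0'
    set R₂ : ℝ := rφ / 4 with hR₂
    have hR₂0 : 0 < R₂ := by (clear * - hrφ; positivity)
    set L : ℝ := E0 / δ ^ 2 + 1 with hL
    have hE00 : 0 ≤ E0 := (energy_nonneg (ψ 0)).trans (hen 0)
    have hL1 : 0 < L := by (clear * - hE00 hε; positivity)
    set R₁ : ℝ := R₂ * Real.exp (-L) with hR₁
    have hR₁0 : 0 < R₁ := by (clear * - hrφ; positivity)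
    have hR₁₂ : R₁ < R₂ := by
      rw [hR₁]
      have : Real.exp (-L) < 1 := by rw [← Real.exp_zero]; exact Real.exp_lt_exp.2 (by linarith only [hL1])
      nlinarith only [hrφ, this, hR₂]
    have hlog : Real.log (R₂ / R₁) = L := by
      rw [hR₁, div_mul_eq_div_div, div_self hR₂0.ne', one_div, ← Real.exp_neg, neg_neg,
        Real.log_exp]
    obtain ⟨s', hs', ρ, hρ, hx⟩ := hext R₁ hR₁0
    refine ⟨min (min ρ R₁) R₂, lt_min (lt_min hρ hR₁0) hR₂0, fun x hxD hxr => ?_⟩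
    have hx1 : dd D x < ρ := lt_of_lt_of_le hxr ((min_le_left _ _).trans (min_le_left _ _))
    have hx2 : dd D x < R₁ := lt_of_lt_of_le hxr ((min_le_left _ _).trans (min_le_right _ _))
    have hx3 : dd D x < R₂ := lt_of_lt_of_le hxr (min_le_right _ _)
    have hxp : 0 < dd D x := (dd_pos hD hb).2 hxD
    have hbt : TestOn D (bump (dd D x / 2) x) :=
      bump_test (by linarith only [hxp]) (ball_sub (by linarith only [hxp]))
    have hbi : ∫ z, bump (dd D x / 2) x z = 1 := bump_int (by linarith only [hxp]) x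
    set β := bump (dd D x / 2) x with hβ
    have hev : ∀ᶠ n in (𝒰 : Filter ℕ), ∫ z, β z * ψ n z
        ≤ ε + Real.sqrt (∫ z, β z ^ 2) * Real.sqrt (s n * (4 * R ^ 2)) := by
      filter_upwards [hst𝒰.eventually (gt_mem_nhds hs')] with n hn
      have hEs : E n ⊆ Metric.thickening s' D := Metric.thickening_mono hn.le D
      have hvan : ∀ p, p ∉ Metric.thickening s' D → ψ n p = 0 := by
        intro p hp
        by_contra h
        exact hp (hEs ((hψ n).2.2 (subset_tsupport _ h)))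
      obtain ⟨r, hr, hrθ⟩ := courant (hψ n) x hR₁0 hR₁₂ hδ0 (by
          refine lt_of_le_of_lt (hen n) ?_
          rw [hlog, hL, mul_add, mul_one, mul_div_cancel₀ _ (by (clear * - hε; positivity))]
          have : 0 < δ ^ 2 := by positivity
          linarith only [this]) (fun r hr => by
          obtain ⟨p, hp1, hp2⟩ := hx x hxD hx1 r hr.1.le
          obtain ⟨θ, hθ, hpθ⟩ := exists_angle x p (hR₁0.trans hr.1).le hp1
          exact ⟨θ, hθ, by rw [← hpθ]; exact hvan p hp2⟩)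
      have hr0 : 0 < r := hR₁0.trans hr.1
      have hnorm : ∀ p, sqn (p - x) < r ^ 2 → ‖p - x‖ < r := by
        intro p hp
        have := (norm_sq_le_sqn (p - x)).trans_lt hp
        exact lt_of_pow_lt_pow_left₀ 2 hr0.le this
      obtain ⟨a, ha, hea, hpa⟩ := trunc (hEb n) hφ (hψ n) (hJ n) (x := x) (r := r)
        (ε := ε / 2) (by (clear * - hε; positivity)) (fun p hp => by
          obtain ⟨θ, hθ, hpθ⟩ := exists_angle x p hr0.le hp
          have := hrθ θ hθ
          rw [← hpθ] at this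
          have h1 := (abs_le.1 this).2
          rw [hδ] at h1
          linarith only [hε, h1]) (fun p hp => by
          refine hφz p ?_
          have h1 := dd_le_add D p x
          have h2 := hnorm p hp
          rw [dist_eq_norm] at h1
          have h3 := hr.2
          linarith only [hR₂, hR₁₂, hx2, hxp, h1, h2, h3])
      have hbp : ∀ z, β z * ψ n z ≤ β z * (a z + ε) := by
        intro z
        by_cases hz : dd D x / 2 < dist z x
        · rw [hβ, bump_zero (by linarith only [hxp]) hz]; simp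
        · push Not at hz
          have h1 : sqn (z - x) < r ^ 2 := by
            rw [dist_eq_norm] at hz
            have h2 := sqn_le_of_norm (z - x)
            have h3 : ‖z - x‖ ^ 2 ≤ (dd D x / 2) ^ 2 :=
              pow_le_pow_left₀ (norm_nonneg _) hz 2
            have h4 : dd D x < r := hx2.trans hr.1
            nlinarith only [h2, h3, hxp, h4]
          have h5 := hpa z h1
          refine mul_le_mul_of_nonneg_left ?_ (bump_nonneg _ _ _)
          linarith only [h5]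
      have hba : ∫ z, β z * a z ≤ Real.sqrt (∫ z, β z ^ 2) * Real.sqrt (s n * (4 * R ^ 2)) := by
        refine (le_abs_self _).trans ((cs2 hbt ha).trans ?_)
        refine mul_le_mul_of_nonneg_left (Real.sqrt_le_sqrt ?_) (Real.sqrt_nonneg _)
        have h1 := poincare (fun z hz => hR z (hE0 n hz)) ha
        have h2 := energy_ge_dx ha
        have h3 : 0 ≤ 4 * R ^ 2 := by (clear * - hR0; positivity)
        nlinarith only [h1, hea, h2]
      calc ∫ z, β z * ψ n z ≤ ∫ z, β z * (a z + ε) :=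
            integral_mono (hbt.intMul (hψ n).cont) (hbt.intMul (ha.cont.add continuous_const)) hbp
        _ = (∫ z, β z * a z) + ε := by
            have : ∀ z, β z * (a z + ε) = β z * a z + ε * β z := fun z => by ring
            simp_rw [this]
            rw [integral_add (hbt.intMul ha.cont) (hbt.int.const_mul _), integral_const_mul, hbi,
              mul_one]
        _ ≤ _ := by linarith only [hba]
    have hr1 : Tendsto (fun n => ε + Real.sqrt (∫ z, β z ^ 2) * Real.sqrt (s n * (4 * R ^ 2)))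
        (𝒰 : Filter ℕ) (𝓝 (ε + Real.sqrt (∫ z, β z ^ 2) * 0)) :=
      ((hsqrt (4 * R ^ 2)).const_mul _).const_add _
    rw [mul_zero, add_zero] at hr1
    exact le_of_tendsto_of_tendsto (hlim β hbt) hr1 hev
  -- T φ is large
  have hTφ : V D φ + η ≤ T φ := by
    have h1 : Tendsto (fun n => V D φ + η - Real.sqrt (s n * V0)) (𝒰 : Filter ℕ)
        (𝓝 (V D φ + η - 0)) := (hsqrt V0).const_sub _
    rw [sub_zero] at h1
    refine le_of_tendsto_of_tendsto h1 (hlim φ hφ) (Eventually.of_forall fun n => ?_)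
    have h2 := hIlow n
    have h3 := hVn n
    simp only
    linarith only [h2, h3]
  obtain ⟨χ, hχ, hχE, hχT⟩ := lemB hD hb hTf hφ heq hdec hφ hφ0 (show 0 < η / 4 by linarith only [hη])
  have hfin := le_V hb hφ hχ
  linarith only [hη, hTφ, hχE, hχT, hfin]

end Vale.Agent.P145.PT
end

section

/-!
The exterior condition holds for the image of the unit disc under a homeomorphism of the plane, and
the stability theorem for Jordan domains.
-/

namespace Vale.Agent.P145.PT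

open MeasureTheory Set Filter Topology

/-- Euclidean norm. -/
noncomputable def en (w : ℝ × ℝ) : ℝ := Real.sqrt (sqn w)

theorem en_cont : Continuous en := Real.continuous_sqrt.comp sqn_smooth.continuous

theorem en_nonneg (w : ℝ × ℝ) : 0 ≤ en w := Real.sqrt_nonneg _

theorem norm_le_en (w : ℝ × ℝ) : ‖w‖ ≤ en w :=
  norm_le_of_sqn (en_nonneg w) (by unfold en; rw [Real.sq_sqrt (sqn_nonneg w)])

theorem en_smul {c : ℝ} (hc : 0 ≤ c) (w : ℝ × ℝ) : en (c • w) = c * en w := by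
  unfold en
  have : sqn (c • w) = c ^ 2 * sqn w := by
    unfold sqn; simp only [Prod.smul_fst, Prod.smul_snd, smul_eq_mul]; ring
  rw [this, Real.sqrt_mul (sq_nonneg c), Real.sqrt_sq hc]

theorem isCompact_en (r : ℝ) : IsCompact {w : ℝ × ℝ | en w ≤ r} := by
  refine (isCompact_closedBall (0 : ℝ × ℝ) r).of_isClosed_subset
    (isClosed_le en_cont continuous_const) fun w hw => ?_
  rw [mem_closedBall_zero_iff]
  exact (norm_le_en w).trans hw

/-- The open unit disc. -/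
def disc : Set (ℝ × ℝ) := {z | z.1 ^ 2 + z.2 ^ 2 < 1}

theorem mem_disc (w : ℝ × ℝ) : w ∈ disc ↔ en w < 1 := by
  unfold disc en
  rw [Real.sqrt_lt' one_pos, one_pow]
  rfl

theorem isOpen_disc : IsOpen disc := by
  have : disc = {w | en w < 1} := Set.ext mem_disc
  rw [this]; exact isOpen_lt en_cont continuous_const

theorem jordan_isOpen (Φ : (ℝ × ℝ) ≃ₜ (ℝ × ℝ)) : IsOpen (Φ '' disc) :=
  Φ.isOpenMap _ isOpen_disc

theorem jordan_isBounded (Φ : (ℝ × ℝ) ≃ₜ (ℝ × ℝ)) : Bornology.IsBounded (Φ '' disc) := by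
  refine ((isCompact_en 1).image Φ.continuous).isBounded.subset (image_mono fun w hw => ?_)
  exact ((mem_disc w).1 hw).le

theorem jordan_ext (Φ : (ℝ × ℝ) ≃ₜ (ℝ × ℝ)) : Ext (Φ '' disc) := by
  intro R hR
  -- uniform continuity on the disc of radius 2
  have huc : UniformContinuousOn Φ {w : ℝ × ℝ | en w ≤ 2} :=
    (isCompact_en 2).uniformContinuousOn_of_continuous Φ.continuous.continuousOn
  rw [Metric.uniformContinuousOn_iff] at huc
  obtain ⟨δ₀, hδ₀, hδ⟩ := huc (R / 4) (by positivity)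
  set δ := min δ₀ 1 with hδd
  have hδ0 : 0 < δ := lt_min hδ₀ one_pos
  -- the thickening
  set U : Set (ℝ × ℝ) := Φ '' {w | en w < 1 + δ} with hU
  have hUo : IsOpen U := Φ.isOpenMap _ (isOpen_lt en_cont continuous_const)
  have hK : IsCompact (Φ '' {w : ℝ × ℝ | en w ≤ 1}) := (isCompact_en 1).image Φ.continuous
  obtain ⟨s, hs, hsU⟩ := hK.exists_thickening_subset_open hUo
    (image_mono fun w hw => by
      have h : en w ≤ 1 := hw
      change en w < 1 + δ
      linarith)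
  have hsD : Metric.thickening s (Φ '' disc) ⊆ U := by
    refine (Metric.thickening_subset_of_subset s (image_mono fun w hw => ?_)).trans hsU
    exact ((mem_disc w).1 hw).le
  refine ⟨s, hs, R / 8, by positivity, fun x hx hxd r hr => ?_⟩
  -- a point of the complement
  have hne : ((Φ '' disc)ᶜ).Nonempty := compl_ne (jordan_isBounded Φ)
  obtain ⟨z, hz, hxz⟩ := (Metric.infDist_lt_iff hne).1 hxd
  set w := Φ.symm z with hw
  have hwz : Φ w = z := Φ.apply_symm_apply z
  have hw1 : 1 ≤ en w := by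
    by_contra h
    push Not at h
    exact hz ⟨w, (mem_disc w).2 h, hwz⟩
  -- the path to infinity
  set f : ℝ → ℝ := fun c => sqn (Φ (c • w) - x) with hf
  have hfc : Continuous f := sqn_smooth.continuous.comp
    ((Φ.continuous.comp (continuous_id.smul continuous_const)).sub continuous_const)
  have hf1 : f 1 ≤ r ^ 2 := by
    rw [hf]; simp only [one_smul]; rw [hwz]
    have h1 := sqn_le_of_norm (z - x)
    rw [← dist_eq_norm, dist_comm] at h1
    have h2 : dist x z ^ 2 ≤ (R / 8) ^ 2 := pow_le_pow_left₀ dist_nonneg hxz.le 2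
    nlinarith only [h1, h2, hR, hr]
  obtain ⟨c₁, hc₁, hfc₁⟩ : ∃ c : ℝ, 1 ≤ c ∧ r ^ 2 ≤ f c := by
    by_contra hcon
    push Not at hcon
    have hr0 : 0 ≤ r := hR.le.trans hr
    -- then the ray stays in a compact set
    have hcomp : IsCompact (Φ.symm '' Metric.closedBall x r) :=
      (isCompact_closedBall x r).image Φ.symm.continuous
    obtain ⟨B, hB⟩ := hcomp.isBounded.exists_norm_le
    have hmem : ∀ c : ℝ, 1 ≤ c → ‖c • w‖ ≤ B := by
      intro c hc
      refine hB _ ⟨Φ (c • w), ?_, Φ.symm_apply_apply _⟩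
      rw [Metric.mem_closedBall, dist_eq_norm]
      have h1 := hcon c hc
      have h2 := (norm_sq_le_sqn (Φ (c • w) - x)).trans_lt h1
      exact (lt_of_pow_lt_pow_left₀ 2 hr0 h2).le
    have hwn : 0 < ‖w‖ := by
      rw [norm_pos_iff]
      rintro h0
      rw [h0] at hw1
      unfold en sqn at hw1
      simp only [Prod.fst_zero, ne_eq, OfNat.ofNat_ne_zero, not_false_eq_true, zero_pow, Prod.snd_zero, add_zero, Real.sqrt_zero] at hw1
      linarith only [hw1]
    have hB0 : 0 ≤ B := (norm_nonneg _).trans (hmem 1 le_rfl)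
    have h1 := hmem (B / ‖w‖ + 1) (by
      have : 0 ≤ B / ‖w‖ := div_nonneg hB0 hwn.le
      linarith only [this])
    rw [norm_smul, Real.norm_of_nonneg (by
      have : 0 ≤ B / ‖w‖ := div_nonneg hB0 hwn.le
      linarith only [this]), add_mul, div_mul_cancel₀ _ hwn.ne'] at h1
    linarith only [hwn, h1]
  obtain ⟨c, hc, hcr⟩ := intermediate_value_Icc hc₁ hfc.continuousOn ⟨hf1, hfc₁⟩
  refine ⟨Φ (c • w), hcr, fun hp => ?_⟩
  have hc0 : 0 ≤ c := by linarith only [hc.1]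
  obtain ⟨w', hw', hww'⟩ := hsD hp
  have hcw : en (c • w) < 1 + δ := by
    have : w' = c • w := Φ.injective hww'
    rw [← this]; exact hw'
  rw [en_smul hc0] at hcw
  have hδ1 : δ ≤ 1 := min_le_right _ _
  have hdist : dist (c • w) w < δ₀ := by
    rw [dist_eq_norm]
    have : c • w - w = (c - 1) • w := by rw [sub_smul, one_smul]
    rw [this, norm_smul, Real.norm_of_nonneg (by linarith only [hc.1])]
    have h1 := norm_le_en w
    have h2 : (c - 1) * ‖w‖ ≤ (c - 1) * en w :=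
      mul_le_mul_of_nonneg_left h1 (by linarith only [hc.1])
    have h3 : δ ≤ δ₀ := min_le_left _ _
    nlinarith only [hw1, hcw, h2, h3]
  have h1 := hδ (c • w) (by
      rw [mem_ofPred_eq, en_smul hc0]; linarith only [hcw, hδ1]) w (by
      rw [mem_ofPred_eq]
      have : en w ≤ c * en w := by nlinarith only [hw1, hc.1]
      linarith only [hcw, hδ1, this]) hdist
  rw [hwz] at h1
  -- contradiction: far from x
  have h2 : R / 2 ≤ ‖Φ (c • w) - x‖ := by
    have h3 := sqn_le_of_norm (Φ (c • w) - x)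
    have h4 : r ^ 2 ≤ 2 * ‖Φ (c • w) - x‖ ^ 2 := by
      have : f c = r ^ 2 := hcr
      rw [← this]; exact h3
    by_contra h
    push Not at h
    have h5 : ‖Φ (c • w) - x‖ ^ 2 < (R / 2) ^ 2 :=
      pow_lt_pow_left₀ h (norm_nonneg _) two_ne_zero
    (clear * - hcr h3 h5 hR hr; nlinarith)
  rw [← dist_eq_norm] at h2
  have h6 := dist_triangle (Φ (c • w)) z x
  rw [dist_comm z x] at h6
  linarith only [hR, hxz, h1, h2, h6]

/-- Stability of Jordan domains. -/
theorem jordan_stab (Φ : (ℝ × ℝ) ≃ₜ (ℝ × ℝ)) {φ : ℝ × ℝ → ℝ} (hφ : TestOn (Φ '' disc) φ)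
    (hφ0 : ∀ z, 0 ≤ φ z) {η : ℝ} (hη : 0 < η) :
    ∃ s : ℝ, 0 < s ∧ V (Metric.thickening s (Φ '' disc)) φ ≤ V (Φ '' disc) φ + η :=
  stab (jordan_isOpen Φ) (jordan_isBounded Φ) (jordan_ext Φ) hφ hφ0 hη

end Vale.Agent.P145.PT
end
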