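import Mathlib
import Vale.Agent.P153.Bd5.B11
import Vale.Agent.P153.Bd5.B12
import Vale.Agent.P153.Bd5.B1
import Vale.Agent.P153.Bd5.B5
import Vale.Agent.P153.Bd5.B6
import Vale.Agent.P153.Bd5.B3
import Vale.Agent.P153.Bd5.B13
import Vale.Agent.P153.Bd5.B14
import Vale.Agent.P153.Bd5.B4
import Vale.Agent.P153.Bd5.B10

set_option linter.all false

section

/-!
# P153 GFF: the smeared field is asymptotically a linear statistic of the even rows
-/

open MeasureTheory Filter Topology Set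

namespace Vale.Agent.P153.GFF

open Vale.Agent.P153.CLT (coord_bdd integrable_mul_coord measurable_coord msd_eq hev)

variable {P : Measure (ℤ × ℤ → ℤ)}

def rotE : ℤ × ℤ ≃ ℤ × ℤ where
  toFun := rot
  invFun v := (v.1 + v.2, -v.1)
  left_inv := by
    rintro ⟨x, y⟩
    simp [rot]
  right_inv := by
    rintro ⟨x, y⟩
    simp [rot]

/-- rotated staggerings -/
noncomputable def s1 (v : ℤ × ℤ) : ℝ :=
  (if 2 ∣ v.1 then 1 else 0) - 2 * (if 2 ∣ v.1 ∧ 2 ∣ v.2 then 1 else 0)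

noncomputable def s2 (v : ℤ × ℤ) : ℝ :=
  (if 2 ∣ v.1 + v.2 then 1 else 0) - 2 * (if 2 ∣ v.1 ∧ 2 ∣ v.2 then 1 else 0)

lemma s1_rot (u : ℤ × ℤ) : s1 (rot u) = s0 u := by
  unfold s1 s0 rot
  have h1 : (2 ∣ -u.2) ↔ (2 ∣ u.2) := by omega
  have h2 : (2 ∣ u.2 ∧ 2 ∣ u.1 + u.2) ↔ (2 ∣ u.1 ∧ 2 ∣ u.2) := by omega
  simp only [h1, h2]

lemma s2_rot (u : ℤ × ℤ) : s2 (rot (rot u)) = s0 u := by
  unfold s2 s0 rot
  have h1 : (2 ∣ -(u.1 + u.2) + (-u.2 + (u.1 + u.2))) ↔ (2 ∣ u.2) := by omega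
  have h2 : (2 ∣ -(u.1 + u.2) ∧ 2 ∣ -u.2 + (u.1 + u.2)) ↔ (2 ∣ u.1 ∧ 2 ∣ u.2) := by omega
  simp only [h1, h2]

lemma s_sum (v : ℤ × ℤ) : (1 : ℝ) = 2 * (if 2 ∣ v.2 then 1 else 0) - s0 v + s1 v + s2 v := by
  unfold s0 s1 s2
  by_cases h1 : (2 : ℤ) ∣ v.1 <;> by_cases h2 : (2 : ℤ) ∣ v.2
  · have h3 : (2 : ℤ) ∣ v.1 + v.2 := by omega
    simp only [h1, h2, h3, if_true, and_self]
    norm_num
  · have h3 : ¬(2 : ℤ) ∣ v.1 + v.2 := by (clear * - h1 h2; omega)
    simp only [h1, h2, h3, if_true, if_false, and_false]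
    norm_num
  · have h3 : ¬(2 : ℤ) ∣ v.1 + v.2 := by omega
    simp only [h1, h2, h3, if_true, if_false, false_and]
    norm_num
  · have h3 : (2 : ℤ) ∣ v.1 + v.2 := by omega
    simp only [h1, h2, h3, if_true, if_false, false_and]
    norm_num

lemma measurable_rotmap : Measurable (fun (φ : ℤ × ℤ → ℤ) (x : ℤ × ℤ) => φ (rot x)) :=
  measurable_pi_iff.2 fun x => measurable_pi_apply _

lemma int_rot (hP : Plane P) {G : (ℤ × ℤ → ℤ) → ℝ} (hG : Measurable G) :
    ∫ φ : ℤ × ℤ → ℤ, G (fun x => φ (rot x)) ∂P = ∫ φ, G φ ∂P := by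
  conv_rhs => rw [← hP.rot]
  rw [integral_map measurable_rotmap.aemeasurable hG.aestronglyMeasurable]

lemma meas_stat (S : Finset (ℤ × ℤ)) (c : ℤ × ℤ → ℝ) :
    Measurable (fun φ : ℤ × ℤ → ℤ => (∑ v ∈ S, c v * ((φ v : ℤ) : ℝ)) ^ 2) :=
  (Finset.measurable_sum _ fun v _ => (measurable_coord v).const_mul (c v)).pow_const 2

lemma finsum_stat {b : ℤ × ℤ → ℝ} (hb : (Function.support b).Finite) (s : ℤ × ℤ → ℝ)
    (φ : ℤ × ℤ → ℤ) :
    ∑ᶠ v : ℤ × ℤ, s v * b v * (φ v : ℝ) = ∑ v ∈ hb.toFinset, (s v * b v) * (φ v : ℝ) := by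
  apply finsum_eq_sum_of_support_subset
  intro v hv
  rw [Function.mem_support] at hv
  rw [Finset.mem_coe, Set.Finite.mem_toFinset, Function.mem_support]
  intro h
  apply hv
  rw [h, mul_zero, zero_mul]

/-- The growth bound used below. -/
lemma growth {κ : ℝ} (hg : Tendsto (fun p : ℤ × ℤ => Vrow P p.1 p.2 /
    Real.log (√((p.2 : ℝ) ^ 2 + (√3) ^ 2 * (p.1 : ℝ) ^ 2))) cofinite (𝓝 κ)) :
    ∃ A, 0 ≤ A ∧ ∀ j z : ℤ, Vrow P j z ≤ A * (1 + |(j : ℝ)| + |(z : ℝ)|) := by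
  have hV0 : ∀ p : ℤ × ℤ, 0 ≤ Vrow P p.1 p.2 := fun p => integral_nonneg fun φ => sq_nonneg _
  have h1 := hg.eventually (Metric.ball_mem_nhds κ one_pos)
  rw [Filter.eventually_cofinite] at h1
  set T : Finset (ℤ × ℤ) := h1.toFinset ∪ (Finset.Icc (-1) 1 ×ˢ Finset.Icc (-1) 1) with hT
  refine ⟨2 * (|κ| + 1) + ∑ p ∈ T, Vrow P p.1 p.2,
    add_nonneg (by positivity) (Finset.sum_nonneg fun p _ => hV0 p), fun j z => ?_⟩
  have hS : 0 ≤ ∑ p ∈ T, Vrow P p.1 p.2 := Finset.sum_nonneg fun p _ => hV0 p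
  have hx : 0 ≤ |(j : ℝ)| + |(z : ℝ)| := by (clear * -; positivity)
  by_cases hp : (j, z) ∈ T
  · have h2 : Vrow P j z ≤ ∑ p ∈ T, Vrow P p.1 p.2 :=
      Finset.single_le_sum (f := fun p : ℤ × ℤ => Vrow P p.1 p.2) (fun p _ => hV0 p) hp
    have h3 : 0 ≤ |κ| := abs_nonneg κ
    (clear * - hx h2 h3 hS; nlinarith [mul_nonneg h3 hx, mul_nonneg hS hx])
  · rw [hT, Finset.mem_union, not_or, Set.Finite.mem_toFinset, Set.mem_ofPred_eq, not_not,
      Real.dist_eq] at hp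
    obtain ⟨h2, h3⟩ := hp
    simp only at h2
    have hjz : 1 < |j| ∨ 1 < |z| := by
      by_contra hcon
      rw [not_or, not_lt, not_lt, abs_le, abs_le] at hcon
      apply h3
      rw [Finset.mem_product, Finset.mem_Icc, Finset.mem_Icc]
      exact hcon
    have h3' : (√3) ^ 2 = 3 := Real.sq_sqrt (by norm_num)
    rw [h3'] at h2
    have h4 : (4 : ℝ) ≤ (z : ℝ) ^ 2 + 3 * (j : ℝ) ^ 2 := by
      rcases hjz with h | h
      · have h5 : (2 : ℝ) ≤ |(j : ℝ)| := by exact_mod_cast h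
        have h6 : (4 : ℝ) ≤ (j : ℝ) ^ 2 := by
          rw [← sq_abs]
          nlinarith only [h5]
        nlinarith only [h6]
      · have h5 : (2 : ℝ) ≤ |(z : ℝ)| := by exact_mod_cast h
        have h6 : (4 : ℝ) ≤ (z : ℝ) ^ 2 := by
          rw [← sq_abs]
          nlinarith only [h5]
        nlinarith only [h6]
    have h5 : 2 ≤ √((z : ℝ) ^ 2 + 3 * (j : ℝ) ^ 2) := by
      rw [Real.le_sqrt' (by norm_num)]
      linarith only [h4]
    have h6 : 0 < Real.log (√((z : ℝ) ^ 2 + 3 * (j : ℝ) ^ 2)) := Real.log_pos (by linarith only [h5])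
    have h7 : Vrow P j z / Real.log (√((z : ℝ) ^ 2 + 3 * (j : ℝ) ^ 2)) ≤ |κ| + 1 := by
      have := abs_lt.1 h2
      linarith only [this, le_abs_self κ]
    rw [div_le_iff₀ h6] at h7
    have h8 : Real.log (√((z : ℝ) ^ 2 + 3 * (j : ℝ) ^ 2)) ≤ √((z : ℝ) ^ 2 + 3 * (j : ℝ) ^ 2) :=
      (Real.log_le_sub_one_of_pos (by linarith only [h5])).trans (by linarith only [])
    have h9 : √((z : ℝ) ^ 2 + 3 * (j : ℝ) ^ 2) ≤ 2 * (|(j : ℝ)| + |(z : ℝ)|) := by
      rw [Real.sqrt_le_left (by (clear * -; positivity))]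
      nlinarith only [sq_abs (j : ℝ), sq_abs (z : ℝ), mul_nonneg (abs_nonneg (j : ℝ)) (abs_nonneg (z : ℝ))]
    have h10 : Vrow P j z ≤ (|κ| + 1) * (2 * (|(j : ℝ)| + |(z : ℝ)|)) :=
      h7.trans (mul_le_mul_of_nonneg_left (h8.trans h9) (by positivity))
    nlinarith only [hS, h10, hx, abs_nonneg κ]

end Vale.Agent.P153.GFF
end

section

/-!
# P153 GFF: the smeared field and the even rows statistic are close in mean square
-/

open MeasureTheory Filter Topology Set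

namespace Vale.Agent.P153.GFF

open Vale.Agent.P153.CLT (coord_bdd integrable_mul_coord measurable_coord msd_eq hev)

variable {P : Measure (ℤ × ℤ → ℤ)} {f : ℝ × ℝ → ℝ} {K δ : ℝ}

/-- the even rows statistic -/
noncomputable def rowS (δ : ℝ) (f : ℝ × ℝ → ℝ) (φ : ℤ × ℤ → ℤ) : ℝ :=
  ∑ᶠ p : ℤ × ℤ, rowW δ f p.1 p.2 * (φ (ev p.1 p.2) : ℝ)

lemma ev_inj : Function.Injective fun p : ℤ × ℤ => ev p.1 p.2 := by
  rintro ⟨a, b⟩ ⟨c, d⟩ h
  simp only [ev, Prod.mk.injEq] at h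
  ext
  · show a = c
    omega
  · show b = d
    omega

lemma fs {b : ℤ × ℤ → ℝ} (hb : (Function.support b).Finite) (g h : ℤ × ℤ → ℝ) :
    (Function.support fun v => g v * b v * h v).Finite := by
  apply hb.subset
  intro v hv
  rw [Function.mem_support] at hv ⊢
  intro h0
  apply hv
  rw [h0, mul_zero, zero_mul]

lemma fs_ev {b : ℤ × ℤ → ℝ} (hb : (Function.support b).Finite) :
    (Function.support fun p : ℤ × ℤ => b (ev p.1 p.2)).Finite :=
  hb.preimage ev_inj.injOn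

lemma fs_ev' {b : ℤ × ℤ → ℝ} (hb : (Function.support b).Finite) :
    (Function.support fun p : ℤ × ℤ => b (ev p.1 p.2 + (0, 1))).Finite :=
  hb.preimage ((add_left_injective ((0, 1) : ℤ × ℤ)).comp ev_inj).injOn

lemma decomp (hf : Csts f K) (hδ : 0 < δ) (φ : ℤ × ℤ → ℤ) :
    smear φ δ f - rowS δ f φ = -(∑ᶠ v : ℤ × ℤ, s0 v * wt δ f v * (φ v : ℝ)) +
      (∑ᶠ v : ℤ × ℤ, s1 v * wt δ f v * (φ v : ℝ)) + (∑ᶠ v : ℤ × ℤ, s2 v * wt δ f v * (φ v : ℝ)) -
      ∑ᶠ p : ℤ × ℤ, (wt δ f (ev p.1 p.2 + (0, 1)) - wt δ f (ev p.1 p.2)) *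
        (φ (ev p.1 p.2) : ℝ) := by
  have hb := wt_support_finite hf hδ
  set b := wt δ f with hbd
  have h1 : smear φ δ f = (∑ᶠ v : ℤ × ℤ, (2 * (if 2 ∣ v.2 then 1 else 0)) * b v * (φ v : ℝ)) -
      (∑ᶠ v : ℤ × ℤ, s0 v * b v * (φ v : ℝ)) +
      (∑ᶠ v : ℤ × ℤ, s1 v * b v * (φ v : ℝ)) + ∑ᶠ v : ℤ × ℤ, s2 v * b v * (φ v : ℝ) := by
    rw [smear_finsum hf hδ, ← finsum_sub_distrib (fs hb _ _) (fs hb _ _),
      ← finsum_add_distrib _ (fs hb _ _), ← finsum_add_distrib _ (fs hb _ _)]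
    · apply finsum_congr
      intro v
      have := s_sum v
      calc (φ v : ℝ) * b v = 1 * b v * (φ v : ℝ) := by ring
        _ = (2 * (if 2 ∣ v.2 then 1 else 0) - s0 v + s1 v + s2 v) * b v * (φ v : ℝ) := by
          rw [← this]
        _ = _ := by ring
    · apply hb.subset
      intro v hv
      rw [Function.mem_support] at hv ⊢
      intro h0
      apply hv
      rw [h0]
      ring
    · apply hb.subset
      intro v hv
      rw [Function.mem_support] at hv ⊢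
      intro h0
      apply hv
      rw [h0]
      ring
  have h2 : (∑ᶠ v : ℤ × ℤ, (2 * (if 2 ∣ v.2 then 1 else 0)) * b v * (φ v : ℝ)) =
      ∑ᶠ p : ℤ × ℤ, 2 * b (ev p.1 p.2) * (φ (ev p.1 p.2) : ℝ) := by
    rw [finsum_rho (fs hb _ _)]
    apply finsum_congr
    intro p
    have e1 : (2 : ℤ) ∣ (ev p.1 p.2).2 := by
      unfold ev
      simp only [dvd_mul_right]
    have e2 : ¬(2 : ℤ) ∣ (ev p.1 p.2 + (0, 1)).2 := by
      unfold ev
      simp only [Prod.snd_add]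
      omega
    rw [if_pos e1, if_neg e2]
    ring
  have h3 : rowS δ f φ = (∑ᶠ p : ℤ × ℤ, 2 * b (ev p.1 p.2) * (φ (ev p.1 p.2) : ℝ)) +
      ∑ᶠ p : ℤ × ℤ, (b (ev p.1 p.2 + (0, 1)) - b (ev p.1 p.2)) * (φ (ev p.1 p.2) : ℝ) := by
    rw [← finsum_add_distrib]
    · unfold rowS
      apply finsum_congr
      intro p
      unfold rowW
      ring
    · apply (fs_ev hb).subset
      intro v hv
      rw [Function.mem_support] at hv ⊢
      intro h0
      apply hv
      rw [h0]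
      ring
    · apply ((fs_ev hb).union (fs_ev' hb)).subset
      intro v hv
      rw [Set.mem_union, Function.mem_support, Function.mem_support]
      rw [Function.mem_support] at hv
      by_contra hcon
      rw [not_or, not_not, not_not] at hcon
      apply hv
      rw [hcon.1, hcon.2]
      ring
  rw [h1, h2, h3]
  ring

lemma card_box {M : ℝ} (hM : 0 < M) (hδ : 0 < δ) (hδ1 : δ ≤ 1) :
    (((Finset.Icc (-⌈M / δ⌉) ⌈M / δ⌉ ×ˢ Finset.Icc (-⌈M / δ⌉) ⌈M / δ⌉ : Finset (ℤ × ℤ))).card : ℝ)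
      ≤ ((2 * M + 3) / δ) ^ 2 := by
  set N : ℤ := ⌈M / δ⌉ with hN
  have hNpos : 0 < N := Int.ceil_pos.2 (by positivity)
  have hN2 : (N : ℝ) < M / δ + 1 := Int.ceil_lt_add_one _
  have e : ((Finset.Icc (-N) N ×ˢ Finset.Icc (-N) N : Finset (ℤ × ℤ)).card : ℝ) =
      (2 * N + 1) ^ 2 := by
    rw [Finset.card_product, Int.card_Icc, sq]
    push_cast
    have : ((N + 1 - -N).toNat : ℝ) = 2 * N + 1 := by
      have h : ((N + 1 - -N).toNat : ℤ) = 2 * N + 1 := by
        rw [Int.toNat_of_nonneg (by omega)]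
        ring
      exact_mod_cast h
    rw [this]
  rw [e]
  have hNr : (0 : ℝ) < N := by exact_mod_cast hNpos
  apply pow_le_pow_left₀ (by positivity)
  have h5 : 1 ≤ 1 / δ := by
    rw [le_div_iff₀ hδ]
    linarith only [hδ1]
  have h6 : (2 * M + 3) / δ = 2 * (M / δ) + 3 * (1 / δ) := by ring
  rw [h6]
  linarith only [hN2, h5]

lemma wt_ev_zero (hf : Csts f K) (hδ : 0 < δ) (hδ1 : δ ≤ 1) (p : ℤ × ℤ) {e : ℤ}
    (he : e = 0 ∨ e = 1) (hne : wt δ f (ev p.1 p.2 + (0, e)) ≠ 0) :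
    |(p.1 : ℝ)| ≤ (4 * K + 20) / δ ∧ |(p.2 : ℝ)| ≤ (4 * K + 20) / δ := by
  have hi : 1 ≤ 1 / δ := by
    rw [le_div_iff₀ hδ]
    linarith
  have hK := hf.pos
  have hKd : K / δ = K * (1 / δ) := by ring
  obtain ⟨h1, h2⟩ := wt_supp hf hδ _ hne
  simp only [ev, Prod.fst_add, Prod.snd_add, add_zero] at h1 h2
  push_cast at h1 h2
  have he1 : |(e : ℝ)| ≤ 1 := by
    rcases he with h | h <;> simp [h]
  rw [hKd] at h1 h2
  have h3 : |(p.1 : ℝ)| ≤ K * (1 / δ) + 4 := by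
    have h4 : |2 * (p.1 : ℝ)| ≤ |2 * (p.1 : ℝ) + e| + |(e : ℝ)| := by
      have := abs_sub (2 * (p.1 : ℝ) + e) (e : ℝ)
      rw [add_sub_cancel_right] at this
      exact this
    rw [abs_mul, abs_of_pos (by norm_num : (0 : ℝ) < 2)] at h4
    linarith only [h2, he1, h4]
  have h5 : |(p.2 : ℝ)| ≤ 3 * (K * (1 / δ)) + 11 := by
    have h6 : |(p.2 : ℝ)| ≤ |(p.2 : ℝ) - p.1| + |(p.1 : ℝ)| := by
      have := abs_add_le ((p.2 : ℝ) - p.1) (p.1 : ℝ)
      rw [sub_add_cancel] at this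
      exact this
    linarith only [h1, h3, h6]
  have h7 : 0 < K * (1 / δ) := by positivity
  have h8 : (4 * K + 20) / δ = 4 * (K * (1 / δ)) + 20 * (1 / δ) := by ring
  rw [h8]
  constructor <;> linarith only [hi, h3, h7, h5]

/-- the remainder is small -/
lemma rem_small (hP : Plane P) {A : ℝ} (hA0 : 0 ≤ A)
    (hA : ∀ j z : ℤ, Vrow P j z ≤ A * (1 + |(j : ℝ)| + |(z : ℝ)|)) (hf : Csts f K)
    (hδ : 0 < δ) (hδ1 : δ ≤ 1) :
    ∫ φ, (∑ᶠ p : ℤ × ℤ, (wt δ f (ev p.1 p.2 + (0, 1)) - wt δ f (ev p.1 p.2)) *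
        (φ (ev p.1 p.2) : ℝ)) ^ 2 ∂P ≤
      K ^ 2 * ((2 * (4 * K + 20) + 3) ^ 4 * (3 * A * (4 * K + 21))) * δ ∧
    Integrable (fun φ : ℤ × ℤ → ℤ => (∑ᶠ p : ℤ × ℤ, (wt δ f (ev p.1 p.2 + (0, 1)) -
      wt δ f (ev p.1 p.2)) * (φ (ev p.1 p.2) : ℝ)) ^ 2) P := by
  have hK := hf.pos
  set M : ℝ := 4 * K + 20 with hM
  have hMp : 0 < M := by positivity
  set U : Finset (ℤ × ℤ) := Finset.Icc (-⌈M / δ⌉) ⌈M / δ⌉ ×ˢ Finset.Icc (-⌈M / δ⌉) ⌈M / δ⌉ with hU
  have key : ∀ φ : ℤ × ℤ → ℤ, (∑ᶠ p : ℤ × ℤ, (wt δ f (ev p.1 p.2 + (0, 1)) -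
      wt δ f (ev p.1 p.2)) * (φ (ev p.1 p.2) : ℝ)) = ∑ p ∈ U, (wt δ f (ev p.1 p.2 + (0, 1)) -
      wt δ f (ev p.1 p.2)) * (φ (ev p.1 p.2) : ℝ) := by
    intro φ
    apply finsum_eq_sum_of_support_subset
    intro p hp
    rw [Function.mem_support] at hp
    have h1 : |(p.1 : ℝ)| ≤ M / δ ∧ |(p.2 : ℝ)| ≤ M / δ := by
      by_cases h0 : wt δ f (ev p.1 p.2 + (0, 1)) = 0
      · apply wt_ev_zero hf hδ hδ1 p (Or.inl rfl)
        intro h2
        apply hp
        have h3 : ev p.1 p.2 + (0, 0) = ev p.1 p.2 := by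
          ext <;> simp
        rw [h3] at h2
        rw [h0, h2]
        ring
      · exact wt_ev_zero hf hδ hδ1 p (Or.inr rfl) h0
    have hc : M / δ ≤ ⌈M / δ⌉ := Int.le_ceil _
    rw [hU, Finset.mem_coe, Finset.mem_product, Finset.mem_Icc, Finset.mem_Icc]
    obtain ⟨a, b⟩ := h1
    rw [abs_le] at a b
    refine ⟨⟨?_, ?_⟩, ?_, ?_⟩
    · have : (-⌈M / δ⌉ : ℝ) ≤ p.1 := by linarith only [hc, a]
      exact_mod_cast this
    · have : (p.1 : ℝ) ≤ ⌈M / δ⌉ := by linarith only [hc, a]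
      exact_mod_cast this
    · have : (-⌈M / δ⌉ : ℝ) ≤ p.2 := by linarith only [hc, b]
      exact_mod_cast this
    · have : (p.2 : ℝ) ≤ ⌈M / δ⌉ := by linarith only [hc, b]
      exact_mod_cast this
  simp_rw [key]
  refine ⟨?_, sq_int hP U (fun p => ev p.1 p.2) _⟩
  have h1 := sum_small hP U (fun p => ev p.1 p.2)
    (fun p => wt δ f (ev p.1 p.2 + (0, 1)) - wt δ f (ev p.1 p.2)) (m := K * δ ^ 3)
    (v := 3 * A * (M + 1) / δ) (fun p _ => by
      refine (wt_lip hf hδ _ _).trans ?_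
      rw [pos_add, add_sub_cancel_left, pos_one]
      have : ‖((1 / 2 : ℝ), √3 / 2)‖ ≤ 1 := by
        rw [Prod.norm_def, sup_le_iff, Real.norm_eq_abs, Real.norm_eq_abs,
          abs_of_pos (by positivity), abs_of_pos (by positivity)]
        constructor
        · norm_num
        · linarith only [sqrt3_le]
      exact mul_le_of_le_one_right (by positivity) this) (fun p hp => by
      rw [hU, Finset.mem_product, Finset.mem_Icc, Finset.mem_Icc] at hp
      refine (hA p.1 p.2).trans ?_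
      have hc : (⌈M / δ⌉ : ℝ) < M / δ + 1 := Int.ceil_lt_add_one _
      have a1 : |(p.1 : ℝ)| ≤ ⌈M / δ⌉ := by
        rw [abs_le]
        constructor
        · exact_mod_cast hp.1.1
        · exact_mod_cast hp.1.2
      have a2 : |(p.2 : ℝ)| ≤ ⌈M / δ⌉ := by
        rw [abs_le]
        constructor
        · exact_mod_cast hp.2.1
        · exact_mod_cast hp.2.2
      have h5 : 1 ≤ 1 / δ := by
        rw [le_div_iff₀ hδ]
        linarith only [hδ1]
      have h6 : 3 * A * (M + 1) / δ = A * (3 * (M / δ) + 3 * (1 / δ)) := by ring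
      rw [h6]
      apply mul_le_mul_of_nonneg_left _ hA0
      have h7 : 0 ≤ M / δ := by positivity
      linarith only [hc, a1, a2, h5, h7])
  refine h1.trans ?_
  have hc0 : (0 : ℝ) ≤ U.card := by (clear * -; positivity)
  have hcard := card_box hMp hδ hδ1
  rw [← hU] at hcard
  have q4 : (U.card : ℝ) ^ 2 ≤ (((2 * M + 3) / δ) ^ 2) ^ 2 := pow_le_pow_left₀ hc0 hcard 2
  have q5 : (U.card : ℝ) ^ 2 * (3 * A * (M + 1) / δ) ≤
      (((2 * M + 3) / δ) ^ 2) ^ 2 * (3 * A * (M + 1) / δ) :=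
    mul_le_mul_of_nonneg_right q4 (by (clear * - hA0 hK hδ; positivity))
  refine (mul_le_mul_of_nonneg_left q5 (by positivity)).trans (le_of_eq ?_)
  rw [hM]
  field_simp
  ring

/-- rotated version of `stag` -/
lemma stag_r (hP : Plane P) (hdec : Tendsto (fun p : ℤ × ℤ => Vrow P p.1 (p.2 + 1) +
    Vrow P p.1 (p.2 - 1) - 2 * Vrow P p.1 p.2) cofinite (𝓝 0)) {A : ℝ} (hA0 : 0 ≤ A)
    (hA : ∀ j z : ℤ, Vrow P j z ≤ A * (1 + |(j : ℝ)| + |(z : ℝ)|)) (hf : Csts f K)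
    (δ : ℕ → ℝ) (hδ : ∀ n, 0 < δ n) (hδ1 : ∀ n, δ n ≤ 1) (ht : Tendsto δ atTop (𝓝 0))
    (r : ℤ × ℤ → ℤ × ℤ) (e : ℤ × ℤ) (he : ‖pos e‖ ≤ 1) (hr : ∀ v, r (v + (1, 0)) = r v + e)
    (hr2 : ∀ (v : ℤ × ℤ) (M : ℝ), |((r v).1 : ℝ)| ≤ M → |((r v).2 : ℝ)| ≤ M →
      |(v.1 : ℝ)| ≤ 4 * M ∧ |(v.2 : ℝ)| ≤ 4 * M) :
    Tendsto (fun n => ∫ φ, (∑ᶠ v : ℤ × ℤ, s0 v * wt (δ n) f (r v) * (φ v : ℝ)) ^ 2 ∂P) atTop
      (𝓝 0) := by
  have hK := hf.pos
  refine stag hP hdec hA0 hA (K := 8 * K + 28) (by positivity) δ hδ hδ1 ht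
    (fun n v => wt (δ n) f (r v)) ?_ ?_ ?_
  · intro n v
    refine (abs_wt_le hf (hδ n) _).trans ?_
    have := hδ n
    apply mul_le_mul_of_nonneg_right _ (by positivity)
    linarith only [hK]
  · intro n v
    have h0 := hδ n
    rw [hr]
    refine (wt_lip hf (hδ n) _ _).trans ?_
    rw [pos_add, add_sub_cancel_left]
    refine (mul_le_of_le_one_right (by positivity) he).trans ?_
    apply mul_le_mul_of_nonneg_right _ (by positivity)
    linarith only [hK]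
  · intro n v hv
    obtain ⟨a, b⟩ := wt_supp hf (hδ n) _ hv
    have h0 := hδ n
    have h5 : 1 ≤ 1 / δ n := by
      rw [le_div_iff₀ h0]
      linarith only [hδ1 n]
    have h6 : (8 * K + 28) / δ n = 4 * (2 * (K / δ n) + 7 * (1 / δ n)) := by ring
    rw [h6]
    apply hr2 v
    · linarith only [a, h5]
    · linarith only [b, h5]

theorem close (hP : Plane P) (hdec : Tendsto (fun p : ℤ × ℤ => Vrow P p.1 (p.2 + 1) +
    Vrow P p.1 (p.2 - 1) - 2 * Vrow P p.1 p.2) cofinite (𝓝 0)) {A : ℝ} (hA0 : 0 ≤ A)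
    (hA : ∀ j z : ℤ, Vrow P j z ≤ A * (1 + |(j : ℝ)| + |(z : ℝ)|)) (hf : Csts f K)
    (δ : ℕ → ℝ) (hδ : ∀ n, 0 < δ n) (hδ1 : ∀ n, δ n ≤ 1) (ht : Tendsto δ atTop (𝓝 0)) :
    Tendsto (fun n => ∫ φ, (smear φ (δ n) f - rowS (δ n) f φ) ^ 2 ∂P) atTop (𝓝 0) ∧
    ∀ n, Integrable (fun φ : ℤ × ℤ → ℤ => (smear φ (δ n) f - rowS (δ n) f φ) ^ 2) P := by
  have hK := hf.pos
  set D : (ℤ × ℤ → ℝ) → ℕ → (ℤ × ℤ → ℤ) → ℝ := fun s n φ =>
    ∑ᶠ v : ℤ × ℤ, s v * wt (δ n) f v * (φ v : ℝ) with hD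
  set R : ℕ → (ℤ × ℤ → ℤ) → ℝ := fun n φ => ∑ᶠ p : ℤ × ℤ, (wt (δ n) f (ev p.1 p.2 + (0, 1)) -
      wt (δ n) f (ev p.1 p.2)) * (φ (ev p.1 p.2) : ℝ) with hR
  have hDm : ∀ s n, Measurable fun φ => D s n φ ^ 2 := by
    intro s n
    have : (fun φ => D s n φ ^ 2) = fun φ : ℤ × ℤ → ℤ =>
        (∑ v ∈ (wt_support_finite hf (hδ n)).toFinset, (s v * wt (δ n) f v) * ((φ v : ℤ) : ℝ)) ^ 2 := by
      ext φ
      simp only [hD]
      rw [finsum_stat (wt_support_finite hf (hδ n))]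
    rw [this]
    exact meas_stat _ _
  have hDi : ∀ s n, Integrable (fun φ => D s n φ ^ 2) P := by
    intro s n
    have : (fun φ => D s n φ ^ 2) = fun φ : ℤ × ℤ → ℤ =>
        (∑ v ∈ (wt_support_finite hf (hδ n)).toFinset, (s v * wt (δ n) f v) * ((φ v : ℤ) : ℝ)) ^ 2 := by
      ext φ
      simp only [hD]
      rw [finsum_stat (wt_support_finite hf (hδ n))]
    rw [this]
    exact sq_int hP _ (fun v => v) _
  have hsq : ∀ n φ, (smear φ (δ n) f - rowS (δ n) f φ) ^ 2 ≤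
      4 * D s0 n φ ^ 2 + 4 * D s1 n φ ^ 2 + 4 * D s2 n φ ^ 2 + 4 * R n φ ^ 2 := by
    intro n φ
    rw [decomp hf (hδ n) φ]
    nlinarith only [sq_nonneg (D s0 n φ - R n φ), sq_nonneg (D s1 n φ - D s2 n φ), sq_nonneg (D s1 n φ + R n φ), sq_nonneg (D s2 n φ + R n φ)]
  have hRi := fun n => (rem_small hP hA0 hA hf (hδ n) (hδ1 n)).2
  have hRb := fun n => (rem_small hP hA0 hA hf (hδ n) (hδ1 n)).1
  have i0 := fun n => (hDi s0 n).const_mul 4
  have i1 := fun n => (hDi s1 n).const_mul 4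
  have i2 := fun n => (hDi s2 n).const_mul 4
  have i3 : ∀ n, Integrable (fun φ => 4 * R n φ ^ 2) P := fun n => (hRi n).const_mul 4
  have i4 : ∀ n, Integrable (fun φ => 4 * D s0 n φ ^ 2 + 4 * D s1 n φ ^ 2) P :=
    fun n => (i0 n).add (i1 n)
  have i5 : ∀ n, Integrable (fun φ => 4 * D s0 n φ ^ 2 + 4 * D s1 n φ ^ 2 +
    4 * D s2 n φ ^ 2) P := fun n => (i4 n).add (i2 n)
  have i6 : ∀ n, Integrable (fun φ => 4 * D s0 n φ ^ 2 + 4 * D s1 n φ ^ 2 +
    4 * D s2 n φ ^ 2 + 4 * R n φ ^ 2) P := fun n => (i5 n).add (i3 n)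
  have hup : ∀ n, ∫ φ, (smear φ (δ n) f - rowS (δ n) f φ) ^ 2 ∂P ≤
      4 * (∫ φ, D s0 n φ ^ 2 ∂P) + 4 * (∫ φ, D s1 n φ ^ 2 ∂P) + 4 * (∫ φ, D s2 n φ ^ 2 ∂P) +
        4 * ∫ φ, R n φ ^ 2 ∂P := by
    intro n
    refine (integral_mono_of_nonneg (ae_of_all _ fun φ => sq_nonneg _) (i6 n)
      (ae_of_all _ (hsq n))).trans ?_
    rw [integral_add (i5 n) (i3 n), integral_add (i4 n) (i2 n), integral_add (i0 n) (i1 n),
      integral_const_mul, integral_const_mul, integral_const_mul, integral_const_mul]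
  have t0 : Tendsto (fun n => ∫ φ, D s0 n φ ^ 2 ∂P) atTop (𝓝 0) := by
    refine stag_r hP hdec hA0 hA hf δ hδ hδ1 ht (fun v => v) (1, 0) ?_ (fun v => rfl) ?_
    · unfold pos
      rw [Prod.norm_def, sup_le_iff, Real.norm_eq_abs, Real.norm_eq_abs]
      constructor <;> norm_num
    · intro v M h1 h2
      have := abs_nonneg (v.1 : ℝ)
      constructor <;> linarith only [h1, h2, this]
  have e1 : ∀ n, ∫ φ, D s1 n φ ^ 2 ∂P =
      ∫ φ, (∑ᶠ v : ℤ × ℤ, s0 v * wt (δ n) f (rot v) * ((φ v : ℤ) : ℝ)) ^ 2 ∂P := by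
    intro n
    have h1 : ∀ φ : ℤ × ℤ → ℤ, D s1 n φ =
        ∑ᶠ v : ℤ × ℤ, s0 v * wt (δ n) f (rot v) * ((φ (rot v) : ℤ) : ℝ) := by
      intro φ
      rw [hD]
      simp only
      rw [← finsum_comp_equiv rotE]
      apply finsum_congr
      intro v
      show s1 (rot v) * wt (δ n) f (rot v) * (φ (rot v) : ℝ) = _
      rw [s1_rot]
    simp_rw [h1]
    have hm : Measurable fun φ : ℤ × ℤ → ℤ =>
        (∑ᶠ v : ℤ × ℤ, s0 v * wt (δ n) f (rot v) * ((φ v : ℤ) : ℝ)) ^ 2 := by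
      have hb : (Function.support fun v => wt (δ n) f (rot v)).Finite :=
        (wt_support_finite hf (hδ n)).preimage rotE.injective.injOn
      have : (fun φ : ℤ × ℤ → ℤ =>
          (∑ᶠ v : ℤ × ℤ, s0 v * wt (δ n) f (rot v) * ((φ v : ℤ) : ℝ)) ^ 2) =
          fun φ : ℤ × ℤ → ℤ =>
          (∑ v ∈ hb.toFinset, (s0 v * wt (δ n) f (rot v)) * ((φ v : ℤ) : ℝ)) ^ 2 := by
        ext φ
        rw [finsum_stat hb]
      rw [this]
      exact meas_stat _ _
    exact int_rot hP hm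
  have t1 : Tendsto (fun n => ∫ φ, D s1 n φ ^ 2 ∂P) atTop (𝓝 0) := by
    simp_rw [e1]
    refine stag_r hP hdec hA0 hA hf δ hδ hδ1 ht rot (0, 1) ?_ (fun v => ?_) ?_
    · rw [pos_one, Prod.norm_def, sup_le_iff, Real.norm_eq_abs, Real.norm_eq_abs,
        abs_of_pos (by positivity), abs_of_pos (by positivity)]
      constructor
      · norm_num
      · linarith only [sqrt3_le]
    · unfold rot
      ext <;> simp only [Prod.fst_add, Prod.snd_add, add_zero, Prod.mk_add_mk]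
      ring
    · intro v M h1 h2
      unfold rot at h1 h2
      push_cast at h1 h2
      rw [abs_neg] at h1
      have h3 : |(v.1 : ℝ)| ≤ |(v.1 : ℝ) + v.2| + |(v.2 : ℝ)| := by
        have := abs_sub ((v.1 : ℝ) + v.2) (v.2 : ℝ)
        rw [add_sub_cancel_right] at this
        exact this
      have := abs_nonneg (v.2 : ℝ)
      constructor <;> linarith only [h1, h2, h3, this]
  have e2 : ∀ n, ∫ φ, D s2 n φ ^ 2 ∂P =
      ∫ φ, (∑ᶠ v : ℤ × ℤ, s0 v * wt (δ n) f (rot (rot v)) * ((φ v : ℤ) : ℝ)) ^ 2 ∂P := by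
    intro n
    have h1 : ∀ φ : ℤ × ℤ → ℤ, D s2 n φ =
        ∑ᶠ v : ℤ × ℤ, s0 v * wt (δ n) f (rot (rot v)) * ((φ (rot (rot v)) : ℤ) : ℝ) := by
      intro φ
      rw [hD]
      simp only
      rw [← finsum_comp_equiv rotE, ← finsum_comp_equiv rotE]
      apply finsum_congr
      intro v
      show s2 (rot (rot v)) * wt (δ n) f (rot (rot v)) * (φ (rot (rot v)) : ℝ) = _
      rw [s2_rot]
    simp_rw [h1]
    have hb : (Function.support fun v => wt (δ n) f (rot (rot v))).Finite :=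
      ((wt_support_finite hf (hδ n)).preimage rotE.injective.injOn).preimage
        rotE.injective.injOn
    have hm : Measurable fun φ : ℤ × ℤ → ℤ =>
        (∑ᶠ v : ℤ × ℤ, s0 v * wt (δ n) f (rot (rot v)) * ((φ v : ℤ) : ℝ)) ^ 2 := by
      have : (fun φ : ℤ × ℤ → ℤ =>
          (∑ᶠ v : ℤ × ℤ, s0 v * wt (δ n) f (rot (rot v)) * ((φ v : ℤ) : ℝ)) ^ 2) =
          fun φ : ℤ × ℤ → ℤ =>
          (∑ v ∈ hb.toFinset, (s0 v * wt (δ n) f (rot (rot v))) * ((φ v : ℤ) : ℝ)) ^ 2 := by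
        ext φ
        rw [finsum_stat hb]
      rw [this]
      exact meas_stat _ _
    have h2 := int_rot hP hm
    have h3 := int_rot hP (G := fun φ : ℤ × ℤ → ℤ => (∑ᶠ v : ℤ × ℤ, s0 v *
      wt (δ n) f (rot (rot v)) * ((φ (rot v) : ℤ) : ℝ)) ^ 2) (hm.comp measurable_rotmap)
    exact h3.trans h2
  have t2 : Tendsto (fun n => ∫ φ, D s2 n φ ^ 2 ∂P) atTop (𝓝 0) := by
    simp_rw [e2]
    refine stag_r hP hdec hA0 hA hf δ hδ hδ1 ht (fun v => rot (rot v)) (-1, 1) ?_ (fun v => ?_) ?_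
    · unfold pos
      rw [Prod.norm_def, sup_le_iff, Real.norm_eq_abs, Real.norm_eq_abs]
      constructor
      · norm_num
      · push_cast
        rw [one_mul, abs_of_pos (by positivity)]
        linarith [sqrt3_le]
    · unfold rot
      ext <;> simp
      ring
    · intro v M h1 h2
      unfold rot at h1 h2
      push_cast at h1 h2
      rw [abs_neg] at h1
      have h3 : -(v.2 : ℝ) + (v.1 + v.2) = v.1 := by ring
      rw [h3] at h2
      have h4 : |(v.2 : ℝ)| ≤ |(v.1 : ℝ) + v.2| + |(v.1 : ℝ)| := by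
        have := abs_sub ((v.1 : ℝ) + v.2) (v.1 : ℝ)
        rw [add_sub_cancel_left] at this
        exact this
      have := abs_nonneg (v.1 : ℝ)
      constructor <;> linarith only [h1, h2, h4, this]
  have t3 : Tendsto (fun n => ∫ φ, R n φ ^ 2 ∂P) atTop (𝓝 0) := by
    have h1 : Tendsto (fun n => K ^ 2 * ((2 * (4 * K + 20) + 3) ^ 4 * (3 * A * (4 * K + 21))) *
        δ n) atTop (𝓝 0) := by
      simpa using ht.const_mul (K ^ 2 * ((2 * (4 * K + 20) + 3) ^ 4 * (3 * A * (4 * K + 21))))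
    exact squeeze_zero (fun n => integral_nonneg fun φ => sq_nonneg _) hRb h1
  have hmeas : ∀ n, AEStronglyMeasurable (fun φ : ℤ × ℤ → ℤ =>
      (smear φ (δ n) f - rowS (δ n) f φ) ^ 2) P := by
    intro n
    have hs1 : Measurable fun φ : ℤ × ℤ → ℤ => smear φ (δ n) f := by
      have : (fun φ : ℤ × ℤ → ℤ => smear φ (δ n) f) =
          fun φ => ∑ v ∈ (wt_support_finite hf (hδ n)).toFinset,
            (1 * wt (δ n) f v) * ((φ v : ℤ) : ℝ) := by
        ext φ
        rw [smear_finsum hf (hδ n), ← finsum_stat]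
        apply finsum_congr
        intro v
        ring
      rw [this]
      exact Finset.measurable_sum _ fun v _ => (measurable_coord v).const_mul _
    have hs2 : Measurable fun φ : ℤ × ℤ → ℤ => rowS (δ n) f φ := by
      have hb : (Function.support fun p : ℤ × ℤ => rowW (δ n) f p.1 p.2).Finite := by
        apply ((fs_ev (wt_support_finite hf (hδ n))).union
          (fs_ev' (wt_support_finite hf (hδ n)))).subset
        intro v hv
        rw [Set.mem_union, Function.mem_support, Function.mem_support]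
        rw [Function.mem_support] at hv
        by_contra hcon
        rw [not_or, not_not, not_not] at hcon
        apply hv
        unfold rowW
        rw [hcon.1, hcon.2, add_zero]
      have : (fun φ : ℤ × ℤ → ℤ => rowS (δ n) f φ) =
          fun φ => ∑ p ∈ hb.toFinset, rowW (δ n) f p.1 p.2 * ((φ (ev p.1 p.2) : ℤ) : ℝ) := by
        ext φ
        unfold rowS
        apply finsum_eq_sum_of_support_subset
        intro v hv
        rw [Function.mem_support] at hv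
        rw [Finset.mem_coe, Set.Finite.mem_toFinset, Function.mem_support]
        intro h
        apply hv
        rw [h, zero_mul]
      rw [this]
      exact Finset.measurable_sum _ fun v _ => (measurable_coord _).const_mul _
    exact ((hs1.sub hs2).pow_const 2).aestronglyMeasurable
  constructor
  · have h1 := (((t0.const_mul 4).add (t1.const_mul 4)).add (t2.const_mul 4)).add (t3.const_mul 4)
    simp only [mul_zero, add_zero] at h1
    exact squeeze_zero (fun n => integral_nonneg fun φ => sq_nonneg _) hup h1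
  · intro n
    exact (i6 n).mono' (hmeas n) (ae_of_all _ fun φ => by
      rw [Real.norm_of_nonneg (sq_nonneg _)]
      exact hsq n φ)

end Vale.Agent.P153.GFF
end

section

/-!
# P153, (G2): logarithmic growth of the variance function
-/

open MeasureTheory ProbabilityTheory Filter Topology Set
open scoped ENNReal Real

namespace Vale.Agent.P153.GFF.G2w

open TwoPt TwoPt.Cn

theorem osc {w : ℂ} (hw : w ≠ 0) (hre : 0 ≤ w.re) {a b : ℝ} (ha : 0 < a) (hab : a ≤ b) :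
    ‖∫ t in a..b, Complex.exp (-(w * t)) / t‖ ≤ 2 / (‖w‖ * a) := by
  have hb : 0 < b := ha.trans_le hab
  have hwn : 0 < ‖w‖ := norm_pos_iff.2 hw
  have hpos : ∀ t ∈ uIcc a b, 0 < t := fun t ht => by
    rw [uIcc_of_le hab] at ht
    exact ha.trans_le ht.1
  have hexp : ∀ t : ℝ, 0 ≤ t → ‖Complex.exp (-(w * t))‖ ≤ 1 := by
    intro t ht
    rw [Complex.norm_exp]
    refine Real.exp_le_one_iff.2 ?_
    have : (-(w * (t : ℂ))).re = -(w.re * t) := by simp
    rw [this]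
    have := mul_nonneg hre ht
    linarith only [this]
  have hc1 : ContinuousOn (fun t : ℝ => Complex.exp (-(w * t)) / t) (uIcc a b) := by
    refine ContinuousOn.div (by (clear * -; fun_prop)) (by fun_prop) fun t ht => ?_
    exact_mod_cast (hpos t ht).ne'
  have hc2 : ContinuousOn (fun t : ℝ => Complex.exp (-(w * t)) / (w * t ^ 2)) (uIcc a b) := by
    refine ContinuousOn.div (by (clear * -; fun_prop)) (by fun_prop) fun t ht => ?_
    have h1 : (t : ℂ) ≠ 0 := by exact_mod_cast (hpos t ht).ne'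
    positivity
  have hder : ∀ t ∈ uIcc a b, HasDerivAt (fun t : ℝ => -(Complex.exp (-(w * t)) / (w * t)))
      (Complex.exp (-(w * t)) / t + Complex.exp (-(w * t)) / (w * t ^ 2)) t := by
    intro t ht
    have h1 : (t : ℂ) ≠ 0 := by exact_mod_cast (hpos t ht).ne'
    have h2 : HasDerivAt (fun t : ℝ => (t : ℂ)) 1 t := Complex.ofRealCLM.hasDerivAt
    have h3 : HasDerivAt (fun t : ℝ => w * (t : ℂ)) (w * 1) t := h2.const_mul w
    have h4 := (h3.neg.cexp.div h3 (mul_ne_zero hw h1)).neg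
    refine h4.congr_deriv ?_
    simp only [Pi.neg_apply]
    field_simp
    ring
  have hint := intervalIntegral.integral_eq_sub_of_hasDerivAt hder
    (hc1.intervalIntegrable.add hc2.intervalIntegrable)
  rw [intervalIntegral.integral_add hc1.intervalIntegrable hc2.intervalIntegrable] at hint
  have hq : ‖∫ t in a..b, Complex.exp (-(w * t)) / (w * t ^ 2)‖ ≤ (1 / ‖w‖) * (1 / a - 1 / b) := by
    have e : ∫ t in a..b, (1 / ‖w‖) * (t ^ (-2 : ℤ)) = (1 / ‖w‖) * (1 / a - 1 / b) := by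
      rw [intervalIntegral.integral_const_mul, integral_zpow]
      · congr 1
        norm_num
        ring
      · right
        refine ⟨by norm_num, fun h => ?_⟩
        exact (hpos 0 h).false
    rw [← e]
    refine intervalIntegral.norm_integral_le_of_norm_le hab ?_ ?_
    · refine Eventually.of_forall fun t ht => ?_
      have ht0 : 0 < t := ha.trans ht.1
      rw [norm_div, norm_mul, norm_pow, Complex.norm_real, Real.norm_of_nonneg ht0.le, zpow_neg,
        zpow_ofNat]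
      calc ‖Complex.exp (-(w * t))‖ / (‖w‖ * t ^ 2) ≤ 1 / (‖w‖ * t ^ 2) := by
            gcongr
            exact hexp t ht0.le
        _ = _ := by field_simp
    · refine ContinuousOn.intervalIntegrable ?_
      refine continuousOn_const.mul (continuousOn_id.zpow₀ _ fun t ht => Or.inl (hpos t ht).ne')
  have e1 : ∫ t in a..b, Complex.exp (-(w * t)) / t =
      -(Complex.exp (-(w * b)) / (w * b)) + Complex.exp (-(w * a)) / (w * a) -
        ∫ t in a..b, Complex.exp (-(w * t)) / (w * t ^ 2) := by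
    rw [eq_sub_iff_add_eq, hint]
    ring
  have hn : ∀ t : ℝ, 0 < t → ‖Complex.exp (-(w * t)) / (w * t)‖ ≤ 1 / (‖w‖ * t) := by
    intro t ht
    rw [norm_div, norm_mul, Complex.norm_real, Real.norm_of_nonneg ht.le]
    gcongr
    exact hexp t ht.le
  rw [e1]
  refine (norm_sub_le _ _).trans ?_
  have h5 := norm_add_le (-(Complex.exp (-(w * b)) / (w * b))) (Complex.exp (-(w * a)) / (w * a))
  rw [norm_neg] at h5
  have h6 := hn a ha
  have h7 := hn b hb
  have e2 : 2 / (‖w‖ * a) = 1 / (‖w‖ * b) + 1 / (‖w‖ * a) + (1 / ‖w‖) * (1 / a - 1 / b) := by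
    field_simp
    ring
  rw [e2]
  linarith only [hq, h5, h6, h7]

theorem osc_real {c z : ℝ} {n : ℕ} (hc : 0 < c) (hR : 0 < z ^ 2 + c ^ 2 * (n : ℝ) ^ 2) {a b : ℝ}
    (ha : 0 < a) (hab : a ≤ b) :
    |∫ t in a..b, Real.cos (t * z) * Real.exp (-(c * t)) ^ n / t| ≤
      2 / (√(z ^ 2 + c ^ 2 * (n : ℝ) ^ 2) * a) := by
  set w : ℂ := ⟨c * n, z⟩ with hw
  have hn : ‖w‖ = √(z ^ 2 + c ^ 2 * (n : ℝ) ^ 2) := by
    rw [Complex.norm_def, Complex.normSq_apply, hw]
    congr 1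
    ring
  have hwn : 0 < ‖w‖ := by rw [hn]; exact Real.sqrt_pos.2 hR
  have hw0 : w ≠ 0 := norm_pos_iff.1 hwn
  have h1 := osc hw0 (show 0 ≤ w.re by rw [hw]; (clear * - hc; positivity)) ha hab
  rw [hn] at h1
  have e : ∫ t in a..b, Real.cos (t * z) * Real.exp (-(c * t)) ^ n / t =
      (∫ t in a..b, Complex.exp (-(w * t)) / t).re := by
    have hpos : ∀ t ∈ uIcc a b, 0 < t := fun t ht => by
      rw [uIcc_of_le hab] at ht
      exact ha.trans_le ht.1
    have hc1 : ContinuousOn (fun t : ℝ => Complex.exp (-(w * t)) / t) (uIcc a b) := by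
      refine ContinuousOn.div (by (clear * -; fun_prop)) (by (clear * -; fun_prop)) fun t ht => ?_
      exact_mod_cast (hpos t ht).ne'
    have h2 := Complex.reCLM.intervalIntegral_comp_comm
      (hc1.intervalIntegrable (μ := volume))
    simp only [Complex.reCLM_apply] at h2
    rw [← h2]
    refine intervalIntegral.integral_congr fun t ht => ?_
    have hexp : Complex.exp (-(w * t)) =
        ((Real.exp (-(c * t)) ^ n : ℝ) : ℂ) * Complex.exp (((-(t * z) : ℝ) : ℂ) * Complex.I) := by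
      rw [← Real.exp_nat_mul, Complex.ofReal_exp, ← Complex.exp_add]
      congr 1
      rw [hw]
      apply Complex.ext
      · simp only [Complex.neg_re, Complex.mul_re, Complex.ofReal_re, Complex.ofReal_im, mul_zero, sub_zero, mul_neg, Complex.ofReal_neg, Complex.ofReal_mul, Complex.ofReal_natCast, neg_mul, Complex.add_re, Complex.natCast_re, Complex.natCast_im, Complex.mul_im, zero_mul, add_zero, Complex.I_re, Complex.I_im, mul_one, sub_self, neg_zero, neg_inj]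
        ring
      · simp
        ring
    rw [Complex.div_ofReal_re, hexp, Complex.re_ofReal_mul, Complex.exp_ofReal_mul_I_re,
      Real.cos_neg]
    ring
  rw [e]
  exact (Complex.abs_re_le_norm _).trans h1


theorem ring_int (g : ℝ → ℝ) {a b : ℝ} (ha : 0 < a) (hab : a ≤ b) (hb : b ≤ π) :
    ∫ k in Icc (-π) π, ({k : ℝ | a ≤ |k| ∧ |k| < b}).indicator (fun k => g (abs k)) k =
      2 * ∫ t in a..b, g t := by
  have e1 : ∀ k : ℝ, ({k : ℝ | a ≤ |k| ∧ |k| < b}).indicator (fun k => g (abs k)) k =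
      (Ico a b).indicator g (abs k) := by
    intro k
    by_cases h : a ≤ |k| ∧ |k| < b
    · rw [indicator_of_mem (show k ∈ {k : ℝ | a ≤ |k| ∧ |k| < b} from h),
        indicator_of_mem (show |k| ∈ Ico a b from h)]
    · rw [indicator_of_notMem (show k ∉ {k : ℝ | a ≤ |k| ∧ |k| < b} from h),
        indicator_of_notMem (show |k| ∉ Ico a b from h)]
  have hsub : ∀ k : ℝ, k ∉ Icc (-π) π → (Ico a b).indicator g (abs k) = 0 := by
    intro k hk
    refine indicator_of_notMem (fun h => hk ?_) _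
    exact abs_le.1 (h.2.le.trans hb)
  simp_rw [e1]
  rw [setIntegral_eq_integral_of_forall_compl_eq_zero hsub, integral_comp_abs,
    setIntegral_indicator measurableSet_Ico, intervalIntegral.integral_of_le hab,
    ← integral_Ico_eq_integral_Ioc]
  rw [show Ioi (0 : ℝ) ∩ Ico a b = Ico a b from
    inter_eq_right.2 fun t ht => ha.trans_le ht.1]

theorem main_est {V : ℤ → ℤ → ℝ} {m : Kernel ℝ ℝ} {c κ C k0 : ℝ} (hS : Spec V m c κ C k0)
    {ε : ℝ} (hε : 0 < ε) : ∃ D R0 : ℝ, 1 ≤ R0 ∧ ∀ j z : ℤ,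
      R0 ≤ √((z : ℝ) ^ 2 + c ^ 2 * (j : ℝ) ^ 2) →
      |π * V j z - κ / c * Real.log (√((z : ℝ) ^ 2 + c ^ 2 * (j : ℝ) ^ 2))| ≤
        ε * Real.log (√((z : ℝ) ^ 2 + c ^ 2 * (j : ℝ) ^ 2)) + D := by
  have hc := hS.c_pos
  have hC := hS.C_pos
  have hκ := hS.κ_nonneg
  have hk0 := hS.k0_pos
  have hsf := hS.sfin
  obtain ⟨η', hη', hm'⟩ := FF_main hS (half_pos hε)
  set η := min (min η' k0) 1 with hηd
  have hη : 0 < η := lt_min (lt_min hη' hk0) one_pos
  have hη1 : η ≤ 1 := min_le_right _ _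
  have hηk0 : η ≤ k0 := (min_le_left _ _).trans (min_le_right _ _)
  have hηη' : η ≤ η' := (min_le_left _ _).trans (min_le_left _ _)
  have hηπ : η ≤ π := hη1.trans (by linarith only [Real.pi_gt_three])
  obtain ⟨D, hD, hfar⟩ := FF_far hS hη hηπ
  refine ⟨2 * C * (1 + 1 / c) + D.toReal + κ / c * (|Real.log η| + 2), 1 / η,
    by rw [le_div_iff₀ hη]; linarith only [hη1], fun j z hR0 => ?_⟩
  set R := √((z : ℝ) ^ 2 + c ^ 2 * (j : ℝ) ^ 2) with hR
  set n := j.natAbs with hn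
  have hnj : (n : ℝ) ^ 2 = (j : ℝ) ^ 2 := by
    rw [hn]
    have : ((j.natAbs : ℤ) : ℝ) ^ 2 = (j : ℝ) ^ 2 := by
      rw [Int.natCast_natAbs]
      push_cast
      exact sq_abs _
    simp only [Nat.cast_natAbs, Int.cast_abs, Int.cast_eq, sq_abs] at this ⊢
  have hRpos : 0 < R := lt_of_lt_of_le (by positivity) hR0
  have hRη : 1 / R ≤ η := by
    rw [div_le_iff₀ hη] at hR0
    rw [div_le_iff₀ hRpos]
    linarith only [hR0]
  have hR1 : 1 ≤ R := by
    refine le_trans ?_ hR0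
    rw [le_div_iff₀ hη]
    linarith only [hη1]
  have hR2 : R ^ 2 = (z : ℝ) ^ 2 + c ^ 2 * (j : ℝ) ^ 2 := Real.sq_sqrt (by (clear * - hc; positivity))
  have hzR : (z : ℝ) ^ 2 ≤ R ^ 2 := by rw [hR2]; nlinarith only []
  have hnR : (n : ℝ) ≤ R / c := by
    rw [le_div_iff₀ hc]
    refine abs_le_of_sq_le_sq' ?_ hRpos.le |>.2
    rw [mul_pow, hnj, hR2]
    nlinarith only []
  have hRi : 0 < 1 / R := by (clear * - hRpos; positivity)
  set A1 : Set ℝ := {k | |k| < 1 / R} with hA1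
  set A2 : Set ℝ := {k | 1 / R ≤ |k| ∧ |k| < η} with hA2
  set A3 : Set ℝ := {k | η ≤ |k|} with hA3
  have hA1m : MeasurableSet A1 := measurableSet_lt (by fun_prop) measurable_const
  have hA2m : MeasurableSet A2 := by
    have h1 : MeasurableSet {k : ℝ | 1 / R ≤ |k|} :=
      measurableSet_le measurable_const (by fun_prop)
    have h2 : MeasurableSet {k : ℝ | |k| < η} := measurableSet_lt (by fun_prop) measurable_const
    exact h1.inter h2
  have hA3m : MeasurableSet A3 := measurableSet_le measurable_const (by fun_prop)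
  set μ := volume.restrict (Icc (-π) π) with hμ
  have hFm := FF_meas m n (z : ℝ)
  -- the majorant
  set c1 := C * (R + R / c) with hc1
  have hc10 : 0 ≤ c1 := by (clear * - hC hRpos hc; positivity)
  have i1 : Integrable (A1.indicator fun _ => c1) μ := (integrable_const _).indicator hA1m
  have i2 : Integrable (A2.indicator fun k => ε / 2 / abs k) μ := by
    refine Integrable.mono' (integrable_const (ε / 2 * R))
      ((by fun_prop : Measurable fun k : ℝ => ε / 2 / |k|).indicator hA2m).aestronglyMeasurable ?_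
    refine Eventually.of_forall fun k => ?_
    by_cases hk : k ∈ A2
    · rw [indicator_of_mem hk, Real.norm_eq_abs, abs_of_nonneg (by (clear * - hε; positivity))]
      have h1 : 0 < |k| := hRi.trans_le hk.1
      rw [div_le_iff₀ h1]
      have h2 := hk.1
      rw [div_le_iff₀ hRpos] at h2
      nlinarith only [hε, h2]
    · rw [indicator_of_notMem hk, norm_zero]
      (clear * - hε hRpos; positivity)
  have i3 : Integrable (A3.indicator fun k => ‖FF m n z k‖) μ := by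
    rw [integrable_indicator_iff hA3m]
    refine ⟨hFm.norm.aestronglyMeasurable, ?_⟩
    rw [hasFiniteIntegral_iff_enorm, hμ, Measure.restrict_restrict hA3m, inter_comm]
    simp_rw [enorm_norm]
    exact (hfar n z).trans_lt hD.lt_top
  have i4 : Integrable (A2.indicator fun k => GG c κ n z (abs k)) μ := by
    have hGm : Measurable fun k : ℝ => GG c κ n z (abs k) := by
      unfold GG
      fun_prop
    refine Integrable.mono' (integrable_const (κ / c * R))
      (hGm.indicator hA2m).aestronglyMeasurable ?_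
    refine Eventually.of_forall fun k => ?_
    by_cases hk : k ∈ A2
    · rw [indicator_of_mem hk, Real.norm_eq_abs]
      have h1 : 0 < |k| := hRi.trans_le hk.1
      have h2 := hk.1
      rw [div_le_iff₀ hRpos] at h2
      have h3 : |Real.exp (-(c * |k|)) ^ n| ≤ 1 := by
        rw [abs_of_nonneg (by positivity)]
        refine pow_le_one₀ (Real.exp_pos _).le (Real.exp_le_one_iff.2 ?_)
        have := mul_pos hc h1
        linarith only [this]
      have h4 : |1 - Real.cos (|k| * z) * Real.exp (-(c * |k|)) ^ n| ≤ 2 := by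
        refine (abs_sub _ _).trans ?_
        rw [abs_one, abs_mul]
        have h5 := Real.abs_cos_le_one (|k| * z)
        have : |Real.cos (|k| * z)| * |Real.exp (-(c * |k|)) ^ n| ≤ 1 * 1 := by (clear * - h5 h3; gcongr)
        linarith only [this]
      unfold GG
      rw [abs_mul, abs_of_nonneg (by (clear * - hκ hc h1; positivity))]
      calc κ / (2 * c * |k|) * |1 - Real.cos (|k| * z) * Real.exp (-(c * |k|)) ^ n|
          ≤ κ / (2 * c * |k|) * 2 := by (clear * - h4 hκ hc h1; gcongr)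
        _ = κ / c * (1 / |k|) := by (clear * - h1 hc; field_simp)
        _ ≤ κ / c * R := by
          gcongr
          rw [div_le_iff₀ h1]
          linarith only [h2]
    · rw [indicator_of_notMem hk, norm_zero]
      (clear * - hκ hc hRpos; positivity)
  have hpt : ∀ᵐ k ∂μ, ‖FF m n z k - A2.indicator (fun k => GG c κ n z (abs k)) k‖ ≤
      A1.indicator (fun _ => c1) k + A2.indicator (fun k => ε / 2 / abs k) k +
        A3.indicator (fun k => ‖FF m n z k‖) k := by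
    have h0 : ∀ᵐ k : ℝ, k ≠ 0 := by simp [ae_iff]
    filter_upwards [ae_restrict_of_ae hm', ae_restrict_of_ae (ae_good hS),
      ae_restrict_of_ae h0] with k g1 g2 g3
    by_cases m1 : k ∈ A1
    · have n2 : k ∉ A2 := fun h => not_lt.2 h.1 m1
      have n3 : k ∉ A3 := fun h => not_lt.2 (hRη.trans h) m1
      rw [indicator_of_mem m1, indicator_of_notMem n2, indicator_of_notMem n2,
        indicator_of_notMem n3, sub_zero, add_zero, add_zero, Real.norm_eq_abs]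
      have m1' : |k| < 1 / R := m1
      have hG := g2 (m1'.trans_le (hRη.trans hηk0)) g3
      refine (FF_bd hG hC.le g3 n z).trans ?_
      rw [hc1]
      have h1 : |k| * (z : ℝ) ^ 2 ≤ R := by
        calc |k| * (z : ℝ) ^ 2 ≤ 1 / R * R ^ 2 := by (clear * - m1' hzR hRpos; gcongr)
          _ = R := by field_simp
      (clear * - h1 hnR hC; gcongr)
    · by_cases m2 : k ∈ A2
      · have n3 : k ∉ A3 := fun h => not_lt.2 h m2.2
        rw [indicator_of_notMem m1, indicator_of_mem m2, indicator_of_mem m2,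
          indicator_of_notMem n3, zero_add, add_zero, Real.norm_eq_abs]
        exact g1 (m2.2.trans_le hηη') g3 n z
      · have m3 : k ∈ A3 := by
          by_contra h
          exact m2 ⟨not_lt.1 m1, not_le.1 h⟩
        rw [indicator_of_notMem m1, indicator_of_notMem m2, indicator_of_notMem m2,
          indicator_of_mem m3, sub_zero, zero_add, zero_add]
  have i12 : Integrable (fun k => A1.indicator (fun _ => c1) k +
      A2.indicator (fun k => ε / 2 / abs k) k) μ := i1.add i2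
  have iB : Integrable (fun k => A1.indicator (fun _ => c1) k +
      A2.indicator (fun k => ε / 2 / abs k) k + A3.indicator (fun k => ‖FF m n z k‖) k) μ :=
    i12.add i3
  have iD : Integrable (fun k => FF m n z k - A2.indicator (fun k => GG c κ n z (abs k)) k) μ := by
    refine Integrable.mono' iB (hFm.aestronglyMeasurable.sub i4.aestronglyMeasurable) ?_
    exact hpt
  have hDle := norm_integral_le_of_norm_le iB hpt
  have hsplit : ∫ k, FF m n z k ∂μ = (∫ k, (FF m n z k -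
      A2.indicator (fun k => GG c κ n z (abs k)) k) ∂μ) +
        ∫ k, A2.indicator (fun k => GG c κ n z (abs k)) k ∂μ := by
    rw [← integral_add iD i4]
    refine integral_congr_ae (Eventually.of_forall fun k => ?_)
    simp
  have hV : π * V j z = ∫ k, FF m n z k ∂μ := by
    rw [hS.rep j z, ← mul_assoc, mul_one_div_cancel Real.pi_pos.ne', one_mul]
    rfl
  -- the integrals
  have e1 : ∫ k, A1.indicator (fun _ => c1) k ∂μ ≤ 2 * C * (1 + 1 / c) := by
    rw [integral_indicator_const _ hA1m, smul_eq_mul]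
    have h1 : μ.real A1 ≤ 2 / R := by
      have h2 : μ.real A1 ≤ volume.real (Ioo (-(1 / R)) (1 / R)) := by
        have h3 : A1 = Ioo (-(1 / R)) (1 / R) := by
          ext k
          show |k| < 1 / R ↔ -(1 / R) < k ∧ k < 1 / R
          exact abs_lt
        rw [h3, hμ]
        refine ENNReal.toReal_mono (by simp only [one_div, Real.volume_Ioo, sub_neg_eq_add, ne_eq, ENNReal.ofReal_ne_top, not_false_eq_true]) (Measure.restrict_apply_le _ _)
      refine h2.trans ?_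
      rw [Real.volume_real_Ioo_of_le (by linarith only [hRi])]
      apply le_of_eq
      ring
    calc μ.real A1 * c1 ≤ 2 / R * c1 := by (clear * - h1 hC hRpos hc; gcongr)
      _ = _ := by rw [hc1]; (clear * - hc hRpos hC; field_simp)
  have e2 : ∫ k, A2.indicator (fun k => ε / 2 / abs k) k ∂μ = ε * Real.log (η * R) := by
    have h1 := ring_int (fun t => ε / 2 / t) hRi hRη hηπ
    rw [hμ, hA2, h1]
    have h2 : ∫ t in (1 / R)..η, ε / 2 / t = ε / 2 * Real.log (η / (1 / R)) := by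
      rw [← integral_one_div (by
        intro h
        rw [uIcc_of_le hRη] at h
        exact absurd h.1 (not_le.2 hRi)), ← intervalIntegral.integral_const_mul]
      refine intervalIntegral.integral_congr fun t _ => ?_
      ring
    rw [h2, show η / (1 / R) = η * R by (clear * - hRpos hη; field_simp)]
    ring
  have e3 : ∫ k, A3.indicator (fun k => ‖FF m n z k‖) k ∂μ ≤ D.toReal := by
    rw [integral_indicator hA3m, hμ, Measure.restrict_restrict hA3m, inter_comm,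
      integral_norm_eq_lintegral_enorm hFm.aestronglyMeasurable]
    exact ENNReal.toReal_mono hD (hfar n z)
  have e4 : |(∫ k, A2.indicator (fun k => GG c κ n z (abs k)) k ∂μ) - κ / c * Real.log (η * R)| ≤
      κ / c * 2 := by
    have h1 := ring_int (GG c κ n z) hRi hRη hηπ
    have hpos : ∀ t ∈ uIcc (1 / R) η, 0 < t := fun t ht => by
      rw [uIcc_of_le hRη] at ht
      exact hRi.trans_le ht.1
    have c1 : IntervalIntegrable (fun t : ℝ => 1 / t) volume (1 / R) η :=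
      ContinuousOn.intervalIntegrable (continuousOn_const.div continuousOn_id
        fun t ht => (hpos t ht).ne')
    have c2 : IntervalIntegrable (fun t : ℝ => Real.cos (t * z) * Real.exp (-(c * t)) ^ n / t)
        volume (1 / R) η :=
      ContinuousOn.intervalIntegrable ((by fun_prop : Continuous fun t : ℝ =>
        Real.cos (t * z) * Real.exp (-(c * t)) ^ n).continuousOn.div continuousOn_id
        fun t ht => (hpos t ht).ne')
    have h2 : ∫ t in (1 / R)..η, GG c κ n z t = κ / (2 * c) * (Real.log (η / (1 / R)) -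
        ∫ t in (1 / R)..η, Real.cos (t * z) * Real.exp (-(c * t)) ^ n / t) := by
      rw [← integral_one_div (by
        intro h
        rw [uIcc_of_le hRη] at h
        exact absurd h.1 (not_le.2 hRi)), ← intervalIntegral.integral_sub c1 c2,
        ← intervalIntegral.integral_const_mul]
      refine intervalIntegral.integral_congr fun t ht => ?_
      have := hpos t ht
      simp only [GG]
      (clear * - this hc; field_simp)
    have h3 := osc_real (c := c) (z := z) (n := n) hc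
      (by rw [hnj, ← hR2]; (clear * - hRpos; positivity)) hRi hRη
    rw [hnj, ← hR, mul_one_div_cancel hRpos.ne', div_one] at h3
    rw [hμ, hA2, h1, h2, show η / (1 / R) = η * R by (clear * - hRpos hη; field_simp)]
    set O := ∫ t in (1 / R)..η, Real.cos (t * z) * Real.exp (-(c * t)) ^ n / t with hO
    have e : 2 * (κ / (2 * c) * (Real.log (η * R) - O)) - κ / c * Real.log (η * R) =
        -(κ / c * O) := by
      field_simp
      ring
    rw [e, abs_neg, abs_mul, abs_of_nonneg (by (clear * - hκ hc; positivity) : 0 ≤ κ / c)]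
    (clear * - h3 hκ hc; gcongr)
  rw [integral_add i12 i3, integral_add i1 i2] at hDle
  rw [Real.norm_eq_abs] at hDle
  have hlog : Real.log (η * R) = Real.log η + Real.log R := Real.log_mul hη.ne' hRpos.ne'
  have hlogη : Real.log η ≤ 0 := Real.log_nonpos hη.le hη1
  have h5 : |κ / c * Real.log (η * R) - κ / c * Real.log R| ≤ κ / c * |Real.log η| := by
    rw [hlog, ← mul_sub, add_sub_cancel_right, abs_mul, abs_of_nonneg (by (clear * - hκ hc; positivity) : 0 ≤ κ / c)]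
  have h6 : ε * Real.log (η * R) ≤ ε * Real.log R := by
    rw [hlog]
    exact mul_le_mul_of_nonneg_left (by linarith only [hlogη]) hε.le
  rw [hV, hsplit]
  rw [e2] at hDle
  have h7 := abs_le.1 hDle
  have h8 := abs_le.1 e4
  have h9 := abs_le.1 h5
  rw [abs_le]
  constructor
  · linarith only [e1, e3, h6, h7, h8, h9]
  · linarith only [e1, e3, h6, h7, h8, h9]

end Vale.Agent.P153.GFF.G2w

namespace Vale.Agent.P153.GFF

open G2w

theorem g2 : G2 := by
  intro V m c κ C k0 hS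
  have hc := hS.c_pos
  have hκ := hS.κ_nonneg
  set r : ℤ × ℤ → ℝ := fun p => √((p.2 : ℝ) ^ 2 + c ^ 2 * (p.1 : ℝ) ^ 2) with hr
  -- `r → ∞`
  have hrt : Tendsto r cofinite atTop := by
    rw [tendsto_atTop]
    intro B
    have hfin : (Set.Icc (-⌈(|B| + 1) / c⌉) ⌈(|B| + 1) / c⌉ ×ˢ
        Set.Icc (-⌈|B| + 1⌉) ⌈|B| + 1⌉ : Set (ℤ × ℤ)).Finite :=
      (Set.finite_Icc _ _).prod (Set.finite_Icc _ _)
    refine (hfin.subset ?_ : {p | ¬ B ≤ r p}.Finite)
    intro p hp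
    have hp' : r p < B := not_le.1 hp
    have hB : r p < |B| + 1 := hp'.trans_le ((le_abs_self B).trans (by linarith))
    have h0 : 0 ≤ r p := Real.sqrt_nonneg _
    have h2 : r p ^ 2 = (p.2 : ℝ) ^ 2 + c ^ 2 * (p.1 : ℝ) ^ 2 := Real.sq_sqrt (by (clear * - hc; positivity))
    have hz : |(p.2 : ℝ)| ≤ |B| + 1 := by
      refine le_trans (abs_le_of_sq_le_sq ?_ h0) hB.le
      rw [h2]
      nlinarith only []
    have hj : |(p.1 : ℝ)| ≤ (|B| + 1) / c := by
      rw [le_div_iff₀ hc]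
      refine le_trans ?_ hB.le
      have : |(p.1 : ℝ) * c| ≤ r p := by
        refine abs_le_of_sq_le_sq ?_ h0
        rw [h2]
        nlinarith only []
      rwa [abs_mul, abs_of_pos hc] at this
    rw [abs_le] at hz hj
    refine ⟨⟨?_, ?_⟩, ⟨?_, ?_⟩⟩
    · rw [neg_le]
      have : -(p.1 : ℝ) ≤ (⌈(|B| + 1) / c⌉ : ℝ) := by linarith only [hj, Int.le_ceil ((|B| + 1) / c)]
      exact_mod_cast this
    · have : (p.1 : ℝ) ≤ (⌈(|B| + 1) / c⌉ : ℝ) := by linarith only [hj, Int.le_ceil ((|B| + 1) / c)]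
      exact_mod_cast this
    · rw [neg_le]
      have : -(p.2 : ℝ) ≤ (⌈|B| + 1⌉ : ℝ) := by linarith only [hz, Int.le_ceil (|B| + 1)]
      exact_mod_cast this
    · have : (p.2 : ℝ) ≤ (⌈|B| + 1⌉ : ℝ) := by linarith only [hz, Int.le_ceil (|B| + 1)]
      exact_mod_cast this
  have hlt : Tendsto (fun p => Real.log (r p)) cofinite atTop := Real.tendsto_log_atTop.comp hrt
  rw [Metric.tendsto_nhds]
  intro ε hε
  obtain ⟨D, R0, hR0, hD⟩ := main_est hS (ε := π * ε / 4) (by positivity)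
  filter_upwards [hrt.eventually_ge_atTop R0, hlt.eventually_gt_atTop 0,
    hlt.eventually_ge_atTop (4 * |D| / (π * ε))] with p h1 h2 h3
  have h4 := hD p.1 p.2 h1
  change |π * V p.1 p.2 - κ / c * Real.log (r p)| ≤ π * ε / 4 * Real.log (r p) + D at h4
  change dist (V p.1 p.2 / Real.log (r p)) (κ / (c * π)) < ε
  rw [Real.dist_eq]
  have e : V p.1 p.2 / Real.log (r p) - κ / (c * π) =
      (π * V p.1 p.2 - κ / c * Real.log (r p)) / (π * Real.log (r p)) := by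
    field_simp
  rw [e, abs_div, abs_of_pos (show 0 < π * Real.log (r p) by (clear * - h2; positivity)),
    div_lt_iff₀ (by positivity)]
  have h5 : |D| ≤ π * ε / 4 * Real.log (r p) := by
    rw [div_le_iff₀ (by positivity)] at h3
    linarith only [h3]
  have h6 := le_abs_self D
  have h7 : 0 < π * ε * Real.log (r p) := by positivity
  calc |π * V p.1 p.2 - κ / c * Real.log (r p)| ≤ π * ε / 4 * Real.log (r p) + D := h4
    _ ≤ π * ε / 4 * Real.log (r p) + π * ε / 4 * Real.log (r p) := by linarith only [h5, h6]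
    _ < ε * (π * Real.log (r p)) := by linarith only [h7]

end Vale.Agent.P153.GFF
end

section

/-!
# P153 GFF: limit of the characteristic functions and the variance from the row outputs
-/

open MeasureTheory ProbabilityTheory Filter Topology Set

namespace Vale.Agent.P153.GFF

open Vale.Agent.P153.CLT (coord_bdd integrable_mul_coord measurable_coord msd_eq hev)

variable {P : Measure (ℤ × ℤ → ℤ)} {f : ℝ × ℝ → ℝ} {K κ : ℝ}

/-! ### Change of variables -/

lemma int_swap_mul {E : Type*} [NormedAddCommGroup E] [NormedSpace ℝ E] {a : ℝ} (ha : 0 < a)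
    (F : ℝ × ℝ → E) : ∫ p : ℝ × ℝ, F (p.2, a * p.1) = a⁻¹ • ∫ p, F p := by
  have h1 : Measure.map (fun p : ℝ × ℝ => (p.2, a * p.1)) volume =
      ENNReal.ofReal a⁻¹ • volume := by
    have e : (fun p : ℝ × ℝ => (p.2, a * p.1)) = Prod.swap ∘ (Prod.map (fun x => a * x) id) := by
      ext p <;> rfl
    rw [e, ← Measure.map_map measurable_swap (by fun_prop), Measure.volume_eq_prod,
      ← Measure.map_prod_map _ _ (by fun_prop) measurable_id, Real.map_volume_mul_left ha.ne',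
      Measure.map_id, abs_of_pos (inv_pos.2 ha), Measure.prod_smul_left, Measure.map_smul,
      Measure.prod_swap]
  have h2 : MeasurableEmbedding (fun p : ℝ × ℝ => (p.2, a * p.1)) :=
    ((Homeomorph.prodComm ℝ ℝ).trans
      ((Homeomorph.refl ℝ).prodCongr (Homeomorph.mulLeft₀ a ha.ne'))).measurableEmbedding
  rw [← h2.integral_map F, h1, integral_smul_measure, ENNReal.toReal_ofReal (by positivity)]

lemma FT_ft (f : ℝ × ℝ → ℝ) (w q : ℝ) : TwoPt.FT (ft f) w q = ftR f (q, w / √3) := by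
  have h3 : (0 : ℝ) < √3 := by positivity
  have h1 := int_swap_mul h3 (fun z : ℝ × ℝ => ((√3 * f z : ℝ) : ℂ) *
    Complex.exp (Complex.I * ((w * (z.2 / √3) + q * z.1 : ℝ) : ℂ)))
  unfold TwoPt.FT ftR ft
  have h2 : (fun z : ℝ × ℝ => ((√3 * f (z.2, √3 * z.1) : ℝ) : ℂ) *
      Complex.exp (Complex.I * ((w * z.1 + q * z.2 : ℝ) : ℂ))) = fun p : ℝ × ℝ =>
      ((√3 * f (p.2, √3 * p.1) : ℝ) : ℂ) *
      Complex.exp (Complex.I * ((w * (√3 * p.1 / √3) + q * p.2 : ℝ) : ℂ)) := by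
    ext p
    rw [mul_div_cancel_left₀ _ h3.ne']
  rw [h2, h1, ← integral_smul]
  congr 1
  ext p
  rw [Complex.real_smul]
  have h4 : (((√3)⁻¹ : ℝ) : ℂ) * (((√3 * f p : ℝ) : ℂ) *
      Complex.exp (Complex.I * ((w * (p.2 / √3) + q * p.1 : ℝ) : ℂ))) =
      (((√3)⁻¹ * (√3 * f p) : ℝ) : ℂ) *
      Complex.exp (Complex.I * ((w * (p.2 / √3) + q * p.1 : ℝ) : ℂ)) := by
    push_cast
    ring
  rw [h4, inv_mul_cancel_left₀ h3.ne']
  have h5 : w * (p.2 / √3) + q * p.1 = q * p.1 + w / √3 * p.2 := by ring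
  rw [h5]

lemma sig_ft (hf : Test f) : TwoPt.sig (√3) κ (ft f) = κ / √3 * gffCov f f := by
  have h3 : (0 : ℝ) < √3 := by positivity
  have hsq : √3 ^ 2 = 3 := Real.sq_sqrt (by norm_num)
  obtain ⟨_, h1⟩ := g1 f hf
  unfold TwoPt.sig
  have h2 := int_swap_mul (inv_pos.2 h3)
    (fun z : ℝ × ℝ => ‖ftR f z‖ ^ 2 / (3 * (z.1 ^ 2 + z.2 ^ 2)))
  have h4 : (fun p : ℝ × ℝ => ‖TwoPt.FT (ft f) p.1 p.2‖ ^ 2 / (√3 ^ 2 * p.2 ^ 2 + p.1 ^ 2)) =
      fun p : ℝ × ℝ => ‖ftR f (p.2, (√3)⁻¹ * p.1)‖ ^ 2 /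
        (3 * (p.2 ^ 2 + ((√3)⁻¹ * p.1) ^ 2)) := by
    ext p
    have e1 : p.1 / √3 = (√3)⁻¹ * p.1 := by ring
    have e2 : 3 * (p.2 ^ 2 + ((√3)⁻¹ * p.1) ^ 2) = √3 ^ 2 * p.2 ^ 2 + p.1 ^ 2 := by
      rw [mul_pow, inv_pow, hsq]
      ring
    rw [FT_ft, e1, e2]
  rw [h4, h2, inv_inv, smul_eq_mul, ← h1]
  have h5 : ∫ p : ℝ × ℝ, ‖ftR f p‖ ^ 2 / (3 * (p.1 ^ 2 + p.2 ^ 2)) =
      1 / 3 * ∫ p : ℝ × ℝ, ‖ftR f p‖ ^ 2 / (p.1 ^ 2 + p.2 ^ 2) := by
    rw [← integral_const_mul]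
    congr 1
    ext p
    rw [div_mul_eq_div_div]
    ring
  rw [h5]
  have h6 : κ / √3 = κ * √3 / 3 := by
    rw [div_eq_div_iff h3.ne' (by norm_num)]
    calc κ * 3 = κ * √3 ^ 2 := by rw [hsq]
      _ = κ * √3 * √3 := by ring
  rw [h6]
  ring

/-! ### Characteristic functions -/

lemma norm_exp_sub (a b : ℝ) :
    ‖Complex.exp (Complex.I * (a : ℂ)) - Complex.exp (Complex.I * (b : ℂ))‖ ≤ |a - b| := by
  have h : Complex.exp (Complex.I * (a : ℂ)) - Complex.exp (Complex.I * (b : ℂ)) =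
      Complex.exp (Complex.I * (b : ℂ)) * (Complex.exp (Complex.I * ((a - b : ℝ) : ℂ)) - 1) := by
    rw [mul_sub, mul_one, ← Complex.exp_add]
    congr 2
    push_cast
    ring
  have h2 : ‖Complex.exp (Complex.I * (b : ℂ))‖ = 1 := by
    rw [mul_comm, Complex.norm_exp_ofReal_mul_I]
  rw [h, norm_mul, h2, one_mul]
  exact Real.norm_exp_I_mul_ofReal_sub_one_le

lemma int_exp [IsProbabilityMeasure P] {X : (ℤ × ℤ → ℤ) → ℝ} (hX : Measurable X) :
    Integrable (fun φ => Complex.exp (Complex.I * (X φ : ℂ))) P := by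
  refine Integrable.of_bound (C := 1) ?_ (ae_of_all _ fun φ => ?_)
  · exact (Complex.measurable_exp.comp
      ((Complex.measurable_ofReal.comp hX).const_mul _)).aestronglyMeasurable
  · rw [mul_comm, Complex.norm_exp_ofReal_mul_I]

lemma char_tendsto [IsProbabilityMeasure P] {X Y : ℕ → (ℤ × ℤ → ℤ) → ℝ}
    (hX : ∀ n, Measurable (X n)) (hY : ∀ n, Measurable (Y n))
    (hi : ∀ n, Integrable (fun φ => (X n φ - Y n φ) ^ 2) P)
    (h2 : Tendsto (fun n => ∫ φ, (X n φ - Y n φ) ^ 2 ∂P) atTop (𝓝 0)) {c : ℂ}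
    (hc : Tendsto (fun n => ∫ φ, Complex.exp (Complex.I * (Y n φ : ℂ)) ∂P) atTop (𝓝 c)) :
    Tendsto (fun n => ∫ φ, Complex.exp (Complex.I * (X n φ : ℂ)) ∂P) atTop (𝓝 c) := by
  have key : ∀ n, ∀ ε > 0, ‖(∫ φ, Complex.exp (Complex.I * (X n φ : ℂ)) ∂P) -
      ∫ φ, Complex.exp (Complex.I * (Y n φ : ℂ)) ∂P‖ ≤
      ε + ε⁻¹ * ∫ φ, (X n φ - Y n φ) ^ 2 ∂P := by
    intro n ε hε
    rw [← integral_sub (int_exp (hX n)) (int_exp (hY n))]
    have h3 : ∫ φ, (ε + ε⁻¹ * (X n φ - Y n φ) ^ 2) ∂P =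
        ε + ε⁻¹ * ∫ φ, (X n φ - Y n φ) ^ 2 ∂P := by
      rw [integral_add (integrable_const _) ((hi n).const_mul _), integral_const_mul]
      simp
    rw [← h3]
    apply norm_integral_le_of_norm_le ((integrable_const _).add ((hi n).const_mul _))
    refine ae_of_all _ fun φ => ?_
    refine (norm_exp_sub _ _).trans ?_
    show |X n φ - Y n φ| ≤ ε + ε⁻¹ * (X n φ - Y n φ) ^ 2
    rw [← sq_abs]
    set u := |X n φ - Y n φ| with hu
    have hu0 : 0 ≤ u := abs_nonneg _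
    have h4 : ε * (ε + ε⁻¹ * u ^ 2) = ε ^ 2 + u ^ 2 := by
      (clear * - hε; field_simp)
    have h5 : ε * u ≤ ε * (ε + ε⁻¹ * u ^ 2) := by
      rw [h4]
      nlinarith only []
    exact le_of_mul_le_mul_left h5 hε
  have h0 : Tendsto (fun n => (∫ φ, Complex.exp (Complex.I * (X n φ : ℂ)) ∂P) -
      ∫ φ, Complex.exp (Complex.I * (Y n φ : ℂ)) ∂P) atTop (𝓝 0) := by
    rw [Metric.tendsto_atTop']
    intro η hη
    have h4 : Tendsto (fun n => η / 2 + (η / 2)⁻¹ * ∫ φ, (X n φ - Y n φ) ^ 2 ∂P) atTop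
        (𝓝 (η / 2 + (η / 2)⁻¹ * 0)) := (h2.const_mul _).const_add _
    rw [mul_zero, add_zero] at h4
    obtain ⟨N, hN⟩ := Filter.eventually_atTop.1 (h4.eventually (gt_mem_nhds (half_lt_self hη)))
    refine ⟨N, fun n hn => ?_⟩
    rw [dist_zero_right]
    exact (key n (η / 2) (half_pos hη)).trans_lt (hN n hn.le)
  have h6 := h0.add hc
  rw [zero_add] at h6
  refine h6.congr fun n => ?_
  ring

lemma measurable_smear {δ : ℝ} (hf : Csts f K) (hδ : 0 < δ) :
    Measurable fun φ : ℤ × ℤ → ℤ => smear φ δ f := by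
  have : (fun φ : ℤ × ℤ → ℤ => smear φ δ f) =
      fun φ => ∑ v ∈ (wt_support_finite hf hδ).toFinset,
        (1 * wt δ f v) * ((φ v : ℤ) : ℝ) := by
    ext φ
    rw [smear_finsum hf hδ, ← finsum_stat]
    apply finsum_congr
    intro v
    ring
  rw [this]
  exact Finset.measurable_sum _ fun v _ => (measurable_coord v).const_mul _

lemma measurable_rowS {δ : ℝ} (hf : Csts f K) (hδ : 0 < δ) :
    Measurable fun φ : ℤ × ℤ → ℤ => rowS δ f φ := by
  have hb : (Function.support fun p : ℤ × ℤ => rowW δ f p.1 p.2).Finite := by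
    apply ((fs_ev (wt_support_finite hf hδ)).union
      (fs_ev' (wt_support_finite hf hδ))).subset
    intro v hv
    rw [Set.mem_union, Function.mem_support, Function.mem_support]
    rw [Function.mem_support] at hv
    by_contra hcon
    rw [not_or, not_not, not_not] at hcon
    apply hv
    unfold rowW
    rw [hcon.1, hcon.2, add_zero]
  have : (fun φ : ℤ × ℤ → ℤ => rowS δ f φ) =
      fun φ => ∑ p ∈ hb.toFinset, rowW δ f p.1 p.2 * ((φ (ev p.1 p.2) : ℤ) : ℝ) := by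
    ext φ
    unfold rowS
    apply finsum_eq_sum_of_support_subset
    intro v hv
    rw [Function.mem_support] at hv
    rw [Finset.mem_coe, Set.Finite.mem_toFinset, Function.mem_support]
    intro h
    apply hv
    rw [h, zero_mul]
  rw [this]
  exact Finset.measurable_sum _ fun v _ => (measurable_coord _).const_mul _

lemma grow_row (hS : SpecOut P κ) : Tendsto (fun p : ℤ × ℤ => Vrow P p.1 p.2 /
    Real.log (√((p.2 : ℝ) ^ 2 + (√3) ^ 2 * (p.1 : ℝ) ^ 2))) cofinite (𝓝 (κ / (√3 * Real.pi))) := by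
  obtain ⟨m, C, k0, h⟩ := hS
  exact g2 (Vrow P) m (√3) κ C k0 h

lemma ft_diff (hf : Test f) : ContDiff ℝ 2 (ft f) := by
  have h1 : ContDiff ℝ 2 f := by exact_mod_cast contDiff_infty.1 hf.1 2
  unfold ft
  exact contDiff_const.mul (h1.comp (contDiff_snd.prodMk (contDiff_const.mul contDiff_fst)))

lemma ft_int (hf : Test f) : ∫ z, ft f z = 0 := by
  have h3 : (0 : ℝ) < √3 := by positivity
  have h1 := int_swap_mul h3 (fun z : ℝ × ℝ => √3 * f z)
  unfold ft
  rw [h1, integral_const_mul, hf.2.2, mul_zero, smul_zero]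

theorem char_seq (hP : Plane P) (hS : SpecOut P κ) (hC : RowCLT P κ) (hf : Test f) (δ : ℕ → ℝ)
    (hδ : ∀ n, 0 < δ n) (hδ1 : ∀ n, δ n ≤ 1) (ht : Tendsto δ atTop (𝓝 0)) :
    Tendsto (fun n => ∫ φ : ℤ × ℤ → ℤ, Complex.exp (Complex.I * ((smear φ (δ n) f : ℝ) : ℂ)) ∂P)
      atTop (𝓝 (Complex.exp (-((κ / √3 * gffCov f f / 2 : ℝ) : ℂ)))) := by
  have := hP.prob
  obtain ⟨K, hK⟩ := hf.csts
  obtain ⟨A, hA0, hA⟩ := growth (grow_row hS)
  obtain ⟨m, C, k0, hspec⟩ := hS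
  obtain ⟨c1, c2⟩ := close hP (dec hspec) hA0 hA hK δ hδ hδ1 ht
  have h1 := hC (ft f) (fun n => 1 / δ n) (fun n j x => rowW (δ n) f j x) (8 * K + 20)
    (ft_diff hf) (ft_int hf) (disc hK hf.2.2 δ hδ hδ1 ht)
  rw [sig_ft hf] at h1
  exact char_tendsto (fun n => measurable_smear hK (hδ n)) (fun n => measurable_rowS hK (hδ n))
    c2 c1 h1

theorem char_fun (hP : Plane P) (hS : SpecOut P κ) (hC : RowCLT P κ) (hf : Test f) :
    Tendsto (fun δ : ℝ => ∫ φ : ℤ × ℤ → ℤ, Complex.exp (Complex.I * ((smear φ δ f : ℝ) : ℂ)) ∂P)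
      (𝓝[>] 0) (𝓝 (Complex.exp (-((κ / √3 * gffCov f f / 2 : ℝ) : ℂ)))) := by
  rw [tendsto_iff_seq_tendsto]
  intro u hu
  have h1 : ∀ᶠ n in atTop, 0 < u n ∧ u n ≤ 1 := by
    have a1 : ∀ᶠ x : ℝ in 𝓝[>] 0, 0 < x ∧ x ≤ 1 := by
      have := Ioc_mem_nhdsGT (zero_lt_one' ℝ)
      filter_upwards [this] with x hx
      exact hx
    exact hu.eventually a1
  classical
  set δ : ℕ → ℝ := fun n => if 0 < u n ∧ u n ≤ 1 then u n else 1 with hd
  have h2 : ∀ᶠ n in atTop, δ n = u n := by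
    filter_upwards [h1] with n hn
    rw [hd]
    simp only
    rw [if_pos hn]
  have h3 : ∀ n, 0 < δ n := by
    intro n
    rw [hd]
    simp only
    split_ifs with h
    · exact h.1
    · exact one_pos
  have h4 : ∀ n, δ n ≤ 1 := by
    intro n
    rw [hd]
    simp only
    split_ifs with h
    · exact h.2
    · exact le_rfl
  have h5 : Tendsto δ atTop (𝓝 0) :=
    (tendsto_nhds_of_tendsto_nhdsWithin hu).congr' (h2.mono fun n hn => hn.symm)
  refine (char_seq hP hS hC hf δ h3 h4 h5).congr' ?_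
  filter_upwards [h2] with n hn
  rw [Function.comp_apply, hn]

/-! ### Variance -/

lemma var2_rot (hP : Plane P) (x : ℤ × ℤ) : var2 P (rot x) = var2 P x := by
  unfold var2
  exact int_rot hP (G := fun φ => ((φ x : ℤ) : ℝ) ^ 2) ((measurable_coord x).pow_const 2)

lemma len_rot (x : ℤ × ℤ) : len (rot x) = len x := by
  unfold len rot
  congr 1
  push_cast
  ring

lemma len_ev (p : ℤ × ℤ) : len (ev p.1 p.2) = √((p.2 : ℝ) ^ 2 + (√3) ^ 2 * (p.1 : ℝ) ^ 2) := by
  have hsq : √3 ^ 2 = 3 := Real.sq_sqrt (by norm_num)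
  unfold len ev
  rw [hsq]
  congr 1
  push_cast
  ring

theorem var_lim (hP : Plane P) (hS : SpecOut P κ) :
    Tendsto (fun x : ℤ × ℤ => var2 P x / Real.log (len x)) cofinite
      (𝓝 (κ / (√3 * Real.pi))) := by
  set g : ℤ × ℤ → ℝ := fun x => var2 P x / Real.log (len x) with hg
  have hrot : ∀ x, g (rot x) = g x := by
    intro x
    rw [hg]
    simp only
    rw [var2_rot hP, len_rot]
  have h1 : Tendsto (fun p : ℤ × ℤ => g (ev p.1 p.2)) cofinite (𝓝 (κ / (√3 * Real.pi))) := by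
    refine (grow_row hS).congr fun p => ?_
    rw [hg]
    simp only
    rw [len_ev]
    rfl
  rw [Metric.tendsto_nhds]
  intro ε hε
  have h2 := (Metric.tendsto_nhds.1 h1) ε hε
  rw [Filter.eventually_cofinite] at h2 ⊢
  set E : Set (ℤ × ℤ) := (fun p : ℤ × ℤ => ev p.1 p.2) ''
    {p : ℤ × ℤ | ¬dist (g (ev p.1 p.2)) (κ / (√3 * Real.pi)) < ε} with hE
  have hEf : E.Finite := h2.image _
  have hmem : ∀ x : ℤ × ℤ, 2 ∣ x.2 → ¬dist (g x) (κ / (√3 * Real.pi)) < ε → x ∈ E := by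
    intro x hx hd
    obtain ⟨j, hj⟩ := hx
    refine ⟨(j, x.1 + j), ?_, ?_⟩
    · have : ev j (x.1 + j) = x := by
        unfold ev
        ext
        · simp
        · exact hj.symm
      show ¬dist (g (ev j (x.1 + j))) (κ / (√3 * Real.pi)) < ε
      rw [this]
      exact hd
    · show ev j (x.1 + j) = x
      unfold ev
      ext
      · simp
      · exact hj.symm
  apply ((hEf.union (hEf.preimage rotE.injective.injOn)).union
    ((hEf.preimage rotE.injective.injOn).preimage rotE.injective.injOn)).subset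
  intro x hx
  rw [Set.mem_ofPred_eq] at hx
  by_cases h3 : (2 : ℤ) ∣ x.2
  · left; left
    exact hmem x h3 hx
  · by_cases h4 : (2 : ℤ) ∣ x.1 + x.2
    · left; right
      apply hmem (rot x) h4
      rw [hrot]
      exact hx
    · right
      apply hmem (rot (rot x))
      · show (2 : ℤ) ∣ -x.2 + (x.1 + x.2)
        omega
      · rw [hrot, hrot]
        exact hx

end Vale.Agent.P153.GFF
end

section

/-!
# The approximation error as a combination of the two-point sums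
-/

namespace Vale.Agent.P153.Asm

open MeasureTheory Filter Finset
open scoped Topology
open Vale.Agent.P153.CLT Vale.Agent.P153.TwoPt

/-! ### conversion of sums -/

lemma fsum {f : ℤ → ℝ} {S : Finset ℤ} (h : ∀ i, i ∉ S → f i = 0) : ∑ᶠ i, f i = ∑ i ∈ S, f i :=
  finsum_eq_sum_of_support_subset f fun i hi => by
    by_contra h'
    exact hi (h i h')

/-- A sum over all blocks is a sum over all positions. -/
lemma box_sum {C : Finset ℤ} {l : ℕ} (hl : 0 < l) (F : ℤ → ℝ)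
    (hF : ∀ x : ℤ, x / (l : ℤ) ∉ C → F x = 0) :
    ∑ i : ↥C × Fin l, F ((i.1 : ℤ) * l + ((i.2 : ℕ) : ℤ)) = ∑ᶠ x, F x := by
  classical
  have hl' : (0 : ℤ) < l := by exact_mod_cast hl
  have h1 : ∑ᶠ x, F x = ∑ x ∈ (C ×ˢ range l).image (fun p : ℤ × ℕ => p.1 * l + (p.2 : ℤ)), F x := by
    refine fsum fun x hx => hF x fun hc => hx ?_
    refine Finset.mem_image.2 ⟨(x / l, (x % l).toNat), ?_, ?_⟩
    · rw [Finset.mem_product, Finset.mem_range]
      refine ⟨hc, ?_⟩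
      have h2 := Int.emod_nonneg x hl'.ne'
      have h3 := Int.emod_lt_of_pos x hl'
      simp only
      omega
    · simp only
      rw [Int.toNat_of_nonneg (Int.emod_nonneg x hl'.ne')]
      have := Int.emod_add_mul_ediv x l
      linarith only [this]
  rw [h1, Finset.sum_image, Finset.sum_product, Fintype.sum_prod_type]
  · rw [← Finset.sum_coe_sort C]
    refine Finset.sum_congr rfl fun c _ => ?_
    rw [← Fin.sum_univ_eq_sum_range (fun r : ℕ => F ((c : ℤ) * l + (r : ℤ)))]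
  · intro p hp q hq hpq
    rw [Finset.mem_coe, Finset.mem_product, Finset.mem_range] at hp hq
    simp only at hpq
    have e : ∀ (c : ℤ) (r : ℕ), r < l → (c * l + (r : ℤ)) / l = c ∧ (c * l + (r : ℤ)) % l = r := by
      intro c r hr
      have hr' : (r : ℤ) < l := by exact_mod_cast hr
      have hr0 : (0 : ℤ) ≤ r := Int.natCast_nonneg _
      constructor
      · rw [add_comm, Int.add_mul_ediv_right _ _ hl'.ne', Int.ediv_eq_zero_of_lt hr0 hr', zero_add]
      · rw [add_comm, Int.add_mul_emod_self_right, Int.emod_eq_of_lt hr0 hr']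
    have a1 := e p.1 p.2 hp.2
    have a2 := e q.1 q.2 hq.2
    rw [hpq] at a1
    ext
    · rw [← a1.1, a2.1]
    · have : (p.2 : ℤ) = q.2 := by rw [← a1.2, a2.2]
      exact_mod_cast this

/-- A sum over the steps is a sum over the rows. -/
lemma row_sum {I0 : ℤ} {J : ℕ} (F : ℤ → ℝ) (hF : ∀ i, i ∉ Finset.Ico I0 (I0 + J) → F i = 0) :
    ∑ j ∈ range J, F (I0 + j) = ∑ᶠ i, F i := by
  classical
  have h1 : ∑ᶠ i, F i = ∑ i ∈ (range J).image (fun j : ℕ => I0 + (j : ℤ)), F i := by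
    refine fsum fun i hi => hF i fun hc => hi ?_
    rw [Finset.mem_Ico] at hc
    refine Finset.mem_image.2 ⟨(i - I0).toNat, ?_, ?_⟩
    · rw [Finset.mem_range]
      omega
    · have := Int.toNat_of_nonneg (sub_nonneg.2 hc.1)
      rw [this]
      ring
  rw [h1, Finset.sum_image]
  intro j _ j' _ h
  have : (j : ℤ) = j' := by simpa only [Nat.cast_inj, add_right_inj] using h
  exact_mod_cast this

lemma prod_sum {A1 A2 : Finset ℤ} (F : ℤ → ℤ → ℝ) (hF : ∀ j y, j ∉ A1 ∨ y ∉ A2 → F j y = 0) :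
    ∑ᶠ j, ∑ᶠ y, F j y = ∑ w ∈ A1 ×ˢ A2, F w.1 w.2 := by
  rw [Finset.sum_product]
  have h1 : ∀ j, ∑ᶠ y, F j y = ∑ y ∈ A2, F j y := fun j => fsum fun y hy => hF j y (Or.inr hy)
  simp only [h1]
  exact fsum fun j hj => Finset.sum_eq_zero fun y _ => hF j y (Or.inl hj)

lemma pair_sum {A1 A2 : Finset ℤ} (F : ℤ × ℤ → ℝ) (hF : ∀ p : ℤ × ℤ, p.1 ∉ A1 ∨ p.2 ∉ A2 → F p = 0) :
    ∑ᶠ p, F p = ∑ w ∈ A1 ×ˢ A2, F w :=
  finsum_eq_sum_of_support_subset F fun p hp => by
    by_contra h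
    refine hp (hF p ?_)
    rw [Finset.mem_coe, Finset.mem_product, not_and_or] at h
    exact h

/-! ### the three sums -/

section

variable {V : ℤ → ℤ → ℝ} {a : ℤ → ℤ → ℝ} {A1 A2 : Finset ℤ} {g : ℝ × ℝ → ℝ} {L : ℝ} {K : ℕ}
  {I0 : ℤ} {J : ℕ} {C : Finset ℤ} {l : ℕ}

lemma varX_eq (ha : ∀ j y, j ∉ A1 ∨ y ∉ A2 → a j y = 0) :
    varX V a = (-(1 / 2)) * ∑ w ∈ A1 ×ˢ A2, ∑ w' ∈ A1 ×ˢ A2, a w.1 w.2 * a w'.1 w'.2 *
      tV V w w' := by
  unfold varX tV
  congr 1
  rw [pair_sum (A1 := A1) (A2 := A2)]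
  · refine Finset.sum_congr rfl fun w _ => ?_
    rw [pair_sum (A1 := A1) (A2 := A2)]
    intro p hp
    rw [ha _ _ hp]
    ring
  · intro p hp
    rw [ha _ _ hp]
    simp

lemma crV_site (j : ℕ) (w : ℤ × ℤ) (i : ↥C × Fin l) :
    crV (tV V) ((bgeo K I0 C l).l j) w ((bgeo K I0 C l).site j i) =
      (V (w.1 - (I0 + j) * K + K) (w.2 - ((i.1 : ℤ) * l + ((i.2 : ℕ) : ℤ))) -
        V (w.1 - (I0 + j) * K - K) (w.2 - ((i.1 : ℤ) * l + ((i.2 : ℕ) : ℤ)))) / 2 := by
  unfold crV tV rho Geo.site Geo.l bgeo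
  simp only
  congr 2
  · congr 1
    push_cast
    ring
  · congr 1
    push_cast
    ring

lemma crV_site_site (j : ℕ) (i i' : ↥C × Fin l) :
    crV (tV V) ((bgeo K I0 C l).l j) ((bgeo K I0 C l).site j i) ((bgeo K I0 C l).site j i') =
      CK V K (((i.1 : ℤ) * l + ((i.2 : ℕ) : ℤ)) - ((i'.1 : ℤ) * l + ((i'.2 : ℕ) : ℤ))) := by
  unfold crV tV rho Geo.site Geo.l bgeo CK
  simp only
  congr 2
  · congr 1
    push_cast
    ring
  · congr 1
    push_cast
    ring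

lemma covXX_eq (ha : ∀ j y, j ∉ A1 ∨ y ∉ A2 → a j y = 0) (hl : 0 < l)
    (hg1 : ∀ i : ℤ, i ∉ Finset.Ico I0 (I0 + J) → ∀ y : ℝ, g ((i : ℝ) * K / L, y) = 0)
    (hg2 : ∀ x : ℤ, x / (l : ℤ) ∉ C → ∀ t : ℝ, g (t, (x : ℝ) / L) = 0) :
    covXX V a K L g = ∑ j ∈ range J, ∑ i, bwt g L K I0 C l j i * ∑ w ∈ A1 ×ˢ A2,
      (if (bgeo K I0 C l).l j < w.1 then a w.1 w.2 *
        crV (tV V) ((bgeo K I0 C l).l j) w ((bgeo K I0 C l).site j i) else 0) := by
  set In : ℤ → ℤ → ℝ := fun i x => ∑ᶠ j : ℤ, ∑ᶠ y : ℤ, (if i * K < j then a j y *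
    ((V (j - i * K + K) (y - x) - V (j - i * K - K) (y - x)) / 2) else 0) with hIn
  have hIn' : ∀ i x, In i x = ∑ w ∈ A1 ×ˢ A2, (if i * K < w.1 then a w.1 w.2 *
      ((V (w.1 - i * K + K) (w.2 - x) - V (w.1 - i * K - K) (w.2 - x)) / 2) else 0) := by
    intro i x
    rw [hIn]
    refine prod_sum (A1 := A1) (A2 := A2) (fun j y => (if i * K < j then a j y *
      ((V (j - i * K + K) (y - x) - V (j - i * K - K) (y - x)) / 2) else 0)) fun j y hjy => ?_
    rw [ha _ _ hjy]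
    simp only [zero_mul, ite_self]
  set F : ℤ → ℤ → ℝ := fun i x => L⁻¹ * g ((i : ℝ) * K / L, (x : ℝ) / L) * In i x with hF
  have e1 : covXX V a K L g = ∑ᶠ i : ℤ, ∑ᶠ x : ℤ, F i x := rfl
  have e2 : ∀ i, ∑ᶠ x : ℤ, F i x = ∑ k : ↥C × Fin l, F i ((k.1 : ℤ) * l + ((k.2 : ℕ) : ℤ)) := by
    intro i
    refine (box_sum hl (F i) fun x hx => ?_).symm
    simp only [hF]
    rw [hg2 x hx]
    ring
  rw [e1]
  simp only [e2]
  rw [← row_sum (I0 := I0) (J := J)]
  · refine Finset.sum_congr rfl fun j _ => Finset.sum_congr rfl fun i _ => ?_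
    rw [hF]
    simp only
    rw [hIn']
    unfold bwt
    congr 1
    · refine Finset.sum_congr rfl fun w _ => ?_
      rw [crV_site]
      rfl
  · intro i hi
    refine Finset.sum_eq_zero fun k _ => ?_
    rw [hF]
    simp only
    rw [hg1 i hi]
    ring

lemma varX'_eq' (hl : 0 < l)
    (hg1 : ∀ i : ℤ, i ∉ Finset.Ico I0 (I0 + J) → ∀ y : ℝ, g ((i : ℝ) * K / L, y) = 0)
    (hg2 : ∀ x : ℤ, x / (l : ℤ) ∉ C → ∀ t : ℝ, g (t, (x : ℝ) / L) = 0) :
    varX' V K L g = ∑ j ∈ range J, ∑ i, ∑ i', bwt g L K I0 C l j i * bwt g L K I0 C l j i' *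
      crV (tV V) ((bgeo K I0 C l).l j) ((bgeo K I0 C l).site j i) ((bgeo K I0 C l).site j i') := by
  have e1 : ∀ i x : ℤ, ∑ᶠ y : ℤ, (L⁻¹ * g ((i : ℝ) * K / L, (x : ℝ) / L)) *
      (L⁻¹ * g ((i : ℝ) * K / L, (y : ℝ) / L)) * CK V K (x - y) =
      ∑ k : ↥C × Fin l, (L⁻¹ * g ((i : ℝ) * K / L, (x : ℝ) / L)) *
      (L⁻¹ * g ((i : ℝ) * K / L, (((k.1 : ℤ) * l + ((k.2 : ℕ) : ℤ) : ℤ) : ℝ) / L)) *
      CK V K (x - ((k.1 : ℤ) * l + ((k.2 : ℕ) : ℤ))) := by
    intro i x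
    refine (box_sum hl (fun y : ℤ => (L⁻¹ * g ((i : ℝ) * K / L, (x : ℝ) / L)) *
      (L⁻¹ * g ((i : ℝ) * K / L, (y : ℝ) / L)) * CK V K (x - y)) fun y hy => ?_).symm
    rw [hg2 y hy]
    ring
  unfold varX'
  simp only [e1]
  have e2 : ∀ i : ℤ, ∑ᶠ x : ℤ, ∑ k : ↥C × Fin l, (L⁻¹ * g ((i : ℝ) * K / L, (x : ℝ) / L)) *
      (L⁻¹ * g ((i : ℝ) * K / L, (((k.1 : ℤ) * l + ((k.2 : ℕ) : ℤ) : ℤ) : ℝ) / L)) *
      CK V K (x - ((k.1 : ℤ) * l + ((k.2 : ℕ) : ℤ))) =
      ∑ m : ↥C × Fin l, ∑ k : ↥C × Fin l,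
      (L⁻¹ * g ((i : ℝ) * K / L, (((m.1 : ℤ) * l + ((m.2 : ℕ) : ℤ) : ℤ) : ℝ) / L)) *
      (L⁻¹ * g ((i : ℝ) * K / L, (((k.1 : ℤ) * l + ((k.2 : ℕ) : ℤ) : ℤ) : ℝ) / L)) *
      CK V K (((m.1 : ℤ) * l + ((m.2 : ℕ) : ℤ)) - ((k.1 : ℤ) * l + ((k.2 : ℕ) : ℤ))) := by
    intro i
    refine (box_sum hl (fun x : ℤ => ∑ k : ↥C × Fin l,
      (L⁻¹ * g ((i : ℝ) * K / L, (x : ℝ) / L)) *
      (L⁻¹ * g ((i : ℝ) * K / L, (((k.1 : ℤ) * l + ((k.2 : ℕ) : ℤ) : ℤ) : ℝ) / L)) *
      CK V K (x - ((k.1 : ℤ) * l + ((k.2 : ℕ) : ℤ)))) fun x hx => ?_).symm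
    refine Finset.sum_eq_zero fun k _ => ?_
    rw [hg2 x hx]
    ring
  simp only [e2]
  rw [← row_sum (I0 := I0) (J := J)]
  · refine Finset.sum_congr rfl fun j _ => Finset.sum_congr rfl fun i _ =>
      Finset.sum_congr rfl fun i' _ => ?_
    rw [crV_site_site]
    rfl
  · intro i hi
    refine Finset.sum_eq_zero fun m _ => Finset.sum_eq_zero fun k _ => ?_
    rw [hg1 i hi]
    ring

/-- The approximation error. -/
theorem err2_eq (ha : ∀ j y, j ∉ A1 ∨ y ∉ A2 → a j y = 0) (hl : 0 < l)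
    (hg1 : ∀ i : ℤ, i ∉ Finset.Ico I0 (I0 + J) → ∀ y : ℝ, g ((i : ℝ) * K / L, y) = 0)
    (hg2 : ∀ x : ℤ, x / (l : ℤ) ∉ C → ∀ t : ℝ, g (t, (x : ℝ) / L) = 0) :
    err2 (tV V) (bgeo K I0 C l) (A1 ×ˢ A2) (fun w => a w.1 w.2) (bwt g L K I0 C l) J =
      varX V a - 2 * covXX V a K L g + varX' V K L g := by
  unfold err2
  rw [varX_eq ha, covXX_eq ha hl hg1 hg2, varX'_eq' hl hg1 hg2]

end

end Vale.Agent.P153.Asm
end

section

/-!
# Statements of the last two steps of the row central limit theorem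
-/

namespace Vale.Agent.P153.Asm

open MeasureTheory Filter Finset
open scoped Topology
open Vale.Agent.P153.CLT Vale.Agent.P153.TwoPt

/-- The limit of the plane inequality for fixed `g`, `K`, `l`. -/
def Meso (P : Measure (ℤ × ℤ → ℤ)) (c κ : ℝ) : Prop :=
  ∀ (f : ℝ × ℝ → ℝ) (L : ℕ → ℝ) (a : ℕ → ℤ → ℤ → ℝ) (M : ℝ), TwoPt.Disc f L a M →
  ∀ g : ℝ × ℝ → ℝ, Continuous g → HasCompactSupport g →
  ∃ q : ℝ, 0 ≤ q ∧ ∀ K l : ℕ, 0 < K → 0 < l → ∀ t E ρ : ℝ, 0 < t → 0 ≤ E → 0 < ρ →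
    ∑ x ∈ range l, ∑ y ∈ range l, TK (GFF.Vrow P) K ((x : ℤ) - y) ≤ E →
    ∀ᶠ n in atTop, ‖∫ φ, ei (∑ᶠ p : ℤ × ℤ, a n p.1 p.2 * hev p φ) ∂P -
      ((Real.exp (-(wKl P K l / (K * l) * ∫ z, g z ^ 2) / 2) : ℝ) : ℂ)‖ ≤
      Real.sqrt (sig c κ f - 2 * cov c κ g f +
        (∑' z, CK (GFF.Vrow P) K z) / K * ∫ z, g z ^ 2) +
      8 * (q / K) * (∑' z, CK (GFF.Vrow P) K z -
        1 / (l : ℝ) * ∑ x ∈ range l, ∑ y ∈ range l, CK (GFF.Vrow P) K ((x : ℤ) - y)) +
      (wKl P K l / (K * l) * (∫ z, g z ^ 2) + 4) * (t * (q / K * ∑' z, CK (GFF.Vrow P) K z) +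
        (1 + 1 / t + t) * (q * (E / (K * l)))) + ρ

/-- The limiting variances are close. -/
def CloseVar (P : Measure (ℤ × ℤ → ℤ)) (c κ : ℝ) : Prop :=
  ∀ (f : ℝ × ℝ → ℝ) (L : ℕ → ℝ) (a : ℕ → ℤ → ℤ → ℝ) (M : ℝ), TwoPt.Disc f L a M →
  ∀ g : ℝ × ℝ → ℝ, Continuous g → HasCompactSupport g → ∀ K : ℕ, 0 < K →
    0 ≤ sig c κ f ∧ 0 ≤ (∑' z, CK (GFF.Vrow P) K z) / K * ∫ z, g z ^ 2 ∧
    (cov c κ g f) ^ 2 ≤ sig c κ f * ((∑' z, CK (GFF.Vrow P) K z) / K * ∫ z, g z ^ 2)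

end Vale.Agent.P153.Asm
end

section

/-!
# The limit of the plane inequality
-/

namespace Vale.Agent.P153.Asm

open MeasureTheory Filter Finset
open scoped Topology
open Vale.Agent.P153.CLT Vale.Agent.P153.TwoPt

/-! ### sizes -/

/-- Half the number of steps (or blocks). -/
noncomputable def hn (S L : ℝ) (K : ℕ) : ℕ := ⌈S * L / K⌉₊ + 1

lemma hn_gt {S L : ℝ} {K : ℕ} (hK : 0 < K) : S * L < hn S L K * K := by
  have hK' : (0 : ℝ) < K := by exact_mod_cast hK
  have h1 := Nat.le_ceil (S * L / K)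
  have h2 : S * L / K < (hn S L K : ℝ) := by
    unfold hn
    push_cast
    linarith only [h1]
  rwa [div_lt_iff₀ hK'] at h2

lemma hn_le {S L : ℝ} {K : ℕ} (hS : 0 ≤ S) (hL : 0 ≤ L) : (hn S L K : ℝ) ≤ S * L / K + 2 := by
  have h1 := Nat.ceil_lt_add_one (a := S * L / K) (by positivity)
  unfold hn
  push_cast
  linarith

lemma hn_card {S L : ℝ} {K : ℕ} (hK : 0 < K) (hS : 0 ≤ S) (hL : 1 ≤ L) :
    2 * (hn S L K : ℝ) ≤ (2 * S + 4) * L := by
  have hK' : (1 : ℝ) ≤ K := by exact_mod_cast hK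
  have h1 := hn_le (K := K) hS (zero_le_one.trans hL)
  have h2 : S * L / K ≤ S * L := div_le_self (by positivity) hK'
  (clear * - hL h1 h2; nlinarith)

lemma hn_mul {S L : ℝ} {K : ℕ} (hK : 0 < K) (hS : 0 ≤ S) (hL : (K : ℝ) ≤ L) :
    2 * (hn S L K : ℝ) * K ≤ (2 * S + 4) * L := by
  have hK' : (0 : ℝ) < K := by exact_mod_cast hK
  have h1 := hn_le (K := K) hS (hK'.le.trans hL)
  have h2 := mul_le_mul_of_nonneg_right h1 hK'.le
  rw [add_mul, div_mul_cancel₀ _ hK'.ne'] at h2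
  (clear * - hL h2; nlinarith)

lemma row_out {S L : ℝ} {K : ℕ} (hK : 0 < K) (hL : 0 < L) {i : ℤ}
    (hi : i ∉ Finset.Ico (-(hn S L K : ℤ)) (hn S L K)) : S < |(i : ℝ) * K / L| := by
  have hK' : (0 : ℝ) < K := by exact_mod_cast hK
  have h1 := hn_gt (S := S) (L := L) hK
  rw [Finset.mem_Ico, not_and_or, not_le, not_lt] at hi
  rw [abs_div, abs_of_pos hL, lt_div_iff₀ hL, abs_mul, abs_of_pos hK']
  refine h1.trans_le (mul_le_mul_of_nonneg_right ?_ hK'.le)
  rcases hi with h | h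
  · have h2 : (i : ℝ) ≤ -(hn S L K : ℝ) := by exact_mod_cast h.le
    have h3 := neg_abs_le (i : ℝ)
    linarith
  · have h2 : (hn S L K : ℝ) ≤ i := by exact_mod_cast h
    exact h2.trans (le_abs_self _)

lemma pos_out {S L : ℝ} {l : ℕ} (hl : 0 < l) (hL : 0 < L) {x : ℤ}
    (hx : x / (l : ℤ) ∉ Finset.Ico (-(hn S L l : ℤ)) (hn S L l)) : S < |(x : ℝ) / L| := by
  have hl' : (0 : ℤ) < l := by exact_mod_cast hl
  have h1 := hn_gt (S := S) (L := L) hl
  rw [Finset.mem_Ico, not_and_or, not_le, not_lt] at hx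
  rw [abs_div, abs_of_pos hL, lt_div_iff₀ hL]
  refine h1.trans_le ?_
  rcases hx with h | h
  · have h2 : x < -(hn S L l : ℤ) * l := (Int.ediv_lt_iff_lt_mul hl').1 h
    have h3 : (x : ℝ) < -(hn S L l : ℝ) * l := by exact_mod_cast h2
    have h4 := neg_abs_le (x : ℝ)
    linarith
  · have h2 : (hn S L l : ℤ) * l ≤ x := (Int.le_ediv_iff_mul_le hl').1 h
    have h3 : (hn S L l : ℝ) * l ≤ x := by exact_mod_cast h2
    exact h3.trans (le_abs_self _)

lemma g_zero {g : ℝ × ℝ → ℝ} {S : ℝ} (hS : ∀ u, g u ≠ 0 → |u.1| ≤ S ∧ |u.2| ≤ S) {u : ℝ × ℝ}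
    (hu : S < |u.1| ∨ S < |u.2|) : g u = 0 := by
  by_contra h
  obtain ⟨h1, h2⟩ := hS u h
  rcases hu with hu | hu
  · linarith
  · linarith only [h2, hu]

/-- The box containing the support of the weights. -/
noncomputable def sbx (M L : ℝ) : Finset ℤ := Finset.Icc (-⌈M * L⌉) ⌈M * L⌉

lemma disc_zero {f : ℝ × ℝ → ℝ} {L : ℕ → ℝ} {a : ℕ → ℤ → ℤ → ℝ} {M : ℝ}
    (hD : TwoPt.Disc f L a M) (n : ℕ) (j y : ℤ) (h : j ∉ sbx M (L n) ∨ y ∉ sbx M (L n)) :
    a n j y = 0 := by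
  have key : ∀ x : ℤ, x ∉ sbx M (L n) → M * L n < |(x : ℝ)| := by
    intro x hx
    unfold sbx at hx
    rw [Finset.mem_Icc, ← abs_le, not_le] at hx
    have h1 := Int.le_ceil (M * L n)
    have h2 : ((⌈M * L n⌉ : ℤ) : ℝ) < ((|x| : ℤ) : ℝ) := by exact_mod_cast hx
    rw [Int.cast_abs] at h2
    linarith only [h1, h2]
  refine hD.supp n j y ?_
  rcases h with h | h
  · exact Or.inl (key j h)
  · exact Or.inr (key y h)

/-! ### the plane data -/

section

variable {P : Measure (ℤ × ℤ → ℤ)}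

lemma msd_hev (hP : GFF.Plane P) : msd P hev = tV (GFF.Vrow P) := by
  funext p q
  exact msd_eq hP p q

/-- Positivity of the covariances of the innovations. -/
theorem CK_nonneg (hP : GFF.Plane P) {B : ℝ} (hR : RowLim P hev B) (K : ℕ) (hK : 0 < K) (z : ℤ) :
    0 ≤ CK (GFF.Vrow P) K z := by
  have hK' : (0 : ℤ) < K := by exact_mod_cast hK
  have h1 := crV_nonneg_plane hR (l := 0) (p := ((K : ℤ), z)) (q := ((K : ℤ), 0)) hK' hK'
  rw [msd_hev hP] at h1
  unfold crV tV rho at h1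
  unfold CK
  simp only [sub_zero, sub_self] at h1
  have e : (K : ℤ) - (2 * 0 - K) = 2 * K := by ring
  rw [e] at h1
  exact h1

lemma err_nonneg (hP : GFF.Plane P) {B : ℝ} (hR : RowLim P hev B) {V : ℤ → ℤ → ℝ}
    (hV : V = GFF.Vrow P) {a : ℤ → ℤ → ℝ} {A1 A2 : Finset ℤ}
    (ha : ∀ j y, j ∉ A1 ∨ y ∉ A2 → a j y = 0) (ha0 : ∑ᶠ p : ℤ × ℤ, a p.1 p.2 = 0)
    {g : ℝ × ℝ → ℝ} {S L : ℝ} (hL : 0 < L) (hS : ∀ u, g u ≠ 0 → |u.1| ≤ S ∧ |u.2| ≤ S)
    {K : ℕ} (hK : 0 < K) :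
    0 ≤ varX V a - 2 * covXX V a K L g + varX' V K L g := by
  have hsum : ∑ w ∈ A1 ×ˢ A2, a w.1 w.2 = 0 := by
    rw [← pair_sum (fun p : ℤ × ℤ => a p.1 p.2) fun p hp => ha _ _ hp]
    exact ha0
  have h1 := err2_nonneg hR (bgeo K (-(hn S L K : ℤ)) (Finset.Ico (-(hn S L 1 : ℤ)) (hn S L 1)) 1)
    (A1 ×ˢ A2) (fun w => a w.1 w.2) hsum
    (bwt g L K (-(hn S L K : ℤ)) (Finset.Ico (-(hn S L 1 : ℤ)) (hn S L 1)) 1) (2 * hn S L K)
  rw [msd_hev hP, ← hV, err2_eq ha one_pos] at h1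
  · exact h1
  · intro i hi y
    refine g_zero hS (Or.inl (row_out hK hL ?_))
    have e : -(hn S L K : ℤ) + ((2 * hn S L K : ℕ) : ℤ) = hn S L K := by push_cast; ring
    rwa [e] at hi
  · intro x hx t
    exact g_zero hS (Or.inr (pos_out one_pos hL hx))

lemma varX_smul (V : ℤ → ℤ → ℝ) {a : ℤ → ℤ → ℝ} {A1 A2 : Finset ℤ}
    (ha : ∀ j y, j ∉ A1 ∨ y ∉ A2 → a j y = 0) (x : ℝ) :
    varX V (fun j y => x * a j y) = x ^ 2 * varX V a := by
  rw [varX_eq ha, varX_eq (a := fun j y => x * a j y) (A1 := A1) (A2 := A2)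
    (fun j y h => by rw [ha j y h, mul_zero])]
  rw [← mul_assoc, mul_comm (x ^ 2), mul_assoc, Finset.mul_sum (a := x ^ 2)]
  congr 1
  refine Finset.sum_congr rfl fun w _ => ?_
  rw [Finset.mul_sum]
  refine Finset.sum_congr rfl fun w' _ => ?_
  ring

lemma covXX_smul (V : ℤ → ℤ → ℝ) {a : ℤ → ℤ → ℝ} {A1 A2 : Finset ℤ}
    (ha : ∀ j y, j ∉ A1 ∨ y ∉ A2 → a j y = 0)
    {g : ℝ × ℝ → ℝ} {S L : ℝ} (hL : 0 < L) (hS : ∀ u, g u ≠ 0 → |u.1| ≤ S ∧ |u.2| ≤ S)
    {K : ℕ} (hK : 0 < K) (x : ℝ) :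
    covXX V (fun j y => x * a j y) K L g = x * covXX V a K L g := by
  have h1 : ∀ i : ℤ, i ∉ Finset.Ico (-(hn S L K : ℤ)) (-(hn S L K : ℤ) + (2 * hn S L K : ℕ)) →
      ∀ y : ℝ, g ((i : ℝ) * K / L, y) = 0 := by
    intro i hi y
    refine g_zero hS (Or.inl (row_out hK hL ?_))
    have e : -(hn S L K : ℤ) + ((2 * hn S L K : ℕ) : ℤ) = hn S L K := by push_cast; ring
    rwa [e] at hi
  have h2 : ∀ x : ℤ, x / ((1 : ℕ) : ℤ) ∉ Finset.Ico (-(hn S L 1 : ℤ)) (hn S L 1) →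
      ∀ t : ℝ, g (t, (x : ℝ) / L) = 0 := fun x hx t =>
    g_zero hS (Or.inr (pos_out one_pos hL hx))
  rw [covXX_eq ha one_pos h1 h2, covXX_eq (a := fun j y => x * a j y) (A1 := A1) (A2 := A2)
    (fun j y h => by rw [ha j y h, mul_zero]) one_pos h1 h2, Finset.mul_sum]
  refine Finset.sum_congr rfl fun j _ => ?_
  rw [Finset.mul_sum]
  refine Finset.sum_congr rfl fun i _ => ?_
  rw [mul_left_comm, Finset.mul_sum (a := x)]
  congr 1
  refine Finset.sum_congr rfl fun w _ => ?_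
  split_ifs
  · ring
  · ring

/-- The limiting variances are close. -/
theorem closeVar (hP : GFF.Plane P) {B : ℝ} (hR : RowLim P hev B)
    {m : ProbabilityTheory.Kernel ℝ ℝ} {c κ C k0 : ℝ}
    (hS : TwoPt.Spec (GFF.Vrow P) m c κ C k0) : CloseVar P c κ := by
  intro f L a M hD g hg hgc K hK
  obtain ⟨S, hS0, hSg⟩ := P3b.exists_radius hgc
  have hCK := CK_nonneg hP hR K hK
  have hs := p3 _ _ _ _ _ _ hS K hK hCK
  have l1 := p1 _ _ _ _ _ _ hS f L a M hD
  have l2 := p2 _ _ _ _ _ _ hS f L a M hD g hg hgc K hK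
  have l3 := p3b _ K hK hCK hs L hD.L_pos hD.L_top g hg hgc
  have key : ∀ n, 0 ≤ varX (GFF.Vrow P) (a n) ∧ 0 ≤ varX' (GFF.Vrow P) K (L n) g ∧
      covXX (GFF.Vrow P) (a n) K (L n) g ^ 2 ≤
        varX (GFF.Vrow P) (a n) * varX' (GFF.Vrow P) K (L n) g := by
    intro n
    have hL : 0 < L n := zero_lt_one.trans_le (hD.L_pos n)
    refine quad_bound fun x => ?_
    have h1 := err_nonneg hP hR rfl (a := fun j y => x * a n j y) (A1 := sbx M (L n))
      (A2 := sbx M (L n)) (fun j y h => by rw [disc_zero hD n j y h, mul_zero])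
      (by rw [← mul_finsum, hD.sum_zero, mul_zero]) hL hSg hK
    rw [varX_smul _ (disc_zero hD n), covXX_smul _ (disc_zero hD n) hL hSg hK] at h1
    exact h1
  exact ⟨ge_of_tendsto' l1 fun n => (key n).1, ge_of_tendsto' l3 fun n => (key n).2.1,
    le_of_tendsto_of_tendsto' (l2.pow 2) (l1.mul l3) fun n => (key n).2.2⟩

end

end Vale.Agent.P153.Asm
end

section

/-!
Comparison of the sum over the even faces with the integral of the rescaled height, deterministic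
part.
-/

namespace Vale.Agent.P145.FP

open Finset Filter Topology MeasureTheory
open Vale.Agent.P152 (Edge Ori Ice sgb pth pth_isHeight)
open Vale.Agent.P152.GFF.S (hcell hbox hint hint_cells cell_zero idx_mem)

/-- Indicator of the even faces. -/
noncomputable def ev (q : ℤ × ℤ) : ℝ := if (q.1 + q.2) % 2 = 0 then 1 else 0

/-! ### Bounds -/

end Vale.Agent.P145.FP
end

section

/-! Block S: the vertical-arrow part is controlled by the `L²` norm. -/

namespace Vale.Agent.P152.GFF.S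

open Finset Filter Topology MeasureTheory ProbabilityTheory

/-- the cell of side `δ` with index `v` -/
def cell (δ : ℝ) (v : ℤ × ℤ) : Set (ℝ × ℝ) :=
  Set.Ico (δ * v.1) (δ * (v.1 + 1)) ×ˢ Set.Ico (δ * v.2) (δ * (v.2 + 1))

end Vale.Agent.P152.GFF.S
end

section

/-!
P145, block F-A: the macroscopic input `SDseq` from the Gaussian limit in the plane.
-/

namespace Vale.Agent.P145.FA

open Finset Filter Topology MeasureTheory
open Vale.Agent.P152
open Vale.Agent.P152.GFF.S (hcell hbox hint Test gffCov gffCov_symm gffCov_add)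
open Vale.Agent.P145.PT (Sm TestOn lap)

variable {P : Measure (Ori (ℤ × ℤ))} [IsProbabilityMeasure P]

/-- The Gaussian limit in the plane. -/
def CLT (P : Measure (Ori (ℤ × ℤ))) (κ : ℝ) : Prop := ∀ F : ℝ × ℝ → ℝ, Test F →
  Tendsto (fun δ : ℝ => ∫ ω, Complex.exp (Complex.I * (hint (pth ω) δ F : ℂ)) ∂P) (𝓝[>] 0)
    (𝓝 (Complex.exp (-(((κ / 2) * gffCov F F : ℝ) : ℂ))))

/-! ### The reflection -/

/-- Reflection of the plane. -/
def rr (x : ℝ × ℝ) : ℝ × ℝ := (x.1, -x.2)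

lemma rr_rr (x : ℝ × ℝ) : rr (rr x) = x := by simp [rr]

lemma rr_cont : Continuous rr := continuous_fst.prodMk continuous_snd.neg

lemma rr_sm : ContDiff ℝ ((⊤ : ℕ∞) : WithTop ℕ∞) rr := contDiff_fst.prodMk contDiff_snd.neg

/-- The reflection as a homeomorphism. -/
def rrh : (ℝ × ℝ) ≃ₜ (ℝ × ℝ) where
  toFun := rr
  invFun := rr
  left_inv := rr_rr
  right_inv := rr_rr
  continuous_toFun := rr_cont
  continuous_invFun := rr_cont

lemma cs_rr {f : ℝ × ℝ → ℝ} (cf : HasCompactSupport f) : HasCompactSupport (fun x => f (rr x)) :=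
  cf.comp_homeomorph rrh

lemma int_rr (F : ℝ × ℝ → ℝ) : ∫ x, F (rr x) = ∫ x, F x := by
  have h : MeasurePreserving rr (volume : Measure (ℝ × ℝ)) volume := by
    rw [Measure.volume_eq_prod]
    exact (MeasurePreserving.id _).prod (Measure.measurePreserving_neg _)
  exact h.integral_comp rrh.measurableEmbedding F

lemma hasFDerivAt_rr (x : ℝ × ℝ) : HasFDerivAt rr
    ((ContinuousLinearMap.fst ℝ ℝ ℝ).prod (-(ContinuousLinearMap.snd ℝ ℝ ℝ))) x :=
  hasFDerivAt_fst.prodMk hasFDerivAt_snd.neg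

lemma dx_rr {f : ℝ × ℝ → ℝ} (hf : Sm f) (z : ℝ × ℝ) :
    PT.dx (fun x => f (rr x)) z = PT.dx f (rr z) := by
  unfold PT.dx
  have h := ((hf.differentiable (by simp)) (rr z)).hasFDerivAt.comp z (hasFDerivAt_rr z)
  have e : (f ∘ rr) = fun x => f (rr x) := rfl
  rw [e] at h
  rw [h.fderiv]
  simp only [ContinuousLinearMap.comp_apply, ContinuousLinearMap.prod_apply, ContinuousLinearMap.coe_fst', neg_apply, ContinuousLinearMap.coe_snd', neg_zero]

lemma dy_rr {f : ℝ × ℝ → ℝ} (hf : Sm f) (z : ℝ × ℝ) :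
    PT.dy (fun x => f (rr x)) z = - PT.dy f (rr z) := by
  unfold PT.dy
  have h := ((hf.differentiable (by simp)) (rr z)).hasFDerivAt.comp z (hasFDerivAt_rr z)
  have e : (f ∘ rr) = fun x => f (rr x) := rfl
  rw [e] at h
  rw [h.fderiv]
  have e2 : ((0 : ℝ), (-1 : ℝ)) = - ((0 : ℝ), (1 : ℝ)) := by simp
  simp only [ContinuousLinearMap.comp_apply, ContinuousLinearMap.prod_apply,
    _root_.neg_apply, ContinuousLinearMap.coe_fst', ContinuousLinearMap.coe_snd']
  rw [e2, map_neg]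

lemma dy_neg {f : ℝ × ℝ → ℝ} (z : ℝ × ℝ) : PT.dy (fun x => - f x) z = - PT.dy f z := by
  unfold PT.dy
  rw [fderiv_fun_neg]
  rfl

lemma dx_neg {f : ℝ × ℝ → ℝ} (z : ℝ × ℝ) : PT.dx (fun x => - f x) z = - PT.dx f z := by
  unfold PT.dx
  rw [fderiv_fun_neg]
  rfl

lemma lap_neg {f : ℝ × ℝ → ℝ} (z : ℝ × ℝ) : lap (fun x => - f x) z = - lap f z := by
  have e1 : PT.dx (fun x => - f x) = fun x => - PT.dx f x := funext fun x => dx_neg x
  have e2 : PT.dy (fun x => - f x) = fun x => - PT.dy f x := funext fun x => dy_neg x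
  unfold PT.lap
  rw [e1, e2, dx_neg, dy_neg]
  ring

lemma lap_rr {f : ℝ × ℝ → ℝ} (hf : Sm f) (z : ℝ × ℝ) :
    lap (fun x => f (rr x)) z = lap f (rr z) := by
  have e1 : PT.dx (fun x => f (rr x)) = fun x => (PT.dx f) (rr x) := funext fun x => dx_rr hf x
  have e2 : PT.dy (fun x => f (rr x)) = fun x => - (PT.dy f) (rr x) := funext fun x => dy_rr hf x
  unfold PT.lap
  rw [e1, e2, dx_rr hf.dx, dy_neg, dy_rr hf.dy]
  ring

lemma lap_zero {ψ : ℝ × ℝ → ℝ} (h : ∀ x : ℝ × ℝ, x.2 ≤ 0 → ψ x = 0) {x : ℝ × ℝ} (hx : x.2 < 0) :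
    lap ψ x = 0 := by
  have hopen : IsOpen {y : ℝ × ℝ | y.2 < 0} := isOpen_lt continuous_snd continuous_const
  have key : ∀ (f : ℝ × ℝ → ℝ), (∀ y : ℝ × ℝ, y.2 < 0 → f y = 0) → ∀ y : ℝ × ℝ, y.2 < 0 →
      fderiv ℝ f y = 0 := by
    intro f hf y hy
    have e : f =ᶠ[𝓝 y] fun _ => (0 : ℝ) := by
      filter_upwards [hopen.mem_nhds hy] with z hz using hf z hz
    rw [e.fderiv_eq]
    exact fderiv_const_apply 0
  have h1 : ∀ y : ℝ × ℝ, y.2 < 0 → PT.dx ψ y = 0 := fun y hy => by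
    unfold PT.dx
    rw [key ψ (fun y hy => h y hy.le) y hy]; rfl
  have h2 : ∀ y : ℝ × ℝ, y.2 < 0 → PT.dy ψ y = 0 := fun y hy => by
    unfold PT.dy
    rw [key ψ (fun y hy => h y hy.le) y hy]; rfl
  unfold PT.lap
  have e1 : PT.dx (PT.dx ψ) x = 0 := by
    unfold PT.dx
    rw [key (fun z => fderiv ℝ ψ z (1, 0)) h1 x hx]; rfl
  have e2 : PT.dy (PT.dy ψ) x = 0 := by
    unfold PT.dy
    rw [key (fun z => fderiv ℝ ψ z (0, 1)) h2 x hx]; rfl
  rw [e1, e2, add_zero]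

lemma int_lap {ψ : ℝ × ℝ → ℝ} (hψ : Sm ψ) (cψ : HasCompactSupport ψ) : ∫ x, lap ψ x = 0 := by
  have hT : TestOn Set.univ ψ := ⟨hψ, cψ, Set.subset_univ _⟩
  have h := lap_swap hT (L := fun _ => (1 : ℝ)) contDiff_const
  simp only [one_mul] at h
  rw [h]
  have : ∀ z : ℝ × ℝ, lap (fun _ => (1 : ℝ)) z = 0 := by
    intro z
    have e1 : PT.dx (fun _ : ℝ × ℝ => (1 : ℝ)) = fun _ => 0 := by
      funext y; unfold PT.dx; rw [fderiv_const_apply]; rfl
    have e2 : PT.dy (fun _ : ℝ × ℝ => (1 : ℝ)) = fun _ => 0 := by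
      funext y; unfold PT.dy; rw [fderiv_const_apply]; rfl
    unfold PT.lap
    rw [e1, e2]
    unfold PT.dx PT.dy
    rw [fderiv_const_apply]
    simp
  simp [this]

/-- Completing the square. -/
lemma gff_square {A ψ : ℝ × ℝ → ℝ} (hA : Continuous A) (cA : HasCompactSupport A) (hψ : Sm ψ)
    (cψ : HasCompactSupport ψ) :
    gffCov (fun x => A x + -lap ψ x) (fun x => A x + -lap ψ x) =
      gffCov A A + 2 * (∫ x, ψ x * A x) + ∫ x, ψ x * (-lap ψ x) := by
  have hT : TestOn Set.univ ψ := ⟨hψ, cψ, Set.subset_univ _⟩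
  have hV : Continuous (fun x => -lap ψ x) := hT.lap.cont.neg
  have cV : HasCompactSupport (fun x => -lap ψ x) := hT.lap.cs.neg
  have hAV : Continuous (fun x => A x + -lap ψ x) := hA.add hV
  have cAV : HasCompactSupport (fun x => A x + -lap ψ x) := cA.add cV
  rw [gffCov_add hA hV hAV cA cV cAV, gffCov_symm hA hAV cA cAV, gffCov_add hA hV hA cA cV cA,
    green_lap hψ cψ hA cA, green_lap hψ cψ hAV cAV]
  have e : ∫ x, ψ x * (A x + -lap ψ x) = (∫ x, ψ x * A x) + ∫ x, ψ x * (-lap ψ x) := by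
    rw [← integral_add]
    · refine integral_congr_ae (Eventually.of_forall fun x => ?_)
      simp only
      ring
    · exact (hψ.continuous.mul hA).integrable_of_hasCompactSupport (cψ.mul_right)
    · exact (hψ.continuous.mul hV).integrable_of_hasCompactSupport (cψ.mul_right)
  rw [e]
  ring

/-! ### The sequence -/

/-- The test function of the combination. -/
noncomputable def gst (f ψ χ : ℝ × ℝ → ℝ) (s t z : ℝ) (x : ℝ × ℝ) : ℝ :=
  (((f x - f (rr x)) + s * (-lap ψ x)) - t * (-lap ψ (rr x))) + z * (χ (rr x) - χ x)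

/-- Data for the half-plane statement. -/
structure SDdat (f ψ χ : ℝ × ℝ → ℝ) : Prop where
  f1 : Sm f
  f2 : HasCompactSupport f
  f3 : ∀ x : ℝ × ℝ, x.2 ≤ 0 → f x = 0
  p1 : Sm ψ
  p2 : HasCompactSupport ψ
  p3 : ∀ x : ℝ × ℝ, x.2 ≤ 0 → ψ x = 0
  c1 : Sm χ
  c2 : HasCompactSupport χ
  c3 : ∀ x : ℝ × ℝ, x.2 ≤ 0 → χ x = 0
  c4 : ∫ x, ψ x * χ x = 0

variable {f ψ χ : ℝ × ℝ → ℝ}

lemma gst_sm (h : SDdat f ψ χ) (s t z : ℝ) : Sm (gst f ψ χ s t z) := by
  have hU : Sm (fun x => -lap ψ x) := (PT.Sm.lap h.p1).neg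
  unfold gst
  exact ((((h.f1.sub (h.f1.comp rr_sm)).add (contDiff_const.mul hU)).sub
    (contDiff_const.mul (hU.comp rr_sm))).add (contDiff_const.mul ((h.c1.comp rr_sm).sub h.c1)))

lemma cs_sub {a b : ℝ × ℝ → ℝ} (ca : HasCompactSupport a) (cb : HasCompactSupport b) :
    HasCompactSupport (fun x => a x - b x) := by
  show HasCompactSupport (a - b)
  rw [sub_eq_add_neg]
  exact ca.add cb.neg

lemma gst_cs (h : SDdat f ψ χ) (s t z : ℝ) : HasCompactSupport (gst f ψ χ s t z) := by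
  have hT : TestOn Set.univ ψ := ⟨h.p1, h.p2, Set.subset_univ _⟩
  have cU : HasCompactSupport (fun x => -lap ψ x) := hT.lap.cs.neg
  unfold gst
  exact (cs_sub ((cs_sub h.f2 (cs_rr h.f2)).add cU.mul_left) (cs_rr cU).mul_left).add
    (cs_sub (cs_rr h.c2) h.c2).mul_left

lemma gst_int (h : SDdat f ψ χ) (s t z : ℝ) : ∫ x, gst f ψ χ s t z x = 0 := by
  have hT : TestOn Set.univ ψ := ⟨h.p1, h.p2, Set.subset_univ _⟩
  have iU : Integrable (fun x => -lap ψ x) := hT.lap.int.neg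
  have iU' : Integrable (fun x => -lap ψ (rr x)) :=
    (hT.lap.cont.comp rr_cont).neg.integrable_of_hasCompactSupport (cs_rr hT.lap.cs.neg)
  have iff : Integrable f := h.f1.continuous.integrable_of_hasCompactSupport h.f2
  have iff' : Integrable (fun x => f (rr x)) :=
    (h.f1.continuous.comp rr_cont).integrable_of_hasCompactSupport (cs_rr h.f2)
  have iχ : Integrable χ := h.c1.continuous.integrable_of_hasCompactSupport h.c2
  have iχ' : Integrable (fun x => χ (rr x)) :=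
    (h.c1.continuous.comp rr_cont).integrable_of_hasCompactSupport (cs_rr h.c2)
  have i1 : Integrable (fun x => f x - f (rr x)) := iff.sub iff'
  have i2 : Integrable (fun x => s * (-lap ψ x)) := iU.const_mul s
  have i3 : Integrable (fun x => t * (-lap ψ (rr x))) := iU'.const_mul t
  have i4 : Integrable (fun x => z * (χ (rr x) - χ x)) := (iχ'.sub iχ).const_mul z
  have i5 : Integrable (fun x => (f x - f (rr x)) + s * (-lap ψ x)) := i1.add i2
  have i6 : Integrable (fun x => ((f x - f (rr x)) + s * (-lap ψ x)) - t * (-lap ψ (rr x))) :=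
    i5.sub i3
  unfold gst
  rw [integral_add i6 i4, integral_sub i5 i3, integral_add i1 i2, integral_sub iff iff',
    integral_const_mul, integral_const_mul, integral_const_mul, integral_sub iχ' iχ, int_rr f,
    int_rr χ, int_rr (fun x => -lap ψ x), integral_neg, int_lap h.p1 h.p2]
  ring

lemma disj (h : SDdat f ψ χ) (x : ℝ × ℝ) :
    ψ x * f (rr x) = 0 ∧ ψ x * (-lap ψ (rr x)) = 0 ∧ ψ x * χ (rr x) = 0 := by
  by_cases hx : x.2 ≤ 0
  · rw [h.p3 x hx]; simp
  · push Not at hx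
    have h1 : (rr x).2 < 0 := by show -x.2 < 0; linarith
    rw [h.f3 _ h1.le, h.c3 _ h1.le, lap_zero h.p3 h1]
    simp

lemma int_a (h : SDdat f ψ χ) (t z : ℝ) : ∫ x, ψ x * gst f ψ χ 0 t z x = ∫ x, ψ x * f x := by
  have e : ∀ x, ψ x * gst f ψ χ 0 t z x = ψ x * f x + (-z) * (ψ x * χ x) := by
    intro x
    obtain ⟨h1, h2, h3⟩ := disj h x
    unfold gst
    linear_combination -h1 - t * h2 + z * h3
  simp only [e]
  rw [integral_add, integral_const_mul, h.c4, mul_zero, add_zero]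
  · exact (h.p1.continuous.mul h.f1.continuous).integrable_of_hasCompactSupport h.p2.mul_right
  · exact ((h.p1.continuous.mul h.c1.continuous).integrable_of_hasCompactSupport
      h.p2.mul_right).const_mul _

lemma int_b (h : SDdat f ψ χ) (s z : ℝ) :
    ∫ x, (-ψ (rr x)) * gst f ψ χ s 0 z x = ∫ x, ψ x * f x := by
  rw [← int_rr (fun x => (-ψ (rr x)) * gst f ψ χ s 0 z x)]
  have e : ∀ x, (-ψ (rr (rr x))) * gst f ψ χ s 0 z (rr x) = ψ x * f x + (-z) * (ψ x * χ x) := by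
    intro x
    obtain ⟨h1, h2, h3⟩ := disj h x
    unfold gst
    rw [rr_rr]
    linear_combination -h1 - s * h2 + z * h3
  simp only [e]
  rw [integral_add, integral_const_mul, h.c4, mul_zero, add_zero]
  · exact (h.p1.continuous.mul h.f1.continuous).integrable_of_hasCompactSupport h.p2.mul_right
  · exact ((h.p1.continuous.mul h.c1.continuous).integrable_of_hasCompactSupport
      h.p2.mul_right).const_mul _

end Vale.Agent.P145.FA
end

section

/-!
# P153, block F-B: the second moment of the smeared field is bounded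
-/

namespace Vale.Agent.P153.F.RSW.AC

open MeasureTheory Filter Topology ProbabilityTheory
open Vale.Agent.P153.GFF
open Vale.Agent.P153.CLT (hev measurable_coord plane_bilin integrable_mul_coord)
open Vale.Agent.P153.TwoPt (varX Disc)
open Vale.Agent.P153.Asm (sbx disc_zero varX_eq)

variable {P : Measure (ℤ × ℤ → ℤ)} {κ : ℝ}

/-- A function of the mesh converges if it does along all sequences of meshes. -/
lemma seq_lim {G : ℝ → ℝ} {l : ℝ} (h : ∀ δ : ℕ → ℝ, (∀ n, 0 < δ n) → (∀ n, δ n ≤ 1) →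
    Tendsto δ atTop (𝓝 0) → Tendsto (fun n => G (δ n)) atTop (𝓝 l)) :
    Tendsto G (𝓝[>] 0) (𝓝 l) := by
  rw [tendsto_iff_seq_tendsto]
  intro u hu
  have h1 : ∀ᶠ n in atTop, 0 < u n ∧ u n ≤ 1 := by
    have a1 : ∀ᶠ x : ℝ in 𝓝[>] 0, 0 < x ∧ x ≤ 1 := by
      have := Ioc_mem_nhdsGT (zero_lt_one' ℝ)
      filter_upwards [this] with x hx
      exact hx
    exact hu.eventually a1
  classical
  set δ : ℕ → ℝ := fun n => if 0 < u n ∧ u n ≤ 1 then u n else 1 with hd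
  have h2 : ∀ᶠ n in atTop, δ n = u n := by
    filter_upwards [h1] with n hn
    rw [hd]
    simp only
    rw [if_pos hn]
  have h3 : ∀ n, 0 < δ n := by
    intro n
    rw [hd]
    simp only
    split_ifs with h
    · exact h.1
    · exact one_pos
  have h4 : ∀ n, δ n ≤ 1 := by
    intro n
    rw [hd]
    simp only
    split_ifs with h
    · exact h.2
    · exact le_rfl
  have h5 : Tendsto δ atTop (𝓝 0) :=
    (tendsto_nhds_of_tendsto_nhdsWithin hu).congr' (h2.mono fun n hn => hn.symm)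
  refine (h δ h3 h4 h5).congr' ?_
  filter_upwards [h2] with n hn
  rw [Function.comp_apply, hn]

/-- The variance of the statistic of the even rows. -/
lemma row_var (hP : Plane P) {f : ℝ × ℝ → ℝ} {L : ℕ → ℝ} {a : ℕ → ℤ → ℤ → ℝ} {M : ℝ}
    (hD : Disc f L a M) (n : ℕ) :
    ∫ φ : ℤ × ℤ → ℤ, (∑ᶠ p : ℤ × ℤ, a n p.1 p.2 * (φ (GFF.ev p.1 p.2) : ℝ)) ^ 2 ∂P =
      varX (Vrow P) (a n) ∧
    Integrable (fun φ : ℤ × ℤ → ℤ =>
      (∑ᶠ p : ℤ × ℤ, a n p.1 p.2 * (φ (GFF.ev p.1 p.2) : ℝ)) ^ 2) P := by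
  set A := sbx M (L n) with hA
  have hz : ∀ j y, j ∉ A ∨ y ∉ A → a n j y = 0 := disc_zero hD n
  have h1 : ∀ φ : ℤ × ℤ → ℤ, ∑ᶠ p : ℤ × ℤ, a n p.1 p.2 * (φ (GFF.ev p.1 p.2) : ℝ) =
      ∑ p ∈ A ×ˢ A, a n p.1 p.2 * hev p φ := by
    intro φ
    refine finsum_eq_sum_of_support_subset _ fun p hp => ?_
    by_contra h
    refine hp ?_
    rw [Finset.mem_coe, Finset.mem_product, not_and_or] at h
    simp only
    rw [hz _ _ h, zero_mul]
  have h0 : ∑ p ∈ A ×ˢ A, a n p.1 p.2 = 0 := by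
    rw [← hD.sum_zero n]
    symm
    refine finsum_eq_sum_of_support_subset _ fun p hp => ?_
    by_contra h
    refine hp ?_
    rw [Finset.mem_coe, Finset.mem_product, not_and_or] at h
    exact hz _ _ h
  constructor
  · rw [varX_eq hz]
    have h2 := plane_bilin hP (A ×ˢ A) (A ×ˢ A) (fun p => a n p.1 p.2) (fun p => a n p.1 p.2) h0 h0
    simp_rw [h1, sq]
    rw [h2]
    rfl
  · have e : (fun φ : ℤ × ℤ → ℤ =>
        (∑ᶠ p : ℤ × ℤ, a n p.1 p.2 * (φ (GFF.ev p.1 p.2) : ℝ)) ^ 2) =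
        fun φ => ∑ p ∈ A ×ˢ A, ∑ q ∈ A ×ˢ A,
          (a n p.1 p.2 * a n q.1 q.2) * (((φ (GFF.ev p.1 p.2) : ℤ) : ℝ) * ((φ (GFF.ev q.1 q.2) : ℤ) : ℝ)) := by
      funext φ
      rw [h1, sq, Finset.sum_mul_sum]
      refine Finset.sum_congr rfl fun p _ => Finset.sum_congr rfl fun q _ => ?_
      unfold hev
      ring
    rw [e]
    exact integrable_finsetSum _ fun p _ => integrable_finsetSum _ fun q _ =>
      (integrable_mul_coord hP _ _).const_mul _

/-- **Bounded second moments.** -/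
theorem second (hP : Plane P) (hS : SpecOut P κ) {f : ℝ × ℝ → ℝ} (hf : Test f) :
    ∃ D : ℝ, ∀ᶠ δ : ℝ in 𝓝[>] 0, ∫ φ, (smear φ δ f) ^ 2 ∂P ≤ D := by
  obtain ⟨K, hK⟩ := hf.csts
  obtain ⟨A, hA0, hA⟩ := growth (grow_row hS)
  obtain ⟨m, C, k0, hspec⟩ := hS
  set E1 : ℝ → ℝ := fun δ => ∫ φ, (smear φ δ f - rowS δ f φ) ^ 2 ∂P with hE1
  set E2 : ℝ → ℝ := fun δ => ∫ φ, (rowS δ f φ) ^ 2 ∂P with hE2
  have l1 : Tendsto E1 (𝓝[>] 0) (𝓝 0) := seq_lim fun δ h1 h2 h3 =>
    (close hP (dec hspec) hA0 hA hK δ h1 h2 h3).1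
  have l2 : Tendsto E2 (𝓝[>] 0) (𝓝 (TwoPt.sig (√3) κ (ft f))) := seq_lim fun δ h1 h2 h3 => by
    have hD := disc hK hf.2.2 δ h1 h2 h3
    have h4 := TwoPt.p1 _ _ _ _ _ _ hspec _ _ _ _ hD
    refine h4.congr fun n => ?_
    exact (row_var hP hD n).1.symm
  have l3 : Tendsto (fun δ => 2 * E1 δ + 2 * E2 δ) (𝓝[>] 0)
      (𝓝 (2 * 0 + 2 * TwoPt.sig (√3) κ (ft f))) := (l1.const_mul 2).add (l2.const_mul 2)
  refine ⟨2 * TwoPt.sig (√3) κ (ft f) + 1, ?_⟩
  have h5 := l3.eventually_le_const (u := 2 * TwoPt.sig (√3) κ (ft f) + 1) (by linarith)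
  have h6 : ∀ᶠ δ : ℝ in 𝓝[>] 0, 0 < δ ∧ δ ≤ 1 := by
    filter_upwards [Ioc_mem_nhdsGT (zero_lt_one' ℝ)] with x hx
    exact hx
  filter_upwards [h5, h6] with δ hδ hδ'
  refine le_trans ?_ hδ
  have i1 : Integrable (fun φ => (smear φ δ f - rowS δ f φ) ^ 2) P := by
    -- along the sequence `δ / (n + 1)`
    have h1 : ∀ n : ℕ, 0 < δ / ((n : ℝ) + 1) := fun n => div_pos hδ'.1 (by positivity)
    have h2 : ∀ n : ℕ, δ / ((n : ℝ) + 1) ≤ 1 := fun n => by
      rw [div_le_one (by positivity)]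
      have : (0 : ℝ) ≤ n := by positivity
      linarith [hδ'.2]
    have h3 : Tendsto (fun n : ℕ => δ / ((n : ℝ) + 1)) atTop (𝓝 0) := by
      have := (tendsto_one_div_add_atTop_nhds_zero_nat (𝕜 := ℝ)).const_mul δ
      rw [mul_zero] at this
      refine this.congr fun n => ?_
      ring
    have h4 := (close hP (dec hspec) hA0 hA hK _ h1 h2 h3).2 0
    simpa using h4
  have i2 : Integrable (fun φ => (rowS δ f φ) ^ 2) P := by
    have h1 : ∀ n : ℕ, 0 < δ / ((n : ℝ) + 1) := fun n => div_pos hδ'.1 (by positivity)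
    have h2 : ∀ n : ℕ, δ / ((n : ℝ) + 1) ≤ 1 := fun n => by
      rw [div_le_one (by positivity)]
      have : (0 : ℝ) ≤ n := by positivity
      linarith [hδ'.2]
    have h3 : Tendsto (fun n : ℕ => δ / ((n : ℝ) + 1)) atTop (𝓝 0) := by
      have := (tendsto_one_div_add_atTop_nhds_zero_nat (𝕜 := ℝ)).const_mul δ
      rw [mul_zero] at this
      refine this.congr fun n => ?_
      ring
    have h4 := (row_var hP (disc hK hf.2.2 _ h1 h2 h3) 0).2
    simpa [rowS] using h4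
  calc ∫ φ, (smear φ δ f) ^ 2 ∂P
      ≤ ∫ φ, (2 * (smear φ δ f - rowS δ f φ) ^ 2 + 2 * (rowS δ f φ) ^ 2) ∂P := by
        refine integral_mono_of_nonneg (Eventually.of_forall fun φ => sq_nonneg _)
          ((i1.const_mul 2).add (i2.const_mul 2)) (Eventually.of_forall fun φ => ?_)
        simp only
        nlinarith [sq_nonneg (smear φ δ f - 2 * rowS δ f φ)]
    _ = 2 * E1 δ + 2 * E2 δ := by
        rw [integral_add (i1.const_mul 2) (i2.const_mul 2), integral_const_mul, integral_const_mul]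

end Vale.Agent.P153.F.RSW.AC
end
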