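import Mathlib
import Vale.Agent.P153.Bd5.B12
import Vale.Agent.P153.Bd5.B15
import Vale.Agent.P153.Bd5.B8

set_option linter.all false

section

/-!
# B5, part 6: comparison of the upper density with the row function
-/

open MeasureTheory Filter Topology Set Metric
open scoped ENNReal

namespace Vale.Agent.P153.Iso

/-- `|z|² U(z)`. -/
noncomputable def Fz (φ : ℂ → ℝ) (z : ℂ) : ℝ := ‖z‖ ^ 2 * U φ z

theorem Fz_nonneg (φ : ℂ → ℝ) (z : ℂ) : 0 ≤ Fz φ z := mul_nonneg (by positivity) (U_nonneg φ z)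

/-- From a.e. complex number to a.e. vertical line. -/
theorem ae_ae {P : ℂ → Prop} (h : ∀ᵐ w : ℂ, P w) : ∀ᵐ x : ℝ, ∀ᵐ y : ℝ, P ⟨x, y⟩ := by
  have h1 : ∀ᵐ p : ℝ × ℝ, P (Complex.measurableEquivRealProd.symm p) :=
    (Complex.volume_preserving_equiv_real_prod.symm _).quasiMeasurePreserving.ae h
  have h2 := Measure.ae_ae_of_ae_prod (μ := (volume : Measure ℝ)) (ν := (volume : Measure ℝ)) h1
  filter_upwards [h2] with x hx
  filter_upwards [hx] with y hy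
  exact hy

theorem exists_Ioo {P : ℝ → Prop} (h : ∀ᵐ y : ℝ, P y) {a b : ℝ} (hab : a < b) :
    ∃ y, a < y ∧ y < b ∧ P y := by
  by_contra hcon
  push Not at hcon
  have h1 : ∀ᵐ y : ℝ, y ∉ Ioo a b := by
    filter_upwards [h] with y hy hmem
    exact hcon y hmem.1 hmem.2 hy
  have h2 : volume (Ioo a b) = 0 := measure_eq_zero_iff_ae_notMem.2 h1
  rw [Real.volume_Ioo, ENNReal.ofReal_eq_zero] at h2
  linarith only [hab, h2]

namespace DensHyp

variable {φ : ℂ → ℝ} {m : ℝ → Measure ℝ} {C ρ : ℝ}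

theorem Fz_bdd (h : DensHyp φ m C ρ) {z : ℂ} (hz0 : z ≠ 0) (hz : 2 * ‖z‖ < ρ) :
    Fz φ z ≤ 4 * C := by
  have hn : 0 < ‖z‖ := norm_pos_iff.2 hz0
  have := h.U_bdd hz0 hz
  rw [le_div_iff₀ (by positivity)] at this
  unfold Fz; linarith only [this]

theorem Fz_le (h : DensHyp φ m C ρ) {z w : ℂ} (hz0 : z ≠ 0) (hz : 4 * ‖z‖ < ρ)
    (hz1 : 4 * ‖z‖ ≤ 1) (hw : ‖w - z‖ ≤ ‖z‖ / 32) :
    Fz φ w ≤ Fz φ z + 1000 * C * (‖w - z‖ / ‖z‖ + ‖z‖ ^ 2) := by
  have hC := h.C_nonneg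
  have hn : 0 < ‖z‖ := norm_pos_iff.2 hz0
  have h1 := h.U_equi hz0 hz hz1 hw
  have e : z + (w - z) = w := by ring
  rw [e] at h1
  have hFb := h.Fz_bdd hz0 (by linarith only [hz, hn])
  set q := ‖w - z‖ / ‖z‖ with hq
  have hq0 : 0 ≤ q := by (clear * - hz0; positivity)
  have hq1 : q ≤ 1 / 32 := by rw [hq, div_le_iff₀ hn]; linarith only [hw]
  have hqn : ‖w - z‖ = q * ‖z‖ := by rw [hq]; field_simp
  have e2 : 200 * ‖w - z‖ / ‖z‖ = 200 * q := by rw [hq]; ring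
  rw [e2] at h1
  have hw2 : ‖w‖ ≤ (1 + q) * ‖z‖ := by
    calc ‖w‖ = ‖z + (w - z)‖ := by rw [e]
      _ ≤ ‖z‖ + ‖w - z‖ := norm_add_le _ _
      _ = (1 + q) * ‖z‖ := by rw [hqn]; ring
  have hw3 : ‖w‖ ^ 2 ≤ (1 + q) ^ 2 * ‖z‖ ^ 2 := by
    rw [← mul_pow]; exact pow_le_pow_left₀ (norm_nonneg w) hw2 2
  have hU := U_nonneg φ z
  have hN2 : 0 < ‖z‖ ^ 2 := by positivity
  calc Fz φ w = ‖w‖ ^ 2 * U φ w := rfl
    _ ≤ ((1 + q) ^ 2 * ‖z‖ ^ 2) * ((1 + 200 * q) * U φ z + 20 * C) :=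
        mul_le_mul hw3 h1 (U_nonneg φ w) (by positivity)
    _ = (1 + q) ^ 2 * (1 + 200 * q) * Fz φ z + (1 + q) ^ 2 * (20 * C) * ‖z‖ ^ 2 := by
        unfold Fz; ring
    _ ≤ (1 + 230 * q) * Fz φ z + 22 * C * ‖z‖ ^ 2 := by
        have b1 : (1 + q) ^ 2 ≤ 1 + 3 * q := by nlinarith only [hq0, hq1]
        have a1 : (1 + q) ^ 2 * (1 + 200 * q) ≤ 1 + 230 * q := by
          calc (1 + q) ^ 2 * (1 + 200 * q) ≤ (1 + 3 * q) * (1 + 200 * q) :=
                mul_le_mul_of_nonneg_right b1 (by (clear * - hz0; positivity))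
            _ ≤ 1 + 230 * q := by nlinarith only [hq0, hq1]
        have a2 : (1 + q) ^ 2 * (20 * C) ≤ 22 * C := by
          have : (1 + q) ^ 2 ≤ 11 / 10 := by nlinarith only [hq1, b1]
          nlinarith only [hC, hq1, b1]
        exact add_le_add (mul_le_mul_of_nonneg_right a1 (Fz_nonneg φ z))
          (mul_le_mul_of_nonneg_right a2 hN2.le)
    _ ≤ Fz φ z + 1000 * C * (q + ‖z‖ ^ 2) := by
        have a3 : 230 * q * Fz φ z ≤ 230 * q * (4 * C) :=
          mul_le_mul_of_nonneg_left hFb (by (clear * - hz0; positivity))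
        have a4 : 0 ≤ q * C := by (clear * - hz0 hC; positivity)
        have a5 : 0 ≤ C * ‖z‖ ^ 2 := by (clear * - hC hz0; positivity)
        nlinarith only [a3, a4, a5]

/-- Algebra for `transfer`. -/
theorem transfer_alg {C t N Fzz Fw A B : ℝ} (hC : 0 ≤ C) (ht0 : 0 ≤ t) (ht : t ≤ 1 / 128)
    (hN : 0 ≤ N)
    (h1 : Fzz ≤ Fw + 1000 * C * (3 * t + 2 * N)) (h2 : Fw ≤ Fzz + 1000 * C * (3 * t + 2 * N))
    (h3 : |Fw - B| ≤ 2 * C * N) (hB : 0 ≤ B) (hBb : B ≤ 6 * C)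
    (h4 : B * (1 - 4 * t) ≤ A) (h5 : A ≤ (1 + 4 * t) ^ 2 * B) :
    |Fzz - A| ≤ 4000 * C * (t + N) := by
  rw [abs_le] at h3 ⊢
  have a1 : B * t ≤ 6 * C * t := mul_le_mul_of_nonneg_right hBb ht0
  have a2 : (1 + 4 * t) ^ 2 ≤ 1 + 9 * t := by nlinarith only [ht0, ht]
  have a3 : (1 + 4 * t) ^ 2 * B ≤ (1 + 9 * t) * B := mul_le_mul_of_nonneg_right a2 hB
  have a4 : 0 ≤ C * t := by positivity
  have a5 : 0 ≤ C * N := by positivity
  constructor
  · linarith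
  · linarith

/-- Lower comparison. -/
theorem lower_alg {t W Z P Q : ℝ} (ht0 : 0 ≤ t) (ht : t ≤ 1 / 128) (hW : 0 ≤ W) (hZ : 0 ≤ Z)
    (hw_le : W ≤ (1 + 2 * t) * Z) (hP : 0 ≤ P) (p1 : P ≤ Q) :
    W ^ 2 * P * (1 - 4 * t) ≤ Z ^ 2 * Q := by
  have q1 : W ^ 2 * (1 - 4 * t) ≤ Z ^ 2 := by
    have : W ^ 2 ≤ ((1 + 2 * t) * Z) ^ 2 := pow_le_pow_left₀ hW hw_le 2
    have h14 : 0 ≤ 1 - 4 * t := by linarith only [ht]
    calc W ^ 2 * (1 - 4 * t) ≤ ((1 + 2 * t) * Z) ^ 2 * (1 - 4 * t) :=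
          mul_le_mul_of_nonneg_right this h14
      _ = ((1 + 2 * t) ^ 2 * (1 - 4 * t)) * Z ^ 2 := by ring
      _ ≤ 1 * Z ^ 2 := by
          apply mul_le_mul_of_nonneg_right _ (by (clear * -; positivity))
          nlinarith only [mul_nonneg (mul_nonneg ht0 ht0) ht0]
      _ = Z ^ 2 := one_mul _
  calc W ^ 2 * P * (1 - 4 * t) = (W ^ 2 * (1 - 4 * t)) * P := by ring
    _ ≤ Z ^ 2 * P := mul_le_mul_of_nonneg_right q1 hP
    _ ≤ _ := mul_le_mul_of_nonneg_left p1 (by positivity)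

/-- Upper comparison. -/
theorem upper_alg {t W Z P Q y y' : ℝ} (ht0 : 0 ≤ t) (ht : t ≤ 1 / 128) (hy : 0 < y)
    (hy' : 0 ≤ y') (hyy : y' ≤ (1 + t) * y) (hZ : 0 ≤ Z)
    (hw_ge : (1 - 2 * t) * Z ≤ W) (hP : 0 ≤ P) (p2 : Q ≤ (y' / y) ^ 2 * P) :
    Z ^ 2 * Q ≤ (1 + 4 * t) ^ 2 * (W ^ 2 * P) := by
  have q2 : (y' / y) ^ 2 ≤ (1 + t) ^ 2 := by
    apply pow_le_pow_left₀ (by positivity)
    rw [div_le_iff₀ hy]; exact hyy
  have q3 : (1 + t) * Z ≤ (1 + 4 * t) * W := by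
    have : (1 + 4 * t) * ((1 - 2 * t) * Z) ≤ (1 + 4 * t) * W :=
      mul_le_mul_of_nonneg_left hw_ge (by positivity)
    have h5 : (1 + t) * Z ≤ (1 + 4 * t) * ((1 - 2 * t) * Z) := by
      rw [← mul_assoc]
      apply mul_le_mul_of_nonneg_right _ hZ
      nlinarith only [ht0, ht]
    linarith only [this, h5]
  have q4 : ((1 + t) * Z) ^ 2 ≤ ((1 + 4 * t) * W) ^ 2 :=
    pow_le_pow_left₀ (by positivity) q3 2
  calc Z ^ 2 * Q ≤ Z ^ 2 * ((1 + t) ^ 2 * P) := by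
        apply mul_le_mul_of_nonneg_left _ (by positivity)
        exact p2.trans (mul_le_mul_of_nonneg_right q2 hP)
    _ = ((1 + t) * Z) ^ 2 * P := by ring
    _ ≤ ((1 + 4 * t) * W) ^ 2 * P := mul_le_mul_of_nonneg_right q4 hP
    _ = _ := by ring

/-- **Transfer**: the upper density at `z` is close to the row function of a.e. nearby row. -/
theorem transfer (h : DensHyp φ m C ρ) {z : ℂ} {t : ℝ} (hy : 0 < z.im) (ht0 : 0 < t)
    (ht : t ≤ 1 / 128) (hz : 8 * ‖z‖ < ρ) (hz1 : 8 * ‖z‖ ≤ 1) :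
    ∀ᵐ x' : ℝ, |x' - z.re| < t * z.im →
      |Fz φ z - ‖z‖ ^ 2 * Psi m x' z.im| ≤ 4000 * C * (t + ‖z‖ ^ 2) := by
  have hC := h.C_nonneg
  have hz0 : z ≠ 0 := by
    intro h0
    rw [h0] at hy; simp at hy
  have hn : 0 < ‖z‖ := norm_pos_iff.2 hz0
  have hzim : z.im ≤ ‖z‖ := (le_abs_self _).trans (Complex.abs_im_le_norm z)
  have hloc : ∀ η, 0 < η → ∃ M : ℝ, ∀ᵐ w : ℂ, η < ‖w‖ → ‖w‖ < ρ → φ w ≤ M := by
    intro η hη
    refine ⟨C / η ^ 2, ?_⟩
    filter_upwards [h.bdd] with w hw h1 h2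
    rw [le_div_iff₀ (by positivity)]
    have := hw h2
    have h3 : η ^ 2 ≤ ‖w‖ ^ 2 := pow_le_pow_left₀ hη.le h1.le 2
    nlinarith only [this, h3, h.nonneg w]
  filter_upwards [ae_ae h.good, ae_ae (ub_eq_ae h.meas h.nonneg hloc)] with x' g1 g2 hx'
  obtain ⟨y', hy1, hy2, hg1, hg2⟩ := exists_Ioo (g1.and g2)
    (show z.im < z.im + t * z.im by nlinarith only [hy, ht0])
  set w : ℂ := ⟨x', y'⟩ with hw
  have hwz : ‖w - z‖ ≤ 2 * t * z.im := by
    refine (Complex.norm_le_abs_re_add_abs_im _).trans ?_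
    rw [Complex.sub_re, Complex.sub_im, hw]
    simp only
    have : |y' - z.im| ≤ t * z.im := by
      rw [abs_of_pos (by linarith only [hy1])]; linarith only [hy2]
    linarith only [hx', this]
  have hty : 2 * t * z.im ≤ 2 * t * ‖z‖ := mul_le_mul_of_nonneg_left hzim (by positivity)
  have hwzq : ‖w - z‖ / ‖z‖ ≤ 2 * t := by
    rw [div_le_iff₀ hn]; linarith only [hwz, hty]
  have hw_le : ‖w‖ ≤ (1 + 2 * t) * ‖z‖ := by
    calc ‖w‖ = ‖z + (w - z)‖ := by congr 1; ring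
      _ ≤ ‖z‖ + ‖w - z‖ := norm_add_le _ _
      _ ≤ (1 + 2 * t) * ‖z‖ := by linarith only [hwz, hty]
  have hw_ge : (1 - 2 * t) * ‖z‖ ≤ ‖w‖ := by
    have : ‖z‖ ≤ ‖w‖ + ‖w - z‖ := by
      calc ‖z‖ = ‖w - (w - z)‖ := by congr 1; ring
        _ ≤ _ := norm_sub_le _ _
    linarith only [hwz, hty, this]
  have hwpos : 0 < ‖w‖ := lt_of_lt_of_le (mul_pos (by linarith only [ht]) hn) hw_ge
  have hw0 : w ≠ 0 := norm_pos_iff.1 hwpos
  have htn : t * ‖z‖ ≤ 1 / 128 * ‖z‖ := mul_le_mul_of_nonneg_right ht hn.le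
  have hw32 : ‖w‖ ≤ 33 / 32 * ‖z‖ := by linarith only [hy1, hy2, hty, hw_le, htn]
  have hw31 : 31 / 32 * ‖z‖ ≤ ‖w‖ := by linarith only [hy1, hy2, hty, hw_ge, htn]
  have hw2 : ‖w‖ ^ 2 ≤ 2 * ‖z‖ ^ 2 := by
    have := pow_le_pow_left₀ hwpos.le hw32 2
    rw [mul_pow] at this
    have h5 : 0 ≤ ‖z‖ ^ 2 := by positivity
    linarith only [this, h5]
  obtain ⟨hs, hf, hrep⟩ := hg1 (by linarith only [hz, hy1, hy2, hty, hw_le, htn])
  have hU : ub φ w = ENNReal.ofReal (φ w) := hg2 hwpos (by linarith only [hz, hy1, hy2, hty, hw_le, htn])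
  have hUφ : U φ w = φ w := by
    unfold U; rw [hU, ENNReal.toReal_ofReal (h.nonneg w)]
  -- F z and F w
  have hsmall : ‖w - z‖ ≤ ‖z‖ / 32 := by linarith only [hy1, hy2, hwz, hty, htn]
  have f1 : Fz φ w ≤ Fz φ z + 1000 * C * (3 * t + 2 * ‖z‖ ^ 2) := by
    refine (h.Fz_le hz0 (by linarith only [hz, hy1, hy2, hty, htn]) (by linarith only [hz1]) hsmall).trans ?_
    have : 1000 * C * (‖w - z‖ / ‖z‖ + ‖z‖ ^ 2) ≤ 1000 * C * (3 * t + 2 * ‖z‖ ^ 2) := by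
      apply mul_le_mul_of_nonneg_left _ (by (clear * - hC; positivity))
      linarith only [ht0, hwzq, sq_nonneg ‖z‖]
    linarith only [this]
  have f2 : Fz φ z ≤ Fz φ w + 1000 * C * (3 * t + 2 * ‖z‖ ^ 2) := by
    have hsw : ‖z - w‖ ≤ ‖w‖ / 32 := by
      rw [norm_sub_rev]; linarith only [hy1, hy2, hwz, hty, hw_ge, htn]
    refine (h.Fz_le hw0 (by linarith only [hz, hy1, hy2, hty, hw_le, htn]) (by linarith only [hz1, hw_le, htn]) hsw).trans ?_
    have h3 : ‖z - w‖ / ‖w‖ ≤ 3 * t := by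
      rw [norm_sub_rev, div_le_iff₀ hwpos]
      have := mul_le_mul_of_nonneg_left hw31 ht0.le
      have h6 : 0 ≤ t * ‖z‖ := by positivity
      linarith only [hy1, hy2, hwz, hty, this]
    have h4 := hw2
    have : 1000 * C * (‖z - w‖ / ‖w‖ + ‖w‖ ^ 2) ≤ 1000 * C * (3 * t + 2 * ‖z‖ ^ 2) := by
      apply mul_le_mul_of_nonneg_left _ (by (clear * - hC; positivity))
      linarith only [hw2, h3]
    linarith only [this]
  -- the row function
  have hwre : w.re = x' := rfl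
  have hwim : w.im = y' := rfl
  have hψ0 : 0 ≤ Psi m x' y' := psi_nonneg hs
  have s3 := sqrt3_lt
  have s3p : 0 < √(3:ℝ) := by positivity
  have hpi := Real.pi_gt_d2
  have hypos : 0 < y' := by linarith only [hy, hy1]
  have hy'1 : y' ≤ 1 := by nlinarith only [hz1, hy1, hy2, hty, htn]
  have hlt : √3 * y' < Real.pi := by nlinarith only [hz1, hzim, hy, s3, ht0, hy2, hpi, hy1, htn]
  have p1 : Psi m x' y' ≤ Psi m x' z.im := by
    unfold Psi
    exact psi_anti hs (by positivity) (mul_le_mul_of_nonneg_left hy1.le s3p.le) hlt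
  have p2 : Psi m x' z.im ≤ (y' / z.im) ^ 2 * Psi m x' y' := by
    unfold Psi
    have := psi_le (μ := m x') (θ := √3 * z.im) (θ' := √3 * y') hs (by positivity)
      (mul_le_mul_of_nonneg_left hy1.le s3p.le) hlt
    have e : (√3 * y') / (√3 * z.im) = y' / z.im := by (clear * - hy hypos; field_simp)
    rwa [e] at this
  have hFw : Fz φ w = ‖w‖ ^ 2 * φ w := by unfold Fz; rw [hUφ]
  have hFwb := h.Fz_bdd hw0 (by linarith only [hz, hy1, hy2, hty, hw_le, htn])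
  have hw2' : ‖w‖ ^ 2 ≤ 1 := pow_le_one₀ hwpos.le (by linarith only [hz1, hw_le, htn])
  have h3 : |Fz φ w - ‖w‖ ^ 2 * Psi m x' y'| ≤ 2 * C * ‖z‖ ^ 2 := by
    rw [hFw, ← mul_sub, abs_mul, abs_of_nonneg (by positivity : (0:ℝ) ≤ ‖w‖ ^ 2)]
    calc ‖w‖ ^ 2 * |φ w - Psi m x' y'| ≤ (2 * ‖z‖ ^ 2) * C :=
          mul_le_mul hw2 hrep (abs_nonneg _) (by positivity)
      _ = _ := by ring
  have h3' : |Fz φ w - ‖w‖ ^ 2 * Psi m x' y'| ≤ C := by
    rw [hFw, ← mul_sub, abs_mul, abs_of_nonneg (by positivity : (0:ℝ) ≤ ‖w‖ ^ 2)]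
    calc ‖w‖ ^ 2 * |φ w - Psi m x' y'| ≤ 1 * C :=
          mul_le_mul hw2' hrep (abs_nonneg _) (by norm_num)
      _ = _ := by ring
  refine transfer_alg (B := ‖w‖ ^ 2 * Psi m x' y') (Fw := Fz φ w) hC ht0.le ht (by positivity)
    f2 f1 h3 (by (clear * - hw0 hψ0; positivity)) ?_ ?_ ?_
  · rw [abs_le] at h3'
    linarith only [hFwb, h3']
  · exact lower_alg ht0.le ht hwpos.le hn.le hw_le hψ0 p1
  · exact upper_alg ht0.le ht hy hypos.le (by linarith only [hy2]) hn.le hw_ge hψ0 p2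

end DensHyp

end Vale.Agent.P153.Iso
end

section

/-!
# B5, part 7: the axis limit and the Stieltjes property
-/

open MeasureTheory Filter Topology Set Metric
open scoped ENNReal BigOperators

namespace Vale.Agent.P153.Iso

theorem X_le (θ : ℝ) : 2 - 2 * Real.cos θ ≤ θ ^ 2 := by
  have := Real.one_sub_sq_div_two_le_cos (x := θ)
  linarith

theorem X_ge {θ : ℝ} (hθ : |θ| ≤ 1) : θ ^ 2 - 5 / 48 * θ ^ 4 ≤ 2 - 2 * Real.cos θ := by
  have h := Real.cos_bound hθ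
  rw [abs_le] at h
  have h4 : |θ| ^ 4 = θ ^ 4 := by
    rw [← abs_pow, abs_of_nonneg (by positivity)]
  rw [h4] at h
  linarith [h.2]

theorem X_le3 (t : ℝ) : 2 - 2 * Real.cos (√3 * t) ≤ 3 * t ^ 2 := by
  have h := X_le (√3 * t)
  rw [mul_pow, sqrt3_sq] at h
  exact h

theorem X_ge3 {t : ℝ} (ht0 : 0 ≤ t) (ht : t ≤ 1 / 2) :
    3 * t ^ 2 * (1 - t ^ 2) ≤ 2 - 2 * Real.cos (√3 * t) := by
  have s3 := sqrt3_lt
  have s3p : 0 < √(3:ℝ) := by positivity
  have h1 : |√3 * t| ≤ 1 := by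
    rw [abs_of_nonneg (by positivity)]
    nlinarith
  have h := X_ge h1
  have e2 : (√3 * t) ^ 2 = 3 * t ^ 2 := by rw [mul_pow, sqrt3_sq]
  have e4 : (√3 * t) ^ 4 = 9 * t ^ 4 := by
    have : (√3 * t) ^ 4 = ((√3 * t) ^ 2) ^ 2 := by ring
    rw [this, e2]; ring
  rw [e2, e4] at h
  have : 0 ≤ t ^ 4 := by (clear * -; positivity)
  nlinarith only [h]

theorem norm_mk (x y : ℝ) : ‖(⟨x, y⟩ : ℂ)‖ ^ 2 = x ^ 2 + y ^ 2 := by
  rw [← Complex.normSq_eq_norm_sq, Complex.normSq_apply]; simp only; ring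

theorem norm_mk' (x y : ℝ) : ‖(⟨x, y⟩ : ℂ)‖ = √(x ^ 2 + y ^ 2) := by
  rw [← norm_mk, Real.sqrt_sq (norm_nonneg _)]

theorem norm_mk_lt {x y r : ℝ} (hr : 0 < r) : ‖(⟨x, y⟩ : ℂ)‖ < r ↔ x ^ 2 + y ^ 2 < r ^ 2 := by
  rw [norm_mk', Real.sqrt_lt' hr]

theorem norm_mk_zero {t : ℝ} (ht : 0 < t) : ‖(⟨0, t⟩ : ℂ)‖ = t := by
  rw [norm_mk']
  have : (0:ℝ) ^ 2 + t ^ 2 = t ^ 2 := by ring
  rw [this, Real.sqrt_sq ht.le]

namespace DensHyp

variable {φ : ℂ → ℝ} {m : ℝ → Measure ℝ} {C ρ : ℝ}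

/-- The rows which are good. -/
theorem row_good (h : DensHyp φ m C ρ) : ∀ᵐ x : ℝ, |x| < ρ →
    (∀ᵐ τ ∂(m x), 0 ≤ τ ∧ τ < 1) ∧ IsFiniteMeasure (m x) := by
  filter_upwards [h.supp, h.fin] with x h1 h2 hx
  exact ⟨h1, ⟨lt_top_iff_ne_top.2 (h2 hx)⟩⟩

/-- One comparison along the axis. -/
theorem axis_step (h : DensHyp φ m C ρ) {s t t' : ℝ} (hs0 : 0 < s) (hs : s ≤ 1 / 128)
    (ht : 0 < t) (htt : t ≤ t') (ht' : 8 * t' < ρ) (ht1 : 8 * t' ≤ 1) :
    Fz φ ⟨0, t⟩ ≤ Fz φ ⟨0, t'⟩ + 20000 * C * (s + t' ^ 2) := by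
  have hC := h.C_nonneg
  have ht'0 : 0 < t' := lt_of_lt_of_le ht htt
  have n1 : ‖(⟨0, t⟩ : ℂ)‖ = t := norm_mk_zero ht
  have n2 : ‖(⟨0, t'⟩ : ℂ)‖ = t' := norm_mk_zero ht'0
  have a1 := h.transfer (z := ⟨0, t⟩) (t := s) ht hs0 hs (by rw [n1]; linarith only [htt, ht'])
    (by rw [n1]; linarith only [htt, ht1])
  have a2 := h.transfer (z := ⟨0, t'⟩) (t := s) ht'0 hs0 hs (by rw [n2]; linarith only [ht'])
    (by rw [n2]; linarith only [ht1])
  rw [n1] at a1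
  rw [n2] at a2
  simp only [sub_zero] at a1 a2
  obtain ⟨x', hx1, hx2, ⟨b1, b2⟩, b3⟩ := exists_Ioo ((a1.and a2).and h.row_good)
    (show (0:ℝ) < s * t by positivity)
  have hst : s * t ≤ s * t' := mul_le_mul_of_nonneg_left htt hs0.le
  have hst1 : s * t ≤ 1 / 128 * t := mul_le_mul_of_nonneg_right hs ht.le
  have c1 := b1 (by rw [abs_of_pos hx1]; exact hx2)
  have c2 := b2 (by rw [abs_of_pos hx1]; linarith only [hx2, hst])
  obtain ⟨hsupp, hfin⟩ := b3 (by rw [abs_of_pos hx1]; linarith only [htt, ht', hx1, hx2, hst1])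
  have hpi := Real.pi_gt_d2
  have s3 := sqrt3_lt
  have s3p : 0 < √(3:ℝ) := by positivity
  have hratio : (2 - 2 * Real.cos (√3 * t)) * Psi m x' t ≤
      (2 - 2 * Real.cos (√3 * t')) * Psi m x' t' :=
    psi_ratio hsupp (by (clear * - ht; positivity)) (mul_le_mul_of_nonneg_left htt s3p.le) (by nlinarith only [htt, ht1, hpi, hs, ht, s3])
  have hP : 0 ≤ Psi m x' t := psi_nonneg hsupp
  have hP' : 0 ≤ Psi m x' t' := psi_nonneg hsupp
  have x1 := mul_le_mul_of_nonneg_right (X_ge3 ht.le (by linarith only [htt, ht1])) hP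
  have x2 := mul_le_mul_of_nonneg_right (X_le3 t') hP'
  have hb := h.Fz_bdd (z := ⟨0, t⟩) (by
    intro h0
    rw [h0] at n1; simp at n1; linarith only [hx1, hx2, hst1, n1]) (by rw [n1]; linarith only [htt, ht', hx1, hx2, hst1])
  rw [abs_le] at c1 c2
  set A := t ^ 2 * Psi m x' t with hA
  set A' := t' ^ 2 * Psi m x' t' with hA'
  have hA0 : 0 ≤ A := by (clear * - ht hP; positivity)
  have d1 : A * (1 - t ^ 2) ≤ A' := by
    have : 3 * t ^ 2 * (1 - t ^ 2) * Psi m x' t ≤ 3 * t' ^ 2 * Psi m x' t' := by linarith only [hratio, x1, x2]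
    rw [hA, hA']
    nlinarith only [hratio, x1, x2]
  have ht2 : t ^ 2 ≤ t' ^ 2 := pow_le_pow_left₀ ht.le htt 2
  have ht21 : t ^ 2 ≤ 1 := pow_le_one₀ ht.le (by linarith only [htt, ht1])
  have hAb : A ≤ 8004 * C := by
    have e1 : s + t ^ 2 ≤ 2 := by linarith only [hs, ht21]
    have : 4000 * C * (s + t ^ 2) ≤ 4000 * C * 2 := mul_le_mul_of_nonneg_left e1 (by (clear * - hC; positivity))
    linarith only [hb, c1, this]
  have d2 : A * t ^ 2 ≤ 8004 * C * t' ^ 2 :=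
    mul_le_mul hAb ht2 (by positivity) (by (clear * - hC; positivity))
  have e3 : 0 ≤ C * s := by (clear * - hC hs0; positivity)
  have e4 : 0 ≤ C * t' ^ 2 := by (clear * - hC ht'0; positivity)
  have e5 : C * t ^ 2 ≤ C * t' ^ 2 := mul_le_mul_of_nonneg_left ht2 hC
  linarith only [hratio, x1, x2, c1, c2, d2, e3, e5]

/-- Almost monotonicity along the axis. -/
theorem axis_mono (h : DensHyp φ m C ρ) {t t' : ℝ}
    (ht : 0 < t) (htt : t ≤ t') (ht' : 8 * t' < ρ) (ht1 : 8 * t' ≤ 1) :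
    Fz φ ⟨0, t⟩ ≤ Fz φ ⟨0, t'⟩ + 20000 * C * t' ^ 2 := by
  have hC := h.C_nonneg
  refine le_of_forall_pos_le_add fun ε hε => ?_
  set s : ℝ := min (1 / 128) (ε / (20000 * (C + 1))) with hs
  have hs0 : 0 < s := lt_min (by norm_num) (by positivity)
  have h1 := h.axis_step hs0 (min_le_left _ _) ht htt ht' ht1
  have h2 : s ≤ ε / (20000 * (C + 1)) := min_le_right _ _
  rw [le_div_iff₀ (by positivity)] at h2
  have h3 : 20000 * C * s ≤ ε := by linarith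
  linarith only [hs0, h1, h2]

/-- The axis limit. -/
theorem axis_lim (h : DensHyp φ m C ρ) :
    ∃ κ, 0 ≤ κ ∧ Tendsto (fun t : ℝ => Fz φ ⟨0, t⟩) (𝓝[>] 0) (𝓝 κ) := by
  have hC := h.C_nonneg
  have hρ := h.rho_pos
  set K : ℝ := 20000 * C with hK
  have hK0 : 0 ≤ K := by positivity
  set r1 : ℝ := min (ρ / 16) (1 / 16) with hr1
  have hr1p : 0 < r1 := lt_min (by positivity) (by norm_num)
  have hr1a : r1 ≤ ρ / 16 := min_le_left _ _
  have hr1b : r1 ≤ 1 / 16 := min_le_right _ _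
  set S : Set ℝ := (fun t : ℝ => Fz φ ⟨0, t⟩ + K * t ^ 2) '' Ioo 0 r1 with hS
  have hne : S.Nonempty := ⟨_, ⟨r1 / 2, ⟨by (clear * - hρ; positivity), by linarith only [hr1p]⟩, rfl⟩⟩
  have hbelow : ∀ b ∈ S, 0 ≤ b := by
    rintro b ⟨t, -, rfl⟩
    have := Fz_nonneg φ ⟨0, t⟩
    simp only
    (clear * - this hC; positivity)
  have hbdd : BddBelow S := ⟨0, fun b hb => hbelow b hb⟩
  refine ⟨sInf S, le_csInf hne hbelow, ?_⟩
  rw [Metric.tendsto_nhdsWithin_nhds]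
  intro ε hε
  obtain ⟨b, ⟨t', ⟨ht'0, ht'r⟩, rfl⟩, hb⟩ := exists_lt_of_csInf_lt hne
    (show sInf S < sInf S + ε by linarith only [hε])
  simp only at hb
  refine ⟨min t' (ε / (K + 1)), lt_min ht'0 (by (clear * - hε hC; positivity)), ?_⟩
  intro t ht htd
  rw [mem_Ioi] at ht
  rw [Real.dist_eq, sub_zero, abs_of_pos ht] at htd
  have ht1 : t < t' := lt_of_lt_of_le htd (min_le_left _ _)
  have ht2 : t < ε / (K + 1) := lt_of_lt_of_le htd (min_le_right _ _)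
  rw [lt_div_iff₀ (by (clear * - hC; positivity))] at ht2
  have u1 := h.axis_mono ht ht1.le (by linarith only [hr1a, ht'r, ht, ht1]) (by linarith only [hr1b, ht'r])
  have u2 : sInf S ≤ Fz φ ⟨0, t⟩ + K * t ^ 2 :=
    csInf_le hbdd ⟨t, ⟨ht, by linarith only [ht'r, ht1]⟩, rfl⟩
  have u3 : K * t ^ 2 < ε := by
    have : K * t ^ 2 ≤ K * t := mul_le_mul_of_nonneg_left (by nlinarith only [hr1b, ht, ht'r, ht1]) hK0
    nlinarith only [ht, ht2, this]
  rw [Real.dist_eq, abs_lt]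
  constructor
  · linarith only [u2, u3]
  · linarith only [hb, u1]

end DensHyp

end Vale.Agent.P153.Iso
end

section

/-!
# Isotropy of the two-point function (triangular lattice)

`F x y` is `|k|^2 Φ(k)` at `k = (x, y)`, where the rows of the lattice are parallel to the first
axis.  The hypotheses `Hyp` are the output of reflection positivity in the three lattice
directions; the conclusion `isotropy` is `F → κ` at `0`, in all directions.
-/

open Filter Topology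
open scoped BigOperators

namespace Vale.Agent.P153.Iso

variable {F : ℝ → ℝ → ℝ} {κ C ρ : ℝ}

/-- Elementary choice of `√x0`. -/
theorem choose_q {C κ ε : ℝ} (hC : 0 ≤ C) (hκ : 0 ≤ κ) (hε : 0 < ε) :
    ∃ q : ℝ, 2 ≤ q ∧ C / q ≤ ε ∧ (κ + 3) / (1 + q ^ 2) ≤ ε := by
  have p1 : 0 ≤ C / ε := by positivity
  have p2 : 0 ≤ (κ + 3) / ε := by positivity
  refine ⟨2 + C / ε + (κ + 3) / ε, by linarith, ?_, ?_⟩
  · rw [div_le_iff₀ (by positivity)]
    have h1 : ε * (C / ε) = C := by field_simp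
    have h3 : 0 ≤ ε * ((κ + 3) / ε) := by positivity
    linarith
  · rw [div_le_iff₀ (by positivity)]
    have h2 : ε * ((κ + 3) / ε) = κ + 3 := by field_simp
    set Q := 2 + C / ε + (κ + 3) / ε with hQ
    have hQ1 : 1 ≤ Q := by linarith only [p1, p2]
    have hQ2 : (κ + 3) / ε ≤ Q := by linarith only [p1]
    have hQ3 : Q ≤ 1 + Q ^ 2 := by (clear * - p1 p2; nlinarith)
    calc κ + 3 = ε * ((κ + 3) / ε) := h2.symm
      _ ≤ ε * (1 + Q ^ 2) := mul_le_mul_of_nonneg_left (hQ2.trans hQ3) hε.le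

/-- The deterministic estimate behind `main_ineq`. -/
theorem quad_est {n : ℕ} {nu z : Fin n → ℝ} (hnu : ∀ i, 0 ≤ nu i) (hz : ∀ i, 0 < z i)
    {κ C ε q x a a2 a13 aq ax : ℝ} (hC : 0 ≤ C) (hκ : 0 ≤ κ) (hε : 0 < ε) (hε1 : ε ≤ 1)
    (hq : 0 < q)
    (hqκ : (κ + 3) / (1 + q ^ 2) ≤ ε) (hx : 0 ≤ x) (hx3 : x ≤ 1 / 3) (haC : a ≤ C)
    (e0 : |a - G nu z 0| ≤ ε / 5) (e13 : |a13 / (1 + 1 / 3) - G nu z (1 / 3)| ≤ ε / 5)
    (e3 : |a2 / (1 + 3) - G nu z 3| ≤ ε / 5)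
    (eq0 : (1 + q ^ 2) * |aq / (1 + q ^ 2) - G nu z (q ^ 2)| ≤ ε)
    (ex : |ax / (1 + x) - G nu z x| ≤ ε / 5)
    (k13 : |a13 - κ| ≤ ε) (kq : |aq - κ| ≤ 2 * ε) :
    (ax - κ) ^ 2 ≤ 4 * (κ + 7 / 3 * (C + 1) + 7) * (a - a2)
      + (44 * (κ + 7 / 3 * (C + 1) + 7) + 200) * ε := by
  set B0 : ℝ := κ + 7 / 3 * (C + 1) + 7 with hB0
  have hB0pos : 0 < B0 := by rw [hB0]; positivity
  obtain ⟨e, he0, he1, hcore⟩ := core hnu hz (x0 := q ^ 2) (by positivity) hx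
  have hD := D_le hnu hz (x0 := q ^ 2) (by positivity)
  have hD0 := D_nonneg hnu hz (x0 := q ^ 2) (by positivity)
  have hgq0 : 0 ≤ G nu z (q ^ 2) := G_nonneg hnu hz (by positivity)
  have hg00 : 0 ≤ G nu z 0 := G_nonneg hnu hz le_rfl
  generalize G nu z 0 = g0 at *
  generalize G nu z (1 / 3) = g13 at *
  generalize G nu z 3 = g3 at *
  generalize G nu z (q ^ 2) = gq at *
  generalize G nu z x = gx at *
  generalize D nu z (q ^ 2) = Dv at *
  have hqq : 0 < 1 + q ^ 2 := by positivity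
  have k1 : |(1 + q ^ 2) * gq - κ| ≤ 3 * ε := by
    have h1 : |aq - (1 + q ^ 2) * gq| ≤ ε := by
      have : aq - (1 + q ^ 2) * gq = (1 + q ^ 2) * (aq / (1 + q ^ 2) - gq) := by
        field_simp
      rw [this, abs_mul, abs_of_pos hqq]
      exact eq0
    rw [abs_le] at h1 kq ⊢
    constructor <;> linarith [h1.1, h1.2, kq.1, kq.2]
  have k2 : gq ≤ ε := by
    have h1 : (1 + q ^ 2) * gq ≤ κ + 3 := by
      rw [abs_le] at k1; linarith only [hε1, k1]
    have h2 : gq ≤ (κ + 3) / (1 + q ^ 2) := by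
      rw [le_div_iff₀ hqq]; linarith only [h1]
    exact h2.trans hqκ
  have k3 : |q ^ 2 * gq - κ| ≤ 4 * ε := by
    rw [abs_le] at k1 ⊢
    constructor <;> linarith only [he0, he1, k1, k2]
  have hDle : Dv ≤ a - a2 + 11 * ε := by
    rw [abs_le] at e0 e13 e3 k13 k3
    have t3 : a2 / (1 + 3) = a2 / 4 := by norm_num
    have t13 : a13 / (1 + 1 / 3) = 3 / 4 * a13 := by
      field_simp; ring
    rw [t3] at e3
    rw [t13] at e13
    linarith only [k13, e0, e13, e3, hD, k2, k3]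
  have hB : q ^ 2 * gq + 7 / 3 * g0 ≤ B0 := by
    rw [abs_le] at k3 e0
    rw [hB0]
    linarith only [hε1, haC, e0, k3]
  have hcore' : (gx - q ^ 2 * gq / (1 + x) - e) ^ 2 ≤ B0 * Dv :=
    hcore.trans (by rw [mul_comm]; exact mul_le_mul_of_nonneg_right hB hD0)
  clear hcore
  have hx1pos : 0 < 1 + x := by positivity
  have hfin : |ax - κ - (1 + x) * (gx - q ^ 2 * gq / (1 + x) - e)| ≤ 6 * ε := by
    have h1 : ax - κ - (1 + x) * (gx - q ^ 2 * gq / (1 + x) - e)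
        = (1 + x) * (ax / (1 + x) - gx) + (q ^ 2 * gq - κ) + (1 + x) * e := by
      field_simp; ring
    rw [h1]
    have h2 : |(1 + x) * (ax / (1 + x) - gx)| ≤ (1 + x) * (ε / 5) := by
      rw [abs_mul, abs_of_pos hx1pos]
      exact mul_le_mul_of_nonneg_left ex hx1pos.le
    have h3 : |(1 + x) * e| ≤ (1 + x) * ε := by
      rw [abs_mul, abs_of_pos hx1pos, abs_of_nonneg he0]
      exact mul_le_mul_of_nonneg_left (he1.trans k2) hx1pos.le
    have h4 : (1 + x) * (ε / 5) + (1 + x) * ε ≤ 2 * ε := by nlinarith only [hx, hx3, hε]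
    calc |(1 + x) * (ax / (1 + x) - gx) + (q ^ 2 * gq - κ) + (1 + x) * e|
        ≤ |(1 + x) * (ax / (1 + x) - gx)| + |q ^ 2 * gq - κ| + |(1 + x) * e| :=
          abs_add_three _ _ _
      _ ≤ 6 * ε := by linarith only [k3, h2, h3, h4]
  generalize gx - q ^ 2 * gq / (1 + x) - e = R at *
  have hsq : (ax - κ) ^ 2 ≤ 2 * ((1 + x) * R) ^ 2 + 2 * (6 * ε) ^ 2 := by
    have h1 : (ax - κ - (1 + x) * R) ^ 2 ≤ (6 * ε) ^ 2 := by
      rw [← sq_abs (ax - κ - (1 + x) * R)]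
      exact pow_le_pow_left₀ (abs_nonneg _) hfin 2
    have h2 : (ax - κ) ^ 2 ≤ 2 * ((1 + x) * R) ^ 2 + 2 * (ax - κ - (1 + x) * R) ^ 2 := by
      have : 0 ≤ (ax - κ - 2 * ((1 + x) * R)) ^ 2 := sq_nonneg _
      linarith only [this]
    linarith only [h1, h2]
  have h5 : ((1 + x) * R) ^ 2 ≤ 2 * (B0 * Dv) := by
    have h6 : (1 + x) ^ 2 ≤ 2 := by nlinarith only [hx, hx3]
    calc ((1 + x) * R) ^ 2 = (1 + x) ^ 2 * R ^ 2 := by ring
      _ ≤ 2 * R ^ 2 := mul_le_mul_of_nonneg_right h6 (sq_nonneg _)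
      _ ≤ 2 * (B0 * Dv) := by linarith only [hcore']
  have h7 : B0 * Dv ≤ B0 * (a - a2 + 11 * ε) := mul_le_mul_of_nonneg_left hDle hB0pos.le
  have h8 : ε * ε ≤ ε := by nlinarith only [hε, hε1]
  have h9 : 4 * (B0 * Dv) ≤ 4 * B0 * (a - a2) + 44 * B0 * ε := by linarith only [h7]
  have h10 : 2 * (6 * ε) ^ 2 ≤ 200 * ε := by linarith only [h8, hε]
  linarith only [hsq, h5, h9, h10]

theorem normsq_rot (x y : ℝ) :
    (x / 2 - √3 / 2 * y) ^ 2 + (√3 / 2 * x + y / 2) ^ 2 = x ^ 2 + y ^ 2 := by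
  have h33 : √(3:ℝ) ^ 2 = 3 := Real.sq_sqrt (by norm_num)
  ring_nf
  rw [h33]
  ring

end Vale.Agent.P153.Iso
end

section

/-!
# Isotropy, asymptotic form of the hypotheses

`AHyp` only contains asymptotic statements at `k → 0`; it does not need a pointwise density with
exact regularity and can be checked on torus values, cylinder values or small-ball averages.
-/

open Filter Topology
open scoped BigOperators

namespace Vale.Agent.P153.Iso

/-- Invariance under the symmetries of the triangular lattice, near `0`. -/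
structure D6 (F : ℝ → ℝ → ℝ) (ρ : ℝ) : Prop where
  rot : ∀ x y, 0 < x ^ 2 + y ^ 2 → x ^ 2 + y ^ 2 < ρ ^ 2 →
    F (x / 2 - √3 / 2 * y) (√3 / 2 * x + y / 2) = F x y
  refl : ∀ x y, 0 < x ^ 2 + y ^ 2 → x ^ 2 + y ^ 2 < ρ ^ 2 → F x (-y) = F x y

/-- Asymptotic hypotheses. -/
structure AHyp (F : ℝ → ℝ → ℝ) (κ C ρ : ℝ) : Prop where
  rho_pos : 0 < ρ
  nonneg : ∀ x y, 0 < x ^ 2 + y ^ 2 → x ^ 2 + y ^ 2 < ρ ^ 2 → 0 ≤ F x y
  bdd : ∀ x y, 0 < x ^ 2 + y ^ 2 → x ^ 2 + y ^ 2 < ρ ^ 2 → F x y ≤ C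
  sym : D6 F ρ
  /-- Asymptotic equicontinuity (in scale invariant distance). -/
  equi : ∀ ε, 0 < ε → ∃ δ, 0 < δ ∧ ∃ r0, 0 < r0 ∧ ∀ x y x' y', 0 < x ^ 2 + y ^ 2 →
    x ^ 2 + y ^ 2 < r0 ^ 2 → (x - x') ^ 2 + (y - y') ^ 2 ≤ δ ^ 2 * (x ^ 2 + y ^ 2) →
    |F x y - F x' y'| ≤ ε
  /-- The limit along the normal axis. -/
  axis : Tendsto (fun t => F 0 t) (𝓝[>] 0) (𝓝 κ)
  /-- For every finite set `X` of slopes squared, `F r (r √x) / (1 + x)`, `x ∈ X`, is
  approximately a finite Stieltjes function. -/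
  st : ∀ X : Finset ℝ, (∀ x ∈ X, 0 < x) → ∀ ε, 0 < ε → ∃ r0, 0 < r0 ∧ ∀ r, 0 < r → r < r0 →
    ∃ (n : ℕ) (nu z : Fin n → ℝ), (∀ i, 0 ≤ nu i) ∧ (∀ i, 0 ≤ z i) ∧
      ∀ x ∈ X, |F r (r * √x) / (1 + x) - ∑ i, nu i / (z i + x)| ≤ ε

variable {F : ℝ → ℝ → ℝ} {κ C ρ : ℝ}

theorem D6.rot30 (h : D6 F ρ) {r : ℝ} (hr : 0 < r) (hr' : 2 * r < ρ) :
    F r (r * √(1 / 3)) = F 0 (2 * r * √(1 / 3)) := by
  have h3 : √(1 / 3 : ℝ) = √3 / 3 := by
    rw [Real.sqrt_div (by norm_num), Real.sqrt_one]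
    have : √(3:ℝ) * √3 = 3 := Real.mul_self_sqrt (by norm_num)
    have h0 : √(3:ℝ) ≠ 0 := by positivity
    field_simp
    linarith only [this]
  have h33 : √(3:ℝ) ^ 2 = 3 := Real.sq_sqrt (by norm_num)
  rw [h3]
  have := h.rot r (r * (√3 / 3)) (by positivity) (by nlinarith only [h33, hr, hr'])
  rw [← this]
  congr 1
  · ring_nf; rw [h33]; ring
  · ring

theorem D6.rot60 (h : D6 F ρ) {r : ℝ} (hr : 0 < r) (hr' : 2 * r < ρ) :
    F r (r * √3) = F (2 * r) 0 := by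
  have := h.rot (2 * r) 0 (by positivity) (by nlinarith)
  rw [← this]
  congr 1
  · ring
  · ring

/-- Inverse rotation. -/
theorem D6.rot_inv (h : D6 F ρ) {x y : ℝ} (h0 : 0 < x ^ 2 + y ^ 2)
    (h1 : x ^ 2 + y ^ 2 < ρ ^ 2) :
    F (x / 2 + √3 / 2 * y) (-(√3 / 2) * x + y / 2) = F x y := by
  have h33 : √(3:ℝ) ^ 2 = 3 := Real.sq_sqrt (by norm_num)
  have hn := normsq_rot x (-y)
  have hn' : (x / 2 + √3 / 2 * y) ^ 2 + (-(√3 / 2) * x + y / 2) ^ 2 = x ^ 2 + y ^ 2 := by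
    have e1 : (x / 2 - √3 / 2 * -y) = x / 2 + √3 / 2 * y := by ring
    have e2 : (√3 / 2 * x + -y / 2) ^ 2 = (-(√3 / 2) * x + y / 2) ^ 2 := by ring
    rw [e1, e2] at hn
    rw [hn]; ring
  have := h.rot (x / 2 + √3 / 2 * y) (-(√3 / 2) * x + y / 2) (by rw [hn']; exact h0)
    (by rw [hn']; exact h1)
  rw [← this]
  congr 1
  · ring_nf; rw [h33]; ring
  · ring_nf; rw [h33]; ring

theorem D6.neg (h : D6 F ρ) {x y : ℝ} (h0 : 0 < x ^ 2 + y ^ 2)
    (h1 : x ^ 2 + y ^ 2 < ρ ^ 2) : F (-x) (-y) = F x y := by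
  have h33 : √(3:ℝ) ^ 2 = 3 := Real.sq_sqrt (by norm_num)
  have n1 := normsq_rot x y
  have n2 := normsq_rot (x / 2 - √3 / 2 * y) (√3 / 2 * x + y / 2)
  rw [n1] at n2
  have r1 := h.rot x y h0 h1
  have r2 := h.rot (x / 2 - √3 / 2 * y) (√3 / 2 * x + y / 2) (by rw [n1]; exact h0)
    (by rw [n1]; exact h1)
  have r3 := h.rot _ _ (by rw [n2]; exact h0) (by rw [n2]; exact h1)
  rw [r2, r1] at r3
  rw [← r3]
  have h333 : √(3:ℝ) ^ 3 = 3 * √3 := by rw [pow_succ, h33]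
  congr 1
  · ring_nf; rw [h33, h333]; ring
  · ring_nf; rw [h33, h333]; ring

/-- From the sector `0 ≤ θ ≤ 30°` to all directions. -/
theorem D6.of_sector (h : D6 F ρ) (hρ : 0 < ρ) {ε r1 : ℝ} (hr1 : 0 < r1)
    (hs : ∀ x y, 0 < x → 0 ≤ y → 3 * y ^ 2 ≤ x ^ 2 → x < r1 → |F x y - κ| ≤ ε) :
    ∃ r0, 0 < r0 ∧ ∀ x y, 0 < x ^ 2 + y ^ 2 → x ^ 2 + y ^ 2 < r0 ^ 2 → |F x y - κ| ≤ ε := by
  set r0 : ℝ := min r1 ρ with hr0
  have hr0pos : 0 < r0 := lt_min hr1 hρ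
  have hr01 : r0 ≤ r1 := min_le_left _ _
  have hr0ρ : r0 ≤ ρ := min_le_right _ _
  refine ⟨r0, hr0pos, ?_⟩
  have h33 : √(3:ℝ) ^ 2 = 3 := Real.sq_sqrt (by norm_num)
  have hs3 : 0 < √(3:ℝ) := by positivity
  have hρ2 : r0 ^ 2 ≤ ρ ^ 2 := pow_le_pow_left₀ hr0pos.le hr0ρ 2
  have quad : ∀ x y, 0 ≤ x → 0 ≤ y → 0 < x ^ 2 + y ^ 2 → x ^ 2 + y ^ 2 < r0 ^ 2 →
      |F x y - κ| ≤ ε := by
    intro x y hx hy h0 h1
    have h1ρ : x ^ 2 + y ^ 2 < ρ ^ 2 := lt_of_lt_of_le h1 hρ2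
    have hxr : x < r0 := lt_of_pow_lt_pow_left₀ 2 hr0pos.le (by nlinarith only [h1])
    by_cases c1 : √3 * y ≤ x
    · have hx0 : 0 < x := by
        rcases hx.lt_or_eq with h | h
        · exact h
        · exfalso
          rw [← h] at c1 h0
          have : y = 0 := by nlinarith only [hy, hs3, c1]
          rw [this] at h0; simp at h0
      refine hs x y hx0 hy ?_ (lt_of_lt_of_le hxr hr01)
      have : (√3 * y) ^ 2 ≤ x ^ 2 := pow_le_pow_left₀ (by (clear * - hy; positivity)) c1 2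
      rw [mul_pow, h33] at this
      exact this
    · push Not at c1
      have hy0 : 0 < y := by
        by_contra hcon
        have : y = 0 := le_antisymm (not_lt.1 hcon) hy
        rw [this] at c1; simp at c1; linarith only [hx, c1]
      set u := x / 2 + √3 / 2 * y with hu
      set v := -(√3 / 2) * x + y / 2 with hv
      have huv : u ^ 2 + v ^ 2 = x ^ 2 + y ^ 2 := by
        rw [hu, hv]; ring_nf; rw [h33]; ring
      have hF : F u v = F x y := h.rot_inv h0 h1ρ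
      have hu0 : 0 < u := by rw [hu]; (clear * - hx hy0; positivity)
      have hur : u < r0 := lt_of_pow_lt_pow_left₀ 2 hr0pos.le (by nlinarith only [h1, huv])
      by_cases c2 : √3 * x ≤ y
      · have hv0 : 0 ≤ v := by rw [hv]; linarith only [c2]
        rw [← hF]
        refine hs u v hu0 hv0 ?_ (lt_of_lt_of_le hur hr01)
        have h3v : √3 * v ≤ u := by
          have : √3 * v = -(√3 ^ 2 / 2) * x + √3 / 2 * y := by rw [hv]; ring
          rw [this, h33, hu]; linarith only [hx]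
        have : (√3 * v) ^ 2 ≤ u ^ 2 := pow_le_pow_left₀ (by (clear * - hv0; positivity)) h3v 2
        rw [mul_pow, h33] at this
        exact this
      · push Not at c2
        have hv0 : 0 ≤ -v := by rw [hv]; linarith only [c2]
        rw [← hF, ← h.refl u v (by rw [huv]; exact h0) (by rw [huv]; exact h1ρ)]
        refine hs u (-v) hu0 hv0 ?_ (lt_of_lt_of_le hur hr01)
        have h3v : √3 * (-v) ≤ u := by
          have : √3 * (-v) = (√3 ^ 2 / 2) * x - √3 / 2 * y := by rw [hv]; ring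
          rw [this, h33, hu]; linarith only [c1]
        have : (√3 * (-v)) ^ 2 ≤ u ^ 2 := pow_le_pow_left₀ (by (clear * - hv0; positivity)) h3v 2
        rw [mul_pow, h33] at this
        exact this
  intro x y h0 h1
  have h1ρ : x ^ 2 + y ^ 2 < ρ ^ 2 := lt_of_lt_of_le h1 hρ2
  rcases le_total 0 x with hx | hx <;> rcases le_total 0 y with hy | hy
  · exact quad x y hx hy h0 h1
  · have := quad x (-y) hx (by linarith) (by simpa only [even_two, Even.neg_pow] using h0) (by simpa only [even_two, Even.neg_pow] using h1)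
    rwa [h.refl x y h0 h1ρ] at this
  · have := quad (-x) y (by linarith only [hx]) hy (by simpa only [even_two, Even.neg_pow] using h0) (by simpa only [even_two, Even.neg_pow] using h1)
    rw [← h.refl (-x) y (by simpa only [even_two, Even.neg_pow] using h0) (by simpa only [even_two, Even.neg_pow] using h1ρ), h.neg h0 h1ρ] at this
    exact this
  · have := quad (-x) (-y) (by linarith) (by linarith only [hy]) (by simpa only [even_two, Even.neg_pow] using h0) (by simpa only [even_two, Even.neg_pow] using h1)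
    rwa [h.neg h0 h1ρ] at this

namespace AHyp

theorem C_nonneg (h : AHyp F κ C ρ) : 0 ≤ C := by
  have hρ := h.rho_pos
  have h1 := h.nonneg 0 (ρ / 2) (by (clear * - hρ; positivity)) (by nlinarith)
  have h2 := h.bdd 0 (ρ / 2) (by positivity) (by nlinarith only [hρ])
  linarith

theorem kappa_nonneg (h : AHyp F κ C ρ) : 0 ≤ κ := by
  refine ge_of_tendsto h.axis ?_
  have hρ := h.rho_pos
  filter_upwards [Ioo_mem_nhdsGT hρ] with t ht
  exact h.nonneg 0 t (by nlinarith only [ht.1]) (by nlinarith only [ht.1, ht.2])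

/-- The axis limit in `ε`-form. -/
theorem axis' (h : AHyp F κ C ρ) {ε : ℝ} (hε : 0 < ε) :
    ∃ δ, 0 < δ ∧ δ ≤ ρ ∧ ∀ t, 0 < t → t < δ → |F 0 t - κ| ≤ ε := by
  have h1 := (Metric.tendsto_nhds.1 h.axis) ε hε
  rw [eventually_nhdsWithin_iff, Metric.eventually_nhds_iff] at h1
  obtain ⟨δ, hδ, hd⟩ := h1
  refine ⟨min δ ρ, lt_min hδ h.rho_pos, min_le_right _ _, fun t ht0 ht => ?_⟩
  have := hd (y := t) (by rw [Real.dist_eq, sub_zero, abs_of_pos ht0]; exact lt_of_lt_of_le ht (min_le_left _ _)) ht0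
  rw [Real.dist_eq] at this
  exact this.le

/-- Moving the slope slightly. -/
theorem slope_shift (h : AHyp F κ C ρ) {ε δ x1 r w : ℝ} (hε : 0 < ε)
    (hx1 : 0 < x1) (hx1δ : x1 ≤ δ ^ 2) (_hδ : 0 < δ) (hx1C : (C + 1) * x1 ≤ ε)
    (hr : 0 < r) (hw : 0 ≤ w) (hwr : r ^ 2 * (1 + w) < ρ ^ 2)
    (heq : ∀ x' y', (r - x') ^ 2 + (r * √w - y') ^ 2 ≤ δ ^ 2 * (r ^ 2 + (r * √w) ^ 2) →
      |F r (r * √w) - F x' y'| ≤ ε) :
    |F r (r * √w) / (1 + w) - F r (r * √(w + x1)) / (1 + (w + x1))| ≤ 2 * ε := by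
  have hC := h.C_nonneg
  have hs : √w ^ 2 = w := Real.sq_sqrt hw
  have hs' : √(w + x1) ^ 2 = w + x1 := Real.sq_sqrt (by positivity)
  have hmono : √w ≤ √(w + x1) := Real.sqrt_le_sqrt (by linarith)
  have hdiff : (√(w + x1) - √w) ^ 2 ≤ x1 := by
    have : 0 ≤ √w := Real.sqrt_nonneg _
    nlinarith only [hs, hs', hmono, this]
  have h1 : |F r (r * √w) - F r (r * √(w + x1))| ≤ ε := by
    apply heq
    have : (r - r) ^ 2 + (r * √w - r * √(w + x1)) ^ 2 = r ^ 2 * (√(w + x1) - √w) ^ 2 := by ring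
    rw [this]
    have : δ ^ 2 * (r ^ 2 + (r * √w) ^ 2) = r ^ 2 * (δ ^ 2 * (1 + w)) := by
      rw [mul_pow, hs]; ring
    rw [this]
    apply mul_le_mul_of_nonneg_left _ (by positivity)
    calc (√(w + x1) - √w) ^ 2 ≤ x1 := hdiff
      _ ≤ δ ^ 2 := hx1δ
      _ ≤ δ ^ 2 * (1 + w) := by nlinarith only [hw]
  have hFC : |F r (r * √w)| ≤ C := by
    rw [abs_of_nonneg (h.nonneg _ _ (by (clear * - hr; positivity)) (by rw [mul_pow, hs]; linarith only [hwr]))]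
    exact h.bdd _ _ (by (clear * - hr; positivity)) (by rw [mul_pow, hs]; linarith only [hwr])
  have hp1 : 0 < 1 + w := by positivity
  have hp2 : 0 < 1 + (w + x1) := by positivity
  have hsplit : F r (r * √w) / (1 + w) - F r (r * √(w + x1)) / (1 + (w + x1))
      = (F r (r * √w) - F r (r * √(w + x1))) / (1 + (w + x1))
        + F r (r * √w) * (x1 / ((1 + w) * (1 + (w + x1)))) := by
    field_simp
    ring
  rw [hsplit]
  refine (abs_add_le _ _).trans ?_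
  have t1 : |(F r (r * √w) - F r (r * √(w + x1))) / (1 + (w + x1))| ≤ ε := by
    rw [abs_div, abs_of_pos hp2, div_le_iff₀ hp2]
    nlinarith only [h1, hε, hx1, hw]
  have t2 : |F r (r * √w) * (x1 / ((1 + w) * (1 + (w + x1))))| ≤ ε := by
    rw [abs_mul, abs_of_pos (by (clear * - hx1 hw; positivity) : 0 < x1 / ((1 + w) * (1 + (w + x1))))]
    have : x1 / ((1 + w) * (1 + (w + x1))) ≤ x1 := by
      apply div_le_self hx1.le
      nlinarith only [hx1, hw]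
    calc |F r (r * √w)| * (x1 / ((1 + w) * (1 + (w + x1)))) ≤ C * x1 :=
          mul_le_mul hFC this (by (clear * - hx1 hw; positivity)) hC
      _ ≤ (C + 1) * x1 := by nlinarith only [hx1]
      _ ≤ ε := hx1C
  linarith only [t1, t2]

/-- The five approximations. -/
theorem five (h : AHyp F κ C ρ) {q x ε : ℝ} (hq : 0 < q) (hε : 0 < ε)
    (hx : 0 ≤ x) :
    ∃ r0, 0 < r0 ∧ ∀ r, 0 < r → r < r0 →
    ∃ (n : ℕ) (nu z : Fin n → ℝ), (∀ i, 0 ≤ nu i) ∧ (∀ i, 0 < z i) ∧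
      |F r 0 - G nu z 0| ≤ ε ∧
      |F 0 (2 * r * √(1 / 3)) / (1 + 1 / 3) - G nu z (1 / 3)| ≤ ε ∧
      |F (2 * r) 0 / (1 + 3) - G nu z 3| ≤ ε ∧
      |F r (r * q) / (1 + q ^ 2) - G nu z (q ^ 2)| ≤ ε ∧
      |F r (r * √x) / (1 + x) - G nu z x| ≤ ε := by
  have hC := h.C_nonneg
  have hρ := h.rho_pos
  obtain ⟨δ, hδ, r1, hr1, heq⟩ := h.equi (ε / 4) (by positivity)
  set x1 : ℝ := min (δ ^ 2) (ε / (4 * (C + 1))) with hx1
  have hx1pos : 0 < x1 := by rw [hx1]; positivity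
  have hx1δ : x1 ≤ δ ^ 2 := min_le_left _ _
  have hx1C : (C + 1) * x1 ≤ ε / 4 := by
    have : x1 ≤ ε / (4 * (C + 1)) := min_le_right _ _
    calc (C + 1) * x1 ≤ (C + 1) * (ε / (4 * (C + 1))) :=
          mul_le_mul_of_nonneg_left this (by positivity)
      _ = ε / 4 := by field_simp
  obtain ⟨r2, hr2, hst⟩ := h.st {0 + x1, 1 / 3 + x1, 3 + x1, q ^ 2 + x1, x + x1} (by
    intro w hw
    simp only [Finset.mem_insert, Finset.mem_singleton] at hw
    rcases hw with rfl | rfl | rfl | rfl | rfl <;> positivity) (ε / 2) (by positivity)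
  set M : ℝ := 4 + q ^ 2 + x with hM
  have hMpos : 0 < M := by rw [hM]; positivity
  set r3 : ℝ := min r1 ρ / (1 + M) with hr3
  have hr3pos : 0 < r3 := by rw [hr3]; positivity
  refine ⟨min r2 r3, by positivity, ?_⟩
  intro r hr hrlt
  have hrr2 : r < r2 := lt_of_lt_of_le hrlt (min_le_left _ _)
  have hrr3 : r < r3 := lt_of_lt_of_le hrlt (min_le_right _ _)
  have hrM : r * (1 + M) < min r1 ρ := by
    rw [hr3, lt_div_iff₀ (by positivity)] at hrr3; exact hrr3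
  have hrM1 : r * (1 + M) < r1 := lt_of_lt_of_le hrM (min_le_left _ _)
  have hrMρ : r * (1 + M) < ρ := lt_of_lt_of_le hrM (min_le_right _ _)
  obtain ⟨n, nu, z, hnu, hz, hG⟩ := hst r hr hrr2
  have h2r : 2 * r < ρ := by nlinarith
  have key : ∀ w : ℝ, 0 ≤ w → w ≤ M →
      w + x1 ∈ ({0 + x1, 1 / 3 + x1, 3 + x1, q ^ 2 + x1, x + x1} : Finset ℝ) →
      |F r (r * √w) / (1 + w) - G nu (fun i => z i + x1) w| ≤ ε := by
    intro w hw hwM hmem
    have hs : √w ^ 2 = w := Real.sq_sqrt hw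
    have hbig : r ^ 2 * (1 + w) ≤ (r * (1 + M)) ^ 2 := by
      rw [mul_pow]
      apply mul_le_mul_of_nonneg_left _ (by positivity)
      nlinarith
    have h1 := h.slope_shift (ε := ε / 4) (x1 := x1) (δ := δ) (r := r) (w := w)
      (by positivity) hx1pos hx1δ hδ hx1C hr hw
      (lt_of_le_of_lt hbig (pow_lt_pow_left₀ hrMρ (by positivity) (by norm_num)))
      (fun x' y' hxy => heq r (r * √w) x' y' (by (clear * - hr; positivity)) (by
        have : r ^ 2 + (r * √w) ^ 2 = r ^ 2 * (1 + w) := by rw [mul_pow, hs]; ring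
        rw [this]
        exact lt_of_le_of_lt hbig (pow_lt_pow_left₀ hrM1 (by (clear * - hr hq hx; positivity)) (by norm_num))) hxy)
    have h2 := hG _ hmem
    have h3 : G nu (fun i => z i + x1) w = ∑ i, nu i / (z i + (w + x1)) := by
      unfold G
      refine Finset.sum_congr rfl fun i _ => ?_
      congr 1; ring
    rw [h3]
    calc |F r (r * √w) / (1 + w) - ∑ i, nu i / (z i + (w + x1))|
        = |(F r (r * √w) / (1 + w) - F r (r * √(w + x1)) / (1 + (w + x1)))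
            + (F r (r * √(w + x1)) / (1 + (w + x1)) - ∑ i, nu i / (z i + (w + x1)))| := by
          congr 1; ring
      _ ≤ _ := abs_add_le _ _
      _ ≤ ε := by linarith only [h1, h2]
  have k0 := key 0 le_rfl hMpos.le (by simp only [zero_add, one_div, Finset.mem_insert, right_eq_add, inv_eq_zero, OfNat.ofNat_ne_zero, ne_eq, not_false_eq_true, pow_eq_zero_iff, Finset.mem_singleton, false_or, true_or])
  have k13 := key (1 / 3) (by norm_num) (by rw [hM]; nlinarith only [hx]) (by simp only [zero_add, one_div, Finset.mem_insert, add_eq_right, inv_eq_zero, OfNat.ofNat_ne_zero, add_left_inj, Finset.mem_singleton, true_or, or_true])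
  have k3 := key 3 (by norm_num) (by rw [hM]; nlinarith only [hx]) (by simp only [zero_add, one_div, Finset.mem_insert, add_eq_right, OfNat.ofNat_ne_zero, add_left_inj, Finset.mem_singleton, true_or, or_true])
  have kq := key (q ^ 2) (by positivity) (by rw [hM]; linarith only [hx]) (by simp only [zero_add, one_div, Finset.mem_insert, add_eq_right, ne_eq, OfNat.ofNat_ne_zero, not_false_eq_true, pow_eq_zero_iff, add_left_inj, Finset.mem_singleton, true_or, or_true])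
  have kx := key x hx (by rw [hM]; nlinarith only []) (by simp only [zero_add, one_div, Finset.mem_insert, add_eq_right, add_left_inj, Finset.mem_singleton, or_true])
  rw [Real.sqrt_zero, mul_zero, add_zero, div_one] at k0
  rw [h.sym.rot30 hr h2r] at k13
  rw [h.sym.rot60 hr h2r] at k3
  rw [Real.sqrt_sq hq.le] at kq
  exact ⟨n, nu, fun i => z i + x1, hnu, fun i => by have := hz i; (clear * - this hδ hε hC; positivity), k0, k13, k3, kq, kx⟩

/-- **Main inequality.** -/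
theorem main_ineq (h : AHyp F κ C ρ) :
    ∃ B, 0 < B ∧ ∀ x, 0 ≤ x → x ≤ 1 / 3 → ∀ η, 0 < η → ∃ r0, 0 < r0 ∧ ∀ r, 0 < r → r < r0 →
      (F r (r * √x) - κ) ^ 2 ≤ B * (F r 0 - F (2 * r) 0) + η := by
  have hC := h.C_nonneg
  have hκ := h.kappa_nonneg
  have hρ := h.rho_pos
  set B0 : ℝ := κ + 7 / 3 * (C + 1) + 7 with hB0
  have hB0pos : 0 < B0 := by rw [hB0]; positivity
  refine ⟨4 * B0, by positivity, ?_⟩
  intro x hx hx3 η hη
  obtain ⟨ε, hε, hε1, hεη⟩ : ∃ ε : ℝ, 0 < ε ∧ ε ≤ 1 ∧ (44 * B0 + 200) * ε ≤ η := by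
    refine ⟨min 1 (η / (44 * B0 + 200)), by positivity, min_le_left _ _, ?_⟩
    have h1 : min 1 (η / (44 * B0 + 200)) ≤ η / (44 * B0 + 200) := min_le_right _ _
    calc (44 * B0 + 200) * min 1 (η / (44 * B0 + 200))
        ≤ (44 * B0 + 200) * (η / (44 * B0 + 200)) := mul_le_mul_of_nonneg_left h1 (by positivity)
      _ = η := by field_simp
  obtain ⟨d, hd, rd, hrd, hequi⟩ := h.equi ε hε
  obtain ⟨q, hq2, hqC, hqκ⟩ := choose_q (C := ε / d) (κ := κ) (by (clear * - hε hd; positivity)) hκ hε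
  have hq0 : 0 < q := by linarith only [hq2]
  have hqd : 1 ≤ d * q := by
    rw [div_div, div_le_iff₀ (by (clear * - hd hq2; positivity))] at hqC
    have : ε * 1 ≤ ε * (d * q) := by linarith only [hqC]
    exact le_of_mul_le_mul_left this hε
  obtain ⟨δ, hδ, hδρ, hax⟩ := h.axis' hε
  obtain ⟨r5, hr5, hfive⟩ := h.five (q := q) (x := x) (ε := ε / (5 * (1 + q ^ 2))) hq0
    (by positivity) hx
  set r0 : ℝ := min r5 (min (δ / (2 * q)) (rd / (2 * q))) with hr0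
  refine ⟨r0, by (clear * - hr5 hδ hq2 hrd; positivity), ?_⟩
  intro r hr hrr0
  have hr1 : r < r5 := lt_of_lt_of_le hrr0 (min_le_left _ _)
  have hr2 : r < δ / (2 * q) :=
    lt_of_lt_of_le hrr0 ((min_le_right _ _).trans (min_le_left _ _))
  have hr3 : r < rd / (2 * q) :=
    lt_of_lt_of_le hrr0 ((min_le_right _ _).trans (min_le_right _ _))
  have hrq : 2 * (r * q) < δ := by
    rw [lt_div_iff₀ (by positivity)] at hr2; linarith only [hr2]
  have hrqd : 2 * (r * q) < rd := by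
    rw [lt_div_iff₀ (by positivity)] at hr3; linarith only [hr3]
  have hrδ : 4 * r < δ := by nlinarith only [hrq, hq2, hr]
  obtain ⟨n, nu, z, hnu, hz, e0, e13, e3, eq0, ex⟩ := hfive r hr hr1
  have hεq : ε / (5 * (1 + q ^ 2)) ≤ ε / 5 := by
    apply div_le_div_of_nonneg_left hε.le (by norm_num)
    nlinarith only []
  have hεq' : (1 + q ^ 2) * (ε / (5 * (1 + q ^ 2))) ≤ ε := by
    have : (1 + q ^ 2) * (ε / (5 * (1 + q ^ 2))) = ε / 5 := by (clear * - hq2 hε; field_simp)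
    rw [this]; linarith only [hε]
  have hs13' : √(1 / 3 : ℝ) ≤ 1 := by rw [Real.sqrt_le_one]; norm_num
  have a13 : |F 0 (2 * r * √(1 / 3)) - κ| ≤ ε := by
    apply hax
    · positivity
    · nlinarith only [hrδ, hr, hs13']
  have aq : |F 0 (r * q) - κ| ≤ ε := by
    apply hax
    · positivity
    · linarith only [hr, hrq, hrδ]
  have lq : |F 0 (r * q) - F r (r * q)| ≤ ε := by
    apply hequi
    · (clear * - hr hq2; positivity)
    · have : 0 ^ 2 + (r * q) ^ 2 = (r * q) ^ 2 := by ring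
      rw [this]
      exact pow_lt_pow_left₀ (by linarith only [hrd, hrqd]) (by positivity) (by norm_num)
    · have e1 : (0 - r) ^ 2 + (r * q - r * q) ^ 2 = r ^ 2 * 1 := by ring
      have e2 : d ^ 2 * (0 ^ 2 + (r * q) ^ 2) = r ^ 2 * (d * q) ^ 2 := by ring
      rw [e1, e2]
      exact mul_le_mul_of_nonneg_left (one_le_pow₀ hqd) (by positivity)
  have kq : |F r (r * q) - κ| ≤ 2 * ε := by
    rw [abs_le] at lq aq ⊢
    constructor <;> linarith only [aq, lq]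
  have hFxC : F r 0 ≤ C := h.bdd r 0 (by (clear * - hr; positivity)) (by nlinarith only [hδρ, hr, hrδ, hrq])
  have := quad_est hnu hz hC hκ hε hε1 hq0 hqκ hx hx3 hFxC (e0.trans hεq) (e13.trans hεq)
    (e3.trans hεq) ((mul_le_mul_of_nonneg_left eq0 (by positivity)).trans hεq')
    (ex.trans hεq) a13 kq
  rw [← hB0] at this
  linarith only [hεη, this]

/-- The value on the ray `θ = 0`. -/
theorem ray (h : AHyp F κ C ρ) :
    ∀ ε, 0 < ε → ∃ r0, 0 < r0 ∧ ∀ r, 0 < r → r < r0 → |F r 0 - κ| ≤ ε := by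
  obtain ⟨B, hB, hmain⟩ := main_ineq h
  have hρ := h.rho_pos
  refine dyadic (a := fun r => F r 0) (B := B) (C := C) hB hρ ?_ ?_ ?_
  · intro r h1 h2
    exact h.nonneg r 0 (by positivity) (by nlinarith)
  · intro r h1 h2
    exact h.bdd r 0 (by positivity) (by nlinarith only [h2, h1])
  · intro η hη
    obtain ⟨r0, hr0, hr⟩ := hmain 0 le_rfl (by norm_num) η hη
    refine ⟨r0, hr0, fun r h1 h2 => ?_⟩
    have := hr r h1 h2
    simpa only [ge_iff_le, Real.sqrt_zero, mul_zero] using this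

/-- One direction in the sector. -/
theorem one_dir (h : AHyp F κ C ρ) {s : ℝ} (hs : 0 ≤ s) (hs3 : 3 * s ^ 2 ≤ 1) :
    ∀ ε, 0 < ε → ∃ r0, 0 < r0 ∧ ∀ r, 0 < r → r < r0 → |F r (r * s) - κ| ≤ ε := by
  obtain ⟨B, hB, hmain⟩ := main_ineq h
  intro ε hε
  obtain ⟨r1, hr1, h1⟩ := hmain (s ^ 2) (by positivity) (by linarith) (ε ^ 2 / 2) (by positivity)
  obtain ⟨r2, hr2, h2⟩ := ray h (ε ^ 2 / (4 * B)) (by positivity)
  refine ⟨min r1 (r2 / 2), by positivity, ?_⟩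
  intro r hr hlt
  have hx1 : r < r1 := lt_of_lt_of_le hlt (min_le_left _ _)
  have hx2 : r < r2 / 2 := lt_of_lt_of_le hlt (min_le_right _ _)
  have e1 := h2 r hr (by linarith only [hr, hx2])
  have e2 := h2 (2 * r) (by positivity) (by linarith only [hx2])
  have := h1 r hr hx1
  rw [Real.sqrt_sq hs] at this
  rw [abs_le] at e1 e2
  have h3 : B * (F r 0 - F (2 * r) 0) ≤ B * (ε ^ 2 / (2 * B)) := by
    apply mul_le_mul_of_nonneg_left _ hB.le
    have : ε ^ 2 / (2 * B) = 2 * (ε ^ 2 / (4 * B)) := by field_simp; ring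
    linarith only [e1, e2, this]
  have h4 : B * (ε ^ 2 / (2 * B)) = ε ^ 2 / 2 := by (clear * - hB hε; field_simp)
  have h5 : (F r (r * s) - κ) ^ 2 ≤ ε ^ 2 := by linarith only [this, h3, h4]
  exact abs_le_of_sq_le_sq h5 hε.le

/-- The sector `0 ≤ θ ≤ 30°`. -/
theorem sector (h : AHyp F κ C ρ) :
    ∀ ε, 0 < ε → ∃ r0, 0 < r0 ∧ ∀ x y, 0 < x → 0 ≤ y → 3 * y ^ 2 ≤ x ^ 2 → x < r0 →
      |F x y - κ| ≤ ε := by
  intro ε hε
  obtain ⟨d, hd, rd, hrd, hequi⟩ := h.equi (ε / 2) (by positivity)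
  obtain ⟨N, hN⟩ := exists_nat_gt (1 / d)
  have hNpos : (0:ℝ) < N := lt_trans (by positivity) hN
  have hdN : 1 / (N:ℝ) < d := by
    rw [div_lt_iff₀ hd] at hN
    rw [div_lt_iff₀ hNpos]; linarith
  -- uniform radius on the net
  have hnet : ∀ᶠ r in 𝓝[>] (0:ℝ), ∀ j ∈ Finset.range (N + 1), 3 * ((j:ℝ) / N) ^ 2 ≤ 1 →
      |F r (r * (j / N)) - κ| ≤ ε / 2 := by
    rw [Filter.eventually_all_finset]
    intro j _
    by_cases hj : 3 * ((j:ℝ) / N) ^ 2 ≤ 1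
    · obtain ⟨r0, hr0, hr⟩ := h.one_dir (s := (j:ℝ) / N) (by positivity) hj (ε / 2) (by positivity)
      filter_upwards [Ioo_mem_nhdsGT hr0] with r hr' _
      exact hr r hr'.1 hr'.2
    · exact Filter.Eventually.of_forall fun r h' => absurd h' hj
  rw [eventually_nhdsWithin_iff, Metric.eventually_nhds_iff] at hnet
  obtain ⟨r1, hr1, hnet⟩ := hnet
  refine ⟨min r1 (rd / 2), by positivity, ?_⟩
  intro x y hx hy hxy hlt
  have hx1 : x < r1 := lt_of_lt_of_le hlt (min_le_left _ _)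
  have hx2 : x < rd / 2 := lt_of_lt_of_le hlt (min_le_right _ _)
  have hyx : y ≤ x := by nlinarith only [hxy, hx]
  set s : ℝ := y / x with hs
  have hs0 : 0 ≤ s := by (clear * - hy hx; positivity)
  have hs1 : s ≤ 1 := by rw [hs, div_le_one hx]; exact hyx
  have hs3 : 3 * s ^ 2 ≤ 1 := by
    rw [hs, div_pow, ← mul_div_assoc, div_le_one (by positivity)]; exact hxy
  set j : ℕ := ⌊s * N⌋₊ with hj
  have hj1 : (j:ℝ) ≤ s * N := Nat.floor_le (by positivity)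
  have hj2 : s * N < j + 1 := Nat.lt_floor_add_one _
  have hjs : (j:ℝ) / N ≤ s := by rw [div_le_iff₀ hNpos]; exact hj1
  have hjs' : s - j / N ≤ 1 / N := by
    rw [sub_le_iff_le_add, ← add_div, le_div_iff₀ hNpos]; linarith only [hj2]
  have hjN : j ∈ Finset.range (N + 1) := by
    rw [Finset.mem_range]
    have : (j:ℝ) ≤ N := hj1.trans (by nlinarith only [hs1])
    have : j ≤ N := by exact_mod_cast this
    omega
  have hj0 : 0 ≤ (j:ℝ) / N := by (clear * - hNpos; positivity)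
  have h1 := hnet (y := x) (by rw [Real.dist_eq, sub_zero, abs_of_pos hx]; exact hx1) hx j hjN
    (by nlinarith only [hs3, hjs, hj0])
  have h2 : |F x (x * (j / N)) - F x y| ≤ ε / 2 := by
    apply hequi
    · (clear * - hx; positivity)
    · have : (x * (j / N)) ≤ x := by
        calc x * ((j:ℝ) / N) ≤ x * 1 := mul_le_mul_of_nonneg_left (hjs.trans hs1) hx.le
          _ = x := mul_one x
      have h0 : 0 ≤ x * ((j:ℝ) / N) := by (clear * - hx hNpos; positivity)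
      nlinarith only [hx2, this, h0]
    · have e1 : y = x * s := by rw [hs]; (clear * - hx; field_simp)
      have e2 : (x - x) ^ 2 + (x * ((j:ℝ) / N) - y) ^ 2 = x ^ 2 * (s - j / N) ^ 2 := by
        rw [e1]; ring
      rw [e2]
      have e3 : (s - (j:ℝ) / N) ^ 2 ≤ d ^ 2 := by
        apply pow_le_pow_left₀ (by linarith only [hjs])
        linarith only [hdN, hjs']
      have e4 : x ^ 2 * (s - (j:ℝ) / N) ^ 2 ≤ x ^ 2 * d ^ 2 :=
        mul_le_mul_of_nonneg_left e3 (by positivity)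
      nlinarith only [e4]
  rw [abs_le] at h1 h2 ⊢
  constructor <;> linarith only [h1, h2]

/-- **Isotropy**, asymptotic form. -/
theorem isotropy (h : AHyp F κ C ρ) :
    ∀ ε, 0 < ε → ∃ r0, 0 < r0 ∧ ∀ x y, 0 < x ^ 2 + y ^ 2 → x ^ 2 + y ^ 2 < r0 ^ 2 →
      |F x y - κ| ≤ ε := by
  intro ε hε
  obtain ⟨r1, hr1, hs⟩ := h.sector ε hε
  exact h.sym.of_sector h.rho_pos hr1 hs

end AHyp

end Vale.Agent.P153.Iso
end
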