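import Mathlib
import Vale.Agent.P153.Bd5.B9
import Vale.Agent.P153.Bd5.B8
import Vale.Agent.P153.Bd5.B15

set_option linter.all false

section

/-!
The setting for the identification of the limit, and limits along an ultrafilter.
-/

namespace Vale.Agent.P153.F.Top

open Filter Topology Set MeasureTheory
open Vale.Agent.P145.PT Vale.Agent.P153

/-- Limit along an ultrafilter. -/
noncomputable def lm (U : Ultrafilter ℕ) (x : ℕ → ℝ) : ℝ := limUnder (U : Filter ℕ) x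

theorem tend_lm {U : Ultrafilter ℕ} {x : ℕ → ℝ} {C : ℝ} (h : ∀ᶠ n in (U : Filter ℕ), |x n| ≤ C) :
    Tendsto x U (𝓝 (lm U x)) := by
  have h1 : (U.map x : Filter ℝ) ≤ 𝓟 (Icc (-C) C) := by
    rw [Ultrafilter.coe_map, le_principal_iff, mem_map]
    filter_upwards [h] with n hn
    exact abs_le.1 hn
  obtain ⟨y, -, hy'⟩ := isCompact_Icc.ultrafilter_le_nhds _ h1
  exact tendsto_nhds_limUnder ⟨y, hy'⟩

theorem lm_eq {U : Ultrafilter ℕ} {x : ℕ → ℝ} {y : ℝ} (h : Tendsto x U (𝓝 y)) : lm U x = y :=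
  h.limUnder_eq

/-- The setting. -/
structure Setup (κ : ℝ) (δ : ℕ → ℝ) (R : ℝ) (B : ℕ → Finset (ℤ × ℤ)) (f0 : ℝ × ℝ → ℝ)
    (μ : ℕ → Set (ℝ × ℝ) → Measure Om) : Prop where
  inp : Inputs κ δ
  Rpos : 0 < R
  pos : ∀ n D, Pos (μ n D)
  ee : ∀ n D (A : Om → ℝ), ∫ ω, A ω ∂(μ n D) = EE (δ n) D A
  mono : ∀ n D D', D ⊆ D' → D' ⊆ Metric.ball 0 R → ∀ v : List (ℤ × ℤ),
    ∫ ω, (v.map ω).prod ∂(μ n D) ≤ ∫ ω, (v.map ω).prod ∂(μ n D')
  mean : ∀ n D u, ∫ ω, ω u ∂(μ n D) = 0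
  f0t : TestOn (Metric.ball 0 (2 * R)) f0
  f00 : ∀ z, 0 ≤ f0 z
  f01 : ∀ z ∈ Metric.ball (0 : ℝ × ℝ) R, 1 ≤ f0 z
  hvB : ∀ n f, (∀ z, f z ≠ 0 → z ∈ Metric.ball (0 : ℝ × ℝ) (2 * R)) → ∀ ω,
    hv (δ n) f ω = hB (B n) (δ n) f ω

section

variable {κ : ℝ} {δ : ℕ → ℝ} {R : ℝ} {B : ℕ → Finset (ℤ × ℤ)} {f0 : ℝ × ℝ → ℝ}
  {μ : ℕ → Set (ℝ × ℝ) → Measure Om}

theorem Setup.supp (S : Setup κ δ R B f0 μ) {D : Set (ℝ × ℝ)} (hD : D ⊆ Metric.ball 0 R)
    {f : ℝ × ℝ → ℝ} (hf : TestOn D f) : ∀ z, f z ≠ 0 → z ∈ Metric.ball (0 : ℝ × ℝ) (2 * R) := by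
  intro z hz
  have h1 : z ∈ D := hf.2.2 (subset_tsupport _ hz)
  exact Metric.ball_subset_ball (by linarith [S.Rpos]) (hD h1)

theorem Setup.supp0 (S : Setup κ δ R B f0 μ) :
    ∀ z, f0 z ≠ 0 → z ∈ Metric.ball (0 : ℝ × ℝ) (2 * R) := fun _ hz =>
  S.f0t.2.2 (subset_tsupport _ hz)

theorem Setup.hvl_eq (S : Setup κ δ R B f0 μ) {D : Set (ℝ × ℝ)} (hD : D ⊆ Metric.ball 0 R)
    (n : ℕ) {l : List (ℝ × ℝ → ℝ)} (hl' : ∀ f ∈ l, TestOn D f) (ω : Om) :
    hvl (δ n) l ω = hl (B n) (δ n) l ω := by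
  unfold hvl hl
  congr 1
  exact List.map_congr_left fun f hf => S.hvB n f (S.supp hD (hl' f hf)) ω

/-- A test function is dominated by `f0`. -/
theorem Setup.le_f0 (S : Setup κ δ R B f0 μ) {D : Set (ℝ × ℝ)} (hD : D ⊆ Metric.ball 0 R)
    {f : ℝ × ℝ → ℝ} (hf : TestOn D f) : ∃ C : ℝ, 0 ≤ C ∧ ∀ z, |f z| ≤ C * f0 z := by
  obtain ⟨C, hC⟩ := hf.cs.exists_bound_of_continuous hf.cont
  have hC0 : 0 ≤ C := (norm_nonneg _).trans (hC 0)
  refine ⟨C, hC0, fun z => ?_⟩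
  by_cases hz : f z = 0
  · rw [hz, abs_zero]; exact mul_nonneg hC0 (S.f00 z)
  · have h1 : z ∈ D := hf.2.2 (subset_tsupport _ hz)
    have h2 := S.f01 z (hD h1)
    have h3 := hC z
    rw [Real.norm_eq_abs] at h3
    nlinarith

/-- Boundedness of the moments. -/
theorem Setup.bdd_pow (S : Setup κ δ R B f0 μ) {D : Set (ℝ × ℝ)} (hDo : IsOpen D)
    (hD : D ⊆ Metric.ball 0 R) {f : ℝ × ℝ → ℝ} (hf : HasCompactSupport f) (hfs : Sm f)
    (hf2 : ∀ z, f z ≠ 0 → z ∈ Metric.ball (0 : ℝ × ℝ) (2 * R)) (hf0 : ∀ z, 0 ≤ f z) (k : ℕ) :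
    ∃ C : ℝ, ∀ᶠ n in atTop, ∫ ω, hB (B n) (δ n) f ω ^ k ∂(μ n D) ≤ C := by
  obtain ⟨C, hC⟩ := S.inp.mb D hDo (Metric.isBounded_ball.subset hD) f
    ⟨hfs, hf, subset_univ _⟩ hf0 k
  refine ⟨C, ?_⟩
  filter_upwards [hC] with n hn
  rw [← S.ee n D (fun ω => hv (δ n) f ω ^ k)] at hn
  refine le_trans (le_of_eq ?_) hn
  congr 1
  funext ω
  rw [S.hvB n f hf2 ω]

/-- The `L²` bound for signed test functions. -/
theorem Setup.l2 (S : Setup κ δ R B f0 μ)
    (hdom : ∀ {D : Set (ℝ × ℝ)}, IsOpen D → Bornology.IsBounded D → ∀ {f : ℝ × ℝ → ℝ},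
      TestOn D f → ∀ {ε : ℝ}, 0 < ε → ∃ g : ℝ × ℝ → ℝ, TestOn D g ∧ (∀ z, |f z| ≤ g z) ∧
        ∫ z, g z ^ 2 ≤ (∫ z, f z ^ 2) + ε) :
    ∃ C : ℝ, 0 ≤ C ∧ ∀ D : Set (ℝ × ℝ), IsOpen D → D ⊆ Metric.ball 0 R →
      ∀ f : ℝ × ℝ → ℝ, TestOn D f → ∀ ε : ℝ, 0 < ε → ∀ᶠ n in atTop,
        ∫ ω, hB (B n) (δ n) f ω ^ 2 ∂(μ n D) ≤ C * (∫ z, f z ^ 2) + ε := by
  obtain ⟨C, hC0, hC⟩ := S.inp.l2 R S.Rpos
  refine ⟨C, hC0, fun D hDo hD f hf ε hε => ?_⟩
  obtain ⟨g, hg, hfg, hI⟩ := hdom hDo (Metric.isBounded_ball.subset hD) hf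
    (show 0 < ε / (2 * (C + 1)) by positivity)
  have hg0 : ∀ z, 0 ≤ g z := fun z => (abs_nonneg _).trans (hfg z)
  filter_upwards [hC D hDo hD g (hg.mono hD) hg0 (ε / 2) (by positivity)] with n hn
  rw [← S.ee n D (fun ω => hv (δ n) g ω ^ 2)] at hn
  have h1 : ∫ ω, hv (δ n) g ω ^ 2 ∂(μ n D) = ∫ ω, hB (B n) (δ n) g ω ^ 2 ∂(μ n D) := by
    congr 1; funext ω; rw [S.hvB n g (S.supp hD hg) ω]
  rw [h1] at hn
  have h2 := (S.pos n D).sq_le (B := B n) (δ := δ n) hfg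
  have h3 : C * (ε / (2 * (C + 1))) ≤ ε / 2 := by
    have : C * (ε / (2 * (C + 1))) = ε / 2 * (C / (C + 1)) := by field_simp
    rw [this]
    have : C / (C + 1) ≤ 1 := by rw [div_le_one (by linarith)]; linarith
    have h5 : 0 < ε / 2 := by positivity
    nlinarith
  have h4 := mul_le_mul_of_nonneg_left hI hC0
  rw [mul_add] at h4
  linarith

/-- A good parameter: the moments of `f0` vary little around it. -/
def Good (δ : ℕ → ℝ) (B : ℕ → Finset (ℤ × ℤ)) (f0 : ℝ × ℝ → ℝ)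
    (μ : ℕ → Set (ℝ × ℝ) → Measure Om) (a b : ℝ) (D : ℝ → Set (ℝ × ℝ)) (U : Ultrafilter ℕ)
    (s : ℝ) : Prop :=
  ∀ (K : ℕ) (ε : ℝ), 0 < ε → ∀ t ∈ Ioo a b, t < s → ∃ s₁ ∈ Ioo a b, ∃ s₂ ∈ Ioo a b,
    t < s₁ ∧ s₁ < s ∧ s < s₂ ∧ ∀ k ≤ K, ∀ᶠ n in (U : Filter ℕ),
      (∫ ω, hB (B n) (δ n) f0 ω ^ k ∂(μ n (D s₂))) - ∫ ω, hB (B n) (δ n) f0 ω ^ k ∂(μ n (D s₁)) ≤ ε

theorem Setup.exists_good (S : Setup κ δ R B f0 μ) {a b : ℝ} {D : ℝ → Set (ℝ × ℝ)}
    (hN : Nest a b D) (hR : ∀ s ∈ Ioo a b, D s ⊆ Metric.ball 0 R) {U : Ultrafilter ℕ}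
    (hU : (U : Filter ℕ) ≤ atTop) : ∃ s ∈ Ioo a b, Good δ B f0 μ a b D U s := by
  set m : ℕ → ℝ → ℝ := fun k s => lm U fun n => ∫ ω, hB (B n) (δ n) f0 ω ^ k ∂(μ n (D s)) with hm
  have ht : ∀ k, ∀ s ∈ Ioo a b,
      Tendsto (fun n => ∫ ω, hB (B n) (δ n) f0 ω ^ k ∂(μ n (D s))) U (𝓝 (m k s)) := by
    intro k s hs
    obtain ⟨C, hC⟩ := S.bdd_pow (hN.op s hs) (hR s hs) S.f0t.2.1 S.f0t.1 S.supp0 S.f00 k
    refine tend_lm (C := C) ?_
    filter_upwards [hU hC] with n hn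
    rw [abs_of_nonneg ((S.pos n _).pow_nonneg S.f00 k)]
    exact hn
  have hsub : ∀ s ∈ Ioo a b, ∀ t ∈ Ioo a b, s ≤ t → D s ⊆ D t := by
    intro s hs t ht' hst
    rcases hst.eq_or_lt with h | h
    · rw [h]
    · exact subset_closure.trans (hN.nest s hs t ht' h)
  have hmono : ∀ k, MonotoneOn (m k) (Ioo a b) := by
    intro k s hs t ht' hst
    refine le_of_tendsto_of_tendsto' (ht k s hs) (ht k t ht') fun n => ?_
    exact pow_mono' (S.pos n _).mom (S.pos n _).mom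
      (S.mono n _ _ (hsub s hs t ht' hst) (hR t ht')) S.f00 k
  have hcount : (⋃ k, {s ∈ Ioo a b | ¬ ContinuousWithinAt (m k) (Ioo a b) s}).Countable :=
    countable_iUnion fun k => (hmono k).countable_not_continuousWithinAt
  obtain ⟨s, hs, hs'⟩ : ∃ s ∈ Ioo a b,
      s ∉ ⋃ k, {s ∈ Ioo a b | ¬ ContinuousWithinAt (m k) (Ioo a b) s} := by
    by_contra hcon
    push Not at hcon
    exact absurd (Cardinal.Real.Ioo_countable_iff.1 (hcount.mono hcon)) (not_le.2 hN.lt)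
  have hc : ∀ k, ContinuousAt (m k) s := by
    intro k
    have h1 : ContinuousWithinAt (m k) (Ioo a b) s := by
      by_contra h
      exact hs' (mem_iUnion.2 ⟨k, hs, h⟩)
    exact h1.continuousAt (isOpen_Ioo.mem_nhds hs)
  refine ⟨s, hs, fun K ε hε t htab hts => ?_⟩
  have hev : ∀ᶠ u in 𝓝 s, ∀ k ∈ Finset.range (K + 1), |m k u - m k s| < ε / 4 := by
    rw [Filter.eventually_all_finset]
    intro k _
    have := Metric.tendsto_nhds.1 (hc k) (ε / 4) (by positivity)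
    simpa [Real.dist_eq] using this
  obtain ⟨r, hr, hball⟩ := Metric.eventually_nhds_iff.1 hev
  set s₁ : ℝ := max ((t + s) / 2) (s - r / 2) with hs1
  set s₂ : ℝ := min ((s + b) / 2) (s + r / 2) with hs2
  have e1 : t < s₁ := lt_of_lt_of_le (by linarith) (le_max_left _ _)
  have e2 : s₁ < s := max_lt (by linarith) (by linarith)
  have e3 : s < s₂ := lt_min (by linarith [hs.2]) (by linarith)
  have e4 : s₂ < b := lt_of_le_of_lt (min_le_left _ _) (by linarith [hs.2])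
  have h1 : s₁ ∈ Ioo a b := ⟨htab.1.trans e1, e2.trans hs.2⟩
  have h2 : s₂ ∈ Ioo a b := ⟨hs.1.trans e3, e4⟩
  refine ⟨s₁, h1, s₂, h2, e1, e2, e3, fun k hk => ?_⟩
  have d1 := hball (y := s₁) (by
    rw [Real.dist_eq, abs_lt]
    exact ⟨by linarith [le_max_right ((t + s) / 2) (s - r / 2)], by linarith⟩) k
    (Finset.mem_range.2 (by omega))
  have d2 := hball (y := s₂) (by
    rw [Real.dist_eq, abs_lt]
    exact ⟨by linarith, by linarith [min_le_right ((s + b) / 2) (s + r / 2)]⟩) k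
    (Finset.mem_range.2 (by omega))
  rw [abs_lt] at d1 d2
  have h3 := (ht k s₂ h2).sub (ht k s₁ h1)
  have h4 := h3.eventually (gt_mem_nhds (show m k s₂ - m k s₁ < ε by linarith [d1.1, d2.2]))
  filter_upwards [h4] with n hn using hn.le

end

end Vale.Agent.P153.F.Top
end

section

/-!
The Schwinger-Dyson equation in `D s` for a good parameter `s`, in a cell.
-/

namespace Vale.Agent.P153.F.Top

open Filter Topology Set MeasureTheory
open Vale.Agent.P145.PT Vale.Agent.P153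

section

variable {κ : ℝ} {δ : ℕ → ℝ} {R : ℝ} {B : ℕ → Finset (ℤ × ℤ)} {f0 : ℝ × ℝ → ℝ}
  {μ : ℕ → Set (ℝ × ℝ) → Measure Om}

theorem ccell_closed (a b c : ℝ) : IsClosed (ccell a b c) := by
  have h : ccell a b c = {z : ℝ × ℝ | a ≤ c1 z} ∩ {z | b ≤ c2 z} ∩ {z | c1 z + c2 z ≤ c} := by
    ext z
    simp only [ccell, mem_ofPred_eq, mem_inter_iff]
    tauto
  have k1 : Continuous c1 := by unfold c1; fun_prop
  have k2 : Continuous c2 := by unfold c2; fun_prop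
  rw [h]
  exact ((isClosed_le continuous_const k1).inter (isClosed_le continuous_const k2)).inter
    (isClosed_le (k1.add k2) continuous_const)

theorem cell_sub_ccell (a b c : ℝ) : cell a b c ⊆ ccell a b c :=
  fun _ h => ⟨h.1.le, h.2.1.le, h.2.2.le⟩

/-- The error in the Schwinger-Dyson equation. -/
noncomputable def sdE (κ : ℝ) (B : Finset (ℤ × ℤ)) (δ : ℝ) (μ : Measure Om) (ψ f : ℝ × ℝ → ℝ)
    (k : ℕ) : ℝ :=
  (∫ ω, hB B δ (lap ψ) ω * hB B δ f ω ^ (k + 1) ∂μ) +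
    κ * (k + 1) * (∫ z, ψ z * f z) * ∫ ω, hB B δ f ω ^ k ∂μ

/-- The comparison of two states on a list. -/
theorem close_of_sandwich {x e e₁ e₂ d η : ℝ} (h1 : e₁ ≤ x + η) (h2 : x ≤ e₂ + η) (h3 : e₁ ≤ e)
    (h4 : e ≤ e₂) (h5 : e₂ - e₁ ≤ d) (_ : 0 ≤ η) : |e - x| ≤ d + η := by
  rw [abs_le]
  constructor <;> linarith

theorem Setup.sd_cell (S : Setup κ δ R B f0 μ)
    (hpp : ∀ {D : Set (ℝ × ℝ)}, IsOpen D → Bornology.IsBounded D → ∀ {f : ℝ × ℝ → ℝ},
      TestOn D f → D ⊆ Metric.ball (0 : ℝ × ℝ) R → ∃ (p m : ℝ × ℝ → ℝ) (C : ℝ), 0 ≤ C ∧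
        TestOn D p ∧ TestOn D m ∧ (∀ z, 0 ≤ p z ∧ p z ≤ C * f0 z) ∧
        (∀ z, 0 ≤ m z ∧ m z ≤ C * f0 z) ∧ ∀ z, f z = p z - m z)
    {a b : ℝ} {D : ℝ → Set (ℝ × ℝ)}
    (hN : Nest a b D) (hR : ∀ s ∈ Ioo a b, D s ⊆ Metric.ball 0 R) {U : Ultrafilter ℕ}
    (hU : (U : Filter ℕ) ≤ atTop) {s : ℝ} (hs : s ∈ Ioo a b) (hG : Good δ B f0 μ a b D U s)
    {x y w : ℝ} (hxy : x + y < w) (hcc : ccell x y w ⊆ D s)
    {ψ f : ℝ × ℝ → ℝ} (hψ : TestOn (cell x y w) ψ) (hf : TestOn (D s) f)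
    (hf0 : ∀ z, 0 ≤ f z) (k : ℕ) {ε : ℝ} (hε : 0 < ε) :
    ∀ᶠ n in (U : Filter ℕ), |sdE κ (B n) (δ n) (μ n (D s)) ψ f k| ≤ ε := by
  have hsub : ∀ s ∈ Ioo a b, ∀ t ∈ Ioo a b, s ≤ t → D s ⊆ D t := by
    intro s hs t ht' hst
    rcases hst.eq_or_lt with h | h
    · rw [h]
    · exact subset_closure.trans (hN.nest s hs t ht' h)
  have hKc : IsCompact (ccell x y w ∪ tsupport f) :=
    (Metric.isCompact_of_isClosed_isBounded (ccell_closed _ _ _)
      ((hN.bdd s hs).subset hcc)).union hf.2.1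
  obtain ⟨t, ht, hts, hKt⟩ := hN.exh s hs _ (union_subset hcc hf.2.2) hKc
  have hcct : ccell x y w ⊆ D t := subset_union_left.trans hKt
  have hft : TestOn (D t) f := ⟨hf.1, hf.2.1, subset_union_right.trans hKt⟩
  have hψt : TestOn (D t) ψ := hψ.mono ((cell_sub_ccell _ _ _).trans hcct)
  obtain ⟨p, m, C₁, hC₁, hp, hm, hp', hm', hpm⟩ := hpp (hN.op t ht) (hN.bdd t ht) hψt.lap (hR t ht)
  obtain ⟨C₂, hC₂, hfC⟩ := S.le_f0 (hR t ht) hft
  set C : ℝ := C₁ + C₂ with hC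
  have hC0 : 0 ≤ C := by positivity
  have hpC : ∀ z, 0 ≤ p z ∧ p z ≤ C * f0 z := fun z =>
    ⟨(hp' z).1, (hp' z).2.trans (mul_le_mul_of_nonneg_right (by linarith) (S.f00 z))⟩
  have hmC : ∀ z, 0 ≤ m z ∧ m z ≤ C * f0 z := fun z =>
    ⟨(hm' z).1, (hm' z).2.trans (mul_le_mul_of_nonneg_right (by linarith) (S.f00 z))⟩
  have hfC' : ∀ z, 0 ≤ f z ∧ f z ≤ C * f0 z := fun z =>
    ⟨hf0 z, ((le_abs_self _).trans (hfC z)).trans
      (mul_le_mul_of_nonneg_right (by linarith) (S.f00 z))⟩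
  set lp : List (ℝ × ℝ → ℝ) := p :: List.replicate (k + 1) f with hlp
  set lq : List (ℝ × ℝ → ℝ) := m :: List.replicate (k + 1) f with hlq
  set lk : List (ℝ × ℝ → ℝ) := List.replicate k f with hlk
  set q : ℝ := κ * (k + 1) * ∫ z, ψ z * f z with hq
  have dlp : ∀ g ∈ lp, ∀ z, 0 ≤ g z ∧ g z ≤ C * f0 z := by
    intro g hg
    rw [hlp, List.mem_cons] at hg
    rcases hg with rfl | hg
    · exact hpC
    · rw [List.eq_of_mem_replicate hg]; exact hfC'
  have dlq : ∀ g ∈ lq, ∀ z, 0 ≤ g z ∧ g z ≤ C * f0 z := by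
    intro g hg
    rw [hlq, List.mem_cons] at hg
    rcases hg with rfl | hg
    · exact hmC
    · rw [List.eq_of_mem_replicate hg]; exact hfC'
  have dlk : ∀ g ∈ lk, ∀ z, 0 ≤ g z ∧ g z ≤ C * f0 z := by
    intro g hg
    rw [List.eq_of_mem_replicate hg]; exact hfC'
  have tlp : ∀ g ∈ lp, TestOn (D t) g := by
    intro g hg
    rw [hlp, List.mem_cons] at hg
    rcases hg with rfl | hg
    · exact hp
    · rw [List.eq_of_mem_replicate hg]; exact hft
  have tlq : ∀ g ∈ lq, TestOn (D t) g := by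
    intro g hg
    rw [hlq, List.mem_cons] at hg
    rcases hg with rfl | hg
    · exact hm
    · rw [List.eq_of_mem_replicate hg]; exact hft
  have tlk : ∀ g ∈ lk, TestOn (D t) g := by
    intro g hg
    rw [List.eq_of_mem_replicate hg]; exact hft
  have llp : lp.length = k + 2 := by rw [hlp]; simp
  have llq : lq.length = k + 2 := by rw [hlq]; simp
  have llk : lk.length = k := by rw [hlk]; simp
  -- choice of the parameters
  set Λ : ℝ := 2 * C ^ (k + 2) + |q| * C ^ k + 1 with hΛ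
  have hΛ0 : 0 < Λ := by positivity
  obtain ⟨s₁, h1, s₂, h2, e1, e2, e3, hdiff⟩ := hG (k + 2) (ε / (3 * Λ)) (by positivity) t ht hts
  have hts1 : D t ⊆ D s₁ := hsub t ht s₁ h1 e1.le
  set Θ : ℝ := 3 + |q| with hΘ
  have hΘ0 : 0 < Θ := by positivity
  obtain ⟨ν, hν, hsand, hsd⟩ := S.inp.xst (D s₁) (D s₂) (hN.op _ h1) (hN.op _ h2) (hN.bdd _ h2)
    (hN.nest s₁ h1 s₂ h2 (e2.trans e3)) x y w hxy (hcct.trans (hsub t ht s₁ h1 e1.le))
    ψ f k hψ (hft.mono hts1) hf0 [lp, lq, lk] (by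
      intro l hl' g hg
      simp only [List.mem_cons, List.not_mem_nil, or_false] at hl'
      rcases hl' with rfl | rfl | rfl
      · exact ⟨(tlp g hg).mono hts1, fun z => (dlp g hg z).1⟩
      · exact ⟨(tlq g hg).mono hts1, fun z => (dlq g hg z).1⟩
      · exact ⟨(tlk g hg).mono hts1, fun z => (dlk g hg z).1⟩)
    (ε / (3 * Θ)) (by positivity)
  have sp := hsand lp (by simp)
  have sq := hsand lq (by simp)
  have sk := hsand lk (by simp)
  filter_upwards [hU sp, hU sq, hU sk, hU hsd, hdiff (k + 2) le_rfl, hdiff k (by omega), hU hν]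
    with n hp1 hq1 hk1 hsd1 hd2 hdk hνn
  -- rewrite everything in terms of `hB`
  have eqX : ∀ l : List (ℝ × ℝ → ℝ), (∀ g ∈ l, TestOn (D t) g) →
      ∀ ρ : Measure Om, ∫ ω, hvl (δ n) l ω ∂ρ = ∫ ω, hl (B n) (δ n) l ω ∂ρ := by
    intro l hl' ρ
    congr 1
    funext ω
    exact S.hvl_eq (hR t ht) n hl' ω
  rw [← S.ee, ← S.ee, eqX lp tlp, eqX lp tlp, eqX lp tlp] at hp1
  rw [← S.ee, ← S.ee, eqX lq tlq, eqX lq tlq, eqX lq tlq] at hq1
  rw [← S.ee, ← S.ee, eqX lk tlk, eqX lk tlk, eqX lk tlk] at hk1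
  have mm : ∀ l : List (ℝ × ℝ → ℝ), (∀ g ∈ l, ∀ z, 0 ≤ g z) →
      ∫ ω, hl (B n) (δ n) l ω ∂(μ n (D s₁)) ≤ ∫ ω, hl (B n) (δ n) l ω ∂(μ n (D s)) ∧
      ∫ ω, hl (B n) (δ n) l ω ∂(μ n (D s)) ≤ ∫ ω, hl (B n) (δ n) l ω ∂(μ n (D s₂)) := fun l hl' =>
    ⟨hl_mono (S.pos _ _).mom (S.pos _ _).mom
      (S.mono n _ _ (hsub _ h1 _ hs e2.le) (hR _ hs)) l hl',
     hl_mono (S.pos _ _).mom (S.pos _ _).mom
      (S.mono n _ _ (hsub _ hs _ h2 e3.le) (hR _ h2)) l hl'⟩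
  have dd' : ∀ l : List (ℝ × ℝ → ℝ), (∀ g ∈ l, ∀ z, 0 ≤ g z ∧ g z ≤ C * f0 z) →
      (∫ ω, hl (B n) (δ n) l ω ∂(μ n (D s₂))) - ∫ ω, hl (B n) (δ n) l ω ∂(μ n (D s₁)) ≤
      C ^ l.length * ((∫ ω, hB (B n) (δ n) f0 ω ^ l.length ∂(μ n (D s₂))) -
        ∫ ω, hB (B n) (δ n) f0 ω ^ l.length ∂(μ n (D s₁))) := fun l hl' =>
    dom_diff (S.pos _ _).mom (S.pos _ _).mom
      (S.mono n _ _ (hsub _ h1 _ h2 (e2.trans e3).le) (hR _ h2)) S.f00 hC0 l hl'
  have cp := close_of_sandwich hp1.1 hp1.2 (mm lp fun g hg z => (dlp g hg z).1).1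
    (mm lp fun g hg z => (dlp g hg z).1).2 (dd' lp dlp) (by positivity)
  have cq := close_of_sandwich hq1.1 hq1.2 (mm lq fun g hg z => (dlq g hg z).1).1
    (mm lq fun g hg z => (dlq g hg z).1).2 (dd' lq dlq) (by positivity)
  have ck := close_of_sandwich hk1.1 hk1.2 (mm lk fun g hg z => (dlk g hg z).1).1
    (mm lk fun g hg z => (dlk g hg z).1).2 (dd' lk dlk) (by positivity)
  rw [llp] at cp
  rw [llq] at cq
  rw [llk] at ck
  -- the identities
  have hlapB : ∀ ω, hv (δ n) (lap ψ) ω = hB (B n) (δ n) (lap ψ) ω :=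
    S.hvB n _ (S.supp (hR t ht) hψt.lap)
  have hfB : ∀ ω, hv (δ n) f ω = hB (B n) (δ n) f ω := S.hvB n _ (S.supp (hR t ht) hft)
  have hlapω : ∀ ω, hB (B n) (δ n) (lap ψ) ω * hB (B n) (δ n) f ω ^ (k + 1) =
      hl (B n) (δ n) lp ω - hl (B n) (δ n) lq ω := by
    intro ω
    have e : lap ψ = fun z => p z - m z := funext hpm
    rw [e, hB_sub, hlp, hlq, hl_cons, hl_cons, hl_replicate]
    ring
  have idX : ∀ ρ : Measure Om, Mom ρ →
      (∫ ω, hB (B n) (δ n) (lap ψ) ω * hB (B n) (δ n) f ω ^ (k + 1) ∂ρ) +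
        κ * (k + 1) * (∫ z, ψ z * f z) * ∫ ω, hB (B n) (δ n) f ω ^ k ∂ρ =
      (∫ ω, hl (B n) (δ n) lp ω ∂ρ) - (∫ ω, hl (B n) (δ n) lq ω ∂ρ) +
        q * ∫ ω, hl (B n) (δ n) lk ω ∂ρ := by
    intro ρ hρ
    have e1 : ∫ ω, hB (B n) (δ n) (lap ψ) ω * hB (B n) (δ n) f ω ^ (k + 1) ∂ρ =
        (∫ ω, hl (B n) (δ n) lp ω ∂ρ) - ∫ ω, hl (B n) (δ n) lq ω ∂ρ := by
      rw [← integral_sub (hρ.integrable (alg_hl _)) (hρ.integrable (alg_hl _))]
      congr 1
      funext ω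
      exact hlapω ω
    have e2 : ∫ ω, hl (B n) (δ n) lk ω ∂ρ = ∫ ω, hB (B n) (δ n) f ω ^ k ∂ρ := by
      congr 1
      funext ω
      rw [hlk, hl_replicate]
    rw [e1, e2]
  have eG : ∫ ω, hv (δ n) (lap ψ) ω * hv (δ n) f ω ^ (k + 1) ∂(ν n) +
        κ * (k + 1) * (∫ z, ψ z * f z) * ∫ ω, hv (δ n) f ω ^ k ∂(ν n) =
      (∫ ω, hl (B n) (δ n) lp ω ∂(ν n)) - (∫ ω, hl (B n) (δ n) lq ω ∂(ν n)) +
        q * ∫ ω, hl (B n) (δ n) lk ω ∂(ν n) := by
    rw [← idX (ν n) hνn]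
    simp_rw [hlapB, hfB]
  rw [eG] at hsd1
  unfold sdE
  rw [idX _ (S.pos n _).mom]
  set P := ∫ ω, hl (B n) (δ n) lp ω ∂(μ n (D s)) with hP
  set Q := ∫ ω, hl (B n) (δ n) lq ω ∂(μ n (D s)) with hQ
  set K := ∫ ω, hl (B n) (δ n) lk ω ∂(μ n (D s)) with hK
  set P' := ∫ ω, hl (B n) (δ n) lp ω ∂(ν n) with hP'
  set Q' := ∫ ω, hl (B n) (δ n) lq ω ∂(ν n) with hQ'
  set K' := ∫ ω, hl (B n) (δ n) lk ω ∂(ν n) with hK'
  set ε₁ : ℝ := ε / (3 * Λ) with hε₁
  set η : ℝ := ε / (3 * Θ) with hη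
  have hε₁0 : 0 < ε₁ := by positivity
  have hη0 : 0 < η := by positivity
  have cp' : |P - P'| ≤ C ^ (k + 2) * ε₁ + η :=
    cp.trans (by
      have := mul_le_mul_of_nonneg_left hd2 (pow_nonneg hC0 (k + 2))
      linarith)
  have cq' : |Q - Q'| ≤ C ^ (k + 2) * ε₁ + η :=
    cq.trans (by
      have := mul_le_mul_of_nonneg_left hd2 (pow_nonneg hC0 (k + 2))
      linarith)
  have ck' : |K - K'| ≤ C ^ k * ε₁ + η :=
    ck.trans (by
      have := mul_le_mul_of_nonneg_left hdk (pow_nonneg hC0 k)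
      linarith)
  have tri : |P - Q + q * K| ≤ |P - P'| + |Q - Q'| + |q| * |K - K'| + |P' - Q' + q * K'| := by
    have e : P - Q + q * K = (P - P') - (Q - Q') + q * (K - K') + (P' - Q' + q * K') := by ring
    rw [e]
    refine (abs_add_le _ _).trans (add_le_add ?_ le_rfl)
    refine (abs_add_le _ _).trans (add_le_add ?_ (abs_mul _ _).le)
    exact abs_sub _ _
  refine tri.trans ?_
  have f1 := mul_le_mul_of_nonneg_left ck' (abs_nonneg q)
  have f2 : Λ * ε₁ = ε / 3 := by rw [hε₁]; field_simp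
  have f3 : Θ * η = ε / 3 := by rw [hη]; field_simp
  have f4 : Λ * ε₁ = 2 * (C ^ (k + 2) * ε₁) + |q| * (C ^ k * ε₁) + ε₁ := by rw [hΛ]; ring
  have f5 : Θ * η = η + η + |q| * η + η := by rw [hΘ]; ring
  have f6 : |q| * (C ^ k * ε₁ + η) = |q| * (C ^ k * ε₁) + |q| * η := by ring
  linarith

end

end Vale.Agent.P153.F.Top
end

section

/-!
The identification of the limit for a good parameter.
-/

namespace Vale.Agent.P153.F.Top

open Filter Topology Set MeasureTheory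
open Vale.Agent.P145.PT Vale.Agent.P153

theorem lap_zero' (z : ℝ × ℝ) : lap (fun _ => (0 : ℝ)) z = 0 := by
  have h : Sm (fun _ : ℝ × ℝ => (0 : ℝ)) := contDiff_const
  have := lap_smul h 0 z
  simpa using this

theorem lap_sum {ι : Type*} (s : Finset ι) (g : ι → ℝ × ℝ → ℝ) (hg : ∀ i ∈ s, Sm (g i))
    (z : ℝ × ℝ) : lap (fun z => ∑ i ∈ s, g i z) z = ∑ i ∈ s, lap (g i) z := by
  classical
  induction s using Finset.induction_on with
  | empty => simpa using lap_zero' z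
  | insert a s ha ih =>
    have e : (fun z => ∑ i ∈ insert a s, g i z) = fun z => g a z + ∑ i ∈ s, g i z := by
      funext z; rw [Finset.sum_insert ha]
    rw [e, Finset.sum_insert ha, lap_add (hg a (Finset.mem_insert_self _ _)) ?_,
      ih fun i hi => hg i (Finset.mem_insert_of_mem hi)]
    exact ContDiff.sum fun i hi => hg i (Finset.mem_insert_of_mem hi)

theorem hB_sum {B : Finset (ℤ × ℤ)} {δ : ℝ} {ι : Type*} (s : Finset ι) (g : ι → ℝ × ℝ → ℝ)
    (ω : Om) : hB B δ (fun z => ∑ i ∈ s, g i z) ω = ∑ i ∈ s, hB B δ (g i) ω := by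
  unfold hB
  rw [← Finset.mul_sum, Finset.sum_comm]
  congr 1
  refine Finset.sum_congr rfl fun v _ => ?_
  simp only [tl, Finset.mul_sum]

theorem sdE_sum {κ : ℝ} {B : Finset (ℤ × ℤ)} {δ : ℝ} {μ : Measure Om} (hμ : Mom μ)
    {D : Set (ℝ × ℝ)} {ι : Type*} (s : Finset ι) (g : ι → ℝ × ℝ → ℝ) (hg : ∀ i ∈ s, TestOn D (g i))
    {f : ℝ × ℝ → ℝ} (hf : Continuous f) (k : ℕ) :
    sdE κ B δ μ (fun z => ∑ i ∈ s, g i z) f k = ∑ i ∈ s, sdE κ B δ μ (g i) f k := by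
  unfold sdE
  have e1 : lap (fun z => ∑ i ∈ s, g i z) = fun z => ∑ i ∈ s, lap (g i) z :=
    funext fun z => lap_sum s g (fun i hi => (hg i hi).sm) z
  have e2 : ∫ ω, hB B δ (lap fun z => ∑ i ∈ s, g i z) ω * hB B δ f ω ^ (k + 1) ∂μ =
      ∑ i ∈ s, ∫ ω, hB B δ (lap (g i)) ω * hB B δ f ω ^ (k + 1) ∂μ := by
    rw [← integral_finsetSum _ fun i _ => hμ.integrable (Alg.mul alg_hB (alg_hB.pow (k + 1)))]
    congr 1
    funext ω
    rw [e1, hB_sum, Finset.sum_mul]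
  have e3 : ∫ z, (∑ i ∈ s, g i z) * f z = ∑ i ∈ s, ∫ z, g i z * f z := by
    rw [← integral_finsetSum _ fun i hi => (hg i hi).intMul hf]
    congr 1
    funext z
    rw [Finset.sum_mul]
  rw [e2, e3, Finset.sum_add_distrib, Finset.mul_sum, Finset.sum_mul]

theorem sq_limit {U : Ultrafilter ℕ} {x : ℕ → ℝ} {A a C : ℝ} (hC : 0 ≤ C)
    (hx : Tendsto x U (𝓝 A))
    (h : ∀ ε : ℝ, 0 < ε → ∀ᶠ n in (U : Filter ℕ), x n ^ 2 ≤ (a + ε) * C) : A ^ 2 ≤ a * C := by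
  refine le_of_forall_pos_le_add fun η hη => ?_
  have h1 := h (η / (C + 1)) (by positivity)
  have h2 : A ^ 2 ≤ (a + η / (C + 1)) * C := le_of_tendsto (hx.pow 2) h1
  have h3 : η / (C + 1) * C ≤ η := by
    rw [div_mul_eq_mul_div, div_le_iff₀ (by linarith)]
    nlinarith
  rw [add_mul] at h2
  linarith

section

variable {κ : ℝ} {δ : ℕ → ℝ} {R : ℝ} {B : ℕ → Finset (ℤ × ℤ)} {f0 : ℝ × ℝ → ℝ}
  {μ : ℕ → Set (ℝ × ℝ) → Measure Om}

/-- The facts about a fixed domain and a fixed ultrafilter which are used below. -/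
structure Fix (κ : ℝ) (δ : ℕ → ℝ) (B : ℕ → Finset (ℤ × ℤ)) (μ : ℕ → Measure Om)
    (D : Set (ℝ × ℝ)) (U : Ultrafilter ℕ) : Prop where
  κpos : 0 < κ
  op : IsOpen D
  bdd : Bornology.IsBounded D
  pos : ∀ n, Pos (μ n)
  mean : ∀ n u, ∫ ω, ω u ∂(μ n) = 0
  mb : ∀ f, TestOn D f → (∀ z, 0 ≤ f z) → ∀ k : ℕ, ∃ C : ℝ, ∀ᶠ n in (U : Filter ℕ),
    ∫ ω, hB (B n) (δ n) f ω ^ k ∂(μ n) ≤ C
  l2 : ∃ C : ℝ, 0 ≤ C ∧ ∀ f, TestOn D f → ∀ ε : ℝ, 0 < ε → ∀ᶠ n in (U : Filter ℕ),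
    ∫ ω, hB (B n) (δ n) f ω ^ 2 ∂(μ n) ≤ C * (∫ z, f z ^ 2) + ε
  dec : ∀ f, TestOn D f → (∀ z, 0 ≤ f z) → ∀ (k : ℕ) (ε : ℝ), 0 < ε → ∃ r : ℝ, 0 < r ∧
    ∀ x ∈ D, dd D x < r → ∀ᶠ n in (U : Filter ℕ),
      ∫ ω, hB (B n) (δ n) (bump (dd D x / 2) x) ω * hB (B n) (δ n) f ω ^ k ∂(μ n) ≤ ε
  sd : ∀ ψ f, TestOn D ψ → TestOn D f → (∀ z, 0 ≤ f z) → ∀ k : ℕ,
    Tendsto (fun n => sdE κ (B n) (δ n) (μ n) ψ f k) U (𝓝 0)

variable {ρ : ℕ → Measure Om} {D : Set (ℝ × ℝ)} {U : Ultrafilter ℕ}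

theorem Fix.tend_mixed (F : Fix κ δ B ρ D U) {g f : ℝ × ℝ → ℝ} (hg : TestOn D g)
    (hf : TestOn D f) (hf0 : ∀ z, 0 ≤ f z) (k : ℕ) :
    Tendsto (fun n => ∫ ω, hB (B n) (δ n) g ω * hB (B n) (δ n) f ω ^ k ∂(ρ n)) U
      (𝓝 (lm U fun n => ∫ ω, hB (B n) (δ n) g ω * hB (B n) (δ n) f ω ^ k ∂(ρ n))) := by
  obtain ⟨C₂, hC₂, h2⟩ := F.l2
  obtain ⟨C', hC'⟩ := F.mb f hf hf0 (2 * k)
  refine tend_lm (C := Real.sqrt ((C₂ * (∫ z, g z ^ 2) + 1) * C')) ?_
  filter_upwards [h2 g hg 1 one_pos, hC'] with n h3 h4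
  refine Real.abs_le_sqrt (((F.pos n).mixed_sq_le g f k).trans ?_)
  exact mul_le_mul h3 h4 ((F.pos n).pow_nonneg hf0 _)
    ((integral_nonneg fun ω => sq_nonneg _).trans h3)

theorem Fix.tend_pair (F : Fix κ δ B ρ D U) {g f : ℝ × ℝ → ℝ} (hg : TestOn D g)
    (hf : TestOn D f) :
    Tendsto (fun n => ∫ ω, hB (B n) (δ n) g ω * hB (B n) (δ n) f ω ∂(ρ n)) U
      (𝓝 (lm U fun n => ∫ ω, hB (B n) (δ n) g ω * hB (B n) (δ n) f ω ∂(ρ n))) := by
  obtain ⟨C₂, hC₂, h2⟩ := F.l2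
  refine tend_lm (C := Real.sqrt ((C₂ * (∫ z, g z ^ 2) + 1) * (C₂ * (∫ z, f z ^ 2) + 1))) ?_
  filter_upwards [h2 g hg 1 one_pos, h2 f hf 1 one_pos] with n h3 h4
  refine Real.abs_le_sqrt (((F.pos n).mom.cs alg_hB alg_hB).trans ?_)
  exact mul_le_mul h3 h4 (integral_nonneg fun ω => sq_nonneg _)
    ((integral_nonneg fun ω => sq_nonneg _).trans h3)

theorem Fix.tend_pow (F : Fix κ δ B ρ D U) {f : ℝ × ℝ → ℝ}
    (hf : TestOn D f) (hf0 : ∀ z, 0 ≤ f z) (k : ℕ) :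
    Tendsto (fun n => ∫ ω, hB (B n) (δ n) f ω ^ k ∂(ρ n)) U
      (𝓝 (lm U fun n => ∫ ω, hB (B n) (δ n) f ω ^ k ∂(ρ n))) := by
  obtain ⟨C', hC'⟩ := F.mb f hf hf0 k
  refine tend_lm (C := C') ?_
  filter_upwards [hC'] with n h4
  rw [abs_of_nonneg ((F.pos n).pow_nonneg hf0 _)]
  exact h4

theorem Fix.l2fn_mixed (F : Fix κ δ B ρ D U) {f : ℝ × ℝ → ℝ}
    (hf : TestOn D f) (hf0 : ∀ z, 0 ≤ f z) (k : ℕ) :
    ∃ C, L2Fn D (fun g => lm U fun n =>
      ∫ ω, hB (B n) (δ n) g ω * hB (B n) (δ n) f ω ^ k ∂(ρ n)) C := by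
  obtain ⟨C₂, hC₂, h2⟩ := F.l2
  obtain ⟨C', hC'⟩ := F.mb f hf hf0 (2 * k)
  have hC'' : ∀ᶠ n in (U : Filter ℕ), ∫ ω, hB (B n) (δ n) f ω ^ (2 * k) ∂(ρ n) ≤ max C' 0 := by
    filter_upwards [hC'] with n h using h.trans (le_max_left _ _)
  refine ⟨Real.sqrt (C₂ * max C' 0), ?_, ?_, ?_⟩
  · intro g g' hg hg'
    refine lm_eq ?_
    refine ((F.tend_mixed hg hf hf0 k).add (F.tend_mixed hg' hf hf0 k)).congr fun n => ?_
    rw [← integral_add ((F.pos n).mom.integrable (Alg.mul alg_hB (alg_hB.pow k)))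
      ((F.pos n).mom.integrable (Alg.mul alg_hB (alg_hB.pow k)))]
    congr 1
    funext ω
    rw [hB_add]; ring
  · intro a g hg
    refine lm_eq ?_
    refine ((F.tend_mixed hg hf hf0 k).const_mul a).congr fun n => ?_
    rw [← integral_const_mul]
    congr 1
    funext ω
    rw [hB_smul]; ring
  · intro g hg
    have h3 : (lm U fun n => ∫ ω, hB (B n) (δ n) g ω * hB (B n) (δ n) f ω ^ k ∂(ρ n)) ^ 2 ≤
        (C₂ * ∫ z, g z ^ 2) * max C' 0 := by
      refine sq_limit (le_max_right _ _) (F.tend_mixed hg hf hf0 k) fun ε hε => ?_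
      filter_upwards [h2 g hg ε hε, hC''] with n h3 h4
      refine ((F.pos n).mixed_sq_le g f k).trans ?_
      exact mul_le_mul h3 h4 ((F.pos n).pow_nonneg hf0 _)
        ((integral_nonneg fun ω => sq_nonneg _).trans h3)
    have h4 := Real.abs_le_sqrt h3
    rw [show C₂ * (∫ z, g z ^ 2) * max C' 0 = (C₂ * max C' 0) * ∫ z, g z ^ 2 by ring,
      Real.sqrt_mul (mul_nonneg hC₂ (le_max_right _ _))] at h4
    exact h4

theorem Fix.l2fn_pair (F : Fix κ δ B ρ D U) {f : ℝ × ℝ → ℝ} (hf : TestOn D f) :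
    ∃ C, L2Fn D (fun g => lm U fun n =>
      ∫ ω, hB (B n) (δ n) g ω * hB (B n) (δ n) f ω ∂(ρ n)) C := by
  obtain ⟨C₂, hC₂, h2⟩ := F.l2
  set C' : ℝ := C₂ * (∫ z, f z ^ 2) + 1 with hC'
  have hC'0 : 0 ≤ C' := by
    have : 0 ≤ ∫ z, f z ^ 2 := integral_nonneg fun z => sq_nonneg _
    positivity
  refine ⟨Real.sqrt (C₂ * C'), ?_, ?_, ?_⟩
  · intro g g' hg hg'
    refine lm_eq ?_
    refine ((F.tend_pair hg hf).add (F.tend_pair hg' hf)).congr fun n => ?_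
    rw [← integral_add ((F.pos n).mom.integrable (Alg.mul alg_hB alg_hB))
      ((F.pos n).mom.integrable (Alg.mul alg_hB alg_hB))]
    congr 1
    funext ω
    rw [hB_add]; ring
  · intro a g hg
    refine lm_eq ?_
    refine ((F.tend_pair hg hf).const_mul a).congr fun n => ?_
    rw [← integral_const_mul]
    congr 1
    funext ω
    rw [hB_smul]; ring
  · intro g hg
    have h3 : (lm U fun n => ∫ ω, hB (B n) (δ n) g ω * hB (B n) (δ n) f ω ∂(ρ n)) ^ 2 ≤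
        (C₂ * ∫ z, g z ^ 2) * C' := by
      refine sq_limit hC'0 (F.tend_pair hg hf) fun ε hε => ?_
      filter_upwards [h2 g hg ε hε, h2 f hf 1 one_pos] with n h3 h4
      refine ((F.pos n).mom.cs alg_hB alg_hB).trans ?_
      exact mul_le_mul h3 h4 (integral_nonneg fun ω => sq_nonneg _)
        ((integral_nonneg fun ω => sq_nonneg _).trans h3)
    have h4 := Real.abs_le_sqrt h3
    rw [show C₂ * (∫ z, g z ^ 2) * C' = (C₂ * C') * ∫ z, g z ^ 2 by ring,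
      Real.sqrt_mul (mul_nonneg hC₂ hC'0)] at h4
    exact h4

theorem Fix.sd_lim (F : Fix κ δ B ρ D U) {ψ f : ℝ × ℝ → ℝ} (hψ : TestOn D ψ)
    (hf : TestOn D f) (hf0 : ∀ z, 0 ≤ f z) (k : ℕ) :
    (lm U fun n => ∫ ω, hB (B n) (δ n) (lap ψ) ω * hB (B n) (δ n) f ω ^ (k + 1) ∂(ρ n)) =
      - (κ * (k + 1) * (∫ z, ψ z * f z) *
        lm U fun n => ∫ ω, hB (B n) (δ n) f ω ^ k ∂(ρ n)) := by
  have h1 := (F.tend_mixed hψ.lap hf hf0 (k + 1)).add
    ((F.tend_pow hf hf0 k).const_mul (κ * (k + 1) * ∫ z, ψ z * f z))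
  have h2 := tendsto_nhds_unique h1 (F.sd ψ f hψ hf hf0 k)
  linarith

theorem Fix.mass (F : Fix κ δ B ρ D U) (f : ℝ × ℝ → ℝ) :
    (lm U fun n => ∫ ω, hB (B n) (δ n) f ω ^ 0 ∂(ρ n)) = 1 := by
  refine lm_eq ?_
  have : (fun n => ∫ ω, hB (B n) (δ n) f ω ^ 0 ∂(ρ n)) = fun _ => (1 : ℝ) := by
    funext n
    have := (F.pos n).mom.prob
    simp
  rw [this]
  exact tendsto_const_nhds

theorem bump_test' {D : Set (ℝ × ℝ)} (hD : IsOpen D) (hb : Bornology.IsBounded D) {x : ℝ × ℝ}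
    (hx : x ∈ D) : TestOn D (bump (dd D x / 2) x) := by
  have h1 : 0 < dd D x := (dd_pos hD hb).2 hx
  exact bump_test (by linarith) (ball_sub (by linarith))

/-- The limit two-point function. -/
theorem Fix.cov (F : Fix κ δ B ρ D U) :
    Cov D κ fun g f => lm U fun n => ∫ ω, hB (B n) (δ n) g ω * hB (B n) (δ n) f ω ∂(ρ n) where
  symm := fun f g _ _ => by
    congr 1
    funext n
    congr 1
    funext ω
    ring
  pos := fun f hf => ge_of_tendsto' (F.tend_pair hf hf) fun n =>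
    integral_nonneg fun ω => mul_self_nonneg _
  bd := fun g hg => F.l2fn_pair hg
  sd := by
    intro ψ g hψ hg
    obtain ⟨p, m, hp, hm, hp0, hm0, hpm⟩ := exists_decomp F.op F.bdd hg
    have h1 := F.sd_lim hψ hp hp0 0
    have h2 := F.sd_lim hψ hm hm0 0
    rw [F.mass] at h1 h2
    have e : g = fun z => p z - m z := funext hpm
    have t1 := F.tend_mixed hψ.lap hp hp0 1
    have t2 := F.tend_mixed hψ.lap hm hm0 1
    simp only [zero_add] at h1 h2
    rw [h1] at t1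
    rw [h2] at t2
    have t3 := t1.sub t2
    have i1 : ∫ z, ψ z * g z = (∫ z, ψ z * p z) - ∫ z, ψ z * m z := by
      rw [← integral_sub (hψ.intMul hp.cont) (hψ.intMul hm.cont)]
      congr 1
      funext z
      rw [hpm]; ring
    refine lm_eq ?_
    have e2 : - (κ * ∫ z, ψ z * g z) =
        -(κ * ((0 : ℕ) + 1) * (∫ z, ψ z * p z) * 1) - -(κ * ((0 : ℕ) + 1) * (∫ z, ψ z * m z) * 1) := by
      rw [i1]; push_cast; ring
    rw [e2]
    refine t3.congr fun n => ?_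
    rw [← integral_sub ((F.pos n).mom.integrable (Alg.mul alg_hB (alg_hB.pow 1)))
      ((F.pos n).mom.integrable (Alg.mul alg_hB (alg_hB.pow 1)))]
    congr 1
    funext ω
    rw [e, hB_sub]; ring
  dec := by
    intro g hg hg0 ε hε
    obtain ⟨r, hr, h⟩ := F.dec g hg hg0 1 ε hε
    refine ⟨r, hr, fun x hx hxr => ?_⟩
    refine le_of_tendsto (F.tend_pair (bump_test' F.op F.bdd hx) hg) ?_
    filter_upwards [h x hx hxr] with n hn
    simpa using hn

/-- The moments are Gaussian in the limit. -/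
theorem Fix.gauss (F : Fix κ δ B ρ D U) {f : ℝ × ℝ → ℝ} (hf : TestOn D f) (hf0 : ∀ z, 0 ≤ f z)
    (k : ℕ) : Tendsto (fun n => ∫ ω, hB (B n) (δ n) f ω ^ k ∂(ρ n)) U (𝓝 (gm (κ * V D f) k)) := by
  have h := moments_gauss F.op F.bdd F.κpos hf F.cov
    (fun k g => lm U fun n => ∫ ω, hB (B n) (δ n) g ω * hB (B n) (δ n) f ω ^ k ∂(ρ n))
    (fun k => lm U fun n => ∫ ω, hB (B n) (δ n) f ω ^ k ∂(ρ n)) ?_ (F.mass f) ?_
    (fun k => F.l2fn_mixed hf hf0 k) ?_ ?_ ?_ k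
  · rw [← h]
    exact F.tend_pow hf hf0 k
  · simp only [pow_one]
  · intro n
    congr 1
    funext j
    congr 1
    funext ω
    rw [pow_succ, mul_comm]
  · intro ψ hψ
    refine lm_eq ?_
    have : (fun n => ∫ ω, hB (B n) (δ n) (lap ψ) ω * hB (B n) (δ n) f ω ^ 0 ∂(ρ n)) =
        fun _ => (0 : ℝ) := by
      funext n
      simp only [pow_zero, mul_one]
      unfold hB
      rw [integral_const_mul, integral_finsetSum _ fun v _ => ?_]
      · rw [Finset.sum_eq_zero fun v _ => ?_, mul_zero]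
        rw [integral_mul_const, F.mean n v, zero_mul]
      · have := (F.pos n).mom.int [v]
        simp only [List.map_cons, List.map_nil, List.prod_cons, List.prod_nil, mul_one] at this
        exact this.mul_const _
    rw [this]
    exact tendsto_const_nhds
  · intro n ψ hψ
    exact F.sd_lim hψ hf hf0 n
  · intro n ε hε
    obtain ⟨r, hr, h⟩ := F.dec f hf hf0 n ε hε
    refine ⟨r, hr, fun x hx hxr => ?_⟩
    have hb := bump_test' F.op F.bdd hx
    have t := F.tend_mixed hb hf hf0 n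
    have h0 : 0 ≤ lm U fun j => ∫ ω, hB (B j) (δ j) (bump (dd D x / 2) x) ω *
        hB (B j) (δ j) f ω ^ n ∂(ρ j) :=
      ge_of_tendsto' t fun j => (F.pos j).mom.nonneg (F.pos j).pos
        (Cone.hB (cone_pow hf0 n) (bump_nonneg _ _))
    rw [abs_of_nonneg h0]
    exact le_of_tendsto t (h x hx hxr)

end

end Vale.Agent.P153.F.Top
end

section

/-!
`Inputs` imply `S_key`, modulo three lemmas on test functions.
-/

namespace Vale.Agent.P153.F.Top

open Filter Topology Set MeasureTheory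
open Vale.Agent.P145.PT Vale.Agent.P153

/-- A test function is a finite sum of test functions in small cells. -/
def S_cells : Prop := ∀ {D : Set (ℝ × ℝ)}, IsOpen D → ∀ {ψ : ℝ × ℝ → ℝ}, TestOn D ψ →
  ∃ (m : ℕ) (g : Fin m → ℝ × ℝ → ℝ) (a b c : Fin m → ℝ),
    (∀ i, a i + b i < c i ∧ ccell (a i) (b i) (c i) ⊆ D ∧
      TestOn (cell (a i) (b i) (c i)) (g i)) ∧ ∀ z, ψ z = ∑ i, g i z

/-- A test function is dominated by a nonnegative one with almost the same `L²` norm. -/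
def S_dom : Prop := ∀ {D : Set (ℝ × ℝ)}, IsOpen D → Bornology.IsBounded D →
  ∀ {f : ℝ × ℝ → ℝ}, TestOn D f → ∀ {ε : ℝ}, 0 < ε → ∃ g : ℝ × ℝ → ℝ, TestOn D g ∧
    (∀ z, |f z| ≤ g z) ∧ ∫ z, g z ^ 2 ≤ (∫ z, f z ^ 2) + ε

/-- A nonnegative test function which is at least one on a ball. -/
def S_big : Prop := ∀ {R : ℝ}, 0 < R → ∃ f0 : ℝ × ℝ → ℝ,
  TestOn (Metric.ball (0 : ℝ × ℝ) (2 * R)) f0 ∧ (∀ z, 0 ≤ f0 z) ∧
    ∀ z ∈ Metric.ball (0 : ℝ × ℝ) R, 1 ≤ f0 z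

/-- Decomposition of a test function. -/
def S_pp : Prop := ∀ {D : Set (ℝ × ℝ)}, IsOpen D → Bornology.IsBounded D →
  ∀ {f : ℝ × ℝ → ℝ}, TestOn D f → ∀ {R : ℝ} {f0 : ℝ × ℝ → ℝ},
    D ⊆ Metric.ball (0 : ℝ × ℝ) R → (∀ z, 0 ≤ f0 z) →
    (∀ z ∈ Metric.ball (0 : ℝ × ℝ) R, 1 ≤ f0 z) → ∃ (p m : ℝ × ℝ → ℝ) (C : ℝ), 0 ≤ C ∧
      TestOn D p ∧ TestOn D m ∧ (∀ z, 0 ≤ p z ∧ p z ≤ C * f0 z) ∧
      (∀ z, 0 ≤ m z ∧ m z ≤ C * f0 z) ∧ ∀ z, f z = p z - m z

section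

variable {κ : ℝ} {δ : ℕ → ℝ} {R : ℝ} {B : ℕ → Finset (ℤ × ℤ)} {f0 : ℝ × ℝ → ℝ}
  {μ : ℕ → Set (ℝ × ℝ) → Measure Om}

theorem Setup.fix (S : Setup κ δ R B f0 μ) (hcells : S_cells) (hdom : S_dom) (hpp : S_pp)
    {a b : ℝ} {D : ℝ → Set (ℝ × ℝ)}
    (hN : Nest a b D) (hR : ∀ s ∈ Ioo a b, D s ⊆ Metric.ball 0 R) {U : Ultrafilter ℕ}
    (hU : (U : Filter ℕ) ≤ atTop) {s : ℝ} (hs : s ∈ Ioo a b) (hG : Good δ B f0 μ a b D U s) :
    Fix κ δ B (fun n => μ n (D s)) (D s) U where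
  κpos := S.inp.κpos
  op := hN.op s hs
  bdd := hN.bdd s hs
  pos := fun n => S.pos n _
  mean := fun n u => S.mean n _ u
  mb := by
    intro f hf hf0 k
    obtain ⟨C, hC⟩ := S.bdd_pow (hN.op s hs) (hR s hs) hf.cs hf.sm (S.supp (hR s hs) hf) hf0 k
    exact ⟨C, hU hC⟩
  l2 := by
    obtain ⟨C, hC0, hC⟩ := S.l2 hdom
    exact ⟨C, hC0, fun f hf ε hε => hU (hC (D s) (hN.op s hs) (hR s hs) f hf ε hε)⟩
  dec := by
    intro f hf hf0 k ε hε
    obtain ⟨r, hr, h⟩ := S.inp.dec (D s) (hN.op s hs) (hN.bdd s hs) (hN.thick s hs) f hf hf0 k ε hε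
    refine ⟨r, hr, fun x hx hxr => ?_⟩
    filter_upwards [hU (h x hx hxr)] with n hn
    rw [← S.ee n (D s) (fun ω => hv (δ n) (bump (dd (D s) x / 2) x) ω * hv (δ n) f ω ^ k)] at hn
    refine le_trans (le_of_eq ?_) hn
    congr 1
    funext ω
    rw [S.hvB n f (S.supp (hR s hs) hf) ω,
      S.hvB n _ (S.supp (hR s hs) (bump_test' (hN.op s hs) (hN.bdd s hs) hx)) ω]
  sd := by
    intro ψ f hψ hf hf0 k
    obtain ⟨m, g, x, y, w, hg, hsum⟩ := hcells (hN.op s hs) hψ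
    have e : ψ = fun z => ∑ i, g i z := funext hsum
    have h1 : ∀ i, Tendsto (fun n => sdE κ (B n) (δ n) (μ n (D s)) (g i) f k) U (𝓝 0) := by
      intro i
      obtain ⟨h1, h3, h4⟩ := hg i
      rw [Metric.tendsto_nhds]
      intro ε hε
      have := S.sd_cell (fun hD hb _ hf hR' => hpp hD hb hf hR' S.f00 S.f01) hN hR hU hs hG
        h1 h3 h4 hf hf0 k (half_pos hε)
      filter_upwards [this] with n hn
      rw [Real.dist_eq, sub_zero]
      linarith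
    have h2 : Tendsto (fun n => ∑ i, sdE κ (B n) (δ n) (μ n (D s)) (g i) f k) U
        (𝓝 (∑ _i : Fin m, (0 : ℝ))) := tendsto_finsetSum _ fun i _ => h1 i
    rw [Finset.sum_const_zero] at h2
    refine h2.congr fun n => ?_
    rw [e, sdE_sum (S.pos n _).mom Finset.univ g (D := D s) (fun i _ =>
      (hg i).2.2.mono ((cell_sub_ccell _ _ _).trans (hg i).2.1)) hf.cont k]

end

theorem exists_setup {κ : ℝ} {δ : ℕ → ℝ} (H : Inputs κ δ) (hbig : S_big) {R : ℝ}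
    (hR : 0 < R) : ∃ (B : ℕ → Finset (ℤ × ℤ)) (f0 : ℝ × ℝ → ℝ) (μ : ℕ → Set (ℝ × ℝ) → Measure Om),
      Setup κ δ R B f0 μ := by
  obtain ⟨f0, h1, h2, h3⟩ := hbig hR
  choose B hB' using fun n => hv_eq_hB (R := 2 * R) (H.δpos n)
  choose μ hμ hμ' using fun (n : ℕ) (D : Set (ℝ × ℝ)) => exists_meas (Vs (δ n) D)
  refine ⟨B, f0, μ, ?_⟩
  refine ⟨H, hR, fun n D => ⟨hμ n D, fun v => ?_⟩, fun n D A => hμ' n D A,
    fun n D D' hDD hD' v => ?_, fun n D u => ?_, h1, h2, h3, fun n f hf ω => hB' n f hf ω⟩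
  · rw [hμ']
    exact (H.mono _ _ (Finset.Subset.refl (Vs (δ n) D)) v).1
  · rw [hμ', hμ']
    exact (H.mono _ _ (Vs_mono (H.δpos n) hDD (Metric.isBounded_ball.subset hD')) v).2.1
  · rw [hμ']
    exact (H.mono _ _ (Finset.Subset.refl (Vs (δ n) D)) []).2.2 u

theorem key_of {κ : ℝ} {δ : ℕ → ℝ} (H : Inputs κ δ) (hcells : S_cells) (hdom : S_dom)
    (hbig : S_big) (hpp : S_pp) : S_key κ δ := by
  rintro a b D hN ⟨R, hR⟩ U hU
  set R' : ℝ := max R 1 with hR'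
  have hR'0 : 0 < R' := lt_of_lt_of_le one_pos (le_max_right _ _)
  have hRR : ∀ s ∈ Ioo a b, D s ⊆ Metric.ball 0 R' := fun s hs =>
    (hR s hs).trans (Metric.ball_subset_ball (le_max_left _ _))
  obtain ⟨B, f0, μ, S⟩ := exists_setup H hbig hR'0
  obtain ⟨s, hs, hG⟩ := S.exists_good hN hRR hU
  refine ⟨s, hs, fun f hf hf0 k => ?_⟩
  have F := S.fix hcells hdom hpp hN hRR hU hs hG
  refine (F.gauss hf hf0 k).congr fun n => ?_
  rw [← S.ee n (D s) (fun ω => hv (δ n) f ω ^ k)]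
  congr 1
  funext ω
  rw [S.hvB n f (S.supp (hRR s hs) hf) ω]

end Vale.Agent.P153.F.Top
end

section

/-!
P153-F, X-level (mirror of `P145.X.UpS`): the statement `S_up`, from the sandwich in the plane.
-/

namespace Vale.Agent.P153.F.X

open Filter Topology Set MeasureTheory
open Vale.Agent.P153
open Vale.Agent.P153.F.Top (Om Cone Pol ze vh)

namespace Up

/-- The edges with `|h| ≤ 1` at both ends. -/
def bq (h : Hg) : Set Pt := {w | ∃ x y, Adj x y ∧ w = x + y ∧ |h x| ≤ 1 ∧ |h y| ≤ 1}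

lemma adj_symm {x y : Pt} (h : Adj x y) : Adj y x := Fv.adj_comm'.1 h

/-- An edge is determined by its midpoint. -/
lemma adj_mid {x y x' y' : Pt} (h : Adj x y) (h' : Adj x' y') (e : x + y = x' + y') :
    (x' = x ∧ y' = y) ∨ (x' = y ∧ y' = x) := by
  obtain ⟨a, b⟩ := x
  obtain ⟨c, d⟩ := y
  obtain ⟨a', b'⟩ := x'
  obtain ⟨c', d'⟩ := y'
  rw [Fv.adj_iff] at h h'
  simp only [Prod.mk_add_mk, Prod.mk.injEq] at *
  rcases h with h | h | h | h | h | h <;> rcases h' with h' | h' | h' | h' | h' | h' <;> omega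

lemma abs_one_of_le {h : Hg} (hh : Lip h) {x : Pt} (hx : |h x| ≤ 1) : |h x| = 1 := by
  obtain ⟨k, hk⟩ := hh.1 x
  rw [abs_le] at hx
  rcases (by omega : h x = 1 ∨ h x = -1) with e | e <;> rw [e] <;> norm_num

lemma bq_eq {h : Hg} (hh : Lip h) : bq h = bl h := by
  ext w
  constructor
  · rintro ⟨x, y, h1, h2, h3, h4⟩
    exact ⟨x, y, h1, h2, abs_one_of_le hh h3, abs_one_of_le hh h4⟩
  · rintro ⟨x, y, h1, h2, h3, h4⟩
    exact ⟨x, y, h1, h2, h3.le, h4.le⟩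

/-- The possible ends of an edge with midpoint `w`. -/
def nb (w : Pt) : Finset Pt :=
  ({(1, 0), (-1, 0), (0, 1), (0, -1), (1, -1), (-1, 1)} : Finset Pt).image
    fun d => ((w.1 - d.1) / 2, (w.2 - d.2) / 2)

lemma mem_nb {x y : Pt} (h : Adj x y) : x ∈ nb (x + y) := by
  unfold nb
  rw [Finset.mem_image]
  refine ⟨(y.1 - x.1, y.2 - x.2), ?_, ?_⟩
  · rw [Fv.adj_iff] at h
    simp only [Finset.mem_insert, Finset.mem_singleton, Prod.mk.injEq]
    rcases h with h | h | h | h | h | h <;> omega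
  · refine Prod.ext ?_ ?_
    · simp only [Prod.fst_add]
      omega
    · simp only [Prod.snd_add]
      omega

lemma mem_nb' {x y : Pt} (h : Adj x y) : y ∈ nb (x + y) := by
  rw [add_comm]
  exact mem_nb (adj_symm h)

lemma bq_congr {h h' : Hg} {w : Pt} (H : ∀ x y, Adj x y → w = x + y → |h x| = |h' x|) :
    w ∈ bq h ↔ w ∈ bq h' := by
  constructor
  · rintro ⟨x, y, h1, h2, h3, h4⟩
    refine ⟨x, y, h1, h2, ?_, ?_⟩
    · rw [← H x y h1 h2]; exact h3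
    · rw [← H y x (adj_symm h1) (by rw [h2, add_comm])]; exact h4
  · rintro ⟨x, y, h1, h2, h3, h4⟩
    refine ⟨x, y, h1, h2, ?_, ?_⟩
    · rw [H x y h1 h2]; exact h3
    · rw [H y x (adj_symm h1) (by rw [h2, add_comm])]; exact h4

/-- The heights in `F`. -/
noncomputable def rs (F : Finset Pt) (ω : Om) : Om := fun v => if v ∈ F then ω v else 0

/-- The coefficients of a monomial. -/
noncomputable def ph (v : List Pt) : Fin v.length → Pt → ℝ := fun i x => if x = v[i.1] then 1 else 0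

lemma pl_ph (F : Finset Pt) (v : List Pt) (h : Hg) :
    pl F (ph v) h = (v.map (rs F (vm h))).prod := by
  rw [← Fin.prod_univ_fun_getElem v (rs F (vm h))]
  unfold pl
  refine Finset.prod_congr rfl fun i _ => ?_
  unfold ph rs vm
  simp only [ite_mul, one_mul, zero_mul]
  rw [Finset.sum_ite_eq']

lemma rs_vh {F F' : Finset Pt} (hF : F ⊆ F') (h : Hg) : rs F (vh F' h) = rs F (vm h) := by
  funext v
  unfold rs vh vm
  by_cases hv : v ∈ F
  · rw [if_pos hv, if_pos hv, if_pos (hF hv)]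
  · rw [if_neg hv, if_neg hv]

lemma ze_add (I : Finset Pt) (A B : Om → ℝ) : ze I (fun ω => A ω + B ω) = ze I A + ze I B := by
  rw [Top.ze_eq, Top.ze_eq, Top.ze_eq, Finset.sum_add_distrib, add_div]

lemma ze_smul (I : Finset Pt) (c : ℝ) (A : Om → ℝ) : ze I (fun ω => c * A ω) = c * ze I A := by
  rw [Top.ze_eq, Top.ze_eq, ← Finset.mul_sum, mul_div_assoc]

/-- The moments with closed boundary vertices are at most the moments with inner vertices `F'`. -/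
lemma mo_le {F F' : Finset Pt} (hF : F ⊆ F') (v : List Pt) :
    Mo F' F (ph v) ≤ ze F' (fun ω => (v.map (rs F ω)).prod) := by
  have hsub : F' ⊆ clo F' := sub_clo F'
  have hφ : ∀ i, ∀ x ∈ F, 0 ≤ ph v i x := by
    intro i x _
    unfold ph
    split_ifs <;> norm_num
  have e : ze F' (fun ω => (v.map (rs F ω)).prod) = ev (FreeF F' (clo F')) (pl F (ph v)) := by
    unfold ze
    congr 1
    funext h
    show (v.map (rs F (vh F' h))).prod = pl F (ph v) h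
    rw [rs_vh hF, pl_ph]
  rw [e, ← Mo_window hsub hF]
  have h1 := master (D' := innF F') (D := F') (U := clo F') (I := F) (φ := ph v) (innF_subset F')
    (fun x hx => hsub hx) (fun _ => 1) (fun _ => 1) (fun _ => zero_le_one)
    (fun _ => zero_le_one) (fun _ _ _ _ => le_rfl) hφ
  simp only [one_mul, Finset.sum_const, nsmul_eq_mul, mul_one] at h1
  have c1 : (0 : ℝ) < ((FreeF (innF F') (clo F')).card : ℝ) := by
    exact_mod_cast (nonempty_free _ _).card_pos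
  have c2 : (0 : ℝ) < ((FreeF F' (clo F')).card : ℝ) := by
    exact_mod_cast (nonempty_free _ _).card_pos
  unfold ev
  rw [div_le_div_iff₀ c1 c2]
  linarith

section
variable {P : Measure (Pt → ℤ)} {F F' : Finset Pt} {g : Set Pt → ℝ}

lemma wt (hg : Fn (tE (F : Set Pt))ᶜ g) (hgm : Monotone g) (O : Set Pt) :
    Wt O F (fun h => g (bq h)) := by
  obtain ⟨Λ, hΛ, hloc⟩ := hg.loc
  refine ⟨fun h => hg.nonneg _, fun h h' _ hab => hloc _ _ fun w hw => bq_congr ?_,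
    fun h h' _ hab => hgm ?_⟩
  · rintro x y hxy rfl
    refine hab x fun hx => hΛ _ hw ?_
    exact ⟨x, hx, y, hxy, rfl⟩
  · rintro w ⟨x, y, h1, h2, h3, h4⟩
    exact ⟨x, y, h1, h2, (hab x).trans h3, (hab y).trans h4⟩

lemma av (hgZ : ∀ B, g B ≠ 0 → Conf B (F' : Set Pt)ᶜ (F : Set Pt)ᶜ) (h : Hg) (hh : Lip h)
    (hX : g (bq h) ≠ 0) : h ∈ Av ((F' : Set Pt)ᶜ) F := by
  rintro x hx ⟨a, ha, hp⟩
  rw [bq_eq hh] at hX
  refine hgZ _ hX a ha x ?_ hx
  refine Relation.ReflTransGen.mono (r := Op h) ?_ _ _ hp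
  refine fun u w huw => ⟨huw.1, ?_⟩
  rintro ⟨u', w', h1, h2, h3, h4⟩
  apply huw.2
  rcases adj_mid huw.1 h1 h2 with ⟨e1, e2⟩ | ⟨e1, e2⟩
  · rw [← e1, ← e2]; exact ⟨h3, h4⟩
  · rw [← e1, ← e2]; exact ⟨h4, h3⟩

lemma core (hP : GFF.Plane P) (hF : F ⊆ F') (hg : Fn (tE (F : Set Pt))ᶜ g) (hgm : Monotone g)
    (hgZ : ∀ B, g B ≠ 0 → Conf B (F' : Set Pt)ᶜ (F : Set Pt)ᶜ)
    (hi : Integrable (fun h => g (bq h)) (muT P)) {A : Om → ℝ} (hA : Cone A) :
    Integrable (fun h => g (bq h) * A (rs F (vm h))) (muT P) ∧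
    ∫ h, g (bq h) * A (rs F (vm h)) ∂(muT P) ≤
      ze F' (fun ω => A (rs F ω)) * ∫ h, g (bq h) ∂(muT P) := by
  have hI0 : 0 ≤ ∫ h, g (bq h) ∂(muT P) := integral_nonneg fun h => hg.nonneg _
  induction hA with
  | mon v =>
    have hφ : ∀ i, ∀ x ∈ F, 0 ≤ ph v i x := by
      intro i x _
      unfold ph
      split_ifs <;> norm_num
    have hloc : ∃ B : Finset Pt, ∀ h h' : Hg, (∀ x ∈ B, h x = h' x) → g (bq h) = g (bq h') := by
      obtain ⟨Λ, _, hl⟩ := hg.loc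
      refine ⟨Λ.biUnion nb, fun h h' hh => hl _ _ fun w hw => bq_congr ?_⟩
      rintro x y hxy rfl
      rw [hh x (Finset.mem_biUnion.2 ⟨_, hw, mem_nb hxy⟩)]
    have h1 := plane_sandwich (gb_of_plane hP) (S := F') (S' := F) (I := F) (φ := ph v)
      (X := fun h => g (bq h)) (Finset.Subset.refl F) (wt hg hgm _) hloc (av hgZ) hi hφ
    have h2 := integrable_mul_pl (gb_of_plane hP) (S := F') (S' := F) (I := F) (φ := ph v)
      (X := fun h => g (bq h)) (Finset.Subset.refl F) (av hgZ) hi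
    simp only [pl_ph] at h1 h2
    exact ⟨h2, h1.2.trans (mul_le_mul_of_nonneg_right (mo_le hF v) hI0)⟩
  | zero =>
    have e : ze F' (fun _ => (0 : ℝ)) = 0 := by
      rw [Top.ze_eq, Finset.sum_const_zero, zero_div]
    simp only [mul_zero, integral_zero]
    rw [e, zero_mul]
    exact ⟨integrable_zero _ _ _, le_rfl⟩
  | @add f₁ f₂ _ _ h1 h2 =>
    obtain ⟨i1, l1⟩ := h1
    obtain ⟨i2, l2⟩ := h2
    simp only [mul_add]
    refine ⟨i1.add i2, ?_⟩
    rw [integral_add i1 i2, ze_add F' (fun ω => f₁ (rs F ω)) (fun ω => f₂ (rs F ω)), add_mul]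
    exact add_le_add l1 l2
  | @smul f₁ c hc _ h1 =>
    obtain ⟨i1, l1⟩ := h1
    have e : (fun h : Hg => g (bq h) * (c * f₁ (rs F (vm h)))) =
        fun h => c * (g (bq h) * f₁ (rs F (vm h))) := by
      funext h; ring
    rw [e]
    refine ⟨i1.const_mul c, ?_⟩
    rw [integral_const_mul, ze_smul F' c (fun ω => f₁ (rs F ω)), mul_assoc]
    exact mul_le_mul_of_nonneg_left l1 hc

end

end Up

/-- **UP.** -/
theorem s_up {P : Measure (Pt → ℤ)} (hP : GFF.Plane P) (hint : S_int P) : S_up P := by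
  intro F F' g A hF hg hgm hgZ hA hAF
  have hlip := (gb_of_plane hP).lip
  have hA1 : ∀ ω, A (Up.rs F ω) = A ω := fun ω => hAF _ _ fun v hv => by
    unfold Up.rs
    rw [if_pos (by exact_mod_cast hv)]
  have i0 : Integrable (fun h => g (Up.bq h)) (muT P) := by
    obtain ⟨Λ, _, hl⟩ := hg.loc
    have := hint g (fun _ => 1) ⟨Λ, fun w _ => mem_univ w, hl⟩ hg.pin Pol.one
    simp only [mul_one] at this
    refine this.congr ?_
    filter_upwards [hlip] with h hh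
    rw [Up.bq_eq hh]
  have key := (Up.core hP hF hg hgm hgZ i0 hA).2
  simp only [hA1] at key
  have e1 : II P g A = ∫ h, g (Up.bq h) * A (vm h) ∂(muT P) := by
    unfold II
    refine integral_congr_ae ?_
    filter_upwards [hlip] with h hh
    rw [Up.bq_eq hh]
  have e2 : II P g (fun _ => 1) = ∫ h, g (Up.bq h) ∂(muT P) := by
    unfold II
    refine integral_congr_ae ?_
    filter_upwards [hlip] with h hh
    rw [Up.bq_eq hh, mul_one]
  rw [e1, e2]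
  exact key

end Vale.Agent.P153.F.X
end

section

/-!
# P153, block F: exploration on a finite graph

Comparison of a decreasing function of the modulus which confines the clusters of `O` with a
function which depends on the modulus near `O`.
-/

namespace Vale.Agent.P153.F.Gh

open Finset Relation Vale.Agent.P153
open scoped Classical

namespace Gph

variable {W : Type*} (N : Gph W) {M : ℤ}

/-- Open step. -/
def op (a : W → ℤ) (u v : W) : Prop := N.R u v ∧ ¬ (a u ≤ 1 ∧ a v ≤ 1)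

/-- The union of the clusters which meet `O`. -/
def cl (O : Set W) (a : W → ℤ) : Set W := {v | ∃ u ∈ O, ReflTransGen (N.op a) u v}

/-- Sites off `κ` which are not neighbours of `κ`. -/
def inn (κ : Set W) : Set W := {v | v ∉ κ ∧ ∀ u, N.R v u → u ∉ κ}

theorem subset_cl (O : Set W) (a : W → ℤ) : O ⊆ N.cl O a := fun u hu => ⟨u, hu, ReflTransGen.refl⟩

theorem inn_anti {κ κ' : Set W} (h : κ ⊆ κ') : N.inn κ' ⊆ N.inn κ :=
  fun _ hv => ⟨fun h' => hv.1 (h h'), fun u hu h' => hv.2 u hu (h h')⟩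

theorem cross {O : Set W} {a : W → ℤ} {u v : W} (hu : u ∈ N.cl O a) (hv : v ∉ N.cl O a)
    (h : N.R u v) : a u ≤ 1 ∧ a v ≤ 1 := by
  by_contra hc
  obtain ⟨x, hx, hxu⟩ := hu
  exact hv ⟨x, hx, hxu.tail ⟨h, hc⟩⟩

theorem cl_congr {O : Set W} {a a' : W → ℤ} (h : ∀ v, v ∉ N.inn (N.cl O a) → a v = a' v) :
    N.cl O a' = N.cl O a := by
  have hin : ∀ v ∈ N.cl O a, a v = a' v := fun v hv => h v fun h' => h'.1 hv
  ext v
  constructor
  · rintro ⟨x, hx, hxv⟩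
    induction hxv with
    | refl => exact N.subset_cl O a hx
    | @tail p q _ hpq ih =>
      by_contra hq
      have h1 := N.cross ih hq hpq.1
      have h2 : q ∉ N.inn (N.cl O a) := fun h' => h'.2 p (N.symm hpq.1) ih
      refine hpq.2 ?_
      rw [← hin p ih, ← h q h2]
      exact h1
  · rintro ⟨x, hx, hxv⟩
    have key : ∀ v, ReflTransGen (N.op a) x v → ReflTransGen (N.op a') x v ∧ v ∈ N.cl O a := by
      intro v hv
      induction hv with
      | refl => exact ⟨ReflTransGen.refl, N.subset_cl O a hx⟩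
      | @tail p q hxp hpq ih =>
        obtain ⟨i1, i2⟩ := ih
        have hq : q ∈ N.cl O a := ⟨x, hx, hxp.tail hpq⟩
        refine ⟨i1.tail ⟨hpq.1, ?_⟩, hq⟩
        rw [← hin p i2, ← hin q hq]
        exact hpq.2
    exact ⟨x, hx, (key v hxv).1⟩

/-- `H` on `κ`, `z` off `κ`. -/
noncomputable def mix (κ : Set W) (H z : W → ℤ) : W → ℤ := fun v => if v ∈ κ then H v else z v

theorem mix_in {κ : Set W} {H z : W → ℤ} {v : W} (h : v ∈ κ) : mix κ H z v = H v := if_pos h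

theorem mix_out {κ : Set W} {H z : W → ℤ} {v : W} (h : v ∉ κ) : mix κ H z v = z v := if_neg h

theorem mix_mix (κ : Set W) (H z : W → ℤ) : mix κ (mix κ H z) (mix κ z H) = H := by
  funext v
  by_cases h : v ∈ κ
  · rw [mix_in h, mix_in h]
  · rw [mix_out h, mix_out h]

/-- A class of moduli. -/
noncomputable def cI (D : Set W) (η : W → ℤ) (a : W → ℤ) : ℝ :=
  if ∀ v, v ∉ D → a v = η v then 1 else 0

theorem cI_nonneg (D : Set W) (η a : W → ℤ) : 0 ≤ cI D η a := by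
  unfold cI; split_ifs <;> norm_num

section fin

variable [Fintype W]

theorem mix_mem {κ D D₁ D₂ : Set W} {H z : W → ℤ} (hH : H ∈ N.Om M D₁) (hz : z ∈ N.Om M D₂)
    (hD : ∀ v, v ∉ D → |mix κ H z v| = N.b v)
    (hc : ∀ u v, N.R u v → u ∈ κ → v ∉ κ → |H u| ≤ 1 ∧ |z v| ≤ 1) :
    mix κ H z ∈ N.Om M D := by
  rw [mem_Om] at hH hz ⊢
  have key : ∀ u v, N.R u v → u ∈ κ → v ∉ κ → |H u - z v| ≤ 2 := by
    intro u v huv hu hv
    obtain ⟨h1, h2⟩ := hc u v huv hu hv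
    rw [abs_le] at *
    omega
  refine ⟨fun u => ?_, ⟨fun u => ?_, fun u v huv => ?_⟩, hD⟩
  · by_cases hu : u ∈ κ
    · rw [mix_in hu]; exact hH.1 u
    · rw [mix_out hu]; exact hz.1 u
  · by_cases hu : u ∈ κ
    · rw [mix_in hu]; exact hH.2.1.1 u
    · rw [mix_out hu]; exact hz.2.1.1 u
  · by_cases hu : u ∈ κ <;> by_cases hv : v ∈ κ
    · rw [mix_in hu, mix_in hv]; exact hH.2.1.2 u v huv
    · rw [mix_in hu, mix_out hv]; exact key u v huv hu hv
    · rw [mix_out hu, mix_in hv, abs_sub_comm]; exact key v u (N.symm huv) hv hu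
    · rw [mix_out hu, mix_out hv]; exact hz.2.1.2 u v huv

/-- Markov property. -/
theorem markov {κ : Set W} {η : W → ℤ} (hη : ∀ u v, N.R u v → u ∈ κ → v ∉ κ → η u ≤ 1 ∧ η v ≤ 1)
    {A : (W → ℤ) → ℝ} (hA : ∀ H H' : W → ℤ, (∀ v, v ∉ κ → H v = H' v) → A H = A H') :
    (∑ H ∈ N.Om M Set.univ, cI (N.inn κ) η (ab H) * A H) * (#(N.Om M (N.inn κ)) : ℝ) =
      (∑ H ∈ N.Om M Set.univ, cI (N.inn κ) η (ab H)) * ∑ z ∈ N.Om M (N.inn κ), A z := by
  set C : Finset (W → ℤ) := (N.Om M Set.univ).filter fun H => ∀ v, v ∉ N.inn κ → |H v| = η v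
    with hC
  have e1 : ∀ G : (W → ℤ) → ℝ, ∑ H ∈ N.Om M Set.univ, cI (N.inn κ) η (ab H) * G H =
      ∑ H ∈ C, G H := by
    intro G
    rw [hC, Finset.sum_filter]
    refine Finset.sum_congr rfl fun H _ => ?_
    unfold cI ab
    split_ifs <;> ring
  have e2 : ∑ H ∈ N.Om M Set.univ, cI (N.inn κ) η (ab H) = ∑ H ∈ C, (1 : ℝ) := by
    rw [← e1 fun _ => 1]
    simp only [mul_one]
  rw [e1, e2, Finset.card_eq_sum_ones, Nat.cast_sum]
  simp only [Nat.cast_one]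
  rw [Finset.sum_mul_sum, Finset.sum_mul_sum, ← Finset.sum_product', ← Finset.sum_product']
  have hmem : ∀ p ∈ C ×ˢ N.Om M (N.inn κ), mix κ p.1 p.2 ∈ C ∧ mix κ p.2 p.1 ∈ N.Om M (N.inn κ) := by
    rintro ⟨H, z⟩ hp
    obtain ⟨hH, hz⟩ := Finset.mem_product.1 hp
    simp only at hH hz
    rw [hC, Finset.mem_filter] at hH
    obtain ⟨hH, hHη⟩ := hH
    have hH' := N.mem_Om.1 hH
    have hz' := N.mem_Om.1 hz
    have hκ : ∀ v ∈ κ, v ∉ N.inn κ := fun v hv h => h.1 hv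
    have hbd : ∀ u v, N.R u v → u ∈ κ → v ∉ κ → v ∉ N.inn κ := fun u v huv hu _ h =>
      h.2 u (N.symm huv) hu
    have hbdv : ∀ v, v ∉ κ → v ∉ N.inn κ → |H v| = N.b v := by
      intro v hv hv'
      have : ∃ u, N.R v u ∧ u ∈ κ := by
        by_contra hcon
        push Not at hcon
        exact hv' ⟨hv, hcon⟩
      obtain ⟨u, hu, huκ⟩ := this
      have h1 := (hη u v (N.symm hu) huκ hv).2
      rw [← hHη v hv'] at h1
      exact N.eq_b_of (N.even_abs (hH'.2.1.1 v)) (abs_nonneg _) h1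
    constructor
    · rw [hC, Finset.mem_filter]
      refine ⟨N.mix_mem hH hz (fun v hv => absurd (Set.mem_univ v) hv) ?_, ?_⟩
      · intro u v huv hu hv
        refine ⟨?_, ?_⟩
        · show |H u| ≤ 1
          rw [hHη u (hκ u hu)]
          exact (hη u v huv hu hv).1
        · show |z v| ≤ 1
          rw [hz'.2.2 v (hbd u v huv hu hv)]
          exact N.b_le v
      · intro v hv
        show |mix κ H z v| = η v
        by_cases hvκ : v ∈ κ
        · rw [mix_in hvκ]; exact hHη v hv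
        · rw [mix_out hvκ, hz'.2.2 v hv, ← hbdv v hvκ hv]
          exact hHη v hv
    · refine N.mix_mem hz hH ?_ ?_
      · intro v hv
        show |mix κ z H v| = N.b v
        by_cases hvκ : v ∈ κ
        · rw [mix_in hvκ]; exact hz'.2.2 v hv
        · rw [mix_out hvκ]; exact hbdv v hvκ hv
      · intro u v huv hu hv
        refine ⟨?_, ?_⟩
        · show |z u| ≤ 1
          rw [hz'.2.2 u (hκ u hu)]
          exact N.b_le u
        · show |H v| ≤ 1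
          rw [hHη v (hbd u v huv hu hv)]
          exact (hη u v huv hu hv).2
  refine Finset.sum_nbij' (i := fun p : (W → ℤ) × (W → ℤ) => (mix κ p.1 p.2, mix κ p.2 p.1))
    (j := fun p => (mix κ p.1 p.2, mix κ p.2 p.1)) ?_ ?_ ?_ ?_ ?_
  · intro p hp
    exact Finset.mem_product.2 (hmem p hp)
  · intro p hp
    exact Finset.mem_product.2 (hmem p hp)
  · intro p _
    exact Prod.ext (mix_mix κ p.1 p.2) (mix_mix κ p.2 p.1)
  · intro p _
    exact Prod.ext (mix_mix κ p.1 p.2) (mix_mix κ p.2 p.1)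
  · intro p _
    simp only [mul_one, one_mul]
    exact hA _ _ fun v hv => (mix_out hv).symm

theorem base_mem (hM : 1 ≤ M) (D : Set W) : N.b ∈ N.Om M D := by
  refine N.mem_Om.2 ⟨fun u => ?_, ⟨fun u => by simp, fun u v _ => ?_⟩, fun u _ => ?_⟩
  · rw [abs_of_nonneg (N.b_nonneg u)]; exact (N.b_le u).trans hM
  · have h1 := N.b_nonneg u
    have h2 := N.b_le u
    have h3 := N.b_nonneg v
    have h4 := N.b_le v
    rw [abs_le]; omega
  · exact abs_of_nonneg (N.b_nonneg u)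

theorem card_pos (hM : 1 ≤ M) (D : Set W) : (0 : ℝ) < #(N.Om M D) := by
  exact_mod_cast Finset.card_pos.2 ⟨_, N.base_mem hM D⟩

/-- Conditioning on the explored part. -/
theorem class_le (hM : 1 ≤ M) {O : Set W} {η : W → ℤ} {X : (W → ℤ) → ℝ} (hX : ∀ a, 0 ≤ X a)
    (hXa : Antitone X) {B : (W → ℤ) → ℝ} (hB0 : ∀ a, 0 ≤ B a) (hB : Monotone B) (l : List W)
    (hA : ∀ H H' : W → ℤ, (∀ v, v ∉ N.cl O η → H v = H' v) →
      B (ab H) * mon l H = B (ab H') * mon l H') :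
    (∑ H ∈ N.Om M Set.univ, (X (ab H) * cI (N.inn (N.cl O η)) η (ab H)) * (B (ab H) * mon l H)) *
        (#(N.Om M (N.inn O)) : ℝ) ≤
      (∑ H ∈ N.Om M Set.univ, X (ab H) * cI (N.inn (N.cl O η)) η (ab H)) *
        ∑ H ∈ N.Om M (N.inn O), B (ab H) * mon l H := by
  set D := N.inn (N.cl O η) with hD
  set I : (W → ℤ) → ℝ := cI D η with hI
  have hI0 : ∀ a, 0 ≤ I a := cI_nonneg D η
  -- step 1
  have s1 := N.master (M := M) (D := Set.univ) (D' := Set.univ) (X₁ := fun a => X a * I a)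
    (X₂ := I) subset_rfl (fun a => mul_nonneg (hX a) (hI0 a)) hI0
    (by
      intro a _ a' _
      by_cases h1 : ∀ v, v ∉ D → a v = η v
      · by_cases h2 : ∀ v, v ∉ D → a' v = η v
        · have h3 : ∀ v, v ∉ D → (a ⊓ a') v = η v := fun v hv => by
            simp only [Pi.inf_apply]; rw [h1 v hv, h2 v hv, inf_idem]
          have h4 : ∀ v, v ∉ D → (a ⊔ a') v = η v := fun v hv => by
            simp only [Pi.sup_apply]; rw [h1 v hv, h2 v hv, sup_idem]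
          have i1 : I a = 1 := if_pos h1
          have i2 : I a' = 1 := if_pos h2
          have i3 : I (a ⊓ a') = 1 := if_pos h3
          have i4 : I (a ⊔ a') = 1 := if_pos h4
          simp only [i1, i2, i3, i4, mul_one]
          exact hXa inf_le_left
        · have i2 : I a' = 0 := if_neg h2
          rw [i2, mul_zero]
          exact mul_nonneg (mul_nonneg (hX _) (hI0 _)) (hI0 _)
      · have i1 : I a = 0 := if_neg h1
        simp only [i1, mul_zero, zero_mul]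
        exact mul_nonneg (mul_nonneg (hX _) (hI0 _)) (hI0 _)) hB0 hB l
  -- step 2
  have s2 := N.markov (M := M) (κ := N.cl O η) (η := η)
    (fun u v huv hu hv => N.cross hu hv huv) (A := fun H => B (ab H) * mon l H) hA
  -- step 3
  have s3 := N.master (M := M) (D := N.inn O) (D' := D) (X₁ := fun _ => 1) (X₂ := fun _ => 1)
    (N.inn_anti (N.subset_cl O η)) (fun _ => zero_le_one) (fun _ => zero_le_one)
    (fun _ _ _ _ => le_rfl) hB0 hB l
  simp only [one_mul, Finset.sum_const, nsmul_eq_mul, mul_one] at s3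
  have c0 := N.card_pos hM D
  have c1 := N.card_pos hM (N.inn O)
  have d1 : 0 ≤ ∑ H ∈ N.Om M (N.inn O), B (ab H) * mon l H := by
    have e : ∀ a ∈ N.Ab M (N.inn O), 0 ≤ cz a * (N.nSG a : ℝ) * B a * N.Fk l a := fun a _ =>
      mul_nonneg (mul_nonneg (mul_nonneg (cz_pos a).le (Nat.cast_nonneg _)) (hB0 a))
        (N.Fk_nonneg l a)
    rw [N.sum_Om_mon (M := M) (N.inn O) B l]
    exact Finset.sum_nonneg e
  have a0 : 0 ≤ ∑ H ∈ N.Om M Set.univ, X (ab H) * I (ab H) :=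
    Finset.sum_nonneg fun H _ => mul_nonneg (hX _) (hI0 _)
  have b0 : 0 ≤ ∑ H ∈ N.Om M Set.univ, I (ab H) := Finset.sum_nonneg fun H _ => hI0 _
  rcases b0.eq_or_lt with hb | hb
  · have hz := (Finset.sum_eq_zero_iff_of_nonneg (fun H _ => hI0 (ab H))).1 hb.symm
    have ha1 : ∑ H ∈ N.Om M Set.univ, (X (ab H) * I (ab H)) * (B (ab H) * mon l H) = 0 := by
      refine Finset.sum_eq_zero fun H hH => ?_
      rw [hz H hH, mul_zero, zero_mul]
    rw [ha1, zero_mul]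
    exact mul_nonneg a0 d1
  · set a1 := ∑ H ∈ N.Om M Set.univ, (X (ab H) * I (ab H)) * (B (ab H) * mon l H)
    set a0' := ∑ H ∈ N.Om M Set.univ, X (ab H) * I (ab H)
    set b1 := ∑ H ∈ N.Om M Set.univ, I (ab H) * (B (ab H) * mon l H)
    set b0' := ∑ H ∈ N.Om M Set.univ, I (ab H)
    set c1' := ∑ z ∈ N.Om M D, (B (ab z) * mon l z)
    set c0' : ℝ := ((#(N.Om M D) : ℕ) : ℝ)
    set d1' := ∑ H ∈ N.Om M (N.inn O), B (ab H) * mon l H
    set d0' : ℝ := ((#(N.Om M (N.inn O)) : ℕ) : ℝ)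
    have s2' : b1 * c0' = b0' * c1' := s2
    have h1 : a1 * b0' * c0' ≤ a0' * b0' * c1' := by
      calc a1 * b0' * c0' ≤ a0' * b1 * c0' := mul_le_mul_of_nonneg_right s1 c0.le
        _ = a0' * (b1 * c0') := by ring
        _ = a0' * b0' * c1' := by rw [s2']; ring
    have h2 : a1 * c0' ≤ a0' * c1' := by
      have : (a1 * c0') * b0' ≤ (a0' * c1') * b0' := by nlinarith
      exact le_of_mul_le_mul_right this hb
    have h3 : (a1 * d0') * c0' ≤ (a0' * d1') * c0' := by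
      calc (a1 * d0') * c0' = (a1 * c0') * d0' := by ring
        _ ≤ (a0' * c1') * d0' := mul_le_mul_of_nonneg_right h2 c1.le
        _ = a0' * (c1' * d0') := by ring
        _ ≤ a0' * (c0' * d1') := mul_le_mul_of_nonneg_left s3 a0
        _ = _ := by ring
    exact le_of_mul_le_mul_right h3 c0

/-- The explored part of the modulus. -/
noncomputable def rep (O : Set W) (a : W → ℤ) : W → ℤ :=
  fun v => if v ∈ N.inn (N.cl O a) then 0 else a v

omit [Fintype W] in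
theorem rep_iff (O : Set W) (η a : W → ℤ) :
    N.rep O a = N.rep O η ↔ ∀ v, v ∉ N.inn (N.cl O η) → a v = η v := by
  have hr : ∀ a : W → ℤ, ∀ v, v ∉ N.inn (N.cl O a) → a v = N.rep O a v := by
    intro a v hv
    unfold rep
    rw [if_neg hv]
  constructor
  · intro h
    have e1 := N.cl_congr (hr a)
    have e2 := N.cl_congr (hr η)
    have e3 : N.cl O a = N.cl O η := by rw [← e1, ← e2, h]
    intro v hv
    rw [hr η v hv, ← h]
    exact hr a v (by rw [e3]; exact hv)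
  · intro h
    have e := N.cl_congr (O := O) (a := η) (a' := a) fun v hv => (h v hv).symm
    funext v
    unfold rep
    rw [e]
    by_cases hv : v ∈ N.inn (N.cl O η)
    · rw [if_pos hv, if_pos hv]
    · rw [if_neg hv, if_neg hv]
      exact h v hv

/-- Exploration from `O`. -/
theorem expl_le (hM : 1 ≤ M) {O I : Set W} {X : (W → ℤ) → ℝ} (hX : ∀ a, 0 ≤ X a)
    (hXa : Antitone X) (hXd : ∀ a, X a ≠ 0 → Disjoint (N.cl O a) I)
    {B : (W → ℤ) → ℝ} (hB0 : ∀ a, 0 ≤ B a) (hB : Monotone B) (l : List W)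
    (hA : ∀ H H' : W → ℤ, (∀ v ∈ I, H v = H' v) → B (ab H) * mon l H = B (ab H') * mon l H') :
    (∑ H ∈ N.Om M Set.univ, X (ab H) * (B (ab H) * mon l H)) * (#(N.Om M (N.inn O)) : ℝ) ≤
      (∑ H ∈ N.Om M Set.univ, X (ab H)) * ∑ H ∈ N.Om M (N.inn O), B (ab H) * mon l H := by
  set E : Finset (W → ℤ) := (N.Om M Set.univ).image fun H => N.rep O (ab H) with hE
  have dec : ∀ G : (W → ℤ) → ℝ, ∑ H ∈ N.Om M Set.univ, G H =
      ∑ η ∈ E, ∑ H ∈ N.Om M Set.univ with N.rep O (ab H) = η, G H := by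
    intro G
    exact (Finset.sum_fiberwise_of_maps_to (fun H hH => Finset.mem_image_of_mem _ hH) G).symm
  rw [dec fun H => X (ab H) * (B (ab H) * mon l H), dec fun H => X (ab H), Finset.sum_mul,
    Finset.sum_mul]
  refine Finset.sum_le_sum fun η hη => ?_
  obtain ⟨H₀, hH₀, rfl⟩ := Finset.mem_image.1 hη
  have hfilt : ∀ G : (W → ℤ) → ℝ,
      ∑ H ∈ N.Om M Set.univ with N.rep O (ab H) = N.rep O (ab H₀), G H =
        ∑ H ∈ N.Om M Set.univ, cI (N.inn (N.cl O (ab H₀))) (ab H₀) (ab H) * G H := by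
    intro G
    rw [Finset.sum_filter]
    refine Finset.sum_congr rfl fun H _ => ?_
    unfold cI
    by_cases h : N.rep O (ab H) = N.rep O (ab H₀)
    · rw [if_pos h, if_pos ((N.rep_iff O _ _).1 h), one_mul]
    · rw [if_neg h, if_neg fun h' => h ((N.rep_iff O _ _).2 h'), zero_mul]
  rw [hfilt, hfilt]
  by_cases hd : Disjoint (N.cl O (ab H₀)) I
  · have h := N.class_le hM (O := O) (η := ab H₀) hX hXa hB0 hB l (fun H H' hHH => hA H H'
      fun v hv => hHH v fun hv' => (Set.disjoint_left.1 hd) hv' hv)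
    calc (∑ H ∈ N.Om M Set.univ, cI (N.inn (N.cl O (ab H₀))) (ab H₀) (ab H) *
            (X (ab H) * (B (ab H) * mon l H))) * (#(N.Om M (N.inn O)) : ℝ)
        = (∑ H ∈ N.Om M Set.univ, (X (ab H) * cI (N.inn (N.cl O (ab H₀))) (ab H₀) (ab H)) *
            (B (ab H) * mon l H)) * (#(N.Om M (N.inn O)) : ℝ) := by
          congr 1
          exact Finset.sum_congr rfl fun H _ => by ring
      _ ≤ _ := h
      _ = _ := by
          congr 1
          exact Finset.sum_congr rfl fun H _ => by ring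
  · have hz : ∀ H ∈ N.Om M Set.univ, cI (N.inn (N.cl O (ab H₀))) (ab H₀) (ab H) * X (ab H) = 0 := by
      intro H _
      by_cases h : ∀ v, v ∉ N.inn (N.cl O (ab H₀)) → (ab H) v = (ab H₀) v
      · have e := N.cl_congr (O := O) (a := ab H₀) (a' := ab H) fun v hv => (h v hv).symm
        have : X (ab H) = 0 := by
          by_contra hne
          have := hXd (ab H) hne
          rw [e] at this
          exact hd this
        rw [this, mul_zero]
      · have : cI (N.inn (N.cl O (ab H₀))) (ab H₀) (ab H) = 0 := if_neg h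
        rw [this, zero_mul]
    have h1 : ∑ H ∈ N.Om M Set.univ, cI (N.inn (N.cl O (ab H₀))) (ab H₀) (ab H) *
        (X (ab H) * (B (ab H) * mon l H)) = 0 :=
      Finset.sum_eq_zero fun H hH => by rw [← mul_assoc, hz H hH, zero_mul]
    have h2 : ∑ H ∈ N.Om M Set.univ, cI (N.inn (N.cl O (ab H₀))) (ab H₀) (ab H) * X (ab H) = 0 :=
      Finset.sum_eq_zero hz
    rw [h1, h2, zero_mul, zero_mul]

/-- Zero boundary condition on `D`, against a function of the modulus off `D`. -/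
theorem low_le {D : Set W} {Θ : (W → ℤ) → ℝ} (hΘ0 : ∀ a, 0 ≤ Θ a)
    (hΘ : ∀ a a' : W → ℤ, (∀ v, v ∉ D → a v = a' v) → Θ a = Θ a') {B : (W → ℤ) → ℝ}
    (hB0 : ∀ a, 0 ≤ B a) (hB : Monotone B) (l : List W) :
    (∑ H ∈ N.Om M D, B (ab H) * mon l H) * (∑ H ∈ N.Om M Set.univ, Θ (ab H)) ≤
      (#(N.Om M D) : ℝ) * ∑ H ∈ N.Om M Set.univ, Θ (ab H) * (B (ab H) * mon l H) := by
  have h := N.master (M := M) (D := Set.univ) (D' := D) (X₁ := fun _ => 1) (X₂ := Θ)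
    (Set.subset_univ D) (fun _ => zero_le_one) hΘ0
    (by
      intro a ha a' ha'
      rw [one_mul, one_mul]
      refine (hΘ a' (a ⊔ a') fun v hv => ?_).le
      have h1 := (N.mem_Ab.1 ha).2.2 v hv
      have h2 := N.b_le_of ((N.mem_Ab.1 ha').2.1.1 v) ((N.mem_Ab.1 ha').1 v).1
      simp only [Pi.sup_apply]
      rw [h1]
      exact (sup_eq_right.2 h2).symm) hB0 hB l
  simpa only [one_mul, Finset.sum_const, nsmul_eq_mul, mul_one] using h

/-- **Exploration from `O` against a function of the modulus near `O`.** -/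
theorem ext_le (hM : 1 ≤ M) {O I : Set W} {X Θ : (W → ℤ) → ℝ} (hX : ∀ a, 0 ≤ X a)
    (hXa : Antitone X) (hXd : ∀ a, X a ≠ 0 → Disjoint (N.cl O a) I) (hΘ0 : ∀ a, 0 ≤ Θ a)
    (hΘ : ∀ a a' : W → ℤ, (∀ v, v ∉ N.inn O → a v = a' v) → Θ a = Θ a')
    {B : (W → ℤ) → ℝ} (hB0 : ∀ a, 0 ≤ B a) (hB : Monotone B) (l : List W)
    (hA : ∀ H H' : W → ℤ, (∀ v ∈ I, H v = H' v) → B (ab H) * mon l H = B (ab H') * mon l H') :
    (∑ H ∈ N.Om M Set.univ, X (ab H) * (B (ab H) * mon l H)) *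
        (∑ H ∈ N.Om M Set.univ, Θ (ab H)) ≤
      (∑ H ∈ N.Om M Set.univ, X (ab H)) *
        ∑ H ∈ N.Om M Set.univ, Θ (ab H) * (B (ab H) * mon l H) := by
  have h1 := N.expl_le hM hX hXa hXd hB0 hB l hA
  have h2 := N.low_le (M := M) (D := N.inn O) hΘ0 hΘ hB0 hB l
  have p := N.card_pos hM (N.inn O)
  have n1 : 0 ≤ ∑ H ∈ N.Om M Set.univ, Θ (ab H) := Finset.sum_nonneg fun H _ => hΘ0 _
  have n2 : 0 ≤ ∑ H ∈ N.Om M Set.univ, X (ab H) := Finset.sum_nonneg fun H _ => hX _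
  set z : ℝ := ((#(N.Om M (N.inn O)) : ℕ) : ℝ)
  set a := ∑ H ∈ N.Om M Set.univ, X (ab H) * (B (ab H) * mon l H)
  set b := ∑ H ∈ N.Om M Set.univ, X (ab H)
  set u := ∑ H ∈ N.Om M (N.inn O), B (ab H) * mon l H
  set v := ∑ H ∈ N.Om M Set.univ, Θ (ab H)
  set w := ∑ H ∈ N.Om M Set.univ, Θ (ab H) * (B (ab H) * mon l H)
  have h3 : z * (a * v) ≤ z * (b * w) := by
    calc z * (a * v) = (a * z) * v := by ring
      _ ≤ (b * u) * v := mul_le_mul_of_nonneg_right h1 n1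
      _ = b * (u * v) := by ring
      _ ≤ b * (z * w) := mul_le_mul_of_nonneg_left h2 n2
      _ = z * (b * w) := by ring
  exact le_of_mul_le_mul_left h3 p

end fin

end Gph

end Vale.Agent.P153.F.Gh
end

section

/-!
# P153, block F: the plane measure as a limit of ensembles with a ghost site

The heights of the finite domain `D` (with values `2 k ± 1` at the boundary, sum over `k`) are the
heights of the graph `D` with an even ghost site of height `2 k`.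
-/

namespace Vale.Agent.P153.F.Gh

open Finset Filter Topology MeasureTheory Vale.Agent.P153
open Vale.Agent.P153.GFF (Ht Pat hexa LocLim)
open scoped Classical

/-- The neighbour relation of `D` with a ghost site next to the boundary. -/
def gR (D : Finset Pt) : Option {x // x ∈ D} → Option {x // x ∈ D} → Prop
  | none, none => False
  | none, some x => ∃ w, Adj x.1 w ∧ w ∉ D
  | some x, none => ∃ w, Adj x.1 w ∧ w ∉ D
  | some x, some y => Adj x.1 y.1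

/-- The graph `D` with a ghost site. -/
def gD (D : Finset Pt) : Gph (Option {x // x ∈ D}) where
  R := gR D
  b u := match u with
    | none => 0
    | some _ => 1
  symm {u v} h := by
    rcases u with _ | x <;> rcases v with _ | y
    · exact h
    · exact h
    · exact h
    · exact Adj.symm h
  b01 u := by
    rcases u with _ | x
    · exact Or.inl rfl
    · exact Or.inr rfl
  odd {u v} h := by
    rcases u with _ | x <;> rcases v with _ | y
    · exact h.elim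
    · exact Or.inr rfl
    · exact Or.inl rfl
    · exact Or.inl rfl

variable {D : Finset Pt}

theorem gD_R_some {x y : {x // x ∈ D}} : (gD D).R (some x) (some y) ↔ Adj x.1 y.1 := Iff.rfl

theorem gD_R_none {x : {x // x ∈ D}} : (gD D).R none (some x) ↔ ∃ w, Adj x.1 w ∧ w ∉ D := Iff.rfl

theorem gD_b_none : (gD D).b none = 0 := rfl

theorem gD_b_some (x : {x // x ∈ D}) : (gD D).b (some x) = 1 := rfl

/-- Extension by one. -/
noncomputable def ex1 (H : Option {x // x ∈ D} → ℤ) : Hg :=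
  fun x => if h : x ∈ D then H (some ⟨x, h⟩) else 1

theorem ex1_in {H : Option {x // x ∈ D} → ℤ} {x : Pt} (h : x ∈ D) : ex1 H x = H (some ⟨x, h⟩) :=
  dif_pos h

theorem finite_Ht (D : Finset Pt) : (Ht D).Finite := by
  have h1 : ∀ φ ∈ Ht D, (∀ x, x ∉ D → φ x = 0) ∧ ∀ x, |φ x| ≤ 1 + #D := by
    intro φ hφ
    have hout : ∀ x, x ∉ D → φ x = 0 := fun x hx => (hφ.1 x).1 hx
    refine ⟨hout, fun x => ?_⟩
    have hL : Lip (fun x => 2 * φ x - 1) := by
      refine ⟨fun x => ⟨φ x - 1, by ring⟩, fun x y hxy => ?_⟩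
      have := abs_le.1 (hφ.2 x y hxy)
      show |2 * φ x - 1 - (2 * φ y - 1)| ≤ 2
      rw [abs_le]
      omega
    have := hL.bdd (D := D) (fun y hy => by rw [hout y hy]; norm_num) x
    rw [abs_le] at this ⊢
    omega
  refine (finite_bdd D (fun _ => 0) (1 + #D)).subset fun φ hφ => ?_
  exact ⟨(h1 φ hφ).2, (h1 φ hφ).1⟩

/-- The heights with a ghost, given on `B`. -/
noncomputable def CH (D : Finset Pt) (M : ℤ) (B : Finset Pt) (c : Hg) :
    Finset (Option {x // x ∈ D} → ℤ) :=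
  ((gD D).Om M Set.univ).filter fun H => ∀ x ∈ B, ex1 H x = c x

/-- From heights on `D` to heights with a ghost. -/
noncomputable def gh (c : Hg) (x₀ : Pt) (φ : Pt → ℤ) : Option {x // x ∈ D} → ℤ
  | none => 2 * (half c x₀ - φ x₀)
  | some x => 2 * φ x.1 + 2 * (half c x₀ - φ x₀) - 1

theorem card_CH (D B : Finset Pt) (hB : B ⊆ D) {x₀ : Pt} (hx₀ : x₀ ∈ B) {c : Hg}
    (hc : ∀ x, Odd (c x)) :
    ∃ M₀ : ℤ, ∀ M, M₀ ≤ M → #(CH D M B c) = (Ht D ∩ Pat B (half c)).ncard := by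
  have hfin : (Ht D ∩ Pat B (half c)).Finite := (finite_Ht D).subset Set.inter_subset_left
  set f : (Pt → ℤ) → (Option {x // x ∈ D} → ℤ) := gh c x₀ with hf
  set S := hfin.toFinset with hS
  have hSm : ∀ φ, φ ∈ S ↔ φ ∈ Ht D ∩ Pat B (half c) := fun φ => by rw [hS, Set.Finite.mem_toFinset]
  refine ⟨∑ φ ∈ S, ∑ u, |f φ u|, fun M hM => ?_⟩
  have hbd : ∀ φ ∈ S, ∀ u, |f φ u| ≤ M := by
    intro φ hφ u
    refine le_trans ?_ hM
    refine le_trans ?_ (Finset.single_le_sum (f := fun φ => ∑ u, |f φ u|)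
      (fun φ _ => Finset.sum_nonneg fun u _ => abs_nonneg _) hφ)
    exact Finset.single_le_sum (f := fun u => |f φ u|) (fun u _ => abs_nonneg _)
      (Finset.mem_univ u)
  have hcard : (Ht D ∩ Pat B (half c)).ncard = #S := by
    rw [hS, Set.ncard_eq_toFinset_card _ hfin]
  rw [hcard]
  symm
  refine Finset.card_nbij' (i := f) (j := fun H x =>
    if h : x ∈ D then (H (some ⟨x, h⟩) + 1 - H none) / 2 else 0) ?_ ?_ ?_ ?_
  · intro φ hφ
    have hφ' := (hSm φ).1 hφ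
    obtain ⟨⟨h1, h2⟩, h3⟩ := hφ'
    have hx₀D := hB hx₀
    have hval : ∀ x ∈ B, ex1 (f φ) x = c x := by
      intro x hx
      rw [ex1_in (hB hx)]
      show 2 * φ x + 2 * (half c x₀ - φ x₀) - 1 = c x
      have := h3 x hx x₀ hx₀
      have h5 := half_eq hc x
      linarith
    refine Finset.mem_coe.2 (Finset.mem_filter.2 ⟨(gD D).mem_Om.2 ⟨hbd φ hφ, ⟨?_, ?_⟩, ?_⟩, hval⟩)
    · intro u
      rcases u with _ | x
      · rw [gD_b_none]
        exact ⟨half c x₀ - φ x₀, by show 2 * (half c x₀ - φ x₀) - 0 = _; ring⟩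
      · rw [gD_b_some]
        exact ⟨φ x.1 + (half c x₀ - φ x₀) - 1, by
          show 2 * φ x.1 + 2 * (half c x₀ - φ x₀) - 1 - 1 = _; ring⟩
    · have key : ∀ x : {x // x ∈ D}, (∃ w, Adj x.1 w ∧ w ∉ D) →
          |f φ none - f φ (some x)| ≤ 2 := by
        intro x hx
        show |2 * (half c x₀ - φ x₀) - (2 * φ x.1 + 2 * (half c x₀ - φ x₀) - 1)| ≤ 2
        rcases (h1 x.1).2 hx with h | h <;> rw [h, abs_le] <;> constructor <;> linarith
      intro u v huv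
      rcases u with _ | x <;> rcases v with _ | y
      · exact huv.elim
      · exact key y huv
      · rw [abs_sub_comm]; exact key x huv
      · have h4 := abs_le.1 (h2 x.1 y.1 huv)
        show |2 * φ x.1 + 2 * (half c x₀ - φ x₀) - 1 - (2 * φ y.1 + 2 * (half c x₀ - φ x₀) - 1)| ≤ 2
        rw [abs_le]
        constructor <;> linarith [h4.1, h4.2]
    · intro u hu
      exact absurd (Set.mem_univ u) hu
  · intro H hH
    obtain ⟨hH1, hH2⟩ := Finset.mem_filter.1 (Finset.mem_coe.1 hH)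
    obtain ⟨-, ⟨hpar, hlip⟩, -⟩ := (gD D).mem_Om.1 hH1
    obtain ⟨k, hk⟩ := hpar none
    rw [gD_b_none] at hk
    have hk' : H none = 2 * k := by linarith
    have hval : ∀ x (h : x ∈ D), (H (some ⟨x, h⟩) + 1 - H none) / 2 * 2 =
        H (some ⟨x, h⟩) + 1 - H none := by
      intro x h
      obtain ⟨m, hm⟩ := hpar (some ⟨x, h⟩)
      rw [gD_b_some] at hm
      omega
    have hbdv : ∀ x (h : x ∈ D), (∃ w, Adj x w ∧ w ∉ D) →
        (H (some ⟨x, h⟩) + 1 - H none) / 2 = 0 ∨ (H (some ⟨x, h⟩) + 1 - H none) / 2 = 1 := by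
      intro x h hx
      obtain ⟨m, hm⟩ := hpar (some ⟨x, h⟩)
      rw [gD_b_some] at hm
      have h5 := abs_le.1 (hlip none (some ⟨x, h⟩) (gD_R_none.2 hx))
      omega
    have hmem : (fun x => if h : x ∈ D then (H (some ⟨x, h⟩) + 1 - H none) / 2 else 0) ∈ Ht D := by
      refine ⟨fun x => ⟨fun hx => dif_neg hx, fun hx => ?_⟩, fun x y hxy => ?_⟩
      · by_cases h : x ∈ D
        · simp only [dif_pos h]
          exact hbdv x h hx
        · exact Or.inl (dif_neg h)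
      · have hxy' : Adj x y := hxy
        by_cases hx : x ∈ D <;> by_cases hy : y ∈ D
        · simp only [dif_pos hx, dif_pos hy]
          have h5 := abs_le.1 (hlip (some ⟨x, hx⟩) (some ⟨y, hy⟩) (gD_R_some.2 hxy'))
          have h6 := hval x hx
          have h7 := hval y hy
          rw [abs_le]
          omega
        · simp only [dif_pos hx, dif_neg hy]
          rcases hbdv x hx ⟨y, hxy', hy⟩ with h | h <;> rw [h] <;> norm_num
        · simp only [dif_neg hx, dif_pos hy]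
          rcases hbdv y hy ⟨x, hxy'.symm, hx⟩ with h | h <;> rw [h] <;> norm_num
        · simp only [dif_neg hx, dif_neg hy]
          norm_num
    refine Finset.mem_coe.2 ((hSm _).2 ⟨hmem, fun x hx y hy => ?_⟩)
    have h5 := hH2 x hx
    have h6 := hH2 y hy
    rw [ex1_in (hB hx)] at h5
    rw [ex1_in (hB hy)] at h6
    have h7 := hval x (hB hx)
    have h8 := hval y (hB hy)
    have h9 := half_eq hc x
    have h10 := half_eq hc y
    simp only [dif_pos (hB hx), dif_pos (hB hy)]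
    omega
  · intro φ hφ
    obtain ⟨⟨h1, h2⟩, h3⟩ := (hSm φ).1 (Finset.mem_coe.1 hφ)
    funext x
    by_cases hx : x ∈ D
    · simp only [dif_pos hx]
      show (2 * φ x + 2 * (half c x₀ - φ x₀) - 1 + 1 - 2 * (half c x₀ - φ x₀)) / 2 = φ x
      omega
    · simp only [dif_neg hx]
      exact ((h1 x).1 hx).symm
  · intro H hH
    obtain ⟨hH1, hH2⟩ := Finset.mem_filter.1 (Finset.mem_coe.1 hH)
    obtain ⟨-, ⟨hpar, hlip⟩, -⟩ := (gD D).mem_Om.1 hH1
    have hval : ∀ x (h : x ∈ D), (H (some ⟨x, h⟩) + 1 - H none) / 2 * 2 =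
        H (some ⟨x, h⟩) + 1 - H none := by
      intro x h
      obtain ⟨m, hm⟩ := hpar (some ⟨x, h⟩)
      obtain ⟨k, hk⟩ := hpar none
      rw [gD_b_some] at hm
      rw [gD_b_none] at hk
      omega
    have h0 := hH2 x₀ hx₀
    rw [ex1_in (hB hx₀)] at h0
    have h9 := half_eq hc x₀
    have h10 := hval x₀ (hB hx₀)
    have hnone : 2 * (half c x₀ - (H (some ⟨x₀, hB hx₀⟩) + 1 - H none) / 2) = H none := by
      omega
    funext u
    rcases u with _ | x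
    · show 2 * (half c x₀ - dite _ _ _) = H none
      rw [dif_pos (hB hx₀)]
      exact hnone
    · show 2 * dite _ _ _ + 2 * (half c x₀ - dite _ _ _) - 1 = H (some x)
      rw [dif_pos (hB hx₀), dif_pos x.2, hnone]
      have := hval x.1 x.2
      have e : (⟨x.1, x.2⟩ : {x // x ∈ D}) = x := rfl
      rw [e] at this ⊢
      omega

/-- Local functions which are bounded by `R` on `B` where they do not vanish. -/
structure Lcl (B : Finset Pt) (R : ℤ) (F : Hg → ℝ) : Prop where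
  dep : ∀ h h' : Hg, (∀ x ∈ B, h x = h' x) → F h = F h'
  bdd : ∀ h : Hg, (∀ x ∈ B, Odd (h x)) → (∀ x ∈ B, ∀ y ∈ B, Adj x y → |h x - h y| ≤ 2) →
    F h ≠ 0 → ∀ x ∈ B, |h x| ≤ R

theorem finite_pt (B : Finset Pt) (R : ℤ) :
    {c : Hg | (∀ x, Odd (c x)) ∧ (∀ x ∈ B, |c x| ≤ R) ∧ ∀ x, x ∉ B → c x = 1}.Finite := by
  refine (finite_bdd B (fun _ => 1) (max R 1)).subset ?_
  rintro c ⟨-, h2, h3⟩
  refine ⟨fun x => ?_, h3⟩
  by_cases hx : x ∈ B
  · exact (h2 x hx).trans (le_max_left _ _)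
  · rw [h3 x hx]
    simp

/-- The patterns. -/
noncomputable def pt (B : Finset Pt) (R : ℤ) : Finset Hg := (finite_pt B R).toFinset

theorem mem_pt {B : Finset Pt} {R : ℤ} {c : Hg} : c ∈ pt B R ↔
    (∀ x, Odd (c x)) ∧ (∀ x ∈ B, |c x| ≤ R) ∧ ∀ x, x ∉ B → c x = 1 := by
  unfold pt
  rw [Set.Finite.mem_toFinset]
  rfl

/-- A local function is a combination of indicators of patterns. -/
theorem Lcl.eq_sum {B : Finset Pt} {R : ℤ} {F : Hg → ℝ} (hF : Lcl B R F) {h : Hg}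
    (h1 : ∀ x ∈ B, Odd (h x)) (h2 : ∀ x ∈ B, ∀ y ∈ B, Adj x y → |h x - h y| ≤ 2) :
    F h = ∑ c ∈ pt B R, if ∀ x ∈ B, h x = c x then F c else 0 := by
  set c₀ : Hg := fun x => if x ∈ B then h x else 1 with hc₀
  have e0 : ∀ x ∈ B, h x = c₀ x := fun x hx => by rw [hc₀]; simp [hx]
  by_cases hz : F h = 0
  · rw [hz]
    symm
    refine Finset.sum_eq_zero fun c hc => ?_
    split_ifs with h3
    · rw [← hF.dep h c h3]; exact hz
    · rfl
  · have hb := hF.bdd h h1 h2 hz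
    have hmem : c₀ ∈ pt B R := by
      refine mem_pt.2 ⟨fun x => ?_, fun x hx => ?_, fun x hx => ?_⟩
      · rw [hc₀]
        by_cases hx : x ∈ B
        · simp only [hx, if_true]; exact h1 x hx
        · simp only [hx, if_false]; exact odd_one
      · rw [← e0 x hx]; exact hb x hx
      · rw [hc₀]; simp [hx]
    rw [Finset.sum_eq_single c₀]
    · rw [if_pos e0]
      exact hF.dep _ _ e0
    · intro c hc hne
      rw [if_neg]
      intro h3
      apply hne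
      funext x
      by_cases hx : x ∈ B
      · rw [← h3 x hx, e0 x hx]
      · rw [(mem_pt.1 hc).2.2 x hx, (mem_pt.1 hmem).2.2 x hx]
    · intro h3
      exact absurd hmem h3

/-- The integral of a local function. -/
theorem integral_lcl {P : Measure (Pt → ℤ)} [IsProbabilityMeasure P]
    (hlip : ∀ᵐ φ ∂P, ∀ x y, GFF.Adj x y → |φ x - φ y| ≤ 1) {B : Finset Pt} (hB : B.Nonempty)
    {R : ℤ} {F : Hg → ℝ} (hF : Lcl B R F) :
    ∫ h, F h ∂(muT P) = ∑ c ∈ pt B R, F c * P.real (Pat B (half c)) := by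
  have hae : ∀ᵐ h ∂(muT P), F h = ∑ c ∈ pt B R, (Cyl B c).indicator (fun _ => F c) h := by
    filter_upwards [muT_lip hlip] with h hh
    rw [hF.eq_sum (fun x _ => hh.1 x) fun x _ y _ hxy => hh.2 x y hxy]
    refine Finset.sum_congr rfl fun c _ => ?_
    by_cases h3 : ∀ x ∈ B, h x = c x
    · rw [if_pos h3, Set.indicator_of_mem (show h ∈ Cyl B c from h3)]
    · rw [if_neg h3, Set.indicator_of_notMem (show h ∉ Cyl B c from h3)]
  have hcyl : ∀ c ∈ pt B R, muT P (Cyl B c) = P (Pat B (half c)) := fun c hc =>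
    muT_cyl P hB (mem_pt.1 hc).1
  rw [integral_congr_ae hae, integral_finsetSum]
  · refine Finset.sum_congr rfl fun c hc => ?_
    rw [integral_indicator (measurable_cyl B c), setIntegral_const, smul_eq_mul, mul_comm,
      Measure.real, hcyl c hc, Measure.real]
  · intro c hc
    rw [integrable_indicator_iff (measurable_cyl B c)]
    refine integrableOn_const ?_
    rw [hcyl c hc]
    exact measure_ne_top P _

/-- The sum over the heights with a ghost. -/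
theorem sum_lcl {B : Finset Pt} (hB : B.Nonempty) (hBD : B ⊆ D) {R : ℤ} :
    ∃ M₀ : ℤ, ∀ M, M₀ ≤ M → ∀ F : Hg → ℝ, Lcl B R F →
      ∑ H ∈ (gD D).Om M Set.univ, F (ex1 H) =
        ∑ c ∈ pt B R, F c * ((Ht D ∩ Pat B (half c)).ncard : ℝ) := by
  obtain ⟨x₀, hx₀⟩ := hB
  have hM : ∀ c ∈ pt B R, ∃ M₀ : ℤ, ∀ M, M₀ ≤ M →
      #(CH D M B c) = (Ht D ∩ Pat B (half c)).ncard := fun c hc =>
    card_CH D B hBD hx₀ (mem_pt.1 hc).1
  choose! M₀ hM₀ using hM
  refine ⟨∑ c ∈ pt B R, |M₀ c|, fun M hMM F hF => ?_⟩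
  have hMc : ∀ c ∈ pt B R, M₀ c ≤ M := fun c hc =>
    (le_abs_self _).trans ((Finset.single_le_sum (f := fun c => |M₀ c|)
      (fun c _ => abs_nonneg _) hc).trans hMM)
  have h1 : ∀ H ∈ (gD D).Om M Set.univ, F (ex1 H) =
      ∑ c ∈ pt B R, if ∀ x ∈ B, ex1 H x = c x then F c else 0 := by
    intro H hH
    obtain ⟨-, ⟨hpar, hlip⟩, -⟩ := (gD D).mem_Om.1 hH
    refine hF.eq_sum (fun x hx => ?_) fun x hx y hy hxy => ?_
    · rw [ex1_in (hBD hx)]
      obtain ⟨m, hm⟩ := hpar (some ⟨x, hBD hx⟩)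
      rw [gD_b_some] at hm
      exact ⟨m, by omega⟩
    · rw [ex1_in (hBD hx), ex1_in (hBD hy)]
      exact hlip _ _ (gD_R_some.2 hxy)
  rw [Finset.sum_congr rfl h1, Finset.sum_comm]
  refine Finset.sum_congr rfl fun c hc => ?_
  rw [← hM₀ c hc M (hMc c hc), CH, ← Finset.sum_filter, Finset.sum_const, nsmul_eq_mul, mul_comm]

/-- **The limit.** -/
theorem tendsto_lcl {P : Measure (Pt → ℤ)} (hP : GFF.Plane P) {B : Finset Pt}
    (hB : B.Nonempty) {R : ℤ} {F : Hg → ℝ} (hF : Lcl B R F) :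
    Tendsto (fun n => (∑ c ∈ pt B R, F c * ((Ht (hexa n) ∩ Pat B (half c)).ncard : ℝ)) /
      (Ht (hexa n)).ncard) atTop (𝓝 (∫ h, F h ∂(muT P))) := by
  have := hP.prob
  rw [integral_lcl hP.lip hB hF]
  have h1 : ∀ n, (∑ c ∈ pt B R, F c * ((Ht (hexa n) ∩ Pat B (half c)).ncard : ℝ)) /
      (Ht (hexa n)).ncard = ∑ c ∈ pt B R, F c *
        (((Ht (hexa n) ∩ Pat B (half c)).ncard : ℝ) / (Ht (hexa n)).ncard) := by
    intro n
    rw [Finset.sum_div]
    exact Finset.sum_congr rfl fun c _ => by ring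
  simp only [h1]
  exact tendsto_finsetSum _ fun c _ => (hP.lim B (half c)).const_mul _

/-- Passage of a product inequality to the limit. -/
theorem mul_le_lim {P : Measure (Pt → ℤ)} (hP : GFF.Plane P) {B : Finset Pt}
    (hB : B.Nonempty) {R : ℤ} {F₁ F₂ F₃ F₄ : Hg → ℝ} (h1 : Lcl B R F₁) (h2 : Lcl B R F₂)
    (h3 : Lcl B R F₃) (h4 : Lcl B R F₄)
    (hle : ∀ᶠ n in atTop, ∀ᶠ M : ℤ in atTop,
      (∑ H ∈ (gD (hexa n)).Om M Set.univ, F₁ (ex1 H)) *
        (∑ H ∈ (gD (hexa n)).Om M Set.univ, F₂ (ex1 H)) ≤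
      (∑ H ∈ (gD (hexa n)).Om M Set.univ, F₃ (ex1 H)) *
        ∑ H ∈ (gD (hexa n)).Om M Set.univ, F₄ (ex1 H)) :
    (∫ h, F₁ h ∂(muT P)) * (∫ h, F₂ h ∂(muT P)) ≤
      (∫ h, F₃ h ∂(muT P)) * ∫ h, F₄ h ∂(muT P) := by
  refine le_of_tendsto_of_tendsto ((tendsto_lcl hP hB h1).mul (tendsto_lcl hP hB h2))
    ((tendsto_lcl hP hB h3).mul (tendsto_lcl hP hB h4)) ?_
  obtain ⟨n₀, hn₀⟩ := A.GibbsPf.large B
  filter_upwards [hle, eventually_ge_atTop n₀] with n hn hn1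
  have hBD : B ⊆ hexa n := fun x hx => (hn₀ n hn1 x hx).1
  obtain ⟨M₀, hM₀⟩ := sum_lcl (R := R) hB hBD
  obtain ⟨M, hM1, hM2⟩ := (hn.and (eventually_ge_atTop M₀)).exists
  rw [hM₀ M hM2 _ h1, hM₀ M hM2 _ h2, hM₀ M hM2 _ h3, hM₀ M hM2 _ h4] at hM1
  rw [div_mul_div_comm, div_mul_div_comm]
  exact div_le_div_of_nonneg_right hM1 (by positivity)

/-- Passage of an inequality with a constant to the limit. -/
theorem const_mul_le_lim {P : Measure (Pt → ℤ)} (hP : GFF.Plane P) {B : Finset Pt}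
    (hB : B.Nonempty) {R : ℤ} {z : ℝ} {F₁ F₂ : Hg → ℝ} (h1 : Lcl B R F₁) (h2 : Lcl B R F₂)
    (hle : ∀ᶠ n in atTop, ∀ᶠ M : ℤ in atTop,
      z * (∑ H ∈ (gD (hexa n)).Om M Set.univ, F₁ (ex1 H)) ≤
        ∑ H ∈ (gD (hexa n)).Om M Set.univ, F₂ (ex1 H)) :
    z * (∫ h, F₁ h ∂(muT P)) ≤ ∫ h, F₂ h ∂(muT P) := by
  refine le_of_tendsto_of_tendsto ((tendsto_lcl hP hB h1).const_mul z) (tendsto_lcl hP hB h2) ?_
  obtain ⟨n₀, hn₀⟩ := A.GibbsPf.large B
  filter_upwards [hle, eventually_ge_atTop n₀] with n hn hn1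
  have hBD : B ⊆ hexa n := fun x hx => (hn₀ n hn1 x hx).1
  obtain ⟨M₀, hM₀⟩ := sum_lcl (R := R) hB hBD
  obtain ⟨M, hM1, hM2⟩ := (hn.and (eventually_ge_atTop M₀)).exists
  rw [hM₀ M hM2 _ h1, hM₀ M hM2 _ h2] at hM1
  rw [← mul_div_assoc]
  exact div_le_div_of_nonneg_right hM1 (by positivity)

end Vale.Agent.P153.F.Gh
end

section

/-!
# P153-F, block X (triangular lattice): LOW and EXT
-/

namespace Vale.Agent.P153.F.X

open Finset Filter Topology MeasureTheory Relation Vale.Agent.P153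
open Vale.Agent.P153.GFF (Ht Pat hexa LocLim)
open Vale.Agent.P153.F.Gh
open Vale.Agent.P153.F.Top (Om Cone ze vh)
open scoped Classical

namespace LE

variable {D : Finset Pt}

/-! ### Blocked edges of the graph with a ghost -/

/-- The blocked edges. -/
def blW (a : Option {x // x ∈ D} → ℤ) : Set Pt :=
  {w | ∃ x y, ∃ hx : x ∈ D, ∃ hy : y ∈ D, Adj x y ∧ w = x + y ∧ a (some ⟨x, hx⟩) ≤ 1 ∧
    a (some ⟨y, hy⟩) ≤ 1}

theorem blW_anti {a a' : Option {x // x ∈ D} → ℤ} (h : a ≤ a') : blW a' ⊆ blW a := by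
  rintro w ⟨x, y, hx, hy, h1, h2, h3, h4⟩
  exact ⟨x, y, hx, hy, h1, h2, (h _).trans h3, (h _).trans h4⟩

theorem adj_cases {x y : Pt} (h : Adj x y) :
    (y.1 = x.1 + 1 ∧ y.2 = x.2) ∨ (y.1 = x.1 - 1 ∧ y.2 = x.2) ∨ (y.1 = x.1 ∧ y.2 = x.2 + 1) ∨
      (y.1 = x.1 ∧ y.2 = x.2 - 1) ∨ (y.1 = x.1 + 1 ∧ y.2 = x.2 - 1) ∨
      (y.1 = x.1 - 1 ∧ y.2 = x.2 + 1) := by
  unfold Adj at h
  simp only [Set.mem_insert_iff, Set.mem_singleton_iff, Prod.mk.injEq] at h
  rcases h with h | h | h | h | h | h <;> omega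

/-- The edge is determined by its midpoint. -/
theorem edge_eq {x y x' y' : Pt} (h : Adj x y) (h' : Adj x' y') (he : x + y = x' + y') :
    (x' = x ∧ y' = y) ∨ (x' = y ∧ y' = x) := by
  have h1 := adj_cases h
  have h2 := adj_cases h'
  have e1 : x.1 + y.1 = x'.1 + y'.1 := congrArg Prod.fst he
  have e2 : x.2 + y.2 = x'.2 + y'.2 := congrArg Prod.snd he
  have key : (x'.1 = x.1 ∧ x'.2 = x.2 ∧ y'.1 = y.1 ∧ y'.2 = y.2) ∨
      (x'.1 = y.1 ∧ x'.2 = y.2 ∧ y'.1 = x.1 ∧ y'.2 = x.2) := by omega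
  rcases key with ⟨k1, k2, k3, k4⟩ | ⟨k1, k2, k3, k4⟩
  · exact Or.inl ⟨Prod.ext k1 k2, Prod.ext k3 k4⟩
  · exact Or.inr ⟨Prod.ext k1 k2, Prod.ext k3 k4⟩

/-- The ends of the edges with midpoint in `Λ`. -/
noncomputable def eb (Λ : Finset Pt) : Finset Pt :=
  Λ.biUnion fun w => Finset.Icc ((w.1 - 1) / 2) ((w.1 + 1) / 2) ×ˢ
    Finset.Icc ((w.2 - 1) / 2) ((w.2 + 1) / 2)

theorem mem_eb {Λ : Finset Pt} {w x y : Pt} (hw : w ∈ Λ) (h : Adj x y) (he : w = x + y) :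
    x ∈ eb Λ ∧ y ∈ eb Λ := by
  have h1 := adj_cases h
  have e1 : w.1 = x.1 + y.1 := congrArg Prod.fst he
  have e2 : w.2 = x.2 + y.2 := congrArg Prod.snd he
  unfold eb
  rw [Finset.mem_biUnion, Finset.mem_biUnion]
  constructor
  · refine ⟨w, hw, ?_⟩
    rw [Finset.mem_product, Finset.mem_Icc, Finset.mem_Icc]
    omega
  · refine ⟨w, hw, ?_⟩
    rw [Finset.mem_product, Finset.mem_Icc, Finset.mem_Icc]
    omega

theorem bl_congr {Λ B : Finset Pt} (hB : eb Λ ⊆ B) {h h' : Hg} (hh : ∀ x ∈ B, h x = h' x)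
    {w : Pt} (hw : w ∈ Λ) : w ∈ bl h ↔ w ∈ bl h' := by
  constructor
  · rintro ⟨x, y, h1, h2, h3, h4⟩
    obtain ⟨h5, h6⟩ := mem_eb hw h1 h2
    exact ⟨x, y, h1, h2, by rw [← hh x (hB h5)]; exact h3, by rw [← hh y (hB h6)]; exact h4⟩
  · rintro ⟨x, y, h1, h2, h3, h4⟩
    obtain ⟨h5, h6⟩ := mem_eb hw h1 h2
    exact ⟨x, y, h1, h2, by rw [hh x (hB h5)]; exact h3, by rw [hh y (hB h6)]; exact h4⟩

/-- The blocked edges of heights with a ghost. -/
theorem bl_ex1 {M : ℤ} {S : Set (Option {x // x ∈ D})} {H : Option {x // x ∈ D} → ℤ}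
    (hH : H ∈ (gD D).Om M S) {Λ : Finset Pt} (hΛ : eb Λ ⊆ D) {w : Pt} (hw : w ∈ Λ) :
    w ∈ bl (ex1 H) ↔ w ∈ blW (Gh.ab H) := by
  obtain ⟨-, ⟨hpar, -⟩, -⟩ := (gD D).mem_Om.1 hH
  constructor
  · rintro ⟨x, y, h1, h2, h3, h4⟩
    obtain ⟨h5, h6⟩ := mem_eb hw h1 h2
    rw [ex1_in (hΛ h5)] at h3
    rw [ex1_in (hΛ h6)] at h4
    exact ⟨x, y, hΛ h5, hΛ h6, h1, h2, h3.le, h4.le⟩
  · rintro ⟨x, y, hx, hy, h1, h2, h3, h4⟩
    refine ⟨x, y, h1, h2, ?_, ?_⟩
    · rw [ex1_in hx]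
      exact (gD D).eq_b_of ((gD D).even_abs (hpar _)) (abs_nonneg _) h3
    · rw [ex1_in hy]
      exact (gD D).eq_b_of ((gD D).even_abs (hpar _)) (abs_nonneg _) h4

/-- The box. -/
noncomputable def bL (L : ℕ) : Finset Pt :=
  Finset.Icc (-(L : ℤ)) L ×ˢ Finset.Icc (-(L : ℤ)) L

theorem mem_bL {L : ℕ} {x : Pt} : x ∈ bL L ↔ (-(L : ℤ) ≤ x.1 ∧ x.1 ≤ L) ∧
    (-(L : ℤ) ≤ x.2 ∧ x.2 ≤ L) := by
  unfold bL
  rw [Finset.mem_product, Finset.mem_Icc, Finset.mem_Icc]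

theorem exists_bL (S : Finset Pt) : ∃ L : ℕ, S ⊆ bL L := by
  refine ⟨∑ x ∈ S, (x.1.natAbs + x.2.natAbs), fun x hx => ?_⟩
  have h := Finset.single_le_sum (f := fun x : Pt => x.1.natAbs + x.2.natAbs)
    (fun x _ => Nat.zero_le _) hx
  rw [mem_bL]
  omega

theorem bL_nonempty (L : ℕ) : (bL L).Nonempty := ⟨(0, 0), by rw [mem_bL]; simp⟩

theorem row_bdd {L : ℕ} {h : Hg} (hh : ∀ x ∈ bL L, ∀ y ∈ bL L, Adj x y → |h x - h y| ≤ 2)
    (x : Pt) (hx : x ∈ bL L) (k : ℕ) (hk : (x.1 + k, x.2) ∈ bL L) :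
    |h (x.1 + (k : ℤ), x.2) - h x| ≤ 2 * k := by
  induction k with
  | zero => simp
  | succ k ih =>
    rw [mem_bL] at hx hk
    push_cast at hk
    have h1 : ((x.1 + (k : ℤ), x.2) : Pt) ∈ bL L := by
      rw [mem_bL]
      simp only at hk ⊢
      omega
    have h2 := hh _ h1 (x.1 + ((k + 1 : ℕ) : ℤ), x.2)
      (by rw [mem_bL]; dsimp only; push_cast; omega) (adj_right x k)
    have h3 := ih h1
    rw [abs_le] at h2 h3 ⊢
    push_cast at h2 h3 ⊢
    omega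

theorem adj_up (x : Pt) (k : ℕ) : Adj (x.1, x.2 + (k : ℤ)) (x.1, x.2 + ((k + 1 : ℕ) : ℤ)) := by
  unfold Adj
  simp

theorem col_bdd {L : ℕ} {h : Hg} (hh : ∀ x ∈ bL L, ∀ y ∈ bL L, Adj x y → |h x - h y| ≤ 2)
    (x : Pt) (hx : x ∈ bL L) (k : ℕ) (hk : (x.1, x.2 + (k : ℤ)) ∈ bL L) :
    |h (x.1, x.2 + (k : ℤ)) - h x| ≤ 2 * k := by
  induction k with
  | zero => simp
  | succ k ih =>
    rw [mem_bL] at hx hk
    push_cast at hk
    have h1 : ((x.1, x.2 + (k : ℤ)) : Pt) ∈ bL L := by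
      rw [mem_bL]
      simp only at hk ⊢
      omega
    have h2 := hh _ h1 (x.1, x.2 + ((k + 1 : ℕ) : ℤ))
      (by rw [mem_bL]; dsimp only; push_cast; omega) (adj_up x k)
    have h3 := ih h1
    rw [abs_le] at h2 h3 ⊢
    push_cast at h2 h3 ⊢
    omega

/-- Heights in the box differ by at most `8 L`. -/
theorem box_bdd {L : ℕ} {h : Hg} (hh : ∀ x ∈ bL L, ∀ y ∈ bL L, Adj x y → |h x - h y| ≤ 2)
    {x y : Pt} (hx : x ∈ bL L) (hy : y ∈ bL L) : |h x - h y| ≤ 8 * L := by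
  have row : ∀ x y : Pt, x ∈ bL L → y ∈ bL L → x.2 = y.2 → x.1 ≤ y.1 → |h y - h x| ≤ 4 * L := by
    intro x y hx hy h2 h1
    obtain ⟨k, hk⟩ := Int.le.dest h1
    have e : y = (x.1 + (k : ℤ), x.2) := Prod.ext hk.symm h2.symm
    rw [e] at hy ⊢
    have := row_bdd hh x hx k hy
    rw [mem_bL] at hx hy
    simp only at hy
    refine this.trans ?_
    omega
  have col : ∀ x y : Pt, x ∈ bL L → y ∈ bL L → x.1 = y.1 → x.2 ≤ y.2 → |h y - h x| ≤ 4 * L := by
    intro x y hx hy h1 h2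
    obtain ⟨k, hk⟩ := Int.le.dest h2
    have e : y = (x.1, x.2 + (k : ℤ)) := Prod.ext h1.symm hk.symm
    rw [e] at hy ⊢
    have := col_bdd hh x hx k hy
    rw [mem_bL] at hx hy
    simp only at hy
    refine this.trans ?_
    omega
  have hz : ((y.1, x.2) : Pt) ∈ bL L := by
    rw [mem_bL] at hx hy ⊢
    exact ⟨hy.1, hx.2⟩
  have h1 : |h x - h (y.1, x.2)| ≤ 4 * L := by
    rcases le_total x.1 y.1 with h | h
    · rw [abs_sub_comm]; exact row x (y.1, x.2) hx hz rfl h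
    · exact row (y.1, x.2) x hz hx rfl h
  have h2 : |h (y.1, x.2) - h y| ≤ 4 * L := by
    rcases le_total x.2 y.2 with h | h
    · rw [abs_sub_comm]; exact col (y.1, x.2) y hz hy rfl h
    · exact col y (y.1, x.2) hy hz rfl h
  have h3 := abs_sub_le (h x) (h (y.1, x.2)) (h y)
  linarith

/-- Product of real heights. -/
def pv (v : List Pt) (h : Hg) : ℝ := (v.map fun x => (h x : ℝ)).prod

theorem pv_congr {v : List Pt} {h h' : Hg} (hh : ∀ x ∈ v, h x = h' x) : pv v h = pv v h' := by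
  unfold pv
  congr 1
  exact List.map_congr_left fun x hx => by rw [hh x hx]

/-- The functions of the statements are local. -/
theorem lcl_of {g g' : Set Pt → ℝ} {Λ Λ' : Finset Pt} (hg : g ∅ = 0)
    (hΛ : ∀ B B' : Set Pt, (∀ w ∈ Λ, w ∈ B ↔ w ∈ B') → g B = g B')
    (hΛ' : ∀ B B' : Set Pt, (∀ w ∈ Λ', w ∈ B ↔ w ∈ B') → g' B = g' B') {v : List Pt} {L : ℕ}
    (h1 : eb Λ ⊆ bL L) (h2 : eb Λ' ⊆ bL L) (h3 : ∀ x ∈ v, x ∈ bL L) :
    Lcl (bL L) (1 + 8 * L) fun h => g (bl h) * (g' (bl h) * pv v h) := by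
  refine ⟨fun h h' hh => ?_, fun h hodd hlip hne => ?_⟩
  · rw [hΛ (bl h) (bl h') fun w hw => bl_congr h1 hh hw,
      hΛ' (bl h) (bl h') fun w hw => bl_congr h2 hh hw, pv_congr fun x hx => hh x (h3 x hx)]
  · have hg' : g (bl h) ≠ 0 := left_ne_zero_of_mul hne
    have hex : ∃ w ∈ Λ, w ∈ bl h := by
      by_contra hcon
      push Not at hcon
      apply hg'
      rw [← hg]
      exact hΛ _ _ fun w hw => ⟨fun h' => absurd h' (hcon w hw), fun h' => absurd h' (by simp)⟩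
    obtain ⟨w, hw, x, y, hxy, he, hx, -⟩ := hex
    have hxB := h1 (mem_eb hw hxy he).1
    intro z hz
    have h4 := box_bdd hlip hz hxB
    have h5 := abs_sub_abs_le_abs_sub (h z) (h x)
    rw [hx] at h5
    linarith

/-- Vertices as sites. -/
noncomputable def tW (D : Finset Pt) (x : Pt) : Option {x // x ∈ D} :=
  if h : x ∈ D then some ⟨x, h⟩ else none

theorem tW_in {x : Pt} (h : x ∈ D) : tW D x = some ⟨x, h⟩ := dif_pos h

theorem pv_ex1 {v : List Pt} (hv : ∀ x ∈ v, x ∈ D) (H : Option {x // x ∈ D} → ℤ) :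
    pv v (ex1 H) = mon (v.map (tW D)) H := by
  unfold pv mon
  rw [List.map_map]
  congr 1
  refine List.map_congr_left fun x hx => ?_
  show ((ex1 H x : ℤ) : ℝ) = ((H (tW D x) : ℤ) : ℝ)
  rw [ex1_in (hv x hx), tW_in (hv x hx)]

theorem fn_ex1 {g g' : Set Pt → ℝ} {Λ Λ' : Finset Pt}
    (hΛ : ∀ B B' : Set Pt, (∀ w ∈ Λ, w ∈ B ↔ w ∈ B') → g B = g B')
    (hΛ' : ∀ B B' : Set Pt, (∀ w ∈ Λ', w ∈ B ↔ w ∈ B') → g' B = g' B') {v : List Pt}
    (h1 : eb Λ ⊆ D) (h2 : eb Λ' ⊆ D) (h3 : ∀ x ∈ v, x ∈ D) {M : ℤ}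
    {S : Set (Option {x // x ∈ D})} {H : Option {x // x ∈ D} → ℤ} (hH : H ∈ (gD D).Om M S) :
    g (bl (ex1 H)) * (g' (bl (ex1 H)) * pv v (ex1 H)) =
      g (blW (Gh.ab H)) * (g' (blW (Gh.ab H)) * mon (v.map (tW D)) H) := by
  rw [hΛ _ _ fun w hw => bl_ex1 hH h1 hw, hΛ' _ _ fun w hw => bl_ex1 hH h2 hw, pv_ex1 h3]

/-! ### EXT -/

theorem disj_of_conf {p : Pt} {r : ℤ} (hD : ∀ x ∈ bx p (2 * r), x ∈ D ∧ ∀ y, Adj x y → y ∈ D)
    {a : Option {x // x ∈ D} → ℤ} (hc : Conf (blW a) (bx p r) (bx p (2 * r))) :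
    Disjoint ((gD D).cl {u | ∃ x ∈ bx p r, ∃ h : x ∈ D, u = some ⟨x, h⟩} a)
      {u | ∃ x, x ∉ bx p (2 * r) ∧ ∃ h : x ∈ D, u = some ⟨x, h⟩} := by
  rw [Set.disjoint_left]
  rintro u ⟨u₀, ⟨x₀, hx₀, hx₀D, rfl⟩, hp⟩ ⟨z, hz, hzD, rfl⟩
  have key : ∀ u, ReflTransGen ((gD D).op a) (some ⟨x₀, hx₀D⟩) u →
      ∃ x, ∃ h : x ∈ D, u = some ⟨x, h⟩ ∧ ReflTransGen (stp (blW a)) x₀ x := by
    intro u hu
    induction hu with
    | refl => exact ⟨x₀, hx₀D, rfl, ReflTransGen.refl⟩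
    | @tail s t _ hst ih =>
      obtain ⟨x, hx, rfl, hpx⟩ := ih
      have hxb : x ∈ bx p (2 * r) := hc x₀ hx₀ x hpx
      obtain ⟨h1, h2⟩ := hst
      rcases t with _ | ⟨y, hy⟩
      · obtain ⟨w, hw1, hw2⟩ := h1
        exact absurd ((hD x hxb).2 w hw1) hw2
      · refine ⟨y, hy, rfl, hpx.tail ⟨h1, ?_⟩⟩
        rintro ⟨x', y', hx', hy', h3, h4, h5, h6⟩
        rcases edge_eq h1 h3 h4 with ⟨rfl, rfl⟩ | ⟨rfl, rfl⟩
        · exact h2 ⟨h5, h6⟩
        · exact h2 ⟨h6, h5⟩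
  obtain ⟨x, hx, he, hpx⟩ := key _ hp
  have hxz : x = z := by
    have := Option.some.inj he
    exact (congrArg Subtype.val this).symm
  subst hxz
  exact hz (hc x₀ hx₀ x hpx)

/-- EXT for products of heights. -/
theorem ext_mon {P : Measure (Pt → ℤ)} (hP : GFF.Plane P) (p : Pt) (r : ℤ)
    {X Θ a : Set Pt → ℝ} (hX : Fn Set.univ X) (hXm : Monotone X)
    (hXc : ∀ B, X B ≠ 0 → Conf B (bx p r) (bx p (2 * r))) (hΘ : Fn (iE (bx p r)) Θ)
    (ha0 : ∀ B, 0 ≤ a B) (ha : LocS (tE (bx p (3 * r)))ᶜ a) (haa : Antitone a) (hr : 1 ≤ r)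
    {v : List Pt} (hv : ∀ x ∈ v, x ∉ bx p (2 * r)) :
    (∫ h, X (bl h) * (a (bl h) * pv v h) ∂(muT P)) * (∫ h, Θ (bl h) ∂(muT P)) ≤
      (∫ h, X (bl h) ∂(muT P)) * ∫ h, Θ (bl h) * (a (bl h) * pv v h) ∂(muT P) := by
  obtain ⟨Λ₁, -, hΛ₁⟩ := hX.loc
  obtain ⟨Λ₂, hΛ₂', hΛ₂⟩ := hΘ.loc
  obtain ⟨Λ₃, hΛ₃', hΛ₃⟩ := ha
  obtain ⟨L, hL⟩ := exists_bL (eb Λ₁ ∪ eb Λ₂ ∪ eb Λ₃ ∪ v.toFinset)
  have hb1 : eb Λ₁ ⊆ bL L := fun x hx => hL (by simp [hx])
  have hb2 : eb Λ₂ ⊆ bL L := fun x hx => hL (by simp [hx])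
  have hb3 : eb Λ₃ ⊆ bL L := fun x hx => hL (by simp [hx])
  have hb4 : ∀ x ∈ v, x ∈ bL L := fun x hx => hL (by simp [hx])
  have c1 : ∀ B B' : Set Pt, (∀ w ∈ (∅ : Finset Pt), w ∈ B ↔ w ∈ B') →
      (fun _ : Set Pt => (1 : ℝ)) B = (fun _ : Set Pt => (1 : ℝ)) B' := fun _ _ _ => rfl
  have e0 : eb (∅ : Finset Pt) ⊆ bL L := by simp [eb]
  have l1 := lcl_of hX.pin hΛ₁ hΛ₃ (v := v) hb1 hb3 hb4
  have l2 := lcl_of hΘ.pin hΛ₂ c1 (v := []) hb2 e0 (by simp)
  have l3 := lcl_of hX.pin hΛ₁ c1 (v := []) hb1 e0 (by simp)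
  have l4 := lcl_of hΘ.pin hΛ₂ hΛ₃ (v := v) hb2 hb3 hb4
  have hnil : ∀ h : Hg, pv [] h = 1 := fun _ => rfl
  have hnil' : ∀ (E : Finset Pt) (H : Option {x // x ∈ E} → ℤ), mon (([] : List Pt).map (tW E)) H = 1 :=
    fun _ _ => rfl
  have key := mul_le_lim hP (bL_nonempty L) l1 l2 l3 l4 ?_
  · simpa only [hnil, mul_one] using key
  obtain ⟨L', hL'⟩ := exists_bL (Finset.Icc (p.1 - 2 * r) (p.1 + 2 * r) ×ˢ
    Finset.Icc (p.2 - 2 * r) (p.2 + 2 * r))
  obtain ⟨n₁, hn₁⟩ := A.GibbsPf.large (bL L)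
  obtain ⟨n₂, hn₂⟩ := A.GibbsPf.large (bL L')
  filter_upwards [eventually_ge_atTop n₁, eventually_ge_atTop n₂] with n h1 h2
  filter_upwards [eventually_ge_atTop 1] with M hM
  have hBD : bL L ⊆ hexa n := fun x hx => (hn₁ n h1 x hx).1
  have hbox : ∀ x ∈ bx p (2 * r), x ∈ hexa n ∧ ∀ y, Adj x y → y ∈ hexa n := by
    intro x hx
    refine hn₂ n h2 x (hL' ?_)
    have hx' : |x.1 - p.1| ≤ 2 * r ∧ |x.2 - p.2| ≤ 2 * r := hx
    rw [abs_le, abs_le] at hx'
    rw [Finset.mem_product, Finset.mem_Icc, Finset.mem_Icc]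
    omega
  set O : Set (Option {x // x ∈ hexa n}) := {u | ∃ x ∈ bx p r, ∃ h : x ∈ hexa n, u = some ⟨x, h⟩}
    with hO
  set I : Set (Option {x // x ∈ hexa n}) :=
    {u | ∃ x, x ∉ bx p (2 * r) ∧ ∃ h : x ∈ hexa n, u = some ⟨x, h⟩} with hI
  have key := (gD (hexa n)).ext_le (M := M) hM (O := O) (I := I) (X := fun a => X (blW a))
    (Θ := fun a => Θ (blW a)) (fun _ => hX.nonneg _) (fun _ _ h => hXm (blW_anti h))
    (fun a hne => disj_of_conf hbox (hXc _ hne)) (fun _ => hΘ.nonneg _)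
    (by
      intro a₁ a₂ h12
      refine hΛ₂ _ _ fun w hw => ?_
      obtain ⟨x, hx, y, hy, hxy, he⟩ := hΛ₂' w hw
      have hin : ∀ z (hz : z ∈ hexa n), z ∈ bx p r → a₁ (some ⟨z, hz⟩) = a₂ (some ⟨z, hz⟩) := by
        intro z hz hzb
        refine h12 _ fun h' => ?_
        exact h'.1 ⟨z, hzb, hz, rfl⟩
      have hends : ∀ x' y' : Pt, Adj x' y' → w = x' + y' → x' ∈ bx p r ∧ y' ∈ bx p r := by
        intro x' y' h3 h4
        rcases edge_eq hxy h3 (he.symm.trans h4) with ⟨rfl, rfl⟩ | ⟨rfl, rfl⟩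
        · exact ⟨hx, hy⟩
        · exact ⟨hy, hx⟩
      constructor
      · rintro ⟨x', y', hx', hy', h3, h4, h5, h6⟩
        obtain ⟨h7, h8⟩ := hends x' y' h3 h4
        exact ⟨x', y', hx', hy', h3, h4, by rw [← hin x' hx' h7]; exact h5,
          by rw [← hin y' hy' h8]; exact h6⟩
      · rintro ⟨x', y', hx', hy', h3, h4, h5, h6⟩
        obtain ⟨h7, h8⟩ := hends x' y' h3 h4
        exact ⟨x', y', hx', hy', h3, h4, by rw [hin x' hx' h7]; exact h5,
          by rw [hin y' hy' h8]; exact h6⟩)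
    (B := fun b => a (blW b)) (fun _ => ha0 _) (fun _ _ h => haa (blW_anti h))
    (v.map (tW (hexa n)))
    (by
      intro H H' hHH
      have hout : ∀ z (hz : z ∈ hexa n), z ∉ bx p (2 * r) → H (some ⟨z, hz⟩) = H' (some ⟨z, hz⟩) :=
        fun z hz hzb => hHH _ ⟨z, hzb, hz, rfl⟩
      have hends : ∀ w ∈ Λ₃, ∀ x' y' : Pt, Adj x' y' → w = x' + y' →
          x' ∉ bx p (2 * r) ∧ y' ∉ bx p (2 * r) := by
        intro w hw x' y' h3 h4
        have h5 := hΛ₃' w hw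
        have hsub : ∀ z, z ∈ bx p (2 * r) → z ∈ bx p (3 * r) := by
          intro z hz
          have hz' : |z.1 - p.1| ≤ 2 * r ∧ |z.2 - p.2| ≤ 2 * r := hz
          exact ⟨hz'.1.trans (by linarith), hz'.2.trans (by linarith)⟩
        constructor
        · intro h6
          exact h5 ⟨x', hsub _ h6, y', h3, h4⟩
        · intro h6
          exact h5 ⟨y', hsub _ h6, x', h3.symm, by rw [h4, add_comm]⟩
      have e1 : a (blW (Gh.ab H)) = a (blW (Gh.ab H')) := by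
        refine hΛ₃ _ _ fun w hw => ?_
        constructor
        · rintro ⟨x', y', hx', hy', h3, h4, h5, h6⟩
          obtain ⟨h7, h8⟩ := hends w hw x' y' h3 h4
          refine ⟨x', y', hx', hy', h3, h4, ?_, ?_⟩
          · unfold Gh.ab at h5 ⊢; rw [← hout x' hx' h7]; exact h5
          · unfold Gh.ab at h6 ⊢; rw [← hout y' hy' h8]; exact h6
        · rintro ⟨x', y', hx', hy', h3, h4, h5, h6⟩
          obtain ⟨h7, h8⟩ := hends w hw x' y' h3 h4
          refine ⟨x', y', hx', hy', h3, h4, ?_, ?_⟩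
          · unfold Gh.ab at h5 ⊢; rw [hout x' hx' h7]; exact h5
          · unfold Gh.ab at h6 ⊢; rw [hout y' hy' h8]; exact h6
      have e2 : mon (v.map (tW (hexa n))) H = mon (v.map (tW (hexa n))) H' := by
        unfold mon
        rw [List.map_map, List.map_map]
        congr 1
        refine List.map_congr_left fun x hx => ?_
        show ((H (tW (hexa n) x) : ℤ) : ℝ) = ((H' (tW (hexa n) x) : ℤ) : ℝ)
        rw [tW_in (hBD (hb4 x hx)), hout x _ (hv x hx)]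
      show a (blW (Gh.ab H)) * mon _ H = a (blW (Gh.ab H')) * mon _ H'
      rw [e1, e2])
  have e0' : eb (∅ : Finset Pt) ⊆ hexa n := by simp [eb]
  have t1 : ∀ H ∈ (gD (hexa n)).Om M Set.univ, X (bl (ex1 H)) * (a (bl (ex1 H)) * pv v (ex1 H)) =
      X (blW (Gh.ab H)) * (a (blW (Gh.ab H)) * mon (v.map (tW (hexa n))) H) := fun H hH =>
    fn_ex1 hΛ₁ hΛ₃ (hb1.trans hBD) (hb3.trans hBD) (fun x hx => hBD (hb4 x hx)) hH
  have t2 : ∀ H ∈ (gD (hexa n)).Om M Set.univ,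
      Θ (bl (ex1 H)) * ((fun _ : Set Pt => (1 : ℝ)) (bl (ex1 H)) * pv [] (ex1 H)) =
      Θ (blW (Gh.ab H)) := fun H hH => by
    rw [fn_ex1 hΛ₂ c1 (hb2.trans hBD) e0' (by simp) hH, hnil', mul_one, mul_one]
  have t3 : ∀ H ∈ (gD (hexa n)).Om M Set.univ,
      X (bl (ex1 H)) * ((fun _ : Set Pt => (1 : ℝ)) (bl (ex1 H)) * pv [] (ex1 H)) =
      X (blW (Gh.ab H)) := fun H hH => by
    rw [fn_ex1 hΛ₁ c1 (hb1.trans hBD) e0' (by simp) hH, hnil', mul_one, mul_one]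
  have t4 : ∀ H ∈ (gD (hexa n)).Om M Set.univ, Θ (bl (ex1 H)) * (a (bl (ex1 H)) * pv v (ex1 H)) =
      Θ (blW (Gh.ab H)) * (a (blW (Gh.ab H)) * mon (v.map (tW (hexa n))) H) := fun H hH =>
    fn_ex1 hΛ₂ hΛ₃ (hb2.trans hBD) (hb3.trans hBD) (fun x hx => hBD (hb4 x hx)) hH
  rw [Finset.sum_congr rfl t1, Finset.sum_congr rfl t2, Finset.sum_congr rfl t3,
    Finset.sum_congr rfl t4]
  exact key

/-! ### LOW -/

/-- Sites of `F`. -/
def FD (D F : Finset Pt) : Set (Option {x // x ∈ D}) := {u | ∃ x ∈ F, ∃ h : x ∈ D, u = some ⟨x, h⟩}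

theorem some_mem_FD {F : Finset Pt} {x : Pt} (hx : x ∈ D) :
    (some ⟨x, hx⟩ : Option {x // x ∈ D}) ∈ FD D F ↔ x ∈ F := by
  constructor
  · rintro ⟨y, hy, hyD, he⟩
    have := congrArg Subtype.val (Option.some.inj he)
    have e : x = y := this
    rw [e]; exact hy
  · intro h
    exact ⟨x, h, hx, rfl⟩

/-- Exchange of the heights on `U`. -/
noncomputable def swA (U : Finset Pt) (H : Option {x // x ∈ D} → ℤ) (g : Hg) :
    Option {x // x ∈ D} → ℤ
  | none => H none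
  | some x => if x.1 ∈ U then g x.1 else H (some x)

/-- Exchange of the heights on `U`. -/
noncomputable def swB (U : Finset Pt) (H : Option {x // x ∈ D} → ℤ) : Hg :=
  fun x => if x ∈ U then ex1 H x else 1

theorem free_eq {F : Finset Pt} (hD : ∀ x ∈ clo F, x ∈ D ∧ ∀ y, Adj x y → y ∈ D) {M : ℤ}
    (hM : 1 + 2 * (#F : ℤ) ≤ M) {G : Hg → ℝ}
    (hG : ∀ h h' : Hg, (∀ x ∈ clo F, h x = h' x) → G h = G h') :
    (∑ H ∈ (gD D).Om M (FD D F), G (ex1 H)) * (#(FreeF F (clo F)) : ℝ) =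
      (#((gD D).Om M (FD D F)) : ℝ) * ∑ g ∈ FreeF F (clo F), G g := by
  set U := clo F with hU
  have hFU : ∀ x ∈ F, x ∈ U := sub_clo F
  have hmem : ∀ p ∈ (gD D).Om M (FD D F) ×ˢ FreeF F U,
      swA U p.1 p.2 ∈ (gD D).Om M (FD D F) ∧ swB U p.1 ∈ FreeF F U := by
    rintro ⟨H, g⟩ hp
    obtain ⟨hH, hg⟩ := Finset.mem_product.1 hp
    simp only at hH hg ⊢
    obtain ⟨hHM, ⟨hpar, hlip⟩, hout⟩ := (gD D).mem_Om.1 hH
    rw [mem_FreeF] at hg
    obtain ⟨hgL, hg1, hg2⟩ := hg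
    have hH1 : ∀ x (hx : x ∈ D), x ∉ F → |H (some ⟨x, hx⟩)| = 1 := by
      intro x hx hxF
      rw [hout _ fun h => hxF ((some_mem_FD hx).1 h)]
      rfl
    have hH0 : H none = 0 := by
      have h := hout none (by rintro ⟨x, -, h, he⟩; exact absurd he (by simp))
      rw [gD_b_none] at h
      exact abs_eq_zero.1 h
    have hnF : ∀ x y, x ∈ U → y ∉ U → Adj x y → x ∉ F := fun x y _ hy hxy hxF =>
      hy (adj_clo F x hxF y hxy)
    have hF' : ∀ y, y ∉ U → y ∉ F := fun y hy h => hy (hFU y h)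
    constructor
    · refine (gD D).mem_Om.2 ⟨?_, ⟨?_, ?_⟩, ?_⟩
      · rintro (_ | x)
        · exact hHM none
        · show |if x.1 ∈ U then g x.1 else H (some x)| ≤ M
          split_ifs
          · exact (hgL.bdd (D := F) (fun y hy => (hg1 y hy).le) x.1).trans hM
          · exact hHM _
      · rintro (_ | x)
        · exact hpar none
        · show Even ((if x.1 ∈ U then g x.1 else H (some x)) - 1)
          split_ifs
          · obtain ⟨m, hm⟩ := hgL.1 x.1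
            exact ⟨m, by omega⟩
          · exact hpar (some x)
      · have key : ∀ x : {x // x ∈ D}, (∃ w, Adj x.1 w ∧ w ∉ D) →
            |swA U H g none - swA U H g (some x)| ≤ 2 := by
          intro x hx
          have hxU : x.1 ∉ U := by
            intro h
            obtain ⟨w, hw1, hw2⟩ := hx
            exact hw2 ((hD x.1 h).2 w hw1)
          show |H none - if x.1 ∈ U then g x.1 else H (some x)| ≤ 2
          rw [if_neg hxU]
          exact hlip none (some x) hx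
        have key2 : ∀ x y : {x // x ∈ D}, Adj x.1 y.1 → x.1 ∈ U → y.1 ∉ U →
            |g x.1 - H (some y)| ≤ 2 := by
          intro x y hxy hx hy
          have h1 := hg1 x.1 (hnF _ _ hx hy hxy)
          have h2 := hH1 y.1 y.2 (hF' _ hy)
          have h3 : |H (some y)| = 1 := h2
          rcases (abs_eq (zero_le_one' ℤ)).1 h1 with h4 | h4 <;>
            rcases (abs_eq (zero_le_one' ℤ)).1 h3 with h5 | h5 <;> rw [h4, h5] <;> norm_num
        intro u v huv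
        rcases u with _ | x <;> rcases v with _ | y
        · exact huv.elim
        · exact key y huv
        · rw [abs_sub_comm]; exact key x huv
        · show |(if x.1 ∈ U then g x.1 else H (some x)) -
            (if y.1 ∈ U then g y.1 else H (some y))| ≤ 2
          by_cases hx : x.1 ∈ U <;> by_cases hy : y.1 ∈ U
          · rw [if_pos hx, if_pos hy]; exact hgL.2 _ _ huv
          · rw [if_pos hx, if_neg hy]; exact key2 x y huv hx hy
          · rw [if_neg hx, if_pos hy, abs_sub_comm]; exact key2 y x (Adj.symm huv) hy hx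
          · rw [if_neg hx, if_neg hy]; exact hlip _ _ huv
      · rintro (_ | x) hu
        · exact hout none hu
        · have hxF : x.1 ∉ F := fun h => hu ((some_mem_FD x.2).2 h)
          show |if x.1 ∈ U then g x.1 else H (some x)| = 1
          split_ifs
          · exact hg1 x.1 hxF
          · exact hH1 x.1 x.2 hxF
    · rw [mem_FreeF]
      have hv1 : ∀ x, x ∉ F → |swB U H x| = 1 := by
        intro x hx
        unfold swB
        split_ifs with h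
        · rw [ex1_in (hD x h).1]; exact hH1 x _ hx
        · exact abs_one
      refine ⟨⟨fun x => ?_, fun x y hxy => ?_⟩, hv1, fun x hx => if_neg hx⟩
      · unfold swB
        split_ifs with h
        · rw [ex1_in (hD x h).1]
          obtain ⟨m, hm⟩ := hpar (some ⟨x, (hD x h).1⟩)
          rw [gD_b_some] at hm
          exact ⟨m, by omega⟩
        · exact odd_one
      · by_cases hx : x ∈ U <;> by_cases hy : y ∈ U
        · unfold swB
          rw [if_pos hx, if_pos hy, ex1_in (hD x hx).1, ex1_in (hD y hy).1]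
          exact hlip _ _ hxy
        · have h1 := hv1 x (hnF x y hx hy hxy)
          have h2 := hv1 y (hF' y hy)
          rcases (abs_eq (zero_le_one' ℤ)).1 h1 with h4 | h4 <;>
            rcases (abs_eq (zero_le_one' ℤ)).1 h2 with h5 | h5 <;> rw [h4, h5] <;> norm_num
        · have h1 := hv1 x (hF' x hx)
          have h2 := hv1 y (hnF y x hy hx hxy.symm)
          rcases (abs_eq (zero_le_one' ℤ)).1 h1 with h4 | h4 <;>
            rcases (abs_eq (zero_le_one' ℤ)).1 h2 with h5 | h5 <;> rw [h4, h5] <;> norm_num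
        · unfold swB
          rw [if_neg hx, if_neg hy]
          norm_num
  have hback : ∀ p ∈ (gD D).Om M (FD D F) ×ˢ FreeF F U,
      (swA U (swA U p.1 p.2) (swB U p.1), swB U (swA U p.1 p.2)) = p := by
    rintro ⟨H, g⟩ hp
    obtain ⟨hH, hg⟩ := Finset.mem_product.1 hp
    simp only at hH hg ⊢
    rw [mem_FreeF] at hg
    refine Prod.ext ?_ ?_
    · funext u
      rcases u with _ | x
      · rfl
      · show (if x.1 ∈ U then swB U H x.1 else if x.1 ∈ U then g x.1 else H (some x)) = H (some x)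
        by_cases hx : x.1 ∈ U
        · rw [if_pos hx]
          show (if x.1 ∈ U then ex1 H x.1 else 1) = H (some x)
          rw [if_pos hx, ex1_in x.2]
        · rw [if_neg hx, if_neg hx]
    · funext x
      show (if x ∈ U then ex1 (swA U H g) x else 1) = g x
      by_cases hx : x ∈ U
      · rw [if_pos hx, ex1_in (hD x hx).1]
        show (if x ∈ U then g x else _) = g x
        rw [if_pos hx]
      · rw [if_neg hx, hg.2.2 x hx]
  rw [Finset.card_eq_sum_ones, Finset.card_eq_sum_ones, Nat.cast_sum, Nat.cast_sum]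
  simp only [Nat.cast_one]
  rw [Finset.sum_mul_sum, Finset.sum_mul_sum, ← Finset.sum_product', ← Finset.sum_product']
  refine Finset.sum_nbij' (i := fun p : (Option {x // x ∈ D} → ℤ) × Hg =>
    (swA U p.1 p.2, swB U p.1)) (j := fun p => (swA U p.1 p.2, swB U p.1)) ?_ ?_ ?_ ?_ ?_
  · intro p hp
    exact Finset.mem_product.2 (hmem p hp)
  · intro p hp
    exact Finset.mem_product.2 (hmem p hp)
  · exact hback
  · exact hback
  · intro p _
    simp only [mul_one, one_mul]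
    refine hG _ _ fun x hx => ?_
    show ex1 p.1 x = if x ∈ U then ex1 p.1 x else 1
    rw [if_pos hx]

/-- LOW for products of heights, with a decreasing function of the edges of `F`. -/
theorem low_gen {P : Measure (Pt → ℤ)} (hP : GFF.Plane P) (F : Finset Pt) {Θ g : Set Pt → ℝ}
    (hΘ : Fn (tE (F : Set Pt))ᶜ Θ) (hg0 : ∀ B, 0 ≤ g B) (hga : Antitone g)
    (hgl : LocS (tE (F : Set Pt)) g) {v : List Pt} (hv : ∀ x ∈ v, x ∈ F) :
    ev (FreeF F (clo F)) (fun h => g (bl h) * pv v h) * (∫ h, Θ (bl h) ∂(muT P)) ≤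
      ∫ h, Θ (bl h) * (g (bl h) * pv v h) ∂(muT P) := by
  obtain ⟨Λ₂, hΛ₂', hΛ₂⟩ := hΘ.loc
  obtain ⟨Λ₃, hΛ₃', hΛ₃⟩ := hgl
  obtain ⟨L, hL⟩ := exists_bL (eb Λ₂ ∪ eb Λ₃ ∪ v.toFinset ∪ clo F)
  have hb2 : eb Λ₂ ⊆ bL L := fun x hx => hL (by simp [hx])
  have hb3 : eb Λ₃ ⊆ bL L := fun x hx => hL (by simp [hx])
  have hb4 : ∀ x ∈ v, x ∈ bL L := fun x hx => hL (by simp [hx])
  have hb5 : clo F ⊆ bL L := fun x hx => hL (by simp [hx])
  have c1 : ∀ B B' : Set Pt, (∀ w ∈ (∅ : Finset Pt), w ∈ B ↔ w ∈ B') →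
      (fun _ : Set Pt => (1 : ℝ)) B = (fun _ : Set Pt => (1 : ℝ)) B' := fun _ _ _ => rfl
  have e0 : eb (∅ : Finset Pt) ⊆ bL L := by simp [eb]
  have l2 := lcl_of hΘ.pin hΛ₂ c1 (v := []) hb2 e0 (by simp)
  have l4 := lcl_of hΘ.pin hΛ₂ hΛ₃ (v := v) hb2 hb3 hb4
  have hnil : ∀ h : Hg, pv [] h = 1 := fun _ => rfl
  have hnil' : ∀ (E : Finset Pt) (H : Option {x // x ∈ E} → ℤ),
      mon (([] : List Pt).map (tW E)) H = 1 := fun _ _ => rfl
  have key := const_mul_le_lim hP (bL_nonempty L)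
    (z := ev (FreeF F (clo F)) (fun h => g (bl h) * pv v h)) l2 l4 ?_
  · simpa only [hnil, mul_one] using key
  obtain ⟨n₁, hn₁⟩ := A.GibbsPf.large (bL L)
  filter_upwards [eventually_ge_atTop n₁] with n h1
  filter_upwards [eventually_ge_atTop (1 + 2 * (#F : ℤ))] with M hM
  have hM1 : 1 ≤ M := by
    have : (0 : ℤ) ≤ #F := Nat.cast_nonneg _
    linarith
  have hBD : bL L ⊆ hexa n := fun x hx => (hn₁ n h1 x hx).1
  have hcl : ∀ x ∈ clo F, x ∈ hexa n ∧ ∀ y, Adj x y → y ∈ hexa n := fun x hx =>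
    hn₁ n h1 x (hb5 hx)
  have e0' : eb (∅ : Finset Pt) ⊆ hexa n := by simp [eb]
  have key := (gD (hexa n)).low_le (M := M) (D := FD (hexa n) F) (Θ := fun a => Θ (blW a))
    (fun _ => hΘ.nonneg _)
    (by
      intro a₁ a₂ h12
      refine hΛ₂ _ _ fun w hw => ?_
      have hw' := hΛ₂' w hw
      have hends : ∀ x' y' : Pt, Adj x' y' → w = x' + y' → x' ∉ F ∧ y' ∉ F := by
        intro x' y' h3 h4
        exact ⟨fun h => hw' ⟨x', h, y', h3, h4⟩,
          fun h => hw' ⟨y', h, x', h3.symm, by rw [h4, add_comm]⟩⟩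
      have hin : ∀ z (hz : z ∈ hexa n), z ∉ F → a₁ (some ⟨z, hz⟩) = a₂ (some ⟨z, hz⟩) :=
        fun z hz hzF => h12 _ fun h => hzF ((some_mem_FD hz).1 h)
      constructor
      · rintro ⟨x', y', hx', hy', h3, h4, h5, h6⟩
        obtain ⟨h7, h8⟩ := hends x' y' h3 h4
        exact ⟨x', y', hx', hy', h3, h4, by rw [← hin x' hx' h7]; exact h5,
          by rw [← hin y' hy' h8]; exact h6⟩
      · rintro ⟨x', y', hx', hy', h3, h4, h5, h6⟩
        obtain ⟨h7, h8⟩ := hends x' y' h3 h4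
        exact ⟨x', y', hx', hy', h3, h4, by rw [hin x' hx' h7]; exact h5,
          by rw [hin y' hy' h8]; exact h6⟩)
    (B := fun b => g (blW b)) (fun _ => hg0 _) (fun _ _ h => hga (blW_anti h))
    (v.map (tW (hexa n)))
  have t2 : ∀ H ∈ (gD (hexa n)).Om M Set.univ,
      Θ (bl (ex1 H)) * ((fun _ : Set Pt => (1 : ℝ)) (bl (ex1 H)) * pv [] (ex1 H)) =
      Θ (blW (Gh.ab H)) := fun H hH => by
    rw [fn_ex1 hΛ₂ c1 (hb2.trans hBD) e0' (by simp) hH, hnil', mul_one, mul_one]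
  have t4 : ∀ H ∈ (gD (hexa n)).Om M Set.univ, Θ (bl (ex1 H)) * (g (bl (ex1 H)) * pv v (ex1 H)) =
      Θ (blW (Gh.ab H)) * (g (blW (Gh.ab H)) * mon (v.map (tW (hexa n))) H) := fun H hH =>
    fn_ex1 hΛ₂ hΛ₃ (hb2.trans hBD) (hb3.trans hBD) (fun x hx => hBD (hb4 x hx)) hH
  have t1 : ∀ H ∈ (gD (hexa n)).Om M (FD (hexa n) F), g (bl (ex1 H)) * pv v (ex1 H) =
      g (blW (Gh.ab H)) * mon (v.map (tW (hexa n))) H := fun H hH => by
    have := fn_ex1 (g := fun _ => 1) c1 hΛ₃ e0' (hb3.trans hBD) (fun x hx => hBD (hb4 x hx)) hH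
    simpa only [one_mul] using this
  rw [← Finset.sum_congr rfl t1] at key
  have hfe := free_eq (D := hexa n) hcl hM (G := fun h => g (bl h) * pv v h) (by
    intro h h' hh
    have hsub : ∀ w ∈ Λ₃, w ∈ bl h ↔ w ∈ bl h' := by
      intro w hw
      obtain ⟨x, hx, y, hxy, he⟩ := hΛ₃' w hw
      have hx' : x ∈ clo F := sub_clo F x hx
      have hy' : y ∈ clo F := adj_clo F x hx y hxy
      have hends : ∀ x' y' : Pt, Adj x' y' → w = x' + y' → x' ∈ clo F ∧ y' ∈ clo F := by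
        intro x' y' h3 h4
        rcases edge_eq hxy h3 (he.symm.trans h4) with ⟨rfl, rfl⟩ | ⟨rfl, rfl⟩
        · exact ⟨hx', hy'⟩
        · exact ⟨hy', hx'⟩
      constructor
      · rintro ⟨x', y', h3, h4, h5, h6⟩
        obtain ⟨h7, h8⟩ := hends x' y' h3 h4
        exact ⟨x', y', h3, h4, by rw [← hh x' h7]; exact h5, by rw [← hh y' h8]; exact h6⟩
      · rintro ⟨x', y', h3, h4, h5, h6⟩
        obtain ⟨h7, h8⟩ := hends x' y' h3 h4
        exact ⟨x', y', h3, h4, by rw [hh x' h7]; exact h5, by rw [hh y' h8]; exact h6⟩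
    show g (bl h) * pv v h = g (bl h') * pv v h'
    rw [hΛ₃ _ _ hsub, pv_congr fun x hx => hh x (sub_clo F x (hv x hx))])
  rw [Finset.sum_congr rfl t2, Finset.sum_congr rfl t4]
  have hc := (gD (hexa n)).card_pos hM1 (FD (hexa n) F)
  have hf : (0 : ℝ) < #(FreeF F (clo F)) := by exact_mod_cast (nonempty_free _ _).card_pos
  have hz : ∑ H ∈ (gD (hexa n)).Om M (FD (hexa n) F), g (bl (ex1 H)) * pv v (ex1 H) =
      (#((gD (hexa n)).Om M (FD (hexa n) F)) : ℝ) *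
        ev (FreeF F (clo F)) (fun h => g (bl h) * pv v h) := by
    unfold ev
    rw [mul_div_assoc', eq_div_iff hf.ne']
    exact hfe
  rw [hz, mul_assoc] at key
  exact le_of_mul_le_mul_left key hc

/-- Positivity. -/
theorem pos_mon {P : Measure (Pt → ℤ)} (hP : GFF.Plane P) {Θ : Set Pt → ℝ}
    (hΘ : Fn Set.univ Θ) (v : List Pt) : 0 ≤ ∫ h, Θ (bl h) * pv v h ∂(muT P) := by
  obtain ⟨Λ₂, -, hΛ₂⟩ := hΘ.loc
  obtain ⟨L, hL⟩ := exists_bL (eb Λ₂ ∪ v.toFinset)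
  have hb2 : eb Λ₂ ⊆ bL L := fun x hx => hL (by simp [hx])
  have hb4 : ∀ x ∈ v, x ∈ bL L := fun x hx => hL (by simp [hx])
  have c1 : ∀ B B' : Set Pt, (∀ w ∈ (∅ : Finset Pt), w ∈ B ↔ w ∈ B') →
      (fun _ : Set Pt => (1 : ℝ)) B = (fun _ : Set Pt => (1 : ℝ)) B' := fun _ _ _ => rfl
  have e0 : eb (∅ : Finset Pt) ⊆ bL L := by simp [eb]
  have l4 := lcl_of hΘ.pin hΛ₂ c1 (v := v) hb2 e0 hb4
  have key := const_mul_le_lim hP (bL_nonempty L) (z := 0) l4 l4 ?_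
  · simpa only [one_mul, zero_mul] using key
  obtain ⟨n₁, hn₁⟩ := A.GibbsPf.large (bL L)
  filter_upwards [eventually_ge_atTop n₁] with n h1
  refine Eventually.of_forall fun M => ?_
  have hBD : bL L ⊆ hexa n := fun x hx => (hn₁ n h1 x hx).1
  have e0' : eb (∅ : Finset Pt) ⊆ hexa n := by simp [eb]
  have t4 : ∀ H ∈ (gD (hexa n)).Om M Set.univ,
      Θ (bl (ex1 H)) * ((fun _ : Set Pt => (1 : ℝ)) (bl (ex1 H)) * pv v (ex1 H)) =
      Θ (blW (Gh.ab H)) * mon (v.map (tW (hexa n))) H := fun H hH => by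
    rw [fn_ex1 hΛ₂ c1 (hb2.trans hBD) e0' (fun x hx => hBD (hb4 x hx)) hH, one_mul]
  rw [zero_mul, Finset.sum_congr rfl t4,
    (gD (hexa n)).sum_Om_mon (M := M) Set.univ (fun a => Θ (blW a)) (v.map (tW (hexa n)))]
  exact Finset.sum_nonneg fun a _ => mul_nonneg (mul_nonneg (mul_nonneg (Gph.cz_pos a).le
    (Nat.cast_nonneg _)) (hΘ.nonneg _)) ((gD (hexa n)).Fk_nonneg _ a)

theorem fn_mono {A A' : Set Pt} (h : A ⊆ A') {g : Set Pt → ℝ} (hg : Fn A g) : Fn A' g := by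
  obtain ⟨Λ, h1, h2⟩ := hg.loc
  exact ⟨hg.nonneg, ⟨Λ, fun w hw => h (h1 w hw), h2⟩, hg.pin⟩

end LE

/-! ### The statements -/

/-- LOW. -/
theorem s_low {P : Measure (Pt → ℤ)} (hP : GFF.Plane P) (hint : S_int P) : S_low P := by
  intro F Θ A hΘ hA
  have hΘu : Fn Set.univ Θ := LE.fn_mono (Set.subset_univ _) hΘ
  have hi : ∀ B : Om → ℝ, Top.Alg B → Integrable (fun h => Θ (bl h) * B (vm h)) (muT P) :=
    fun B hB => hint Θ B hΘu.loc hΘ.pin hB
  have hpv : ∀ (v : List Pt) (h : Hg), (v.map (vm h)).prod = LE.pv v h := fun _ _ => rfl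
  have h1 : II P Θ (fun _ => 1) = ∫ h, Θ (bl h) ∂(muT P) := by
    unfold II; simp only [mul_one]
  rw [h1]
  induction hA with
  | mon v =>
    by_cases hv : ∀ x ∈ v, x ∈ F
    · have h2 := LE.low_gen hP F (g := fun _ => 1) hΘ (fun _ => zero_le_one)
        (fun _ _ _ => le_rfl) ⟨∅, by simp, fun _ _ _ => rfl⟩ hv
      simp only [one_mul] at h2
      have h3 : ze F (fun ω => (v.map ω).prod) = ev (FreeF F (clo F)) (fun h => LE.pv v h) := by
        unfold ze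
        congr 1
        funext h
        show (v.map (vh F h)).prod = (v.map fun x => (h x : ℝ)).prod
        refine congrArg List.prod (List.map_congr_left fun x hx => ?_)
        unfold vh
        rw [if_pos (hv x hx)]
      rw [h3]
      exact h2
    · push Not at hv
      obtain ⟨x, hx, hxF⟩ := hv
      have h3 : ze F (fun ω => (v.map ω).prod) = 0 := by
        unfold ze ev
        rw [Finset.sum_eq_zero, zero_div]
        intro h _
        refine List.prod_eq_zero (List.mem_map.2 ⟨x, hx, ?_⟩)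
        unfold vh
        rw [if_neg hxF]
      rw [h3, zero_mul]
      exact LE.pos_mon hP hΘu v
  | zero =>
    have h3 : ze F (fun _ => 0) = 0 := by
      unfold ze ev
      simp
    rw [h3, zero_mul]
    unfold II
    simp
  | @add f g hf hg ih1 ih2 =>
    have h3 : ze F (fun ω => f ω + g ω) = ze F f + ze F g := by
      unfold ze ev
      rw [Finset.sum_add_distrib, add_div]
    have h4 : II P Θ (fun ω => f ω + g ω) = II P Θ f + II P Θ g := by
      unfold II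
      rw [← integral_add (hi f hf.alg) (hi g hg.alg)]
      congr 1
      funext h
      ring
    rw [h3, h4, add_mul]
    exact add_le_add ih1 ih2
  | @smul f c hc hf ih =>
    have h3 : ze F (fun ω => c * f ω) = c * ze F f := by
      unfold ze ev
      rw [← Finset.mul_sum, mul_div_assoc]
    have h4 : II P Θ (fun ω => c * f ω) = c * II P Θ f := by
      unfold II
      rw [← integral_const_mul]
      congr 1
      funext h
      ring
    rw [h3, h4, mul_assoc]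
    exact mul_le_mul_of_nonneg_left ih hc

/-- LOW for decreasing functions of the blocked edges of `F`. -/
theorem s_lowc {P : Measure (Pt → ℤ)} (hP : GFF.Plane P) (F : Finset Pt) (X Θ : Set Pt → ℝ)
    (hΘ : Fn (tE (F : Set Pt))ᶜ Θ) (hXa : Antitone X) (hX0 : ∀ B, 0 ≤ X B)
    (hXl : LocS (tE (F : Set Pt)) X) :
    ev (FreeF F (clo F)) (fun h => X (bl h)) * II P Θ (fun _ => 1) ≤
      II P (fun B => Θ B * X B) (fun _ => 1) := by
  have h2 := LE.low_gen hP F (g := X) hΘ hX0 hXa hXl (v := []) (by simp)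
  have hnil : ∀ h : Hg, LE.pv [] h = 1 := fun _ => rfl
  simp only [hnil, mul_one] at h2
  unfold II
  simpa only [mul_one] using h2

/-- EXT. -/
theorem s_ext {P : Measure (Pt → ℤ)} (hP : GFF.Plane P) (hint : S_int P) : S_ext P := by
  intro p r X Θ a A hr hX hXm hXc hΘ ha0 ha haa hA hOn
  -- restriction to the heights outside the box
  set tr : Om → Om := fun ω v => if v ∈ bx p (2 * r) then 0 else ω v with htr
  have hAtr : ∀ ω, A ω = A (tr ω) := fun ω => hOn _ _ fun v hv => by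
    rw [htr]
    show ω v = if v ∈ bx p (2 * r) then 0 else ω v
    rw [if_neg hv]
  obtain ⟨Λ₁, -, hΛ₁⟩ := hX.loc
  obtain ⟨Λ₂, -, hΛ₂⟩ := hΘ.loc
  have ha' := ha
  obtain ⟨Λ₃, -, hΛ₃⟩ := ha'
  have hlocX : LocS Set.univ fun B => X B * a B := by
    refine ⟨Λ₁ ∪ Λ₃, fun w _ => Set.mem_univ w, fun B B' hBB => ?_⟩
    show X B * a B = X B' * a B'
    rw [hΛ₁ B B' fun w hw => hBB w (Finset.mem_union_left _ hw),
      hΛ₃ B B' fun w hw => hBB w (Finset.mem_union_right _ hw)]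
  have hlocT : LocS Set.univ fun B => Θ B * a B := by
    refine ⟨Λ₂ ∪ Λ₃, fun w _ => Set.mem_univ w, fun B B' hBB => ?_⟩
    show Θ B * a B = Θ B' * a B'
    rw [hΛ₂ B B' fun w hw => hBB w (Finset.mem_union_left _ hw),
      hΛ₃ B B' fun w hw => hBB w (Finset.mem_union_right _ hw)]
  have hpX : (fun B => X B * a B) ∅ = 0 := by
    show X ∅ * a ∅ = 0
    rw [hX.pin, zero_mul]
  have hpT : (fun B => Θ B * a B) ∅ = 0 := by
    show Θ ∅ * a ∅ = 0
    rw [hΘ.pin, zero_mul]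
  have h0 : ∀ g : Set Pt → ℝ, II P g (fun _ => 0) = 0 := by
    intro g
    unfold II
    simp
  have hadd : ∀ g : Set Pt → ℝ, LocS Set.univ g → g ∅ = 0 → ∀ f f' : Om → ℝ, Cone f → Cone f' →
      II P g (fun ω => f ω + f' ω) = II P g f + II P g f' := by
    intro g hg hg0 f f' hf hf'
    unfold II
    rw [← integral_add (hint g f hg hg0 hf.alg) (hint g f' hg hg0 hf'.alg)]
    congr 1
    funext h
    ring
  have hsmul : ∀ (g : Set Pt → ℝ) (f : Om → ℝ) (c : ℝ),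
      II P g (fun ω => c * f ω) = c * II P g f := by
    intro g f c
    unfold II
    rw [← integral_const_mul]
    congr 1
    funext h
    ring
  have key : ∀ A : Om → ℝ, Cone A → Cone (fun ω => A (tr ω)) ∧
      II P (fun B => X B * a B) (fun ω => A (tr ω)) * II P Θ (fun _ => 1) ≤
        II P X (fun _ => 1) * II P (fun B => Θ B * a B) (fun ω => A (tr ω)) := by
    intro A hA
    induction hA with
    | mon v =>
      by_cases hv : ∀ x ∈ v, x ∉ bx p (2 * r)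
      · have e : (fun ω : Om => (v.map (tr ω)).prod) = fun ω => (v.map ω).prod := by
          funext ω
          refine congrArg List.prod (List.map_congr_left fun x hx => ?_)
          show (if x ∈ bx p (2 * r) then 0 else ω x) = ω x
          rw [if_neg (hv x hx)]
        show Cone (fun ω : Om => (v.map (tr ω)).prod) ∧
          II P (fun B => X B * a B) (fun ω : Om => (v.map (tr ω)).prod) * II P Θ (fun _ => 1) ≤
            II P X (fun _ => 1) * II P (fun B => Θ B * a B) (fun ω : Om => (v.map (tr ω)).prod)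
        rw [e]
        refine ⟨Top.Pol.mon v, ?_⟩
        have h2 := LE.ext_mon hP p r hX hXm hXc hΘ ha0 ha haa hr hv
        unfold II
        simp only [mul_one]
        simp only [mul_assoc]
        exact h2
      · have e : (fun ω : Om => (v.map (tr ω)).prod) = fun _ => 0 := by
          push Not at hv
          obtain ⟨x, hx, hxb⟩ := hv
          funext ω
          refine List.prod_eq_zero (List.mem_map.2 ⟨x, hx, ?_⟩)
          show (if x ∈ bx p (2 * r) then 0 else ω x) = 0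
          rw [if_pos hxb]
        show Cone (fun ω : Om => (v.map (tr ω)).prod) ∧
          II P (fun B => X B * a B) (fun ω : Om => (v.map (tr ω)).prod) * II P Θ (fun _ => 1) ≤
            II P X (fun _ => 1) * II P (fun B => Θ B * a B) (fun ω : Om => (v.map (tr ω)).prod)
        rw [e]
        refine ⟨Top.Pol.zero, ?_⟩
        rw [h0, h0, zero_mul, mul_zero]
    | zero =>
      refine ⟨Top.Pol.zero, ?_⟩
      rw [h0, h0, zero_mul, mul_zero]
    | @add f g hf hg ih1 ih2 =>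
      refine ⟨Top.Pol.add ih1.1 ih2.1, ?_⟩
      rw [hadd _ hlocX hpX _ _ ih1.1 ih2.1, hadd _ hlocT hpT _ _ ih1.1 ih2.1, add_mul, mul_add]
      exact add_le_add ih1.2 ih2.2
    | @smul f c hc hf ih =>
      refine ⟨Top.Pol.smul c hc ih.1, ?_⟩
      rw [hsmul, hsmul, mul_assoc, mul_left_comm (II P X fun _ => 1)]
      exact mul_le_mul_of_nonneg_left ih.2 hc
  have hA' : A = fun ω => A (tr ω) := funext hAtr
  rw [hA']
  exact (key A hA).2

end Vale.Agent.P153.F.X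
end
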