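import Mathlib
import Vale.Agent.P153.Bd5.B14
import Vale.Agent.P153.Bd5.B8
import Vale.Agent.P153.Bd5.B12
import Vale.Agent.P153.Bd5.B9
import Vale.Agent.P153.Bd5.B13

set_option linter.all false

section

/-!
**Burton–Keane theorem** for the bichromatic graph of a translation invariant, mixing `±`
configuration with finite energy: at most one infinite cluster.
-/

namespace Vale.Agent.P153.BK

open Relation MeasureTheory Filter Topology Set
open scoped ENNReal symmDiff

/-- The cluster of `x` inside `A` is infinite. -/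
def Inf (τ : Om) (A : Set (ℤ × ℤ)) (x : ℤ × ℤ) : Prop := {y | Con τ A x y}.Infinite

theorem Inf.of_con {τ : Om} {A : Set (ℤ × ℤ)} {x y : ℤ × ℤ} (h : Inf τ A x) (hc : Con τ A x y) :
    Inf τ A y := by
  have : {z | Con τ A y z} = {z | Con τ A x z} := by
    ext z; exact ⟨fun hz => hc.trans hz, fun hz => hc.symm.trans hz⟩
  unfold Inf; rw [this]; exact h

theorem H_finite (n : ℤ) : (H n).Finite := by
  have : H n = (HF n : Set (ℤ × ℤ)) := by ext x; simp [mem_HF]
  rw [this]; exact Finset.finite_toSet _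

/-- An infinite cluster reaches every distance. -/
theorem Inf.reach {τ : Om} {A : Set (ℤ × ℤ)} {x : ℤ × ℤ} (h : Inf τ A x) {R : ℤ}
    (hx : x ∈ H R) : ∃ s ∈ Bd R, Con τ (A ∩ H R) x s := by
  have : ∃ y, Con τ A x y ∧ y ∉ H R := by
    by_contra hcon
    push Not at hcon
    exact h ((H_finite R).subset (fun y hy => hcon y hy))
  obtain ⟨y, hy, hyR⟩ := this
  rcases hy.exit (B := H R) hx with h1 | ⟨u, v, h1, h2, h3, h4, -, -⟩
  · exfalso
    by_cases hxy : x = y
    · exact hyR (hxy ▸ hx)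
    · rcases ReflTransGen.cases_tail h1 with h | ⟨c, -, hc⟩
      · exact hxy h.symm
      · exact hyR hc.2.2.2
  · refine ⟨u, ⟨h2, fun hu => h4 ?_⟩, h1⟩
    have := step_H hu h3.1
    rwa [sub_add_cancel] at this

theorem exists_H (x : ℤ × ℤ) : ∃ n : ℕ, x ∈ H n := by
  refine ⟨x.1.natAbs + x.2.natAbs, ?_⟩
  rw [mem_H]; omega

/-- Paths are finite. -/
theorem con_univ {τ : Om} {x y : ℤ × ℤ} (h : Con τ univ x y) :
    ∃ R : ℕ, ∀ R' : ℤ, R ≤ R' → Con τ (H R') x y := by
  induction h with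
  | refl => exact ⟨0, fun _ _ => Con.refl _ _ _⟩
  | @tail b c _ hbc ih =>
    obtain ⟨R, hR⟩ := ih
    obtain ⟨k, hk⟩ := exists_H b
    obtain ⟨l, hl⟩ := exists_H c
    refine ⟨max R (max k l), fun R' hR' => ?_⟩
    push_cast at hR'
    exact (hR R' (by omega)).trans (Con.single hbc.1 (H_mono (by omega) hk)
      (H_mono (by omega) hl))

/-- An infinite cluster meeting a hexagon has an infinite outer component next to the hexagon. -/
theorem Inf.outer {τ : Om} {x : ℤ × ℤ} {n : ℤ} (h : Inf τ univ x) (hx : x ∈ H n) :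
    ∃ a, a ∉ H n ∧ (∃ b ∈ H n, Step a b) ∧ Con τ univ x a ∧ Inf τ (H n)ᶜ a := by
  by_contra hcon
  have hfin : ∀ a, a ∉ H n → (∃ b ∈ H n, Step a b) → Con τ univ x a →
      {y | Con τ (H n)ᶜ a y}.Finite := by
    intro a h1 h2 h3
    by_contra h4
    exact hcon ⟨a, h1, h2, h3, h4⟩
  set ring : Set (ℤ × ℤ) := {a | a ∈ H (n + 1) ∧ a ∉ H n ∧ (∃ b ∈ H n, Step a b) ∧
    Con τ univ x a} with hring
  have hringfin : ring.Finite := (H_finite (n + 1)).subset (fun a ha => ha.1)
  apply h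
  have hU : (H n ∪ ⋃ a ∈ ring, {y | Con τ (H n)ᶜ a y}).Finite := by
    refine (H_finite n).union (hringfin.biUnion (fun a ha => ?_))
    exact hfin a ha.2.1 ha.2.2.1 ha.2.2.2
  refine hU.subset (fun z hz => ?_)
  by_cases hzH : z ∈ H n
  · exact Or.inl hzH
  · right
    have hz' : Con τ univ z x := Con.symm hz
    rcases hz'.exit (B := (H n)ᶜ) hzH with h1 | ⟨u, v, h1, h2, h3, h4, -, -⟩
    · exfalso
      rcases ReflTransGen.cases_tail h1 with h | ⟨c, -, hc⟩
      · exact hzH (h ▸ hx)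
      · exact hc.2.2.2 hx
    · have hv : v ∈ H n := by by_contra hc; exact h4 hc
      have hu : u ∈ H (n + 1) := step_H hv h3.symm.1
      have h1' : Con τ (H n)ᶜ z u := h1.mono (fun w hw => hw.2)
      simp only [Set.mem_iUnion]
      refine ⟨u, ⟨hu, h2, ⟨v, hv, h3.1⟩, ?_⟩, h1'.symm⟩
      exact Con.trans hz (h1'.mono (fun w _ => Set.mem_univ w))

/-- Two infinite clusters. -/
def E2 : Set Om := {τ | ∃ x y, Inf τ univ x ∧ Inf τ univ y ∧ ¬ Con τ univ x y}

theorem loc_con (R : ℤ) (x y : ℤ × ℤ) : Loc (HF R) {τ | Con τ (H R) x y} := fun _ _ h =>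
  con_congr (fun z hz => h z (mem_HF.2 hz)) x y

theorem meas_con (x y : ℤ × ℤ) : MeasurableSet {τ : Om | Con τ univ x y} := by
  have : {τ : Om | Con τ univ x y} = ⋃ R : ℕ, {τ | Con τ (H R) x y} := by
    ext τ
    simp only [Set.mem_iUnion]
    constructor
    · intro h
      obtain ⟨R, hR⟩ := con_univ h
      exact ⟨R, hR R le_rfl⟩
    · rintro ⟨R, hR⟩
      exact Con.mono hR (Set.subset_univ _)
  rw [this]
  exact MeasurableSet.iUnion (fun R => (loc_con R x y).meas)

theorem meas_inf (x : ℤ × ℤ) : MeasurableSet {τ : Om | Inf τ univ x} := by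
  have : {τ : Om | Inf τ univ x} = ⋂ F : Finset (ℤ × ℤ), ⋃ y : ℤ × ℤ,
      {τ | y ∉ F ∧ Con τ univ x y} := by
    ext τ
    simp only [Set.mem_iInter, Set.mem_iUnion]
    constructor
    · intro h F
      obtain ⟨y, hy, hyF⟩ := Set.Infinite.exists_notMem_finset h F
      exact ⟨y, hyF, hy⟩
    · intro h hfin
      obtain ⟨y, hy, hyc⟩ := h hfin.toFinset
      exact hy (by simpa using hyc)
  rw [this]
  refine MeasurableSet.iInter (fun F => MeasurableSet.iUnion (fun y => ?_))
  by_cases hy : y ∉ F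
  · have : {τ : Om | y ∉ F ∧ Con τ univ x y} = {τ | Con τ univ x y} := by
      ext τ; exact ⟨fun h => h.2, fun h => ⟨hy, h⟩⟩
    rw [this]; exact meas_con x y
  · have : {τ : Om | y ∉ F ∧ Con τ univ x y} = ∅ := by
      ext τ; exact ⟨fun h => absurd h.1 hy, fun h => h.elim⟩
    rw [this]; exact MeasurableSet.empty

theorem meas_E2 : MeasurableSet E2 := by
  have : E2 = ⋃ x : ℤ × ℤ, ⋃ y : ℤ × ℤ, {τ : Om | Inf τ univ x} ∩ ({τ | Inf τ univ y} ∩
      {τ | Con τ univ x y}ᶜ) := by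
    ext τ; simp only [E2, Set.mem_iUnion]; rfl
  rw [this]
  exact MeasurableSet.iUnion (fun x => MeasurableSet.iUnion (fun y =>
    (meas_inf x).inter ((meas_inf y).inter (meas_con x y).compl)))

theorem con_sh_univ {c : ℤ × ℤ} {τ : Om} {x y : ℤ × ℤ} :
    Con (sh c τ) univ x y ↔ Con τ univ (x + c) (y + c) :=
  ⟨fun h => (con_sh_mp h).mono (Set.subset_univ _),
    fun h => con_sh_mpr (h.mono (fun _ _ => Set.mem_univ _))⟩

theorem inf_sh {c : ℤ × ℤ} {τ : Om} {x : ℤ × ℤ} : Inf (sh c τ) univ x ↔ Inf τ univ (x + c) := by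
  unfold Inf
  have : {y | Con τ univ (x + c) y} = (fun y => y + c) '' {y | Con (sh c τ) univ x y} := by
    ext z
    simp only [Set.mem_image]
    constructor
    · intro hz
      refine ⟨z - c, ?_, by simp⟩
      change Con (sh c τ) univ x (z - c)
      rw [con_sh_univ, sub_add_cancel]; exact hz
    · rintro ⟨y, hy, rfl⟩
      exact con_sh_univ.1 hy
  rw [this, Set.infinite_image_iff (fun a _ b _ h => by simpa using h)]

theorem E2_sh (c : ℤ × ℤ) : sh c ⁻¹' E2 = E2 := by
  ext τ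
  constructor
  · rintro ⟨x, y, hx, hy, hxy⟩
    exact ⟨x + c, y + c, inf_sh.1 hx, inf_sh.1 hy, fun h => hxy (con_sh_univ.2 h)⟩
  · rintro ⟨x, y, hx, hy, hxy⟩
    refine ⟨x - c, y - c, inf_sh.2 ?_, inf_sh.2 ?_, fun h => hxy ?_⟩
    · rwa [sub_add_cancel]
    · rwa [sub_add_cancel]
    · have := con_sh_univ.1 h
      rwa [sub_add_cancel, sub_add_cancel] at this

/-- Zero-one law. -/
theorem E2_zero_one {P : Measure Om} (h : Hyp P) : P E2 = 0 ∨ P E2 = 1 := by
  have := h.prob
  obtain ⟨z, hz⟩ := h.mix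
  set p : ℝ := P.real E2 with hp
  have hp0 : 0 ≤ p := measureReal_nonneg
  have hp1 : p ≤ 1 := measureReal_le_one
  have key : ∀ ε : ℝ, 0 < ε → |p - p * p| ≤ 4 * ε := by
    intro ε hε
    obtain ⟨B, t, hB, ht⟩ := exists_loc_approx P meas_E2 (ENNReal.ofReal_pos.2 hε)
    have htr : P.real (t ∆ E2) ≤ ε := ENNReal.toReal_le_of_le_ofReal hε.le ht.le
    set q : ℝ := P.real t with hq
    have hq0 : 0 ≤ q := measureReal_nonneg
    have hq1 : q ≤ 1 := measureReal_le_one
    have hqp : |q - p| ≤ ε := by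
      rw [abs_le]
      have e1 : q ≤ p + P.real (t ∆ E2) := by
        refine (measureReal_mono ?_).trans (measureReal_union_le E2 (t ∆ E2))
        intro x hx
        by_cases hxE : x ∈ E2
        · exact Or.inl hxE
        · exact Or.inr (Or.inl ⟨hx, hxE⟩)
      have e2 : p ≤ q + P.real (t ∆ E2) := by
        refine (measureReal_mono ?_).trans (measureReal_union_le t (t ∆ E2))
        intro x hx
        by_cases hxE : x ∈ t
        · exact Or.inl hxE
        · exact Or.inr (Or.inr ⟨hx, hxE⟩)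
      constructor <;> linarith
    have hlim : Tendsto (fun k => P.real (t ∩ sh (z k) ⁻¹' t)) atTop (𝓝 (q * q)) := by
      have h1 := (ENNReal.continuousAt_toReal (ENNReal.mul_ne_top (measure_ne_top P t)
        (measure_ne_top P t))).tendsto.comp (hz B t t hB hB)
      rw [ENNReal.toReal_mul] at h1
      exact h1
    have hbd : ∀ k, |P.real (t ∩ sh (z k) ⁻¹' t) - p| ≤ 2 * ε := by
      intro k
      have hm : P.real (sh (z k) ⁻¹' (t ∆ E2)) = P.real (t ∆ E2) := by
        unfold Measure.real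
        rw [h.inv' (z k) (hB.meas.symmDiff meas_E2)]
      have e1 : P.real (t ∩ sh (z k) ⁻¹' t) ≤ p + P.real (t ∆ E2) := by
        refine (measureReal_mono ?_).trans (measureReal_union_le E2 (t ∆ E2))
        rintro x ⟨hx, -⟩
        by_cases hxE : x ∈ E2
        · exact Or.inl hxE
        · exact Or.inr (Or.inl ⟨hx, hxE⟩)
      have e2 : p ≤ P.real (t ∩ sh (z k) ⁻¹' t) + (P.real (t ∆ E2) +
          P.real (sh (z k) ⁻¹' (t ∆ E2))) := by
        refine (measureReal_mono (s₂ := (t ∩ sh (z k) ⁻¹' t) ∪ ((t ∆ E2) ∪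
          (sh (z k) ⁻¹' (t ∆ E2)))) ?_).trans ((measureReal_union_le _ _).trans
            (add_le_add le_rfl (measureReal_union_le _ _)))
        intro x hx
        have hx' : sh (z k) x ∈ E2 := by
          have : x ∈ sh (z k) ⁻¹' E2 := by rw [E2_sh]; exact hx
          exact this
        by_cases h1 : x ∈ t
        · by_cases h2 : sh (z k) x ∈ t
          · exact Or.inl ⟨h1, h2⟩
          · exact Or.inr (Or.inr (Or.inr ⟨hx', h2⟩))
        · exact Or.inr (Or.inl (Or.inr ⟨hx, h1⟩))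
      rw [hm] at e2
      rw [abs_le]
      constructor <;> linarith
    have hqq : |q * q - p| ≤ 2 * ε := by
      have := (hlim.sub_const p).abs
      exact le_of_tendsto' this hbd
    have e3 : |p * p - q * q| ≤ 2 * ε := by
      have : p * p - q * q = (p - q) * (p + q) := by ring
      rw [this, abs_mul]
      have h1 : |p - q| ≤ ε := by rw [abs_sub_comm]; exact hqp
      have h2 : |p + q| ≤ 2 := by rw [abs_of_nonneg (by linarith)]; linarith
      nlinarith [abs_nonneg (p - q), abs_nonneg (p + q)]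
    calc |p - p * p| = |(p - q * q) + (q * q - p * p)| := by congr 1; ring
      _ ≤ |p - q * q| + |q * q - p * p| := abs_add_le _ _
      _ ≤ 2 * ε + 2 * ε := by
        rw [abs_sub_comm p, abs_sub_comm (q * q) (p * p)]; exact add_le_add hqq e3
      _ = 4 * ε := by ring
  have hpp : p - p * p = 0 := by
    by_contra hne
    have hpos : 0 < |p - p * p| := abs_pos.2 hne
    have := key (|p - p * p| / 8) (by linarith)
    linarith
  have : p = 0 ∨ p = 1 := by
    have : p * (1 - p) = 0 := by linarith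
    rcases mul_eq_zero.1 this with h | h
    · exact Or.inl h
    · exact Or.inr (by linarith)
  rcases this with h0 | h0
  · left
    rw [hp, measureReal_eq_zero_iff] at h0
    exact h0
  · right
    rw [hp] at h0
    unfold Measure.real at h0
    rw [← ENNReal.ofReal_one, ← h0, ENNReal.ofReal_toReal (measure_ne_top _ _)]

/-- Three vertices in a hexagon, in different infinite clusters, give three arms. -/
theorem arms_of_three {τ : Om} {n : ℤ} (a : Fin 3 → ℤ × ℤ) (h1 : ∀ i, a i ∉ H n)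
    (h2 : ∀ i, ∃ b ∈ H n, Step (a i) b) (h3 : ∀ i, Inf τ (H n)ᶜ (a i))
    (h4 : ∀ i j, i ≠ j → ¬ Con τ (H n)ᶜ (a i) (a j)) (R : ℤ) (hR : n < R) : Arms n R τ := by
  refine ⟨a, h1, h2, fun i => ?_, fun i j hij hc => h4 i j hij (hc.mono (fun z hz => hz.2))⟩
  have haR : a i ∈ H R := by
    obtain ⟨b, hb, hst⟩ := h2 i
    exact H_mono (by omega) (step_H hb (show Step b (a i) by unfold Step at hst ⊢; omega))
  obtain ⟨s, hs, hc⟩ := (h3 i).reach haR
  exact ⟨s, hs, hc.mono (fun z hz => ⟨hz.2, hz.1⟩)⟩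

/-- The modification argument: if there are exactly two infinite clusters, both meeting the
hexagon, they can be joined. -/
theorem join {τ : Om} {n : ℤ} (hn : 2 ≤ n) (hN : ∀ m : ℤ, 2 ≤ m → ¬ ∀ R, m < R → Arms m R τ)
    {x y : ℤ × ℤ} (hx : x ∈ H n) (hy : y ∈ H n) (hix : Inf τ univ x) (hiy : Inf τ univ y)
    (hxy : ¬ Con τ univ x y) : ∃ ε v, recol n (pat ε v) τ ∈ E2ᶜ := by
  obtain ⟨a1, a1H, a1b, xa1, ia1⟩ := hix.outer hx
  obtain ⟨a2, a2H, a2b, ya2, ia2⟩ := hiy.outer hy
  have ha12 : ¬ Con τ univ a1 a2 := fun h => hxy (xa1.trans (h.trans ya2.symm))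
  have ha12' : ¬ Con τ (H n)ᶜ a1 a2 := fun h => ha12 (h.mono (Set.subset_univ _))
  set a : Fin 3 → ℤ × ℤ := ![a1, a2, a2] with ha
  obtain ⟨ε, v, g1, a', g2, g3, g4⟩ := exists_attach (τ := τ) (A := (H n)ᶜ) hn
    (fun x hx _ => hx) (fun x hx => hx) a
    (fun i => by fin_cases i <;> simp [ha, a1H, a2H])
    (fun i => by
      fin_cases i
      · exact a1b
      · exact a2b
      · exact a2b)
    (fun i j => by
      fin_cases i <;> fin_cases j
      · exact Or.inl rfl
      · exact Or.inr ha12'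
      · exact Or.inr ha12'
      · exact Or.inr (fun h => ha12' h.symm)
      · exact Or.inl rfl
      · exact Or.inl rfl
      · exact Or.inr (fun h => ha12' h.symm)
      · exact Or.inl rfl
      · exact Or.inl rfl)
  refine ⟨ε, v, ?_⟩
  set τ' := recol n (pat ε v) τ with hτ'
  have hcong : ∀ z ∈ (H n)ᶜ, τ z = τ' z := fun z hz => (recol_out hz).symm
  have att : ∀ i, Con τ' univ (a i) (0, 0) := by
    intro i
    obtain ⟨b, hb, hbi⟩ := g4 i
    exact ((g3 i).mono (Set.subset_univ _)).trans ((Con.single hbi (Set.mem_univ _)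
      (Set.mem_univ _)).trans ((g1 b hb).mono (Set.subset_univ _)))
  have hin : ∀ z ∈ H n, Con τ' univ z (0, 0) := fun z hz => (g1 z hz).mono (Set.subset_univ _)
  -- every infinite cluster of `τ'` contains the origin
  have main : ∀ u, Inf τ' univ u → Con τ' univ u (0, 0) := by
    intro u hu
    by_contra hnot
    have huH : u ∉ H n := fun h => hnot (hin u h)
    have hout : ∀ z, Con τ' univ u z → Con τ (H n)ᶜ u z := by
      intro z hz
      rcases hz.exit (B := (H n)ᶜ) huH with h1 | ⟨p, q, h1, h2, h3, h4, -, -⟩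
      · rw [Set.univ_inter] at h1
        exact (con_congr hcong _ _).2 h1
      · exfalso
        have hq : q ∈ H n := by by_contra hc; exact h4 hc
        apply hnot
        exact (h1.mono (Set.subset_univ _)).trans ((Con.single h3 (Set.mem_univ _)
          (Set.mem_univ _)).trans (hin q hq))
    have hiu : Inf τ (H n)ᶜ u := by
      unfold Inf at hu ⊢
      exact hu.mono (fun z hz => hout z hz)
    have hiu' : Inf τ univ u := by
      unfold Inf at hiu ⊢
      exact hiu.mono (fun z hz => Con.mono hz (Set.subset_univ _))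
    have hsepu : ∀ i, ¬ Con τ (H n)ᶜ (a i) u := by
      intro i hc
      apply hnot
      have hc' : Con τ' univ (a i) u := ((con_congr hcong _ _).1 hc).mono (Set.subset_univ _)
      exact hc'.symm.trans (att i)
    by_cases hhit : ∃ z ∈ H n, Con τ univ u z
    · -- an outer component next to the hexagon
      obtain ⟨z, hz, hc⟩ := hhit
      rcases hc.exit (B := (H n)ᶜ) huH with h1 | ⟨p, q, h1, h2, h3, h4, -, -⟩
      · rcases ReflTransGen.cases_tail h1 with h | ⟨c, -, hc⟩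
        · exact huH (h ▸ hz)
        · exact hc.2.2.2 hz
      · have hq : q ∈ H n := by by_contra hc; exact h4 hc
        rw [Set.univ_inter] at h1
        refine hN n hn (fun R hR => arms_of_three ![a1, a2, p] ?_ ?_ ?_ ?_ R hR)
        · intro i; fin_cases i
          · exact a1H
          · exact a2H
          · exact h2
        · intro i; fin_cases i
          · exact a1b
          · exact a2b
          · exact ⟨q, hq, h3.1⟩
        · intro i; fin_cases i
          · exact ia1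
          · exact ia2
          · exact hiu.of_con h1
        · have s1 : ¬ Con τ (H n)ᶜ a1 p := fun h => hsepu 0 (h.trans h1.symm)
          have s2 : ¬ Con τ (H n)ᶜ a2 p := fun h => hsepu 1 (h.trans h1.symm)
          intro i j hij
          fin_cases i <;> fin_cases j
          · exact absurd rfl hij
          · exact ha12'
          · exact s1
          · exact fun h => ha12' h.symm
          · exact absurd rfl hij
          · exact s2
          · exact fun h => s1 h.symm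
          · exact fun h => s2 h.symm
          · exact absurd rfl hij
    · -- a third infinite cluster
      have hux : ¬ Con τ univ x u := fun h => hhit ⟨x, hx, h.symm⟩
      have huy : ¬ Con τ univ y u := fun h => hhit ⟨y, hy, h.symm⟩
      obtain ⟨k, hk⟩ := exists_H u
      set m : ℤ := max n k with hm
      have hm2 : 2 ≤ m := le_trans hn (le_max_left _ _)
      have hxm : x ∈ H m := H_mono (le_max_left _ _) hx
      have hym : y ∈ H m := H_mono (le_max_left _ _) hy
      have hum : u ∈ H m := H_mono (le_max_right _ _) hk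
      obtain ⟨c1, c1H, c1b, xc1, ic1⟩ := hix.outer hxm
      obtain ⟨c2, c2H, c2b, yc2, ic2⟩ := hiy.outer hym
      obtain ⟨c3, c3H, c3b, uc3, ic3⟩ := hiu'.outer hum
      have s12 : ¬ Con τ (H m)ᶜ c1 c2 := fun h =>
        hxy (xc1.trans ((h.mono (Set.subset_univ _)).trans yc2.symm))
      have s13 : ¬ Con τ (H m)ᶜ c1 c3 := fun h =>
        hux (xc1.trans ((h.mono (Set.subset_univ _)).trans uc3.symm))
      have s23 : ¬ Con τ (H m)ᶜ c2 c3 := fun h =>
        huy (yc2.trans ((h.mono (Set.subset_univ _)).trans uc3.symm))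
      refine hN m hm2 (fun R hR => arms_of_three ![c1, c2, c3] ?_ ?_ ?_ ?_ R hR)
      · intro i; fin_cases i
        · exact c1H
        · exact c2H
        · exact c3H
      · intro i; fin_cases i
        · exact c1b
        · exact c2b
        · exact c3b
      · intro i; fin_cases i
        · exact ic1
        · exact ic2
        · exact ic3
      · intro i j hij
        fin_cases i <;> fin_cases j
        · exact absurd rfl hij
        · exact s12
        · exact s13
        · exact fun h => s12 h.symm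
        · exact absurd rfl hij
        · exact s23
        · exact fun h => s13 h.symm
        · exact fun h => s23 h.symm
        · exact absurd rfl hij
  rintro ⟨u, w, hu, hw, huw⟩
  exact huw ((main u hu).trans (main w hw).symm)

/-- **Uniqueness of the infinite cluster.** -/
theorem E2_null {P : Measure Om} (h : Hyp P) : P E2 = 0 := by
  have := h.prob
  rcases E2_zero_one h with h0 | h1
  · exact h0
  exfalso
  have hc : P E2ᶜ = 0 := by
    rw [measure_compl meas_E2 (measure_ne_top _ _), measure_univ, h1, tsub_self]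
  -- null set of configurations with three arms
  have hN : P (⋃ m : ℕ, {τ | ∀ R, ((m : ℤ) + 2) < R → Arms (m + 2) R τ}) = 0 := by
    rw [measure_iUnion_null_iff]
    exact fun m => arms_null h (by omega)
  have hG : ∀ k : ℕ, P {τ : Om | (∀ m : ℤ, 2 ≤ m → ¬ ∀ R, m < R → Arms m R τ) ∧
      ∃ x y, x ∈ H (k + 2) ∧ y ∈ H (k + 2) ∧ Inf τ univ x ∧ Inf τ univ y ∧
        ¬ Con τ univ x y} = 0 := by
    intro k
    obtain ⟨C, hC, hcov⟩ := measure_recol_cover h (k + 2)
    refine le_antisymm ((hcov _ E2ᶜ meas_E2.compl ?_).trans (by rw [hc, mul_zero])) zero_le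
    rintro τ ⟨hτ, x, y, hx, hy, hix, hiy, hxy⟩
    exact join (by omega) hτ hx hy hix hiy hxy
  have hcover : E2 ⊆ (⋃ m : ℕ, {τ | ∀ R, ((m : ℤ) + 2) < R → Arms (m + 2) R τ}) ∪
      ⋃ k : ℕ, {τ : Om | (∀ m : ℤ, 2 ≤ m → ¬ ∀ R, m < R → Arms m R τ) ∧
      ∃ x y, x ∈ H (k + 2) ∧ y ∈ H (k + 2) ∧ Inf τ univ x ∧ Inf τ univ y ∧
        ¬ Con τ univ x y} := by
    rintro τ ⟨x, y, hx, hy, hxy⟩
    by_cases hτ : ∀ m : ℤ, 2 ≤ m → ¬ ∀ R, m < R → Arms m R τ
    · right
      obtain ⟨k, hk⟩ := exists_H x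
      obtain ⟨l, hl⟩ := exists_H y
      refine Set.mem_iUnion.2 ⟨max k l, hτ, x, y, H_mono ?_ hk, H_mono ?_ hl, hx, hy, hxy⟩
      · push_cast; have := le_max_left (k : ℤ) l; omega
      · push_cast; have := le_max_right (k : ℤ) l; omega
    · left
      push Not at hτ
      obtain ⟨m, hm, hm'⟩ := hτ
      refine Set.mem_iUnion.2 ⟨(m - 2).toNat, ?_⟩
      have e : (((m - 2).toNat : ℕ) : ℤ) + 2 = m := by omega
      rw [Set.mem_ofPred_eq, e]
      exact hm'
  have h0 : P E2 = 0 :=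
    measure_mono_null hcover (measure_union_null hN ((measure_iUnion_null_iff).2 hG))
  rw [h1] at h0
  exact one_ne_zero h0

end Vale.Agent.P153.BK
end

section

/-!
Step (11): Burton–Keane.
-/

namespace Vale.Agent.P153.A

open MeasureTheory Filter Topology Relation
open scoped ENNReal

theorem adj_iff_st {x y : ℤ × ℤ} : Adj x y ↔ Step x y := by
  obtain ⟨x1, x2⟩ := x; obtain ⟨y1, y2⟩ := y
  simp only [Adj, Step, Set.mem_insert_iff, Set.mem_singleton_iff, Prod.mk.injEq]
  constructor <;> intro h <;> rcases h with h | h | h | h | h | h <;> omega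

theorem bich_iff_con (S : Set Pt) (τ : Sp) (x y : Pt) : Bich S τ x y ↔ BK.Con τ S x y := by
  unfold Bich BK.Con BK.Bi
  simp only [adj_iff_st, and_assoc]

/-- (11) -/
theorem s_bk : S_bk := by
  classical
  intro μ hμ hinv hmix hflip
  have h : BK.Hyp μ := by
    refine BK.hyp_of_flip hμ (fun c => hinv c) (C := 64) (by simp) (fun x E hE => ?_)
      ⟨fun k => ((k : ℤ), 0), fun B A A' hA hA' => ?_⟩
    · exact hflip x E hE
    · have hloc : ∀ E : Set Sp, BK.Loc B E → Loc B (fun τ : Sp => E.indicator (fun _ => (1 : ℝ)) τ) := by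
        intro E hE τ τ' hττ
        by_cases hτ : τ ∈ E
        · simp only [Set.indicator_of_mem hτ, Set.indicator_of_mem ((hE τ τ' hττ).1 hτ)]
        · simp only [Set.indicator_of_notMem hτ,
            Set.indicator_of_notMem (fun h => hτ ((hE τ τ' hττ).2 h))]
      have h1 := hmix B _ _ (hloc A hA) (hloc A' hA')
      have hinj : Tendsto (fun k : ℕ => ((k : ℤ), (0 : ℤ))) atTop cofinite := by
        rw [← Nat.cofinite_eq_atTop]
        exact Function.Injective.tendsto_cofinite (fun a b hab => by simpa using hab)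
      have h2 := h1.comp hinj
      have e1 : ∀ E : Set Sp, BK.Loc B E → ∫ τ, E.indicator (fun _ => (1 : ℝ)) τ ∂μ = μ.real E :=
        fun E hE => integral_indicator_one hE.meas
      have e2 : ∀ z : Pt, ∫ τ, A.indicator (fun _ => (1 : ℝ)) τ *
          A'.indicator (fun _ => (1 : ℝ)) (tr z τ) ∂μ = μ.real (A ∩ BK.sh z ⁻¹' A') := by
        intro z
        rw [← integral_indicator_one (hA.meas.inter (BK.measurable_sh z hA'.meas))]
        congr 1
        funext τ
        by_cases h1 : τ ∈ A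
        · by_cases h2 : tr z τ ∈ A'
          · rw [Set.indicator_of_mem h1, Set.indicator_of_mem h2,
              Set.indicator_of_mem (show τ ∈ A ∩ BK.sh z ⁻¹' A' from ⟨h1, h2⟩)]
            simp
          · rw [Set.indicator_of_notMem h2,
              Set.indicator_of_notMem (show τ ∉ A ∩ BK.sh z ⁻¹' A' from fun h => h2 h.2)]
            simp
        · rw [Set.indicator_of_notMem h1,
              Set.indicator_of_notMem (show τ ∉ A ∩ BK.sh z ⁻¹' A' from fun h => h1 h.1)]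
          simp
      rw [e1 A hA, e1 A' hA'] at h2
      have h3 : Tendsto (fun k : ℕ => μ.real (A ∩ BK.sh ((k : ℤ), (0 : ℤ)) ⁻¹' A')) atTop
          (𝓝 (μ.real A * μ.real A')) := h2.congr (fun k => e2 _)
      have h4 := ENNReal.tendsto_ofReal h3
      rw [ENNReal.ofReal_mul measureReal_nonneg] at h4
      simpa only [Measure.real, ENNReal.ofReal_toReal (measure_ne_top μ _)] using h4
  have h0 := BK.E2_null h
  refine measure_mono_null ?_ h0
  rintro τ ⟨x, y, hx, hy, hxy⟩
  refine ⟨x, y, ?_, ?_, fun hc => hxy ((bich_iff_con _ _ _ _).2 hc)⟩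
  · unfold BK.Inf
    simpa only [bich_iff_con] using hx
  · unfold BK.Inf
    simpa only [bich_iff_con] using hy

end Vale.Agent.P153.A
end

section

/-!
Step (14): localisation of the coin average.
-/

namespace Vale.Agent.P153.A

open MeasureTheory Filter Topology Relation

theorem coin_congr {B : Finset Pt} {r r' : Pt → Pt → Prop} {F : Om → ℝ} {τ τ' : Sp}
    (h : ∀ x ∈ B, ∀ y ∈ B, (r x y ↔ r' x y)) (hF : ∀ t : Sp, F (pr τ t) = F (pr τ' t)) :
    coin B r F τ = coin B r' F τ' := by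
  have hs : {t : Sp | (∀ x, x ∉ B → t x = false) ∧ ∀ x ∈ B, ∀ y ∈ B, r x y → t x = t y} =
      {t : Sp | (∀ x, x ∉ B → t x = false) ∧ ∀ x ∈ B, ∀ y ∈ B, r' x y → t x = t y} := by
    ext t
    constructor
    · rintro ⟨h1, h2⟩
      exact ⟨h1, fun x hx y hy hr => h2 x hx y hy ((h x hx y hy).2 hr)⟩
    · rintro ⟨h1, h2⟩
      exact ⟨h1, fun x hx y hy hr => h2 x hx y hy ((h x hx y hy).1 hr)⟩
  unfold coin
  rw [hs]
  simp only [hF]

theorem bx_mono {R : ℕ} : (bx R : Set Pt) ⊆ (bx (R + 1) : Set Pt) := by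
  intro x hx
  simp only [bx, Finset.coe_product, Finset.coe_Icc, Set.mem_prod, Set.mem_Icc] at hx ⊢
  push_cast; omega

theorem bx_step {R : ℕ} {x y : Pt} (hx : x ∈ (bx R : Set Pt)) (h : Step x y) :
    y ∈ (bx (R + 1) : Set Pt) := by
  simp only [bx, Finset.coe_product, Finset.coe_Icc, Set.mem_prod, Set.mem_Icc] at hx ⊢
  unfold Step at h
  push_cast; omega

theorem bich_out {R : ℕ} {τ : Sp} {x y : Pt} (hx : x ∈ bx R) (h : Bich Set.univ τ x y)
    (hn : ¬ Bich (bx (R + 1)) τ x y) : ∃ u, u ∉ bx R ∧ Bich (bx (R + 1)) τ x u := by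
  rw [bich_iff_con] at h hn
  have hx' : x ∈ (bx R : Set Pt) := hx
  rcases h.exit (B := (bx R : Set Pt)) hx' with h1 | ⟨u, v, h1, h2, h3, h4, -, -⟩
  · exact absurd (h1.mono (fun z hz => bx_mono hz.2)) hn
  · refine ⟨v, fun hv => h4 hv, ?_⟩
    rw [bich_iff_con]
    exact (h1.mono (fun z hz => bx_mono hz.2)).trans
      (BK.Con.single h3 (bx_mono h2) (bx_step h2 h3.1))

/-- (14) -/
theorem s_coin2 : S_coin2 := by
  intro R B F hB hF
  refine ⟨fun τ τ' h => ?_, fun τ hfar => ?_⟩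
  · refine coin_congr (fun x _ y _ => ?_) (fun t => hF _ _ (fun x hx => ?_))
    · rw [bich_iff_con, bich_iff_con]
      exact BK.con_congr (fun z hz => h z hz) x y
    · have : τ x = τ' x := h x (Finset.mem_coe.1 (bx_mono (Finset.mem_coe.2 (hB hx))))
      simp only [pr, this]
  · refine coin_congr (fun x hx y hy => ⟨fun hc => ?_, fun hc => ?_⟩) (fun t => rfl)
    · by_contra hn
      refine hfar x hx y hy ⟨hn, bich_out (hB hx) hc hn, bich_out (y := x) (hB hy) ?_ ?_⟩
      · rw [bich_iff_con] at hc ⊢; exact hc.symm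
      · rw [bich_iff_con] at hn ⊢; exact fun h => hn h.symm
    · rw [bich_iff_con] at hc ⊢
      exact hc.mono (Set.subset_univ _)

end Vale.Agent.P153.A
end

section

/-!
# P153 GFF: (G3) convergence of the characteristic functions of all single test functions gives
the joint convergence in law to the centred Gaussian vector
-/

set_option linter.all false

namespace Vale.Agent.P153.GFF

open Finset Filter Topology MeasureTheory ProbabilityTheory

/-! ### Integrability of the Green function, bilinearity of the covariance -/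

/-- The logarithm of the norm cut off at radius `M`. -/
noncomputable def g3phi (M : ℝ) (z : ℝ × ℝ) : ℝ :=
  if |z.1| ≤ M ∧ |z.2| ≤ M then |Real.log (Real.sqrt (z.1 ^ 2 + z.2 ^ 2))| else 0

lemma g3log_bound {M : ℝ} (hM : 1 ≤ M) {z : ℝ × ℝ} (h0 : z.1 ≠ 0) (h1 : |z.1| ≤ M)
    (h2 : |z.2| ≤ M) :
    |Real.log (Real.sqrt (z.1 ^ 2 + z.2 ^ 2))| ≤ |Real.log z.1| + Real.log (2 * M) := by
  have ha : 0 < |z.1| := abs_pos.mpr h0
  have hr1 : |z.1| ≤ Real.sqrt (z.1 ^ 2 + z.2 ^ 2) := by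
    apply Real.abs_le_sqrt
    (clear * -; nlinarith [sq_nonneg z.2])
  have hr0 : 0 < Real.sqrt (z.1 ^ 2 + z.2 ^ 2) := ha.trans_le hr1
  have hr2 : Real.sqrt (z.1 ^ 2 + z.2 ^ 2) ≤ 2 * M := by
    rw [Real.sqrt_le_left (by linarith only [hM])]
    have e1 : z.1 ^ 2 ≤ M ^ 2 := by
      rw [← sq_abs z.1]
      exact pow_le_pow_left₀ (abs_nonneg _) h1 2
    have e2 : z.2 ^ 2 ≤ M ^ 2 := by
      rw [← sq_abs z.2]
      exact pow_le_pow_left₀ (abs_nonneg _) h2 2
    nlinarith only [e1, e2]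
  have hlM : 0 ≤ Real.log (2 * M) := Real.log_nonneg (by linarith)
  rcases le_total 1 (Real.sqrt (z.1 ^ 2 + z.2 ^ 2)) with h | h
  · rw [abs_of_nonneg (Real.log_nonneg h)]
    have := Real.log_le_log hr0 hr2
    have := abs_nonneg (Real.log z.1)
    linarith
  · rw [abs_of_nonpos (Real.log_nonpos hr0.le h)]
    have e3 : Real.log |z.1| ≤ Real.log (Real.sqrt (z.1 ^ 2 + z.2 ^ 2)) :=
      Real.log_le_log ha hr1
    rw [Real.log_abs] at e3
    have e4 : -Real.log z.1 ≤ |Real.log z.1| := neg_le_abs _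
    linarith

lemma g3phi_integrable {M : ℝ} (hM : 1 ≤ M) : Integrable (g3phi M) := by
  have hI : MeasurableSet {t : ℝ | |t| ≤ M} :=
    measurableSet_le continuous_abs.measurable measurable_const
  have hset : {t : ℝ | |t| ≤ M} = Set.Icc (-M) M := by
    ext t
    simp only [Set.mem_ofPred_eq, Set.mem_Icc, abs_le]
  have hlog : IntegrableOn (fun t : ℝ => |Real.log t| + Real.log (2 * M)) {t : ℝ | |t| ≤ M} := by
    rw [hset]
    have h1 : IntegrableOn Real.log (Set.Icc (-M) M) := by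
      have h2 : IntervalIntegrable Real.log volume (-M) M := intervalIntegral.intervalIntegrable_log'
      rwa [intervalIntegrable_iff_integrableOn_Icc_of_le (by linarith)] at h2
    exact h1.abs.add (integrableOn_const (by rw [Real.volume_Icc]; exact ENNReal.ofReal_ne_top))
  have hone : IntegrableOn (fun _ : ℝ => (1 : ℝ)) {t : ℝ | |t| ≤ M} := by
    rw [hset]
    exact integrableOn_const (by rw [Real.volume_Icc]; exact ENNReal.ofReal_ne_top)
  have hprod : Integrable (fun z : ℝ × ℝ =>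
      {t : ℝ | |t| ≤ M}.indicator (fun t : ℝ => |Real.log t| + Real.log (2 * M)) z.1 *
        {t : ℝ | |t| ≤ M}.indicator (fun _ : ℝ => (1 : ℝ)) z.2) (volume.prod volume) :=
    (hlog.integrable_indicator hI).mul_prod (hone.integrable_indicator hI)
  have hmeas : Measurable (g3phi M) := by
    unfold g3phi
    refine Measurable.ite ?_ ?_ measurable_const
    · exact (measurableSet_le (continuous_abs.measurable.comp measurable_fst)
        measurable_const).inter (measurableSet_le (continuous_abs.measurable.comp measurable_snd)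
        measurable_const)
    · fun_prop
  refine Integrable.mono' hprod hmeas.aestronglyMeasurable ?_
  have hne : ∀ᵐ z : ℝ × ℝ, z.1 ≠ 0 := by
    have h0 : (volume : Measure (ℝ × ℝ)) ({(0 : ℝ)} ×ˢ Set.univ) = 0 := by
      rw [Measure.volume_eq_prod, Measure.prod_prod]
      simp
    refine measure_mono_null (fun z hz => ?_) h0
    simp only [Set.mem_compl_iff, Set.mem_ofPred_eq, not_not] at hz
    exact ⟨hz, Set.mem_univ _⟩
  filter_upwards [hne] with z hz
  unfold g3phi
  by_cases h : |z.1| ≤ M ∧ |z.2| ≤ M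
  · rw [if_pos h, Set.indicator_of_mem (show z.1 ∈ {t : ℝ | |t| ≤ M} from h.1),
      Set.indicator_of_mem (show z.2 ∈ {t : ℝ | |t| ≤ M} from h.2), mul_one, Real.norm_eq_abs,
      abs_abs]
    exact g3log_bound hM hz h.1 h.2
  · rw [if_neg h, norm_zero]
    have hlM : 0 ≤ Real.log (2 * M) := Real.log_nonneg (by linarith only [hM])
    refine mul_nonneg (Set.indicator_nonneg (fun t _ => ?_) _)
      (Set.indicator_nonneg (fun t _ => zero_le_one) _)
    (clear * - hlM; positivity)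

lemma g3green_comm (x y : ℝ × ℝ) : green x y = green y x := by
  unfold green
  rw [show (x.1 - y.1) ^ 2 = (y.1 - x.1) ^ 2 by ring,
    show (x.2 - y.2) ^ 2 = (y.2 - x.2) ^ 2 by ring]

/-- Integrability of the Green function against bounded compactly supported functions. -/
theorem g3green_integrable {f g : ℝ × ℝ → ℝ} (hf : Continuous f) (hg : Continuous g)
    (cf : HasCompactSupport f) (cg : HasCompactSupport g) :
    Integrable (fun p : (ℝ × ℝ) × (ℝ × ℝ) => green p.1 p.2 * f p.1 * g p.2) := by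
  obtain ⟨Cf, hCf⟩ := cf.exists_bound_of_continuous hf
  obtain ⟨Rf, hRf⟩ := (Metric.isBounded_iff_subset_closedBall 0).mp cf.isCompact.isBounded
  obtain ⟨Rg, hRg⟩ := (Metric.isBounded_iff_subset_closedBall 0).mp cg.isCompact.isBounded
  set M : ℝ := max 1 (Rf + Rg) with hM
  have hM1 : 1 ≤ M := le_max_left _ _
  have hM2 : Rf + Rg ≤ M := le_max_right _ _
  have hCf0 : 0 ≤ Cf := (norm_nonneg _).trans (hCf 0)
  have hgi : Integrable (fun y => |g y|) := (hg.integrable_of_hasCompactSupport cg).abs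
  have : (volume : Measure (ℝ × ℝ)).IsAddHaarMeasure :=
    Measure.prod.instIsAddHaarMeasure volume volume
  have hconv : Integrable (fun p : (ℝ × ℝ) × (ℝ × ℝ) => |g p.2| * g3phi M (p.1 - p.2))
      (volume.prod volume) :=
    hgi.convolution_integrand (ContinuousLinearMap.mul ℝ ℝ) (g3phi_integrable hM1)
  have hdom := hconv.const_mul ((2 * Real.pi)⁻¹ * Cf)
  refine Integrable.mono' hdom ?_ (Filter.Eventually.of_forall fun p => ?_)
  · have hgr : Measurable fun p : (ℝ × ℝ) × (ℝ × ℝ) => green p.1 p.2 := by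
      unfold green
      fun_prop
    exact ((hgr.mul (hf.measurable.comp measurable_fst)).mul
      (hg.measurable.comp measurable_snd)).aestronglyMeasurable
  · have hpi : 0 ≤ (2 * Real.pi)⁻¹ := by positivity
    have hphi0 : 0 ≤ g3phi M (p.1 - p.2) := by
      unfold g3phi
      split_ifs
      · exact abs_nonneg _
      · exact le_refl _
    by_cases hfz : f p.1 = 0
    · rw [hfz, mul_zero, zero_mul, norm_zero]
      (clear * - hCf0 hphi0; positivity)
    by_cases hgz : g p.2 = 0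
    · rw [hgz, mul_zero, norm_zero]
      (clear * - hCf0 hphi0; positivity)
    have hx : p.1 ∈ tsupport f := subset_tsupport f hfz
    have hy : p.2 ∈ tsupport g := subset_tsupport g hgz
    have hx' : ‖p.1‖ ≤ Rf := by
      have := hRf hx
      rwa [Metric.mem_closedBall, dist_zero_right] at this
    have hy' : ‖p.2‖ ≤ Rg := by
      have := hRg hy
      rwa [Metric.mem_closedBall, dist_zero_right] at this
    have hd : ‖p.1 - p.2‖ ≤ M := (norm_sub_le _ _).trans (by linarith only [hM2, hx', hy'])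
    have hd1 : |(p.1 - p.2).1| ≤ M := (norm_fst_le (p.1 - p.2)).trans hd
    have hd2 : |(p.1 - p.2).2| ≤ M := (norm_snd_le (p.1 - p.2)).trans hd
    have e1 : g3phi M (p.1 - p.2) =
        |Real.log (Real.sqrt ((p.1.1 - p.2.1) ^ 2 + (p.1.2 - p.2.2) ^ 2))| := by
      unfold g3phi
      rw [if_pos ⟨hd1, hd2⟩]
      rfl
    have e2 : ‖green p.1 p.2‖ = (2 * Real.pi)⁻¹ * g3phi M (p.1 - p.2) := by
      rw [e1]
      unfold green
      rw [norm_mul, norm_neg, Real.norm_eq_abs, abs_of_nonneg hpi, Real.norm_eq_abs]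
    rw [norm_mul, norm_mul, e2]
    calc (2 * Real.pi)⁻¹ * g3phi M (p.1 - p.2) * ‖f p.1‖ * ‖g p.2‖
        ≤ (2 * Real.pi)⁻¹ * g3phi M (p.1 - p.2) * Cf * ‖g p.2‖ := by
          refine mul_le_mul_of_nonneg_right ?_ (norm_nonneg _)
          exact mul_le_mul_of_nonneg_left (hCf _) (by (clear * - hphi0; positivity))
      _ = (2 * Real.pi)⁻¹ * Cf * (|g p.2| * g3phi M (p.1 - p.2)) := by
          rw [Real.norm_eq_abs]
          ring

/-- The covariance as an integral over the product. -/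
theorem g3cov_eq_prod {f g : ℝ × ℝ → ℝ} (hf : Continuous f) (hg : Continuous g)
    (cf : HasCompactSupport f) (cg : HasCompactSupport g) :
    gffCov f g = ∫ p : (ℝ × ℝ) × (ℝ × ℝ), green p.1 p.2 * f p.1 * g p.2 := by
  have h := g3green_integrable hf hg cf cg
  unfold gffCov
  rw [Measure.volume_eq_prod] at h ⊢
  exact (integral_prod _ h).symm

theorem g3cov_symm {f g : ℝ × ℝ → ℝ} (hf : Continuous f) (hg : Continuous g)
    (cf : HasCompactSupport f) (cg : HasCompactSupport g) : gffCov f g = gffCov g f := by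
  have h := g3green_integrable hf hg cf cg
  rw [Measure.volume_eq_prod] at h
  unfold gffCov
  rw [integral_integral_swap h]
  refine integral_congr_ae (Filter.Eventually.of_forall fun x => ?_)
  refine integral_congr_ae (Filter.Eventually.of_forall fun y => ?_)
  simp only
  rw [g3green_comm x y]
  ring

theorem g3cov_sum {m : ℕ} (f : Fin m → ℝ × ℝ → ℝ) (hf : ∀ j, Continuous (f j))
    (cf : ∀ j, HasCompactSupport (f j)) (θ : Fin m → ℝ) :
    gffCov (fun x => ∑ j, θ j * f j x) (fun x => ∑ j, θ j * f j x)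
      = ∑ i, ∑ j, θ i * θ j * gffCov (f i) (f j) := by
  have hc : ∀ s : Finset (Fin m), Continuous (fun x => ∑ j ∈ s, θ j * f j x) := fun s =>
    continuous_finsetSum _ fun j _ => continuous_const.mul (hf j)
  have hs : ∀ s : Finset (Fin m), HasCompactSupport (fun x => ∑ j ∈ s, θ j * f j x) := by
    intro s
    classical
    induction s using Finset.induction_on with
    | empty =>
      simp only [Finset.sum_empty]
      exact HasCompactSupport.zero
    | insert a s ha ih =>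
      simp only [Finset.sum_insert ha]
      exact ((cf a).mul_left (f := fun _ => θ a)).add ih
  rw [g3cov_eq_prod (hc univ) (hc univ) (hs univ) (hs univ)]
  have e1 : (fun p : (ℝ × ℝ) × (ℝ × ℝ) =>
      green p.1 p.2 * (∑ j, θ j * f j p.1) * (∑ j, θ j * f j p.2)) =
      fun p => ∑ i, ∑ j, θ i * θ j * (green p.1 p.2 * f i p.1 * f j p.2) := by
    funext p
    rw [mul_assoc, Finset.sum_mul_sum, Finset.mul_sum]
    refine Finset.sum_congr rfl fun i _ => ?_
    rw [Finset.mul_sum]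
    refine Finset.sum_congr rfl fun j _ => ?_
    ring
  rw [e1, integral_finsetSum]
  · refine Finset.sum_congr rfl fun i _ => ?_
    rw [integral_finsetSum]
    · refine Finset.sum_congr rfl fun j _ => ?_
      rw [integral_const_mul, g3cov_eq_prod (hf i) (hf j) (cf i) (cf j)]
    · intro j _
      exact (g3green_integrable (hf i) (hf j) (cf i) (cf j)).const_mul _
  · intro i _
    refine integrable_finsetSum _ fun j _ => ?_
    exact (g3green_integrable (hf i) (hf j) (cf i) (cf j)).const_mul _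

/-! ### Linearity and measurability of the smeared field -/

lemma g3test {m : ℕ} (f : Fin m → ℝ × ℝ → ℝ) (hf : ∀ j, Test (f j)) (θ : Fin m → ℝ) :
    Test (fun x => ∑ j, θ j * f j x) := by
  refine ⟨ContDiff.sum fun j _ => contDiff_const.mul (hf j).1, ?_, ?_⟩
  · refine HasCompactSupport.intro (K := ⋃ j, tsupport (f j))
      (isCompact_iUnion fun j => (hf j).2.1.isCompact) fun x hx => ?_
    refine Finset.sum_eq_zero fun j _ => ?_
    rw [image_eq_zero_of_notMem_tsupport (fun hj => hx (Set.mem_iUnion.2 ⟨j, hj⟩)), mul_zero]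
  · rw [integral_finsetSum _ fun j _ => Integrable.const_mul
      ((hf j).1.continuous.integrable_of_hasCompactSupport (hf j).2.1) (θ j)]
    refine Finset.sum_eq_zero fun j _ => ?_
    rw [integral_const_mul, (hf j).2.2, mul_zero]

lemma g3radius {f : ℝ × ℝ → ℝ} (hf : HasCompactSupport f) : ∃ R : ℝ, 0 ≤ R ∧
    ∀ z : ℝ × ℝ, (R < |z.1| ∨ R < |z.2|) → f z = 0 := by
  obtain ⟨R, hR⟩ := hf.isCompact.isBounded.exists_norm_le
  refine ⟨max R 0, le_max_right _ _, fun z hz => ?_⟩
  refine image_eq_zero_of_notMem_tsupport fun hz' => ?_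
  have h1 := hR z hz'
  have h2 := (norm_fst_le z).trans h1
  have h3 := (norm_snd_le z).trans h1
  rw [Real.norm_eq_abs] at h2 h3
  have h4 := le_max_left R 0
  rcases hz with h | h <;> linarith

lemma g3wt_int {δ : ℝ} (hδ : 0 < δ) {f : ℝ × ℝ → ℝ} (hc : Continuous f)
    (hs : HasCompactSupport f) (v : ℤ × ℤ) :
    Integrable (fun u : ℝ × ℝ => ker u * f (δ • (u + pos v))) := by
  apply Continuous.integrable_of_hasCompactSupport
  · exact continuous_ker.mul (hc.comp (by fun_prop))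
  · apply HasCompactSupport.mul_left
    exact hs.comp_homeomorph ((Homeomorph.addRight (pos v)).trans (Homeomorph.smulOfNeZero δ hδ.ne'))

lemma g3lin (h : ℤ × ℤ → ℤ) {δ : ℝ} (hδ : 0 < δ) {m : ℕ} (f : Fin m → ℝ × ℝ → ℝ)
    (hf : ∀ j, Test (f j)) (θ : Fin m → ℝ) :
    smear h δ (fun x => ∑ j, θ j * f j x) = ∑ j, θ j * smear h δ (f j) := by
  choose R hR0 hR using fun j => g3radius (hf j).2.1
  set S : ℝ := ∑ j, R j with hS
  have hS0 : 0 ≤ S := Finset.sum_nonneg fun j _ => hR0 j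
  have hle : ∀ j, R j ≤ S := fun j => Finset.single_le_sum (fun i _ => hR0 i) (Finset.mem_univ j)
  have hRS : ∀ j, ∀ z : ℝ × ℝ, (S < |z.1| ∨ S < |z.2|) → f j z = 0 := fun j z hz =>
    hR j z (hz.imp (fun h => (hle j).trans_lt h) (fun h => (hle j).trans_lt h))
  have ht := g3test f hf θ
  rw [smear_eq_sum hδ hS0 ht.1.continuous ht.2.1 (fun z hz => by
    refine Finset.sum_eq_zero fun j _ => ?_
    rw [hRS j z hz, mul_zero]) h]
  have h1 : ∀ j, smear h δ (f j) = ∑ v ∈ box δ S, (h v : ℝ) * wt δ (f j) v := fun j =>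
    smear_eq_sum hδ hS0 (hf j).1.continuous (hf j).2.1 (hRS j) h
  simp_rw [h1, Finset.mul_sum]
  rw [Finset.sum_comm]
  refine Finset.sum_congr rfl fun v _ => ?_
  have h2 : wt δ (fun x => ∑ j, θ j * f j x) v = ∑ j, θ j * wt δ (f j) v := by
    unfold wt
    have h3 : (fun u : ℝ × ℝ => ker u * ∑ j, θ j * f j (δ • (u + pos v))) =
        fun u => ∑ j, θ j * (ker u * f j (δ • (u + pos v))) := by
      funext u
      rw [Finset.mul_sum]
      exact Finset.sum_congr rfl fun j _ => by ring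
    rw [h3, integral_finsetSum _ fun j _ => Integrable.const_mul
      (g3wt_int hδ (hf j).1.continuous (hf j).2.1 v) (θ j), Finset.mul_sum]
    refine Finset.sum_congr rfl fun j _ => ?_
    rw [integral_const_mul]
    ring
  rw [h2, Finset.mul_sum]
  exact Finset.sum_congr rfl fun j _ => by ring

lemma g3meas_pos {δ : ℝ} (hδ : 0 < δ) {f : ℝ × ℝ → ℝ} (hf : Test f) :
    Measurable (fun φ : ℤ × ℤ → ℤ => smear φ δ f) := by
  obtain ⟨R, hR0, hR⟩ := g3radius hf.2.1
  have h1 : (fun φ : ℤ × ℤ → ℤ => smear φ δ f) =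
      fun φ => ∑ v ∈ box δ R, (φ v : ℝ) * wt δ f v := by
    funext φ
    exact smear_eq_sum hδ hR0 hf.1.continuous hf.2.1 hR φ
  rw [h1]
  refine Finset.measurable_sum _ fun v _ => ?_
  have h2 : Measurable (fun φ : ℤ × ℤ → ℤ => (φ v : ℝ)) :=
    (measurable_of_countable (fun n : ℤ => (n : ℝ))).comp (measurable_pi_apply v)
  exact h2.mul_const _

lemma g3meas (δ : ℝ) {f : ℝ × ℝ → ℝ} (hf : Test f) :
    Measurable (fun φ : ℤ × ℤ → ℤ => smear φ δ f) := by
  rcases lt_trichotomy δ 0 with hδ | hδ | hδ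
  · have h1 : ∀ φ : ℤ × ℤ → ℤ, smear φ δ f = smear φ (-δ) (fun z => f (-z)) := by
      intro φ
      unfold smear
      rw [← integral_neg_eq_self (fun z : ℝ × ℝ => interp φ (z.1 / δ, z.2 / δ) * f z)]
      refine integral_congr_ae (ae_of_all _ fun z => ?_)
      simp only [Prod.fst_neg, Prod.snd_neg, neg_div, div_neg]
    have h2 : Test (fun z => f (-z)) := by
      refine ⟨hf.1.comp contDiff_neg, hf.2.1.comp_homeomorph (Homeomorph.neg (ℝ × ℝ)), ?_⟩
      rw [integral_neg_eq_self (fun z : ℝ × ℝ => f z)]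
      exact hf.2.2
    simp_rw [h1]
    exact g3meas_pos (by linarith) h2
  · subst hδ
    have h1 : ∀ φ : ℤ × ℤ → ℤ, smear φ 0 f = 0 := by
      intro φ
      unfold smear
      simp only [div_zero]
      rw [integral_const_mul, hf.2.2, mul_zero]
    simp_rw [h1]
    exact measurable_const
  · exact g3meas_pos hδ hf

/-! ### The limit law -/

theorem g3 : G3 := by
  intro P _ κ hκ hc m f hf
  have hsym : ∀ i j, gffCov (f i) (f j) = gffCov (f j) (f i) := fun i j =>
    g3cov_symm (hf i).1.continuous (hf j).1.continuous (hf i).2.1 (hf j).2.1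
  have hbil : ∀ θ : Fin m → ℝ, gffCov (fun x => ∑ j, θ j * f j x) (fun x => ∑ j, θ j * f j x)
      = ∑ i, ∑ j, θ i * θ j * gffCov (f i) (f j) := fun θ =>
    g3cov_sum f (fun j => (hf j).1.continuous) (fun j => (hf j).2.1) θ
  -- nonnegativity of the variance
  have hnn : ∀ F, Test F → 0 ≤ κ * gffCov F F := by
    intro F hF
    have h1 : ‖Complex.exp (-((κ * gffCov F F / 2 : ℝ) : ℂ))‖ ≤ 1 := by
      refine le_of_tendsto (hc F hF).norm (Eventually.of_forall fun δ => ?_)
      refine (norm_integral_le_integral_norm _).trans ?_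
      have h2 : ∀ φ : ℤ × ℤ → ℤ, ‖Complex.exp (Complex.I * ((smear φ δ F : ℝ) : ℂ))‖ = 1 := by
        intro φ
        rw [mul_comm, Complex.norm_exp_ofReal_mul_I]
      simp [h2]
    rw [Complex.norm_exp, Real.exp_le_one_iff, Complex.neg_re, Complex.ofReal_re] at h1
    linarith only [h1]
  have hq : ∀ θ : Fin m → ℝ, ∑ i, ∑ j, θ i * θ j * (κ * gffCov (f i) (f j)) =
      κ * gffCov (fun x => ∑ j, θ j * f j x) (fun x => ∑ j, θ j * f j x) := by
    intro θ
    rw [hbil θ, Finset.mul_sum]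
    refine Finset.sum_congr rfl fun i _ => ?_
    rw [Finset.mul_sum]
    exact Finset.sum_congr rfl fun j _ => by ring
  have hdot : ∀ θ : Fin m → ℝ,
      θ ⬝ᵥ (Matrix.of (fun i j => κ * gffCov (f i) (f j))).mulVec θ =
        κ * gffCov (fun x => ∑ j, θ j * f j x) (fun x => ∑ j, θ j * f j x) := by
    intro θ
    rw [← hq θ]
    simp only [dotProduct, Matrix.mulVec, Matrix.of_apply, mul_sum]
    exact Finset.sum_congr rfl fun i _ => Finset.sum_congr rfl fun j _ => by ring
  have hpsd : (Matrix.of (fun i j => κ * gffCov (f i) (f j))).PosSemidef := by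
    refine Matrix.PosSemidef.of_dotProduct_mulVec_nonneg ?_ fun θ => ?_
    · ext i j
      simp [Matrix.conjTranspose_apply, hsym i j]
    · rw [star_trivial, hdot θ]
      exact hnn _ (g3test f hf θ)
  refine ⟨hpsd, ?_⟩
  have hX : ∀ δ : ℝ, AEMeasurable (fun φ : ℤ × ℤ → ℤ =>
      (WithLp.toLp 2 (fun j => smear φ δ (f j)) : EuclideanSpace ℝ (Fin m))) P := by
    intro δ
    exact (WithLp.measurable_toLp 2 (Fin m → ℝ)).comp_aemeasurable
      (aemeasurable_pi_lambda _ fun j => (g3meas δ (hf j)).aemeasurable)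
  refine ⟨hX, by fun_prop, ?_⟩
  refine tendsto_of_seq_tendsto fun s hs => ?_
  refine ProbabilityMeasure.tendsto_of_tendsto_charFun fun t => ?_
  have hid : (multivariateGaussian 0 (Matrix.of (fun i j => κ * gffCov (f i) (f j)))).map
      (id : EuclideanSpace ℝ (Fin m) → EuclideanSpace ℝ (Fin m)) =
      multivariateGaussian 0 (Matrix.of (fun i j => κ * gffCov (f i) (f j))) := Measure.map_id
  simp only [Function.comp_apply, ProbabilityMeasure.coe_mk, hid]
  rw [charFun_multivariateGaussian hpsd]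
  have hF := g3test f hf (fun j => t j)
  have h1 := (hc _ hF).comp hs
  have h2 : Complex.exp (((inner ℝ t (0 : EuclideanSpace ℝ (Fin m)) : ℝ) : ℂ) * Complex.I -
      ((t : Fin m → ℝ) ⬝ᵥ (Matrix.of (fun i j => κ * gffCov (f i) (f j))).mulVec t : ℝ) / 2) =
      Complex.exp (-((κ * gffCov (fun x => ∑ j, t j * f j x)
        (fun x => ∑ j, t j * f j x) / 2 : ℝ) : ℂ)) := by
    rw [hdot, inner_zero_right]
    congr 1
    push_cast
    ring
  rw [h2]
  refine h1.congr' ?_
  have hpos : ∀ᶠ n in atTop, 0 < s n := by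
    have := hs.eventually self_mem_nhdsWithin
    simpa only [eventually_atTop] using this
  filter_upwards [hpos] with n hn
  change ∫ φ : ℤ × ℤ → ℤ, Complex.exp (Complex.I *
      ((smear φ (s n) (fun x => ∑ j, t j * f j x) : ℝ) : ℂ)) ∂P =
    charFun (P.map (fun φ : ℤ × ℤ → ℤ =>
      (WithLp.toLp 2 (fun j => smear φ (s n) (f j)) : EuclideanSpace ℝ (Fin m)))) t
  rw [charFun_apply, integral_map (hX (s n)) (by fun_prop)]
  refine integral_congr_ae (ae_of_all _ fun φ => ?_)
  simp only []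
  rw [g3lin φ hn f hf (fun j => t j), mul_comm]
  congr 3

end Vale.Agent.P153.GFF
end

section

/-!
# P153 GFF: the plane theorem from the outputs of the blocks
-/

open MeasureTheory ProbabilityTheory Filter Topology Set

namespace Vale.Agent.P153.GFF



variable {P : Measure (ℤ × ℤ → ℤ)} {f : ℝ × ℝ → ℝ} {κ : ℝ}

lemma interp_dbl (φ : ℤ × ℤ → ℤ) (z : ℝ × ℝ) : interp (dbl φ) z = 2 * interp φ z := by
  unfold interp dbl
  rw [mul_finsum]
  apply finsum_congr
  intro v
  push_cast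
  ring

lemma smear_dbl (φ : ℤ × ℤ → ℤ) (δ : ℝ) (f : ℝ × ℝ → ℝ) :
    smear (dbl φ) δ f = smear φ δ (fun z => 2 * f z) := by
  unfold smear
  congr 1
  ext z
  rw [interp_dbl]
  ring

lemma test_two (hf : Test f) : Test fun z => 2 * f z := by
  obtain ⟨h1, h2, h3⟩ := hf
  refine ⟨contDiff_const.mul h1, h2.mul_left, ?_⟩
  rw [integral_const_mul, h3, mul_zero]

lemma gffCov_two (f : ℝ × ℝ → ℝ) :
    gffCov (fun z => 2 * f z) (fun z => 2 * f z) = 4 * gffCov f f := by
  unfold gffCov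
  rw [← integral_const_mul]
  congr 1
  ext x
  rw [← integral_const_mul]
  congr 1
  ext y
  ring

end Vale.Agent.P153.GFF
end

section

/-!
# P153 GFF: (G3) for measures which depend on the mesh
-/

set_option linter.all false

namespace Vale.Agent.P153.GFF

open Finset Filter Topology MeasureTheory ProbabilityTheory

theorem g3v (μ : ℝ → Measure (ℤ × ℤ → ℤ)) [hμ : ∀ δ, IsProbabilityMeasure (μ δ)] (κ : ℝ)
    (hc : ∀ F, Test F → Tendsto (fun δ : ℝ => ∫ φ : ℤ × ℤ → ℤ,
      Complex.exp (Complex.I * ((smear φ δ F : ℝ) : ℂ)) ∂(μ δ)) (𝓝[>] 0)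
      (𝓝 (Complex.exp (-((κ * gffCov F F / 2 : ℝ) : ℂ))))) (m : ℕ) (f : Fin m → ℝ × ℝ → ℝ)
    (hf : ∀ j, Test (f j)) :
    (Matrix.of (fun i j => κ * gffCov (f i) (f j))).PosSemidef ∧
      TendstoInDistribution (fun (δ : ℝ) (φ : ℤ × ℤ → ℤ) =>
        (WithLp.toLp 2 (fun j => smear φ δ (f j)) : EuclideanSpace ℝ (Fin m))) (𝓝[>] 0)
        (id : EuclideanSpace ℝ (Fin m) → EuclideanSpace ℝ (Fin m)) (fun δ => μ δ)
        (multivariateGaussian 0 (Matrix.of (fun i j => κ * gffCov (f i) (f j)))) := by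
  have hsym : ∀ i j, gffCov (f i) (f j) = gffCov (f j) (f i) := fun i j =>
    g3cov_symm (hf i).1.continuous (hf j).1.continuous (hf i).2.1 (hf j).2.1
  have hbil : ∀ θ : Fin m → ℝ, gffCov (fun x => ∑ j, θ j * f j x) (fun x => ∑ j, θ j * f j x)
      = ∑ i, ∑ j, θ i * θ j * gffCov (f i) (f j) := fun θ =>
    g3cov_sum f (fun j => (hf j).1.continuous) (fun j => (hf j).2.1) θ
  -- nonnegativity of the variance
  have hnn : ∀ F, Test F → 0 ≤ κ * gffCov F F := by
    intro F hF
    have h1 : ‖Complex.exp (-((κ * gffCov F F / 2 : ℝ) : ℂ))‖ ≤ 1 := by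
      refine le_of_tendsto (hc F hF).norm (Eventually.of_forall fun δ => ?_)
      refine (norm_integral_le_integral_norm _).trans ?_
      have h2 : ∀ φ : ℤ × ℤ → ℤ, ‖Complex.exp (Complex.I * ((smear φ δ F : ℝ) : ℂ))‖ = 1 := by
        intro φ
        rw [mul_comm, Complex.norm_exp_ofReal_mul_I]
      simp [h2]
    rw [Complex.norm_exp, Real.exp_le_one_iff, Complex.neg_re, Complex.ofReal_re] at h1
    linarith
  have hq : ∀ θ : Fin m → ℝ, ∑ i, ∑ j, θ i * θ j * (κ * gffCov (f i) (f j)) =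
      κ * gffCov (fun x => ∑ j, θ j * f j x) (fun x => ∑ j, θ j * f j x) := by
    intro θ
    rw [hbil θ, Finset.mul_sum]
    refine Finset.sum_congr rfl fun i _ => ?_
    rw [Finset.mul_sum]
    exact Finset.sum_congr rfl fun j _ => by ring
  have hdot : ∀ θ : Fin m → ℝ,
      θ ⬝ᵥ (Matrix.of (fun i j => κ * gffCov (f i) (f j))).mulVec θ =
        κ * gffCov (fun x => ∑ j, θ j * f j x) (fun x => ∑ j, θ j * f j x) := by
    intro θ
    rw [← hq θ]
    simp only [dotProduct, Matrix.mulVec, Matrix.of_apply, Finset.mul_sum]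
    exact Finset.sum_congr rfl fun i _ => Finset.sum_congr rfl fun j _ => by ring
  have hpsd : (Matrix.of (fun i j => κ * gffCov (f i) (f j))).PosSemidef := by
    refine Matrix.PosSemidef.of_dotProduct_mulVec_nonneg ?_ fun θ => ?_
    · ext i j
      simp [Matrix.conjTranspose_apply, hsym i j]
    · rw [star_trivial, hdot θ]
      exact hnn _ (g3test f hf θ)
  refine ⟨hpsd, ?_⟩
  have hX : ∀ δ : ℝ, AEMeasurable (fun φ : ℤ × ℤ → ℤ =>
      (WithLp.toLp 2 (fun j => smear φ δ (f j)) : EuclideanSpace ℝ (Fin m))) (μ δ) := by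
    intro δ
    exact (WithLp.measurable_toLp 2 (Fin m → ℝ)).comp_aemeasurable
      (aemeasurable_pi_lambda _ fun j => (g3meas δ (hf j)).aemeasurable)
  refine ⟨hX, by fun_prop, ?_⟩
  refine tendsto_of_seq_tendsto fun s hs => ?_
  refine ProbabilityMeasure.tendsto_of_tendsto_charFun fun t => ?_
  have hid : (multivariateGaussian 0 (Matrix.of (fun i j => κ * gffCov (f i) (f j)))).map
      (id : EuclideanSpace ℝ (Fin m) → EuclideanSpace ℝ (Fin m)) =
      multivariateGaussian 0 (Matrix.of (fun i j => κ * gffCov (f i) (f j))) := Measure.map_id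
  simp only [Function.comp_apply, ProbabilityMeasure.coe_mk, hid]
  rw [charFun_multivariateGaussian hpsd]
  have hF := g3test f hf (fun j => t j)
  have h1 := (hc _ hF).comp hs
  have h2 : Complex.exp (((inner ℝ t (0 : EuclideanSpace ℝ (Fin m)) : ℝ) : ℂ) * Complex.I -
      ((t : Fin m → ℝ) ⬝ᵥ (Matrix.of (fun i j => κ * gffCov (f i) (f j))).mulVec t : ℝ) / 2) =
      Complex.exp (-((κ * gffCov (fun x => ∑ j, t j * f j x)
        (fun x => ∑ j, t j * f j x) / 2 : ℝ) : ℂ)) := by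
    rw [hdot, inner_zero_right]
    congr 1
    push_cast
    ring
  rw [h2]
  refine h1.congr' ?_
  have hpos : ∀ᶠ n in atTop, 0 < s n := by
    have := hs.eventually self_mem_nhdsWithin
    simpa using this
  filter_upwards [hpos] with n hn
  change ∫ φ : ℤ × ℤ → ℤ, Complex.exp (Complex.I *
      ((smear φ (s n) (fun x => ∑ j, t j * f j x) : ℝ) : ℂ)) ∂(μ (s n)) =
    charFun ((μ (s n)).map (fun φ : ℤ × ℤ → ℤ =>
      (WithLp.toLp 2 (fun j => smear φ (s n) (f j)) : EuclideanSpace ℝ (Fin m)))) t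
  rw [charFun_apply, integral_map (hX (s n)) (by fun_prop)]
  refine integral_congr_ae (ae_of_all _ fun φ => ?_)
  simp only []
  rw [g3lin φ hn f hf (fun j => t j), mul_comm]
  congr 3

end Vale.Agent.P153.GFF
end

section

/-! # P153, block F-X: confinement by a circuit, locality of the circuit event -/

namespace Vale.Agent.P153.F.X

open Relation Vale.Agent.P153 Vale.Agent.P153.Topo
open Vale.Agent.P153.F.RSW (Ann annR pr mem_pr Mid VStep vconf_of_ann ann_congr)

/-- A circuit confines the box inside. -/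
theorem s_conf : S_conf := by
  intro p r B hr hZ x hx y hy
  have h1 : ReflTransGen (VStep B) x y := hy
  obtain ⟨h2, h3⟩ := vconf_of_ann (by omega) hZ hx h1
  exact ⟨h2.le, h3.le⟩

/-- The midpoints of the edges are sums of two neighbours. -/
theorem mid_split {w : Pt} (hw : w ∈ Mid) : ∃ x y : Pt, Adj x y ∧ w = x + y ∧
    2 * x.1 ≤ w.1 + 1 ∧ w.1 - 1 ≤ 2 * x.1 ∧ 2 * x.2 ≤ w.2 + 1 ∧ w.2 - 1 ≤ 2 * x.2 ∧
    2 * y.1 ≤ w.1 + 1 ∧ w.1 - 1 ≤ 2 * y.1 ∧ 2 * y.2 ≤ w.2 + 1 ∧ w.2 - 1 ≤ 2 * y.2 := by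
  have h : Odd w.1 ∨ Odd w.2 := hw
  rw [Int.odd_iff, Int.odd_iff] at h
  refine ⟨(w.1 / 2, (w.2 + 1) / 2), ((w.1 + 1) / 2, w.2 / 2), ?_, Prod.ext ?_ ?_, ?_, ?_, ?_, ?_,
    ?_, ?_, ?_, ?_⟩
  · rw [adj_iff]
    simp only
    omega
  all_goals simp only [Prod.fst_add, Prod.snd_add]; omega

theorem ann_iE {p : Pt} {r : ℤ} {w : Pt} (hw : w ∈ Mid) (hA : w ∈ annR p.1 p.2 r) :
    w ∈ iE (bx p (2 * r)) ∧ w ∉ iE (bx p (r - 1)) := by
  obtain ⟨h1, h2⟩ := hA
  rw [mem_pr] at h1
  constructor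
  · have hodd : Odd w.1 ∨ Odd w.2 := hw
    rw [Int.odd_iff, Int.odd_iff] at hodd
    obtain ⟨x, y, hxy, hw', h3, h4, h5, h6, h7, h8, h9, h10⟩ := mid_split hw
    refine ⟨x, ?_, y, ?_, hxy, hw'⟩
    · show |x.1 - p.1| ≤ 2 * r ∧ |x.2 - p.2| ≤ 2 * r
      rw [abs_le, abs_le]
      omega
    · show |y.1 - p.1| ≤ 2 * r ∧ |y.2 - p.2| ≤ 2 * r
      rw [abs_le, abs_le]
      omega
  · rintro ⟨x, hx, y, hy, hxy, rfl⟩
    have hx' : |x.1 - p.1| ≤ r - 1 ∧ |x.2 - p.2| ≤ r - 1 := hx
    have hy' : |y.1 - p.1| ≤ r - 1 ∧ |y.2 - p.2| ≤ r - 1 := hy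
    rw [abs_le, abs_le] at hx' hy'
    rw [Prod.fst_add, Prod.snd_add] at h2
    omega

/-- **Locality of the circuit event.** -/
theorem s_loc : S_loc := by
  classical
  intro p r hr
  have hmono : ∀ {B B' : Set Pt}, (∀ w ∈ Mid ∩ annR p.1 p.2 r, w ∈ B → w ∈ B') → Zr p r B →
      Zr p r B' := by
    intro B B' h hZ
    refine ann_congr (by omega) ?_ hZ
    rintro z ⟨⟨h1, h2⟩, h3⟩
    exact ⟨h z ⟨h2, h3⟩ h1, h2⟩
  refine ⟨?_, ?_, ?_, ?_⟩
  · intro B B' hBB
    unfold ind
    by_cases h : Zr p r B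
    · rw [if_pos h, if_pos (hmono (fun w _ hw => hBB hw) h)]
    · rw [if_neg h]
      split_ifs
      · exact zero_le_one
      · exact le_rfl
  · intro B
    unfold ind
    split_ifs
    · exact zero_le_one
    · exact le_rfl
  · have hfin : (Mid ∩ annR p.1 p.2 r).Finite := by
      refine (Set.Finite.subset (Finset.finite_toSet
        (Finset.Icc (2 * (p.1 - 2 * r)) (2 * (p.1 + 2 * r)) ×ˢ
          Finset.Icc (2 * (p.2 - 2 * r)) (2 * (p.2 + 2 * r)))) ?_)
      rintro w ⟨_, h1, _⟩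
      rw [mem_pr] at h1
      rw [Finset.mem_coe, Finset.mem_product, Finset.mem_Icc, Finset.mem_Icc]
      omega
    refine ⟨hfin.toFinset, fun w hw => ?_, fun B B' h => ?_⟩
    · have hw' := hfin.mem_toFinset.1 hw
      exact ann_iE hw'.1 hw'.2
    · have h1 : Zr p r B ↔ Zr p r B' :=
        ⟨hmono fun w hw => (h w (hfin.mem_toFinset.2 hw)).1,
          hmono fun w hw => (h w (hfin.mem_toFinset.2 hw)).2⟩
      unfold ind
      by_cases h2 : Zr p r B
      · rw [if_pos h2, if_pos (h1.1 h2)]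
      · rw [if_neg h2, if_neg (fun h3 => h2 (h1.2 h3))]
  · unfold ind
    rw [if_neg]
    intro h
    obtain ⟨x, y, hxy, _⟩ := h.1
    exact hxy.left_mem.1.1

end Vale.Agent.P153.F.X
end

section

/-!
P153-F, block X (triangular lattice): `S_cnt`. The measure of a union of `n` circuit events at level
0 is at most of order `n ^ (3 / 4)`; the union is decomposed according to the last event which
occurs; the law of the heights is invariant under translations.
-/

namespace Vale.Agent.P153.F.X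

open Finset MeasureTheory
open Vale.Agent.P153

/-- Among `m` events there is one such that the measure of its part where none of the later ones
(from `g` steps later on) occurs is at most `g / m` times the measure of the union. -/
theorem exists_last {Ω : Type*} [MeasurableSpace Ω] {μ : Measure Ω} {Z : ℕ → Set Ω}
    (hZ : ∀ k, MeasurableSet (Z k)) {g : ℕ} (hg : 0 < g) {m n : ℕ} (hm : 0 < m) (hmn : m ≤ n) :
    ∃ k < m, (m : ENNReal) * μ (Z k \ ⋃ j ∈ Set.Ico (k + g) n, Z j) ≤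
      g * μ (⋃ j ∈ Set.Iio n, Z j) := by
  classical
  set A : ℕ → Set Ω := fun k => Z k \ ⋃ j ∈ Set.Ico (k + g) n, Z j with hA
  have hAm : ∀ k, MeasurableSet (A k) := fun k =>
    (hZ k).diff (MeasurableSet.biUnion (Set.to_countable _) fun j _ => hZ j)
  -- the sum over one residue class
  have hcls : ∀ r, ∑ k ∈ (range m).filter (fun k => k % g = r), μ (A k) ≤
      μ (⋃ j ∈ Set.Iio n, Z j) := by
    intro r
    have hdis : Set.PairwiseDisjoint (↑((range m).filter (fun k => k % g = r))) A := by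
      have key : ∀ i j, i < j → i % g = r → j % g = r → j < m → Disjoint (A i) (A j) := by
        intro i j hij hi hj hjm
        have hgj : i + g ≤ j := by
          have h1 := Nat.div_add_mod i g
          have h2 := Nat.div_add_mod j g
          have h3 : i / g < j / g := by
            by_contra h
            have h4 : j / g ≤ i / g := by omega
            have h5 : g * (j / g) ≤ g * (i / g) := Nat.mul_le_mul_left g h4
            omega
          have h4 : g * (i / g + 1) ≤ g * (j / g) := Nat.mul_le_mul_left g h3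
          rw [Nat.mul_add, Nat.mul_one] at h4
          omega
        rw [Set.disjoint_left]
        rintro w ⟨-, h1⟩ ⟨h2, -⟩
        exact h1 (Set.mem_biUnion (show j ∈ Set.Ico (i + g) n from ⟨hgj, by omega⟩) h2)
      intro i hi j hj hij
      rw [Finset.mem_coe, Finset.mem_filter, Finset.mem_range] at hi hj
      rcases lt_or_gt_of_ne hij with h | h
      · exact key i j h hi.2 hj.2 hj.1
      · exact (key j i h hj.2 hi.2 hi.1).symm
    rw [← measure_biUnion_finset hdis fun k _ => hAm k]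
    refine measure_mono ?_
    intro w hw
    simp only [Set.mem_iUnion, Finset.mem_filter, Finset.mem_range] at hw
    obtain ⟨k, hk, h⟩ := hw
    exact Set.mem_biUnion (show k ∈ Set.Iio n from lt_of_lt_of_le hk.1 hmn) h.1
  have hsum : ∑ k ∈ range m, μ (A k) ≤ g * μ (⋃ j ∈ Set.Iio n, Z j) := by
    have h1 : ∑ k ∈ range m, μ (A k) =
        ∑ r ∈ range g, ∑ k ∈ (range m).filter (fun k => k % g = r), μ (A k) := by
      refine (Finset.sum_fiberwise_of_maps_to (fun k _ => ?_) _).symm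
      exact Finset.mem_range.2 (Nat.mod_lt k hg)
    rw [h1]
    calc _ ≤ ∑ _r ∈ range g, μ (⋃ j ∈ Set.Iio n, Z j) := Finset.sum_le_sum fun r _ => hcls r
      _ = _ := by rw [Finset.sum_const, Finset.card_range, nsmul_eq_mul]
  obtain ⟨k, hk, hmin⟩ := Finset.exists_min_image (range m) (fun k => μ (A k))
    ⟨0, Finset.mem_range.2 hm⟩
  refine ⟨k, Finset.mem_range.1 hk, le_trans ?_ hsum⟩
  calc (m : ENNReal) * μ (A k) = ∑ _j ∈ range m, μ (A k) := by
        rw [Finset.sum_const, Finset.card_range, nsmul_eq_mul]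
    _ ≤ ∑ j ∈ range m, μ (A j) := Finset.sum_le_sum hmin

/-- The measure of a union of `n` events on which the fourth moment of `A` is at most `C n ^ 2`. -/
theorem union_le {Ω : Type*} [MeasurableSpace Ω] {μ : Measure Ω} {A : Ω → ℝ} (hA : Measurable A)
    {Z : ℕ → Set Ω} {n : ℕ} {C : ℝ} (hC : 0 ≤ C)
    (hmom : ∀ j < n, ∫⁻ x in Z j, ENNReal.ofReal (A x ^ 4) ∂μ ≤ ENNReal.ofReal (C * n ^ 2))
    {M : ℝ} (hM : 0 < M) (hMn : (n : ℝ) ^ 3 ≤ M ^ 4)
    (hcount : μ {x | |A x| ≤ M} ≤ ENNReal.ofReal (M + 1)) :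
    μ (⋃ j ∈ Set.Iio n, Z j) ≤ ENNReal.ofReal (M + 1 + C) := by
  have hM4 : 0 < M ^ 4 := by positivity
  have h1 : (⋃ j ∈ Set.Iio n, Z j) ⊆
      {x | |A x| ≤ M} ∪ ⋃ j ∈ range n, (Z j ∩ {x | ENNReal.ofReal (M ^ 4) ≤ ENNReal.ofReal (A x ^ 4)}) := by
    intro x hx
    simp only [Set.mem_iUnion, Set.mem_Iio] at hx
    obtain ⟨j, hj, hxj⟩ := hx
    rcases le_or_gt (|A x|) M with h | h
    · exact Or.inl h
    · refine Or.inr (Set.mem_biUnion (Finset.mem_coe.2 (Finset.mem_range.2 hj)) ⟨hxj, ?_⟩)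
      refine ENNReal.ofReal_le_ofReal ?_
      have h2 : A x ^ 4 = |A x| ^ 4 := (Even.pow_abs (by decide) (A x)).symm
      rw [h2]
      exact pow_le_pow_left₀ hM.le h.le 4
  have h2 : ∀ j < n, μ (Z j ∩ {x | ENNReal.ofReal (M ^ 4) ≤ ENNReal.ofReal (A x ^ 4)}) ≤
      ENNReal.ofReal (C * n ^ 2 / M ^ 4) := by
    intro j hj
    have h3 := mul_meas_ge_le_lintegral (μ := μ.restrict (Z j))
      (f := fun x => ENNReal.ofReal (A x ^ 4)) (hA.pow_const 4).ennreal_ofReal
      (ENNReal.ofReal (M ^ 4))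
    have h4 : MeasurableSet {x | ENNReal.ofReal (M ^ 4) ≤ ENNReal.ofReal (A x ^ 4)} :=
      measurableSet_le measurable_const (hA.pow_const 4).ennreal_ofReal
    rw [Measure.restrict_apply h4] at h3
    have h5 := h3.trans (hmom j hj)
    rw [Set.inter_comm, ENNReal.ofReal_div_of_pos hM4, ENNReal.le_div_iff_mul_le
      (Or.inl (by simpa using hM4)) (Or.inl ENNReal.ofReal_ne_top), mul_comm]
    exact h5
  calc μ (⋃ j ∈ Set.Iio n, Z j)
      ≤ μ {x | |A x| ≤ M} + μ (⋃ j ∈ range n, (Z j ∩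
        {x | ENNReal.ofReal (M ^ 4) ≤ ENNReal.ofReal (A x ^ 4)})) :=
        (measure_mono h1).trans (measure_union_le _ _)
    _ ≤ ENNReal.ofReal (M + 1) + ∑ j ∈ range n, μ (Z j ∩
        {x | ENNReal.ofReal (M ^ 4) ≤ ENNReal.ofReal (A x ^ 4)}) :=
        add_le_add hcount (measure_biUnion_finset_le _ _)
    _ ≤ ENNReal.ofReal (M + 1) + ∑ _j ∈ range n, ENNReal.ofReal (C * n ^ 2 / M ^ 4) :=
        add_le_add le_rfl (Finset.sum_le_sum fun j hj => h2 j (Finset.mem_range.1 hj))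
    _ ≤ ENNReal.ofReal (M + 1) + ENNReal.ofReal C := by
        refine add_le_add le_rfl ?_
        rw [Finset.sum_const, Finset.card_range, nsmul_eq_mul, ← ENNReal.ofReal_natCast,
          ← ENNReal.ofReal_mul (Nat.cast_nonneg n)]
        refine ENNReal.ofReal_le_ofReal ?_
        have e : (n : ℝ) * (C * n ^ 2 / M ^ 4) = C * (n ^ 3 / M ^ 4) := by ring
        rw [e]
        have h6 : (n : ℝ) ^ 3 / M ^ 4 ≤ 1 := (div_le_one hM4).2 hMn
        calc C * ((n : ℝ) ^ 3 / M ^ 4) ≤ C * 1 := mul_le_mul_of_nonneg_left h6 hC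
          _ = C := mul_one C
    _ = ENNReal.ofReal (M + 1 + C) := (ENNReal.ofReal_add (by linarith) hC).symm

theorem tsum_two_le {c M : ℝ} (hM : 0 ≤ M) :
    ∑' k : ℤ, (if |c + 2 * k| ≤ M then (1 : ENNReal) else 0) ≤ ENNReal.ofReal (M + 1) := by
  have hsub : ∀ k : ℤ, k ∉ Finset.Icc ⌈(-M - c) / 2⌉ ⌊(M - c) / 2⌋ →
      (if |c + 2 * (k : ℝ)| ≤ M then (1 : ENNReal) else 0) = 0 := by
    intro k hk
    refine if_neg fun h => hk ?_
    have h1 := abs_le.1 h
    rw [Finset.mem_Icc]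
    exact ⟨Int.ceil_le.2 (by linarith [h1.1]), Int.le_floor.2 (by linarith [h1.2])⟩
  rw [tsum_eq_sum hsub]
  calc ∑ k ∈ Finset.Icc ⌈(-M - c) / 2⌉ ⌊(M - c) / 2⌋,
        (if |c + 2 * (k : ℝ)| ≤ M then (1 : ENNReal) else 0)
      ≤ ∑ _k ∈ Finset.Icc ⌈(-M - c) / 2⌉ ⌊(M - c) / 2⌋, (1 : ENNReal) :=
        Finset.sum_le_sum fun k _ => by split_ifs <;> simp
    _ = ((Finset.Icc ⌈(-M - c) / 2⌉ ⌊(M - c) / 2⌋).card : ENNReal) := by simp
    _ ≤ ENNReal.ofReal (M + 1) := by
        rw [← ENNReal.ofReal_natCast]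
        refine ENNReal.ofReal_le_ofReal ?_
        rw [Int.card_Icc]
        have h1 := Int.floor_le ((M - c) / 2)
        have h2 := Int.le_ceil ((-M - c) / 2)
        rcases le_or_gt 0 (⌊(M - c) / 2⌋ + 1 - ⌈(-M - c) / 2⌉) with h | h
        · have h3 : ((⌊(M - c) / 2⌋ + 1 - ⌈(-M - c) / 2⌉).toNat : ℝ) =
              (⌊(M - c) / 2⌋ : ℝ) + 1 - ⌈(-M - c) / 2⌉ := by
            have : (((⌊(M - c) / 2⌋ + 1 - ⌈(-M - c) / 2⌉).toNat : ℤ) : ℝ) =
                ((⌊(M - c) / 2⌋ + 1 - ⌈(-M - c) / 2⌉ : ℤ) : ℝ) := by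
              rw [Int.toNat_of_nonneg h]
            push_cast at this
            exact this
          rw [h3]
          linarith
        · rw [Int.toNat_of_nonpos h.le]
          simp only [Nat.cast_zero]
          linarith

/-! ### The law of the absolute heights -/

theorem lintegral_muT {P : Measure (Pt → ℤ)} {f : Hg → ENNReal} (hf : Measurable f) :
    ∫⁻ h, f h ∂(muT P) = ∫⁻ φ, ∑' k : ℤ, f (odd k φ) ∂P := by
  rw [muT, lintegral_sum_measure]
  refine Eq.trans ?_
    (lintegral_tsum fun k => (hf.comp (measurable_odd k)).aemeasurable).symm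
  exact tsum_congr fun k => lintegral_map hf (measurable_odd k)

/-- The linear functional with weight `w`. -/
noncomputable def evT (w : Pt →₀ ℝ) (h : Hg) : ℝ := w.sum fun v a => a * (h v : ℝ)

/-- The mass of a weight. -/
noncomputable def massT (w : Pt →₀ ℝ) : ℝ := w.sum fun _ a => a

theorem measurable_evT (w : Pt →₀ ℝ) : Measurable (evT w) := by
  unfold evT Finsupp.sum
  refine Finset.measurable_sum _ fun q _ => measurable_const.mul ?_
  exact (measurable_from_top (f := fun z : ℤ => (z : ℝ))).comp (measurable_pi_apply q)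

theorem evT_odd (w : Pt →₀ ℝ) (φ : Pt → ℤ) (k : ℤ) :
    evT w (odd k φ) = evT w (odd 0 φ) + 2 * k * massT w := by
  unfold evT massT
  rw [Finsupp.sum, Finsupp.sum, Finsupp.sum, Finset.mul_sum, ← Finset.sum_add_distrib]
  refine Finset.sum_congr rfl fun q _ => ?_
  unfold odd
  push_cast
  ring

theorem muT_abs_le {P : Measure (Pt → ℤ)} [IsProbabilityMeasure P] {w : Pt →₀ ℝ}
    (hw : massT w = 1) {M : ℝ} (hM : 0 ≤ M) :
    muT P {h | |evT w h| ≤ M} ≤ ENNReal.ofReal (M + 1) := by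
  have hs : MeasurableSet {h : Hg | |evT w h| ≤ M} :=
    measurableSet_le (continuous_abs.measurable.comp (measurable_evT w)) measurable_const
  have h1 : muT P {h | |evT w h| ≤ M} =
      ∫⁻ h, {h : Hg | |evT w h| ≤ M}.indicator 1 h ∂(muT P) := (lintegral_indicator_one hs).symm
  rw [h1, lintegral_muT (measurable_one.indicator hs)]
  calc ∫⁻ φ, ∑' k : ℤ, {h : Hg | |evT w h| ≤ M}.indicator 1 (odd k φ) ∂P
      = ∫⁻ φ, ∑' k : ℤ, (if |evT w (odd 0 φ) + 2 * k| ≤ M then (1 : ENNReal) else 0) ∂P := by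
        refine lintegral_congr fun φ => tsum_congr fun k => ?_
        have e : evT w (odd k φ) = evT w (odd 0 φ) + 2 * k := by rw [evT_odd, hw, mul_one]
        by_cases h : |evT w (odd 0 φ) + 2 * k| ≤ M
        · rw [if_pos h, Set.indicator_of_mem (show odd k φ ∈ {h : Hg | |evT w h| ≤ M} by
            rw [Set.mem_ofPred_eq, e]; exact h)]
          rfl
        · rw [if_neg h, Set.indicator_of_notMem (show odd k φ ∉ {h : Hg | |evT w h| ≤ M} by
            rw [Set.mem_ofPred_eq, e]; exact h)]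
    _ ≤ ∫⁻ _φ, ENNReal.ofReal (M + 1) ∂P := lintegral_mono fun φ => tsum_two_le hM
    _ = ENNReal.ofReal (M + 1) := by rw [lintegral_const, measure_univ, mul_one]

/-- Translation of the heights. -/
def trT (t : Pt) (h : Hg) : Hg := fun x => h (x + t)

theorem measurable_trT (t : Pt) : Measurable (trT t) :=
  measurable_pi_lambda _ fun x => measurable_pi_apply (x + t)

theorem trT_odd (t : Pt) (φ : Pt → ℤ) (k : ℤ) :
    trT t (odd k φ) = odd (k + φ t) (GFF.shift t φ) := by
  funext x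
  unfold trT odd GFF.shift
  ring

/-- The law of the absolute heights is invariant under translations. -/
theorem muT_trT {P : Measure (Pt → ℤ)} (hP : ∀ t, P.map (GFF.shift t) = P) (t : Pt) :
    (muT P).map (trT t) = muT P := by
  have hm : Measurable (GFF.shift t) := measurable_pi_lambda _ fun x =>
    (measurable_pi_apply (x + t)).sub (measurable_pi_apply t)
  ext E hE
  have hi : Measurable (E.indicator (1 : Hg → ENNReal)) := measurable_one.indicator hE
  rw [Measure.map_apply (measurable_trT t) hE, ← lintegral_indicator_one (measurable_trT t hE),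
    ← lintegral_indicator_one hE, lintegral_muT hi,
    lintegral_muT (measurable_one.indicator (measurable_trT t hE))]
  have h1 : ∫⁻ φ, ∑' k : ℤ, E.indicator 1 (odd k φ) ∂P =
      ∫⁻ φ, ∑' k : ℤ, E.indicator 1 (odd k (GFF.shift t φ)) ∂P := by
    conv_lhs => rw [← hP t]
    exact lintegral_map (f := fun φ => ∑' k : ℤ, E.indicator (1 : Hg → ENNReal) (odd k φ))
      (Measurable.ennreal_tsum fun k => hi.comp (measurable_odd k)) hm
  rw [h1]
  refine lintegral_congr fun φ => ?_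
  rw [← (Equiv.addRight (φ t)).tsum_eq fun k : ℤ =>
    E.indicator (1 : Hg → ENNReal) (odd k (GFF.shift t φ))]
  refine tsum_congr fun k => ?_
  rw [Equiv.coe_addRight, ← trT_odd]
  rfl

/-! ### Circuit events -/

theorem meas_mem_bl (w : Pt) : MeasurableSet {h : Hg | w ∈ bl h} := by
  have h1 : ∀ x : Pt, MeasurableSet {h : Hg | |h x| = 1} := fun x => by
    have h2 : MeasurableSet {n : ℤ | |n| = 1} := trivial
    exact (measurable_pi_apply (X := fun _ : Pt => ℤ) x) h2
  have e : {h : Hg | w ∈ bl h} = ⋃ x : Pt, ⋃ y : Pt,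
      {h : Hg | (Adj x y ∧ w = x + y) ∧ (|h x| = 1 ∧ |h y| = 1)} := by
    ext h
    simp only [bl, Set.mem_ofPred_eq, Set.mem_iUnion]
    refine exists_congr fun x => exists_congr fun y => ?_
    tauto
  rw [e]
  refine MeasurableSet.iUnion fun x => MeasurableSet.iUnion fun y => ?_
  by_cases h2 : Adj x y ∧ w = x + y
  · simp only [h2, true_and]
    exact (h1 x).inter (h1 y)
  · have e2 : {h : Hg | (Adj x y ∧ w = x + y) ∧ (|h x| = 1 ∧ |h y| = 1)} = ∅ := by
      ext h
      simp only [Set.mem_ofPred_eq, Set.mem_empty_iff_false, iff_false]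
      exact fun h3 => h2 h3.1
    rw [e2]
    exact MeasurableSet.empty

theorem meas_bl {Q : Set Pt → Prop} {Λ : Finset Pt}
    (hQ : ∀ B B' : Set Pt, (∀ w ∈ Λ, w ∈ B ↔ w ∈ B') → Q B → Q B') :
    MeasurableSet {h : Hg | Q (bl h)} := by
  classical
  have e : {h : Hg | Q (bl h)} = ⋃ T ∈ Λ.powerset.filter fun T : Finset Pt => Q (T : Set Pt),
      {h : Hg | ∀ w ∈ Λ, w ∈ bl h ↔ w ∈ T} := by
    ext h
    simp only [Set.mem_ofPred_eq, Set.mem_iUnion, Finset.mem_filter, Finset.mem_powerset,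
      exists_prop]
    constructor
    · intro h1
      refine ⟨Λ.filter fun w => w ∈ bl h, ⟨Finset.filter_subset _ _, ?_⟩, ?_⟩
      · exact hQ _ _ (fun w hw => by simp [hw]) h1
      · intro w hw
        simp [hw]
    · rintro ⟨T, ⟨-, hT⟩, h1⟩
      exact hQ _ _ (fun w hw => (h1 w hw).symm) hT
  rw [e]
  refine Finset.measurableSet_biUnion _ fun T _ => ?_
  have e2 : {h : Hg | ∀ w ∈ Λ, w ∈ bl h ↔ w ∈ T} = ⋂ w ∈ Λ, {h : Hg | w ∈ bl h ↔ w ∈ T} := by
    ext h
    simp only [Set.mem_ofPred_eq, Set.mem_iInter]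
  rw [e2]
  refine Finset.measurableSet_biInter _ fun w _ => ?_
  by_cases hw : w ∈ T
  · simp only [hw, iff_true]
    exact meas_mem_bl w
  · simp only [hw, iff_false]
    exact (meas_mem_bl w).compl

/-- The event of a circuit at level 0. -/
def ZE (p : Pt) (r : ℤ) : Set Hg := {h | Zr p r (bl h)}

theorem meas_ZE (p : Pt) {r : ℤ} (hr : 1 ≤ r) : MeasurableSet (ZE p r) := by
  classical
  obtain ⟨Λ, _, h2⟩ := (s_loc p r hr).2.loc
  refine meas_bl (Λ := Λ) fun B B' h hB => ?_
  have h3 := h2 B B' h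
  unfold ind at h3
  rw [if_pos hB] at h3
  by_contra hc
  rw [if_neg hc] at h3
  exact one_ne_zero h3

/-- The integral of an indicator is the measure of the event. -/
theorem II_ind {P : Measure (Pt → ℤ)} {Q : Set Pt → Prop}
    (hQ : MeasurableSet {h : Hg | Q (bl h)}) :
    II P (ind Q) (fun _ => 1) = (muT P).real {h | Q (bl h)} := by
  have e : (fun h : Hg => ind Q (bl h) * (fun _ : Top.Om => (1 : ℝ)) (vm h)) =
      {h : Hg | Q (bl h)}.indicator (fun _ => (1 : ℝ)) := by
    funext h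
    by_cases h1 : Q (bl h)
    · have h' : h ∈ {h : Hg | Q (bl h)} := h1
      rw [Set.indicator_of_mem h']
      simp [ind, h1]
    · have h' : h ∉ {h : Hg | Q (bl h)} := h1
      rw [Set.indicator_of_notMem h']
      simp [ind, h1]
  rw [II, e, integral_indicator hQ, setIntegral_const, smul_eq_mul, mul_one]

theorem bl_trT (t : Pt) (h : Hg) : bl (trT t h) = {w | w + (t + t) ∈ bl h} := by
  ext w
  unfold bl trT
  simp only [Set.mem_ofPred_eq]
  constructor
  · rintro ⟨x, y, h1, rfl, h2, h3⟩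
    refine ⟨x + t, y + t, ?_, by abel, h2, h3⟩
    have := RSW.adj_shift t.1 t.2
    rw [Topo.adj_iff] at h1 ⊢
    simp only [Prod.fst_add, Prod.snd_add]
    omega
  · rintro ⟨x, y, h1, h4, h2, h3⟩
    refine ⟨x - t, y - t, ?_, ?_, by simpa using h2, by simpa using h3⟩
    · rw [Topo.adj_iff] at h1 ⊢
      simp only [Prod.fst_sub, Prod.snd_sub]
      omega
    · have : w = (x + y) - (t + t) := by rw [← h4]; abel
      rw [this]; abel

theorem conn_tr {S : Set Pt} {v x y : Pt} (h : Topo.Conn S x y) :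
    Topo.Conn {z | z + v ∈ S} (x - v) (y - v) :=
  RSW.c_map (f := fun z => z - v) (fun a b hab => by
    rw [Topo.adj_iff] at hab ⊢
    simp only [Prod.fst_sub, Prod.snd_sub]
    omega) (fun z hz => by
    show z - v + v ∈ S
    rw [sub_add_cancel]; exact hz) h

theorem Zr_tr {p : Pt} {r : ℤ} {B : Set Pt} (t : Pt) (hZ : Zr p r B) :
    Zr (p - t) r {w | w + (t + t) ∈ B} := by
  have key : ∀ {a b c d : ℤ} {x y : Pt}, Topo.Conn (B ∩ RSW.Mid ∩ RSW.pr a b c d) x y →
      Topo.Conn ({w | w + (t + t) ∈ B} ∩ RSW.Mid ∩ RSW.pr (a - t.1) (b - t.1) (c - t.2) (d - t.2))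
        (x - (t + t)) (y - (t + t)) := by
    intro a b c d x y h
    refine (conn_tr (v := t + t) h).mono ?_
    rintro z ⟨⟨h1, h2⟩, h3⟩
    refine ⟨⟨h1, ?_⟩, ?_⟩
    · have h4 : Odd (z + (t + t)).1 ∨ Odd (z + (t + t)).2 := h2
      show Odd z.1 ∨ Odd z.2
      rw [Prod.fst_add, Prod.snd_add, Prod.fst_add, Prod.snd_add, Int.odd_iff, Int.odd_iff] at h4
      rw [Int.odd_iff, Int.odd_iff]
      omega
    · rw [RSW.mem_pr] at h3 ⊢
      rw [Prod.fst_add, Prod.snd_add, Prod.fst_add, Prod.snd_add] at h3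
      omega
  obtain ⟨⟨a1, b1, h1, h1a, h1b⟩, ⟨a2, b2, h2, h2a, h2b⟩, ⟨a3, b3, h3, h3a, h3b⟩,
    ⟨a4, b4, h4, h4a, h4b⟩⟩ := hZ
  refine ⟨⟨a1 - (t + t), b1 - (t + t), ?_, ?_, ?_⟩, ⟨a2 - (t + t), b2 - (t + t), ?_, ?_, ?_⟩,
    ⟨a3 - (t + t), b3 - (t + t), ?_, ?_, ?_⟩, ⟨a4 - (t + t), b4 - (t + t), ?_, ?_, ?_⟩⟩
  · refine (key h1).mono (Set.inter_subset_inter_right _ ?_)
    intro z hz
    rw [RSW.mem_pr] at hz ⊢
    rw [Prod.fst_sub, Prod.snd_sub]
    omega
  · rw [Prod.fst_sub, Prod.fst_add, Prod.fst_sub]; omega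
  · rw [Prod.fst_sub, Prod.fst_add, Prod.fst_sub]; omega
  · refine (key h2).mono (Set.inter_subset_inter_right _ ?_)
    intro z hz
    rw [RSW.mem_pr] at hz ⊢
    rw [Prod.fst_sub, Prod.snd_sub]
    omega
  · rw [Prod.fst_sub, Prod.fst_add, Prod.fst_sub]; omega
  · rw [Prod.fst_sub, Prod.fst_add, Prod.fst_sub]; omega
  · refine (key h3).mono (Set.inter_subset_inter_right _ ?_)
    intro z hz
    rw [RSW.mem_pr] at hz ⊢
    rw [Prod.fst_sub, Prod.snd_sub]
    omega
  · rw [Prod.snd_sub, Prod.snd_add, Prod.snd_sub]; omega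
  · rw [Prod.snd_sub, Prod.snd_add, Prod.snd_sub]; omega
  · refine (key h4).mono (Set.inter_subset_inter_right _ ?_)
    intro z hz
    rw [RSW.mem_pr] at hz ⊢
    rw [Prod.fst_sub, Prod.snd_sub]
    omega
  · rw [Prod.snd_sub, Prod.snd_add, Prod.snd_sub]; omega
  · rw [Prod.snd_sub, Prod.snd_add, Prod.snd_sub]; omega

theorem ZE_tr (p : Pt) (r : ℤ) (h : Hg) : trT p h ∈ ZE 0 r ↔ h ∈ ZE p r := by
  unfold ZE
  rw [Set.mem_ofPred_eq, Set.mem_ofPred_eq, bl_trT]
  constructor
  · intro h1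
    have h2 := Zr_tr (-p) h1
    have e1 : (0 : Pt) - -p = p := by simp
    have e2 : {w : Pt | w + (-p + -p) ∈ {w : Pt | w + (p + p) ∈ bl h}} = bl h := by
      ext w
      simp only [Set.mem_ofPred_eq]
      have : w + (-p + -p) + (p + p) = w := by abel
      rw [this]
    rw [e1, e2] at h2
    exact h2
  · intro h1
    have h2 := Zr_tr p h1
    rw [sub_self] at h2
    exact h2

/-- There is a circuit at scale `4 ^ k * s` and none at the scales from `k + 4` on. -/
def ZD (s : ℤ) (k n : ℕ) (p : Pt) : Set Hg :=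
  ZE p (4 ^ k * s) \ ⋃ j ∈ Set.Ico (k + 4) n, ZE p (4 ^ j * s)

theorem one_le_sc {s : ℤ} (hs : 1 ≤ s) (k : ℕ) : 1 ≤ 4 ^ k * s := by
  have h4 : (1 : ℤ) ≤ 4 ^ k := one_le_pow₀ (by norm_num)
  nlinarith

theorem meas_ZD {s : ℤ} (hs : 1 ≤ s) (k n : ℕ) (p : Pt) : MeasurableSet (ZD s k n p) :=
  (meas_ZE _ (one_le_sc hs k)).diff
    (MeasurableSet.biUnion (Set.to_countable _) fun j _ => meas_ZE _ (one_le_sc hs j))

/-- The measure does not depend on the centre. -/
theorem muT_ZD {P : Measure (Pt → ℤ)} (hP : ∀ t, P.map (GFF.shift t) = P) {s : ℤ} (hs : 1 ≤ s)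
    (k n : ℕ) (p : Pt) : muT P (ZD s k n p) = muT P (ZD s k n 0) := by
  have h1 := muT_trT hP p
  have h2 : trT p ⁻¹' ZD s k n 0 = ZD s k n p := by
    ext x
    simp only [ZD, Set.mem_preimage, Set.mem_sdiff, Set.mem_iUnion, ZE_tr]
  rw [← h2, ← Measure.map_apply (measurable_trT _) (meas_ZD hs _ _ _), h1]

/-! ### Counting -/

/-- Fourth moments of an average of the heights at scale `s` given a circuit at scale
`4 ^ j * s`. -/
def MomJ (P : Measure (Pt → ℤ)) : Prop :=
  ∃ (w : ℤ → (Pt →₀ ℝ)) (D : ℝ) (s₁ : ℤ), 0 ≤ D ∧ (∀ s, s₁ ≤ s → massT (w s) = 1) ∧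
    ∀ j : ℕ, ∃ s₀ : ℤ, ∀ s, s₀ ≤ s →
      ∫⁻ h in ZE 0 (4 ^ j * s), ENNReal.ofReal (evT (w s) h ^ 4) ∂(muT P) ≤
        ENNReal.ofReal (D * (j + 1) ^ 2)

/-- **COUNT.** -/
theorem s_cnt {P : Measure (Pt → ℤ)} [IsProbabilityMeasure P]
    (hP : ∀ t, P.map (GFF.shift t) = P) (hrsw : S_rsw P) (hmom : MomJ P) : S_cnt P := by
  obtain ⟨c₁, hc₁, r₀, hr₀, hr⟩ := hrsw
  obtain ⟨w, D, s₁, hD, hw, hj⟩ := hmom
  intro η hη N
  -- the number of scales
  obtain ⟨L, hL⟩ := exists_nat_ge (4 * (4 + D) / (η * c₁))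
  set K : ℕ := max (max L N) 1 with hK
  have hK1 : 1 ≤ K := le_max_right _ _
  have hKL : (L : ℝ) ≤ K := by exact_mod_cast (le_max_left _ _).trans (le_max_left _ _)
  have hKN : N ≤ K := (le_max_right _ _).trans (le_max_left _ _)
  have hK1' : (1 : ℝ) ≤ K := by exact_mod_cast hK1
  refine ⟨K ^ 4, hKN.trans (Nat.le_self_pow (by norm_num) K), ?_⟩
  choose S hS using hj
  set n : ℕ := 2 * K ^ 4 + 1 with hn
  obtain ⟨s₂, hs₂⟩ : ∃ s₂ : ℤ, ∀ j < n, S j ≤ s₂ := by
    refine ⟨∑ j ∈ range n, |S j|, fun j hj => (le_abs_self _).trans ?_⟩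
    exact Finset.single_le_sum (f := fun j => |S j|) (fun i _ => abs_nonneg _)
      (Finset.mem_range.2 hj)
  refine ⟨max (max r₀ s₁) s₂, hr₀.trans ((le_max_left _ _).trans (le_max_left _ _)),
    fun s hs => ?_⟩
  have h1 : r₀ ≤ s := ((le_max_left _ _).trans (le_max_left _ _)).trans hs
  have h2 : s₁ ≤ s := ((le_max_right _ _).trans (le_max_left _ _)).trans hs
  have h3 : s₂ ≤ s := (le_max_right _ _).trans hs
  have hs1 : 1 ≤ s := hr₀.trans h1
  have hn1 : (n : ℝ) = 2 * K ^ 4 + 1 := by rw [hn]; push_cast; ring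
  have hnm : K ^ 4 ≤ n := by omega
  have hm0 : 0 < K ^ 4 := Nat.pos_of_ne_zero (by positivity)
  have hM : (0 : ℝ) < 3 * (K : ℝ) ^ 3 := by positivity
  have hMn : (n : ℝ) ^ 3 ≤ (3 * (K : ℝ) ^ 3) ^ 4 := by
    have hk : (1 : ℝ) ≤ (K : ℝ) ^ 4 := one_le_pow₀ hK1'
    have h5 : (n : ℝ) ≤ 3 * (K : ℝ) ^ 4 := by rw [hn1]; linarith
    calc (n : ℝ) ^ 3 ≤ (3 * (K : ℝ) ^ 4) ^ 3 := pow_le_pow_left₀ (Nat.cast_nonneg n) h5 3
      _ = 27 * (K : ℝ) ^ 12 := by ring
      _ ≤ 81 * (K : ℝ) ^ 12 := by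
        have : (0 : ℝ) ≤ (K : ℝ) ^ 12 := by positivity
        linarith
      _ = (3 * (K : ℝ) ^ 3) ^ 4 := by ring
  have hb : ∀ j < n, ∫⁻ h in ZE 0 (4 ^ j * s), ENNReal.ofReal (evT (w s) h ^ 4) ∂(muT P) ≤
      ENNReal.ofReal (D * n ^ 2) := by
    intro j hj
    refine (hS j s ((hs₂ j hj).trans h3)).trans (ENNReal.ofReal_le_ofReal ?_)
    refine mul_le_mul_of_nonneg_left ?_ hD
    refine pow_le_pow_left₀ (by positivity) ?_ 2
    exact_mod_cast hj
  obtain ⟨k, hk, hk2⟩ := exists_last (μ := muT P) (Z := fun j => ZE 0 (4 ^ j * s))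
    (fun j => meas_ZE _ (one_le_sc hs1 j)) (g := 4) (by norm_num) hm0 hnm
  have hu := union_le (μ := muT P) (measurable_evT (w s)) hD hb hM hMn
    (muT_abs_le (hw s h2) hM.le)
  have hk3 : muT P (ZD s k n 0) ≤
      ENNReal.ofReal (4 / (K : ℝ) ^ 4 * (3 * (K : ℝ) ^ 3 + 1 + D)) := by
    have hm' : (0 : ℝ) < (K : ℝ) ^ 4 := by positivity
    have h4 : ENNReal.ofReal (4 / (K : ℝ) ^ 4 * (3 * (K : ℝ) ^ 3 + 1 + D)) =
        ENNReal.ofReal (4 * (3 * (K : ℝ) ^ 3 + 1 + D)) / ((K ^ 4 : ℕ) : ENNReal) := by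
      rw [← ENNReal.ofReal_natCast (K ^ 4), Nat.cast_pow, ← ENNReal.ofReal_div_of_pos hm']
      congr 1
      ring
    rw [h4, ENNReal.le_div_iff_mul_le (Or.inl (by simpa using hm0.ne'))
      (Or.inl (ENNReal.natCast_ne_top _)), mul_comm]
    refine hk2.trans ?_
    have h5 : ENNReal.ofReal (4 * (3 * (K : ℝ) ^ 3 + 1 + D)) =
        ((4 : ℕ) : ENNReal) * ENNReal.ofReal (3 * (K : ℝ) ^ 3 + 1 + D) := by
      rw [ENNReal.ofReal_mul (by norm_num)]
      norm_num
    rw [h5]
    exact mul_le_mul_right hu _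
  refine ⟨k, hk, fun p => ?_⟩
  -- the event
  have he : {h : Hg | (fun B => Zr p (4 ^ k * s) B ∧ ∀ i, k + 4 ≤ i → i ≤ 2 * K ^ 4 →
      ¬ Zr p (4 ^ i * s) B) (bl h)} = ZD s k n p := by
    ext x
    simp only [ZD, ZE, Set.mem_ofPred_eq, Set.mem_sdiff, Set.mem_iUnion, not_exists, Set.mem_Ico]
    refine and_congr_right fun _ => ?_
    constructor
    · intro h i hi
      exact h i hi.1 (by omega)
    · intro h i h5 h6
      exact h i ⟨h5, by omega⟩
  have hme : MeasurableSet {h : Hg | (fun B => Zr p (4 ^ k * s) B ∧ ∀ i, k + 4 ≤ i →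
      i ≤ 2 * K ^ 4 → ¬ Zr p (4 ^ i * s) B) (bl h)} := by
    rw [he]; exact meas_ZD hs1 _ _ _
  rw [II_ind hme, he]
  have h6 : (muT P).real (ZD s k n p) ≤ 4 / (K : ℝ) ^ 4 * (3 * (K : ℝ) ^ 3 + 1 + D) := by
    rw [Measure.real, muT_ZD hP hs1]
    exact ENNReal.toReal_le_of_le_ofReal (by positivity) hk3
  have h7 : 4 / (K : ℝ) ^ 4 * (3 * (K : ℝ) ^ 3 + 1 + D) ≤ η * c₁ := by
    have hk3 : (1 : ℝ) ≤ (K : ℝ) ^ 3 := one_le_pow₀ hK1'
    have h8 : 3 * (K : ℝ) ^ 3 + 1 + D ≤ (4 + D) * (K : ℝ) ^ 3 := by nlinarith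
    have h9 : 4 * (4 + D) ≤ η * c₁ * K := by
      have := hL.trans hKL
      rw [div_le_iff₀ (by positivity)] at this
      linarith
    calc 4 / (K : ℝ) ^ 4 * (3 * (K : ℝ) ^ 3 + 1 + D)
        ≤ 4 / (K : ℝ) ^ 4 * ((4 + D) * (K : ℝ) ^ 3) :=
          mul_le_mul_of_nonneg_left h8 (by positivity)
      _ = 4 * (4 + D) / K := by field_simp
      _ ≤ η * c₁ := by rw [div_le_iff₀ (by positivity)]; exact h9
  have h10 : r₀ ≤ 4 ^ k * s := by
    have h4 : (1 : ℤ) ≤ 4 ^ k := one_le_pow₀ (by norm_num)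
    nlinarith
  exact h6.trans (h7.trans (mul_le_mul_of_nonneg_left (hr _ h10 p).1 hη.le))

end Vale.Agent.P153.F.X
end

section

/-!
P153-F, X-level (mirror of `P145.X.PosAll`): nets of circuits of a set of midpoints, their levels,
and their probability.
-/

namespace Vale.Agent.P153.F.X.PosT

open MeasureTheory
open Vale.Agent.P153 Vale.Agent.P153.Topo
open Vale.Agent.P153.F.RSW

/-- The annuli of size `t` around the points `(a + i t, b + j t)`, `i, j ≤ N`. -/
def Net (t : ℤ) (N : ℕ) (a b : ℤ) (S : Set (ℤ × ℤ)) : Prop :=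
  ∀ i < N + 1, ∀ j < N + 1, Ann (a + i * t) (b + j * t) t S

theorem BTp_swap (S : Set (ℤ × ℤ)) (a b c d : ℤ) :
    BTp a b c d {z | (z.2, z.1) ∈ S} ↔ LRp c d a b S := by
  have h := LRp_swap {z | (z.2, z.1) ∈ S} c d a b
  have e : {z : ℤ × ℤ | (z.2, z.1) ∈ {z : ℤ × ℤ | (z.2, z.1) ∈ S}} = S := by
    ext z; rfl
  rw [e] at h
  exact h.symm

theorem Ann_swap {p q t : ℤ} {S : Set (ℤ × ℤ)} (h : Ann p q t S) :
    Ann q p t {z | (z.2, z.1) ∈ S} := by
  obtain ⟨h1, h2, h3, h4⟩ := h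
  exact ⟨(LRp_swap S _ _ _ _).2 h4, (LRp_swap S _ _ _ _).2 h3, (BTp_swap S _ _ _ _).2 h2,
    (BTp_swap S _ _ _ _).2 h1⟩

theorem Net.swap {t : ℤ} {N : ℕ} {a b : ℤ} {S : Set (ℤ × ℤ)} (h : Net t N a b S) :
    Net t N b a {z | (z.2, z.1) ∈ S} := fun i hi j hj => Ann_swap (h j hj i hi)

theorem BTp_mono' (a a' b b' c c' d d' : ℤ) (S : Set (ℤ × ℤ)) (h1 : c ≤ c') (h2 : c' ≤ d')
    (h3 : d' ≤ d) (h4 : a' ≤ a) (h5 : b ≤ b') (h : BTp a b c d S) : BTp a' b' c' d' S := by
  rw [← LRp_swap] at h ⊢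
  exact LRp.mono' _ _ _ _ _ _ _ _ _ h1 h2 h3 h4 h5 h

/-- Long horizontal crossings in the strips of the net. -/
theorem Net.strip {t : ℤ} (ht : 0 < t) {N : ℕ} {a b : ℤ} {S : Set (ℤ × ℤ)} (h : Net t N a b S)
    {j : ℕ} (hj : j < N + 1) : ∀ m : ℕ, m < N + 1 →
    LRp (a - 2 * t) (a + (m + 2) * t) (b + j * t + t) (b + j * t + 2 * t) S := by
  intro m
  induction m with
  | zero =>
    intro h0
    have h1 := (h 0 h0 j hj).1
    have e1 : a + ((0 : ℕ) : ℤ) * t - 2 * t = a - 2 * t := by push_cast; ring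
    have e2 : a + ((0 : ℕ) : ℤ) * t + 2 * t = a + (((0 : ℕ) : ℤ) + 2) * t := by push_cast; ring
    rwa [e1, e2] at h1
  | succ m ih =>
    intro hm
    have h1 := ih (by omega)
    have h2 := (h (m + 1) hm j hj).1
    have h3 := (h m (by omega) j hj).2.2.2
    have h4 : BTp (a + (m + 1 : ℕ) * t - 2 * t) (a + (m + 2) * t) (b + j * t + t)
        (b + j * t + 2 * t) S := by
      refine BTp_mono' _ _ _ _ _ _ _ _ S ?_ ?_ ?_ ?_ ?_ h3
      · nlinarith
      · nlinarith
      · exact le_rfl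
      · push_cast; nlinarith
      · push_cast; nlinarith
    have h5 := LRp.chain' _ _ _ _ _ _ S (by push_cast; nlinarith) (by push_cast; nlinarith)
      (by push_cast; nlinarith) (by nlinarith) h1 h4 h2
    have e2 : a + ((m + 1 : ℕ) : ℤ) * t + 2 * t = a + (((m + 1 : ℕ) : ℤ) + 2) * t := by ring
    rwa [e2] at h5

/-- Every parallelogram of width at least `2 t` in the box of the net is crossed. -/
theorem Net.lr {t : ℤ} (ht : 0 < t) {N : ℕ} {a b : ℤ} {S : Set (ℤ × ℤ)} (h : Net t N a b S)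
    {A B C D : ℤ} (hA : a - 2 * t ≤ A) (hAB : A ≤ B) (hB : B ≤ a + (N + 2) * t)
    (hC : b + t ≤ C) (hCD : C + 2 * t ≤ D) (hD : D ≤ b + (N + 2) * t) : LRp A B C D S := by
  obtain ⟨k, hk1, hk2⟩ : ∃ k : ℤ, C ≤ b + (k + 1) * t ∧ b + (k + 1) * t < C + t := by
    refine ⟨-((b - C) / t) - 1, ?_, ?_⟩
    · have h1 := Int.ediv_mul_le (b - C) ht.ne'
      have e : (-((b - C) / t) - 1 + 1) * t = -((b - C) / t * t) := by ring
      rw [e]; linarith
    · have h1 := Int.lt_ediv_add_one_mul_self (b - C) ht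
      have e : (-((b - C) / t) - 1 + 1) * t = -(((b - C) / t + 1) * t) + t := by ring
      rw [e]; linarith
  have hk0 : 0 ≤ k := by
    by_contra hc
    have : (k + 1) * t ≤ 0 := mul_nonpos_of_nonpos_of_nonneg (by omega) ht.le
    linarith
  have hkN : k < N + 1 := by
    by_contra hc
    have : ((N : ℤ) + 2) * t ≤ (k + 1) * t := mul_le_mul_of_nonneg_right (by omega) ht.le
    have h3 : (k + 1) * t + t ≤ (N + 2) * t := by linarith
    linarith
  obtain ⟨j, rfl⟩ := Int.eq_ofNat_of_zero_le hk0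
  have h1 := h.strip ht (j := j) (by omega) N (by omega)
  refine LRp.mono' _ _ _ _ _ _ _ _ S hA hAB hB ?_ ?_ h1
  · linarith
  · linarith

theorem Net.bt {t : ℤ} (ht : 0 < t) {N : ℕ} {a b : ℤ} {S : Set (ℤ × ℤ)} (h : Net t N a b S)
    {A B C D : ℤ} (hA : a + t ≤ A) (hAB : A + 2 * t ≤ B) (hB : B ≤ a + (N + 2) * t)
    (hC : b - 2 * t ≤ C) (hCD : C ≤ D) (hD : D ≤ b + (N + 2) * t) : BTp A B C D S :=
  (LRp_swap S C D A B).1 (h.swap.lr ht hC hCD hD hA hAB hB)

/-- A net contains all coarser annuli. -/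
theorem Net.ann {t : ℤ} (ht : 0 < t) {N : ℕ} {a b : ℤ} {S : Set (ℤ × ℤ)} (h : Net t N a b S)
    {p q r : ℤ} (hr : 2 * t ≤ r) (h1 : a + t ≤ p - 2 * r) (h2 : p + 2 * r ≤ a + (N + 2) * t)
    (h3 : b + t ≤ q - 2 * r) (h4 : q + 2 * r ≤ b + (N + 2) * t) : Ann p q r S := by
  refine ⟨h.lr ht ?_ ?_ ?_ ?_ ?_ ?_, h.lr ht ?_ ?_ ?_ ?_ ?_ ?_, h.bt ht ?_ ?_ ?_ ?_ ?_ ?_,
    h.bt ht ?_ ?_ ?_ ?_ ?_ ?_⟩ <;> linarith

/-! ### The level -/

theorem Net.level {S : Set (ℤ × ℤ)} {lev : ℤ × ℤ → ℤ} (hl : Lev S lev) {t : ℤ} (ht : 0 < t)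
    {N : ℕ} {a b : ℤ} (h : Net t N a b S) : ∃ l, Net t N a b (S ∩ {z | lev z = l}) := by
  choose! L hL using fun (i : ℕ) (hi : i < N + 1) (j : ℕ) (hj : j < N + 1) =>
    Ann.lev hl ht (h i hi j hj)
  have key : ∀ i < N + 1, ∀ j < N + 1, ∀ i' < N + 1, ∀ j' < N + 1,
      |(a + i' * t) - (a + i * t)| ≤ 3 * t → |(b + j' * t) - (b + j * t)| ≤ 3 * t →
      L i j = L i' j' := by
    intro i hi j hj i' hi' j' hj' h1 h2
    exact lev_unique ht (hL i hi j hj) (hL i' hi' j' hj') h1 h2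
  have h0 : ∀ k : ℕ, |((k + 1 : ℕ) : ℤ) * t - (k : ℕ) * t| ≤ 3 * t := by
    intro k
    have : ((k + 1 : ℕ) : ℤ) * t - (k : ℕ) * t = t := by push_cast; ring
    rw [this, abs_of_pos ht]; linarith
  have hrow : ∀ i < N + 1, L i 0 = L 0 0 := by
    intro i
    induction i with
    | zero => intro _; rfl
    | succ i ih =>
      intro hi
      rw [← ih (by omega)]
      refine (key i (by omega) 0 (by omega) (i + 1) hi 0 (by omega) ?_ ?_).symm
      · have := h0 i
        rwa [add_sub_add_left_eq_sub]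
      · simp [ht.le]
  have hall : ∀ i < N + 1, ∀ j < N + 1, L i j = L 0 0 := by
    intro i hi j
    induction j with
    | zero => intro _; exact hrow i hi
    | succ j ih =>
      intro hj
      rw [← ih (by omega)]
      refine (key i hi j (by omega) i hi (j + 1) hj ?_ ?_).symm
      · simp [ht.le]
      · have := h0 j
        rwa [add_sub_add_left_eq_sub]
  refine ⟨L 0 0, fun i hi j hj => ?_⟩
  rw [← hall i hi j hj]
  exact hL i hi j hj

/-! ### Association -/

theorem IL_true : IL (fun _ => True) := ⟨fun _ _ _ _ => trivial, 0, fun _ _ _ _ => trivial⟩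

theorem IL_ball {ι : Type*} (Y : Finset ι) (E : ι → Set (ℤ × ℤ) → Prop) (h : ∀ i ∈ Y, IL (E i)) :
    IL (fun S => ∀ i ∈ Y, E i S) := by
  classical
  induction Y using Finset.induction_on with
  | empty =>
    have e : (fun S : Set (ℤ × ℤ) => ∀ i ∈ (∅ : Finset ι), E i S) = fun _ => True := by
      funext S; simp
    rw [e]
    exact IL_true
  | @insert i Y hi ih =>
    have h1 := (h i (Finset.mem_insert_self i Y)).and
      (ih fun j hj => h j (Finset.mem_insert_of_mem hj))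
    have e : (fun S : Set (ℤ × ℤ) => ∀ j ∈ insert i Y, E j S) =
        fun S => E i S ∧ ∀ j ∈ Y, E j S := by
      funext S
      exact propext (Finset.forall_mem_insert _ _ _)
    rw [e]
    exact h1

variable {Q : Measure A.Om}

theorem pW_ball (hQ : A.IsQ Q) {ι : Type*} (Y : Finset ι) (E : ι → Set (ℤ × ℤ) → Prop)
    (h : ∀ i ∈ Y, IL (E i)) {c : ℝ} (hc : 0 ≤ c) (hE : ∀ i ∈ Y, c ≤ pW Q (E i)) :
    c ^ Y.card ≤ pW Q (fun S => ∀ i ∈ Y, E i S) := by
  classical
  have := hQ.prob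
  induction Y using Finset.induction_on with
  | empty =>
    have e : (fun S : Set (ℤ × ℤ) => ∀ i ∈ (∅ : Finset ι), E i S) = fun _ => True := by
      funext S; simp
    rw [e, Finset.card_empty, pow_zero]
    unfold pW
    rw [Set.ofPred_true, probReal_univ]
  | @insert i Y hi ih =>
    have h1 := ih (fun j hj => h j (Finset.mem_insert_of_mem hj))
      (fun j hj => hE j (Finset.mem_insert_of_mem hj))
    have h2 := hE i (Finset.mem_insert_self i Y)
    have h3 := pW_fkg hQ (h i (Finset.mem_insert_self i Y))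
      (IL_ball Y E fun j hj => h j (Finset.mem_insert_of_mem hj))
    have e : (fun S : Set (ℤ × ℤ) => ∀ j ∈ insert i Y, E j S) =
        fun S => E i S ∧ ∀ j ∈ Y, E j S := by
      funext S
      exact propext (Finset.forall_mem_insert _ _ _)
    rw [e, Finset.card_insert_of_notMem hi, pow_succ, mul_comm]
    exact (mul_le_mul h2 h1 (pow_nonneg hc _) (le_trans hc h2)).trans h3

/-- The index set of a net. -/
def ix (N : ℕ) : Finset (ℕ × ℕ) := Finset.range (N + 1) ×ˢ Finset.range (N + 1)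

theorem net_iff {t : ℤ} {N : ℕ} {a b : ℤ} : Net t N a b =
    fun S => ∀ i ∈ ix N, Ann (a + (i.1 : ℤ) * t) (b + (i.2 : ℤ) * t) t S := by
  funext S
  apply propext
  constructor
  · intro h i hi
    rw [ix, Finset.mem_product, Finset.mem_range, Finset.mem_range] at hi
    exact h i.1 hi.1 i.2 hi.2
  · intro h i hi j hj
    exact h (i, j) (by rw [ix, Finset.mem_product, Finset.mem_range, Finset.mem_range]; exact ⟨hi, hj⟩)

theorem IL_Net (t : ℤ) (N : ℕ) (a b : ℤ) : IL (Net t N a b) := by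
  rw [net_iff]
  exact IL_ball _ _ fun _ _ => IL_Ann _ _ _

/-- The net has probability at least `c ^ ((N + 1) ^ 2)`. -/
theorem net_ge (hQ : A.IsQ Q) {c : ℝ} (hc : 0 ≤ c) {r : ℤ}
    (h : ∀ p q : ℤ, c ≤ pW Q (Ann p q r)) (N : ℕ) (a b : ℤ) :
    c ^ (ix N).card ≤ pW Q (Net r N a b) := by
  rw [net_iff]
  exact pW_ball hQ _ _ (fun _ _ => IL_Ann _ _ _) hc fun _ _ => h _ _

end Vale.Agent.P153.F.X.PosT
end

section

/-!
# P153, block F-B: smooth bumps, their scaling and the covariance of the difference of two bumps of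
very different sizes
-/

namespace Vale.Agent.P153.F.RSW.AC

open MeasureTheory Filter Topology
open Vale.Agent.P153.GFF

/-! ### Bumps -/

/-- A bump on the line. -/
noncomputable def bmp : ContDiffBump (0 : ℝ) := ⟨1 / 4, 1 / 2, by norm_num, by norm_num⟩

/-- The bump normalised to have integral one. -/
noncomputable def b (t : ℝ) : ℝ := bmp.normed volume t

lemma b_smooth : ContDiff ℝ ((⊤ : ℕ∞) : WithTop ℕ∞) b := bmp.contDiff_normed

lemma b_nonneg (t : ℝ) : 0 ≤ b t := bmp.nonneg_normed t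

lemma b_int : ∫ t, b t = 1 := bmp.integral_normed

lemma b_supp {t : ℝ} (h : b t ≠ 0) : |t| < 1 / 2 := by
  have h1 : t ∈ Function.support (bmp.normed volume) := h
  rw [bmp.support_normed_eq] at h1
  have h2 := Metric.mem_ball.1 h1
  rw [Real.dist_eq, sub_zero] at h2
  exact h2

/-- The bump at the point `c` of the plane. -/
noncomputable def phi (c : ℝ × ℝ) (x : ℝ × ℝ) : ℝ := b (x.1 - c.1) * b (x.2 - c.2)

lemma phi_smooth (c : ℝ × ℝ) : ContDiff ℝ ((⊤ : ℕ∞) : WithTop ℕ∞) (phi c) :=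
  (b_smooth.comp (contDiff_fst.sub contDiff_const)).mul
    (b_smooth.comp (contDiff_snd.sub contDiff_const))

lemma phi_cont (c : ℝ × ℝ) : Continuous (phi c) := (phi_smooth c).continuous

lemma phi_nonneg (c x : ℝ × ℝ) : 0 ≤ phi c x := mul_nonneg (b_nonneg _) (b_nonneg _)

lemma phi_supp {c x : ℝ × ℝ} (h : phi c x ≠ 0) : |x.1 - c.1| < 1 / 2 ∧ |x.2 - c.2| < 1 / 2 :=
  ⟨b_supp (left_ne_zero_of_mul h), b_supp (right_ne_zero_of_mul h)⟩

lemma phi_compact (c : ℝ × ℝ) : HasCompactSupport (phi c) := by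
  refine HasCompactSupport.intro
    ((isCompact_Icc (a := c.1 - 1) (b := c.1 + 1)).prod
      (isCompact_Icc (a := c.2 - 1) (b := c.2 + 1))) ?_
  intro x hx
  by_contra h
  obtain ⟨h1, h2⟩ := phi_supp h
  rw [abs_lt] at h1 h2
  exact hx ⟨⟨by linarith only [h1], by linarith only [h1]⟩, ⟨by linarith only [h2], by linarith only [h2]⟩⟩

lemma phi_int (c : ℝ × ℝ) : ∫ x, phi c x = 1 := by
  unfold phi
  rw [Measure.volume_eq_prod, integral_prod_mul (fun t => b (t - c.1)) (fun t => b (t - c.2)),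
    integral_sub_right_eq_self b c.1, integral_sub_right_eq_self b c.2, b_int, one_mul]

lemma phi_integrable (c : ℝ × ℝ) : Integrable (phi c) :=
  (phi_cont c).integrable_of_hasCompactSupport (phi_compact c)

/-! ### Scaling -/

/-- The bump rescaled by the factor `l`. -/
noncomputable def psi (l : ℝ) (c : ℝ × ℝ) (x : ℝ × ℝ) : ℝ :=
  (l ^ 2)⁻¹ * phi c (l⁻¹ * x.1, l⁻¹ * x.2)

lemma smear_scale (h : ℤ × ℤ → ℤ) {δ l : ℝ} (hl : 0 < l) (c : ℝ × ℝ) :
    smear h δ (psi l c) = smear h (δ / l) (phi c) := by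
  unfold smear
  set Fn : ℝ × ℝ → ℝ := fun y => (l ^ 2)⁻¹ *
    (interp h (y.1 / (δ / l), y.2 / (δ / l)) * phi c y) with hFn
  have e : (fun x : ℝ × ℝ => interp h (x.1 / δ, x.2 / δ) * psi l c x) =
      fun x => Fn (l⁻¹ • x) := by
    funext x
    have e0 : l⁻¹ • x = (l⁻¹ * x.1, l⁻¹ * x.2) := rfl
    simp only [hFn, e0, psi]
    have e1 : ∀ u : ℝ, l⁻¹ * u / (δ / l) = u / δ := by
      intro u
      (clear * - hl; field_simp)
    rw [e1, e1]
    ring
  have hf : Module.finrank ℝ (ℝ × ℝ) = 2 := by simp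
  rw [e, Measure.integral_comp_smul volume Fn, hFn, integral_const_mul, hf, smul_eq_mul, inv_pow,
    inv_inv, abs_of_pos (by positivity), ← mul_assoc, mul_inv_cancel₀ (by positivity), one_mul]

lemma psi_smooth (l : ℝ) (c : ℝ × ℝ) : ContDiff ℝ ((⊤ : ℕ∞) : WithTop ℕ∞) (psi l c) := by
  refine contDiff_const.mul ((phi_smooth c).comp ?_)
  exact (contDiff_const.mul contDiff_fst).prodMk (contDiff_const.mul contDiff_snd)

lemma psi_nonneg (l : ℝ) (c x : ℝ × ℝ) : 0 ≤ psi l c x :=
  mul_nonneg (by positivity) (phi_nonneg _ _)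

lemma psi_supp {l : ℝ} (hl : 0 < l) {c x : ℝ × ℝ} (h : psi l c x ≠ 0) :
    |x.1 - l * c.1| < l / 2 ∧ |x.2 - l * c.2| < l / 2 := by
  have h1 := phi_supp (right_ne_zero_of_mul h)
  have e : ∀ u v : ℝ, |u - l * v| = l * |l⁻¹ * u - v| := by
    intro u v
    have e1 : u - l * v = l * (l⁻¹ * u - v) := by
      (clear * - hl; field_simp)
    rw [e1, abs_mul, abs_of_pos hl]
  rw [e, e]
  constructor
  · have := mul_lt_mul_of_pos_left h1.1 hl
    linarith
  · have := mul_lt_mul_of_pos_left h1.2 hl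
    linarith only [this]

lemma psi_compact {l : ℝ} (hl : 0 < l) (c : ℝ × ℝ) : HasCompactSupport (psi l c) := by
  refine HasCompactSupport.intro
    ((isCompact_Icc (a := l * c.1 - l) (b := l * c.1 + l)).prod
      (isCompact_Icc (a := l * c.2 - l) (b := l * c.2 + l))) ?_
  intro x hx
  by_contra h
  obtain ⟨h1, h2⟩ := psi_supp hl h
  rw [abs_lt] at h1 h2
  exact hx ⟨⟨by linarith only [h1], by linarith only [h1]⟩, ⟨by linarith only [h2], by linarith only [h2]⟩⟩

lemma psi_int {l : ℝ} (hl : 0 < l) (c : ℝ × ℝ) : ∫ x, psi l c x = 1 := by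
  set Fn : ℝ × ℝ → ℝ := fun y => (l ^ 2)⁻¹ * phi c y with hFn
  have e : (fun x : ℝ × ℝ => psi l c x) = fun x => Fn (l⁻¹ • x) := rfl
  have hf : Module.finrank ℝ (ℝ × ℝ) = 2 := by simp
  rw [e, Measure.integral_comp_smul volume Fn, hFn, integral_const_mul, phi_int, hf, smul_eq_mul,
    inv_pow, inv_inv, abs_of_pos (by positivity), mul_one, mul_inv_cancel₀ (by positivity)]

lemma psi_integrable {l : ℝ} (hl : 0 < l) (c : ℝ × ℝ) : Integrable (psi l c) :=
  (psi_smooth l c).continuous.integrable_of_hasCompactSupport (psi_compact hl c)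

/-! ### Covariances -/

lemma haar4 : (volume : Measure ((ℝ × ℝ) × (ℝ × ℝ))).IsAddHaarMeasure :=
  inferInstanceAs
    (((volume : Measure (ℝ × ℝ)).prod (volume : Measure (ℝ × ℝ))).IsAddHaarMeasure)

lemma pi_pos' : (0 : ℝ) < (2 * Real.pi)⁻¹ := by positivity

/-- The covariance of the rescaled bump. -/
lemma cov_psi {l : ℝ} (hl : 1 ≤ l) (c : ℝ × ℝ) :
    gffCov (phi c) (phi c) - (2 * Real.pi)⁻¹ * Real.log l ≤ gffCov (psi l c) (psi l c) := by
  have hl0 : 0 < l := by linarith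
  have := haar4
  have cc := (psi_smooth l c).continuous
  rw [g3cov_eq_prod cc cc (psi_compact hl0 c) (psi_compact hl0 c),
    g3cov_eq_prod (phi_cont c) (phi_cont c) (phi_compact c) (phi_compact c)]
  set Fn : (ℝ × ℝ) × (ℝ × ℝ) → ℝ := fun q => (l ^ 4)⁻¹ *
    (green (l * q.1.1, l * q.1.2) (l * q.2.1, l * q.2.2) * phi c q.1 * phi c q.2) with hFn
  have e : (fun p : (ℝ × ℝ) × (ℝ × ℝ) => green p.1 p.2 * psi l c p.1 * psi l c p.2) =
      fun p => Fn (l⁻¹ • p) := by
    funext p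
    have e0 : l⁻¹ • p = ((l⁻¹ * p.1.1, l⁻¹ * p.1.2), (l⁻¹ * p.2.1, l⁻¹ * p.2.2)) := rfl
    simp only [hFn, e0, psi]
    have e1 : ∀ u : ℝ, l * (l⁻¹ * u) = u := by
      intro u
      field_simp
    rw [e1, e1, e1, e1]
    have e2 : (l ^ 4)⁻¹ = (l ^ 2)⁻¹ * (l ^ 2)⁻¹ := by
      rw [← mul_inv]
      ring_nf
    rw [e2]
    ring
  have hf : Module.finrank ℝ ((ℝ × ℝ) × (ℝ × ℝ)) = 4 := by simp
  rw [e, Measure.integral_comp_smul volume Fn, hFn, integral_const_mul, hf, smul_eq_mul, inv_pow,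
    inv_inv, abs_of_pos (by positivity), ← mul_assoc, mul_inv_cancel₀ (by positivity), one_mul]
  -- integrability
  have i1 : Integrable (fun q : (ℝ × ℝ) × (ℝ × ℝ) => green q.1 q.2 * phi c q.1 * phi c q.2) :=
    g3green_integrable (phi_cont c) (phi_cont c) (phi_compact c) (phi_compact c)
  have i2 : Integrable (fun q : (ℝ × ℝ) × (ℝ × ℝ) => phi c q.1 * phi c q.2) := by
    rw [Measure.volume_eq_prod]
    exact (phi_integrable c).mul_prod (phi_integrable c)
  have i3 : Integrable (fun q : (ℝ × ℝ) × (ℝ × ℝ) =>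
      green (l * q.1.1, l * q.1.2) (l * q.2.1, l * q.2.2) * phi c q.1 * phi c q.2) := by
    have i4 : Integrable (fun p : (ℝ × ℝ) × (ℝ × ℝ) =>
      green p.1 p.2 * psi l c p.1 * psi l c p.2) :=
      g3green_integrable cc cc (psi_compact hl0 c) (psi_compact hl0 c)
    have i5 := (integrable_comp_smul_iff volume (fun p : (ℝ × ℝ) × (ℝ × ℝ) =>
      green p.1 p.2 * psi l c p.1 * psi l c p.2) hl0.ne').2 i4
    have i6 := i5.const_mul (l ^ 4)
    refine i6.congr (Eventually.of_forall fun q => ?_)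
    have e0 : l • q = ((l * q.1.1, l * q.1.2), (l * q.2.1, l * q.2.2)) := rfl
    simp only [psi, e0]
    have e1 : ∀ u : ℝ, l⁻¹ * (l * u) = u := by
      intro u
      field_simp
    rw [e1, e1, e1, e1]
    have e2 : l ^ 4 = l ^ 2 * l ^ 2 := by ring
    have e3 : l ^ 2 * (l ^ 2)⁻¹ = 1 := mul_inv_cancel₀ (by positivity)
    rw [e2]
    calc _ = (l ^ 2 * (l ^ 2)⁻¹) * (l ^ 2 * (l ^ 2)⁻¹) *
        (green (l * q.1.1, l * q.1.2) (l * q.2.1, l * q.2.2) * phi c (q.1.1, q.1.2) *
          phi c (q.2.1, q.2.2)) := by ring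
      _ = _ := by rw [e3, one_mul, one_mul]
  have i7 : ∫ q : (ℝ × ℝ) × (ℝ × ℝ), phi c q.1 * phi c q.2 = 1 := by
    rw [Measure.volume_eq_prod, integral_prod_mul (phi c) (phi c), phi_int, one_mul]
  have e3 : ∫ q : (ℝ × ℝ) × (ℝ × ℝ), (green q.1 q.2 * phi c q.1 * phi c q.2 -
      (2 * Real.pi)⁻¹ * Real.log l * (phi c q.1 * phi c q.2)) =
      (∫ q : (ℝ × ℝ) × (ℝ × ℝ), green q.1 q.2 * phi c q.1 * phi c q.2) -
        (2 * Real.pi)⁻¹ * Real.log l := by
    rw [integral_sub i1 (i2.const_mul _), integral_const_mul, i7, mul_one]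
  rw [← e3]
  refine integral_mono (i1.sub (i2.const_mul _)) i3 fun q => ?_
  simp only
  have hg : green q.1 q.2 - (2 * Real.pi)⁻¹ * Real.log l ≤
      green (l * q.1.1, l * q.1.2) (l * q.2.1, l * q.2.2) := by
    unfold green
    simp only
    have e4 : (l * q.1.1 - l * q.2.1) ^ 2 + (l * q.1.2 - l * q.2.2) ^ 2 =
        l ^ 2 * ((q.1.1 - q.2.1) ^ 2 + (q.1.2 - q.2.2) ^ 2) := by ring
    rw [e4, Real.sqrt_mul (by positivity), Real.sqrt_sq hl0.le]
    by_cases h0 : Real.sqrt ((q.1.1 - q.2.1) ^ 2 + (q.1.2 - q.2.2) ^ 2) = 0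
    · rw [h0, mul_zero, Real.log_zero, mul_zero]
      have := mul_nonneg pi_pos'.le (Real.log_nonneg hl)
      linarith only [this]
    · rw [Real.log_mul hl0.ne' h0]
      linarith only []
  have hp : 0 ≤ phi c q.1 * phi c q.2 := mul_nonneg (phi_nonneg _ _) (phi_nonneg _ _)
  have := mul_le_mul_of_nonneg_right hg hp
  nlinarith only [this]

/-- The cross covariance. -/
lemma cov_cross {l : ℝ} (hl : 1 ≤ l) :
    gffCov (phi (0, 0)) (psi l (3, 0)) ≤ -((2 * Real.pi)⁻¹ * Real.log l) := by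
  have hl0 : 0 < l := by linarith
  have cc := (psi_smooth l (3, 0)).continuous
  rw [g3cov_eq_prod (phi_cont _) cc (phi_compact _) (psi_compact hl0 _)]
  have i1 : Integrable (fun q : (ℝ × ℝ) × (ℝ × ℝ) =>
      green q.1 q.2 * phi (0, 0) q.1 * psi l (3, 0) q.2) :=
    g3green_integrable (phi_cont _) cc (phi_compact _) (psi_compact hl0 _)
  have i2 : Integrable (fun q : (ℝ × ℝ) × (ℝ × ℝ) => phi (0, 0) q.1 * psi l (3, 0) q.2) := by
    rw [Measure.volume_eq_prod]
    exact (phi_integrable _).mul_prod (psi_integrable hl0 _)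
  have i7 : ∫ q : (ℝ × ℝ) × (ℝ × ℝ), phi (0, 0) q.1 * psi l (3, 0) q.2 = 1 := by
    rw [Measure.volume_eq_prod, integral_prod_mul (phi (0, 0)) (psi l (3, 0)), phi_int,
      psi_int hl0, one_mul]
  have e3 : ∫ q : (ℝ × ℝ) × (ℝ × ℝ), -((2 * Real.pi)⁻¹ * Real.log l) *
      (phi (0, 0) q.1 * psi l (3, 0) q.2) = -((2 * Real.pi)⁻¹ * Real.log l) := by
    rw [integral_const_mul, i7, mul_one]
  rw [← e3]
  refine integral_mono i1 (i2.const_mul _) fun q => ?_
  simp only
  by_cases h0 : phi (0, 0) q.1 * psi l (3, 0) q.2 = 0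
  · rw [h0, mul_zero, mul_assoc, h0, mul_zero]
  · have h1 := phi_supp (left_ne_zero_of_mul h0)
    have h2 := psi_supp hl0 (right_ne_zero_of_mul h0)
    have hp : 0 ≤ phi (0, 0) q.1 * psi l (3, 0) q.2 :=
      mul_nonneg (phi_nonneg _ _) (psi_nonneg _ _ _)
    rw [mul_assoc]
    refine mul_le_mul_of_nonneg_right ?_ hp
    unfold green
    have h3 : l ≤ Real.sqrt ((q.1.1 - q.2.1) ^ 2 + (q.1.2 - q.2.2) ^ 2) := by
      refine Real.le_sqrt_of_sq_le ?_
      have a1 := h1.1
      have a2 := h2.1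
      simp only [sub_zero] at a1
      rw [abs_lt] at a1 a2
      have h4 : l ≤ q.2.1 - q.1.1 := by linarith only [hl, a2, a1]
      have h5 : l ^ 2 ≤ (q.2.1 - q.1.1) ^ 2 := pow_le_pow_left₀ hl0.le h4 2
      nlinarith only [h5]
    have h6 := Real.log_le_log hl0 h3
    have := mul_le_mul_of_nonneg_left h6 pi_pos'.le
    linarith only [this]

/-- The difference of the bumps. -/
noncomputable def dif (l : ℝ) (x : ℝ × ℝ) : ℝ := phi (0, 0) x - psi l (3, 0) x

lemma dif_test {l : ℝ} (hl : 0 < l) : Test (dif l) := by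
  refine ⟨(phi_smooth _).sub (psi_smooth _ _), (phi_compact _).sub (psi_compact hl _), ?_⟩
  unfold dif
  rw [integral_sub (phi_integrable _) (psi_integrable hl _), phi_int, psi_int hl, sub_self]

theorem cov_dif : ∃ a : ℝ, ∀ l : ℝ, 1 ≤ l →
    a + (2 * Real.pi)⁻¹ * Real.log l ≤ gffCov (dif l) (dif l) := by
  refine ⟨gffCov (phi (0, 0)) (phi (0, 0)) + gffCov (phi (3, 0)) (phi (3, 0)), fun l hl => ?_⟩
  have hl0 : 0 < l := by linarith
  have e : gffCov (dif l) (dif l) = gffCov (phi (0, 0)) (phi (0, 0)) -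
      2 * gffCov (phi (0, 0)) (psi l (3, 0)) + gffCov (psi l (3, 0)) (psi l (3, 0)) := by
    have h1 := g3cov_sum (m := 2) ![phi (0, 0), psi l (3, 0)]
      (by
        intro j
        fin_cases j
        · exact phi_cont _
        · exact (psi_smooth _ _).continuous)
      (by
        intro j
        fin_cases j
        · exact phi_compact _
        · exact psi_compact hl0 _) ![1, -1]
    have h2 := g3cov_symm (phi_cont (0, 0)) (psi_smooth l (3, 0)).continuous (phi_compact _)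
      (psi_compact hl0 _)
    have h3 : (fun x => ∑ j : Fin 2, (![1, -1] : Fin 2 → ℝ) j *
        (![phi (0, 0), psi l (3, 0)] : Fin 2 → ℝ × ℝ → ℝ) j x) = dif l := by
      funext x
      rw [Fin.sum_univ_two]
      unfold dif
      simp
      ring
    rw [h3] at h1
    rw [h1, Fin.sum_univ_two, Fin.sum_univ_two, Fin.sum_univ_two]
    simp only [Matrix.cons_val_zero, Matrix.cons_val_one]
    rw [← h2]
    ring
  rw [e]
  have h1 := cov_psi hl (3, 0)
  have h2 := cov_cross hl
  linarith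

end Vale.Agent.P153.F.RSW.AC
end

section

/-!
# P153, block F: upper bound for the covariance of the difference of two bumps of very different
sizes
-/

namespace Vale.Agent.P153.F.RSW.AC

open MeasureTheory Filter Topology
open Vale.Agent.P153.GFF

/-- The covariance of the rescaled bump, upper bound. -/
lemma cov_psi_up {l : ℝ} (hl : 1 ≤ l) (c : ℝ × ℝ) :
    gffCov (psi l c) (psi l c) ≤ gffCov (phi c) (phi c) := by
  have hl0 : 0 < l := by linarith
  have := haar4
  have cc := (psi_smooth l c).continuous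
  rw [g3cov_eq_prod cc cc (psi_compact hl0 c) (psi_compact hl0 c),
    g3cov_eq_prod (phi_cont c) (phi_cont c) (phi_compact c) (phi_compact c)]
  set Fn : (ℝ × ℝ) × (ℝ × ℝ) → ℝ := fun q => (l ^ 4)⁻¹ *
    (green (l * q.1.1, l * q.1.2) (l * q.2.1, l * q.2.2) * phi c q.1 * phi c q.2) with hFn
  have e : (fun p : (ℝ × ℝ) × (ℝ × ℝ) => green p.1 p.2 * psi l c p.1 * psi l c p.2) =
      fun p => Fn (l⁻¹ • p) := by
    funext p
    have e0 : l⁻¹ • p = ((l⁻¹ * p.1.1, l⁻¹ * p.1.2), (l⁻¹ * p.2.1, l⁻¹ * p.2.2)) := rfl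
    simp only [hFn, e0, psi]
    have e1 : ∀ u : ℝ, l * (l⁻¹ * u) = u := by
      intro u
      field_simp
    rw [e1, e1, e1, e1]
    have e2 : (l ^ 4)⁻¹ = (l ^ 2)⁻¹ * (l ^ 2)⁻¹ := by
      rw [← mul_inv]
      ring_nf
    rw [e2]
    ring
  have hf : Module.finrank ℝ ((ℝ × ℝ) × (ℝ × ℝ)) = 4 := by simp
  rw [e, Measure.integral_comp_smul volume Fn, hFn, integral_const_mul, hf, smul_eq_mul, inv_pow,
    inv_inv, abs_of_pos (by positivity), ← mul_assoc, mul_inv_cancel₀ (by positivity), one_mul]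
  -- integrability
  have i1 : Integrable (fun q : (ℝ × ℝ) × (ℝ × ℝ) => green q.1 q.2 * phi c q.1 * phi c q.2) :=
    g3green_integrable (phi_cont c) (phi_cont c) (phi_compact c) (phi_compact c)
  have i3 : Integrable (fun q : (ℝ × ℝ) × (ℝ × ℝ) =>
      green (l * q.1.1, l * q.1.2) (l * q.2.1, l * q.2.2) * phi c q.1 * phi c q.2) := by
    have i4 : Integrable (fun p : (ℝ × ℝ) × (ℝ × ℝ) =>
      green p.1 p.2 * psi l c p.1 * psi l c p.2) :=
      g3green_integrable cc cc (psi_compact hl0 c) (psi_compact hl0 c)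
    have i5 := (integrable_comp_smul_iff volume (fun p : (ℝ × ℝ) × (ℝ × ℝ) =>
      green p.1 p.2 * psi l c p.1 * psi l c p.2) hl0.ne').2 i4
    have i6 := i5.const_mul (l ^ 4)
    refine i6.congr (Eventually.of_forall fun q => ?_)
    have e0 : l • q = ((l * q.1.1, l * q.1.2), (l * q.2.1, l * q.2.2)) := rfl
    simp only [psi, e0]
    have e1 : ∀ u : ℝ, l⁻¹ * (l * u) = u := by
      intro u
      field_simp
    rw [e1, e1, e1, e1]
    have e2 : l ^ 4 = l ^ 2 * l ^ 2 := by ring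
    have e3 : l ^ 2 * (l ^ 2)⁻¹ = 1 := mul_inv_cancel₀ (by positivity)
    rw [e2]
    calc _ = (l ^ 2 * (l ^ 2)⁻¹) * (l ^ 2 * (l ^ 2)⁻¹) *
        (green (l * q.1.1, l * q.1.2) (l * q.2.1, l * q.2.2) * phi c (q.1.1, q.1.2) *
          phi c (q.2.1, q.2.2)) := by ring
      _ = _ := by rw [e3, one_mul, one_mul]
  refine integral_mono i3 i1 fun q => ?_
  simp only
  have hg : green (l * q.1.1, l * q.1.2) (l * q.2.1, l * q.2.2) ≤ green q.1 q.2 := by
    unfold green
    simp only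
    have e4 : (l * q.1.1 - l * q.2.1) ^ 2 + (l * q.1.2 - l * q.2.2) ^ 2 =
        l ^ 2 * ((q.1.1 - q.2.1) ^ 2 + (q.1.2 - q.2.2) ^ 2) := by ring
    rw [e4, Real.sqrt_mul (by positivity), Real.sqrt_sq hl0.le]
    by_cases h0 : Real.sqrt ((q.1.1 - q.2.1) ^ 2 + (q.1.2 - q.2.2) ^ 2) = 0
    · rw [h0, mul_zero]
    · rw [Real.log_mul hl0.ne' h0]
      have := mul_nonneg pi_pos'.le (Real.log_nonneg hl)
      linarith only [this]
  have hp : 0 ≤ phi c q.1 * phi c q.2 := mul_nonneg (phi_nonneg _ _) (phi_nonneg _ _)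
  have := mul_le_mul_of_nonneg_right hg hp
  nlinarith only [this]

/-- The cross covariance, lower bound. -/
lemma cov_cross_up {l : ℝ} (hl : 1 ≤ l) :
    -((2 * Real.pi)⁻¹ * Real.log (6 * l)) ≤ gffCov (phi (0, 0)) (psi l (3, 0)) := by
  have hl0 : 0 < l := by linarith
  have cc := (psi_smooth l (3, 0)).continuous
  rw [g3cov_eq_prod (phi_cont _) cc (phi_compact _) (psi_compact hl0 _)]
  have i1 : Integrable (fun q : (ℝ × ℝ) × (ℝ × ℝ) =>
      green q.1 q.2 * phi (0, 0) q.1 * psi l (3, 0) q.2) :=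
    g3green_integrable (phi_cont _) cc (phi_compact _) (psi_compact hl0 _)
  have i2 : Integrable (fun q : (ℝ × ℝ) × (ℝ × ℝ) => phi (0, 0) q.1 * psi l (3, 0) q.2) := by
    rw [Measure.volume_eq_prod]
    exact (phi_integrable _).mul_prod (psi_integrable hl0 _)
  have i7 : ∫ q : (ℝ × ℝ) × (ℝ × ℝ), phi (0, 0) q.1 * psi l (3, 0) q.2 = 1 := by
    rw [Measure.volume_eq_prod, integral_prod_mul (phi (0, 0)) (psi l (3, 0)), phi_int,
      psi_int hl0, one_mul]
  have e3 : ∫ q : (ℝ × ℝ) × (ℝ × ℝ), -((2 * Real.pi)⁻¹ * Real.log (6 * l)) *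
      (phi (0, 0) q.1 * psi l (3, 0) q.2) = -((2 * Real.pi)⁻¹ * Real.log (6 * l)) := by
    rw [integral_const_mul, i7, mul_one]
  rw [← e3]
  refine integral_mono (i2.const_mul _) i1 fun q => ?_
  simp only
  by_cases h0 : phi (0, 0) q.1 * psi l (3, 0) q.2 = 0
  · rw [h0, mul_zero, mul_assoc, h0, mul_zero]
  · have h1 := phi_supp (left_ne_zero_of_mul h0)
    have h2 := psi_supp hl0 (right_ne_zero_of_mul h0)
    have hp : 0 ≤ phi (0, 0) q.1 * psi l (3, 0) q.2 :=
      mul_nonneg (phi_nonneg _ _) (psi_nonneg _ _ _)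
    rw [mul_assoc (green _ _)]
    refine mul_le_mul_of_nonneg_right ?_ hp
    unfold green
    obtain ⟨a1, a2⟩ := h1
    obtain ⟨b1, b2⟩ := h2
    simp only [sub_zero, mul_zero] at a1 a2 b1 b2
    rw [abs_lt] at a1 a2 b1 b2
    have hlow : l ≤ Real.sqrt ((q.1.1 - q.2.1) ^ 2 + (q.1.2 - q.2.2) ^ 2) := by
      refine Real.le_sqrt_of_sq_le ?_
      have h4 : l ≤ q.2.1 - q.1.1 := by linarith only [hl, b1, a1]
      have h5 : l ^ 2 ≤ (q.2.1 - q.1.1) ^ 2 := pow_le_pow_left₀ hl0.le h4 2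
      nlinarith only [h5]
    have hup : Real.sqrt ((q.1.1 - q.2.1) ^ 2 + (q.1.2 - q.2.2) ^ 2) ≤ 6 * l := by
      refine Real.sqrt_le_iff.2 ⟨by linarith only [hl], ?_⟩
      have c1 : |q.1.1 - q.2.1| ≤ 4 * l := by
        rw [abs_le]
        constructor <;> linarith only [hl, b1, a1]
      have c2 : |q.1.2 - q.2.2| ≤ l := by
        rw [abs_le]
        constructor <;> linarith only [hl, a2, b2]
      have d1 := pow_le_pow_left₀ (abs_nonneg _) c1 2
      have d2 := pow_le_pow_left₀ (abs_nonneg _) c2 2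
      rw [sq_abs] at d1 d2
      nlinarith only [d1, d2]
    have h6 := Real.log_le_log (lt_of_lt_of_le hl0 hlow) hup
    have := mul_le_mul_of_nonneg_left h6 pi_pos'.le
    linarith only [this]

theorem cov_dif_up : ∃ a : ℝ, 0 ≤ a ∧ ∀ l : ℝ, 1 ≤ l →
    gffCov (dif l) (dif l) ≤ a + (Real.pi)⁻¹ * Real.log l := by
  refine ⟨|gffCov (phi (0, 0)) (phi (0, 0)) + gffCov (phi (3, 0)) (phi (3, 0))| +
    (Real.pi)⁻¹ * Real.log 6, ?_, fun l hl => ?_⟩
  · have : 0 ≤ Real.log 6 := Real.log_nonneg (by norm_num)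
    positivity
  have hl0 : 0 < l := by linarith
  have e : gffCov (dif l) (dif l) = gffCov (phi (0, 0)) (phi (0, 0)) -
      2 * gffCov (phi (0, 0)) (psi l (3, 0)) + gffCov (psi l (3, 0)) (psi l (3, 0)) := by
    have h1 := g3cov_sum (m := 2) ![phi (0, 0), psi l (3, 0)]
      (by
        intro j
        fin_cases j
        · exact phi_cont _
        · exact (psi_smooth _ _).continuous)
      (by
        intro j
        fin_cases j
        · exact phi_compact _
        · exact psi_compact hl0 _) ![1, -1]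
    have h2 := g3cov_symm (phi_cont (0, 0)) (psi_smooth l (3, 0)).continuous (phi_compact _)
      (psi_compact hl0 _)
    have h3 : (fun x => ∑ j : Fin 2, (![1, -1] : Fin 2 → ℝ) j *
        (![phi (0, 0), psi l (3, 0)] : Fin 2 → ℝ × ℝ → ℝ) j x) = dif l := by
      funext x
      rw [Fin.sum_univ_two]
      unfold dif
      simp
      ring
    rw [h3] at h1
    rw [h1, Fin.sum_univ_two, Fin.sum_univ_two, Fin.sum_univ_two]
    simp only [Matrix.cons_val_zero, Matrix.cons_val_one]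
    rw [← h2]
    ring
  rw [e]
  have h1 := cov_psi_up hl (3, 0)
  have h2 := cov_cross_up hl
  have h3 := le_abs_self (gffCov (phi (0, 0)) (phi (0, 0)) + gffCov (phi (3, 0)) (phi (3, 0)))
  have h4 : Real.log (6 * l) = Real.log 6 + Real.log l := Real.log_mul (by norm_num) hl0.ne'
  rw [h4] at h2
  have h5 : (2 * Real.pi)⁻¹ = (Real.pi)⁻¹ / 2 := by
    rw [mul_inv]
    ring
  rw [h5] at h2
  linarith

end Vale.Agent.P153.F.RSW.AC
end

section

/-!
P153-F, block X (triangular lattice): moments of the heights inside (outside) a circuit of edges at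
level `0`.

If `a` is supported inside and `b` outside the annulus and `a + b` has mass `0`, then the even moments
of `h(a)` and of `h(b)` on the event that the annulus contains a circuit at level `0` are at most a
constant times those of `h(a) + h(b)` under the plane measure.
-/

namespace Vale.Agent.P153.F.X

open Finset MeasureTheory Relation
open Vale.Agent.P153

/-! ### Flips -/

open Classical in
/-- The heights in `U` change sign. -/
noncomputable def flp (U : Set Pt) (h : Hg) : Hg := fun x => if x ∈ U then -h x else h x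

/-- All edges between `U` and its complement are blocked. -/
def EU (U : Set Pt) : Set Hg := {h | ∀ x ∈ U, ∀ y, y ∉ U → Adj x y → |h x| = 1 ∧ |h y| = 1}

theorem flp_in {U : Set Pt} {h : Hg} {x : Pt} (hx : x ∈ U) : flp U h x = -h x := by
  unfold flp; rw [if_pos hx]

theorem flp_out {U : Set Pt} {h : Hg} {x : Pt} (hx : x ∉ U) : flp U h x = h x := by
  unfold flp; rw [if_neg hx]

theorem abs_flp (U : Set Pt) (h : Hg) (x : Pt) : |flp U h x| = |h x| := by
  by_cases hx : x ∈ U
  · rw [flp_in hx, abs_neg]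
  · rw [flp_out hx]

theorem flp_flp (U : Set Pt) (h : Hg) : flp U (flp U h) = h := by
  funext x
  by_cases hx : x ∈ U
  · rw [flp_in hx, flp_in hx, neg_neg]
  · rw [flp_out hx, flp_out hx]

theorem flp_EU {U : Set Pt} {h : Hg} : flp U h ∈ EU U ↔ h ∈ EU U := by
  unfold EU
  simp only [Set.mem_ofPred_eq, abs_flp]

theorem bl_flp (U : Set Pt) (h : Hg) : bl (flp U h) = bl h := by
  unfold bl
  simp only [abs_flp]

theorem flp_lip {U : Set Pt} {h : Hg} (hE : h ∈ EU U) (hL : Lip h) : Lip (flp U h) := by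
  refine ⟨fun x => ?_, fun x y hxy => ?_⟩
  · by_cases hx : x ∈ U
    · rw [flp_in hx]; exact (hL.1 x).neg
    · rw [flp_out hx]; exact hL.1 x
  · have key : ∀ x y, Adj x y → x ∈ U → y ∉ U → |-h x - h y| ≤ 2 := by
      intro x y hxy hx hy
      obtain ⟨h1, h2⟩ := hE x hx y hy hxy
      rw [abs_le]
      have h3 := abs_le.1 h1.le
      have h4 := abs_le.1 h2.le
      omega
    by_cases hx : x ∈ U <;> by_cases hy : y ∈ U
    · rw [flp_in hx, flp_in hy]
      have := hL.2 x y hxy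
      rw [abs_le] at this ⊢
      omega
    · rw [flp_in hx, flp_out hy]; exact key x y hxy hx hy
    · rw [flp_out hx, flp_in hy, abs_sub_comm]; exact key y x (Topo.adj_symm hxy) hy hx
    · rw [flp_out hx, flp_out hy]; exact hL.2 x y hxy

/-- The neighbours of a vertex. -/
def nbT (x : Pt) : Finset Pt := {(x.1 + 1, x.2), (x.1 - 1, x.2), (x.1, x.2 + 1), (x.1, x.2 - 1),
  (x.1 + 1, x.2 - 1), (x.1 - 1, x.2 + 1)}

theorem mem_nbT {x y : Pt} (h : Adj x y) : y ∈ nbT x := by
  rw [Topo.adj_iff] at h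
  unfold nbT
  simp only [Finset.mem_insert, Finset.mem_singleton, Prod.ext_iff]
  rcases h with h | h | h | h | h | h <;> omega

theorem cyl_flp {mu : Measure Hg} (hmu : Gb mu) {U B : Finset Pt} (hUB : U ⊆ B)
    (hN : ∀ x ∈ U, ∀ y, Adj x y → y ∈ B) {ξ : Hg} (hξ : ξ ∈ EU (U : Set Pt)) :
    mu (Cyl B (flp (U : Set Pt) ξ)) = mu (Cyl B ξ) := by
  have hE : ∀ {η η' : Hg}, η ∈ EU (U : Set Pt) → (∀ x ∈ B, η x = η' x) → η' ∈ EU (U : Set Pt) := by
    intro η η' h1 h2 x hx y hy hxy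
    rw [← h2 x (hUB hx), ← h2 y (hN x hx y hxy)]
    exact h1 x hx y hy hxy
  have hF : ∀ {η η' : Hg}, (∀ x ∈ B, η x = η' x) →
      ∀ x ∈ B, flp (U : Set Pt) η x = flp (U : Set Pt) η' x := by
    intro η η' h x hx
    by_cases hxU : x ∈ (U : Set Pt)
    · rw [flp_in hxU, flp_in hxU, h x hx]
    · rw [flp_out hxU, flp_out hxU, h x hx]
  have hC : ∀ {η η' : Hg}, (∀ x ∈ B, η x = η' x) → Cyl B η = Cyl B η' := by
    intro η η' h
    ext g
    refine forall_congr' fun x => forall_congr' fun hx => ?_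
    rw [h x hx]
  by_cases hex : ∃ η : Hg, Lip η ∧ ∀ x ∈ B, ξ x = η x
  · obtain ⟨η, h1, h2⟩ := hex
    have h3 := hE hξ h2
    rw [hC (hF h2), hC h2]
    exact hmu.eq U B _ _ hUB hN (flp_lip h3 h1) h1 fun x hx => flp_out (by simpa using hx)
  · have hz : ∀ {η : Hg}, η ∈ EU (U : Set Pt) → (¬ ∃ η' : Hg, Lip η' ∧ ∀ x ∈ B, η x = η' x) →
        mu (Cyl B η) = 0 := by
      intro η _ h
      refine measure_mono_null ?_ (ae_iff.1 hmu.lip)
      intro g hg hl
      exact h ⟨g, hl, fun x hx => (hg x hx).symm⟩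
    rw [hz hξ hex, hz (flp_EU.2 hξ)]
    rintro ⟨η, h1, h2⟩
    have h3 : η ∈ EU (U : Set Pt) := hE (flp_EU.2 hξ) h2
    refine hex ⟨flp (U : Set Pt) η, flp_lip h3 h1, fun x hx => ?_⟩
    rw [← hF h2 x hx, flp_flp]

/-- Integrals of local functions over the event that the boundary of `U` is blocked. -/
theorem flip_lintegral {mu : Measure Hg} (hmu : Gb mu) (U : Finset Pt) {f : Hg → ENNReal}
    {B₀ : Finset Pt} (hf : ∀ h h' : Hg, (∀ x ∈ B₀, h x = h' x) → f h = f h') :
    ∫⁻ h, (EU (U : Set Pt)).indicator (fun h => f (flp (U : Set Pt) h)) h ∂mu =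
      ∫⁻ h, (EU (U : Set Pt)).indicator f h ∂mu := by
  classical
  set B : Finset Pt := B₀ ∪ U ∪ U.biUnion nbT with hB
  have hB0 : ∀ x ∈ B₀, x ∈ B := fun x hx => by simp [hB, hx]
  have hUB : U ⊆ B := fun x hx => by simp [hB, hx]
  have hN : ∀ x ∈ U, ∀ y, Adj x y → y ∈ B := fun x hx y hxy =>
    Finset.mem_union_right _ (Finset.mem_biUnion.2 ⟨x, hx, mem_nbT hxy⟩)
  set π : Hg → (↥B → ℤ) := fun h x => h x with hπ
  have hmeas : Measurable π := measurable_pi_iff.2 fun x => measurable_pi_apply _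
  set ex : (↥B → ℤ) → Hg := fun ζ x => if hx : x ∈ B then ζ ⟨x, hx⟩ else 1 with hex
  have hex1 : ∀ ζ, ∀ x (hx : x ∈ B), ex ζ x = ζ ⟨x, hx⟩ := by
    intro ζ x hx
    simp only [hex]
    rw [dif_pos hx]
  have hexπ : ∀ h : Hg, ∀ x ∈ B, ex (π h) x = h x := fun h x hx => hex1 _ x hx
  have hπex : ∀ ζ, π (ex ζ) = ζ := fun ζ => funext fun x => hex1 ζ x x.2
  have hEloc : ∀ {η η' : Hg}, (∀ x ∈ B, η x = η' x) → (η ∈ EU (U : Set Pt) ↔
      η' ∈ EU (U : Set Pt)) := by
    have key : ∀ {η η' : Hg}, (∀ x ∈ B, η x = η' x) → η ∈ EU (U : Set Pt) →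
        η' ∈ EU (U : Set Pt) := by
      intro η η' h2 h1 x hx y hy hxy
      rw [← h2 x (hUB hx), ← h2 y (hN x hx y hxy)]
      exact h1 x hx y hy hxy
    intro η η' h
    exact ⟨key h, key fun x hx => (h x hx).symm⟩
  have hFloc : ∀ {η η' : Hg}, (∀ x ∈ B, η x = η' x) →
      ∀ x ∈ B, flp (U : Set Pt) η x = flp (U : Set Pt) η' x := by
    intro η η' h x hx
    by_cases hxU : x ∈ (U : Set Pt)
    · rw [flp_in hxU, flp_in hxU, h x hx]
    · rw [flp_out hxU, flp_out hxU, h x hx]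
  -- integrals of functions of the pattern on `B`
  have hint : ∀ g : Hg → ENNReal, (∀ h h' : Hg, (∀ x ∈ B, h x = h' x) → g h = g h') →
      ∫⁻ h, g h ∂mu = ∑' ζ : ↥B → ℤ, g (ex ζ) * mu (Cyl B (ex ζ)) := by
    intro g hg
    have h1 : ∫⁻ h, g h ∂mu = ∫⁻ ζ, g (ex ζ) ∂(mu.map π) := by
      rw [lintegral_map (measurable_of_countable _) hmeas]
      exact lintegral_congr fun h => hg _ _ fun x hx => (hexπ h x hx).symm
    rw [h1, lintegral_countable']
    refine tsum_congr fun ζ => ?_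
    rw [Measure.map_apply hmeas (measurableSet_singleton ζ)]
    congr 2
    ext h
    simp only [Set.mem_preimage, Set.mem_singleton_iff, Cyl, Set.mem_ofPred_eq]
    constructor
    · rintro rfl x hx
      exact (hexπ h x hx).symm
    · intro h2
      funext x
      show h x = ζ x
      rw [h2 x x.2, hex1 ζ x x.2]
  -- the flip of patterns
  set τ : (↥B → ℤ) → (↥B → ℤ) := fun ζ => π (flp (U : Set Pt) (ex ζ)) with hτ
  have hexτ : ∀ ζ, ∀ x ∈ B, ex (τ ζ) x = flp (U : Set Pt) (ex ζ) x := fun ζ x hx =>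
    hexπ _ x hx
  have hττ : Function.Involutive τ := by
    intro ζ
    funext x
    show flp (U : Set Pt) (ex (τ ζ)) x = ζ x
    rw [hFloc (hexτ ζ) x x.2, flp_flp, hex1 ζ x x.2]
  rw [hint _ fun h h' hh => ?_, hint _ fun h h' hh => ?_, ← hττ.toPerm.tsum_eq]
  · refine tsum_congr fun ζ => ?_
    show (EU (U : Set Pt)).indicator (fun h => f (flp (U : Set Pt) h)) (ex (τ ζ)) *
      mu (Cyl B (ex (τ ζ))) = _
    have hC : Cyl B (ex (τ ζ)) = Cyl B (flp (U : Set Pt) (ex ζ)) := by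
      ext g
      refine forall_congr' fun x => forall_congr' fun hx => ?_
      rw [hexτ ζ x hx]
    by_cases hE : ex ζ ∈ EU (U : Set Pt)
    · have hE' : ex (τ ζ) ∈ EU (U : Set Pt) := (hEloc (hexτ ζ)).2 (flp_EU.2 hE)
      rw [Set.indicator_of_mem hE, Set.indicator_of_mem hE', hC, cyl_flp hmu hUB hN hE]
      congr 1
      refine hf _ _ fun x hx => ?_
      rw [hFloc (hexτ ζ) x (hB0 x hx), flp_flp]
    · have hE' : ex (τ ζ) ∉ EU (U : Set Pt) := fun h => hE (flp_EU.1 ((hEloc (hexτ ζ)).1 h))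
      rw [Set.indicator_of_notMem hE, Set.indicator_of_notMem hE', zero_mul, zero_mul]
  · by_cases hE : h ∈ EU (U : Set Pt)
    · rw [Set.indicator_of_mem hE, Set.indicator_of_mem ((hEloc hh).1 hE)]
      exact hf _ _ fun x hx => hh x (hB0 x hx)
    · rw [Set.indicator_of_notMem hE, Set.indicator_of_notMem fun h1 => hE ((hEloc hh).2 h1)]
  · by_cases hE : h ∈ EU (U : Set Pt)
    · rw [Set.indicator_of_mem hE, Set.indicator_of_mem ((hEloc hh).1 hE)]
      exact hf _ _ fun x hx => hFloc hh x (hB0 x hx)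
    · rw [Set.indicator_of_notMem hE, Set.indicator_of_notMem fun h1 => hE ((hEloc hh).2 h1)]

/-! ### Pieces -/

/-- The blocked edges in the window `F` are those of `T`. -/
def piece (F T : Finset Pt) : Set Hg := {h | ∀ w ∈ F, w ∈ bl h ↔ w ∈ T}

theorem meas_piece (F T : Finset Pt) : MeasurableSet (piece F T) :=
  meas_bl (Q := fun A => ∀ w ∈ F, w ∈ A ↔ w ∈ T) (Λ := F)
    fun _ _ h hA w hw => (h w hw).symm.trans (hA w hw)

/-- The midpoint determines the edge. -/
theorem mid_inj {x y x' y' : Pt} (h : Adj x y) (h' : Adj x' y') (e : x + y = x' + y') :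
    (x = x' ∧ y = y') ∨ (x = y' ∧ y = x') := by
  rw [Topo.adj_iff] at h h'
  rw [Prod.ext_iff, Prod.fst_add, Prod.snd_add, Prod.fst_add, Prod.snd_add] at e
  simp only [Prod.ext_iff]
  rcases h with h | h | h | h | h | h <;> rcases h' with h' | h' | h' | h' | h' | h' <;> omega

/-- The vertices enclosed by a circuit. -/
theorem exists_region {p : Pt} {s : ℤ} (hs : 1 ≤ s) {F T : Finset Pt} (hT : T ⊆ F)
    (hZ : Zr p s (T : Set Pt)) : ∃ U : Finset Pt, (∀ x ∈ bx p s, x ∈ U) ∧
      (∀ x ∈ U, |x.1 - p.1| < 2 * s ∧ |x.2 - p.2| < 2 * s) ∧ piece F T ⊆ EU (U : Set Pt) := by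
  classical
  set V : Set Pt := {y | ∃ x ∈ bx p s, ReflTransGen (RSW.VStep (T : Set Pt)) x y} with hV
  have hb : ∀ x ∈ V, |x.1 - p.1| < 2 * s ∧ |x.2 - p.2| < 2 * s := by
    rintro y ⟨x, hx, h⟩
    exact RSW.vconf_of_ann (by omega) hZ hx h
  have hfin : V.Finite := by
    refine Set.Finite.subset (Finset.finite_toSet
      (Finset.Icc (p.1 - 2 * s) (p.1 + 2 * s) ×ˢ Finset.Icc (p.2 - 2 * s) (p.2 + 2 * s))) ?_
    intro y hy
    have := hb y hy
    rw [abs_lt, abs_lt] at this
    rw [Finset.mem_coe, Finset.mem_product, Finset.mem_Icc, Finset.mem_Icc]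
    omega
  refine ⟨hfin.toFinset, fun x hx => hfin.mem_toFinset.2 ⟨x, hx, ReflTransGen.refl⟩,
    fun x hx => hb x (hfin.mem_toFinset.1 hx), ?_⟩
  intro h hh x hx y hy hxy
  have hx' : x ∈ V := by simpa using hx
  have hy' : y ∉ V := by simpa using hy
  have hT' : x + y ∈ T := by
    by_contra hc
    obtain ⟨z, hz, hzx⟩ := hx'
    exact hy' ⟨z, hz, hzx.tail ⟨hxy, by simpa using hc⟩⟩
  obtain ⟨x', y', h1, h2, h3, h4⟩ := (hh _ (hT hT')).2 hT'
  rcases mid_inj hxy h1 h2 with ⟨rfl, rfl⟩ | ⟨rfl, rfl⟩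
  · exact ⟨h3, h4⟩
  · exact ⟨h4, h3⟩

theorem evT_in {U : Set Pt} {a : Pt →₀ ℝ} (ha : ∀ v ∈ a.support, v ∈ U) (h : Hg) :
    evT a (flp U h) = -evT a h := by
  unfold evT Finsupp.sum
  rw [← Finset.sum_neg_distrib]
  refine Finset.sum_congr rfl fun v hv => ?_
  dsimp only
  rw [flp_in (ha v hv)]
  push_cast
  ring

theorem evT_out {U : Set Pt} {a : Pt →₀ ℝ} (ha : ∀ v ∈ a.support, v ∉ U) (h : Hg) :
    evT a (flp U h) = evT a h := by
  unfold evT Finsupp.sum
  refine Finset.sum_congr rfl fun v hv => ?_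
  dsimp only
  rw [flp_out (ha v hv)]

theorem evT_congr {a : Pt →₀ ℝ} {h h' : Hg} (e : ∀ v ∈ a.support, h v = h' v) :
    evT a h = evT a h' := by
  unfold evT Finsupp.sum
  exact Finset.sum_congr rfl fun v hv => by dsimp only; rw [e v hv]

theorem pow_half (x y : ℝ) (n : ℕ) :
    2 * ENNReal.ofReal (x ^ (2 * n)) ≤
      ENNReal.ofReal ((x + y) ^ (2 * n)) + ENNReal.ofReal ((-x + y) ^ (2 * n)) := by
  have h1 : (-x + y) ^ (2 * n) = (x - y) ^ (2 * n) := by
    rw [pow_mul, pow_mul]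
    congr 1
    ring
  have hconv : ConvexOn ℝ Set.univ (fun z : ℝ => z ^ (2 * n)) := Even.convexOn_pow (even_two_mul n)
  have h2 := hconv.2 (Set.mem_univ (x + y)) (Set.mem_univ (x - y))
    (by norm_num : (0 : ℝ) ≤ 1 / 2) (by norm_num : (0 : ℝ) ≤ 1 / 2) (by norm_num)
  simp only [smul_eq_mul] at h2
  have h3 : 1 / 2 * (x + y) + 1 / 2 * (x - y) = x := by ring
  rw [h3] at h2
  rw [h1, ← ENNReal.ofReal_ofNat, ← ENNReal.ofReal_mul (by norm_num), ← ENNReal.ofReal_add
    (Even.pow_nonneg (even_two_mul n) _) (Even.pow_nonneg (even_two_mul n) _)]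
  exact ENNReal.ofReal_le_ofReal (by linarith)

/-- One piece. -/
theorem mom_piece {mu : Measure Hg} (hmu : Gb mu) {p : Pt} {s : ℤ} (hs : 1 ≤ s) {F T : Finset Pt}
    (hT : T ⊆ F) (hZ : Zr p s (T : Set Pt)) {a b : Pt →₀ ℝ} (ha : ∀ v ∈ a.support, v ∈ bx p s)
    (hb : ∀ v ∈ b.support, v ∉ bx p (2 * s)) (n : ℕ) :
    ∫⁻ h in piece F T, ENNReal.ofReal (evT a h ^ (2 * n)) ∂mu ≤
      ∫⁻ h in piece F T, ENNReal.ofReal ((evT a h + evT b h) ^ (2 * n)) ∂mu ∧
    ∫⁻ h in piece F T, ENNReal.ofReal (evT b h ^ (2 * n)) ∂mu ≤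
      ∫⁻ h in piece F T, ENNReal.ofReal ((evT a h + evT b h) ^ (2 * n)) ∂mu := by
  classical
  obtain ⟨U, h1, h2, h3⟩ := exists_region hs hT hZ
  have ha' : ∀ v ∈ a.support, v ∈ (U : Set Pt) := fun v hv => by simpa using h1 v (ha v hv)
  have hb' : ∀ v ∈ b.support, v ∉ (U : Set Pt) := fun v hv hvU => by
    refine hb v hv ?_
    obtain ⟨h4, h5⟩ := h2 v (by simpa using hvU)
    exact ⟨h4.le, h5.le⟩
  have ma : Measurable (evT a) := measurable_evT a
  have mb : Measurable (evT b) := measurable_evT b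
  -- the flip of a function of the two functionals
  have hflip : ∫⁻ h in piece F T, ENNReal.ofReal ((-evT a h + evT b h) ^ (2 * n)) ∂mu =
      ∫⁻ h in piece F T, ENNReal.ofReal ((evT a h + evT b h) ^ (2 * n)) ∂mu := by
    set f : Hg → ENNReal := (piece F T).indicator fun h =>
      ENNReal.ofReal ((evT a h + evT b h) ^ (2 * n)) with hf
    have hloc : ∀ h h' : Hg, (∀ x ∈ a.support ∪ b.support ∪ F.biUnion (fun w =>
        ({(w.1 / 2, (w.2 + 1) / 2), ((w.1 + 1) / 2, w.2 / 2)} : Finset Pt)), h x = h' x) →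
        f h = f h' := by
      intro h h' hh
      have e1 : evT a h = evT a h' := evT_congr fun v hv => hh v (by simp [Finset.mem_union,
        Finsupp.mem_support_iff.1 hv])
      have e2 : evT b h = evT b h' := evT_congr fun v hv => hh v (by simp [Finset.mem_union,
        Finsupp.mem_support_iff.1 hv])
      have e3 : ∀ w ∈ F, w ∈ bl h ↔ w ∈ bl h' := by
        intro w hw
        have key : ∀ {g g' : Hg}, (g (w.1 / 2, (w.2 + 1) / 2) = g' (w.1 / 2, (w.2 + 1) / 2)) →
            (g ((w.1 + 1) / 2, w.2 / 2) = g' ((w.1 + 1) / 2, w.2 / 2)) → w ∈ bl g → w ∈ bl g' := by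
          rintro g g' e4 e5 ⟨x, y, hxy, rfl, h4, h5⟩
          have hc : Adj (((x + y).1 / 2, ((x + y).2 + 1) / 2) : Pt)
              (((x + y).1 + 1) / 2, (x + y).2 / 2) := by
            rw [Topo.adj_iff] at hxy ⊢
            simp only [Prod.fst_add, Prod.snd_add]
            omega
          have hs' : (((x + y).1 / 2, ((x + y).2 + 1) / 2) : Pt) +
              (((x + y).1 + 1) / 2, (x + y).2 / 2) = x + y := by
            refine Prod.ext ?_ ?_
            · simp only [Prod.fst_add]; omega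
            · simp only [Prod.snd_add]; omega
          refine ⟨_, _, hc, hs'.symm, ?_, ?_⟩
          · rw [← e4]
            rcases mid_inj hc hxy hs' with ⟨q1, _⟩ | ⟨q1, _⟩
            · rw [q1]; exact h4
            · rw [q1]; exact h5
          · rw [← e5]
            rcases mid_inj hc hxy hs' with ⟨_, q1⟩ | ⟨_, q1⟩
            · rw [q1]; exact h5
            · rw [q1]; exact h4
        have m1 : (w.1 / 2, (w.2 + 1) / 2) ∈ a.support ∪ b.support ∪ F.biUnion (fun w =>
            ({(w.1 / 2, (w.2 + 1) / 2), ((w.1 + 1) / 2, w.2 / 2)} : Finset Pt)) :=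
          Finset.mem_union_right _ (Finset.mem_biUnion.2 ⟨w, hw, Finset.mem_insert_self _ _⟩)
        have m2 : ((w.1 + 1) / 2, w.2 / 2) ∈ a.support ∪ b.support ∪ F.biUnion (fun w =>
            ({(w.1 / 2, (w.2 + 1) / 2), ((w.1 + 1) / 2, w.2 / 2)} : Finset Pt)) :=
          Finset.mem_union_right _ (Finset.mem_biUnion.2 ⟨w, hw,
            Finset.mem_insert_of_mem (Finset.mem_singleton_self _)⟩)
        exact ⟨key (hh _ m1) (hh _ m2), key (hh _ m1).symm (hh _ m2).symm⟩
      have e4 : h ∈ piece F T ↔ h' ∈ piece F T :=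
        forall_congr' fun w => forall_congr' fun hw => by rw [e3 w hw]
      rw [hf]
      by_cases hm : h ∈ piece F T
      · rw [Set.indicator_of_mem hm, Set.indicator_of_mem (e4.1 hm), e1, e2]
      · rw [Set.indicator_of_notMem hm, Set.indicator_of_notMem fun h5 => hm (e4.2 h5)]
    have hfl := flip_lintegral hmu U hloc
    have e1 : (EU (U : Set Pt)).indicator f = f := by
      funext h
      by_cases hm : h ∈ EU (U : Set Pt)
      · rw [Set.indicator_of_mem hm]
      · rw [Set.indicator_of_notMem hm, hf, Set.indicator_of_notMem fun h5 => hm (h3 h5)]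
    have e2 : (EU (U : Set Pt)).indicator (fun h => f (flp (U : Set Pt) h)) =
        (piece F T).indicator fun h => ENNReal.ofReal ((-evT a h + evT b h) ^ (2 * n)) := by
      funext h
      have e3 : flp (U : Set Pt) h ∈ piece F T ↔ h ∈ piece F T := by
        unfold piece
        rw [Set.mem_ofPred_eq, Set.mem_ofPred_eq, bl_flp]
      by_cases hm : h ∈ piece F T
      · rw [Set.indicator_of_mem (h3 hm), Set.indicator_of_mem hm, hf,
          Set.indicator_of_mem (e3.2 hm), evT_in ha', evT_out hb']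
      · rw [Set.indicator_of_notMem hm]
        by_cases hm' : h ∈ EU (U : Set Pt)
        · rw [Set.indicator_of_mem hm', hf, Set.indicator_of_notMem fun h5 => hm (e3.1 h5)]
        · rw [Set.indicator_of_notMem hm']
    rw [e1, e2, hf, lintegral_indicator (meas_piece F T), lintegral_indicator (meas_piece F T)]
      at hfl
    exact hfl
  have two : ∀ {A B : ENNReal}, 2 * A ≤ B + B → A ≤ B := by
    intro A B h
    rw [← two_mul] at h
    exact (ENNReal.mul_le_mul_iff_right (by norm_num) (by norm_num)).1 h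
  have mm : ∀ {g : Hg → ℝ}, Measurable g → Measurable fun h => ENNReal.ofReal (g h ^ (2 * n)) :=
    fun hg => (hg.pow_const _).ennreal_ofReal
  constructor
  · refine two ?_
    calc 2 * ∫⁻ h in piece F T, ENNReal.ofReal (evT a h ^ (2 * n)) ∂mu
        = ∫⁻ h in piece F T, 2 * ENNReal.ofReal (evT a h ^ (2 * n)) ∂mu :=
          (lintegral_const_mul _ (mm ma)).symm
      _ ≤ ∫⁻ h in piece F T, (ENNReal.ofReal ((evT a h + evT b h) ^ (2 * n)) +
            ENNReal.ofReal ((-evT a h + evT b h) ^ (2 * n))) ∂mu :=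
          lintegral_mono fun h => pow_half _ _ _
      _ = _ := by
          rw [lintegral_add_left (f := fun h => ENNReal.ofReal ((evT a h + evT b h) ^ (2 * n)))
            (mm (g := fun h => evT a h + evT b h) (ma.add mb)), hflip]
  · refine two ?_
    calc 2 * ∫⁻ h in piece F T, ENNReal.ofReal (evT b h ^ (2 * n)) ∂mu
        = ∫⁻ h in piece F T, 2 * ENNReal.ofReal (evT b h ^ (2 * n)) ∂mu :=
          (lintegral_const_mul _ (mm mb)).symm
      _ ≤ ∫⁻ h in piece F T, (ENNReal.ofReal ((evT a h + evT b h) ^ (2 * n)) +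
            ENNReal.ofReal ((-evT a h + evT b h) ^ (2 * n))) ∂mu := by
          refine lintegral_mono fun h => (pow_half _ (evT a h) _).trans (le_of_eq ?_)
          have q1 : evT b h + evT a h = evT a h + evT b h := add_comm _ _
          have q2 : (-evT b h + evT a h) ^ (2 * n) = (-evT a h + evT b h) ^ (2 * n) := by
            rw [pow_mul, pow_mul]
            congr 1
            ring
          rw [q1, q2]
      _ = _ := by
          rw [lintegral_add_left (f := fun h => ENNReal.ofReal ((evT a h + evT b h) ^ (2 * n)))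
            (mm (g := fun h => evT a h + evT b h) (ma.add mb)), hflip]

/-! ### Levels -/

/-- Two circuits in the same annulus have a common edge. -/
theorem ann_meet {p q t : ℤ} {S S' : Set Pt} (h : RSW.Ann p q t S)
    (h' : RSW.Ann p q t S') (ht : 0 < t) : (S ∩ S').Nonempty := by
  obtain ⟨⟨x, x', hx, hxa, hxb⟩, -, -, -⟩ := h
  obtain ⟨-, -, ⟨y, y', hy, hyc, hyd⟩, -⟩ := h'
  obtain ⟨z, hz1, hz2⟩ := RSW.meetHV (by omega) (by omega) (by omega) (by omega) hx hxa hxb hy hyc
    hyd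
  exact ⟨z, hz1.right_mem.1, hz2.right_mem.1⟩

theorem lev_close {p : Pt} {s : ℤ} (hs : 1 ≤ s) {φ : Pt → ℤ} {k k' : ℤ} (h : odd k φ ∈ ZE p s)
    (h' : odd k' φ ∈ ZE p s) : |k - k'| ≤ 1 := by
  obtain ⟨w, ⟨⟨x, y, hxy, hw, h1, h2⟩, _⟩, ⟨⟨x', y', hxy', hw', h3, h4⟩, _⟩⟩ :=
    ann_meet h h' (by omega)
  have h5 : |odd k φ x| = 1 ∧ |odd k' φ x| = 1 := by
    refine ⟨h1, ?_⟩
    rcases mid_inj hxy hxy' (hw.symm.trans hw') with ⟨rfl, rfl⟩ | ⟨rfl, rfl⟩
    · exact h3
    · exact h4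
  unfold odd at h5
  have h6 := abs_le.1 h5.1.le
  have h7 := abs_le.1 h5.2.le
  rw [abs_le]
  omega

/-- At most three levels. -/
theorem tsum_lev {p : Pt} {s : ℤ} (hs : 1 ≤ s) (φ : Pt → ℤ) :
    ∑' k : ℤ, (ZE p s).indicator (fun _ => (1 : ENNReal)) (odd k φ) ≤ 3 := by
  by_cases h : ∃ k : ℤ, odd k φ ∈ ZE p s
  · obtain ⟨k₀, h0⟩ := h
    have h1 : ∀ k ∉ Finset.Icc (k₀ - 1) (k₀ + 1),
        (ZE p s).indicator (fun _ => (1 : ENNReal)) (odd k φ) = 0 := by
      intro k hk
      refine Set.indicator_of_notMem (fun h2 => hk ?_) _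
      have := abs_le.1 (lev_close hs h2 h0)
      rw [Finset.mem_Icc]
      omega
    rw [tsum_eq_sum h1]
    calc ∑ k ∈ Finset.Icc (k₀ - 1) (k₀ + 1),
          (ZE p s).indicator (fun _ => (1 : ENNReal)) (odd k φ)
        ≤ ∑ _k ∈ Finset.Icc (k₀ - 1) (k₀ + 1), (1 : ENNReal) :=
          Finset.sum_le_sum fun k _ => Set.indicator_le_self' (fun _ _ => zero_le_one) _
      _ = 3 := by
        rw [Finset.sum_const, Int.card_Icc, nsmul_eq_mul, mul_one]
        have : (k₀ + 1 + 1 - (k₀ - 1)).toNat = 3 := by omega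
        rw [this]
        norm_num
  · push Not at h
    rw [tsum_congr fun k => Set.indicator_of_notMem (h k) _, tsum_zero]
    exact zero_le

theorem massT_add (a b : Pt →₀ ℝ) : massT (a + b) = massT a + massT b := by
  unfold massT
  rw [Finsupp.sum_add_index' (fun _ => by simp) (fun _ _ _ => by ring)]

theorem evT_add (a b : Pt →₀ ℝ) (h : Hg) : evT (a + b) h = evT a h + evT b h := by
  unfold evT
  rw [Finsupp.sum_add_index' (fun _ => by simp) (fun _ _ _ => by ring)]

theorem evT_neutral {w : Pt →₀ ℝ} (hw : massT w = 0) (k : ℤ) (φ : Pt → ℤ) :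
    evT w (odd k φ) = 2 * evT w φ := by
  have h1 : evT w (odd k φ) = 2 * evT w φ + (2 * k - 1) * massT w := by
    unfold evT massT
    rw [Finsupp.sum, Finsupp.sum, Finsupp.sum, Finset.mul_sum, Finset.mul_sum,
      ← Finset.sum_add_distrib]
    refine Finset.sum_congr rfl fun q _ => ?_
    unfold odd
    push_cast
    ring
  rw [h1, hw, mul_zero, add_zero]

/-- The neutral case: a functional of the gradients on the event of a circuit at level `0`. -/
theorem annT_le {P : Measure (Pt → ℤ)} {p : Pt} {s : ℤ} (hs : 1 ≤ s) {w : Pt →₀ ℝ}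
    (hw : massT w = 0) (n : ℕ) :
    ∫⁻ x in ZE p s, ENNReal.ofReal (evT w x ^ (2 * n)) ∂(muT P) ≤
      3 * ∫⁻ φ, ENNReal.ofReal ((2 * evT w φ) ^ (2 * n)) ∂P := by
  have mz := meas_ZE p hs
  have mf : Measurable fun x : Hg => ENNReal.ofReal (evT w x ^ (2 * n)) :=
    ((measurable_evT w).pow_const _).ennreal_ofReal
  rw [← lintegral_indicator mz, lintegral_muT (mf.indicator mz),
    ← lintegral_const_mul _ ((((measurable_evT w).const_mul 2).pow_const
      (2 * n)).ennreal_ofReal)]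
  refine lintegral_mono fun φ => ?_
  have e : ∀ k : ℤ, (ZE p s).indicator
      (fun x => ENNReal.ofReal (evT w x ^ (2 * n))) (odd k φ) =
      (ZE p s).indicator (fun _ => (1 : ENNReal)) (odd k φ) *
        ENNReal.ofReal ((2 * evT w φ) ^ (2 * n)) := by
    intro k
    by_cases h : odd k φ ∈ ZE p s
    · rw [Set.indicator_of_mem h, Set.indicator_of_mem h, one_mul, evT_neutral hw]
    · rw [Set.indicator_of_notMem h, Set.indicator_of_notMem h, zero_mul]
  simp only [e]
  rw [ENNReal.tsum_mul_right]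
  exact mul_le_mul_left (tsum_lev hs φ) _

/-- **MOM on T.** -/
theorem momT {P : Measure (Pt → ℤ)} (hmu : Gb (muT P)) {p : Pt} {s : ℤ} (hs : 1 ≤ s)
    {a b : Pt →₀ ℝ} (ha : ∀ v ∈ a.support, v ∈ bx p s) (hb : ∀ v ∈ b.support, v ∉ bx p (2 * s))
    (hm : massT (a + b) = 0) (n : ℕ) :
    ∫⁻ h in ZE p s, ENNReal.ofReal (evT a h ^ (2 * n)) ∂(muT P) ≤
      3 * ∫⁻ φ, ENNReal.ofReal ((2 * evT (a + b) φ) ^ (2 * n)) ∂P ∧
    ∫⁻ h in ZE p s, ENNReal.ofReal (evT b h ^ (2 * n)) ∂(muT P) ≤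
      3 * ∫⁻ φ, ENNReal.ofReal ((2 * evT (a + b) φ) ^ (2 * n)) ∂P := by
  classical
  obtain ⟨F, _, hF⟩ := (s_loc p s hs).2.loc
  have hF' : ∀ B B' : Set Pt, (∀ w ∈ F, w ∈ B ↔ w ∈ B') → Zr p s B → Zr p s B' := by
    intro B B' h hB
    have h3 := hF B B' h
    unfold ind at h3
    rw [if_pos hB] at h3
    by_contra hc
    rw [if_neg hc] at h3
    exact one_ne_zero h3
  set I : Finset (Finset Pt) := F.powerset.filter fun T : Finset Pt => Zr p s (T : Set Pt) with hI
  have hZ : ZE p s = ⋃ T ∈ I, piece F T := by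
    ext x
    simp only [ZE, Set.mem_ofPred_eq, Set.mem_iUnion, hI, Finset.mem_filter, Finset.mem_powerset,
      exists_prop]
    constructor
    · intro h
      refine ⟨F.filter (fun w => w ∈ bl x), ⟨Finset.filter_subset _ _, ?_⟩, ?_⟩
      · exact hF' _ _ (fun w hw => by simp [hw]) h
      · intro w hw
        simp [hw]
    · rintro ⟨T, ⟨-, hT⟩, h⟩
      exact hF' _ _ (fun w hw => (h w hw).symm) hT
  have hdis : (I : Set (Finset Pt)).PairwiseDisjoint (piece F) := by
    intro T hT T' hT' hne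
    rw [Function.onFun, Set.disjoint_left]
    intro x h1 h2
    apply hne
    simp only [hI, Finset.coe_filter, Finset.mem_powerset, Set.mem_ofPred_eq] at hT hT'
    ext w
    constructor
    · intro h
      exact (h2 w (hT.1 h)).1 ((h1 w (hT.1 h)).2 h)
    · intro h
      exact (h1 w (hT'.1 h)).1 ((h2 w (hT'.1 h)).2 h)
  have hsum : ∀ g : Hg → ENNReal, ∫⁻ x in ZE p s, g x ∂(muT P) =
      ∑ T ∈ I, ∫⁻ x in piece F T, g x ∂(muT P) := by
    intro g
    rw [hZ]
    exact lintegral_biUnion_finset hdis (fun T _ => meas_piece F T) g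
  have hlast := annT_le (P := P) (p := p) hs hm n
  have hp := fun T (hT : T ∈ I) => mom_piece hmu hs (Finset.mem_powerset.1
    (Finset.mem_filter.1 hT).1) (Finset.mem_filter.1 hT).2 ha hb n
  constructor
  · refine le_trans ?_ hlast
    rw [hsum, hsum]
    refine Finset.sum_le_sum fun T hT => ((hp T hT).1).trans (le_of_eq ?_)
    exact lintegral_congr fun x => by rw [evT_add]
  · refine le_trans ?_ hlast
    rw [hsum, hsum]
    refine Finset.sum_le_sum fun T hT => ((hp T hT).2).trans (le_of_eq ?_)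
    exact lintegral_congr fun x => by rw [evT_add]

end Vale.Agent.P153.F.X
end
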