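import Mathlib
import Vale.Agent.P153.Bd5.B1
import Vale.Agent.P153.Bd5.B7
import Vale.Agent.P153.Bd5.B9
import Vale.Agent.P153.Bd5.B13
import Vale.Agent.P153.Bd5.B5

set_option linter.all false

section

/-!
Definitions for the full-plane height representation of the self-dual Ashkin-Teller model.
-/

namespace Vale.Agent.P145.FP

open Finset Filter Topology MeasureTheory ProbabilityTheory

/-- The sites: `Sum.inl v` is the vertex `v` of `ℤ²`, and `Sum.inr f` is the face of `ℤ²` (unit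
square) whose bottom-left corner is `f`. -/
abbrev Site := (ℤ × ℤ) ⊕ (ℤ × ℤ)

/-- A pair `(τ, τ†)` of spin configurations: `σ (Sum.inl v)` is `τ(v)` and `σ (Sum.inr f)` is
`τ†(f)`, where `true` stands for the spin `1` and `false` for the spin `-1`. -/
abbrev Conf := Site → Bool

/-- The value `±1` of a spin. -/
noncomputable def sp (b : Bool) : ℝ := if b = true then 1 else -1

/-- The weight of an edge `uv` separating the faces `f, f'`, as a function of
`τ(u), τ(v), τ†(f), τ†(f')`: it is `0` if `(τ(u) - τ(v)) (τ†(f) - τ†(f')) ≠ 0`, and otherwise `t`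
to the number of pairs of different spins among `{τ(u), τ(v)}` and `{τ†(f), τ†(f')}`. -/
noncomputable def ew (t : ℝ) (a b p q : Bool) : ℝ :=
  if a = b ∨ p = q then t ^ ((if a = b then 0 else 1) + (if p = q then 0 else 1)) else 0

/-- Weight of the horizontal edge from `e` to `e + (1, 0)`, which separates the faces `e` (above)
and `e - (0, 1)` (below). -/
noncomputable def hw (t : ℝ) (σ : Conf) (e : ℤ × ℤ) : ℝ :=
  ew t (σ (Sum.inl e)) (σ (Sum.inl (e.1 + 1, e.2))) (σ (Sum.inr e)) (σ (Sum.inr (e.1, e.2 - 1)))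

/-- Weight of the vertical edge from `e` to `e + (0, 1)`, which separates the faces `e` (right)
and `e - (1, 0)` (left). -/
noncomputable def vw (t : ℝ) (σ : Conf) (e : ℤ × ℤ) : ℝ :=
  ew t (σ (Sum.inl e)) (σ (Sum.inl (e.1, e.2 + 1))) (σ (Sum.inr e)) (σ (Sum.inr (e.1 - 1, e.2)))

/-- `H` is a height function of `(τ, τ†)`: `H(f) - H(v) = τ(v) τ†(f) / 2` whenever the vertex `v`
is a corner of the face `f`. -/
def IsHeight (σ : Conf) (H : Site → ℝ) : Prop :=
  ∀ (f : ℤ × ℤ) (a b : ℤ), (a = 0 ∨ a = 1) → (b = 0 ∨ b = 1) →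
    H (Sum.inr f) - H (Sum.inl (f.1 + a, f.2 + b)) =
      1 / 2 * sp (σ (Sum.inl (f.1 + a, f.2 + b))) * sp (σ (Sum.inr f))

/-- `H_δ(φ) = δ² ∑_v H(v) φ(δ v)`, the sum being over the vertices `v` of `ℤ²`. -/
noncomputable def fld (H : Site → ℝ) (δ : ℝ) (φ : ℝ × ℝ → ℝ) : ℝ :=
  δ ^ 2 * ∑' v : ℤ × ℤ, H (Sum.inl v) * φ (δ * v.1, δ * v.2)

/-- Smooth compactly supported function on the plane with integral zero. -/
def Test (f : ℝ × ℝ → ℝ) : Prop :=
  ContDiff ℝ ((⊤ : ℕ∞) : WithTop ℕ∞) f ∧ HasCompactSupport f ∧ ∫ x, f x = 0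

/-- `G(x, y) = -(2π)⁻¹ log |x - y|`. -/
noncomputable def green (x y : ℝ × ℝ) : ℝ :=
  -(2 * Real.pi)⁻¹ * Real.log (Real.sqrt ((x.1 - y.1) ^ 2 + (x.2 - y.2) ^ 2))

/-- The covariance `∬ G(x, y) f(x) g(y) dx dy` of the Gaussian free field on the plane modulo
constants. -/
noncomputable def gffCov (f g : ℝ × ℝ → ℝ) : ℝ := ∫ x, ∫ y, green x y * f x * g y

end Vale.Agent.P145.FP
end

section

/-!
Definitions for the scaling limit of the critical Ashkin-Teller height function in bounded Jordan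
domains: lattice polygons, the height representation in the domain enclosed by a polygon, and
its rescaled height function.
-/

namespace Vale.Agent.P145.Dom

open Finset Filter Topology MeasureTheory ProbabilityTheory Vale.Agent.P145.FP
  Vale.Agent.P145.PT

/-- A bounded Jordan domain: the image of the open unit disc under a homeomorphism of the plane
(by the theorem of Schoenflies these are exactly the interiors of Jordan curves). -/
def JordanDomain (D : Set (ℝ × ℝ)) : Prop :=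
  ∃ Φ : (ℝ × ℝ) ≃ₜ (ℝ × ℝ), D = Φ '' {z | z.1 ^ 2 + z.2 ^ 2 < 1}

/-- A simple closed lattice polygon: a closed path `p 0, p 1, …, p (n - 1), p 0` of `ℤ²` with steps
of length one and without repeated vertices. -/
def IsPolygon {n : ℕ} (p : ZMod n → ℤ × ℤ) : Prop :=
  3 < n ∧ Function.Injective p ∧
    ∀ i, p (i + 1) - p i = (1, 0) ∨ p (i + 1) - p i = (-1, 0) ∨
      p (i + 1) - p i = (0, 1) ∨ p (i + 1) - p i = (0, -1)

/-- The edge between the lattice points `a` and `b` is an edge of the polygon `p`. -/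
def IsEdge {n : ℕ} (p : ZMod n → ℤ × ℤ) (a b : ℤ × ℤ) : Prop :=
  ∃ i, (p i = a ∧ p (i + 1) = b) ∨ (p i = b ∧ p (i + 1) = a)

/-- The finite set `F` of faces (unit squares, given by their bottom-left corners) is the set of
the faces enclosed by the polygon `p`: the edges of `p` are exactly the edges of the lattice with
exactly one of their two sides in `F`. The horizontal edge from `e` to `e + (1, 0)` separates the
faces `e` and `e - (0, 1)`; the vertical edge from `e` to `e + (0, 1)` separates the faces `e` and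
`e - (1, 0)`. -/
def Encloses {n : ℕ} (p : ZMod n → ℤ × ℤ) (F : Finset (ℤ × ℤ)) : Prop :=
  (∀ e : ℤ × ℤ, IsEdge p e (e + (1, 0)) ↔ ¬ (e ∈ F ↔ e - (0, 1) ∈ F)) ∧
  (∀ e : ℤ × ℤ, IsEdge p e (e + (0, 1)) ↔ ¬ (e ∈ F ↔ e - (1, 0) ∈ F))

/-- The vertices of the graph of the polygon: the corners of the enclosed faces. -/
def verts (F : Finset (ℤ × ℤ)) : Finset (ℤ × ℤ) :=
  F ∪ F.image (· + (1, 0)) ∪ F.image (· + (0, 1)) ∪ F.image (· + (1, 1))

/-- The free sites: the vertices that are not on the polygon `p`, and the enclosed faces. -/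
noncomputable def free {n : ℕ} (p : ZMod n → ℤ × ℤ) (F : Finset (ℤ × ℤ)) : Finset Site :=
  by classical exact ((verts F).filter (fun v => ∀ i, p i ≠ v)).disjSum F

/-- The spin configuration with the spin `-1` exactly at the sites of `S`. -/
noncomputable def conf (S : Finset Site) : Conf := fun x => by classical exact decide (x ∉ S)

/-- The weight of a spin configuration: the product, over all interior edges (both sides enclosed),
of the weights `FP.ew`; it is zero if the constraint is violated, and otherwise it is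
`t ^ (N(τ) + N(τ†))`. -/
noncomputable def wt (t : ℝ) (F : Finset (ℤ × ℤ)) (σ : Conf) : ℝ :=
  (∏ e ∈ F with e - (0, 1) ∈ F, hw t σ e) * ∏ e ∈ F with e - (1, 0) ∈ F, vw t σ e

/-- The height representation in the domain enclosed by `p`: the probability measure on the spin
configurations `(τ, τ†)` with `τ = 1` on `p` (and all spins equal to `1` outside) with
probabilities proportional to the weights. -/
noncomputable def law (t : ℝ) {n : ℕ} (p : ZMod n → ℤ × ℤ) (F : Finset (ℤ × ℤ)) : Measure Conf :=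
  ∑ S ∈ (free p F).powerset, ENNReal.ofReal
    (wt t F (conf S) / ∑ S' ∈ (free p F).powerset, wt t F (conf S')) • Measure.dirac (conf S)

/-- `H` is the height function of `(τ, τ†)`: it is `0` on the polygon, and
`H(f) - H(v) = τ(v) τ†(f) / 2` whenever the vertex `v` is a corner of the enclosed face `f`. -/
def IsHt {n : ℕ} (p : ZMod n → ℤ × ℤ) (F : Finset (ℤ × ℤ)) (σ : Conf) (H : Site → ℝ) : Prop :=
  (∀ i, H (Sum.inl (p i)) = 0) ∧
  ∀ f ∈ F, ∀ a b : ℤ, (a = 0 ∨ a = 1) → (b = 0 ∨ b = 1) →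
    H (Sum.inr f) - H (Sum.inl (f.1 + a, f.2 + b)) =
      1 / 2 * sp (σ (Sum.inl (f.1 + a, f.2 + b))) * sp (σ (Sum.inr f))

/-- `H_δ(φ) = δ² ∑_v H(v) φ(δ v)`, the sum being over the vertices of the graph. -/
noncomputable def fldD (F : Finset (ℤ × ℤ)) (H : Site → ℝ) (δ : ℝ) (φ : ℝ × ℝ → ℝ) : ℝ :=
  δ ^ 2 * ∑ v ∈ verts F, H (Sum.inl v) * φ (δ * v.1, δ * v.2)

/-- `⟨φ, (-Δ_D)⁻¹ ψ⟩`, by polarisation of the quadratic form `PT.V`. -/
noncomputable def dirCov (D : Set (ℝ × ℝ)) (φ ψ : ℝ × ℝ → ℝ) : ℝ :=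
  (V D (fun z => φ z + ψ z) - V D (fun z => φ z - ψ z)) / 4

/-- Lattice polygons `p n` of mesh `δ n → 0` approximating the domain `D`: the vertices of the
polygons are eventually within any given distance of `D`, and every compact subset of `D` is
eventually enclosed. (The first condition follows from the uniform convergence of the boundary
curves.) -/
structure Approx (D : Set (ℝ × ℝ)) (δ : ℕ → ℝ) (N : ℕ → ℕ) (p : ∀ n, ZMod (N n) → ℤ × ℤ)
    (F : ℕ → Finset (ℤ × ℤ)) : Prop where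
  pos : ∀ n, 0 < δ n
  lim : Tendsto δ atTop (𝓝 0)
  poly : ∀ n, IsPolygon (p n)
  encl : ∀ n, Encloses (p n) (F n)
  near : ∀ ε > 0, ∀ᶠ n in atTop, ∀ i, ∃ z ∈ D, dist (δ n * (p n i).1, δ n * (p n i).2) z < ε
  cpt : ∀ K ⊆ D, IsCompact K → ∀ᶠ n in atTop, ∀ z ∈ K, (⌊z.1 / δ n⌋, ⌊z.2 / δ n⌋) ∈ F n

/-- The conclusion: convergence in law of the height function, tested against finitely many test
functions, to the centred Gaussian vector whose covariance is `s²` times that of the Gaussian free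
field with covariance `2π (-Δ_D)⁻¹`. -/
def Conv (t s : ℝ) (D : Set (ℝ × ℝ)) : Prop :=
  ∀ (δ : ℕ → ℝ) (N : ℕ → ℕ) (p : ∀ n, ZMod (N n) → ℤ × ℤ) (F : ℕ → Finset (ℤ × ℤ)),
    Approx D δ N p F →
    ∃ _ : ∀ n, IsProbabilityMeasure (law t (p n) (F n)),
      (∀ n, ∀ᵐ σ ∂law t (p n) (F n), ∃ H, IsHt (p n) (F n) σ H) ∧
      ∀ H : ∀ _ : ℕ, Conf → Site → ℝ, (∀ n, ∀ᵐ σ ∂law t (p n) (F n), IsHt (p n) (F n) σ (H n σ)) →
      ∀ (k : ℕ) (φ : Fin k → ℝ × ℝ → ℝ), (∀ j, TestOn D (φ j)) →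
        (Matrix.of (fun i j => s ^ 2 * (2 * Real.pi * dirCov D (φ i) (φ j)))).PosSemidef ∧
        TendstoInDistribution (fun (n : ℕ) (σ : Conf) =>
          (WithLp.toLp 2 (fun j => fldD (F n) (H n σ) (δ n) (φ j)) : EuclideanSpace ℝ (Fin k)))
          atTop (id : EuclideanSpace ℝ (Fin k) → EuclideanSpace ℝ (Fin k))
          (fun n => law t (p n) (F n))
          (multivariateGaussian 0
            (Matrix.of (fun i j => s ^ 2 * (2 * Real.pi * dirCov D (φ i) (φ j)))))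

end Vale.Agent.P145.Dom
end

section

/-!
`V D` is a quadratic form on the test functions; convergence of the characteristic functions of
all single test functions gives the joint convergence in law to the centred Gaussian vector.
-/

namespace Vale.Agent.P145.Dom

open Finset Filter Topology MeasureTheory ProbabilityTheory Vale.Agent.P145.FP
  Vale.Agent.P145.PT

/-! ### Abstract quadratic forms -/

/-- An additive function on the line with a quadratic bound is linear. -/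
theorem lin_of_bound {f : ℝ → ℝ} (hadd : ∀ s t, f (s + t) = f s + f t) {a b : ℝ}
    (hb : ∀ t, |f t| ≤ a + b * t ^ 2) (t : ℝ) : f t = t * f 1 := by
  set F : ℝ →+ ℝ := AddMonoidHom.mk' f hadd with hF
  have hnat : ∀ (n : ℕ) (s : ℝ), f (n * s) = n * f s := by
    intro n s
    have := map_nsmul F n s
    simpa only [hF, nsmul_eq_mul, AddMonoidHom.mk'_apply] using this
  have hint : ∀ (n : ℤ) (s : ℝ), f (n * s) = n * f s := by
    intro n s
    have := map_zsmul F n s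
    simpa [hF, zsmul_eq_mul] using this
  have hb0 : 0 ≤ a := by
    have := (abs_nonneg _).trans (hb 0)
    simpa only [ge_iff_le, ne_eq, OfNat.ofNat_ne_zero, not_false_eq_true, zero_pow, mul_zero, add_zero] using this
  -- the bound for `g t = f t - t * f 1` on `[0, 1]`
  have hg : ∀ (n : ℕ), (n : ℝ) * |f t - t * f 1| ≤ a + |b| + |f 1| := by
    intro n
    have h1 : (n : ℝ) * (f t - t * f 1) = f (Int.fract (n * t)) - Int.fract (n * t) * f 1 := by
      have h2 : f (n * t) = f (Int.fract (n * t)) + (⌊(n : ℝ) * t⌋ : ℤ) * f 1 := by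
        conv_lhs => rw [← Int.fract_add_floor ((n : ℝ) * t)]
        rw [hadd]
        congr 1
        have := hint ⌊(n : ℝ) * t⌋ 1
        rwa [mul_one] at this
      have h3 := hnat n t
      have h4 : (n : ℝ) * t = Int.fract ((n : ℝ) * t) + (⌊(n : ℝ) * t⌋ : ℤ) :=
        (Int.fract_add_floor _).symm
      have h5 : (n : ℝ) * (f t - t * f 1) = f (n * t) - ((n : ℝ) * t) * f 1 := by
        rw [h3]; ring
      rw [h5, h2]
      conv_lhs => rw [h4]
      rw [Int.fract_add_intCast, Int.fract_fract, Int.floor_add_intCast, Int.floor_fract]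
      push_cast
      ring
    have h6 : (n : ℝ) * |f t - t * f 1| = |(n : ℝ) * (f t - t * f 1)| := by
      rw [abs_mul, Nat.abs_cast]
    rw [h6, h1]
    set u := Int.fract ((n : ℝ) * t) with hu
    have hu0 : 0 ≤ u := Int.fract_nonneg _
    have hu1 : u < 1 := Int.fract_lt_one _
    have h7 := hb u
    have h8 : |f u - u * f 1| ≤ |f u| + |u * f 1| := abs_sub _ _
    have h9 : |u * f 1| ≤ |f 1| := by
      rw [abs_mul, abs_of_nonneg hu0]
      exact mul_le_of_le_one_left (abs_nonneg _) hu1.le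
    have h10 : b * u ^ 2 ≤ |b| := by
      have h11 : u ^ 2 ≤ 1 := by nlinarith only [hu1, hu0]
      calc b * u ^ 2 ≤ |b| * u ^ 2 := mul_le_mul_of_nonneg_right (le_abs_self _) (sq_nonneg _)
        _ ≤ |b| * 1 := mul_le_mul_of_nonneg_left h11 (abs_nonneg _)
        _ = |b| := mul_one _
    linarith only [h7, h8, h9, h10]
  by_contra hne
  have hpos : 0 < |f t - t * f 1| := abs_pos.2 (sub_ne_zero.2 hne)
  obtain ⟨n, hn⟩ := exists_nat_gt ((a + |b| + |f 1|) / |f t - t * f 1|)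
  rw [div_lt_iff₀ hpos] at hn
  exact absurd (hg n) (not_le.2 hn)

section Abstract

variable {E : Type*} [AddCommGroup E] [Module ℝ E] {Q : E → ℝ}
  (hpar : ∀ x y, Q (x + y) + Q (x - y) = 2 * Q x + 2 * Q y)
  (hsm : ∀ (t : ℝ) x, Q (t • x) = t ^ 2 * Q x) (hnn : ∀ x, 0 ≤ Q x)

include hsm in
theorem par_symm (x y : E) : (Q (x + y) - Q (x - y)) / 4 = (Q (y + x) - Q (y - x)) / 4 := by
  have h1 : Q (y - x) = Q (x - y) := by
    have := hsm (-1) (x - y)
    rw [neg_one_smul, neg_sub] at this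
    rw [this]; norm_num
  rw [h1, add_comm x y]

omit [Module ℝ E] in
include hpar in
theorem par_add (x y z : E) : (Q (x + y + z) - Q (x + y - z)) / 4 =
    (Q (x + z) - Q (x - z)) / 4 + (Q (y + z) - Q (y - z)) / 4 := by
  have h1 := hpar (x + y) z
  have h2 := hpar (x - z) y
  have h3 := hpar x (y + z)
  have h4 := hpar x z
  have h5 := hpar y z
  have e1 : x - z + y = x + y - z := by abel
  have e2 : x - z - y = x - (y + z) := by abel
  have e3 : x + (y + z) = x + y + z := by abel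
  rw [e1, e2] at h2
  rw [e3] at h3
  linarith

include hpar hsm hnn

theorem par_smul (t : ℝ) (x z : E) : (Q (t • x + z) - Q (t • x - z)) / 4 =
    t * ((Q (x + z) - Q (x - z)) / 4) := by
  have key := lin_of_bound (f := fun t => (Q (t • x + z) - Q (t • x - z)) / 4)
    (a := Q z / 2) (b := Q x / 2) (fun s t => by
      rw [add_smul]
      exact par_add hpar (s • x) (t • x) z) (fun t => by
      have h1 := hpar (t • x) z
      rw [hsm t x] at h1
      have h2 := hnn (t • x + z)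
      have h3 := hnn (t • x - z)
      rw [abs_le]
      constructor <;> linarith only [h1, h2, h3]) t
  simpa only [one_smul] using key

theorem par_sum {ι : Type*} (s : Finset ι) (c : ι → ℝ) (v : ι → E) :
    Q (∑ i ∈ s, c i • v i) = ∑ i ∈ s, ∑ j ∈ s, c i * c j *
      ((Q (v i + v j) - Q (v i - v j)) / 4) := by
  classical
  set B : E → E → ℝ := fun x y => (Q (x + y) - Q (x - y)) / 4 with hB
  have hz : ∀ z, B 0 z = 0 := fun z => by
    have h := par_smul hpar hsm hnn 0 0 z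
    rw [zero_smul, zero_mul] at h
    exact h
  have hsumL : ∀ (u : ι → E) (z : E), B (∑ i ∈ s, c i • u i) z = ∑ i ∈ s, c i * B (u i) z := by
    intro u z
    induction s using Finset.induction_on with
    | empty => rw [Finset.sum_empty, Finset.sum_empty]; exact hz z
    | insert i s hi ih =>
      rw [Finset.sum_insert hi, Finset.sum_insert hi, ← ih, ← par_smul hpar hsm hnn (c i) (u i) z]
      exact par_add hpar _ _ _
  have hsymm : ∀ x y, B x y = B y x := fun x y => par_symm hsm x y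
  have hself : ∀ x, Q x = B x x := fun x => by
    have h1 := hsm 2 x
    have h2 := hsm 0 x
    rw [zero_smul] at h2
    rw [two_smul] at h1
    simp only [hB, sub_self, h1, h2]
    ring
  rw [hself, hsumL]
  refine Finset.sum_congr rfl fun i _ => ?_
  rw [hsymm, hsumL, Finset.mul_sum]
  refine Finset.sum_congr rfl fun j _ => ?_
  rw [hsymm]
  ring

end Abstract

/-! ### The form `V` -/

theorem energy_smul' {D : Set (ℝ × ℝ)} {ψ : ℝ × ℝ → ℝ} (hψ : TestOn D ψ) (t : ℝ) :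
    energy (fun z => t * ψ z) = t ^ 2 * energy ψ := by
  unfold energy
  rw [← integral_const_mul]
  congr 1; funext z
  rw [dx_smul hψ.sm, dy_smul hψ.sm]; ring

theorem energy_par {D : Set (ℝ × ℝ)} {f g : ℝ × ℝ → ℝ} (hf : TestOn D f) (hg : TestOn D g) :
    energy (fun z => f z + g z) + energy (fun z => f z - g z) = 2 * energy f + 2 * energy g := by
  unfold energy
  rw [← integral_const_mul, ← integral_const_mul, ← integral_add (hf.add hg).intE (hf.sub hg).intE,
    ← integral_add (hf.intE.const_mul 2) (hg.intE.const_mul 2)]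
  congr 1; funext z
  have e1 : (fun z => f z - g z) = fun z => f z + (-1) * g z := by funext w; ring
  rw [e1, dx_add hf.sm hg.sm, dy_add hf.sm hg.sm, dx_add hf.sm (hg.smul (-1)).sm,
    dy_add hf.sm (hg.smul (-1)).sm, dx_smul hg.sm, dy_smul hg.sm]
  ring

theorem V_par {D : Set (ℝ × ℝ)} (hD : Bornology.IsBounded D) {φ ψ : ℝ × ℝ → ℝ}
    (hφ : TestOn D φ) (hψ : TestOn D ψ) :
    V D (fun z => φ z + ψ z) + V D (fun z => φ z - ψ z) = 2 * V D φ + 2 * V D ψ := by
  have hneg : ∀ {f : ℝ × ℝ → ℝ}, TestOn D f → ∀ (t : ℝ) (a : ℝ × ℝ → ℝ),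
      ∫ z, f z * (t * a z) = t * ∫ z, f z * a z := by
    intro f _ t a
    rw [← integral_const_mul]
    congr 1; funext z; ring
  have exp1 : ∀ {f a b : ℝ × ℝ → ℝ}, TestOn D f → TestOn D a → TestOn D b →
      ∫ z, f z * (a z + b z) = (∫ z, f z * a z) + ∫ z, f z * b z := by
    intro f a b hf ha hb
    rw [← integral_add (hf.intMul ha.cont) (hf.intMul hb.cont)]
    congr 1; funext z; ring
  have exp2 : ∀ {f a b : ℝ × ℝ → ℝ}, TestOn D f → TestOn D a → TestOn D b →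
      ∫ z, f z * (a z - b z) = (∫ z, f z * a z) - ∫ z, f z * b z := by
    intro f a b hf ha hb
    rw [← integral_sub (hf.intMul ha.cont) (hf.intMul hb.cont)]
    congr 1; funext z; ring
  have exp3 : ∀ {f g a : ℝ × ℝ → ℝ}, TestOn D f → TestOn D g → TestOn D a →
      ∫ z, (f z + g z) * a z = (∫ z, f z * a z) + ∫ z, g z * a z := by
    intro f g a hf hg ha
    rw [← integral_add (hf.intMul ha.cont) (hg.intMul ha.cont)]
    congr 1; funext z; ring
  have exp4 : ∀ {f g a : ℝ × ℝ → ℝ}, TestOn D f → TestOn D g → TestOn D a →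
      ∫ z, (f z - g z) * a z = (∫ z, f z * a z) - ∫ z, g z * a z := by
    intro f g a hf hg ha
    rw [← integral_sub (hf.intMul ha.cont) (hg.intMul ha.cont)]
    congr 1; funext z; ring
  apply le_antisymm
  · -- `V(φ+ψ) ≤ 2 V φ + 2 V ψ - V(φ-ψ)`
    have h1 : V D (fun z => φ z + ψ z) ≤ 2 * V D φ + 2 * V D ψ - V D (fun z => φ z - ψ z) := by
      refine V_le fun a ha => ?_
      rw [le_sub_iff_add_le, add_comm, ← le_sub_iff_add_le]
      refine V_le fun b hb => ?_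
      rw [le_sub_iff_add_le]
      have k1 := le_V hD hφ ((ha.add hb).smul (1 / 2))
      have k2 := le_V hD hψ ((ha.sub hb).smul (1 / 2))
      have e1 := energy_smul' (ha.add hb) (1 / 2)
      have e2 := energy_smul' (ha.sub hb) (1 / 2)
      have e3 := energy_par ha hb
      rw [e1, hneg hφ (1 / 2) (fun z => a z + b z), exp1 hφ ha hb] at k1
      rw [e2, hneg hψ (1 / 2) (fun z => a z - b z), exp2 hψ ha hb] at k2
      rw [exp3 hφ hψ ha, exp4 hφ hψ hb]
      (clear * - k1 k2 e3; linarith)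
    linarith only [h1]
  · have h1 : V D φ ≤ (V D (fun z => φ z + ψ z) + V D (fun z => φ z - ψ z) - 2 * V D ψ) / 2 := by
      refine V_le fun a ha => ?_
      have h2 : V D ψ ≤ (V D (fun z => φ z + ψ z) + V D (fun z => φ z - ψ z) -
          2 * ((2 * ∫ z, φ z * a z) - energy a)) / 2 := by
        refine V_le fun b hb => ?_
        have k1 := le_V hD (hφ.add hψ) (ha.add hb)
        have k2 := le_V hD (hφ.sub hψ) (ha.sub hb)
        have e3 := energy_par ha hb
        rw [exp3 hφ hψ (ha.add hb), exp1 hφ ha hb, exp1 hψ ha hb] at k1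
        rw [exp4 hφ hψ (ha.sub hb), exp2 hφ ha hb, exp2 hψ ha hb] at k2
        linarith only [k1, k2, e3]
      linarith
    linarith

theorem V_smul {D : Set (ℝ × ℝ)} (hD : Bornology.IsBounded D) {φ : ℝ × ℝ → ℝ}
    (hφ : TestOn D φ) (t : ℝ) : V D (fun z => t * φ z) = t ^ 2 * V D φ := by
  have key : ∀ (t : ℝ), t ≠ 0 → ∀ φ, TestOn D φ → V D (fun z => t * φ z) ≤ t ^ 2 * V D φ := by
    intro t ht φ hφ
    refine V_le fun a ha => ?_
    have k := le_V hD hφ (ha.smul t⁻¹)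
    rw [energy_smul' ha] at k
    have e1 : ∫ z, φ z * (t⁻¹ * a z) = t⁻¹ * ∫ z, φ z * a z := by
      rw [← integral_const_mul]
      congr 1; funext z; ring
    have e2 : ∫ z, t * φ z * a z = t * ∫ z, φ z * a z := by
      rw [← integral_const_mul]
      congr 1; funext z; ring
    rw [e1] at k
    rw [e2]
    have h1 := mul_le_mul_of_nonneg_left k (sq_nonneg t)
    have h2 : t ^ 2 * (2 * (t⁻¹ * ∫ z, φ z * a z) - t⁻¹ ^ 2 * energy a) =
        2 * (t * ∫ z, φ z * a z) - energy a := by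
      field_simp
    linarith
  rcases eq_or_ne t 0 with rfl | ht
  · have h0 : (fun z => (0 : ℝ) * φ z) = fun _ => 0 := by funext z; ring
    rw [h0]
    have h1 : V D (fun _ => (0 : ℝ)) ≤ 0 := V_le fun a _ => by
      have := energy_nonneg a
      simp only [zero_mul, integral_zero, mul_zero]
      linarith only [this]
    have h2 := V_nonneg hD (TestOn.zero D)
    have h3 : V D (fun _ => (0 : ℝ)) = 0 := le_antisymm h1 h2
    rw [h3]; ring
  · apply le_antisymm (key t ht φ hφ)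
    have h1 := key t⁻¹ (inv_ne_zero ht) _ (hφ.smul t)
    have h2 : (fun z => t⁻¹ * (t * φ z)) = φ := by funext z; field_simp
    rw [h2] at h1
    have h3 := mul_le_mul_of_nonneg_left h1 (sq_nonneg t)
    have h4 : t ^ 2 * (t⁻¹ ^ 2 * V D fun z => t * φ z) = V D fun z => t * φ z := by
      field_simp
    linarith only [h3, h4]

/-- The test functions as a vector space. -/
def testSub (D : Set (ℝ × ℝ)) : Submodule ℝ (ℝ × ℝ → ℝ) where
  carrier := {φ | TestOn D φ}
  add_mem' := fun ha hb => ha.add hb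
  zero_mem' := TestOn.zero D
  smul_mem' := fun c _ hx => hx.smul c

/-- `V` of a linear combination. -/
theorem V_sum {D : Set (ℝ × ℝ)} (hD : Bornology.IsBounded D) {k : ℕ} {φ : Fin k → ℝ × ℝ → ℝ}
    (hφ : ∀ j, TestOn D (φ j)) (x : Fin k → ℝ) :
    V D (fun z => ∑ j, x j * φ j z) = ∑ i, ∑ j, x i * x j * dirCov D (φ i) (φ j) := by
  have key := par_sum (E := testSub D) (Q := fun f => V D f.1)
    (fun f g => V_par hD f.2 g.2) (fun t f => V_smul hD f.2 t) (fun f => V_nonneg hD f.2)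
    Finset.univ x (fun j => ⟨φ j, hφ j⟩)
  have e : ((∑ j, x j • (⟨φ j, hφ j⟩ : testSub D) : testSub D) : ℝ × ℝ → ℝ) =
      fun z => ∑ j, x j * φ j z := by
    funext z
    simp only [AddSubmonoidClass.coe_finsetSum, SetLike.val_smul, Finset.sum_apply, Pi.smul_apply, smul_eq_mul]
  rw [e] at key
  exact key

theorem TestOn.sum {D : Set (ℝ × ℝ)} {k : ℕ} {φ : Fin k → ℝ × ℝ → ℝ}
    (hφ : ∀ j, TestOn D (φ j)) (x : Fin k → ℝ) : TestOn D (fun z => ∑ j, x j * φ j z) := by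
  have h : (∑ j, x j • (⟨φ j, hφ j⟩ : testSub D) : testSub D).1 ∈ testSub D := Subtype.property _
  have e : ((∑ j, x j • (⟨φ j, hφ j⟩ : testSub D) : testSub D) : ℝ × ℝ → ℝ) =
      fun z => ∑ j, x j * φ j z := by
    funext z
    simp only [AddSubmonoidClass.coe_finsetSum, SetLike.val_smul, Finset.sum_apply, Pi.smul_apply, smul_eq_mul]
  rw [e] at h
  exact h

theorem dirCov_symm {D : Set (ℝ × ℝ)} (hD : Bornology.IsBounded D) {φ ψ : ℝ × ℝ → ℝ}
    (hφ : TestOn D φ) (hψ : TestOn D ψ) : dirCov D φ ψ = dirCov D ψ φ :=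
  par_symm (E := testSub D) (Q := fun f => V D f.1)
    (fun t f => V_smul hD f.2 t) ⟨φ, hφ⟩ ⟨ψ, hψ⟩

theorem dirCov_dot {D : Set (ℝ × ℝ)} (hD : Bornology.IsBounded D) (c : ℝ) {k : ℕ}
    {φ : Fin k → ℝ × ℝ → ℝ} (hφ : ∀ j, TestOn D (φ j)) (x : Fin k → ℝ) :
    x ⬝ᵥ (Matrix.of fun i j => c * dirCov D (φ i) (φ j)).mulVec x =
      c * V D (fun z => ∑ j, x j * φ j z) := by
  rw [V_sum hD hφ, Finset.mul_sum]
  simp only [dotProduct, Matrix.mulVec, Matrix.of_apply, Finset.mul_sum]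
  exact Finset.sum_congr rfl fun i _ => Finset.sum_congr rfl fun j _ => by ring

theorem dirCov_posSemidef {D : Set (ℝ × ℝ)} (hD : Bornology.IsBounded D) {c : ℝ} (hc : 0 ≤ c)
    {k : ℕ} {φ : Fin k → ℝ × ℝ → ℝ} (hφ : ∀ j, TestOn D (φ j)) :
    (Matrix.of fun i j => c * dirCov D (φ i) (φ j)).PosSemidef := by
  refine Matrix.PosSemidef.of_dotProduct_mulVec_nonneg ?_ fun θ => ?_
  · ext i j
    simp [Matrix.conjTranspose_apply, dirCov_symm hD (hφ i) (hφ j)]
  · rw [star_trivial, dirCov_dot hD c hφ θ]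
    exact mul_nonneg hc (V_nonneg hD (TestOn.sum hφ θ))

/-! ### The wrapper for the law in a polygon -/

theorem JordanDomain.isBounded {D : Set (ℝ × ℝ)} (h : JordanDomain D) :
    Bornology.IsBounded D := by
  obtain ⟨Φ, rfl⟩ := h
  have hK : IsCompact (Metric.closedBall (0 : ℝ × ℝ) 1) := isCompact_closedBall _ _
  refine (hK.image Φ.continuous).isBounded.subset (Set.image_mono ?_)
  intro z hz
  simp only [Set.mem_ofPred_eq] at hz
  rw [mem_closedBall_zero_iff, Prod.norm_def, sup_le_iff, Real.norm_eq_abs, Real.norm_eq_abs,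
    abs_le, abs_le]
  constructor <;> constructor <;> nlinarith only [hz]

theorem JordanDomain.isOpen {D : Set (ℝ × ℝ)} (h : JordanDomain D) : IsOpen D := by
  obtain ⟨Φ, rfl⟩ := h
  exact Φ.isOpenMap _ (isOpen_lt (by fun_prop) continuous_const)

end Vale.Agent.P145.Dom
end

section

/-!
P145, block F-TOP, leaf K3: a test function is a finite sum of test functions supported in cells.
-/

namespace Vale.Agent.P153.F.Top

open Filter Topology Set MeasureTheory
open Vale.Agent.P145.PT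
open scoped Manifold ContDiff

private theorem cells_isOpen (a b c : ℝ) : IsOpen (cell a b c) := by
  have h : cell a b c = {z : ℝ × ℝ | a < c1 z} ∩ {z | b < c2 z} ∩ {z | c1 z + c2 z < c} := by
    ext z
    simp only [cell, Set.mem_setOf_eq, Set.mem_inter_iff]
    tauto
  have k1 : Continuous c1 := by unfold c1; fun_prop
  have k2 : Continuous c2 := by unfold c2; fun_prop
  rw [h]
  exact ((isOpen_lt continuous_const k1).inter (isOpen_lt continuous_const k2)).inter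
    (isOpen_lt (k1.add k2) continuous_const)

private theorem cells_small {D : Set (ℝ × ℝ)} (hD : IsOpen D) {z : ℝ × ℝ} (hz : z ∈ D) :
    ∃ e : ℝ, 0 < e ∧ ccell (c1 z - e) (c2 z - e) (c1 z + c2 z + e) ⊆ D := by
  obtain ⟨r, hr, hb⟩ := Metric.nhds_basis_closedBall.mem_iff.1 (hD.mem_nhds hz)
  refine ⟨r / 3, by positivity, fun w hw => hb ?_⟩
  obtain ⟨h1, h2, h3⟩ := hw
  have hs0 : (0 : ℝ) < √3 := by positivity
  have hs2 : √3 * √3 = 3 := Real.mul_self_sqrt (by norm_num)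
  have hs : √3 < 2 := by nlinarith only [hs2]
  have e2 : ∀ u : ℝ × ℝ, u.2 = √3 / 2 * c2 u := fun u => by
    unfold c2; field_simp
  have e1 : ∀ u : ℝ × ℝ, u.1 = c1 u + c2 u / 2 := fun u => by
    unfold c1 c2; ring
  rw [Metric.mem_closedBall, Prod.dist_eq, Real.dist_eq, Real.dist_eq, e1 w, e1 z, e2 w, e2 z]
  have h4 : |c2 w - c2 z| ≤ 2 * (r / 3) := abs_le.2 ⟨by linarith only [hr, h2], by linarith only [h1, h3]⟩
  refine max_le (abs_le.2 ⟨by linarith only [hr, h1, h2], by linarith⟩) ?_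
  rw [← mul_sub, abs_mul, abs_of_pos (by positivity : (0 : ℝ) < √3 / 2)]
  nlinarith only [hr, hs, hs0, h4]

/-- **Leaf K3**: decomposition of a test function into test functions of cells. -/
theorem exists_cells {D : Set (ℝ × ℝ)} (hD : IsOpen D) {ψ : ℝ × ℝ → ℝ} (hψ : TestOn D ψ) :
    ∃ (m : ℕ) (g : Fin m → ℝ × ℝ → ℝ) (a b c : Fin m → ℝ),
      (∀ i, a i + b i < c i ∧ ccell (a i) (b i) (c i) ⊆ D ∧
        TestOn (cell (a i) (b i) (c i)) (g i)) ∧ ∀ z, ψ z = ∑ i, g i z := by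
  classical
  have hK : IsCompact (tsupport ψ) := hψ.2.1
  have hKD : tsupport ψ ⊆ D := hψ.2.2
  choose! e he heD using fun (z : ℝ × ℝ) (hz : z ∈ D) => cells_small hD hz
  let U : ℝ × ℝ → Set (ℝ × ℝ) := fun z => cell (c1 z - e z) (c2 z - e z) (c1 z + c2 z + e z)
  obtain ⟨t, htK, htc⟩ := hK.elim_nhds_subcover U (fun z hz => (cells_isOpen _ _ _).mem_nhds (by
    have h := he z (hKD hz)
    exact ⟨by linarith only [h], by linarith only [h], by linarith only [h]⟩))
  -- enumerate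
  let q : Fin t.card ≃ t := t.equivFin.symm
  let c : Fin t.card → ℝ × ℝ := fun i => (q i : ℝ × ℝ)
  have hcK : ∀ i, c i ∈ tsupport ψ := fun i => htK _ (q i).2
  have hcov : tsupport ψ ⊆ ⋃ i, U (c i) := by
    intro z hz
    obtain ⟨x, hx, hxz⟩ := Set.mem_iUnion₂.1 (htc hz)
    refine Set.mem_iUnion.2 ⟨q.symm ⟨x, hx⟩, ?_⟩
    simpa [c] using hxz
  obtain ⟨f, hf⟩ := SmoothPartitionOfUnity.exists_isSubordinate 𝓘(ℝ, ℝ × ℝ)
    (isClosed_tsupport ψ) (fun i => U (c i)) (fun i => cells_isOpen _ _ _) hcov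
  refine ⟨t.card, fun i z => ψ z * f i z, fun i => c1 (c i) - e (c i),
    fun i => c2 (c i) - e (c i), fun i => c1 (c i) + c2 (c i) + e (c i), fun i => ?_, fun z => ?_⟩
  · have h := he (c i) (hKD (hcK i))
    refine ⟨by linarith only [h], heD _ (hKD (hcK i)), ?_, ?_, ?_⟩
    · have h1 : ContDiff ℝ ∞ (fun z => f i z) := (f i).contMDiff.contDiff
      exact hψ.1.mul h1
    · exact hψ.2.1.mul_right
    · exact (tsupport_mul_subset_right).trans (hf i)
  · by_cases hz : z ∈ tsupport ψ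
    · rw [← Finset.mul_sum]
      have h1 : ∑ᶠ i, f i z = 1 := f.sum_eq_one hz
      rw [finsum_eq_sum_of_fintype] at h1
      rw [h1, mul_one]
    · have h0 : ψ z = 0 := image_eq_zero_of_notMem_tsupport hz
      simp only [h0, zero_mul, Finset.sum_const_zero]

end Vale.Agent.P153.F.Top
end

section

/-! P153, product Schwinger-Dyson, half-plane statement: complex Cauchy-Schwarz inequality. -/

namespace Vale.Agent.P153.F.SD

open Finset Filter Topology MeasureTheory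
open Vale.Agent.P145.FA (gauss_sum PolyBdd LegForm extrap)

variable {P : Measure (Fld)}

lemma Adm.comp_clm {A : Set (ℤ × ℤ)} {W : Hgt → ℂ} (hW : Adm P A W) (L : ℂ →L[ℝ] ℝ)
    (hL : ∀ z, |L z| ≤ ‖z‖) : Adm P A (fun h => L (W h)) := by
  obtain ⟨Λ, h1, h2⟩ := hW.loc
  obtain ⟨C, hC⟩ := hW.bdd
  exact ⟨⟨Λ, h1, fun h h' hh => congrArg L (h2 h h' hh)⟩, ⟨C, fun h => (hL _).trans (hC h)⟩,
    L.integrable_comp hW.int⟩

lemma Adm.re {A : Set (ℤ × ℤ)} {W : Hgt → ℂ} (hW : Adm P A W) : Adm P A (fun h => (W h).re) :=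
  hW.comp_clm Complex.reCLM Complex.abs_re_le_norm

lemma Adm.im {A : Set (ℤ × ℤ)} {W : Hgt → ℂ} (hW : Adm P A W) : Adm P A (fun h => (W h).im) :=
  hW.comp_clm Complex.imCLM Complex.abs_im_le_norm

/-- real product of an upper and a lower functional -/
lemma rp_cross (hI : Inv P dY) (hR : RP P dY) {F G : Hgt → ℝ} (hF : Adm P {q | 0 ≤ q.2} F)
    (hG : Adm P {q | q.2 ≤ 0} G) :
    |∫ h, F h * G h ∂(mu0 P)| ≤ √(∫ h, F h * F (pb (dY.θ 0) h) ∂(mu0 P)) *
      √(∫ h, G h ^ 2 ∂(mu0 P)) := by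
  have hD : ∀ q ∈ {q : ℤ × ℤ | q.2 ≤ 0}, dY.θ 0 q ∈ {q : ℤ × ℤ | 0 ≤ q.2} := by
    intro q hq
    simp only [Set.mem_ofPred_eq, dY] at hq ⊢
    omega
  have hG' := hG.refl hI hD
  have h1 := rp_cs hI hR hF hG'
  simp only [pb_pb] at h1
  have hA : 0 ≤ ∫ h, F h * F (pb (dY.θ 0) h) ∂(mu0 P) := hR 0 F hF
  have iG2 : Integrable (fun h => G h ^ 2) (mu0 P) := by
    have := hG.int_mul hG
    simpa only [← pow_two] using this
  have iG2' : Integrable (fun h => G (pb (dY.θ 0) h) ^ 2) (mu0 P) := by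
    have := hG'.int_mul hG'
    simpa only [← pow_two] using this
  have hB : ∫ h, G (pb (dY.θ 0) h) * G h ∂(mu0 P) ≤ ∫ h, G h ^ 2 ∂(mu0 P) := by
    have e : ∫ h, G (pb (dY.θ 0) h) ^ 2 ∂(mu0 P) = ∫ h, G h ^ 2 ∂(mu0 P) := by
      have h2 := integral_map (μ := mu0 P) (φ := pb (dY.θ 0)) (measurable_pb _).aemeasurable
        (f := fun h => G h ^ 2) (by rw [hI.1 0]; exact iG2.1)
      rw [hI.1 0] at h2
      exact h2.symm
    have h3 : ∫ h, G (pb (dY.θ 0) h) * G h ∂(mu0 P) ≤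
        ∫ h, (1 / 2 * G (pb (dY.θ 0) h) ^ 2 + 1 / 2 * G h ^ 2) ∂(mu0 P) := by
      refine integral_mono (hG'.int_mul hG) ((iG2'.const_mul _).add (iG2.const_mul _)) fun h => ?_
      nlinarith only [sq_nonneg (G (pb (dY.θ 0) h) - G h)]
    rw [integral_add (iG2'.const_mul _) (iG2.const_mul _), integral_const_mul,
      integral_const_mul, e] at h3
    linarith
  rw [← Real.sqrt_mul hA]
  refine Real.abs_le_sqrt (h1.trans ?_)
  exact mul_le_mul_of_nonneg_left hB hA

/-- complex Cauchy-Schwarz inequality -/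
theorem rp_csC (hI : Inv P dY) (hR : RP P dY) {W G : Hgt → ℂ} (hW : Adm P {q | 0 ≤ q.2} W)
    (hG : Adm P {q | q.2 ≤ 0} G) :
    ‖∫ h, W h * G h ∂(mu0 P)‖ ^ 2 ≤
      4 * (∫ h, W h * (starRingEnd ℂ) (W (pb (dY.θ 0) h)) ∂(mu0 P)).re *
        ∫ h, ‖G h‖ ^ 2 ∂(mu0 P) := by
  have hU : ∀ q ∈ {q : ℤ × ℤ | 0 ≤ q.2}, dY.θ 0 q ∈ {q : ℤ × ℤ | q.2 ≤ 0} := by
    intro q hq
    simp only [Set.mem_ofPred_eq, dY] at hq ⊢
    omega
  have hW' := hW.refl hI hU
  set A1 := ∫ h, (W h).re * (W (pb (dY.θ 0) h)).re ∂(mu0 P) with hA1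
  set A2 := ∫ h, (W h).im * (W (pb (dY.θ 0) h)).im ∂(mu0 P) with hA2
  set B1 := ∫ h, (G h).re ^ 2 ∂(mu0 P) with hB1
  set B2 := ∫ h, (G h).im ^ 2 ∂(mu0 P) with hB2
  have a1 : 0 ≤ A1 := hR 0 _ hW.re
  have a2 : 0 ≤ A2 := hR 0 _ hW.im
  have b1 : 0 ≤ B1 := integral_nonneg fun h => sq_nonneg _
  have b2 : 0 ≤ B2 := integral_nonneg fun h => sq_nonneg _
  have i1 := hW.re.int_mul hG.re
  have i2 := hW.im.int_mul hG.im
  have i3 := hW.re.int_mul hG.im
  have i4 := hW.im.int_mul hG.re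
  have c1 := rp_cross hI hR hW.re hG.re
  have c2 := rp_cross hI hR hW.im hG.im
  have c3 := rp_cross hI hR hW.re hG.im
  have c4 := rp_cross hI hR hW.im hG.re
  have hint : ∫ h, W h * G h ∂(mu0 P) =
      ((∫ h, (W h).re * (G h).re ∂(mu0 P) - ∫ h, (W h).im * (G h).im ∂(mu0 P) : ℝ) : ℂ) +
      ((∫ h, (W h).re * (G h).im ∂(mu0 P) + ∫ h, (W h).im * (G h).re ∂(mu0 P) : ℝ) : ℂ) *
        Complex.I := by
    have hi1 : Integrable (fun h => (((W h).re * (G h).re - (W h).im * (G h).im : ℝ) : ℂ))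
        (mu0 P) := (i1.sub i2).ofReal
    have hi2 : Integrable (fun h => (((W h).re * (G h).im + (W h).im * (G h).re : ℝ) : ℂ))
        (mu0 P) := (i3.add i4).ofReal
    rw [← integral_sub i1 i2, ← integral_add i3 i4, ← integral_complex_ofReal,
      ← integral_complex_ofReal, ← integral_mul_const, ← integral_add hi1 (hi2.mul_const _)]
    refine integral_congr_ae (Eventually.of_forall fun h => ?_)
    simp only
    apply Complex.ext
    · simp
    · simp only [Complex.mul_im, Complex.ofReal_sub, Complex.ofReal_mul, Complex.ofReal_add, Complex.add_im, Complex.sub_im, Complex.ofReal_re, Complex.ofReal_im, mul_zero, zero_mul, add_zero, sub_self, Complex.add_re, Complex.mul_re, sub_zero, Complex.I_im, mul_one, Complex.I_re, zero_add]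
  have hQ : (∫ h, W h * (starRingEnd ℂ) (W (pb (dY.θ 0) h)) ∂(mu0 P)).re = A1 + A2 := by
    have hi : Integrable (fun h => W h * (starRingEnd ℂ) (W (pb (dY.θ 0) h))) (mu0 P) := by
      obtain ⟨C, hC⟩ := hW.bdd
      have hc : Integrable (fun h => (starRingEnd ℂ) (W (pb (dY.θ 0) h))) (mu0 P) :=
        Complex.conjCLE.integrable_comp_iff.2 hW'.int
      exact hc.bdd_mul hW.int.1 (Eventually.of_forall hC)
    have h1 := Complex.reCLM.integral_comp_comm hi
    have h2 : (∫ h, W h * (starRingEnd ℂ) (W (pb (dY.θ 0) h)) ∂(mu0 P)).re =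
        ∫ h, (W h * (starRingEnd ℂ) (W (pb (dY.θ 0) h))).re ∂(mu0 P) := h1.symm
    rw [h2, hA1, hA2, ← integral_add (hW.re.int_mul hW'.re) (hW.im.int_mul hW'.im)]
    refine integral_congr_ae (Eventually.of_forall fun h => ?_)
    simp
  have hG2 : ∫ h, ‖G h‖ ^ 2 ∂(mu0 P) = B1 + B2 := by
    have j1 : Integrable (fun h => (G h).re ^ 2) (mu0 P) := by
      have := hG.re.int_mul hG.re
      simpa only [← pow_two] using this
    have j2 : Integrable (fun h => (G h).im ^ 2) (mu0 P) := by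
      have := hG.im.int_mul hG.im
      simpa only [← pow_two] using this
    rw [hB1, hB2, ← integral_add j1 j2]
    refine integral_congr_ae (Eventually.of_forall fun h => ?_)
    simp only
    rw [← Complex.normSq_eq_norm_sq, Complex.normSq_apply]
    ring
  have hn : ‖∫ h, W h * G h ∂(mu0 P)‖ ≤ (√A1 + √A2) * (√B1 + √B2) := by
    rw [hint]
    refine (norm_add_le _ _).trans ?_
    rw [norm_mul, Complex.norm_I, mul_one, Complex.norm_real, Complex.norm_real,
      Real.norm_eq_abs, Real.norm_eq_abs]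
    have e1 := abs_sub (∫ h, (W h).re * (G h).re ∂(mu0 P)) (∫ h, (W h).im * (G h).im ∂(mu0 P))
    have e2 := abs_add_le (∫ h, (W h).re * (G h).im ∂(mu0 P))
      (∫ h, (W h).im * (G h).re ∂(mu0 P))
    linarith
  have hs1 := Real.sq_sqrt a1
  have hs2 := Real.sq_sqrt a2
  have ht1 := Real.sq_sqrt b1
  have ht2 := Real.sq_sqrt b2
  have h5 : (√A1 + √A2) ^ 2 ≤ 2 * (A1 + A2) := by
    nlinarith only [hs1, hs2, sq_nonneg (√A1 - √A2)]
  have h6 : (√B1 + √B2) ^ 2 ≤ 2 * (B1 + B2) := by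
    nlinarith only [ht1, ht2, sq_nonneg (√B1 - √B2)]
  rw [hQ, hG2]
  calc ‖∫ h, W h * G h ∂(mu0 P)‖ ^ 2 ≤ ((√A1 + √A2) * (√B1 + √B2)) ^ 2 :=
        pow_le_pow_left₀ (norm_nonneg _) hn 2
    _ = (√A1 + √A2) ^ 2 * (√B1 + √B2) ^ 2 := by ring
    _ ≤ (2 * (A1 + A2)) * (2 * (B1 + B2)) :=
        mul_le_mul h5 h6 (sq_nonneg _) (by (clear * - a1 a2; positivity))
    _ = 4 * (A1 + A2) * (B1 + B2) := by ring

end Vale.Agent.P153.F.SD
end

section

/-! P153, product Schwinger-Dyson: the half-plane statement. -/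

namespace Vale.Agent.P153.F.SD

open Finset Filter Topology MeasureTheory
open Vale.Agent.P145.FA (gauss_sum PolyBdd LegForm extrap)

variable {P : Measure (Fld)}

/-- the neutral exponentials -/
noncomputable def En (w u φ : (ℤ × ℤ) →₀ ℝ) (s t z : ℝ) (ω : Fld) : ℂ :=
  Complex.exp (Complex.I * ((ev (w - rf w + s • u - t • rf u + z • (rf φ - φ)) (pth ω) : ℝ) : ℂ))

lemma measurable_En (w u φ : (ℤ × ℤ) →₀ ℝ) (s t z : ℝ) : Measurable (En w u φ s t z) :=
  measurable_expc (measurable_evp _)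

lemma norm_En (w u φ : (ℤ × ℤ) →₀ ℝ) (s t z : ℝ) (ω : Fld) : ‖En w u φ s t z ω‖ = 1 :=
  norm_exp_ev _

lemma Zf_expand (w u φ : (ℤ × ℤ) →₀ ℝ) (α z : ℝ) (ω : Fld) :
    Zf w u φ α ω * Complex.exp (Complex.I *
      ((ev (rf φ) (pth ω) - ev φ (pth ω) : ℝ) : ℂ) * (z : ℂ)) =
    En w u φ 1 1 z ω - α * En w u φ 1 0 z ω - α * En w u φ 0 1 z ω + α ^ 2 * En w u φ 0 0 z ω := by
  have e : ∀ s t : ℝ, En w u φ s t z ω =
      Complex.exp (Complex.I * ((ev w (pth ω) - ev (rf w) (pth ω) : ℝ) : ℂ)) *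
      Complex.exp (Complex.I * ((s * ev u (pth ω) : ℝ) : ℂ)) *
      Complex.exp (Complex.I * ((t * -ev (rf u) (pth ω) : ℝ) : ℂ)) *
      Complex.exp (Complex.I * ((ev (rf φ) (pth ω) - ev φ (pth ω) : ℝ) : ℂ) * (z : ℂ)) := by
    intro s t
    unfold En
    rw [← Complex.exp_add, ← Complex.exp_add, ← Complex.exp_add]
    congr 1
    rw [ev_add, ev_smul, ev_sub, ev_sub, ev_add, ev_sub, ev_smul, ev_smul]
    push_cast
    ring
  rw [e, e, e, e]
  unfold Zf
  simp only [one_mul, zero_mul, Complex.ofReal_zero, mul_zero, Complex.exp_zero, mul_one]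
  ring

lemma gauss_fourier {K : ℝ} (hK : 0 < K) (x : ℝ) :
    ((Real.exp (-(x ^ 2 / (4 * K ^ 2))) : ℝ) : ℂ) =
      ((K / √Real.pi : ℝ) : ℂ) * ∫ z : ℝ, Complex.exp (Complex.I * (x : ℂ) * (z : ℂ)) *
        Complex.exp (-((K ^ 2 : ℝ) : ℂ) * (z : ℂ) ^ 2) := by
  have hb : 0 < (((K ^ 2 : ℝ) : ℂ)).re := by rw [Complex.ofReal_re]; positivity
  rw [fourierIntegral_gaussian hb (x : ℂ)]
  have hpi := Real.pi_pos
  have e1 : (((Real.pi : ℝ) : ℂ) / ((K ^ 2 : ℝ) : ℂ)) ^ (1 / 2 : ℂ) = ((√Real.pi / K : ℝ) : ℂ) := by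
    rw [← Complex.ofReal_div]
    have h2 : (((Real.pi / K ^ 2 : ℝ)) : ℂ) ^ (1 / 2 : ℂ) =
        (((Real.pi / K ^ 2) ^ (1 / 2 : ℝ) : ℝ) : ℂ) := by
      rw [Complex.ofReal_cpow (by positivity)]
      push_cast
      rfl
    rw [h2, ← Real.sqrt_eq_rpow, Real.sqrt_div hpi.le, Real.sqrt_sq hK.le]
  rw [e1, ← mul_assoc, ← Complex.ofReal_mul]
  have e2 : K / √Real.pi * (√Real.pi / K) = 1 := by
    have : √Real.pi ≠ 0 := (Real.sqrt_pos.2 hpi).ne'
    field_simp
  rw [e2, Complex.ofReal_one, one_mul, Complex.ofReal_exp]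
  congr 1
  push_cast
  ring

/-- integral of the gradient part against a Gaussian -/
lemma integral_Zf [IsProbabilityMeasure P] (w u φ : (ℤ × ℤ) →₀ ℝ) (α : ℝ) {K : ℝ} (hK : 0 < K) :
    ∫ ω, Zf w u φ α ω * ((Real.exp (-((ev (rf φ) (pth ω) - ev φ (pth ω)) ^ 2 / (4 * K ^ 2))) : ℝ) :
      ℂ) ∂P = ((K / √Real.pi : ℝ) : ℂ) * ∫ z : ℝ, (∫ ω, Zf w u φ α ω * Complex.exp (Complex.I *
      ((ev (rf φ) (pth ω) - ev φ (pth ω) : ℝ) : ℂ) * (z : ℂ)) ∂P) *
        Complex.exp (-((K ^ 2 : ℝ) : ℂ) * (z : ℂ) ^ 2) := by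
  have hg : Integrable (fun z : ℝ => Real.exp (-(K ^ 2) * z ^ 2)) :=
    integrable_exp_neg_mul_sq (by positivity)
  have hnorm : ∀ z : ℝ, ‖Complex.exp (-((K ^ 2 : ℝ) : ℂ) * (z : ℂ) ^ 2)‖ =
      Real.exp (-(K ^ 2) * z ^ 2) := by
    intro z
    rw [Complex.norm_exp]
    congr 1
    rw [← Complex.ofReal_pow, ← Complex.ofReal_neg, ← Complex.ofReal_mul, Complex.ofReal_re]
  have hmeas : Measurable fun p : Fld × ℝ => Zf w u φ α p.1 * (Complex.exp (Complex.I *
      ((ev (rf φ) (pth p.1) - ev φ (pth p.1) : ℝ) : ℂ) * (p.2 : ℂ)) *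
        Complex.exp (-((K ^ 2 : ℝ) : ℂ) * (p.2 : ℂ) ^ 2)) := by
    refine ((measurable_Zf w u φ α).comp measurable_fst).mul ?_
    refine Measurable.mul ?_ ?_
    · refine Complex.measurable_exp.comp ?_
      refine Measurable.mul ?_ (Complex.measurable_ofReal.comp measurable_snd)
      refine Measurable.const_mul (Complex.measurable_ofReal.comp ?_) _
      exact (((measurable_evp (rf φ)).sub (measurable_evp φ)).comp measurable_fst)
    · refine Complex.measurable_exp.comp ?_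
      exact ((Complex.measurable_ofReal.comp measurable_snd).pow_const 2).const_mul _
  have hint : Integrable (fun p : Fld × ℝ => Zf w u φ α p.1 * (Complex.exp (Complex.I *
      ((ev (rf φ) (pth p.1) - ev φ (pth p.1) : ℝ) : ℂ) * (p.2 : ℂ)) *
        Complex.exp (-((K ^ 2 : ℝ) : ℂ) * (p.2 : ℂ) ^ 2))) (P.prod volume) := by
    refine Integrable.mono' (((hg.comp_snd P)).const_mul ((1 + |α|) ^ 2)) hmeas.aestronglyMeasurable
      (Eventually.of_forall fun p => ?_)
    rw [norm_mul, norm_mul, hnorm]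
    have h1 : ‖Complex.exp (Complex.I * ((ev (rf φ) (pth p.1) - ev φ (pth p.1) : ℝ) : ℂ) *
        (p.2 : ℂ))‖ = 1 := by
      rw [mul_assoc, ← Complex.ofReal_mul]
      exact norm_exp_ev _
    rw [h1, one_mul]
    exact mul_le_mul_of_nonneg_right (norm_Zf _ _ _ _ _) (Real.exp_pos _).le
  have h1 : ∀ ω : Fld, Zf w u φ α ω *
      ((Real.exp (-((ev (rf φ) (pth ω) - ev φ (pth ω)) ^ 2 / (4 * K ^ 2))) : ℝ) : ℂ) =
      ((K / √Real.pi : ℝ) : ℂ) * ∫ z : ℝ, Zf w u φ α ω * (Complex.exp (Complex.I *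
      ((ev (rf φ) (pth ω) - ev φ (pth ω) : ℝ) : ℂ) * (z : ℂ)) *
        Complex.exp (-((K ^ 2 : ℝ) : ℂ) * (z : ℂ) ^ 2)) := by
    intro ω
    rw [gauss_fourier hK, integral_const_mul]
    ring
  simp only [h1]
  rw [integral_const_mul, integral_integral_swap hint]
  congr 1
  refine integral_congr_ae (Eventually.of_forall fun z => ?_)
  simp only
  rw [← integral_mul_const]
  refine integral_congr_ae (Eventually.of_forall fun ω => ?_)
  simp only
  ring

/-- the Gaussian integral of the gradient part tends to zero -/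
lemma tendsto_Zf [IsProbabilityMeasure P] {w u φ : ℕ → (ℤ × ℤ) →₀ ℝ} {α : ℝ}
    (hS : SDseq P w u φ α) {K : ℝ} (hK : 0 < K) :
    Tendsto (fun n => ∫ ω, Zf (w n) (u n) (φ n) α ω *
      ((Real.exp (-((ev (rf (φ n)) (pth ω) - ev (φ n) (pth ω)) ^ 2 / (4 * K ^ 2))) : ℝ) : ℂ) ∂P)
      atTop (𝓝 0) := by
  obtain ⟨L, hL1, hL2, hL3⟩ := hS.lim
  have hg : Integrable (fun z : ℝ => Real.exp (-(K ^ 2) * z ^ 2)) :=
    integrable_exp_neg_mul_sq (by positivity)
  have hnorm : ∀ z : ℝ, ‖Complex.exp (-((K ^ 2 : ℝ) : ℂ) * (z : ℂ) ^ 2)‖ =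
      Real.exp (-(K ^ 2) * z ^ 2) := by
    intro z
    rw [Complex.norm_exp]
    congr 1
    rw [← Complex.ofReal_pow, ← Complex.ofReal_neg, ← Complex.ofReal_mul, Complex.ofReal_re]
  have hinner : ∀ z : ℝ, Tendsto (fun n => ∫ ω, Zf (w n) (u n) (φ n) α ω *
      Complex.exp (Complex.I * ((ev (rf (φ n)) (pth ω) - ev (φ n) (pth ω) : ℝ) : ℂ) * (z : ℂ)) ∂P)
      atTop (𝓝 0) := by
    intro z
    have hi : ∀ (n : ℕ) (s t : ℝ), Integrable (En (w n) (u n) (φ n) s t z) P := fun n s t =>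
      Integrable.of_bound (measurable_En _ _ _ _ _ _).aestronglyMeasurable 1
        (Eventually.of_forall fun ω => (norm_En _ _ _ _ _ _ ω).le)
    have e : ∀ n, ∫ ω, Zf (w n) (u n) (φ n) α ω *
      Complex.exp (Complex.I * ((ev (rf (φ n)) (pth ω) - ev (φ n) (pth ω) : ℝ) : ℂ) * (z : ℂ)) ∂P =
      ∫ ω, En (w n) (u n) (φ n) 1 1 z ω ∂P - α * ∫ ω, En (w n) (u n) (φ n) 1 0 z ω ∂P -
        α * ∫ ω, En (w n) (u n) (φ n) 0 1 z ω ∂P + α ^ 2 * ∫ ω, En (w n) (u n) (φ n) 0 0 z ω ∂P := by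
      intro n
      simp only [Zf_expand]
      have j10 : Integrable (fun ω => (α : ℂ) * En (w n) (u n) (φ n) 1 0 z ω) P :=
        (hi n 1 0).const_mul _
      have j01 : Integrable (fun ω => (α : ℂ) * En (w n) (u n) (φ n) 0 1 z ω) P :=
        (hi n 0 1).const_mul _
      have j00 : Integrable (fun ω => (α : ℂ) ^ 2 * En (w n) (u n) (φ n) 0 0 z ω) P :=
        (hi n 0 0).const_mul _
      have ja : Integrable (fun ω => En (w n) (u n) (φ n) 1 1 z ω -
        (α : ℂ) * En (w n) (u n) (φ n) 1 0 z ω) P := (hi n 1 1).sub j10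
      have jb : Integrable (fun ω => En (w n) (u n) (φ n) 1 1 z ω -
        (α : ℂ) * En (w n) (u n) (φ n) 1 0 z ω - (α : ℂ) * En (w n) (u n) (φ n) 0 1 z ω) P :=
        ja.sub j01
      rw [integral_add jb j00, integral_sub ja j01, integral_sub (hi n 1 1) j10,
        integral_const_mul, integral_const_mul, integral_const_mul]
    simp only [e]
    have t11 := hL1 1 1 z (Or.inr rfl) (Or.inr rfl)
    have t10 := hL1 1 0 z (Or.inr rfl) (Or.inl rfl)
    have t01 := hL1 0 1 z (Or.inl rfl) (Or.inr rfl)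
    have t00 := hL1 0 0 z (Or.inl rfl) (Or.inl rfl)
    have h := ((t11.sub (t10.const_mul (α : ℂ))).sub (t01.const_mul (α : ℂ))).add
      (t00.const_mul ((α : ℂ) ^ 2))
    have h0 : L 1 1 z - α * L 1 0 z - α * L 0 1 z + (α : ℂ) ^ 2 * L 0 0 z = 0 := by
      have a1 := hL2 1 z (Or.inr rfl)
      have a2 := hL2 0 z (Or.inl rfl)
      have a3 := hL3 0 z (Or.inl rfl)
      rw [a1, a2, a3]
      ring
    rw [h0] at h
    exact h
  simp only [integral_Zf _ _ _ _ hK]
  have hdc := tendsto_integral_of_dominated_convergence (μ := (volume : Measure ℝ))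
    (F := fun n (z : ℝ) => (∫ ω, Zf (w n) (u n) (φ n) α ω * Complex.exp (Complex.I *
      ((ev (rf (φ n)) (pth ω) - ev (φ n) (pth ω) : ℝ) : ℂ) * (z : ℂ)) ∂P) *
        Complex.exp (-((K ^ 2 : ℝ) : ℂ) * (z : ℂ) ^ 2)) (f := fun _ => 0)
    (fun z => (1 + |α|) ^ 2 * Real.exp (-(K ^ 2) * z ^ 2)) ?_ (hg.const_mul _) ?_ ?_
  · have h := hdc.const_mul (((K / √Real.pi : ℝ) : ℂ))
    rw [integral_zero, mul_zero] at h
    exact h
  · intro n
    refine AEStronglyMeasurable.mul ?_ ?_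
    · refine Measurable.aestronglyMeasurable ?_
      refine StronglyMeasurable.measurable ?_
      refine StronglyMeasurable.integral_prod_left (f := fun (ω : Fld) (z : ℝ) =>
        Zf (w n) (u n) (φ n) α ω * Complex.exp (Complex.I *
      ((ev (rf (φ n)) (pth ω) - ev (φ n) (pth ω) : ℝ) : ℂ) * (z : ℂ))) ?_
      refine Measurable.stronglyMeasurable ?_
      refine ((measurable_Zf _ _ _ _).comp measurable_fst).mul ?_
      refine Complex.measurable_exp.comp ?_
      refine Measurable.mul ?_ (Complex.measurable_ofReal.comp measurable_snd)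
      refine Measurable.const_mul (Complex.measurable_ofReal.comp ?_) _
      exact (((measurable_evp (rf (φ n))).sub (measurable_evp (φ n))).comp measurable_fst)
    · refine Measurable.aestronglyMeasurable (Complex.measurable_exp.comp ?_)
      exact (Complex.measurable_ofReal.pow_const 2).const_mul _
  · intro n
    refine Eventually.of_forall fun z => ?_
    rw [norm_mul, hnorm]
    refine mul_le_mul_of_nonneg_right ?_ (Real.exp_pos _).le
    refine (norm_integral_le_of_norm_le_const (C := (1 + |α|) ^ 2)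
      (Eventually.of_forall fun ω => ?_)).trans ?_
    · rw [norm_mul]
      have h1 : ‖Complex.exp (Complex.I * ((ev (rf (φ n)) (pth ω) - ev (φ n) (pth ω) : ℝ) : ℂ) *
          (z : ℂ))‖ = 1 := by
        rw [mul_assoc, ← Complex.ofReal_mul]
        exact norm_exp_ev _
      rw [h1, mul_one]
      exact norm_Zf _ _ _ _ _
    · rw [measureReal_def, measure_univ, ENNReal.toReal_one, mul_one]
  · refine Eventually.of_forall fun z => ?_
    have := (hinner z).mul_const (Complex.exp (-((K ^ 2 : ℝ) : ℂ) * (z : ℂ) ^ 2))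
    rwa [zero_mul] at this

/-- Half-plane statement. -/
theorem hp_main (P : Measure Fld) [IsProbabilityMeasure P] (hI : Inv P dY) (hR : RP P dY)
    (w u φ : ℕ → (ℤ × ℤ) →₀ ℝ) (α : ℝ) (hS : SDseq P w u φ α)
    (hsupp : ∀ n, ∀ q, q ∈ (w n).support ∨ q ∈ (u n).support ∨ q ∈ (φ n).support → 0 ≤ q.2) :
    ∃ e : ℝ → ℝ, Tendsto (fun K => K ^ 2 * e K) atTop (𝓝 0) ∧ ∀ K ≥ 1,
    (∀ n, Adm P {q | 0 ≤ q.2} (Wf (w n) (u n) (φ n) α K)) ∧
    ∀ ε > 0, ∀ᶠ n in atTop, ∀ G : Hgt → ℂ, Adm P {q | q.2 ≤ 0} G →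
    ‖∫ h, Wf (w n) (u n) (φ n) α K h * G h ∂(mu0 P)‖ ^ 2 ≤
      (e K + ε) * ∫ h, ‖G h‖ ^ 2 ∂(mu0 P) := by
  obtain ⟨C, hC, hg⟩ := gauss_sum
  refine ⟨fun K => 4 * ((1 + |α|) ^ 2 * (C * (K * Real.exp (-K ^ 2)))), ?_, fun K hK => ?_⟩
  · have h1 : Tendsto (fun K : ℝ => K ^ 3 * Real.exp (-K)) atTop (𝓝 0) :=
      Real.tendsto_pow_mul_exp_neg_atTop_nhds_zero 3
    have h2 : Tendsto (fun K : ℝ => K ^ 3 * Real.exp (-K ^ 2)) atTop (𝓝 0) := by
      refine squeeze_zero' ?_ ?_ h1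
      · filter_upwards [eventually_ge_atTop (0 : ℝ)] with K hK
        positivity
      · filter_upwards [eventually_ge_atTop (1 : ℝ)] with K hK
        refine mul_le_mul_of_nonneg_left (Real.exp_le_exp.2 ?_) (by positivity)
        nlinarith
    have h3 := h2.const_mul (4 * ((1 + |α|) ^ 2 * C))
    rw [mul_zero] at h3
    refine h3.congr fun K => ?_
    ring
  · have hK0 : 0 < K := by linarith
    have hW : ∀ n, Adm P {q : ℤ × ℤ | 0 ≤ q.2} (Wf (w n) (u n) (φ n) α K) := fun n =>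
      adm_Wf (hS.mφ n) α hK fun q hq => hsupp n q hq
    refine ⟨hW, fun ε hε => ?_⟩
    have ht := tendsto_Zf hS hK0
    have hcpos : 0 < K * √Real.pi / 2 := by have := Real.pi_pos; positivity
    have hev := (Metric.tendsto_nhds.1 ht) (ε / 4 / (K * √Real.pi / 2)) (by positivity)
    filter_upwards [hev] with n hn
    intro G hG
    have hU : ∀ q ∈ {q : ℤ × ℤ | 0 ≤ q.2}, dY.θ 0 q ∈ {q : ℤ × ℤ | q.2 ≤ 0} := by
      intro q hq
      simp only [Set.mem_ofPred_eq, dY] at hq ⊢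
      omega
    set Z : Fld → ℂ := fun ω => Zf (w n) (u n) (φ n) α ω *
      ((Real.exp (-((ev (rf (φ n)) (pth ω) - ev (φ n) (pth ω)) ^ 2 / (4 * K ^ 2))) : ℝ) : ℂ) with hZd
    set T : Fld → ℝ := fun ω => (ev (φ n) (pth ω) + ev (rf (φ n)) (pth ω)) / 2 with hTd
    have hZn : ∀ ω, ‖Z ω‖ ≤ (1 + |α|) ^ 2 := by
      intro ω
      rw [hZd]
      simp only
      rw [norm_mul, Complex.norm_real, Real.norm_eq_abs, abs_of_pos (Real.exp_pos _)]
      refine (mul_le_of_le_one_right (norm_nonneg _) ?_).trans (norm_Zf _ _ _ _ _)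
      exact Real.exp_le_one_iff.2 (neg_nonpos.2 (by (clear * - hK; positivity)))
    have hZm : Measurable Z := (measurable_Zf _ _ _ _).mul (Complex.measurable_ofReal.comp
      (Real.measurable_exp.comp ((((measurable_evp (rf (φ n))).sub
        (measurable_evp (φ n))).pow_const 2).div_const _).neg))
    have hTm : Measurable T := ((measurable_evp (φ n)).add (measurable_evp _)).div_const _
    have hWi : Integrable (fun h => Wf (w n) (u n) (φ n) α K h *
        (starRingEnd ℂ) (Wf (w n) (u n) (φ n) α K (pb (dY.θ 0) h))) (mu0 P) := by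
      obtain ⟨C', hC'⟩ := (hW n).bdd
      have hc : Integrable (fun h => (starRingEnd ℂ) (Wf (w n) (u n) (φ n) α K (pb (dY.θ 0) h)))
        (mu0 P) := Complex.conjCLE.integrable_comp_iff.2 ((hW n).refl hI hU).int
      exact hc.bdd_mul (hW n).int.1 (Eventually.of_forall hC')
    have hQ := integral_gauss (P := P) hK hWi hZn hTm hZm (fun ω k =>
      Wf_refl (hS.mu n) (hS.mφ n) α K hK0.ne' ω k)
    have hSm : Measurable fun ω => ∑' k : ℤ, Real.exp (-((T ω + 2 * k) ^ 2 / K ^ 2)) := by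
      have hme : ∀ k : ℤ, Measurable fun ω => ENNReal.ofReal
        (Real.exp (-((T ω + 2 * k) ^ 2 / K ^ 2))) := fun k =>
        ENNReal.measurable_ofReal.comp (Real.measurable_exp.comp
          ((((hTm.add_const _).pow_const 2).div_const _).neg))
      have h1 := (Measurable.ennreal_tsum hme).ennreal_toReal
      have e : (fun ω => ∑' k : ℤ, Real.exp (-((T ω + 2 * k) ^ 2 / K ^ 2))) = fun ω =>
          (∑' k : ℤ, ENNReal.ofReal (Real.exp (-((T ω + 2 * k) ^ 2 / K ^ 2)))).toReal := by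
        funext ω
        rw [← ENNReal.ofReal_tsum_of_nonneg (fun k => (Real.exp_pos _).le) (hg K hK (T ω)).1,
          ENNReal.toReal_ofReal (tsum_nonneg fun k => (Real.exp_pos _).le)]
      rw [e]
      exact h1
    have hZi : Integrable Z P := Integrable.of_bound hZm.aestronglyMeasurable _
      (Eventually.of_forall hZn)
    have hbd : ∀ ω, ‖Z ω * (((∑' k : ℤ, Real.exp (-((T ω + 2 * k) ^ 2 / K ^ 2)) -
        K * √Real.pi / 2 : ℝ)) : ℂ)‖ ≤ (1 + |α|) ^ 2 * (C * (K * Real.exp (-K ^ 2))) := by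
      intro ω
      rw [norm_mul, Complex.norm_real, Real.norm_eq_abs]
      exact mul_le_mul (hZn ω) (hg K hK (T ω)).2 (abs_nonneg _) (by (clear * -; positivity))
    have hDi : Integrable (fun ω => Z ω * (((∑' k : ℤ, Real.exp (-((T ω + 2 * k) ^ 2 / K ^ 2)) -
        K * √Real.pi / 2 : ℝ)) : ℂ)) P := Integrable.of_bound
      (hZm.mul (Complex.measurable_ofReal.comp (hSm.sub_const _))).aestronglyMeasurable _
      (Eventually.of_forall hbd)
    have hsplit : ∫ h, Wf (w n) (u n) (φ n) α K h *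
        (starRingEnd ℂ) (Wf (w n) (u n) (φ n) α K (pb (dY.θ 0) h)) ∂(mu0 P) =
        ((K * √Real.pi / 2 : ℝ) : ℂ) * ∫ ω, Z ω ∂P + ∫ ω, Z ω * (((∑' k : ℤ,
          Real.exp (-((T ω + 2 * k) ^ 2 / K ^ 2)) - K * √Real.pi / 2 : ℝ)) : ℂ) ∂P := by
      rw [hQ, ← integral_const_mul, ← integral_add (hZi.const_mul _) hDi]
      refine integral_congr_ae (Eventually.of_forall fun ω => ?_)
      simp only
      push_cast
      ring
    have hre : (∫ h, Wf (w n) (u n) (φ n) α K h *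
        (starRingEnd ℂ) (Wf (w n) (u n) (φ n) α K (pb (dY.θ 0) h)) ∂(mu0 P)).re ≤
        ε / 4 + (1 + |α|) ^ 2 * (C * (K * Real.exp (-K ^ 2))) := by
      refine (Complex.re_le_norm _).trans ?_
      rw [hsplit]
      refine (norm_add_le _ _).trans (add_le_add ?_ ?_)
      · rw [norm_mul, Complex.norm_real, Real.norm_eq_abs, abs_of_pos hcpos]
        rw [dist_eq_norm, sub_zero] at hn
        have h1 := mul_le_mul_of_nonneg_left hn.le hcpos.le
        refine h1.trans (le_of_eq ?_)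
        (clear * - hK hε; field_simp)
      · refine (norm_integral_le_of_norm_le_const (Eventually.of_forall hbd)).trans ?_
        rw [measureReal_def, measure_univ, ENNReal.toReal_one, mul_one]
    refine (rp_csC hI hR (hW n) hG).trans ?_
    refine mul_le_mul_of_nonneg_right ?_ (integral_nonneg fun h => sq_nonneg _)
    (clear * - hre; linarith)

end Vale.Agent.P153.F.SD
end

section

/-! P153, product Schwinger-Dyson: the half-plane statement for the unlocalised null functional. -/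

namespace Vale.Agent.P153.F.SD

open Finset Filter Topology MeasureTheory
open Vale.Agent.P145.FA (gauss_sum PolyBdd LegForm extrap)

/-- H1 with the invariance as an additional input. -/
theorem s_hp {P : Measure (Fld)} [IsProbabilityMeasure P] (hI : Inv P dY) (hR : RP P dY)
    (w u φ : ℕ → (ℤ × ℤ) →₀ ℝ) (α : ℝ) (hS : SDseq P w u φ α)
    (hsupp : ∀ n, ∀ q, q ∈ (w n).support ∨ q ∈ (u n).support ∨ q ∈ (φ n).support → 0 ≤ q.2)
    (G : ℕ → Hgt → ℂ) (C : ℝ) (hG : ∀ n, Adm P {q | q.2 ≤ 0} (G n)) (hG1 : ∀ n h, ‖G n h‖ ≤ 1)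
    (hGC : ∀ n, ∫ h, ‖G n h‖ ∂(mu0 P) ≤ C) (hT : Tight P φ G) :
    Tendsto (fun n => ∫ h, Yf (w n) (u n) α h * G n h ∂(mu0 P)) atTop (𝓝 0) := by
  obtain ⟨e, he, hmain⟩ := hp_main P hI hR w u φ α hS hsupp
  have hC0 : 0 ≤ C := (integral_nonneg fun h => norm_nonneg _).trans (hGC 0)
  rw [Metric.tendsto_nhds]
  intro ε hε
  set A : ℝ := 1 + |α| with hA
  have hA1 : 1 ≤ A := by rw [hA]; linarith only [abs_nonneg α]
  obtain ⟨K0, hK0⟩ := hT (ε / (4 * A)) (by (clear * - hε; positivity))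
  -- choice of K
  have hev1 : ∀ᶠ K : ℝ in atTop, K ^ 2 * e K ≤ (ε / 4) ^ 2 / (2 * (C + 1)) := by
    have h := (Metric.tendsto_nhds.1 he) ((ε / 4) ^ 2 / (2 * (C + 1))) (by positivity)
    filter_upwards [h] with K hK
    rw [Real.dist_eq, sub_zero] at hK
    exact (le_abs_self _).trans hK.le
  obtain ⟨K, hK1, hK2, hK3⟩ := (hev1.and ((eventually_ge_atTop (1 : ℝ)).and
    (eventually_ge_atTop K0))).exists
  have heK : e K ≤ (ε / 4) ^ 2 / (2 * (C + 1)) := by
    rcases le_or_gt (e K) 0 with h0 | h0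
    · exact h0.trans (by (clear * - hε hC0; positivity))
    · refine le_trans ?_ hK1
      have : (1 : ℝ) ≤ K ^ 2 := one_le_pow₀ hK2
      nlinarith only [h0, this]
  obtain ⟨-, hW⟩ := hmain K hK2
  filter_upwards [hW ((ε / 4) ^ 2 / (2 * (C + 1))) (by (clear * - hε hC0; positivity)), hK0 K hK3] with n h1 h2
  have h3 := h1 (G n) (hG n)
  have hmg : Measurable fun h : Hgt => Real.exp (-((ev (φ n) h) ^ 2 / (2 * K ^ 2))) :=
    Real.measurable_exp.comp (((measurable_ev _).pow_const 2).div_const _).neg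
  have hle1 : ∀ h : Hgt, Real.exp (-((ev (φ n) h) ^ 2 / (2 * K ^ 2))) ≤ 1 := fun h =>
    Real.exp_le_one_iff.2 (neg_nonpos.2 (by (clear * - hK2; positivity)))
  have hint := (hG n).int
  have hsq : ∫ h, ‖G n h‖ ^ 2 ∂(mu0 P) ≤ C := by
    refine (integral_mono_of_nonneg (Eventually.of_forall fun h => sq_nonneg _) hint.norm
      (Eventually.of_forall fun h => ?_)).trans (hGC n)
    simp only
    have := hG1 n h
    nlinarith only [this, norm_nonneg (G n h)]
  have hsq0 : 0 ≤ ∫ h, ‖G n h‖ ^ 2 ∂(mu0 P) := integral_nonneg fun h => sq_nonneg _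
  -- first part
  have hp1 : ‖∫ h, Wf (w n) (u n) (φ n) α K h * G n h ∂(mu0 P)‖ ≤ ε / 4 := by
    have h4 : ‖∫ h, Wf (w n) (u n) (φ n) α K h * G n h ∂(mu0 P)‖ ^ 2 ≤ (ε / 4) ^ 2 := by
      refine h3.trans ?_
      have h5 : e K + (ε / 4) ^ 2 / (2 * (C + 1)) ≤ (ε / 4) ^ 2 / (C + 1) := by
        have : (ε / 4) ^ 2 / (C + 1) = (ε / 4) ^ 2 / (2 * (C + 1)) +
            (ε / 4) ^ 2 / (2 * (C + 1)) := by field_simp; ring
        rw [this]
        linarith only [heK]
      calc (e K + (ε / 4) ^ 2 / (2 * (C + 1))) * ∫ h, ‖G n h‖ ^ 2 ∂(mu0 P)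
          ≤ (ε / 4) ^ 2 / (C + 1) * ∫ h, ‖G n h‖ ^ 2 ∂(mu0 P) :=
            mul_le_mul_of_nonneg_right h5 hsq0
        _ ≤ (ε / 4) ^ 2 / (C + 1) * (C + 1) :=
            mul_le_mul_of_nonneg_left (by linarith only [hsq]) (by (clear * - hε hC0; positivity))
        _ = (ε / 4) ^ 2 := by (clear * - hC0 hε; field_simp)
    exact le_of_sq_le_sq h4 (by positivity) |> fun h => h
  -- splitting
  have hYi : Integrable (fun h => Yf (w n) (u n) α h * G n h) (mu0 P) :=
    hint.bdd_mul (measurable_Yf _ _ _).aestronglyMeasurable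
      (Eventually.of_forall (norm_Yf _ _ _))
  have hWi : Integrable (fun h => Wf (w n) (u n) (φ n) α K h * G n h) (mu0 P) := by
    refine hint.bdd_mul (c := A) (measurable_Wf _ _ _ _ _).aestronglyMeasurable
      (Eventually.of_forall fun h => ?_)
    exact (norm_Wf _ _ _ _ _ _).trans (mul_le_of_le_one_right (by (clear * -; positivity)) (hle1 h))
  have hdiff : ‖∫ h, Yf (w n) (u n) α h * G n h ∂(mu0 P) -
      ∫ h, Wf (w n) (u n) (φ n) α K h * G n h ∂(mu0 P)‖ ≤ ε / 4 := by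
    rw [← integral_sub hYi hWi]
    have hti : Integrable (fun h => A * (‖G n h‖ *
        (1 - Real.exp (-((ev (φ n) h) ^ 2 / (2 * K ^ 2)))))) (mu0 P) := by
      refine Integrable.const_mul ?_ _
      have := hint.norm.bdd_mul (c := 1) (f := fun h : Hgt =>
        1 - Real.exp (-((ev (φ n) h) ^ 2 / (2 * K ^ 2))))
        (measurable_const.sub hmg).aestronglyMeasurable (Eventually.of_forall fun h => by
          rw [Real.norm_eq_abs, abs_le]
          constructor
          · linarith only [hle1 h]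
          · linarith only [Real.exp_pos (-((ev (φ n) h) ^ 2 / (2 * K ^ 2)))])
      refine this.congr (Eventually.of_forall fun h => ?_)
      simp only
      ring
    refine (norm_integral_le_of_norm_le hti (Eventually.of_forall fun h => ?_)).trans ?_
    · have e1 : Yf (w n) (u n) α h * G n h - Wf (w n) (u n) (φ n) α K h * G n h =
          Yf (w n) (u n) α h * G n h *
            ((1 - Real.exp (-((ev (φ n) h) ^ 2 / (2 * K ^ 2))) : ℝ) : ℂ) := by
        unfold Wf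
        push_cast
        ring
      rw [e1, norm_mul, norm_mul, Complex.norm_real, Real.norm_eq_abs,
        abs_of_nonneg (by linarith only [hle1 h]), mul_assoc]
      exact mul_le_mul_of_nonneg_right (norm_Yf _ _ _ _)
        (mul_nonneg (norm_nonneg _) (by linarith only [hle1 h]))
    · rw [integral_const_mul]
      calc A * ∫ h, ‖G n h‖ * (1 - Real.exp (-((ev (φ n) h) ^ 2 / (2 * K ^ 2)))) ∂(mu0 P)
          ≤ A * (ε / (4 * A)) := mul_le_mul_of_nonneg_left h2 (by (clear * -; positivity))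
        _ = ε / 4 := by (clear * - hA1 hε; field_simp)
  rw [dist_eq_norm, sub_zero]
  calc ‖∫ h, Yf (w n) (u n) α h * G n h ∂(mu0 P)‖
      = ‖(∫ h, Yf (w n) (u n) α h * G n h ∂(mu0 P) -
        ∫ h, Wf (w n) (u n) (φ n) α K h * G n h ∂(mu0 P)) +
        ∫ h, Wf (w n) (u n) (φ n) α K h * G n h ∂(mu0 P)‖ := by rw [sub_add_cancel]
    _ ≤ ε / 4 + ε / 4 := (norm_add_le _ _).trans (add_le_add hdiff hp1)
    _ < ε := by linarith only [hε]

end Vale.Agent.P153.F.SD
end

section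

/-!
P153-F, top block. The squeeze: from the Gaussian moments for nonnegative test functions in the
families of thickened polyominoes to all moments of signed test functions in the polygons.
-/

namespace Vale.Agent.P153.F.Top

open Filter Topology Set MeasureTheory
open Vale.Agent.P145.PT Vale.Agent.P153

/-! Linearity of `ze`. -/

theorem ze_add' (F : Finset (ℤ × ℤ)) (Φ Ψ : Om → ℝ) :
    ze F (fun ω => Φ ω + Ψ ω) = ze F Φ + ze F Ψ := ev_add _ _ _

theorem ze_smul' (F : Finset (ℤ × ℤ)) (a : ℝ) (Φ : Om → ℝ) :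
    ze F (fun ω => a * Φ ω) = a * ze F Φ := ev_const_mul _ _ _

theorem ze_zero' (F : Finset (ℤ × ℤ)) : ze F (fun _ => 0) = 0 := by
  have := ze_smul' F 0 (fun _ => 0)
  simpa using this

theorem ze_sum' (F : Finset (ℤ × ℤ)) {ι : Type*} (s : Finset ι) (Φ : ι → Om → ℝ) :
    ze F (fun ω => ∑ i ∈ s, Φ i ω) = ∑ i ∈ s, ze F (Φ i) := by
  classical
  induction s using Finset.induction_on with
  | empty => simpa using ze_zero' F
  | insert a s ha ih =>
    rw [Finset.sum_insert ha, ← ih, ← ze_add']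
    congr 1; funext x; rw [Finset.sum_insert ha]

/-- Functions in the cone have monotone expectations. -/
theorem cone_ze_mono (hm : S_mono) {F F' : Finset (ℤ × ℤ)} (hF : F ⊆ F') {g : Om → ℝ}
    (hg : Cone g) : ze F g ≤ ze F' g := by
  induction hg with
  | mon l => exact (hm F F' hF l).2.1
  | zero => rw [ze_zero', ze_zero']
  | add _ _ h1 h2 => rw [ze_add', ze_add']; exact add_le_add h1 h2
  | smul a ha _ h1 => rw [ze_smul', ze_smul']; exact mul_le_mul_of_nonneg_left h1 ha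

/-- Functions in the cone have nonnegative expectations. -/
theorem cone_ze_nonneg (hm : S_mono) (F : Finset (ℤ × ℤ)) {g : Om → ℝ}
    (hg : Cone g) : 0 ≤ ze F g := by
  induction hg with
  | mon l => exact (hm F F subset_rfl l).1
  | zero => rw [ze_zero']
  | add _ _ h1 h2 => rw [ze_add']; exact add_nonneg h1 h2
  | smul a ha _ h1 => rw [ze_smul']; exact mul_nonneg ha h1

/-- `(a + b)^k ± (a - b)^k` is in the cone. -/
theorem cone_pm {B : Finset (ℤ × ℤ)} {δ : ℝ} {p m : ℝ × ℝ → ℝ} (hp : ∀ z, 0 ≤ p z)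
    (hm : ∀ z, 0 ≤ m z) (k : ℕ) :
    Cone (fun ω => (hB B δ p ω + hB B δ m ω) ^ k + (hB B δ p ω - hB B δ m ω) ^ k) ∧
    Cone (fun ω => (hB B δ p ω + hB B δ m ω) ^ k - (hB B δ p ω - hB B δ m ω) ^ k) := by
  induction k with
  | zero =>
    refine ⟨((Pol.one (P := fun c => 0 ≤ c)).add Pol.one).of_eq fun ω => by simp,
      Pol.zero.of_eq fun ω => by simp⟩
  | succ k ih =>
    refine ⟨((Cone.hB (B := B) (δ := δ) ih.1 hp).add (Cone.hB (B := B) (δ := δ) ih.2 hm)).of_eq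
      fun ω => by ring,
      ((Cone.hB (B := B) (δ := δ) ih.2 hp).add (Cone.hB (B := B) (δ := δ) ih.1 hm)).of_eq
      fun ω => by ring⟩

/-- `hv` is a finite sum. -/
theorem exists_hB {δ : ℝ} (hδ : 0 < δ) {f : ℝ × ℝ → ℝ} (hf : HasCompactSupport f) :
    ∃ B : Finset (ℤ × ℤ), ∀ B', B ⊆ B' → ∀ ω, hv δ f ω = hB B' δ f ω := by
  obtain ⟨R, hR⟩ := hf.isBounded.exists_norm_le
  have hfin : {v : ℤ × ℤ | tl f (δ * v.1, δ * v.2) ≠ 0}.Finite := by
    refine (lat_finite hδ (R + 1)).subset fun v hv => ?_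
    have hv' : tl f (δ * v.1, δ * v.2) ≠ 0 := hv
    rw [tl_eq] at hv'
    have h0 := hR _ (subset_tsupport f (right_ne_zero_of_mul hv'))
    change dp δ v ∈ Metric.ball (0 : ℝ × ℝ) (R + 1)
    rw [mem_ball_zero_iff]
    (clear * - h0; linarith)
  refine ⟨hfin.toFinset, fun B' hB' ω => ?_⟩
  unfold hv hB
  congr 1
  refine finsum_eq_sum_of_support_subset _ fun v hv => ?_
  refine hB' (hfin.mem_toFinset.2 ?_)
  intro h
  refine hv ?_
  change ω v * tl f (δ * v.1, δ * v.2) = 0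
  rw [h, mul_zero]

theorem hv_add {δ : ℝ} (hδ : 0 < δ) {f g : ℝ × ℝ → ℝ} (hf : HasCompactSupport f)
    (hg : HasCompactSupport g) (a b : ℝ) (ω : Om) :
    hv δ (fun z => a * f z + b * g z) ω = a * hv δ f ω + b * hv δ g ω := by
  classical
  have k1 : HasCompactSupport (fun z => a * f z) := by
    have h := hf.comp_left (g := fun t : ℝ => a * t) (mul_zero a)
    exact h
  have k2 : HasCompactSupport (fun z => b * g z) := by
    have h := hg.comp_left (g := fun t : ℝ => b * t) (mul_zero b)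
    exact h
  have hfg : HasCompactSupport (fun z => a * f z + b * g z) := k1.add k2
  obtain ⟨B1, h1⟩ := exists_hB hδ hf
  obtain ⟨B2, h2⟩ := exists_hB hδ hg
  obtain ⟨B3, h3⟩ := exists_hB hδ hfg
  set B := B1 ∪ (B2 ∪ B3)
  rw [h1 B Finset.subset_union_left, h2 B (Finset.subset_union_left.trans
    Finset.subset_union_right), h3 B (Finset.subset_union_right.trans Finset.subset_union_right),
    hB_add, hB_smul, hB_smul]

/-- The comparison of moments of signed functions. -/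
theorem squeeze_fin (hm : S_mono) {δ : ℝ} (hδ : 0 < δ) {p m : ℝ × ℝ → ℝ}
    (hp : HasCompactSupport p) (hmc : HasCompactSupport m) (hp0 : ∀ z, 0 ≤ p z)
    (hm0 : ∀ z, 0 ≤ m z) {F0 F F1 : Finset (ℤ × ℤ)} (h0 : F0 ⊆ F) (h1 : F ⊆ F1) (k : ℕ) :
    |ze F (fun ω => (hv δ p ω - hv δ m ω) ^ k)
        - ze F0 (fun ω => (hv δ p ω - hv δ m ω) ^ k)|
      ≤ ze F1 (fun ω => (hv δ p ω + hv δ m ω) ^ k)
        - ze F0 (fun ω => (hv δ p ω + hv δ m ω) ^ k) := by
  classical
  obtain ⟨B1, hB1⟩ := exists_hB hδ hp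
  obtain ⟨B2, hB2⟩ := exists_hB hδ hmc
  set B := B1 ∪ B2
  have e1 : ∀ ω, hv δ p ω = hB B δ p ω := hB1 B Finset.subset_union_left
  have e2 : ∀ ω, hv δ m ω = hB B δ m ω := hB2 B Finset.subset_union_right
  simp_rw [e1, e2]
  obtain ⟨cp, cm⟩ := cone_pm (B := B) (δ := δ) hp0 hm0 k
  have cs : Cone (fun ω => (hB B δ p ω + hB B δ m ω) ^ k) := by
    refine (((cp.add cm).smul (1 / 2) (by norm_num))).of_eq fun ω => by ring
  set A : Finset (ℤ × ℤ) → ℝ := fun F => ze F (fun ω => (hB B δ p ω + hB B δ m ω) ^ k)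
  set A' : Finset (ℤ × ℤ) → ℝ := fun F => ze F (fun ω => (hB B δ p ω - hB B δ m ω) ^ k)
  have hpl : ∀ F, ze F (fun ω => (hB B δ p ω + hB B δ m ω) ^ k
      + (hB B δ p ω - hB B δ m ω) ^ k) = A F + A' F := fun F => ze_add' F _ _
  have hmi : ∀ F, ze F (fun ω => (hB B δ p ω + hB B δ m ω) ^ k
      - (hB B δ p ω - hB B δ m ω) ^ k) = A F - A' F := fun F => by
    have h := ze_add' F (fun ω => (hB B δ p ω + hB B δ m ω) ^ k)
      (fun ω => (-1) * (hB B δ p ω - hB B δ m ω) ^ k)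
    rw [ze_smul'] at h
    have h' : (fun ω => (hB B δ p ω + hB B δ m ω) ^ k
      - (hB B δ p ω - hB B δ m ω) ^ k) = fun ω =>
      (hB B δ p ω + hB B δ m ω) ^ k
      + (-1) * (hB B δ p ω - hB B δ m ω) ^ k := by funext ω; ring
    rw [h', h]; ring
  have a1 := cone_ze_mono hm h0 cp
  have a2 := cone_ze_mono hm h0 cm
  have a3 := cone_ze_mono hm h1 cs
  rw [hpl, hpl] at a1
  rw [hmi, hmi] at a2
  have a3' : A F ≤ A F1 := a3
  change |A' F - A' F0| ≤ A F1 - A F0
  rw [abs_le]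
  constructor <;> linarith only [a1, a3, a2]

/-- Quadratic dependence of `V` on the coefficient. -/
theorem V_quad {D : Set (ℝ × ℝ)} (hD : Bornology.IsBounded D) {p m : ℝ × ℝ → ℝ}
    (hp : TestOn D p) (hm : TestOn D m) : ∃ β : ℝ, ∀ a : ℝ,
    V D (fun z => 1 * p z + a * m z) = V D p + β * a + V D m * a ^ 2 := by
  have hφ : ∀ j : Fin 2, TestOn D ((![p, m] : Fin 2 → ℝ × ℝ → ℝ) j) := by
    intro j; fin_cases j
    · exact hp
    · exact hm
  have key := Vale.Agent.P145.Dom.V_sum hD hφ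
  have h0 : V D p = Vale.Agent.P145.Dom.dirCov D p p := by
    have h := key ![1, 0]
    simp only [Matrix.cons_val', Matrix.cons_val_fin_one, Fin.sum_univ_two, Fin.isValue, Matrix.cons_val_zero, one_mul, Matrix.cons_val_one, zero_mul, add_zero, mul_one, mul_zero] at h
    exact h
  have h1 : V D m = Vale.Agent.P145.Dom.dirCov D m m := by
    have h := key ![0, 1]
    simp only [Matrix.cons_val', Matrix.cons_val_fin_one, Fin.sum_univ_two, Fin.isValue, Matrix.cons_val_zero, zero_mul, Matrix.cons_val_one, one_mul, zero_add, mul_zero, mul_one] at h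
    exact h
  refine ⟨Vale.Agent.P145.Dom.dirCov D p m + Vale.Agent.P145.Dom.dirCov D m p, fun a => ?_⟩
  have h := key ![1, a]
  simp only [Fin.sum_univ_two, Matrix.cons_val_zero, Matrix.cons_val_one] at h
  rw [h, h0, h1]
  simp only [mul_one, one_mul]
  ring

/-- Signed test functions. -/
theorem signed {κ : ℝ} {δ : ℕ → ℝ} (hδ : ∀ n, 0 < δ n) {D : Set (ℝ × ℝ)}
    (hb : Bornology.IsBounded D) {U : Filter ℕ}
    (h : ∀ f : ℝ × ℝ → ℝ, TestOn D f → (∀ z, 0 ≤ f z) → ∀ k : ℕ,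
      Tendsto (fun n => EE (δ n) D (fun ω => hv (δ n) f ω ^ k)) U (𝓝 (gm (κ * V D f) k)))
    {p m : ℝ × ℝ → ℝ} (hp : TestOn D p) (hm : TestOn D m) (hp0 : ∀ z, 0 ≤ p z)
    (hm0 : ∀ z, 0 ≤ m z) (k : ℕ) :
    Tendsto (fun n => EE (δ n) D (fun ω => (hv (δ n) p ω - hv (δ n) m ω) ^ k)) U
      (𝓝 (gm (κ * V D (fun z => p z - m z)) k)) := by
  obtain ⟨β, hβ⟩ := V_quad hb hp hm
  set b : ℕ → ℕ → ℝ := fun n j => ze (Vs (δ n) D)
    (fun ω => hv (δ n) m ω ^ j * hv (δ n) p ω ^ (k - j)) with hbd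
  have hexp : ∀ (a : ℝ) n, EE (δ n) D (fun ω => (hv (δ n) p ω + a * hv (δ n) m ω) ^ k)
      = ∑ j ∈ Finset.range (k + 1), (k.choose j : ℝ) * a ^ j * b n j := by
    intro a n
    unfold EE
    have h1 : ∀ x : Om, (hv (δ n) p x + a * hv (δ n) m x) ^ k
        = ∑ j ∈ Finset.range (k + 1), ((k.choose j : ℝ) * a ^ j) *
          (hv (δ n) m x ^ j * hv (δ n) p x ^ (k - j)) := by
      intro x
      rw [add_comm, add_pow]
      refine Finset.sum_congr rfl fun j _ => ?_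
      rw [mul_pow]; ring
    simp_rw [h1]
    rw [ze_sum']
    refine Finset.sum_congr rfl fun j _ => ?_
    rw [ze_smul']
  have key := tendsto_neg_one (l := U) k b (κ * V D p) (κ * β) (κ * V D m) (fun i hi => by
    have h2 := h (fun z => 1 * p z + (i : ℝ) * m z) ((hp.smul 1).add (hm.smul i))
      (fun z => add_nonneg (by rw [one_mul]; exact hp0 z)
        (mul_nonneg (Nat.cast_nonneg i) (hm0 z))) k
    rw [hβ] at h2
    have e1 : κ * (V D p + β * (i : ℝ) + V D m * (i : ℝ) ^ 2)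
        = κ * V D p + κ * β * i + κ * V D m * (i : ℝ) ^ 2 := by ring
    rw [e1] at h2
    refine h2.congr fun n => ?_
    rw [← hexp]
    congr 1; funext ω
    rw [hv_add (hδ n) hp.cs hm.cs, one_mul])
  have e2 : κ * V D p + κ * β * (-1) + κ * V D m * (-1) ^ 2
      = κ * V D (fun z => p z - m z) := by
    have h3 := hβ (-1)
    have h4 : (fun z => 1 * p z + (-1) * m z) = fun z => p z - m z := by funext z; ring
    rw [h4] at h3
    rw [h3]; ring
  rw [e2] at key
  refine key.congr fun n => ?_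
  rw [← hexp]
  congr 1; funext ω
  ring

theorem gm_cont (k : ℕ) : Continuous (fun v => gm v k) ∧ Continuous (fun v => gm v (k + 1)) := by
  induction k with
  | zero => exact ⟨continuous_const, continuous_const⟩
  | succ k ih =>
    refine ⟨ih.2, ?_⟩
    have : (fun v : ℝ => gm v (k + 1 + 1)) = fun v => ((k : ℝ) + 1) * v * gm v k := by
      funext v; rfl
    rw [this]
    exact (continuous_const.mul continuous_id).mul ih.1

/-- **The squeeze.** -/
theorem squeeze {κ : ℝ} {δ : ℕ → ℝ} (hm : S_mono) (hδ : ∀ n, 0 < δ n)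
    (hkey : S_key κ δ) {D : Set (ℝ × ℝ)} (hJ : Vale.Agent.P145.Dom.JordanDomain D) {F : ℕ → Finset (ℤ × ℤ)}
    (hin : ∀ D' : Set (ℝ × ℝ), IsOpen D' → Bornology.IsBounded D' → closure D' ⊆ D →
      ∀ᶠ n in atTop, Vs (δ n) D' ⊆ F n)
    (hout : ∀ D' : Set (ℝ × ℝ), IsOpen D' → Bornology.IsBounded D' → closure D ⊆ D' →
      ∀ᶠ n in atTop, F n ⊆ Vs (δ n) D')
    {φ : ℝ × ℝ → ℝ} (hφ : TestOn D φ) (k : ℕ) :
    Tendsto (fun n => ze (F n) (fun ω => hv (δ n) φ ω ^ k)) atTop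
      (𝓝 (gm (κ * V D φ) k)) := by
  have hop : IsOpen D := hJ.isOpen
  have hb : Bornology.IsBounded D := hJ.isBounded
  obtain ⟨Φ, hΦ⟩ := hJ
  have hdisc : D = Φ '' disc := hΦ
  rw [tendsto_iff_ultrafilter]
  intro U hU
  obtain ⟨p, m, hp, hm', hp0, hm0, hpm⟩ := exists_decomp hop hb hφ
  have hφe : φ = fun z => p z - m z := funext hpm
  set ψ : ℝ × ℝ → ℝ := fun z => p z + m z with hψ
  have hψT : TestOn D ψ := hp.add hm'
  have hψ0 : ∀ z, 0 ≤ ψ z := fun z => add_nonneg (hp0 z) (hm0 z)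
  rw [Metric.tendsto_nhds]
  intro ε hε
  -- continuity of the Gaussian moments
  obtain ⟨η1, hη1, hc1⟩ := Metric.continuous_iff.1
    ((gm_cont k).1.comp (continuous_const.mul continuous_id : Continuous fun v : ℝ => κ * v))
    (V D ψ) (ε / 8) (by (clear * - hε; positivity))
  obtain ⟨η2, hη2, hc2⟩ := Metric.continuous_iff.1
    ((gm_cont k).1.comp (continuous_const.mul continuous_id : Continuous fun v : ℝ => κ * v))
    (V D φ) (ε / 4) (by (clear * - hε; positivity))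
  set η : ℝ := min η1 η2 / 2 with hη
  have hη0 : 0 < η := by have := lt_min hη1 hη2; (clear * - hη1 hη2; positivity)
  have hηη1 : η < η1 := by
    have := lt_min hη1 hη2
    have h2 := min_le_left η1 η2
    linarith only [hη, hη0, h2]
  have hηη2 : η < η2 := by
    have := lt_min hη1 hη2
    have h2 := min_le_right η1 η2
    linarith only [hη, hη0, h2]
  -- inner and outer scales
  obtain ⟨s1, hs1, hV1⟩ := inner_stab hop hb hψT hη0
  obtain ⟨s2, hs2, hV2⟩ := inner_stab hop hb hφ hη0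
  obtain ⟨s3, hs3, hT3⟩ := hp.inner hop hb
  obtain ⟨s4, hs4, hT4⟩ := hm'.inner hop hb
  obtain ⟨s5, hs5, hV5⟩ : ∃ s : ℝ, 0 < s ∧ V (Metric.thickening s D) ψ ≤ V D ψ + η := by
    have := jordan_stab Φ (φ := ψ) (by rw [← hdisc]; exact hψT) hψ0 hη0
    rw [← hdisc] at this
    exact this
  set g : ℝ := min (min (min s1 s2) (min s3 s4)) s5 / 4 with hg
  have hmin : 0 < min (min (min s1 s2) (min s3 s4)) s5 :=
    lt_min (lt_min (lt_min hs1 hs2) (lt_min hs3 hs4)) hs5
  have hg0 : 0 < g := by (clear * - hs1 hs2 hs3 hs4 hs5; positivity)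
  have hg1 : 4 * g ≤ s1 := by
    have : min (min (min s1 s2) (min s3 s4)) s5 ≤ s1 :=
      (min_le_left _ _).trans ((min_le_left _ _).trans (min_le_left _ _))
    linarith only [hg, this]
  have hg2 : 4 * g ≤ s2 := by
    have : min (min (min s1 s2) (min s3 s4)) s5 ≤ s2 :=
      (min_le_left _ _).trans ((min_le_left _ _).trans (min_le_right _ _))
    linarith only [hg, this]
  have hg3 : 4 * g ≤ s3 := by
    have : min (min (min s1 s2) (min s3 s4)) s5 ≤ s3 :=
      (min_le_left _ _).trans ((min_le_right _ _).trans (min_le_left _ _))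
    linarith only [hg, this]
  have hg4 : 4 * g ≤ s4 := by
    have : min (min (min s1 s2) (min s3 s4)) s5 ≤ s4 :=
      (min_le_left _ _).trans ((min_le_right _ _).trans (min_le_right _ _))
    linarith only [hg, this]
  have hg5 : 4 * g ≤ s5 := by
    have : min (min (min s1 s2) (min s3 s4)) s5 ≤ s5 := min_le_right _ _
    linarith only [hg, this]
  -- the families
  have hSo : (Sout g D).Finite := Sout_finite hg0 hb
  have hSi : (Sin g D).Finite := by
    refine hSo.subset fun q hq => ?_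
    have hz : ((g * q.1, g * q.2) : ℝ × ℝ) ∈ gsq g q := by
      refine ⟨le_rfl, ?_, le_rfl, ?_⟩ <;> simp only <;> nlinarith only [hg0]
    have h1 := hq _ hz
    exact ⟨_, hz, (dd_pos hop hb).1 (by linarith only [hg0, h1])⟩
  obtain ⟨so, hso, hGo⟩ := hkey 0 (g / 4) _ (nest_gun hg0 hSo) (gun_ball hSo) U hU
  obtain ⟨si, hsi, hGi⟩ := hkey 0 (g / 4) _ (nest_gun hg0 hSi) (gun_ball hSi) U hU
  set Do := Metric.thickening so (gun g (Sout g D)) with hDo
  set Di := Metric.thickening si (gun g (Sin g D)) with hDi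
  have hDob : Bornology.IsBounded Do := (isCompact_gun hSo).isBounded.thickening
  have hDib : Bornology.IsBounded Di := (isCompact_gun hSi).isBounded.thickening
  have hDDo : closure D ⊆ Do := by
    refine (closure_minimal (subset_gun_Sout hg0 D) (isCompact_gun hSo).isClosed).trans ?_
    exact Metric.self_subset_thickening hso.1 _
  have hDiD : closure Di ⊆ D := by
    have h1 : Di ⊆ {z | g ≤ dd D z} := fun z hz => by
      have h' := gun_Sin_subset (s := si) (by linarith only [hg0, hsi.2]) D hz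
      have h'' : g < dd D z := h'
      exact h''.le
    have h2 : closure Di ⊆ {z | g ≤ dd D z} :=
      closure_minimal h1 (isClosed_le continuous_const (dd_cont D))
    intro z hz
    have h3 : g ≤ dd D z := h2 hz
    exact (dd_pos hop hb).1 (by linarith only [hg0, h3])
  have hDisub : Di ⊆ D := subset_closure.trans hDiD
  have h4g : {z | 4 * g < dd D z} ⊆ Di := (subset_gun_Sin hg0 D).trans
    (Metric.self_subset_thickening hsi.1 _)
  have hpi : TestOn Di p := hT3.mono ((inner_mono hg3).trans h4g)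
  have hmi : TestOn Di m := hT4.mono ((inner_mono hg4).trans h4g)
  have hψo : TestOn Do ψ := hψT.mono (subset_closure.trans hDDo)
  have hψi : TestOn Di ψ := hpi.add hmi
  -- values of V
  have v1 : V D ψ - η ≤ V Di ψ := by
    have h1 := V_mono hDib ((inner_mono hg1).trans h4g) hψT
    linarith only [hV1, h1]
  have v2 : V Di ψ ≤ V D ψ := V_mono hb hDisub hψT
  have v3 : V D φ - η ≤ V Di φ := by
    have h1 := V_mono hDib ((inner_mono hg2).trans h4g) hφ
    linarith only [hV2, h1]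
  have v4 : V Di φ ≤ V D φ := V_mono hb hDisub hφ
  have v5 : V Do ψ ≤ V D ψ + η := by
    have h1 : Do ⊆ Metric.thickening s5 D :=
      (gun_Sout_subset (s := so) (by linarith only [hg0, hso.2]) D).trans
        (Metric.thickening_mono (by linarith only [hg0, hg5]) D)
    exact (V_mono hb.thickening h1 hψT).trans hV5
  have v6 : V D ψ ≤ V Do ψ := V_mono hDob (subset_closure.trans hDDo) hψT
  have w1 : dist (gm (κ * V Di ψ) k) (gm (κ * V D ψ) k) < ε / 8 :=
    hc1 _ (by rw [Real.dist_eq, abs_lt]; constructor <;> linarith only [hη0, hηη1, v2, v1])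
  have w2 : dist (gm (κ * V Do ψ) k) (gm (κ * V D ψ) k) < ε / 8 :=
    hc1 _ (by rw [Real.dist_eq, abs_lt]; constructor <;> linarith only [hη0, hηη1, v6, v5])
  have w3 : dist (gm (κ * V Di φ) k) (gm (κ * V D φ) k) < ε / 4 :=
    hc2 _ (by rw [Real.dist_eq, abs_lt]; constructor <;> linarith only [hη0, hηη2, v4, v3])
  -- the limits
  have l1 := signed (κ := κ) hδ hDib hGi hpi hmi hp0 hm0 k
  rw [← hφe] at l1
  have l2 := hGi ψ hψi hψ0 k
  have l3 := hGo ψ hψo hψ0 k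
  have n1 : ∀ᶠ n in (U : Filter ℕ), Vs (δ n) Di ⊆ F n :=
    hU (hin Di Metric.isOpen_thickening hDib hDiD)
  have n2 : ∀ᶠ n in (U : Filter ℕ), F n ⊆ Vs (δ n) Do :=
    hU (hout Do Metric.isOpen_thickening hDob hDDo)
  filter_upwards [n1, n2, Metric.tendsto_nhds.1 l1 (ε / 8) (by positivity),
    Metric.tendsto_nhds.1 l2 (ε / 8) (by positivity),
    Metric.tendsto_nhds.1 l3 (ε / 8) (by positivity)] with n m1 m2 d1 d2 d3
  have sq := squeeze_fin hm (hδ n) hp.cs hm'.cs hp0 hm0 m1 m2 k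
  have e1 : ze (F n) (fun ω => hv (δ n) φ ω ^ k)
      = ze (F n) (fun ω => (hv (δ n) p ω - hv (δ n) m ω) ^ k) := by
    congr 1
    funext ω
    congr 1
    have h1 := hv_add (hδ n) hp.cs hm'.cs 1 (-1) ω
    have h2 : (fun z => 1 * p z + (-1) * m z) = φ := by funext z; rw [hpm z]; ring
    rw [h2] at h1
    rw [h1]; ring
  have e2 : ∀ ω, hv (δ n) ψ ω = hv (δ n) p ω + hv (δ n) m ω := by
    intro ω
    have h1 := hv_add (hδ n) hp.cs hm'.cs 1 1 ω
    have h2 : (fun z => 1 * p z + 1 * m z) = ψ := by funext z; rw [hψ]; ring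
    rw [h2] at h1
    rw [h1]; ring
  simp_rw [e2] at d2 d3
  rw [e1]
  unfold EE at d1 d2 d3
  rw [Real.dist_eq] at d1 d2 d3 w1 w2 w3 ⊢
  rw [abs_lt] at d1 d2 d3 w1 w2 w3 ⊢
  rw [abs_le] at sq
  constructor <;> linarith only [w1, w2, w3, d1, sq, d2, d3]

end Vale.Agent.P153.F.Top
end

section

/-!
# P153, block F-B: walls of `τ` are closed for `σ`

`t` and `s` are spins at most one of which changes along every edge. A path of the dual complement
of the `t`-monochromatic edges (it uses vertices and `t`-bichromatic edges) gives a path of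
`s`-monochromatic edges along it, inside the same region.
-/

namespace Vale.Agent.P153.F.RSW

open Vale.Agent.P153.Topo Vale.Agent.P153.A

/-- The six directions. -/
def Dir (e : ℤ × ℤ) : Prop :=
  e = (1, 0) ∨ e = (0, 1) ∨ e = (-1, 1) ∨ e = (-1, 0) ∨ e = (0, -1) ∨ e = (1, -1)

/-- Rotation by 60 degrees. -/
def rt (e : ℤ × ℤ) : ℤ × ℤ := (-e.2, e.1 + e.2)

/-- Rotation by -60 degrees. -/
def rt' (e : ℤ × ℤ) : ℤ × ℤ := (e.1 + e.2, -e.1)

theorem dir_rt {e : ℤ × ℤ} (h : Dir e) : Dir (rt e) := by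
  rcases h with rfl | rfl | rfl | rfl | rfl | rfl <;> simp [Dir, rt]

theorem dir_rt' {e : ℤ × ℤ} (h : Dir e) : Dir (rt' e) := by
  rcases h with rfl | rfl | rfl | rfl | rfl | rfl <;> simp [Dir, rt']

theorem dir_cases {e e' : ℤ × ℤ} (h : Dir e) (h' : Dir e') :
    e' = e ∨ e' = rt e ∨ e' = rt (rt e) ∨ e' = -e ∨ e' = rt' (rt' e) ∨ e' = rt' e := by
  rcases h with rfl | rfl | rfl | rfl | rfl | rfl <;>
    rcases h' with rfl | rfl | rfl | rfl | rfl | rfl <;> simp [rt, rt']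

/-- The point of the fine lattice at the vertex `V`, moved by `e`. -/
def pt (V e : ℤ × ℤ) : ℤ × ℤ := (2 * V.1 + e.1, 2 * V.2 + e.2)

theorem pt_mid {V e : ℤ × ℤ} (h : Dir e) : pt V e ∈ Mid := by
  rcases h with rfl | rfl | rfl | rfl | rfl | rfl <;>
    simp only [pt, Mid, Set.mem_ofPred_eq, Int.odd_iff] <;> omega

theorem pt_ends {V e : ℤ × ℤ} (h : Dir e) :
    (v1 (pt V e) = V ∧ v2 (pt V e) = V + e) ∨ (v1 (pt V e) = V + e ∧ v2 (pt V e) = V) := by
  obtain ⟨a, b⟩ := V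
  rcases h with rfl | rfl | rfl | rfl | rfl | rfl <;>
    simp only [pt, v1, v2, Prod.mk_add_mk, Prod.mk.injEq] <;> omega

/-- The midpoints of the monochromatic edges. -/
def Wm (u : Sp) : Set (ℤ × ℤ) := {z | z ∈ Mid ∧ u (v1 z) = u (v2 z)}

theorem pt_Wm {u : Sp} {V e : ℤ × ℤ} (h : Dir e) : pt V e ∈ Wm u ↔ u V = u (V + e) := by
  rcases pt_ends (V := V) h with ⟨h1, h2⟩ | ⟨h1, h2⟩
  · simp only [Wm, Set.mem_ofPred_eq, h1, h2, pt_mid h, true_and]
  · simp only [Wm, Set.mem_ofPred_eq, h1, h2, pt_mid h, true_and]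
    exact eq_comm

theorem pt_adj {V e : ℤ × ℤ} (h : Dir e) : Adj (pt V e) (pt V (rt e)) := by
  rw [Topo.adj_iff]
  rcases h with rfl | rfl | rfl | rfl | rfl | rfl <;> dsimp only [pt, rt] <;> omega

theorem rt_rt' (e : ℤ × ℤ) : rt (rt' e) = e := by
  ext <;> simp [rt, rt']

theorem pt_adj' {V e : ℤ × ℤ} (h : Dir e) : Adj (pt V e) (pt V (rt' e)) := by
  have h1 := pt_adj (V := V) (dir_rt' h)
  rw [rt_rt'] at h1
  exact adj_symm h1

theorem dir_adj {V e : ℤ × ℤ} (h : Dir e) : Adj V (V + e) := by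
  rw [Topo.adj_iff]
  simp only [Prod.fst_add, Prod.snd_add]
  rcases h with rfl | rfl | rfl | rfl | rfl | rfl <;> dsimp only <;> omega

theorem dir_adj2 {V e : ℤ × ℤ} (h : Dir e) : Adj (V + e) (V + rt e) := by
  rw [Topo.adj_iff]
  simp only [Prod.fst_add, Prod.snd_add]
  rcases h with rfl | rfl | rfl | rfl | rfl | rfl <;> dsimp only [rt] <;> omega

/-- Regions bounded by lattice lines. -/
structure RG (R : Set (ℤ × ℤ)) : Prop where
  c2 : ∀ V e : ℤ × ℤ, Dir e → pt V 0 ∈ R → pt V e ∈ R → pt V (rt (rt e)) ∈ R → pt V (rt e) ∈ R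
  c3 : ∀ V e : ℤ × ℤ, Dir e → pt V 0 ∈ R → pt V e ∈ R → pt V (-e) ∈ R →
    (pt V (rt e) ∈ R ∧ pt V (rt (rt e)) ∈ R) ∨ (pt V (rt' e) ∈ R ∧ pt V (rt' (rt' e)) ∈ R)

theorem rg_pr {a b c d : ℤ} (hab : a < b) (hcd : c < d) : RG (pr a b c d) := by
  constructor
  · rintro ⟨v, w⟩ e he h0 h1 h2
    rcases he with rfl | rfl | rfl | rfl | rfl | rfl <;>
      simp only [pr, pt, rt, Set.mem_ofPred_eq, Prod.fst_zero, Prod.snd_zero] at h0 h1 h2 ⊢ <;>
      omega
  · rintro ⟨v, w⟩ e he h0 h1 h2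
    rcases he with rfl | rfl | rfl | rfl | rfl | rfl <;>
      simp only [pr, pt, rt, rt', Set.mem_ofPred_eq, Prod.fst_zero, Prod.snd_zero, Prod.fst_neg,
        Prod.snd_neg] at h0 h1 h2 ⊢ <;>
      omega

theorem rg_hex {n : ℤ} (hn : 0 < n) : RG (hex 0 0 n) := by
  constructor
  · rintro ⟨v, w⟩ e he h0 h1 h2
    rcases he with rfl | rfl | rfl | rfl | rfl | rfl <;>
      simp only [hex, pt, rt, Set.mem_ofPred_eq, Prod.fst_zero, Prod.snd_zero] at h0 h1 h2 ⊢ <;>
      omega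
  · rintro ⟨v, w⟩ e he h0 h1 h2
    rcases he with rfl | rfl | rfl | rfl | rfl | rfl <;>
      simp only [hex, pt, rt, rt', Set.mem_ofPred_eq, Prod.fst_zero, Prod.snd_zero, Prod.fst_neg,
        Prod.snd_neg] at h0 h1 h2 ⊢ <;>
      omega

/-- At most one of the spins changes along every edge. -/
def Cmp (t s : Sp) : Prop := ∀ x y, Adj x y → t x = t y ∨ s x = s y

theorem star0 {t s : Sp} (hc : Cmp t s) {V e : ℤ × ℤ} (he : Dir e) (h : t V ≠ t (V + e)) :
    s V = s (V + e) := by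
  rcases hc _ _ (dir_adj (V := V) he) with h1 | h1
  · exact absurd h1 h
  · exact h1

theorem star1 {t s : Sp} (hc : Cmp t s) {V e : ℤ × ℤ} (he : Dir e) (h : t V ≠ t (V + e)) :
    s V = s (V + rt e) := by
  by_cases h1 : t V = t (V + rt e)
  · have h2 : t (V + e) ≠ t (V + rt e) := fun h3 => h (h1.trans h3.symm)
    rcases hc _ _ (dir_adj2 (V := V) he) with h3 | h3
    · exact absurd h3 h2
    · exact (star0 hc he h).trans h3
  · exact star0 hc (dir_rt he) h1

theorem star2 {t s : Sp} (hc : Cmp t s) {V e : ℤ × ℤ} (he : Dir e) (h : t V ≠ t (V + e)) :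
    s V = s (V + rt' e) := by
  by_cases h1 : t V = t (V + rt' e)
  · have h2 : t (V + e) ≠ t (V + rt' e) := fun h3 => h (h1.trans h3.symm)
    have h4 := dir_adj2 (V := V) (dir_rt' he)
    rw [rt_rt'] at h4
    rcases hc _ _ (adj_symm h4) with h3 | h3
    · exact absurd h3 h2
    · exact (star0 hc he h).trans h3
  · exact star0 hc (dir_rt' he) h1

/-- The star of a vertex: two `t`-bichromatic edges are joined by `s`-monochromatic edges. -/
theorem star {t s : Sp} (hc : Cmp t s) {R : Set (ℤ × ℤ)} (hR : RG R) {V e e' : ℤ × ℤ}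
    (he : Dir e) (he' : Dir e') (h0 : pt V 0 ∈ R) (h1 : pt V e ∈ R) (h2 : pt V e' ∈ R)
    (ht : t V ≠ t (V + e)) (ht' : t V ≠ t (V + e')) : Conn (Wm s ∩ R) (pt V e) (pt V e') := by
  have m1 : pt V e ∈ Wm s ∩ R := ⟨(pt_Wm he).2 (star0 hc he ht), h1⟩
  have m2 : pt V e' ∈ Wm s ∩ R := ⟨(pt_Wm he').2 (star0 hc he' ht'), h2⟩
  rcases dir_cases he he' with rfl | rfl | rfl | rfl | rfl | rfl
  · exact Conn.refl m1
  · exact Conn.of_adj m1 m2 (pt_adj he)
  · have m3 : pt V (rt e) ∈ Wm s ∩ R :=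
      ⟨(pt_Wm (dir_rt he)).2 (star1 hc he ht), hR.c2 V e he h0 h1 h2⟩
    exact (Conn.of_adj m1 m3 (pt_adj he)).tail (pt_adj (dir_rt he)) m2
  · rcases hR.c3 V e he h0 h1 h2 with ⟨h3, h4⟩ | ⟨h3, h4⟩
    · have m3 : pt V (rt e) ∈ Wm s ∩ R := ⟨(pt_Wm (dir_rt he)).2 (star1 hc he ht), h3⟩
      have e1 : rt (rt e) = rt' (-e) := by ext <;> simp only [rt, rt', Prod.fst_neg, Prod.snd_neg] <;> ring
      have m4 : pt V (rt (rt e)) ∈ Wm s ∩ R := by
        refine ⟨(pt_Wm (dir_rt (dir_rt he))).2 ?_, h4⟩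
        rw [e1]
        exact star2 hc he' ht'
      refine ((Conn.of_adj m1 m3 (pt_adj he)).tail (pt_adj (dir_rt he)) m4).tail ?_ m2
      have e2 : -e = rt (rt (rt e)) := by ext <;> simp [rt]
      rw [e2]
      exact pt_adj (dir_rt (dir_rt he))
    · have m3 : pt V (rt' e) ∈ Wm s ∩ R := ⟨(pt_Wm (dir_rt' he)).2 (star2 hc he ht), h3⟩
      have e1 : rt' (rt' e) = rt (-e) := by ext <;> simp only [rt, rt', Prod.fst_neg, Prod.snd_neg] <;> ring
      have m4 : pt V (rt' (rt' e)) ∈ Wm s ∩ R := by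
        refine ⟨(pt_Wm (dir_rt' (dir_rt' he))).2 ?_, h4⟩
        rw [e1]
        exact star1 hc he' ht'
      refine ((Conn.of_adj m1 m3 (pt_adj' he)).tail (pt_adj' (dir_rt' he)) m4).tail ?_ m2
      have e2 : -e = rt' (rt' (rt' e)) := by ext <;> simp [rt']
      rw [e2]
      exact pt_adj' (dir_rt' (dir_rt' he))
  · have h3 : pt V (rt (rt (rt' (rt' e)))) ∈ R := by rw [rt_rt', rt_rt']; exact h1
    have h4 := hR.c2 V _ he' h0 h2 h3
    rw [rt_rt'] at h4
    have m3 : pt V (rt' e) ∈ Wm s ∩ R := ⟨(pt_Wm (dir_rt' he)).2 (star2 hc he ht), h4⟩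
    exact (Conn.of_adj m1 m3 (pt_adj' he)).tail (pt_adj' (dir_rt' he)) m2
  · exact Conn.of_adj m1 m2 (pt_adj' he)

/-- A `t`-bichromatic edge at, or equal to, the point `z`. -/
def Near (t : Sp) (R : Set (ℤ × ℤ)) (z m : ℤ × ℤ) : Prop :=
  m ∈ Mid ∧ m ∈ R ∧ t (v1 m) ≠ t (v2 m) ∧ (m = z ∨ (z ∉ Mid ∧ Adj z m))

/-- A point which is not a midpoint is a vertex. -/
theorem vertex_of {z : ℤ × ℤ} (h : z ∉ Mid) : ∃ V, z = pt V 0 := by
  refine ⟨(z.1 / 2, z.2 / 2), ?_⟩
  simp only [Mid, Set.mem_ofPred_eq, Int.odd_iff, not_or] at h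
  ext <;> simp only [pt, Prod.fst_zero, Prod.snd_zero] <;> omega

theorem adj_vertex {V m : ℤ × ℤ} (h : Adj (pt V 0) m) : ∃ e, Dir e ∧ m = pt V e := by
  rw [Topo.adj_iff] at h
  simp only [pt, Prod.fst_zero, Prod.snd_zero, add_zero] at h
  refine ⟨(m.1 - 2 * V.1, m.2 - 2 * V.2), ?_, ?_⟩
  · simp only [Dir, Prod.mk.injEq]
    rcases h with h | h | h | h | h | h <;> omega
  · ext <;> simp [pt]

theorem near_vertex {t : Sp} {R : Set (ℤ × ℤ)} {V m : ℤ × ℤ} (h : Near t R (pt V 0) m) :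
    ∃ e, Dir e ∧ m = pt V e ∧ t V ≠ t (V + e) ∧ m ∈ R := by
  obtain ⟨h1, h2, h3, h4⟩ := h
  rcases h4 with rfl | ⟨_, h4⟩
  · exfalso
    simp only [Mid, Set.mem_ofPred_eq, pt, Prod.fst_zero, Prod.snd_zero, Int.odd_iff] at h1
    omega
  · obtain ⟨e, he, rfl⟩ := adj_vertex h4
    refine ⟨e, he, rfl, ?_, h2⟩
    rcases pt_ends (V := V) he with ⟨g1, g2⟩ | ⟨g1, g2⟩
    · rwa [g1, g2] at h3
    · rw [g1, g2] at h3
      exact h3.symm

theorem mid_adj_vertex {z m : ℤ × ℤ} (hz : z ∉ Mid) (h : Adj z m) : m ∈ Mid := by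
  obtain ⟨V, rfl⟩ := vertex_of hz
  obtain ⟨e, he, rfl⟩ := adj_vertex h
  exact pt_mid he

theorem bi_Wm {t s : Sp} (hc : Cmp t s) {z : ℤ × ℤ} (hz : z ∈ Mid) (h : t (v1 z) ≠ t (v2 z)) :
    z ∈ Wm s := by
  have hadj : Adj (v1 z) (v2 z) := by
    rw [Topo.adj_iff]
    simp only [Mid, Set.mem_ofPred_eq, Int.odd_iff] at hz
    simp only [v1, v2]
    omega
  rcases hc _ _ hadj with h1 | h1
  · exact absurd h1 h
  · exact ⟨hz, h1⟩

/-- **Walls.** -/
theorem wall {t s : Sp} (hc : Cmp t s) {R : Set (ℤ × ℤ)} (hR : RG R) {x y : ℤ × ℤ}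
    (h : Conn ((Wm t)ᶜ ∩ R) x y) (hxy : x ≠ y) :
    ∃ m m', Near t R x m ∧ Near t R y m' ∧ Conn (Wm s ∩ R) m m' := by
  have key : y = x ∨ ∃ m, Near t R x m ∧ (∃ m', Near t R y m') ∧
      ∀ m', Near t R y m' → Conn (Wm s ∩ R) m m' := by
    refine Conn.ind (fun z => z = x ∨ ∃ m, Near t R x m ∧ (∃ m', Near t R z m') ∧
      ∀ m', Near t R z m' → Conn (Wm s ∩ R) m m') (Or.inl rfl) (fun u v hu huv hv ih => ?_) h
    have bi : ∀ z ∈ (Wm t)ᶜ ∩ R, z ∈ Mid → t (v1 z) ≠ t (v2 z) := fun z hz hz' h' =>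
      hz.1 ⟨hz', h'⟩
    have nself : ∀ z ∈ (Wm t)ᶜ ∩ R, z ∈ Mid → Near t R z z := fun z hz hz' =>
      ⟨hz', hz.2, bi z hz hz', Or.inl rfl⟩
    have eqn : ∀ z m : ℤ × ℤ, z ∈ Mid → Near t R z m → m = z := by
      rintro z m hz ⟨_, _, _, h4⟩
      rcases h4 with h4 | ⟨h4, _⟩
      · exact h4
      · exact absurd hz h4
    have huR := hu.right_mem
    have hst : ∀ z ∈ (Wm t)ᶜ ∩ R, z ∉ Mid → ∀ m m', Near t R z m → Near t R z m' →
        Conn (Wm s ∩ R) m m' := by
      intro z hz hz' m m' h1 h2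
      obtain ⟨V, rfl⟩ := vertex_of hz'
      obtain ⟨e, he, rfl, ht, hR1⟩ := near_vertex h1
      obtain ⟨e', he', rfl, ht', hR2⟩ := near_vertex h2
      exact star hc hR he he' hz.2 hR1 hR2 ht ht'
    by_cases hum : u ∈ Mid
    · -- `u` is a bichromatic edge
      have hnu : ∀ m, Near t R x m → (∀ m', Near t R u m' → Conn (Wm s ∩ R) m m') →
          ∃ m, Near t R x m ∧ (∃ m', Near t R v m') ∧
            ∀ m', Near t R v m' → Conn (Wm s ∩ R) m m' := by
        intro m hm hall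
        have hmu := hall u (nself u huR hum)
        refine ⟨m, hm, ?_, fun m' hm' => ?_⟩
        · by_cases hvm : v ∈ Mid
          · exact ⟨v, nself v hv hvm⟩
          · exact ⟨u, hum, huR.2, bi u huR hum, Or.inr ⟨hvm, adj_symm huv⟩⟩
        · by_cases hvm : v ∈ Mid
          · rw [eqn v m' hvm hm']
            exact hmu.tail huv ⟨bi_Wm hc hvm (bi v hv hvm), hv.2⟩
          · exact hmu.trans (hst v hv hvm u m'
              ⟨hum, huR.2, bi u huR hum, Or.inr ⟨hvm, adj_symm huv⟩⟩ hm')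
      right
      rcases ih with rfl | ⟨m, hm, _, hall⟩
      · refine hnu u (nself u huR hum) fun m' hm' => ?_
        rw [eqn u m' hum hm']
        exact Conn.refl ⟨bi_Wm hc hum (bi u huR hum), huR.2⟩
      · exact hnu m hm hall
    · -- `u` is a vertex
      have hvm : v ∈ Mid := mid_adj_vertex hum huv
      have hnv : Near t R u v := ⟨hvm, hv.2, bi v hv hvm, Or.inr ⟨hum, huv⟩⟩
      right
      rcases ih with rfl | ⟨m, hm, _, hall⟩
      · refine ⟨v, hnv, ⟨v, nself v hv hvm⟩, fun m' hm' => ?_⟩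
        rw [eqn v m' hvm hm']
        exact Conn.refl ⟨bi_Wm hc hvm (bi v hv hvm), hv.2⟩
      · refine ⟨m, hm, ⟨v, nself v hv hvm⟩, fun m' hm' => ?_⟩
        rw [eqn v m' hvm hm']
        exact hall v hnv
  rcases key with h1 | ⟨m, hm, ⟨m', hm'⟩, hall⟩
  · exact absurd h1.symm hxy
  · exact ⟨m, m', hm, hm', hall m' hm'⟩

/-- Adjacent midpoints share a vertex. -/
theorem share {z w : ℤ × ℤ} (hz : z ∈ Mid) (hw : w ∈ Mid) (h : Adj z w) :
    v1 z = v1 w ∨ v1 z = v2 w ∨ v2 z = v1 w ∨ v2 z = v2 w := by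
  rw [Topo.adj_iff] at h
  simp only [Mid, Set.mem_ofPred_eq, Int.odd_iff] at hz hw
  simp only [v1, v2, Prod.mk.injEq]
  rcases h with h | h | h | h | h | h <;> omega

/-- A path of monochromatic edges has a constant sign. -/
theorem sgn {u : Sp} {R : Set (ℤ × ℤ)} {m m' : ℤ × ℤ} (h : Conn (Wm u ∩ R) m m') :
    Conn (Wp u ∩ R) m m' ∨ Conn (Wp (fun x => !u x) ∩ R) m m' := by
  have key : ∀ u' : Sp, (Wm u ⊆ Wm u') → u' (v1 m) = true → Conn (Wp u' ∩ R) m m' := by
    intro u' hu' h0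
    refine Conn.ind (fun z => Conn (Wp u' ∩ R) m z) ?_ (fun a b ha hab hb ih => ?_) h
    · have h1 := hu' h.left_mem.1
      exact Conn.refl ⟨⟨h1.1, h0, by rw [← h1.2]; exact h0⟩, h.left_mem.2⟩
    · have h1 := ih.right_mem.1
      have h2 := hu' hb.1
      have h3 := h2.2
      have hb1 : u' (v1 b) = true ∧ u' (v2 b) = true := by
        rcases share h1.1 h2.1 hab with h4 | h4 | h4 | h4
        · have := h1.2.1
          rw [h4] at this
          exact ⟨this, by rw [← h3]; exact this⟩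
        · have := h1.2.1
          rw [h4] at this
          exact ⟨by rw [h3]; exact this, this⟩
        · have := h1.2.2
          rw [h4] at this
          exact ⟨this, by rw [← h3]; exact this⟩
        · have := h1.2.2
          rw [h4] at this
          exact ⟨by rw [h3]; exact this, this⟩
      exact ih.tail hab ⟨⟨h2.1, hb1.1, hb1.2⟩, hb.2⟩
  cases h0 : u (v1 m)
  · right
    refine key (fun x => !u x) (fun z hz => ⟨hz.1, ?_⟩) ?_
    · have := hz.2
      simp only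
      rw [this]
    · simp [h0]
  · left
    exact key u (fun z hz => hz) h0

end Vale.Agent.P153.F.RSW
end

section

/-!
# P153, block F-B: duality in rhombi and hexagons (deterministic part)
-/

namespace Vale.Agent.P153.F.RSW

open Vale.Agent.P153.Topo
open Vale.Agent.P153.A hiding Loc

/-- A bichromatic edge going up (down) from a vertex is joined to a horizontal one. -/
theorem side1 {t s : Sp} (hc : Cmp t s) {R : Set (ℤ × ℤ)} {V e : ℤ × ℤ} (he : Dir e)
    (ht : t V ≠ t (V + e)) (h1 : pt V e ∈ R) (h2 : pt V (rt e) ∈ R) :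
    Conn (Wm s ∩ R) (pt V (rt e)) (pt V e) :=
  Conn.of_adj ⟨(pt_Wm (dir_rt he)).2 (star1 hc he ht), h2⟩ ⟨(pt_Wm he).2 (star0 hc he ht), h1⟩
    (adj_symm (pt_adj he))

theorem side2 {t s : Sp} (hc : Cmp t s) {R : Set (ℤ × ℤ)} {V e : ℤ × ℤ} (he : Dir e)
    (ht : t V ≠ t (V + e)) (h1 : pt V e ∈ R) (h2 : pt V (rt' e) ∈ R) :
    Conn (Wm s ∩ R) (pt V (rt' e)) (pt V e) :=
  Conn.of_adj ⟨(pt_Wm (dir_rt' he)).2 (star2 hc he ht), h2⟩ ⟨(pt_Wm he).2 (star0 hc he ht), h1⟩
    (adj_symm (pt_adj' he))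

theorem side0 {t s : Sp} (hc : Cmp t s) {R : Set (ℤ × ℤ)} {x m : ℤ × ℤ} (h : Near t R x m) :
    Conn (Wm s ∩ R) m m := Conn.refl ⟨bi_Wm hc h.1 h.2.2.1, h.2.1⟩

/-! ### Rhombi -/

/-- Crossing of the rhombus from the bottom to the top side, each prolonged by one edge. -/
def BX (n : ℤ) (S : Set (ℤ × ℤ)) : Prop :=
  ∃ m m', Conn (S ∩ pr 0 n 0 n) m m' ∧ (m.2 = 0 ∨ m = (2 * n, 1)) ∧
    (m'.2 = 2 * n ∨ m' = (0, 2 * n - 1))

theorem rh_bot {t s : Sp} (hc : Cmp t s) {n : ℤ} {x m : ℤ × ℤ} (hx : x.2 = 0)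
    (h : Near t (pr 0 n 0 n) x m) :
    ∃ m₁, Conn (Wm s ∩ pr 0 n 0 n) m₁ m ∧ (m₁.2 = 0 ∨ m₁ = (2 * n, 1)) := by
  by_cases hxm : x ∈ Mid
  · have hmx : m = x := by
      rcases h.2.2.2 with h4 | ⟨h4, _⟩
      · exact h4
      · exact absurd hxm h4
    exact ⟨m, side0 hc h, Or.inl (by rw [hmx]; exact hx)⟩
  · obtain ⟨V, rfl⟩ := vertex_of hxm
    obtain ⟨e, he, rfl, ht, hR⟩ := near_vertex h
    simp only [pt, Prod.snd_zero] at hx
    have hR' := hR
    simp only [pr, pt, Set.mem_ofPred_eq] at hR'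
    rcases he with rfl | rfl | rfl | rfl | rfl | rfl
    · exact ⟨_, side0 hc h, Or.inl (by simp only [pt]; omega)⟩
    · by_cases hV : V.1 = n
      · refine ⟨_, side0 hc h, Or.inr ?_⟩
        ext <;> simp only [pt] <;> omega
      · refine ⟨_, side2 hc (by simp [Dir]) ht hR ?_, Or.inl ?_⟩
        · simp only [pr, pt, rt', Set.mem_ofPred_eq]
          omega
        · simp only [pt, rt']
          omega
    · refine ⟨_, side1 hc (by simp [Dir]) ht hR ?_, Or.inl ?_⟩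
      · simp only [pr, pt, rt, Set.mem_ofPred_eq]
        omega
      · simp only [pt, rt]
        omega
    · exact ⟨_, side0 hc h, Or.inl (by simp only [pt]; omega)⟩
    · omega
    · omega

theorem rh_top {t s : Sp} (hc : Cmp t s) {n : ℤ} {x m : ℤ × ℤ} (hx : x.2 = 2 * n)
    (h : Near t (pr 0 n 0 n) x m) :
    ∃ m₁, Conn (Wm s ∩ pr 0 n 0 n) m₁ m ∧ (m₁.2 = 2 * n ∨ m₁ = (0, 2 * n - 1)) := by
  by_cases hxm : x ∈ Mid
  · have hmx : m = x := by
      rcases h.2.2.2 with h4 | ⟨h4, _⟩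
      · exact h4
      · exact absurd hxm h4
    exact ⟨m, side0 hc h, Or.inl (by rw [hmx]; exact hx)⟩
  · obtain ⟨V, rfl⟩ := vertex_of hxm
    obtain ⟨e, he, rfl, ht, hR⟩ := near_vertex h
    simp only [pt, Prod.snd_zero] at hx
    have hR' := hR
    simp only [pr, pt, Set.mem_ofPred_eq] at hR'
    rcases he with rfl | rfl | rfl | rfl | rfl | rfl
    · exact ⟨_, side0 hc h, Or.inl (by simp only [pt]; omega)⟩
    · omega
    · omega
    · exact ⟨_, side0 hc h, Or.inl (by simp only [pt]; omega)⟩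
    · by_cases hV : V.1 = 0
      · refine ⟨_, side0 hc h, Or.inr ?_⟩
        ext <;> simp only [pt] <;> omega
      · refine ⟨_, side2 hc (by simp [Dir]) ht hR ?_, Or.inl ?_⟩
        · simp only [pr, pt, rt', Set.mem_ofPred_eq]
          omega
        · simp only [pt, rt']
          omega
    · refine ⟨_, side1 hc (by simp [Dir]) ht hR ?_, Or.inl ?_⟩
      · simp only [pr, pt, rt, Set.mem_ofPred_eq]
        omega
      · simp only [pt, rt]
        omega

/-- **Duality in a rhombus.** -/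
theorem rh_dich {t s : Sp} (hc : Cmp t s) {n : ℤ} (hn : 0 < n) :
    LRp 0 n 0 n (Wp t) ∨ LRp 0 n 0 n (Wp fun x => !t x) ∨ BX n (Wp s) ∨
      BX n (Wp fun x => !s x) := by
  have hRect : Rect 0 (2 * n) 0 (2 * n) = pr 0 n 0 n := by
    ext z
    simp only [Rect, pr, Set.mem_ofPred_eq, mul_zero]
  rcases Topo.hex (Wm t) (a := 0) (b := 2 * n) (c := 0) (d := 2 * n) (by omega) (by omega) with h | h
  · obtain ⟨x, y, h, hx, hy⟩ := h
    rw [hRect] at h
    rcases sgn h with h | h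
    · exact Or.inl ⟨x, y, h, by omega, hy⟩
    · exact Or.inr (Or.inl ⟨x, y, h, by omega, hy⟩)
  · obtain ⟨x, y, h, hx, hy⟩ := h
    rw [hRect] at h
    obtain ⟨m, m', hm, hm', hmm⟩ := wall hc (rg_pr hn hn) h (fun he => by rw [he] at hx; omega)
    obtain ⟨m₁, g1, g2⟩ := rh_bot hc hx hm
    obtain ⟨m₂, g3, g4⟩ := rh_top hc hy hm'
    rcases sgn ((g1.trans hmm).trans g3.symm) with h | h
    · exact Or.inr (Or.inr (Or.inl ⟨m₁, m₂, h, g2, g4⟩))
    · exact Or.inr (Or.inr (Or.inr ⟨m₁, m₂, h, g2, g4⟩))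

/-- The corners of the rhombus are closed. -/
def GR (n : ℤ) (S : Set (ℤ × ℤ)) : Prop :=
  ((2 * n - 1, 1) ∈ S ∧ (2 * n - 1, 0) ∈ S) ∧ ((1, 2 * n - 1) ∈ S ∧ (1, 2 * n) ∈ S)

theorem rh_corner {n : ℤ} (hn : 0 < n) {S : Set (ℤ × ℤ)} (h : BX n S) (hg : GR n S) :
    BTp 0 n 0 n S := by
  obtain ⟨m, m', h, h1, h2⟩ := h
  obtain ⟨⟨g1, g2⟩, g3, g4⟩ := hg
  have c1 : ∃ k, Conn (S ∩ pr 0 n 0 n) k m ∧ k.2 = 0 := by
    rcases h1 with h1 | rfl
    · exact ⟨m, Conn.refl h.left_mem, h1⟩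
    · refine ⟨(2 * n - 1, 0), ?_, rfl⟩
      have e1 : ((2 * n - 1, 1) : ℤ × ℤ) ∈ S ∩ pr 0 n 0 n := ⟨g1, by
        simp only [pr, Set.mem_ofPred_eq]; omega⟩
      have e2 : ((2 * n - 1, 0) : ℤ × ℤ) ∈ S ∩ pr 0 n 0 n := ⟨g2, by
        simp only [pr, Set.mem_ofPred_eq]; omega⟩
      exact (Conn.of_adj e2 e1 (by rw [Topo.adj_iff]; omega)).tail (by rw [Topo.adj_iff]; dsimp only; omega)
        h.left_mem
  have c2 : ∃ k, Conn (S ∩ pr 0 n 0 n) m' k ∧ k.2 = 2 * n := by
    rcases h2 with h2 | rfl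
    · exact ⟨m', Conn.refl h.right_mem, h2⟩
    · refine ⟨(1, 2 * n), ?_, rfl⟩
      have e1 : ((1, 2 * n - 1) : ℤ × ℤ) ∈ S ∩ pr 0 n 0 n := ⟨g3, by
        simp only [pr, Set.mem_ofPred_eq]; omega⟩
      have e2 : ((1, 2 * n) : ℤ × ℤ) ∈ S ∩ pr 0 n 0 n := ⟨g4, by
        simp only [pr, Set.mem_ofPred_eq]; omega⟩
      exact (Conn.of_adj h.right_mem e1 (by rw [Topo.adj_iff]; dsimp only; omega)).tail
        (by rw [Topo.adj_iff]; dsimp only; omega) e2
  obtain ⟨k, hk, hk0⟩ := c1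
  obtain ⟨k', hk', hk0'⟩ := c2
  exact ⟨k, k', (hk.trans h).trans hk', by omega, hk0'⟩

/-! ### Hexagons -/

/-- Crossing of the hexagon from the bottom to the top side, each prolonged by one edge. -/
def HX (n : ℤ) (S : Set (ℤ × ℤ)) : Prop :=
  ∃ m m', Conn (S ∩ hex 0 0 n) m m' ∧
    (m.2 = -(4 * n) ∨ m = (4 * n, -(4 * n) + 1) ∨ m = (-1, -(4 * n) + 1)) ∧
    (m'.2 = 4 * n ∨ m' = (-(4 * n), 4 * n - 1) ∨ m' = (1, 4 * n - 1))

/-- Crossing of the hexagon from the two left sides to the two right sides. -/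
def LU (n : ℤ) (S : Set (ℤ × ℤ)) : Prop :=
  ∃ x y, Conn (S ∩ hex 0 0 n) x y ∧ (x.1 = -(4 * n) ∨ x.1 + x.2 = -(4 * n)) ∧
    (y.1 = 4 * n ∨ y.1 + y.2 = 4 * n)

theorem mem_hex0 {n : ℤ} {z : ℤ × ℤ} : z ∈ hex 0 0 n ↔ -(4 * n) ≤ z.2 ∧ z.2 ≤ 4 * n ∧
    -(4 * n) ≤ z.1 ∧ z.1 ≤ 4 * n ∧ -(4 * n) ≤ z.1 + z.2 ∧ z.1 + z.2 ≤ 4 * n := by
  simp only [hex, Set.mem_ofPred_eq]
  omega

theorem hx_bot {t s : Sp} (hc : Cmp t s) {n : ℤ} {x m : ℤ × ℤ} (hx : x.2 = -(4 * n))
    (h : Near t (hex 0 0 n) x m) :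
    ∃ m₁, Conn (Wm s ∩ hex 0 0 n) m₁ m ∧
      (m₁.2 = -(4 * n) ∨ m₁ = (4 * n, -(4 * n) + 1) ∨ m₁ = (-1, -(4 * n) + 1)) := by
  by_cases hxm : x ∈ Mid
  · have hmx : m = x := by
      rcases h.2.2.2 with h4 | ⟨h4, _⟩
      · exact h4
      · exact absurd hxm h4
    exact ⟨m, side0 hc h, Or.inl (by rw [hmx]; exact hx)⟩
  · obtain ⟨V, rfl⟩ := vertex_of hxm
    obtain ⟨e, he, rfl, ht, hR⟩ := near_vertex h
    simp only [pt, Prod.snd_zero] at hx
    have hR' := mem_hex0.1 hR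
    simp only [pt] at hR'
    rcases he with rfl | rfl | rfl | rfl | rfl | rfl
    · exact ⟨_, side0 hc h, Or.inl (by simp only [pt]; omega)⟩
    · by_cases hV : V.1 = 2 * n
      · refine ⟨_, side0 hc h, Or.inr (Or.inl ?_)⟩
        ext <;> simp only [pt] <;> omega
      · refine ⟨_, side2 hc (by simp [Dir]) ht hR ?_, Or.inl ?_⟩
        · rw [mem_hex0]
          simp only [pt, rt']
          omega
        · simp only [pt, rt']
          omega
    · by_cases hV : V.1 = 0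
      · refine ⟨_, side0 hc h, Or.inr (Or.inr ?_)⟩
        ext <;> simp only [pt] <;> omega
      · refine ⟨_, side1 hc (by simp [Dir]) ht hR ?_, Or.inl ?_⟩
        · rw [mem_hex0]
          simp only [pt, rt]
          omega
        · simp only [pt, rt]
          omega
    · exact ⟨_, side0 hc h, Or.inl (by simp only [pt]; omega)⟩
    · omega
    · omega

theorem hx_top {t s : Sp} (hc : Cmp t s) {n : ℤ} {x m : ℤ × ℤ} (hx : x.2 = 4 * n)
    (h : Near t (hex 0 0 n) x m) :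
    ∃ m₁, Conn (Wm s ∩ hex 0 0 n) m₁ m ∧
      (m₁.2 = 4 * n ∨ m₁ = (-(4 * n), 4 * n - 1) ∨ m₁ = (1, 4 * n - 1)) := by
  by_cases hxm : x ∈ Mid
  · have hmx : m = x := by
      rcases h.2.2.2 with h4 | ⟨h4, _⟩
      · exact h4
      · exact absurd hxm h4
    exact ⟨m, side0 hc h, Or.inl (by rw [hmx]; exact hx)⟩
  · obtain ⟨V, rfl⟩ := vertex_of hxm
    obtain ⟨e, he, rfl, ht, hR⟩ := near_vertex h
    simp only [pt, Prod.snd_zero] at hx
    have hR' := mem_hex0.1 hR
    simp only [pt] at hR'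
    rcases he with rfl | rfl | rfl | rfl | rfl | rfl
    · exact ⟨_, side0 hc h, Or.inl (by simp only [pt]; omega)⟩
    · omega
    · omega
    · exact ⟨_, side0 hc h, Or.inl (by simp only [pt]; omega)⟩
    · by_cases hV : V.1 = -(2 * n)
      · refine ⟨_, side0 hc h, Or.inr (Or.inl ?_)⟩
        ext <;> simp only [pt] <;> omega
      · refine ⟨_, side2 hc (by simp [Dir]) ht hR ?_, Or.inl ?_⟩
        · rw [mem_hex0]
          simp only [pt, rt']
          omega
        · simp only [pt, rt']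
          omega
    · by_cases hV : V.1 = 0
      · refine ⟨_, side0 hc h, Or.inr (Or.inr ?_)⟩
        ext <;> simp only [pt] <;> omega
      · refine ⟨_, side1 hc (by simp [Dir]) ht hR ?_, Or.inl ?_⟩
        · rw [mem_hex0]
          simp only [pt, rt]
          omega
        · simp only [pt, rt]
          omega

/-- A crossing of the parallelogram, the corners outside the hexagon being open, gives a crossing
of the hexagon. -/
theorem hx_extract {A : Set (ℤ × ℤ)} {n : ℤ} (hn : 0 < n) {x y : ℤ × ℤ}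
    (h : Conn (((A ∩ hex 0 0 n) ∪ {z | 4 * n < z.1 + z.2 ∨ z.1 + z.2 < -(4 * n)}) ∩
      Rect (-(4 * n)) (4 * n) (-(4 * n)) (4 * n)) x y) (hx : x.1 = -(4 * n)) (hy : y.1 = 4 * n) :
    LU n A := by
  have key : (y.1 + y.2 < -(4 * n)) ∨
      (∃ x', Conn (A ∩ hex 0 0 n) x' y ∧ (x'.1 = -(4 * n) ∨ x'.1 + x'.2 = -(4 * n))) ∨ LU n A := by
    refine Conn.ind (fun z => (z.1 + z.2 < -(4 * n)) ∨
      (∃ x', Conn (A ∩ hex 0 0 n) x' z ∧ (x'.1 = -(4 * n) ∨ x'.1 + x'.2 = -(4 * n))) ∨ LU n A)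
      ?_ (fun u v hu huv hv ih => ?_) h
    · obtain ⟨h1, h2⟩ := h.left_mem
      rcases h1 with h1 | h1 | h1
      · exact Or.inr (Or.inl ⟨x, Conn.refl h1, Or.inl hx⟩)
      · rw [mem_rect] at h2
        omega
      · exact Or.inl h1
    · rw [Topo.adj_iff] at huv
      rcases ih with ih | ⟨x', ih, hx'⟩ | ih
      · rcases hv.1 with h1 | h1 | h1
        · refine Or.inr (Or.inl ⟨v, Conn.refl h1, Or.inr ?_⟩)
          have := mem_hex0.1 h1.2
          omega
        · omega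
        · exact Or.inl h1
      · rcases hv.1 with h1 | h1 | h1
        · exact Or.inr (Or.inl ⟨x', ih.tail (Topo.adj_iff.2 huv) h1, hx'⟩)
        · refine Or.inr (Or.inr ⟨x', u, ih, hx', Or.inr ?_⟩)
          have := mem_hex0.1 ih.right_mem.2
          omega
        · exact Or.inl h1
      · exact Or.inr (Or.inr ih)
  have hyR := h.right_mem.2
  rw [mem_rect] at hyR
  rcases key with h1 | ⟨x', h1, h2⟩ | h1
  · omega
  · exact ⟨x', y, h1, h2, Or.inl hy⟩
  · exact h1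

/-- **Duality in a hexagon.** -/
theorem hx_dich {t s : Sp} (hc : Cmp t s) {n : ℤ} (hn : 0 < n) :
    LU n (Wp t) ∨ LU n (Wp fun x => !t x) ∨ HX n (Wp s) ∨ HX n (Wp fun x => !s x) := by
  rcases Topo.hex ((Wm t ∩ hex 0 0 n) ∪ {z | 4 * n < z.1 + z.2 ∨ z.1 + z.2 < -(4 * n)})
    (a := -(4 * n)) (b := 4 * n) (c := -(4 * n)) (d := 4 * n) (by omega) (by omega) with h | h
  · obtain ⟨x, y, h, hx, hy⟩ := h
    obtain ⟨x', y', h', h1, h2⟩ := hx_extract hn h hx hy
    rcases sgn h' with h | h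
    · exact Or.inl ⟨x', y', h, h1, h2⟩
    · exact Or.inr (Or.inl ⟨x', y', h, h1, h2⟩)
  · obtain ⟨x, y, h, hx, hy⟩ := h
    have h' : Conn ((Wm t)ᶜ ∩ hex 0 0 n) x y := by
      refine h.mono ?_
      rintro z ⟨h1, h2⟩
      rw [Set.mem_compl_iff, Set.mem_union, not_or] at h1
      have h3 : z ∈ hex 0 0 n := by
        rw [mem_hex0]
        rw [mem_rect] at h2
        have h4 := h1.2
        simp only [Set.mem_ofPred_eq, not_or, not_lt] at h4
        omega
      exact ⟨fun h4 => h1.1 ⟨h4, h3⟩, h3⟩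
    obtain ⟨m, m', hm, hm', hmm⟩ := wall hc (rg_hex hn) h' (fun he => by rw [he] at hx; omega)
    obtain ⟨m₁, g1, g2⟩ := hx_bot hc hx hm
    obtain ⟨m₂, g3, g4⟩ := hx_top hc hy hm'
    rcases sgn ((g1.trans hmm).trans g3.symm) with h | h
    · exact Or.inr (Or.inr (Or.inl ⟨m₁, m₂, h, g2, g4⟩))
    · exact Or.inr (Or.inr (Or.inr ⟨m₁, m₂, h, g2, g4⟩))

/-- The corners of the top and of the bottom side of the hexagon are closed. -/
def GH (n : ℤ) (S : Set (ℤ × ℤ)) : Prop :=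
  (((4 * n - 1, -(4 * n) + 1) ∈ S ∧ (4 * n - 1, -(4 * n)) ∈ S) ∧
    ((0, -(4 * n) + 1) ∈ S ∧ (1, -(4 * n)) ∈ S)) ∧
  (((-(4 * n) + 1, 4 * n - 1) ∈ S ∧ (-(4 * n) + 1, 4 * n) ∈ S) ∧
    ((0, 4 * n - 1) ∈ S ∧ (-1, 4 * n) ∈ S))

theorem hx_corner {n : ℤ} (hn : 0 < n) {S : Set (ℤ × ℤ)} (h : HX n S) (hg : GH n S) :
    HT 0 0 n (-n) n S := by
  obtain ⟨m, m', h, h1, h2⟩ := h
  obtain ⟨⟨⟨g1, g2⟩, g3, g4⟩, ⟨⟨g5, g6⟩, g7, g8⟩⟩ := hg
  have two : ∀ a b c : ℤ × ℤ, a ∈ S ∩ hex 0 0 n → b ∈ S → b ∈ hex 0 0 n → c ∈ S → c ∈ hex 0 0 n →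
      Adj a b → Adj b c → Conn (S ∩ hex 0 0 n) a c := fun a b c ha hb hb' hc hc' hab hbc =>
    (Conn.of_adj ha ⟨hb, hb'⟩ hab).tail hbc ⟨hc, hc'⟩
  have c1 : ∃ k, Conn (S ∩ hex 0 0 n) m k ∧ k.2 = -(4 * n) := by
    rcases h1 with h1 | rfl | rfl
    · exact ⟨m, Conn.refl h.left_mem, h1⟩
    · exact ⟨_, two _ _ _ h.left_mem g1 (by rw [mem_hex0]; dsimp only; omega) g2
        (by rw [mem_hex0]; dsimp only; omega) (by rw [Topo.adj_iff]; dsimp only; omega)
        (by rw [Topo.adj_iff]; dsimp only; omega), rfl⟩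
    · exact ⟨_, two _ _ _ h.left_mem g3 (by rw [mem_hex0]; dsimp only; omega) g4
        (by rw [mem_hex0]; dsimp only; omega) (by rw [Topo.adj_iff]; dsimp only; omega)
        (by rw [Topo.adj_iff]; dsimp only; omega), rfl⟩
  have c2 : ∃ k, Conn (S ∩ hex 0 0 n) m' k ∧ k.2 = 4 * n := by
    rcases h2 with h2 | rfl | rfl
    · exact ⟨m', Conn.refl h.right_mem, h2⟩
    · exact ⟨_, two _ _ _ h.right_mem g5 (by rw [mem_hex0]; dsimp only; omega) g6
        (by rw [mem_hex0]; dsimp only; omega) (by rw [Topo.adj_iff]; dsimp only; omega)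
        (by rw [Topo.adj_iff]; dsimp only; omega), rfl⟩
    · exact ⟨_, two _ _ _ h.right_mem g7 (by rw [mem_hex0]; dsimp only; omega) g8
        (by rw [mem_hex0]; dsimp only; omega) (by rw [Topo.adj_iff]; dsimp only; omega)
        (by rw [Topo.adj_iff]; dsimp only; omega), rfl⟩
  obtain ⟨k, hk, hk0⟩ := c1
  obtain ⟨k', hk', hk0'⟩ := c2
  have hkR := mem_hex0.1 hk'.right_mem.2
  exact ⟨k, k', (hk.symm.trans h).trans hk', by omega, by omega, by omega, by omega⟩

/-! ### Crossings between sides of the hexagon -/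

/-- From the left side to the upper right side. -/
def C2 (n : ℤ) (S : Set (ℤ × ℤ)) : Prop :=
  ∃ x y, Conn (S ∩ hex 0 0 n) x y ∧ (x.1 = -(4 * n) ∧ y.1 + y.2 = 4 * n)

/-- From the lower left side to the right side. -/
def C3 (n : ℤ) (S : Set (ℤ × ℤ)) : Prop :=
  ∃ x y, Conn (S ∩ hex 0 0 n) x y ∧ (x.1 + x.2 = -(4 * n) ∧ y.1 = 4 * n)

/-- From the lower left side to the upper right side. -/
def C4 (n : ℤ) (S : Set (ℤ × ℤ)) : Prop :=
  ∃ x y, Conn (S ∩ hex 0 0 n) x y ∧ (x.1 + x.2 = -(4 * n) ∧ y.1 + y.2 = 4 * n)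

/-- From the top side to the lower left side. -/
def C5 (n : ℤ) (S : Set (ℤ × ℤ)) : Prop :=
  ∃ x y, Conn (S ∩ hex 0 0 n) x y ∧ (x.2 = 4 * n ∧ y.1 + y.2 = -(4 * n))

theorem LU_cases {n : ℤ} {S : Set (ℤ × ℤ)} (h : LU n S) :
    (CT 0 0 n S ∨ C2 n S) ∨ (C3 n S ∨ C4 n S) := by
  obtain ⟨x, y, h, h1 | h1, h2 | h2⟩ := h
  · exact Or.inl (Or.inl ⟨x, y, h, by omega, by omega⟩)
  · exact Or.inl (Or.inr ⟨x, y, h, h1, h2⟩)
  · exact Or.inr (Or.inl ⟨x, y, h, h1, h2⟩)
  · exact Or.inr (Or.inr ⟨x, y, h, h1, h2⟩)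

/-- Two interlaced crossings meet. -/
theorem C25 {n : ℤ} {S : Set (ℤ × ℤ)} (h2 : C2 n S) (h5 : C5 n S) : C4 n S := by
  obtain ⟨x, y, h, hx, hy⟩ := h2
  obtain ⟨u, v, k, hu, hv⟩ := h5
  have hyR := mem_hex0.1 h.right_mem.2
  have hvR := mem_hex0.1 k.right_mem.2
  set A : Set (ℤ × ℤ) := {z | Conn (S ∩ hex 0 0 n) x z} ∪ {z | z.2 = y.2 ∧ y.1 < z.1 ∧ z.1 ≤ 4 * n}
    with hA
  set B : Set (ℤ × ℤ) := {z | Conn (S ∩ hex 0 0 n) u z} ∪
    {z | z.1 = v.1 ∧ z.2 < v.2 ∧ -(4 * n) ≤ z.2} with hB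
  have hAc : Conn A x y := by
    refine Conn.ind (fun z => Conn A x z) (Conn.refl (Or.inl (Conn.refl h.left_mem))) ?_ h
    intro a b ha hab hb ih
    exact ih.tail hab (Or.inl (ha.tail hab hb))
  have hBc : Conn B u v := by
    refine Conn.ind (fun z => Conn B u z) (Conn.refl (Or.inl (Conn.refl k.left_mem))) ?_ k
    intro a b ha hab hb ih
    exact ih.tail hab (Or.inl (ha.tail hab hb))
  have ext1 : ∀ j : ℕ, y.1 + j ≤ 4 * n → Conn A x (y.1 + j, y.2) := by
    intro j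
    induction j with
    | zero => intro _; simpa using hAc
    | succ j ih =>
      intro hj
      push_cast at hj
      refine (ih (by omega)).tail (by rw [Topo.adj_iff]; dsimp only; omega) (Or.inr ?_)
      refine ⟨rfl, ?_, ?_⟩ <;> dsimp only <;> push_cast <;> omega
  have ext2 : ∀ j : ℕ, -(4 * n) ≤ v.2 - j → Conn B u (v.1, v.2 - j) := by
    intro j
    induction j with
    | zero => intro _; simpa using hBc
    | succ j ih =>
      intro hj
      push_cast at hj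
      refine (ih (by omega)).tail (by rw [Topo.adj_iff]; dsimp only; push_cast; omega) (Or.inr ?_)
      refine ⟨rfl, ?_, ?_⟩ <;> dsimp only <;> push_cast <;> omega
  have e1 := ext1 (4 * n - y.1).toNat (by omega)
  have e2 := ext2 (v.2 + 4 * n).toNat (by omega)
  have hAR : ∀ z ∈ A, -(4 * n) ≤ z.1 ∧ z.1 ≤ 4 * n ∧ -(4 * n) ≤ z.2 ∧ z.2 ≤ 4 * n := by
    rintro z (hz | ⟨h1, h2, h3⟩)
    · have := mem_hex0.1 hz.right_mem.2
      omega
    · omega
  have hBR : ∀ z ∈ B, -(4 * n) ≤ z.1 ∧ z.1 ≤ 4 * n ∧ -(4 * n) ≤ z.2 ∧ z.2 ≤ 4 * n := by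
    rintro z (hz | ⟨h1, h2, h3⟩)
    · have := mem_hex0.1 hz.right_mem.2
      omega
    · omega
  obtain ⟨z, hzA, hzB⟩ := cross hAR hBR e1 hx (by dsimp only; omega) e2.symm (by dsimp only; omega) hu
  have hz : Conn (S ∩ hex 0 0 n) x z ∧ Conn (S ∩ hex 0 0 n) u z := by
    rcases hzA with hzA | ⟨a1, a2, a3⟩
    · rcases hzB with hzB | ⟨b1, b2, b3⟩
      · exact ⟨hzA, hzB⟩
      · have := mem_hex0.1 hzA.right_mem.2
        omega
    · rcases hzB with hzB | ⟨b1, b2, b3⟩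
      · have := mem_hex0.1 hzB.right_mem.2
        omega
      · omega
  exact ⟨v, y, ((k.symm.trans hz.2).trans hz.1.symm).trans h, hv, hy⟩

theorem C2_refl {n : ℤ} {S : Set (ℤ × ℤ)} : C2 n {z | (-z.1, -z.2) ∈ S} ↔ C3 n S := by
  unfold C2 C3
  rw [ex_iff (T := fun z => (-z.1, -z.2)) (T' := fun z => (-z.1, -z.2))
    (R := hex 0 0 n) (R' := hex 0 0 n)
    (P := fun x y => x.1 = -(4 * n) ∧ y.1 + y.2 = 4 * n)
    (P' := fun x y => x.1 = 4 * n ∧ y.1 + y.2 = -(4 * n))]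
  · constructor
    · rintro ⟨x, y, h, h1, h2⟩
      exact ⟨y, x, h.symm, h2, h1⟩
    · rintro ⟨x, y, h, h1, h2⟩
      exact ⟨y, x, h.symm, h2, h1⟩
  · rintro ⟨x, y⟩; simp
  · intro u v h; rw [Topo.adj_iff] at *; dsimp only; omega
  · intro u v h; rw [Topo.adj_iff] at *; dsimp only; omega
  · rintro ⟨x, y⟩; simp only [mem_hex0]; omega
  · rintro ⟨x, y⟩ ⟨x', y'⟩; dsimp only; omega

theorem C2_refl' {n : ℤ} {S : Set (ℤ × ℤ)} : C2 n {z | (-z.2, -z.1) ∈ S} ↔ C5 n S := by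
  unfold C2 C5
  refine ex_iff (T := fun z => (-z.2, -z.1)) (T' := fun z => (-z.2, -z.1)) ?_ ?_ ?_ ?_ ?_ S
  · rintro ⟨x, y⟩; simp
  · intro u v h; rw [Topo.adj_iff] at *; dsimp only; omega
  · intro u v h; rw [Topo.adj_iff] at *; dsimp only; omega
  · rintro ⟨x, y⟩; simp only [mem_hex0]; omega
  · rintro ⟨x, y⟩ ⟨x', y'⟩; dsimp only; omega

theorem C4_refl {n : ℤ} {S : Set (ℤ × ℤ)} : C4 n {z | (z.1 + z.2, -z.2) ∈ S} ↔ CT 0 0 n S := by
  unfold C4 CT
  refine ex_iff (T := fun z => (z.1 + z.2, -z.2)) (T' := fun z => (z.1 + z.2, -z.2)) ?_ adj_refly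
    adj_refly ?_ ?_ S
  · rintro ⟨x, y⟩; ext <;> dsimp only <;> ring
  · rintro ⟨x, y⟩; simp only [mem_hex0]; omega
  · rintro ⟨x, y⟩ ⟨x', y'⟩; dsimp only; omega

end Vale.Agent.P153.F.RSW
end
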