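import Mathlib
import Vale.Agent.P153.Bd5.B8
import Vale.Agent.P153.Bd5.B15
import Vale.Agent.P153.Bd5.B2
import Vale.Agent.P153.Bd5.B1
import Vale.Agent.P153.Bd5.B4
import Vale.Agent.P153.Bd5.B5
import Vale.Agent.P153.Bd5.B7
import Vale.Agent.P153.Bd5.B6
import Vale.Agent.P153.Bd5.B9
import Vale.Agent.P153.Bd5.B14
import Vale.Agent.P153.Bd5.B13

set_option linter.all false

section

/-!
P153, block A3 (6): local limits are measures (compactness of the space of probability measures).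
-/

namespace Vale.Agent.P153.A

open MeasureTheory Filter Topology

theorem loc_cont {X : Type} [Finite X] [TopologicalSpace X] [DiscreteTopology X] {B : Finset Pt}
    {F : (Pt → X) → ℝ} (h : Loc B F) : Continuous F := by
  obtain ⟨g, rfl⟩ := QLim.loc_factor h
  exact (continuous_of_discreteTopology (f := g)).comp
    (continuous_pi fun b => continuous_apply b.1)

/-- (6) -/
theorem s_comp : S_comp := by
  intro X _ _ _ _ _ ν hν hlim
  have : SecondCountableTopology X := inferInstance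
  let P : Finset Pt → ProbabilityMeasure (Pt → X) := fun D => ⟨ν D, hν D⟩
  let U : Ultrafilter (Finset Pt) := Ultrafilter.of atTop
  have hU : (U : Filter (Finset Pt)) ≤ atTop := Ultrafilter.of_le atTop
  obtain ⟨μ, -, hμ⟩ := isCompact_univ.ultrafilter_le_nhds (U.map P) (by simp)
  have hμ' : Tendsto P U (𝓝 μ) := hμ
  refine ⟨μ, inferInstance, fun B F hF => ?_⟩
  obtain ⟨l, hl⟩ := hlim B F hF
  have hc := loc_cont hF
  have t1 := ProbabilityMeasure.tendsto_iff_forall_integral_tendsto.1 hμ'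
    (BoundedContinuousFunction.mkOfCompact ⟨F, hc⟩)
  have t2 : Tendsto (fun D => ∫ ω, F ω ∂(ν D)) U (𝓝 (∫ ω, F ω ∂(μ : Measure (Pt → X)))) := t1
  rwa [tendsto_nhds_unique (hl.mono_left hU) t2] at hl

end Vale.Agent.P153.A
end

section

/-!
P153, block A3, leaf (9): mixing of the limit law of tau.
-/

namespace Vale.Agent.P153.A

open MeasureTheory Filter Topology Relation

/-- translations bringing `D` close to itself are finitely many -/
theorem far_shift (D : Finset Pt) : ∀ᶠ z : Pt in cofinite,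
    ∀ x ∈ D, ∀ y ∈ D.image (· + z), x ≠ y ∧ ¬ Adj x y := by
  let N : Finset Pt := {(0, 0), (1, 0), (-1, 0), (0, 1), (0, -1), (1, -1), (-1, 1)}
  have hfin : ((((D ×ˢ D) ×ˢ N).image fun p : (Pt × Pt) × Pt => p.1.1 + p.2 - p.1.2 :
      Finset Pt) : Set Pt).Finite := Finset.finite_toSet _
  filter_upwards [hfin.compl_mem_cofinite] with z hz
  intro x hx y hy
  obtain ⟨y', hy', rfl⟩ := Finset.mem_image.1 hy
  constructor
  · rintro rfl
    apply hz
    rw [Finset.mem_coe, Finset.mem_image]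
    exact ⟨((y' + z, y'), (0, 0)), by simp [N, hx, hy'], by ext <;> simp⟩
  · intro h
    apply hz
    rw [Finset.mem_coe, Finset.mem_image]
    unfold Adj at h
    refine ⟨((x, y'), ((y' + z).1 - x.1, (y' + z).2 - x.2)), ?_, by ext <;> simp⟩
    simp only [Finset.mem_product, hx, hy', true_and, and_self]
    simp only [Set.mem_insert_iff, Set.mem_singleton_iff] at h
    simp only [N, Finset.mem_insert, Finset.mem_singleton]
    exact Or.inr h

theorem Loc.mul' {X : Type} {B B' : Finset Pt} {f g : (Pt → X) → ℝ} (hf : Loc B f)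
    (hg : Loc B' g) : Loc (B ∪ B') (fun ω => f ω * g ω) := by
  intro ω ω' h
  simp only [hf.mono Finset.subset_union_left ω ω' h, hg.mono Finset.subset_union_right ω ω' h]

theorem tr_mono (z : Pt) {τ τ' : Sp} (h : τ ≤ τ') : tr z τ ≤ tr z τ' := fun x => h (x + z)

/-- mixing for nonnegative monotone functions -/
theorem mix_mono (h3 : S_fkg) (h4 : S_dom) (h5 : S_prod) {μ : Measure Sp}
    (hμ : IsMu μ) {B : Finset Pt} {f g : Sp → ℝ} (hf : Loc B f) (hg : Loc B g) (mf : Monotone f)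
    (mg : Monotone g) (pf : ∀ τ, 0 ≤ f τ) (pg : ∀ τ, 0 ≤ g τ) :
    Tendsto (fun z => ∫ τ, f τ * g (tr z τ) ∂μ) cofinite
      (𝓝 ((∫ τ, f τ ∂μ) * ∫ τ, g τ ∂μ)) := by
  have hprob := hμ.prob
  have lim_f := hμ.lim B f hf
  have lim_g := hμ.lim B g hg
  -- lower bound
  have lower : ∀ z, (∫ τ, f τ ∂μ) * ∫ τ, g τ ∂μ ≤ ∫ τ, f τ * g (tr z τ) ∂μ := by
    intro z
    have l3 := hμ.lim _ _ (hf.mul' (hg.tr z))
    have l2 := hμ.lim _ _ (hg.tr z)
    rw [hμ.integral_tr z hg] at l2
    refine le_of_tendsto_of_tendsto' (lim_f.mul l2) l3 fun D => ?_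
    exact h3 D f (fun τ => g (tr z τ)) mf fun τ τ' h => mg (tr_mono z h)
  -- upper bound
  have upper : ∀ D : Finset Pt, B ⊆ D → ∀ᶠ z in cofinite,
      ∫ τ, f τ * g (tr z τ) ∂μ ≤ E1 D f * E1 D g := by
    intro D hD
    filter_upwards [far_shift D] with z hz
    have l3 := hμ.lim _ _ (hf.mul' (hg.tr z))
    refine le_of_tendsto l3 ?_
    filter_upwards [eventually_ge_atTop (D ∪ D.image (· + z))] with D' hD'
    refine (h4 _ D' hD' _ ?_).trans_eq ?_
    · intro τ τ' h
      exact mul_le_mul (mf h) (mg (tr_mono z h)) (pg _) (pf _)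
    · rw [h5 D (D.image (· + z)) hz f (fun τ => g (tr z τ)) (hf.mono hD)
        ((hg.mono hD).tr z), E1_tr]
  rw [tendsto_order]
  constructor
  · intro a ha
    exact Eventually.of_forall fun z => lt_of_lt_of_le ha (lower z)
  · intro a ha
    have h6 := (lim_f.mul lim_g).eventually (gt_mem_nhds ha)
    obtain ⟨D, hD1, hD2⟩ := (h6.and (eventually_ge_atTop B)).exists
    filter_upwards [upper D hD2] with z hz
    exact lt_of_le_of_lt hz hD1

/-- (9) -/
theorem s_muMix (h3 : S_fkg) (h4 : S_dom) (h5 : S_prod) : S_muMix := by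
  intro μ hμ B f g hf hg
  have hprob := hμ.prob
  obtain ⟨f1, f2, lf1, lf2, mf1, mf2, pf1, pf2, hef⟩ := hf.split
  obtain ⟨g1, g2, lg1, lg2, mg1, mg2, pg1, pg2, heg⟩ := hg.split
  have t11 := mix_mono h3 h4 h5 hμ lf1 lg1 mf1 mg1 pf1 pg1
  have t12 := mix_mono h3 h4 h5 hμ lf1 lg2 mf1 mg2 pf1 pg2
  have t21 := mix_mono h3 h4 h5 hμ lf2 lg1 mf2 mg1 pf2 pg1
  have t22 := mix_mono h3 h4 h5 hμ lf2 lg2 mf2 mg2 pf2 pg2
  have e1 : ∫ τ, f τ ∂μ = (∫ τ, f1 τ ∂μ) - ∫ τ, f2 τ ∂μ := by
    rw [← integral_sub (lf1.integrable μ) (lf2.integrable μ)]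
    exact integral_congr_ae (Eventually.of_forall hef)
  have e2 : ∫ τ, g τ ∂μ = (∫ τ, g1 τ ∂μ) - ∫ τ, g2 τ ∂μ := by
    rw [← integral_sub (lg1.integrable μ) (lg2.integrable μ)]
    exact integral_congr_ae (Eventually.of_forall heg)
  have e3 : ∀ z, ∫ τ, f τ * g (tr z τ) ∂μ =
      (∫ τ, f1 τ * g1 (tr z τ) ∂μ) - (∫ τ, f1 τ * g2 (tr z τ) ∂μ) -
      (∫ τ, f2 τ * g1 (tr z τ) ∂μ) + ∫ τ, f2 τ * g2 (tr z τ) ∂μ := by
    intro z
    have i11 := (lf1.mul' (lg1.tr z)).integrable μ
    have i12 := (lf1.mul' (lg2.tr z)).integrable μ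
    have i21 := (lf2.mul' (lg1.tr z)).integrable μ
    have i22 := (lf2.mul' (lg2.tr z)).integrable μ
    have s3 := integral_add ((i11.sub i12).sub i21) i22
    have s2 := integral_sub (i11.sub i12) i21
    have s1 := integral_sub i11 i12
    simp only [Pi.sub_apply] at s1 s2 s3
    rw [← s1, ← s2, ← s3]
    apply integral_congr_ae
    refine Eventually.of_forall fun τ => ?_
    simp only [hef τ, heg (tr z τ)]
    ring
  have := ((t11.sub t12).sub t21).add t22
  rw [e1, e2]
  have e4 : ((∫ τ, f1 τ ∂μ) - ∫ τ, f2 τ ∂μ) * ((∫ τ, g1 τ ∂μ) - ∫ τ, g2 τ ∂μ) =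
      (∫ τ, f1 τ ∂μ) * (∫ τ, g1 τ ∂μ) - (∫ τ, f1 τ ∂μ) * (∫ τ, g2 τ ∂μ) -
      (∫ τ, f2 τ ∂μ) * (∫ τ, g1 τ ∂μ) + (∫ τ, f2 τ ∂μ) * (∫ τ, g2 τ ∂μ) := by ring
  rw [e4]
  exact this.congr fun z => (e3 z).symm

end Vale.Agent.P153.A
end

section

/-!
# P153, strips: heights at the even rows of the window, stopped at the first inadmissible step
-/

namespace Vale.Agent.P153.Strip

open Finset MeasureTheory

variable {N : ℕ}

/-- The first `m` steps of the path are admissible. -/
def Good {n : ℕ} (q : Fin (n + 1) → RowSt N) (m : ℕ) : Prop :=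
  ∀ i : Fin n, (i : ℕ) < m → Compat (q i.castSucc) (q i.succ)

theorem Good.mono {n : ℕ} {q : Fin (n + 1) → RowSt N} {m m' : ℕ} (h : Good q m') (hm : m ≤ m') :
    Good q m := fun i hi => h i (lt_of_lt_of_le hi hm)

/-- The last `m ≤ k` such that the first `2 * m` steps are admissible. -/
noncomputable def lastGood {n : ℕ} (q : Fin (n + 1) → RowSt N) (k : ℕ) : ℕ :=
  @Nat.findGreatest (fun m => Good q (2 * m)) (fun _ => Classical.propDecidable _) k

theorem lastGood_le {n : ℕ} (q : Fin (n + 1) → RowSt N) (k : ℕ) : lastGood q k ≤ k :=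
  @Nat.findGreatest_le _ (fun _ => Classical.propDecidable _) k

theorem lastGood_eq {n : ℕ} {q : Fin (n + 1) → RowSt N} {k : ℕ} (h : Good q (2 * k)) :
    lastGood q k = k := by
  exact le_antisymm (lastGood_le q k)
    (@Nat.le_findGreatest _ (fun m => Good q (2 * m)) (fun _ => Classical.propDecidable _) _
      le_rfl h)

theorem lastGood_succ_of_not {n : ℕ} {q : Fin (n + 1) → RowSt N} {k : ℕ}
    (h : ¬ Good q (2 * (k + 1))) : lastGood q (k + 1) = lastGood q k := by
  unfold lastGood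
  rw [@Nat.findGreatest_succ (fun m => Good q (2 * m)) (fun _ => Classical.propDecidable _) k,
    if_neg h]

theorem lastGood_congr {n : ℕ} {q q' : Fin (n + 1) → RowSt N} {k : ℕ}
    (h : ∀ i : Fin (n + 1), (i : ℕ) ≤ 2 * k → q i = q' i) : lastGood q k = lastGood q' k := by
  induction k with
  | zero =>
    have h1 := lastGood_le q 0
    have h2 := lastGood_le q' 0
    omega
  | succ k ih =>
    have ih' := ih fun i hi => h i (by omega)
    have hg : Good q (2 * (k + 1)) ↔ Good q' (2 * (k + 1)) := by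
      constructor
      · intro hg i hi
        have h1 : ((i.castSucc : Fin (n + 1)) : ℕ) = i := rfl
        have h2 : ((i.succ : Fin (n + 1)) : ℕ) = i + 1 := rfl
        rw [← h i.castSucc (by omega), ← h i.succ (by omega)]
        exact hg i hi
      · intro hg i hi
        have h1 : ((i.castSucc : Fin (n + 1)) : ℕ) = i := rfl
        have h2 : ((i.succ : Fin (n + 1)) : ℕ) = i + 1 := rfl
        rw [h i.castSucc (by omega), h i.succ (by omega)]
        exact hg i hi
    by_cases hq : Good q (2 * (k + 1))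
    · rw [lastGood_eq hq, lastGood_eq (hg.1 hq)]
    · rw [lastGood_succ_of_not hq, lastGood_succ_of_not fun h' => hq (hg.2 h'), ih']

/-- The state at the even row number `k` (row `2 * k` of the path), stopped at the first
inadmissible step. -/
noncomputable def fz {H : ℕ} (q : Fin (4 * H + 1) → RowSt N) (k : ℕ) : RowSt N :=
  q ⟨min (2 * lastGood q k) (4 * H), by omega⟩

theorem fz_good {H : ℕ} {q : Fin (4 * H + 1) → RowSt N} {k : ℕ} (hk : k ≤ 2 * H)
    (h : Good q (2 * k)) : fz q k = q ⟨2 * k, by omega⟩ := by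
  unfold fz
  congr 1
  apply Fin.ext
  simp only
  rw [lastGood_eq h]
  omega

theorem fz_congr {H : ℕ} {q q' : Fin (4 * H + 1) → RowSt N} {k : ℕ}
    (h : ∀ i : Fin (4 * H + 1), (i : ℕ) ≤ 2 * k → q i = q' i) : fz q k = fz q' k := by
  have h1 := lastGood_congr h
  have h2 := lastGood_le q' k
  unfold fz
  simp only [h1]
  exact h _ (by simp only; omega)

theorem fz_lip {H : ℕ} (q : Fin (4 * H + 1) → RowSt N) (k : ℕ) (hk : k + 1 ≤ 2 * H) (p : ℤ) :
    |(fz q (k + 1)).ht p - (fz q k).ht p| ≤ 2 := by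
  by_cases h : Good q (2 * (k + 1))
  · rw [fz_good hk h, fz_good (by omega) (h.mono (by omega))]
    have h1 := h ⟨2 * k, by omega⟩ (by simp only; omega)
    have h2 := h ⟨2 * k + 1, by omega⟩ (by simp only; omega)
    have e1 := (h1.2 p).1
    have e2 := (h2.2 (p + 1)).2
    have a1 : (Fin.castSucc ⟨2 * k, by omega⟩ : Fin (4 * H + 1)) = ⟨2 * k, by omega⟩ := rfl
    have a2 : (Fin.succ ⟨2 * k, by omega⟩ : Fin (4 * H + 1)) = ⟨2 * k + 1, by omega⟩ := rfl
    have a3 : (Fin.castSucc ⟨2 * k + 1, by omega⟩ : Fin (4 * H + 1)) = ⟨2 * k + 1, by omega⟩ := rfl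
    have a4 : (Fin.succ ⟨2 * k + 1, by omega⟩ : Fin (4 * H + 1)) = ⟨2 * (k + 1), by omega⟩ := rfl
    rw [a1, a2] at e1
    rw [a3, a4] at e2
    have e3 : p + 1 - 1 = p := by ring
    rw [e3] at e2
    rw [abs_le] at e1 e2 ⊢
    constructor <;> linarith [e1.1, e1.2, e2.1, e2.2]
  · have : fz q (k + 1) = fz q k := by
      unfold fz
      simp only [lastGood_succ_of_not h]
    rw [this, sub_self, abs_zero]
    norm_num

/-- The height at the site `p = (j, z)` (row `2 * j` of the lattice, key `2 * z`). -/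
noncomputable def hR (H : ℕ) (p : ℤ × ℤ) (q : Path (RowSt N) (4 * H)) : ℝ :=
  if -(H : ℤ) ≤ p.1 ∧ p.1 ≤ H then
    ((fz (q : Fin (4 * H + 1) → RowSt N) (p.1 + H).toNat).ht (2 * p.2) : ℝ) else 0

/-- The sigma-algebras. -/
@[reducible] def FR (N H : ℕ) (l : ℤ) : MeasurableSpace (Path (RowSt N) (4 * H)) :=
  Fl (RowSt N) (4 * H) (2 * l + 2 * H)

theorem measurable_hR (H : ℕ) (p : ℤ × ℤ) : Measurable[FR N H p.1] (hR (N := N) H p) := by
  apply measurable_Fl
  intro q q' hq
  unfold hR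
  by_cases h : -(H : ℤ) ≤ p.1 ∧ p.1 ≤ H
  · rw [if_pos h, if_pos h]
    have h1 : fz (H := H) q (p.1 + H).toNat = fz (H := H) q' (p.1 + H).toNat :=
      fz_congr fun i hi => hq i (by omega)
    rw [h1]
  · rw [if_neg h, if_neg h]

theorem FR_mono (N H : ℕ) : Monotone (FR N H) := fun _ _ h => Fl_mono _ (by omega)

theorem hR_lip (H : ℕ) (j x : ℤ) (h1 : -(H : ℤ) ≤ j) (h2 : j + 1 ≤ H)
    (q : Path (RowSt N) (4 * H)) : |hR H (j + 1, x) q - hR H (j, x) q| ≤ 2 := by
  unfold hR
  rw [if_pos ⟨by simp only; omega, by simp only; omega⟩, if_pos ⟨by simp only; omega,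
    by simp only; omega⟩]
  have e : ((j + 1, x) : ℤ × ℤ).1 + (H : ℤ) = ((j + H).toNat + 1 : ℕ) := by
    push_cast
    omega
  have h3 := fz_lip (H := H) (q : Fin (4 * H + 1) → RowSt N) (j + H).toNat (by omega) (2 * x)
  have e' : (((j + 1, x) : ℤ × ℤ).1 + (H : ℤ)).toNat = (j + H).toNat + 1 := by
    rw [e]
    rfl
  rw [e']
  have : ((((fz (H := H) (q : Fin (4 * H + 1) → RowSt N) ((j + H).toNat + 1)).ht (2 * x) -
    (fz (H := H) (q : Fin (4 * H + 1) → RowSt N) (j + H).toNat).ht (2 * x) : ℤ)) : ℝ) =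
    ((fz (H := H) (q : Fin (4 * H + 1) → RowSt N) ((j + H).toNat + 1)).ht (2 * x) : ℝ) -
    ((fz (H := H) (q : Fin (4 * H + 1) → RowSt N) (j + H).toNat).ht (2 * x) : ℝ) := by
    push_cast
    ring
  rw [← this]
  exact_mod_cast h3

/-! ### almost sure statements -/

section ae

variable {X : Type*} [Fintype X] (D : PData X)

theorem PData.ae_of (e : ZMod 2) (n : ℕ) (p : Path X n → Prop)
    (h : ∀ q : Fin (n + 1) → X, D.W e n q ≠ 0 → p q) : ∀ᵐ q ∂(D.mu e n), p q := by
  rw [ae_iff]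
  unfold PData.mu
  rw [Measure.finsetSum_apply]
  apply Finset.sum_eq_zero
  intro q _
  rw [Measure.smul_apply, smul_eq_mul]
  by_cases hW : D.W e n q = 0
  · rw [hW, ENNReal.ofReal_zero, zero_mul]
  · rw [Measure.dirac_apply' _ (show MeasurableSet {a | ¬ p a} from trivial)]
    rw [Set.indicator_of_notMem, mul_zero]
    intro hq
    exact hq (h q hW)

theorem PData.step_ne (e : ZMod 2) (n : ℕ) (q : Fin (n + 1) → X) (h : D.W e n q ≠ 0)
    (i : Fin n) : D.A (q i.castSucc) (q i.succ) ≠ 0 := by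
  intro h0
  apply h
  unfold PData.W
  rw [Finset.prod_eq_zero (Finset.mem_univ i), mul_zero]
  unfold PData.P
  rw [h0, zero_mul, zero_div]

end ae

theorem hR_ae [Fintype (RowSt N)] (D : PData (RowSt N)) (hD : D.A = Amat N) (e : ZMod 2)
    (H : ℕ) (p : ℤ × ℤ) (h1 : -(H : ℤ) ≤ p.1) (h2 : p.1 ≤ H) :
    hR H p =ᵐ[D.mu e (4 * H)] fun q : Path (RowSt N) (4 * H) =>
      (((q : Fin (4 * H + 1) → RowSt N) ⟨2 * (p.1 + H).toNat, by omega⟩).ht (2 * p.2) : ℝ) := by
  apply D.ae_of
  intro q hq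
  have hg : ∀ m, Good (n := 4 * H) q m := by
    intro m i _
    have h3 := D.step_ne e (4 * H) q hq i
    rw [hD] at h3
    unfold Amat at h3
    by_contra hc
    rw [if_neg hc] at h3
    exact h3 rfl
  unfold hR
  rw [if_pos ⟨h1, h2⟩]
  rw [fz_good (H := H) (by omega) (hg _)]

end Vale.Agent.P153.Strip
end

section

/-!
# P153, strips: conditional expectation on a finite probability space, conditional association

`fm p` is the measure with weights `p` on a finite type. For the sigma-algebra generated by a map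
`ρ`, the conditional expectation is the average over the fibre.
-/

namespace Vale.Agent.P153.Strip

open MeasureTheory Finset Filter
open scoped ENNReal

variable {Ω Ω' : Type*} [Fintype Ω] [mΩ : MeasurableSpace Ω] [MeasurableSingletonClass Ω]

/-- the measure with weights `p` -/
noncomputable def fm (p : Ω → ℝ) : Measure Ω :=
  ∑ ω, ENNReal.ofReal (p ω) • Measure.dirac ω

instance (p : Ω → ℝ) : IsFiniteMeasure (fm p) := by
  refine ⟨?_⟩
  unfold fm
  rw [Measure.coe_finsetSum, Finset.sum_apply]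
  exact ENNReal.sum_lt_top.2 fun ω _ => by
    rw [Measure.smul_apply, smul_eq_mul]
    exact ENNReal.mul_lt_top ENNReal.ofReal_lt_top (measure_lt_top _ _)

omit [MeasurableSingletonClass Ω] in
theorem meas_all [MeasurableSingletonClass Ω] (s : Set Ω) : MeasurableSet s :=
  (Set.toFinite s).measurableSet

theorem aesm (p : Ω → ℝ) (g : Ω → ℝ) : AEStronglyMeasurable g (fm p) :=
  (measurable_of_finite g).aestronglyMeasurable

theorem integrable_fm (p : Ω → ℝ) (g : Ω → ℝ) : Integrable g (fm p) := by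
  classical
  obtain ⟨C, hC⟩ : ∃ C : ℝ, ∀ ω, ‖g ω‖ ≤ C := by
    refine ⟨∑ ω, ‖g ω‖, fun ω => ?_⟩
    exact Finset.single_le_sum (f := fun ω => ‖g ω‖) (fun _ _ => norm_nonneg _) (mem_univ ω)
  exact Integrable.of_bound (aesm p g) C (ae_of_all _ hC)

theorem integral_fm {p : Ω → ℝ} (hp : ∀ ω, 0 ≤ p ω) (g : Ω → ℝ) :
    ∫ ω, g ω ∂(fm p) = ∑ ω, p ω * g ω := by
  unfold fm
  rw [integral_finsetSum_measure]
  · refine Finset.sum_congr rfl fun ω _ => ?_
    rw [integral_smul_measure, integral_dirac, ENNReal.toReal_ofReal (hp ω), smul_eq_mul]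
  · intro ω _
    have : Integrable g (Measure.dirac ω) := by
      refine ⟨(measurable_of_finite g).aestronglyMeasurable, ?_⟩
      rw [HasFiniteIntegral, lintegral_dirac]
      exact ENNReal.coe_lt_top
    exact this.smul_measure ENNReal.ofReal_ne_top

theorem setIntegral_fm {p : Ω → ℝ} (hp : ∀ ω, 0 ≤ p ω) (g : Ω → ℝ) (s : Set Ω)
    [DecidablePred (· ∈ s)] :
    ∫ ω in s, g ω ∂(fm p) = ∑ ω, if ω ∈ s then p ω * g ω else 0 := by
  rw [← integral_indicator (meas_all s), integral_fm hp]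
  refine Finset.sum_congr rfl fun ω _ => ?_
  by_cases h : ω ∈ s
  · rw [if_pos h, Set.indicator_of_mem h]
  · rw [if_neg h, Set.indicator_of_notMem h, mul_zero]

/-- fibre average -/
noncomputable def fav [DecidableEq Ω'] (p : Ω → ℝ) (ρ : Ω → Ω') (g : Ω → ℝ) (y : Ω') : ℝ :=
  (∑ ω, if ρ ω = y then p ω * g ω else 0) / (∑ ω, if ρ ω = y then p ω else 0)

theorem comap_le (ρ : Ω → Ω') : MeasurableSpace.comap ρ ⊤ ≤ mΩ := by
  rintro s ⟨t, _, rfl⟩
  exact meas_all _

theorem condExp_fm [DecidableEq Ω'] {p : Ω → ℝ} (hp : ∀ ω, 0 ≤ p ω) (ρ : Ω → Ω') (g : Ω → ℝ) :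
    (fm p)[g | MeasurableSpace.comap ρ ⊤] =ᵐ[fm p] fun ω => fav p ρ g (ρ ω) := by
  classical
  symm
  refine ae_eq_condExp_of_forall_setIntegral_eq (comap_le ρ) (integrable_fm p g)
    (fun s _ _ => (integrable_fm p _).integrableOn) ?_ ?_
  · rintro s ⟨t, _, rfl⟩ _
    rw [setIntegral_fm hp, setIntegral_fm hp]
    simp only [Set.mem_preimage]
    -- group by the value of ρ
    have key : ∀ F : Ω → ℝ, (∑ ω, if ρ ω ∈ t then F ω else 0) =
        ∑ y ∈ univ.image ρ, if y ∈ t then (∑ ω, if ρ ω = y then F ω else 0) else 0 := by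
      intro F
      have e := Finset.sum_fiberwise_of_maps_to (s := (univ : Finset Ω)) (t := univ.image ρ)
        (g := ρ) (fun ω _ => mem_image_of_mem ρ (mem_univ ω)) (fun ω => if ρ ω ∈ t then F ω else 0)
      refine e.symm.trans (Finset.sum_congr rfl fun y _ => ?_)
      by_cases hy : y ∈ t
      · rw [if_pos hy]
        refine Eq.trans ?_ (Finset.sum_filter (fun ω => ρ ω = y) F)
        refine Finset.sum_congr rfl fun ω hω => ?_
        rw [(mem_filter.1 hω).2, if_pos hy]
      · rw [if_neg hy]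
        refine Finset.sum_eq_zero fun ω hω => ?_
        rw [(mem_filter.1 hω).2, if_neg hy]
    rw [key, key]
    refine Finset.sum_congr rfl fun y _ => ?_
    by_cases hy : y ∈ t
    · rw [if_pos hy, if_pos hy]
      have h1 : (∑ ω, if ρ ω = y then p ω * fav p ρ g (ρ ω) else 0) =
          (∑ ω, if ρ ω = y then p ω else 0) * fav p ρ g y := by
        rw [Finset.sum_mul]
        refine Finset.sum_congr rfl fun ω _ => ?_
        by_cases h : ρ ω = y
        · rw [if_pos h, if_pos h, h]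
        · rw [if_neg h, if_neg h, zero_mul]
      rw [h1]
      unfold fav
      by_cases h0 : (∑ ω, if ρ ω = y then p ω else 0) = 0
      · rw [h0, zero_mul]
        have h2 : ∀ ω, ρ ω = y → p ω = 0 := by
          intro ω hω
          have h3 := (Finset.sum_eq_zero_iff_of_nonneg (fun ω _ => by
            split_ifs
            · exact hp ω
            · exact le_rfl)).1 h0 ω (mem_univ ω)
          rw [if_pos hω] at h3
          exact h3
        refine (Finset.sum_eq_zero fun ω _ => ?_).symm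
        by_cases h : ρ ω = y
        · rw [if_pos h, h2 ω h, zero_mul]
        · rw [if_neg h]
      · rw [mul_div_cancel₀ _ h0]
    · rw [if_neg hy, if_neg hy]
  · refine StronglyMeasurable.aestronglyMeasurable ?_
    have h1 : @Measurable Ω ℝ (MeasurableSpace.comap ρ ⊤) _ (fun ω => fav p ρ g (ρ ω)) :=
      fun s _ => ⟨fav p ρ g ⁻¹' s, trivial, rfl⟩
    exact h1.stronglyMeasurable

/-- conditional association from the inequality on every fibre -/
theorem condAssoc_of_fibre [DecidableEq Ω'] {p : Ω → ℝ} (hp : ∀ ω, 0 ≤ p ω) (ρ : Ω → Ω')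
    {ι : Type*} (r : ι → Ω → ℝ)
    (h : ∀ y, ∀ f g : (ι → ℝ) → ℝ, Monotone f → Monotone g →
      (∑ ω, if ρ ω = y then p ω * f (fun i => r i ω) else 0) *
        (∑ ω, if ρ ω = y then p ω * g (fun i => r i ω) else 0) ≤
      (∑ ω, if ρ ω = y then p ω else 0) *
        (∑ ω, if ρ ω = y then p ω * (f (fun i => r i ω) * g (fun i => r i ω)) else 0)) :
    CLT.CondAssoc (fm p) (MeasurableSpace.comap ρ ⊤) r := by
  classical
  intro f g _ _ hf hg
  filter_upwards [condExp_fm hp ρ (fun ω => f (fun i => r i ω)),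
    condExp_fm hp ρ (fun ω => g (fun i => r i ω)),
    condExp_fm hp ρ (fun ω => f (fun i => r i ω) * g (fun i => r i ω))] with ω h1 h2 h3
  rw [h1, h2, h3]
  have h4 := h (ρ ω) f g hf hg
  set D := (∑ ω', if ρ ω' = ρ ω then p ω' else 0) with hD
  have hD0 : 0 ≤ D := Finset.sum_nonneg fun ω' _ => by
    split_ifs
    · exact hp _
    · exact le_rfl
  unfold fav
  rw [← hD]
  rcases hD0.eq_or_lt with h0 | h0
  · rw [← h0]; simp
  · rw [div_mul_div_comm, div_le_div_iff₀ (by positivity) h0]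
    calc _ = ((∑ ω', if ρ ω' = ρ ω then p ω' * f (fun i => r i ω') else 0) *
          (∑ ω', if ρ ω' = ρ ω then p ω' * g (fun i => r i ω') else 0)) * D := rfl
      _ ≤ (D * (∑ ω', if ρ ω' = ρ ω then p ω' * (f (fun i => r i ω') * g (fun i => r i ω'))
            else 0)) * D := mul_le_mul_of_nonneg_right h4 hD0
      _ = _ := by ring

end Vale.Agent.P153.Strip
end

section

/-!
# P153, strips: the window law is positively associated given the lower rows
-/

namespace Vale.Agent.P153.Strip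

open Finset MeasureTheory Filter
open scoped FinsetFamily Topology

/-! ### weighted FKG inequality on a finite part of a distributive lattice -/

section Lattice

variable {α : Type*} [DistribLattice α]

/-- FKG inequality for a log-supermodular weight supported on a finite set. -/
theorem fkg_weighted (w F G : α → ℝ) (S : Finset α) (hw0 : ∀ a, 0 ≤ w a)
    (hS : ∀ a, a ∉ S → w a = 0) (hw : ∀ a b, w a * w b ≤ w (a ⊓ b) * w (a ⊔ b))
    (hF : Monotone F) (hG : Monotone G) :
    (∑ a ∈ S, w a * F a) * (∑ a ∈ S, w a * G a) ≤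
      (∑ a ∈ S, w a) * ∑ a ∈ S, w a * (F a * G a) := by
  classical
  obtain ⟨M, hM⟩ : ∃ M : ℝ, ∀ a ∈ S, -M ≤ F a := by
    refine ⟨∑ a ∈ S, |F a|, fun a ha => ?_⟩
    have h1 := Finset.single_le_sum (f := fun a => |F a|) (fun _ _ => abs_nonneg _) ha
    have h2 := neg_abs_le (F a)
    linarith
  obtain ⟨N, hN⟩ : ∃ N : ℝ, ∀ a ∈ S, -N ≤ G a := by
    refine ⟨∑ a ∈ S, |G a|, fun a ha => ?_⟩
    have h1 := Finset.single_le_sum (f := fun a => |G a|) (fun _ _ => abs_nonneg _) ha
    have h2 := neg_abs_le (G a)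
    linarith
  let F' : α → ℝ := fun a => max (F a + M) 0
  let G' : α → ℝ := fun a => max (G a + N) 0
  have hF' : Monotone F' := fun a b hab => max_le_max (by linarith [hF hab]) le_rfl
  have hF'0 : ∀ a, 0 ≤ F' a := fun a => le_max_right _ _
  have hG' : Monotone G' := fun a b hab => max_le_max (by linarith [hG hab]) le_rfl
  have hG'0 : ∀ a, 0 ≤ G' a := fun a => le_max_right _ _
  have hFF : ∀ a ∈ S, F' a = F a + M := fun a ha => max_eq_left (by linarith [hM a ha])
  have hGG : ∀ a ∈ S, G' a = G a + N := fun a ha => max_eq_left (by linarith [hN a ha])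
  have key := holley_weighted w (fun a => w a * G' a) F' S S hw0
    (fun a => mul_nonneg (hw0 a) (hG'0 a)) hF'0 hF' hS
    (fun a ha => by rw [hS a ha, zero_mul])
    (by
      intro a b
      calc w a * (w b * G' b) = (w a * w b) * G' b := by ring
        _ ≤ (w (a ⊓ b) * w (a ⊔ b)) * G' (a ⊔ b) :=
            mul_le_mul (hw a b) (hG' le_sup_right) (hG'0 b)
              (mul_nonneg (hw0 _) (hw0 _))
        _ = w (a ⊓ b) * (w (a ⊔ b) * G' (a ⊔ b)) := by ring)
  have e1 : ∑ a ∈ S, w a * F' a = ∑ a ∈ S, w a * F a + M * ∑ a ∈ S, w a := by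
    rw [Finset.mul_sum, ← Finset.sum_add_distrib]
    exact Finset.sum_congr rfl fun a ha => by rw [hFF a ha]; ring
  have e2 : ∑ a ∈ S, w a * G' a = ∑ a ∈ S, w a * G a + N * ∑ a ∈ S, w a := by
    rw [Finset.mul_sum, ← Finset.sum_add_distrib]
    exact Finset.sum_congr rfl fun a ha => by rw [hGG a ha]; ring
  have e3 : ∑ a ∈ S, w a * G' a * F' a = ∑ a ∈ S, w a * (F a * G a) +
      N * (∑ a ∈ S, w a * F a) + M * (∑ a ∈ S, w a * G a) + M * N * ∑ a ∈ S, w a := by
    rw [Finset.mul_sum, Finset.mul_sum, Finset.mul_sum, ← Finset.sum_add_distrib,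
      ← Finset.sum_add_distrib, ← Finset.sum_add_distrib]
    exact Finset.sum_congr rfl fun a ha => by rw [hFF a ha, hGG a ha]; ring
  rw [e1, e2, e3] at key
  nlinarith [key]

/-- Ahlswede-Daykin for one set closed under both operations. -/
theorem four_closed (f₁ f₂ f₃ f₄ : α → ℝ) (S : Finset α)
    (hinf : ∀ a ∈ S, ∀ b ∈ S, a ⊓ b ∈ S) (hsup : ∀ a ∈ S, ∀ b ∈ S, a ⊔ b ∈ S)
    (h1 : ∀ a, 0 ≤ f₁ a) (h2 : ∀ a, 0 ≤ f₂ a) (h3 : ∀ a, 0 ≤ f₃ a) (h4 : ∀ a, 0 ≤ f₄ a)
    (h : ∀ a b, f₁ a * f₂ b ≤ f₃ (a ⊓ b) * f₄ (a ⊔ b)) :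
    (∑ a ∈ S, f₁ a) * (∑ a ∈ S, f₂ a) ≤ (∑ a ∈ S, f₃ a) * ∑ a ∈ S, f₄ a := by
  classical
  have key := four_functions_theorem f₁ f₂ f₃ f₄ h1 h2 h3 h4 h S S
  refine key.trans (mul_le_mul ?_ ?_ ?_ ?_)
  · refine Finset.sum_le_sum_of_subset_of_nonneg ?_ fun a _ _ => h3 a
    intro a ha
    obtain ⟨b, hb, c, hc, rfl⟩ := Finset.mem_infs.1 ha
    exact hinf b hb c hc
  · refine Finset.sum_le_sum_of_subset_of_nonneg ?_ fun a _ _ => h4 a
    intro a ha
    obtain ⟨b, hb, c, hc, rfl⟩ := Finset.mem_sups.1 ha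
    exact hsup b hb c hc
  · exact Finset.sum_nonneg fun a _ => h4 a
  · exact Finset.sum_nonneg fun a _ => h3 a

end Lattice

/-! ### rows -/

variable {N : ℕ}

theorem IsRow.inf {e : ZMod 2} {s t : ℤ → ℤ} (hs : IsRow N e s) (ht : IsRow N e t) :
    IsRow N e (s ⊓ t) := by
  refine ⟨fun p hp => ?_, fun p hp => ?_, fun p hp => ?_, fun p => ?_⟩
  · simp [hs.off p hp, ht.off p hp]
  · simp [hs.odd p hp, ht.odd p hp]
  · rcases hs.side p hp with h | h <;> rcases ht.side p hp with h' | h' <;>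
      simp [Pi.inf_apply, h, h']
  · simp only [Pi.inf_apply]
    exact (abs_min_sub_min_le_max _ _ _ _).trans (max_le (hs.lip p) (ht.lip p))

theorem IsRow.sup {e : ZMod 2} {s t : ℤ → ℤ} (hs : IsRow N e s) (ht : IsRow N e t) :
    IsRow N e (s ⊔ t) := by
  refine ⟨fun p hp => ?_, fun p hp => ?_, fun p hp => ?_, fun p => ?_⟩
  · simp [hs.off p hp, ht.off p hp]
  · simp [hs.odd p hp, ht.odd p hp]
  · rcases hs.side p hp with h | h <;> rcases ht.side p hp with h' | h' <;>
      simp [Pi.sup_apply, h, h']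
  · simp only [Pi.sup_apply]
    exact (abs_max_sub_max_le_max _ _ _ _).trans (max_le (hs.lip p) (ht.lip p))

open Classical in
/-- extension by zero of a function on row states -/
noncomputable def ex (f : RowSt N → ℝ) (e : ZMod 2) (s : ℤ → ℤ) : ℝ :=
  if h : IsRow N e s then f ⟨(e, s), h⟩ else 0

theorem ex_pos (f : RowSt N → ℝ) {e : ZMod 2} {s : ℤ → ℤ} (h : IsRow N e s) :
    ex f e s = f ⟨(e, s), h⟩ := by
  unfold ex
  rw [dif_pos h]

theorem ex_neg (f : RowSt N → ℝ) {e : ZMod 2} {s : ℤ → ℤ} (h : ¬ IsRow N e s) :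
    ex f e s = 0 := by
  unfold ex
  rw [dif_neg h]

theorem ex_nonneg {f : RowSt N → ℝ} (hf : ∀ x, 0 ≤ f x) (e : ZMod 2) (s : ℤ → ℤ) :
    0 ≤ ex f e s := by
  by_cases h : IsRow N e s
  · rw [ex_pos f h]; exact hf _
  · rw [ex_neg f h]

theorem ex_self (f : RowSt N → ℝ) (x : RowSt N) : ex f x.par x.1.2 = f x := by
  rw [ex_pos f (show IsRow N x.par x.1.2 from x.2)]
  rfl

/-- log-supermodular on each parity class -/
def LS (f : RowSt N → ℝ) : Prop :=
  ∀ (e : ZMod 2) (s t : ℤ → ℤ), ex f e s * ex f e t ≤ ex f e (s ⊓ t) * ex f e (s ⊔ t)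

/-- compatibility of consecutive rows, as functions -/
def Cf (s t : ℤ → ℤ) : Prop := ∀ p : ℤ, |s p - t (p + 1)| ≤ 1 ∧ |s p - t (p - 1)| ≤ 1

theorem Cf.inf {s t s' t' : ℤ → ℤ} (h : Cf s t) (h' : Cf s' t') : Cf (s ⊓ s') (t ⊓ t') :=
  fun p => ⟨(abs_min_sub_min_le_max _ _ _ _).trans (max_le (h p).1 (h' p).1),
    (abs_min_sub_min_le_max _ _ _ _).trans (max_le (h p).2 (h' p).2)⟩

theorem Cf.sup {s t s' t' : ℤ → ℤ} (h : Cf s t) (h' : Cf s' t') : Cf (s ⊔ s') (t ⊔ t') :=
  fun p => ⟨(abs_max_sub_max_le_max _ _ _ _).trans (max_le (h p).1 (h' p).1),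
    (abs_max_sub_max_le_max _ _ _ _).trans (max_le (h p).2 (h' p).2)⟩

variable [Fintype (RowSt N)]

/-- the finite set of rows of parity `e` -/
noncomputable def Rw (N : ℕ) [Fintype (RowSt N)] (e : ZMod 2) : Finset (ℤ → ℤ) := by
  classical
  exact (univ.filter fun x : RowSt N => x.par = e).image fun x => x.1.2

theorem mem_Rw {e : ZMod 2} {s : ℤ → ℤ} : s ∈ Rw N e ↔ IsRow N e s := by
  classical
  unfold Rw
  simp only [mem_image, mem_filter, mem_univ, true_and]
  constructor
  · rintro ⟨x, rfl, rfl⟩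
    exact x.2
  · intro h
    exact ⟨⟨(e, s), h⟩, rfl, rfl⟩

/-- sum over the states of one parity -/
theorem sum_par (f : RowSt N → ℝ) (e : ZMod 2) :
    (∑ x, if x.par = e then f x else 0) = ∑ s ∈ Rw N e, ex f e s := by
  classical
  rw [← Finset.sum_filter]
  unfold Rw
  rw [Finset.sum_image]
  · refine Finset.sum_congr rfl fun x hx => ?_
    have : x.par = e := (mem_filter.1 hx).2
    rw [← this, ex_self]
  · intro x hx y hy hxy
    have h1 : x.par = e := (mem_filter.1 hx).2
    have h2 : y.par = e := (mem_filter.1 hy).2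
    exact Subtype.ext (Prod.ext (h1.trans h2.symm) hxy)

/-- the transfer matrix preserves log-supermodularity -/
theorem LS.step {f : RowSt N → ℝ} (hf0 : ∀ x, 0 ≤ f x) (hf : LS f) :
    LS (fun x => ∑ y, Amat N x y * f y) := by
  classical
  intro e s t
  have hA : ∀ x y : RowSt N, 0 ≤ Amat N x y := fun x y => by unfold Amat; split_ifs <;> norm_num
  have hnn : ∀ x, 0 ≤ ∑ y, Amat N x y * f y := fun x =>
    Finset.sum_nonneg fun y _ => mul_nonneg (hA x y) (hf0 y)
  by_cases hs : IsRow N e s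
  swap
  · rw [ex_neg _ hs, zero_mul]
    exact mul_nonneg (ex_nonneg hnn _ _) (ex_nonneg hnn _ _)
  by_cases ht : IsRow N e t
  swap
  · rw [ex_neg _ ht, mul_zero]
    exact mul_nonneg (ex_nonneg hnn _ _) (ex_nonneg hnn _ _)
  have key : ∀ u (hu : IsRow N e u), ex (fun x => ∑ y, Amat N x y * f y) e u =
      ∑ v ∈ Rw N (e + 1), (if Cf u v then ex f (e + 1) v else 0) := by
    intro u hu
    rw [ex_pos _ hu]
    have h1 : (∑ y, Amat N ⟨(e, u), hu⟩ y * f y) =
        ∑ y : RowSt N, if y.par = e + 1 then (if Cf u y.1.2 then f y else 0) else 0 := by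
      refine Finset.sum_congr rfl fun y _ => ?_
      unfold Amat
      by_cases h2 : y.par = e + 1
      · by_cases h3 : Cf u y.1.2
        · have h4 : Compat (⟨(e, u), hu⟩ : RowSt N) y := ⟨h2, h3⟩
          rw [if_pos h4, if_pos h2, if_pos h3, one_mul]
        · have h4 : ¬ Compat (⟨(e, u), hu⟩ : RowSt N) y := fun h => h3 h.2
          rw [if_neg h4, if_pos h2, if_neg h3, zero_mul]
      · have h4 : ¬ Compat (⟨(e, u), hu⟩ : RowSt N) y := fun h => h2 h.1
        rw [if_neg h4, if_neg h2, zero_mul]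
    rw [h1, sum_par (fun y => if Cf u y.1.2 then f y else 0)]
    refine Finset.sum_congr rfl fun v hv => ?_
    rw [ex_pos _ (mem_Rw.1 hv)]
    by_cases h5 : Cf u v
    · rw [if_pos h5, ex_pos _ (mem_Rw.1 hv), if_pos h5]
    · rw [if_neg h5, if_neg h5]
  rw [key s hs, key t ht, key _ (hs.inf ht), key _ (hs.sup ht)]
  refine four_closed (fun v => if Cf s v then ex f (e + 1) v else 0)
    (fun v => if Cf t v then ex f (e + 1) v else 0)
    (fun v => if Cf (s ⊓ t) v then ex f (e + 1) v else 0)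
    (fun v => if Cf (s ⊔ t) v then ex f (e + 1) v else 0) (Rw N (e + 1))
    (fun a ha b hb => mem_Rw.2 ((mem_Rw.1 ha).inf (mem_Rw.1 hb)))
    (fun a ha b hb => mem_Rw.2 ((mem_Rw.1 ha).sup (mem_Rw.1 hb)))
    (fun v => ?_) (fun v => ?_) (fun v => ?_) (fun v => ?_) (fun v v' => ?_)
  · split_ifs
    · exact ex_nonneg hf0 _ _
    · exact le_rfl
  · split_ifs
    · exact ex_nonneg hf0 _ _
    · exact le_rfl
  · split_ifs
    · exact ex_nonneg hf0 _ _
    · exact le_rfl
  · split_ifs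
    · exact ex_nonneg hf0 _ _
    · exact le_rfl
  · have r0 : 0 ≤ (if Cf (s ⊓ t) (v ⊓ v') then ex f (e + 1) (v ⊓ v') else 0) *
        (if Cf (s ⊔ t) (v ⊔ v') then ex f (e + 1) (v ⊔ v') else 0) := by
      apply mul_nonneg <;> split_ifs <;> first | exact ex_nonneg hf0 _ _ | exact le_rfl
    by_cases h1 : Cf s v
    swap
    · rw [if_neg h1, zero_mul]; exact r0
    by_cases h2 : Cf t v'
    swap
    · rw [if_neg h2, mul_zero]; exact r0
    rw [if_pos h1, if_pos h2, if_pos (h1.inf h2), if_pos (h1.sup h2)]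
    exact hf (e + 1) v v'

omit [Fintype (RowSt N)] in
theorem LS.one : LS (fun _ : RowSt N => (1 : ℝ)) := by
  intro e s t
  have hnn : ∀ x : RowSt N, (0 : ℝ) ≤ 1 := fun _ => zero_le_one
  by_cases hs : IsRow N e s
  swap
  · rw [ex_neg _ hs, zero_mul]
    exact mul_nonneg (ex_nonneg hnn _ _) (ex_nonneg hnn _ _)
  by_cases ht : IsRow N e t
  swap
  · rw [ex_neg _ ht, mul_zero]
    exact mul_nonneg (ex_nonneg hnn _ _) (ex_nonneg hnn _ _)
  rw [ex_pos _ hs, ex_pos _ ht, ex_pos _ (hs.inf ht), ex_pos _ (hs.sup ht)]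

/-- iterates of the transfer matrix -/
noncomputable def itA (N : ℕ) [Fintype (RowSt N)] : ℕ → RowSt N → ℝ
  | 0 => fun _ => 1
  | n + 1 => fun x => ∑ y, Amat N x y * itA N n y

theorem itA_nonneg (n : ℕ) (x : RowSt N) : 0 ≤ itA N n x := by
  induction n generalizing x with
  | zero => exact zero_le_one
  | succ n ih =>
    refine Finset.sum_nonneg fun y _ => mul_nonneg ?_ (ih y)
    unfold Amat; split_ifs <;> norm_num

theorem LS.itA (n : ℕ) : LS (itA N n) := by
  induction n with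
  | zero => exact LS.one
  | succ n ih => exact LS.step (itA_nonneg n) ih

omit [Fintype (RowSt N)] in
/-- limits of log-supermodular functions, normalised on each parity class -/
theorem LS.lim {f : ℕ → RowSt N → ℝ} (hf : ∀ n, LS (f n)) {g : RowSt N → ℝ} {c : ZMod 2 → ℝ}
    (hc : ∀ e, 0 < c e) {k : ℕ → ℕ}
    (hlim : ∀ x, Tendsto (fun n => f (k n) x) atTop (𝓝 (g x * c x.par))) : LS g := by
  intro e s t
  have hex : ∀ u, Tendsto (fun n => ex (f (k n)) e u) atTop (𝓝 (ex g e u * c e)) := by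
    intro u
    by_cases hu : IsRow N e u
    · simp only [ex_pos _ hu]
      exact hlim ⟨(e, u), hu⟩
    · simp only [ex_neg _ hu, zero_mul]
      exact tendsto_const_nhds
  have h1 := le_of_tendsto_of_tendsto' ((hex s).mul (hex t)) ((hex (s ⊓ t)).mul (hex (s ⊔ t)))
    (fun n => hf (k n) e s t)
  have h2 : 0 < c e * c e := mul_pos (hc e) (hc e)
  have h3 : (ex g e s * ex g e t) * (c e * c e) ≤
      (ex g e (s ⊓ t) * ex g e (s ⊔ t)) * (c e * c e) := by
    calc _ = ex g e s * c e * (ex g e t * c e) := by ring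
      _ ≤ _ := h1
      _ = _ := by ring
  exact le_of_mul_le_mul_right h3 h2

omit [Fintype (RowSt N)] in
theorem LS.smul {f : RowSt N → ℝ} (hf : LS f) {c : ℝ} : LS (fun x => c * f x) := by
  intro e s t
  have h : ∀ u, ex (fun x => c * f x) e u = c * ex f e u := by
    intro u
    by_cases hu : IsRow N e u
    · rw [ex_pos _ hu, ex_pos _ hu]
    · rw [ex_neg _ hu, ex_neg _ hu, mul_zero]
  rw [h, h, h, h]
  have := mul_le_mul_of_nonneg_left (hf e s t) (mul_self_nonneg c)
  nlinarith [this]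


/-! ### the window law -/

/-- the weight of a path without transition probabilities -/
theorem PData.W_eq {X : Type*} [Fintype X] (D : PData X) (e : ZMod 2) (n : ℕ)
    (q : Fin (n + 1) → X) :
    D.W e n q = (if D.par (q 0) = e then D.psi (q 0) else 0) *
      (∏ i : Fin n, D.A (q i.castSucc) (q i.succ)) * D.psi (q (Fin.last n)) / D.lam ^ n := by
  have key : ∀ (n : ℕ) (q : Fin (n + 1) → X), ∏ i : Fin n, D.P (q i.castSucc) (q i.succ) =
      (∏ i : Fin n, D.A (q i.castSucc) (q i.succ)) * D.psi (q (Fin.last n)) /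
        (D.lam ^ n * D.psi (q 0)) := by
    intro n
    induction n with
    | zero =>
      intro q
      have := (D.pos (q 0)).ne'
      simp only [univ_eq_empty, prod_empty, pow_zero, one_mul]
      rw [show Fin.last 0 = 0 from rfl, div_self this]
    | succ n ih =>
      intro q
      rw [Fin.prod_univ_castSucc, Fin.prod_univ_castSucc]
      have h1 := ih (fun i => q i.castSucc)
      have h2 : ∏ i : Fin n, D.P (q i.castSucc.castSucc) (q i.castSucc.succ) =
          ∏ i : Fin n, D.P ((fun i : Fin (n + 1) => q i.castSucc) i.castSucc)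
            ((fun i : Fin (n + 1) => q i.castSucc) i.succ) := rfl
      rw [h2, h1]
      have e1 : (∏ i : Fin n, D.A ((fun i : Fin (n + 1) => q i.castSucc) i.castSucc)
            ((fun i : Fin (n + 1) => q i.castSucc) i.succ)) =
          ∏ i : Fin n, D.A (q i.castSucc.castSucc) (q i.castSucc.succ) := rfl
      rw [e1]
      have e2 : q (Fin.castSucc (0 : Fin (n + 1))) = q 0 := rfl
      rw [e2]
      unfold PData.P
      have h0 := (D.pos (q 0)).ne'
      have h3 := (D.pos (q (Fin.last n).castSucc)).ne'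
      have h4 := D.lpos.ne'
      have e3 : (Fin.last n).succ = Fin.last (n + 1) := rfl
      rw [e3]
      field_simp
      ring
  unfold PData.W
  rw [key]
  have h0 := (D.pos (q 0)).ne'
  have h4 := D.lpos.ne'
  split_ifs
  · field_simp
  · simp

theorem PData.W_nonneg {X : Type*} [Fintype X] (D : PData X) (e : ZMod 2) (n : ℕ)
    (q : Fin (n + 1) → X) : 0 ≤ D.W e n q := by
  rw [D.W_eq]
  refine div_nonneg (mul_nonneg (mul_nonneg ?_ ?_) (D.pos _).le) (pow_pos D.lpos n).le
  · split_ifs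
    · exact (D.pos _).le
    · exact le_rfl
  · exact Finset.prod_nonneg fun i _ => D.nn _ _

theorem PData.par_of_W_ne {X : Type*} [Fintype X] (D : PData X) {e : ZMod 2} {n : ℕ}
    {q : Fin (n + 1) → X} (h : D.W e n q ≠ 0) (i : Fin (n + 1)) :
    D.par (q i) = e + ((i : ℕ) : ZMod 2) := by
  rw [D.W_eq] at h
  have h0 : D.par (q 0) = e := by
    by_contra h'
    apply h
    rw [if_neg h']
    simp
  have h1 : ∀ i : Fin n, D.A (q i.castSucc) (q i.succ) ≠ 0 := by
    intro i h'
    apply h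
    have : ∏ i : Fin n, D.A (q i.castSucc) (q i.succ) = 0 := Finset.prod_eq_zero (mem_univ i) h'
    rw [this]
    simp
  induction i using Fin.induction with
  | zero => simpa using h0
  | succ i ih =>
    rw [D.flip _ _ (h1 i), ih]
    simp only [Fin.val_succ, Fin.val_castSucc, Nat.cast_add, Nat.cast_one]
    ring

instance (X : Type*) (n : ℕ) : MeasurableSingletonClass (Path X n) := ⟨fun _ => trivial⟩

/-- the rows of a path as functions -/
def rows {n : ℕ} (q : Path (RowSt N) n) : Fin (n + 1) → ℤ → ℤ := fun i => (q i).1.2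

/-- the path with given rows -/
def tp {n : ℕ} (e : ZMod 2) (s : Fin (n + 1) → ℤ → ℤ)
    (h : ∀ i : Fin (n + 1), IsRow N (e + ((i : ℕ) : ZMod 2)) (s i)) : Path (RowSt N) n :=
  fun i => ⟨(e + ((i : ℕ) : ZMod 2), s i), h i⟩

omit [Fintype (RowSt N)] in
theorem rows_tp {n : ℕ} (e : ZMod 2) (s : Fin (n + 1) → ℤ → ℤ)
    (h : ∀ i : Fin (n + 1), IsRow N (e + ((i : ℕ) : ZMod 2)) (s i)) : rows (tp e s h) = s := rfl

omit [Fintype (RowSt N)] in
theorem tp_rows {n : ℕ} {e : ZMod 2} {q : Path (RowSt N) n}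
    (h : ∀ i : Fin (n + 1), (q i).par = e + ((i : ℕ) : ZMod 2))
    (h' : ∀ i : Fin (n + 1), IsRow N (e + ((i : ℕ) : ZMod 2)) (rows q i)) :
    tp e (rows q) h' = q := by
  funext i
  exact Subtype.ext (Prod.ext (h i).symm rfl)

open Classical in
/-- extension by zero of a function on paths -/
noncomputable def exP {n : ℕ} (e : ZMod 2) (G : Path (RowSt N) n → ℝ)
    (s : Fin (n + 1) → ℤ → ℤ) : ℝ :=
  if h : ∀ i : Fin (n + 1), IsRow N (e + ((i : ℕ) : ZMod 2)) (s i) then G (tp e s h) else 0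

/-- sums over paths as sums over the lattice of rows -/
theorem sum_path {n : ℕ} (e : ZMod 2) (G : Path (RowSt N) n → ℝ)
    (hG : ∀ q, G q ≠ 0 → ∀ i : Fin (n + 1), (q i).par = e + ((i : ℕ) : ZMod 2)) :
    ∑ q, G q = ∑ s ∈ Fintype.piFinset (fun i : Fin (n + 1) => Rw N (e + ((i : ℕ) : ZMod 2))),
      exP e G s := by
  classical
  have h1 : ∑ q, G q = ∑ q ∈ univ.filter (fun q : Path (RowSt N) n =>
      ∀ i : Fin (n + 1), (q i).par = e + ((i : ℕ) : ZMod 2)), G q := by
    rw [Finset.sum_filter]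
    refine Finset.sum_congr rfl fun q _ => ?_
    by_cases h : G q = 0
    · rw [h]; simp
    · rw [if_pos (hG q h)]
  rw [h1]
  refine Finset.sum_bij (fun q _ => rows q) ?_ ?_ ?_ ?_
  · intro q hq
    rw [Fintype.mem_piFinset]
    intro i
    rw [mem_Rw]
    have := (mem_filter.1 hq).2 i
    have h2 : IsRow N (q i).par (q i).1.2 := (q i).2
    rw [this] at h2
    exact h2
  · intro q hq q' hq' h
    funext i
    exact Subtype.ext (Prod.ext (((mem_filter.1 hq).2 i).trans ((mem_filter.1 hq').2 i).symm)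
      (congrFun h i))
  · intro s hs
    rw [Fintype.mem_piFinset] at hs
    refine ⟨tp e s fun i => mem_Rw.1 (hs i), ?_, rows_tp e s _⟩
    rw [mem_filter]
    exact ⟨mem_univ _, fun i => rfl⟩
  · intro q hq
    have hr : ∀ i : Fin (n + 1), IsRow N (e + ((i : ℕ) : ZMod 2)) (rows q i) := by
      intro i
      have := (mem_filter.1 hq).2 i
      have h2 : IsRow N (q i).par (q i).1.2 := (q i).2
      rw [this] at h2
      exact h2
    unfold exP
    rw [dif_pos hr, tp_rows (mem_filter.1 hq).2 hr]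

omit [Fintype (RowSt N)] in
theorem exP_pos {n : ℕ} {e : ZMod 2} (G : Path (RowSt N) n → ℝ) {s : Fin (n + 1) → ℤ → ℤ}
    (h : ∀ i : Fin (n + 1), IsRow N (e + ((i : ℕ) : ZMod 2)) (s i)) :
    exP e G s = G (tp e s h) := by
  unfold exP
  rw [dif_pos h]

omit [Fintype (RowSt N)] in
theorem exP_neg {n : ℕ} {e : ZMod 2} (G : Path (RowSt N) n → ℝ) {s : Fin (n + 1) → ℤ → ℤ}
    (h : ¬ ∀ i : Fin (n + 1), IsRow N (e + ((i : ℕ) : ZMod 2)) (s i)) :
    exP e G s = 0 := by
  unfold exP
  rw [dif_neg h]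

/-- **Conditional association of the window law.** -/
theorem condAssoc_rows (D : PData (RowSt N)) (hA : D.A = Amat N) (hpar : D.par = RowSt.par)
    (hls : LS D.psi) (e : ZMod 2) (n : ℕ) (l : ℤ) {ι : Type*}
    (φ : ι → (Fin (n + 1) → ℤ → ℤ) → ℝ) (hφ : ∀ i, Monotone (φ i)) :
    CLT.CondAssoc (D.mu e n) (Fl (RowSt N) n l) (fun i q => φ i (rows q)) := by
  classical
  refine condAssoc_of_fibre (Ω := Path (RowSt N) n) (p := fun q => D.W e n q)
    (fun q => D.W_nonneg e n q) _ _ ?_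
  intro y f g hf hg
  set ρ : Path (RowSt N) n → Fin (n + 1) → Option (RowSt N) :=
    fun q i => if (i : ℤ) ≤ l then some (q i) else none with hρ
  set w : Path (RowSt N) n → ℝ := fun q => if ρ q = y then D.W e n q else 0 with hw
  have hw0 : ∀ q, 0 ≤ w q := by
    intro q
    rw [hw]
    dsimp only
    split_ifs
    · exact D.W_nonneg e n q
    · exact le_rfl
  have hwp : ∀ q, w q ≠ 0 → ∀ i : Fin (n + 1), (q i).par = e + ((i : ℕ) : ZMod 2) := by
    intro q hq i
    have h1 : D.W e n q ≠ 0 := by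
      intro h
      apply hq
      rw [hw]
      dsimp only
      rw [h]
      simp
    have := D.par_of_W_ne h1 i
    rw [hpar] at this
    exact this
  have conv : ∀ F : (Fin (n + 1) → ℤ → ℤ) → ℝ,
      (∑ q, if ρ q = y then D.W e n q * F (rows q) else 0) =
      ∑ s ∈ Fintype.piFinset (fun i : Fin (n + 1) => Rw N (e + ((i : ℕ) : ZMod 2))),
        exP e w s * F s := by
    intro F
    have h1 : (∑ q, if ρ q = y then D.W e n q * F (rows q) else 0) =
        ∑ q, w q * F (rows q) := by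
      refine Finset.sum_congr rfl fun q _ => ?_
      rw [hw]
      dsimp only
      split_ifs <;> simp
    rw [h1, sum_path e (fun q => w q * F (rows q)) (fun q hq => hwp q (left_ne_zero_of_mul hq))]
    refine Finset.sum_congr rfl fun s hs => ?_
    have hs' : ∀ i : Fin (n + 1), IsRow N (e + ((i : ℕ) : ZMod 2)) (s i) := fun i =>
      mem_Rw.1 (Fintype.mem_piFinset.1 hs i)
    rw [exP_pos _ hs', exP_pos _ hs', rows_tp]
  have conv1 : (∑ q, if ρ q = y then D.W e n q else 0) =
      ∑ s ∈ Fintype.piFinset (fun i : Fin (n + 1) => Rw N (e + ((i : ℕ) : ZMod 2))),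
        exP e w s := by
    have := conv fun _ => 1
    simpa only [mul_one] using this
  rw [conv (fun s => f fun i => φ i s), conv (fun s => g fun i => φ i s),
    conv (fun s => (f fun i => φ i s) * g fun i => φ i s), conv1]
  refine fkg_weighted (exP e w) _ _ _ ?_ ?_ ?_ ?_ ?_
  · intro s
    by_cases h : ∀ i : Fin (n + 1), IsRow N (e + ((i : ℕ) : ZMod 2)) (s i)
    · rw [exP_pos _ h]; exact hw0 _
    · rw [exP_neg _ h]
  · intro s hs
    refine exP_neg _ fun h => hs ?_
    exact Fintype.mem_piFinset.2 fun i => mem_Rw.2 (h i)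
  · -- log-supermodularity
    intro a b
    have hnn : ∀ s, 0 ≤ exP e w s := by
      intro s
      by_cases h : ∀ i : Fin (n + 1), IsRow N (e + ((i : ℕ) : ZMod 2)) (s i)
      · rw [exP_pos _ h]; exact hw0 _
      · rw [exP_neg _ h]
    by_cases ha : ∀ i : Fin (n + 1), IsRow N (e + ((i : ℕ) : ZMod 2)) (a i)
    swap
    · rw [exP_neg _ ha, zero_mul]; exact mul_nonneg (hnn _) (hnn _)
    by_cases hb : ∀ i : Fin (n + 1), IsRow N (e + ((i : ℕ) : ZMod 2)) (b i)
    swap
    · rw [exP_neg _ hb, mul_zero]; exact mul_nonneg (hnn _) (hnn _)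
    have hab : ∀ i : Fin (n + 1), IsRow N (e + ((i : ℕ) : ZMod 2)) ((a ⊓ b) i) :=
      fun i => (ha i).inf (hb i)
    have hab' : ∀ i : Fin (n + 1), IsRow N (e + ((i : ℕ) : ZMod 2)) ((a ⊔ b) i) :=
      fun i => (ha i).sup (hb i)
    rw [exP_pos _ ha, exP_pos _ hb, exP_pos _ hab, exP_pos _ hab']
    by_cases h1 : ρ (tp e a ha) = y
    swap
    · have : w (tp e a ha) = 0 := by rw [hw]; dsimp only; rw [if_neg h1]
      rw [this, zero_mul]; exact mul_nonneg (hw0 _) (hw0 _)
    by_cases h2 : ρ (tp e b hb) = y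
    swap
    · have : w (tp e b hb) = 0 := by rw [hw]; dsimp only; rw [if_neg h2]
      rw [this, mul_zero]; exact mul_nonneg (hw0 _) (hw0 _)
    have hrow : ∀ i : Fin (n + 1), (i : ℤ) ≤ l → a i = b i := by
      intro i hi
      have h3 : ρ (tp e a ha) i = ρ (tp e b hb) i := by rw [h1, h2]
      rw [hρ] at h3
      dsimp only at h3
      rw [if_pos hi, if_pos hi, Option.some.injEq] at h3
      have := congrArg (fun x : RowSt N => x.1.2) h3
      exact this
    have h3 : ρ (tp e (a ⊓ b) hab) = y := by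
      rw [← h1]
      funext i
      rw [hρ]
      dsimp only
      by_cases hi : (i : ℤ) ≤ l
      · rw [if_pos hi, if_pos hi]
        congr 1
        apply Subtype.ext
        refine Prod.ext rfl ?_
        show a i ⊓ b i = a i
        rw [hrow i hi, inf_idem]
      · rw [if_neg hi, if_neg hi]
    have h4 : ρ (tp e (a ⊔ b) hab') = y := by
      rw [← h1]
      funext i
      rw [hρ]
      dsimp only
      by_cases hi : (i : ℤ) ≤ l
      · rw [if_pos hi, if_pos hi]
        congr 1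
        apply Subtype.ext
        refine Prod.ext rfl ?_
        show a i ⊔ b i = a i
        rw [hrow i hi, sup_idem]
      · rw [if_neg hi, if_neg hi]
    have e1 : ∀ q, ρ q = y → w q = D.W e n q := by
      intro q hq
      rw [hw]
      dsimp only
      rw [if_pos hq]
    rw [e1 _ h1, e1 _ h2, e1 _ h3, e1 _ h4]
    -- the weights
    have hp0 : ∀ (s : Fin (n + 1) → ℤ → ℤ)
        (h : ∀ i : Fin (n + 1), IsRow N (e + ((i : ℕ) : ZMod 2)) (s i)),
        D.W e n (tp e s h) = ex D.psi e (s 0) *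
          (∏ i : Fin n, if Cf (s i.castSucc) (s i.succ) then (1 : ℝ) else 0) *
          ex D.psi (e + (n : ZMod 2)) (s (Fin.last n)) / D.lam ^ n := by
      intro s h
      refine (D.W_eq e n (tp e s h)).trans ?_
      rw [hpar, hA]
      have c1 : RowSt.par (tp e s h 0) = e := by
        show e + (((0 : Fin (n + 1)) : ℕ) : ZMod 2) = e
        simp
      rw [if_pos c1]
      have c2 : D.psi (tp e s h 0) = ex D.psi e (s 0) := by
        have c4 := ex_self D.psi (tp e s h 0)
        rw [c1] at c4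
        exact c4.symm
      have c3 : D.psi (tp e s h (Fin.last n)) = ex D.psi (e + (n : ZMod 2)) (s (Fin.last n)) := by
        have c4 := ex_self D.psi (tp e s h (Fin.last n))
        have c5 : RowSt.par (tp e s h (Fin.last n)) = e + (n : ZMod 2) := by
          show e + (((Fin.last n : Fin (n + 1)) : ℕ) : ZMod 2) = e + n
          rw [Fin.val_last]
        rw [c5] at c4
        exact c4.symm
      rw [c2, c3]
      congr 3
      refine Finset.prod_congr rfl fun i _ => ?_
      unfold Amat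
      have c6 : Compat (tp e s h i.castSucc) (tp e s h i.succ) ↔
          Cf (s i.castSucc) (s i.succ) := by
        constructor
        · intro c; exact c.2
        · intro c
          refine ⟨?_, c⟩
          show e + (((i.succ : Fin (n + 1)) : ℕ) : ZMod 2) =
            e + (((i.castSucc : Fin (n + 1)) : ℕ) : ZMod 2) + 1
          simp only [Fin.val_succ, Fin.val_castSucc, Nat.cast_add, Nat.cast_one]
          ring
      by_cases c7 : Cf (s i.castSucc) (s i.succ)
      · rw [if_pos c7, if_pos (c6.2 c7)]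
      · rw [if_neg c7, if_neg (fun c => c7 (c6.1 c))]
    rw [hp0 _ ha, hp0 _ hb, hp0 _ hab, hp0 _ hab']
    have hl := pow_pos D.lpos n
    rw [div_mul_div_comm, div_mul_div_comm]
    refine div_le_div_of_nonneg_right ?_ (mul_pos hl hl).le
    have psi0 : ∀ x, 0 ≤ D.psi x := fun x => (D.pos x).le
    have q1 := hls e (a 0) (b 0)
    have q2 := hls (e + (n : ZMod 2)) (a (Fin.last n)) (b (Fin.last n))
    have q3 : (∏ i : Fin n, if Cf (a i.castSucc) (a i.succ) then (1 : ℝ) else 0) *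
        (∏ i : Fin n, if Cf (b i.castSucc) (b i.succ) then (1 : ℝ) else 0) ≤
        (∏ i : Fin n, if Cf ((a ⊓ b) i.castSucc) ((a ⊓ b) i.succ) then (1 : ℝ) else 0) *
        (∏ i : Fin n, if Cf ((a ⊔ b) i.castSucc) ((a ⊔ b) i.succ) then (1 : ℝ) else 0) := by
      rw [← Finset.prod_mul_distrib, ← Finset.prod_mul_distrib]
      refine Finset.prod_le_prod (fun i _ => ?_) (fun i _ => ?_)
      · apply mul_nonneg <;> split_ifs <;> norm_num
      · have r0 : (0 : ℝ) ≤ (if Cf ((a ⊓ b) i.castSucc) ((a ⊓ b) i.succ) then (1 : ℝ) else 0) *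
            (if Cf ((a ⊔ b) i.castSucc) ((a ⊔ b) i.succ) then (1 : ℝ) else 0) := by
          apply mul_nonneg <;> split_ifs <;> norm_num
        by_cases d1 : Cf (a i.castSucc) (a i.succ)
        swap
        · rw [if_neg d1, zero_mul]; exact r0
        by_cases d2 : Cf (b i.castSucc) (b i.succ)
        swap
        · rw [if_neg d2, mul_zero]; exact r0
        have d3 : Cf ((a ⊓ b) i.castSucc) ((a ⊓ b) i.succ) := d1.inf d2
        have d4 : Cf ((a ⊔ b) i.castSucc) ((a ⊔ b) i.succ) := d1.sup d2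
        rw [if_pos d1, if_pos d2, if_pos d3, if_pos d4]
    have z1 : 0 ≤ ex D.psi e ((a ⊓ b) 0) * ex D.psi e ((a ⊔ b) 0) :=
      mul_nonneg (ex_nonneg psi0 _ _) (ex_nonneg psi0 _ _)
    have z2 : 0 ≤ ex D.psi (e + (n : ZMod 2)) (a (Fin.last n)) *
        ex D.psi (e + (n : ZMod 2)) (b (Fin.last n)) :=
      mul_nonneg (ex_nonneg psi0 _ _) (ex_nonneg psi0 _ _)
    have z3 : (0 : ℝ) ≤ (∏ i : Fin n, if Cf (a i.castSucc) (a i.succ) then (1 : ℝ) else 0) *
        (∏ i : Fin n, if Cf (b i.castSucc) (b i.succ) then (1 : ℝ) else 0) := by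
      apply mul_nonneg <;> refine Finset.prod_nonneg fun i _ => ?_ <;> split_ifs <;> norm_num
    have z4 := mul_le_mul q1 q3 z3 z1
    have z5 : 0 ≤ ex D.psi e ((a ⊓ b) 0) * ex D.psi e ((a ⊔ b) 0) *
        ((∏ i : Fin n, if Cf ((a ⊓ b) i.castSucc) ((a ⊓ b) i.succ) then (1 : ℝ) else 0) *
        (∏ i : Fin n, if Cf ((a ⊔ b) i.castSucc) ((a ⊔ b) i.succ) then (1 : ℝ) else 0)) :=
      mul_nonneg z1 (z3.trans q3)
    have z6 := mul_le_mul z4 q2 z2 z5
    calc _ = ex D.psi e (a 0) * ex D.psi e (b 0) *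
          ((∏ i : Fin n, if Cf (a i.castSucc) (a i.succ) then (1 : ℝ) else 0) *
          (∏ i : Fin n, if Cf (b i.castSucc) (b i.succ) then (1 : ℝ) else 0)) *
          (ex D.psi (e + (n : ZMod 2)) (a (Fin.last n)) *
          ex D.psi (e + (n : ZMod 2)) (b (Fin.last n))) := by ring
      _ ≤ _ := z6
      _ = _ := by
        show _ = _
        simp only [Pi.inf_apply, Pi.sup_apply]
        ring
  · intro s t hst
    exact hf fun i => hφ i hst
  · intro s t hst
    exact hg fun i => hφ i hst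

end Vale.Agent.P153.Strip
end

section

/-!
# P153, strips: reflection, invariance and the Newman property for the heights of the even rows
-/

namespace Vale.Agent.P153.Strip

open Finset MeasureTheory

variable {N : ℕ}

/-- Actual height (before stopping). -/
noncomputable def hA (H : ℕ) (p : ℤ × ℤ) (q : Path (RowSt N) (4 * H)) : ℝ :=
  (((q : Fin (4 * H + 1) → RowSt N)
    ⟨min (2 * (p.1 + H).toNat) (4 * H), by omega⟩).ht (2 * p.2) : ℝ)

/-- The index of the row `2 * j` in the window. -/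
def ix (H : ℕ) (j : ℤ) : Fin (4 * H + 1) := ⟨min (2 * (j + H).toNat) (4 * H), by omega⟩

theorem ix_val {H : ℕ} {j : ℤ} (h1 : -(H : ℤ) ≤ j) (h2 : j ≤ H) :
    ((ix H j : Fin (4 * H + 1)) : ℕ) = 2 * (j + H).toNat := by
  unfold ix
  simp only
  omega

/-- The height function of a state at the key `2 * z`. -/
noncomputable def ev2 (z : ℤ) (x : RowSt N) : ℝ := (x.ht (2 * z) : ℝ)

section

variable [Fintype (RowSt N)] (D : PData (RowSt N)) (hD : D.A = Amat N)
include hD

theorem hR_ae' (e : ZMod 2) (H : ℕ) (p : ℤ × ℤ) (h1 : -(H : ℤ) ≤ p.1) (h2 : p.1 ≤ H) :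
    hR H p =ᵐ[D.mu e (4 * H)] hA H p := by
  filter_upwards [hR_ae D hD e H p h1 h2] with q hq
  rw [hq]
  unfold hA
  congr 3
  apply Fin.ext
  simp only
  omega

theorem hR_refl (e : ZMod 2) (H : ℕ) (l : ℤ) (p q : ℤ × ℤ) (h0 : -(H : ℤ) ≤ l)
    (hp : l ≤ p.1) (hp' : p.1 ≤ H) (hq : l ≤ q.1) (hq' : q.1 ≤ H)
    (hr : -(H : ℤ) ≤ 2 * l - q.1) :
    ∫ ω, ((D.mu e (4 * H))[hR H p | FR N H l]) ω * ((D.mu e (4 * H))[hR H q | FR N H l]) ω
      ∂(D.mu e (4 * H)) =
    ∫ ω, hR H p ω * hR H (2 * l - q.1, q.2) ω ∂(D.mu e (4 * H)) := by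
  have hF : FR N H l = Fl (RowSt N) (4 * H) (((ix H l : Fin (4 * H + 1)) : ℕ) : ℤ) := by
    show Fl (RowSt N) (4 * H) (2 * l + 2 * H) = _
    rw [ix_val h0 (hp.trans hp')]
    congr 1
    push_cast
    omega
  have a1 := hR_ae' D hD e H p (h0.trans hp) hp'
  have a2 := hR_ae' D hD e H q (h0.trans hq) hq'
  have a3 := hR_ae' D hD e H (2 * l - q.1, q.2) hr (by simp only; omega)
  have c1 := condExp_congr_ae (m := FR N H l) a1
  have c2 := condExp_congr_ae (m := FR N H l) a2
  have e1 : ∫ ω, ((D.mu e (4 * H))[hR H p | FR N H l]) ω *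
      ((D.mu e (4 * H))[hR H q | FR N H l]) ω ∂(D.mu e (4 * H)) =
      ∫ ω, ((D.mu e (4 * H))[hA H p | FR N H l]) ω *
      ((D.mu e (4 * H))[hA H q | FR N H l]) ω ∂(D.mu e (4 * H)) := by
    apply integral_congr_ae
    filter_upwards [c1, c2] with ω b1 b2
    rw [b1, b2]
  have e2 : ∫ ω, hR H p ω * hR H (2 * l - q.1, q.2) ω ∂(D.mu e (4 * H)) =
      ∫ ω, hA H p ω * hA H (2 * l - q.1, q.2) ω ∂(D.mu e (4 * H)) := by
    apply integral_congr_ae
    filter_upwards [a1, a3] with ω b1 b2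
    rw [b1, b2]
  rw [e1, e2, hF]
  have v1 := ix_val h0 (hp.trans hp')
  have v2 := ix_val (h0.trans hp) hp'
  have v3 := ix_val (h0.trans hq) hq'
  have v4 : ((ix H (2 * l - q.1) : Fin (4 * H + 1)) : ℕ) = 2 * (2 * l - q.1 + H).toNat :=
    ix_val hr (by omega)
  exact D.refl e (4 * H) (ix H l) (ix H p.1) (ix H q.1) (ix H (2 * l - q.1))
    (Fin.le_def.2 (by omega)) (Fin.le_def.2 (by omega)) (by omega) (ev2 p.2) (ev2 q.2)

theorem hR_inv (e : ZMod 2) (H : ℕ) (l : ℤ) (p q : ℤ × ℤ) (h0 : -(H : ℤ) ≤ l)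
    (hp : l ≤ p.1) (hp' : p.1 ≤ H) (hq : l ≤ q.1) (hq' : q.1 ≤ H)
    (hr : -(H : ℤ) ≤ 2 * l - q.1) (hr' : -(H : ℤ) ≤ 2 * l - p.1) :
    ∫ ω, hR H (2 * l - p.1, p.2) ω * hR H (2 * l - q.1, q.2) ω ∂(D.mu e (4 * H)) =
    ∫ ω, hR H p ω * hR H q ω ∂(D.mu e (4 * H)) := by
  have a1 := hR_ae' D hD e H p (h0.trans hp) hp'
  have a2 := hR_ae' D hD e H q (h0.trans hq) hq'
  have a3 := hR_ae' D hD e H (2 * l - q.1, q.2) hr (by simp only; omega)
  have a4 := hR_ae' D hD e H (2 * l - p.1, p.2) hr' (by simp only; omega)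
  have e1 : ∫ ω, hR H (2 * l - p.1, p.2) ω * hR H (2 * l - q.1, q.2) ω ∂(D.mu e (4 * H)) =
      ∫ ω, hA H (2 * l - p.1, p.2) ω * hA H (2 * l - q.1, q.2) ω ∂(D.mu e (4 * H)) := by
    apply integral_congr_ae
    filter_upwards [a3, a4] with ω b1 b2
    rw [b1, b2]
  have e2 : ∫ ω, hR H p ω * hR H q ω ∂(D.mu e (4 * H)) =
      ∫ ω, hA H p ω * hA H q ω ∂(D.mu e (4 * H)) := by
    apply integral_congr_ae
    filter_upwards [a1, a2] with ω b1 b2
    rw [b1, b2]
  rw [e1, e2]
  have v2 := ix_val (h0.trans hp) hp'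
  have v3 := ix_val (h0.trans hq) hq'
  have v4 : ((ix H (2 * l - q.1) : Fin (4 * H + 1)) : ℕ) = 2 * (2 * l - q.1 + H).toNat :=
    ix_val hr (by omega)
  have v5 : ((ix H (2 * l - p.1) : Fin (4 * H + 1)) : ℕ) = 2 * (2 * l - p.1 + H).toNat :=
    ix_val hr' (by omega)
  exact D.inv e (4 * H) (2 * (l + H).toNat) (ix H p.1) (ix H q.1) (ix H (2 * l - p.1))
    (ix H (2 * l - q.1)) (by omega) (by omega) (ev2 p.2) (ev2 q.2)

omit hD in
theorem condAssoc_congr {Ω : Type*} {mΩ : MeasurableSpace Ω} {μ : Measure Ω}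
    {m : MeasurableSpace Ω} {ι : Type*} [Countable ι] {r r' : ι → Ω → ℝ}
    (h : ∀ i, r i =ᵐ[μ] r' i) (hr : CLT.CondAssoc μ m r) : CLT.CondAssoc μ m r' := by
  intro f g hf hg mf mg
  have h0 : ∀ᵐ ω ∂μ, ∀ i, r i ω = r' i ω := ae_all_iff.2 fun i => h i
  have h1 : (fun ω => f (fun i => r i ω)) =ᵐ[μ] fun ω => f (fun i => r' i ω) := by
    filter_upwards [h0] with ω hω
    simp only [hω]
  have h2 : (fun ω => g (fun i => r i ω)) =ᵐ[μ] fun ω => g (fun i => r' i ω) := by
    filter_upwards [h0] with ω hω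
    simp only [hω]
  have h3 : (fun ω => f (fun i => r i ω) * g (fun i => r i ω)) =ᵐ[μ]
      fun ω => f (fun i => r' i ω) * g (fun i => r' i ω) := by
    filter_upwards [h0] with ω hω
    simp only [hω]
  have k := hr f g hf hg mf mg
  have c1 := condExp_congr_ae (m := m) h1
  have c2 := condExp_congr_ae (m := m) h2
  have c3 := condExp_congr_ae (m := m) h3
  filter_upwards [k, c1, c2, c3] with ω k c1 c2 c3
  rw [← c1, ← c2, ← c3]
  exact k

omit hD in
theorem hR_bm (H : ℕ) (p : ℤ × ℤ) :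
    CLT.BM (mΩ := (inferInstance : MeasurableSpace (Path (RowSt N) (4 * H))))
      (hR (N := N) H p) := by
  refine ⟨measurable_path _, ?_⟩
  obtain ⟨C, hC⟩ := (Set.finite_range fun q : Path (RowSt N) (4 * H) => |hR H p q|).bddAbove
  exact ⟨C, fun q => hC ⟨q, rfl⟩⟩

theorem hR_np (hpar : D.par = RowSt.par) (hls : LS D.psi) (e : ZMod 2) (H : ℕ) (l : ℤ)
    {ι : Type} [Fintype ι] (u : ι → ℤ × ℤ) (h1 : ∀ i, -(H : ℤ) ≤ (u i).1)
    (h2 : ∀ i, (u i).1 ≤ H) :
    CLT.NP (D.mu e (4 * H)) (FR N H l) (fun i => hR H (u i)) := by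
  apply CLT.CondAssoc.np (fun i => hR_bm H (u i))
  have k := condAssoc_rows D hD hpar hls e (4 * H) (2 * l + 2 * H)
    (fun i s => ((s (ix H (u i).1) (2 * (u i).2) : ℤ) : ℝ)) (fun i s t hst => by
      simp only
      exact_mod_cast hst (ix H (u i).1) (2 * (u i).2))
  exact condAssoc_congr (fun i => (hR_ae' D hD e H (u i) (h1 i) (h2 i)).symm) k

end

end Vale.Agent.P153.Strip
end

section

/-!
P153, block A3, step (5): product structure of separated domains.
-/

namespace Vale.Agent.P153.A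

open Vale.Agent.P153.GFF (Adj)
open Vale.Agent.P153.Topo (adj_symm)

namespace Pro

/-- Restriction to `D`. -/
def res (D : Finset Pt) (ω : Om) : Om := fun x => if x ∈ D then ω x else (true, false)

/-- Gluing of two configurations. -/
def glue (D : Finset Pt) (p : Om × Om) : Om := fun x => if x ∈ D then p.1 x else p.2 x

theorem off {D : Finset Pt} {ω : Om} (h : ω ∈ Cf D) {x : Pt} (hx : x ∉ D) :
    ω x = (true, false) :=
  Prod.ext (h.2.1 x fun h' => hx h'.1) (h.2.2 x hx)

/-- The domains are separated. -/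
def Sep (D D' : Finset Pt) : Prop := ∀ x ∈ D, ∀ y ∈ D', x ≠ y ∧ ¬ Adj x y

theorem Sep.symm {D D' : Finset Pt} (h : Sep D D') : Sep D' D := fun x hx y hy =>
  ⟨fun e => (h y hy x hx).1 e.symm, fun e => (h y hy x hx).2 (adj_symm e)⟩

theorem res_mem {D D' : Finset Pt} (h : Sep D D') {ω : Om} (hω : ω ∈ Cf (D ∪ D')) :
    res D ω ∈ Cf D := by
  have key : ∀ x ∈ D, ∀ y, y ∉ D → Adj x y → ω y = (true, false) := fun x hx y hy hxy =>
    off hω fun hy' => by
      rcases Finset.mem_union.1 hy' with h1 | h1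
      · exact hy h1
      · exact (h x hx y h1).2 hxy
  refine ⟨fun x y hxy => ?_, fun x hx => ?_, fun x hx => ?_⟩
  · by_cases hx : x ∈ D <;> by_cases hy : y ∈ D
    · simpa only [res, if_pos hx, if_pos hy] using hω.1 x y hxy
    · have e := key x hx y hy hxy
      have := hω.1 x y hxy
      rw [e] at this
      simpa only [res, if_pos hx, if_neg hy] using this
    · have e := key y hy x hx (adj_symm hxy)
      have := hω.1 x y hxy
      rw [e] at this
      simpa only [res, if_neg hx, if_pos hy] using this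
    · left
      simp only [res, if_neg hx, if_neg hy]
  · by_cases hxD : x ∈ D
    · simp only [res, if_pos hxD]
      refine hω.2.1 x fun hx' => hx ⟨hxD, fun w hw => ?_⟩
      rcases Finset.mem_union.1 (hx'.2 w hw) with h1 | h1
      · exact h1
      · exact absurd hw (h x hxD w h1).2
    · simp only [res, if_neg hxD]
  · simp only [res, if_neg hx]

theorem glue_mem {D D' : Finset Pt} (h : Sep D D') {p : Om × Om} (h1 : p.1 ∈ Cf D)
    (h2 : p.2 ∈ Cf D') : glue D p ∈ Cf (D ∪ D') := by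
  refine ⟨fun x y hxy => ?_, fun x hx => ?_, fun x hx => ?_⟩
  · by_cases hx : x ∈ D <;> by_cases hy : y ∈ D
    · simpa only [glue, if_pos hx, if_pos hy] using h1.1 x y hxy
    · simp only [glue, if_pos hx, if_neg hy]
      rw [off h2 (fun hy' => (h x hx y hy').2 hxy), ← off h1 hy]
      exact h1.1 x y hxy
    · simp only [glue, if_neg hx, if_pos hy]
      rw [off h2 (fun hx' => (h y hy x hx').2 (adj_symm hxy)), ← off h1 hx]
      exact h1.1 x y hxy
    · simpa only [glue, if_neg hx, if_neg hy] using h2.1 x y hxy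
  · by_cases hxD : x ∈ D
    · simp only [glue, if_pos hxD]
      exact h1.2.1 x fun hx' => hx ⟨Finset.mem_union_left _ hx'.1,
        fun w hw => Finset.mem_union_left _ (hx'.2 w hw)⟩
    · simp only [glue, if_neg hxD]
      exact h2.2.1 x fun hx' => hx ⟨Finset.mem_union_right _ hx'.1,
        fun w hw => Finset.mem_union_right _ (hx'.2 w hw)⟩
  · rw [Finset.mem_union, not_or] at hx
    simp only [glue, if_neg hx.1]
    exact h2.2.2 x hx.2

theorem res_glue {D : Finset Pt} {p : Om × Om} (h1 : p.1 ∈ Cf D) :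
    res D (glue D p) = p.1 := by
  funext x
  by_cases hx : x ∈ D
  · simp only [res, glue, if_pos hx]
  · simp only [res, if_neg hx]
    exact (off h1 hx).symm

theorem res_glue' {D D' : Finset Pt} (h : Sep D D') {p : Om × Om} (h2 : p.2 ∈ Cf D') :
    res D' (glue D p) = p.2 := by
  funext x
  by_cases hx : x ∈ D'
  · have hx' : x ∉ D := fun hx' => (h x hx' x hx).1 rfl
    simp only [res, glue, if_pos hx, if_neg hx']
  · simp only [res, if_neg hx]
    exact (off h2 hx).symm

theorem glue_res {D D' : Finset Pt} {ω : Om} (hω : ω ∈ Cf (D ∪ D')) :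
    glue D (res D ω, res D' ω) = ω := by
  funext x
  by_cases hx : x ∈ D
  · simp only [res, glue, if_pos hx]
  · by_cases hx' : x ∈ D'
    · simp only [res, glue, if_neg hx, if_pos hx']
    · simp only [res, glue, if_neg hx, if_neg hx']
      exact (off hω (by simp [hx, hx'])).symm

theorem sum_union {D D' : Finset Pt} (h : Sep D D') (F : Om → ℝ) (u v : Om → ℝ)
    (hF : ∀ p : Om × Om, p.1 ∈ Cf D → p.2 ∈ Cf D' → F (glue D p) = u p.1 * v p.2) :
    ∑ᶠ ω ∈ Cf (D ∪ D'), F ω = (∑ᶠ ω ∈ Cf D, u ω) * ∑ᶠ ω ∈ Cf D', v ω := by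
  classical
  rw [finsum_mem_eq_finite_toFinset_sum _ (E1f.cf_finite (D ∪ D')),
    finsum_mem_eq_finite_toFinset_sum _ (E1f.cf_finite D),
    finsum_mem_eq_finite_toFinset_sum _ (E1f.cf_finite D'), Finset.sum_mul_sum,
    ← Finset.sum_product']
  symm
  refine Finset.sum_nbij' (fun p => glue D p) (fun ω => (res D ω, res D' ω)) ?_ ?_ ?_ ?_ ?_
  · intro p hp
    rw [Finset.mem_product, Set.Finite.mem_toFinset, Set.Finite.mem_toFinset] at hp
    rw [Set.Finite.mem_toFinset]
    exact glue_mem h hp.1 hp.2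
  · intro ω hω
    rw [Set.Finite.mem_toFinset] at hω
    rw [Finset.mem_product, Set.Finite.mem_toFinset, Set.Finite.mem_toFinset]
    exact ⟨res_mem h hω, res_mem h.symm (by rwa [Finset.union_comm])⟩
  · intro p hp
    rw [Finset.mem_product, Set.Finite.mem_toFinset, Set.Finite.mem_toFinset] at hp
    exact Prod.ext (res_glue hp.1) (res_glue' h hp.2)
  · intro ω hω
    rw [Set.Finite.mem_toFinset] at hω
    exact glue_res hω
  · intro p hp
    rw [Finset.mem_product, Set.Finite.mem_toFinset, Set.Finite.mem_toFinset] at hp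
    exact (hF p hp.1 hp.2).symm

theorem sum_one (D : Finset Pt) : ∑ᶠ ω ∈ Cf D, (1 : ℝ) = ((Cf D).ncard : ℝ) := by
  rw [finsum_mem_eq_finite_toFinset_sum _ (E1f.cf_finite D), Finset.sum_const, nsmul_eq_mul,
    mul_one, ← Set.ncard_eq_toFinset_card _ (E1f.cf_finite D)]

end Pro

theorem s_prod : S_prod := by
  intro D D' h f g hf hg
  have h1 := Pro.sum_union (D := D) (D' := D') h (fun ω => f (tau ω) * g (tau ω))
    (fun ω => f (tau ω)) (fun ω => g (tau ω)) (by
      intro p h1 h2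
      have e1 : f (tau (Pro.glue D p)) = f (tau p.1) := hf _ _ fun x hx => by
        simp only [tau, Pro.glue, if_pos hx]
      have e2 : g (tau (Pro.glue D p)) = g (tau p.2) := hg _ _ fun x hx => by
        have hx' : x ∉ D := fun hx' => (h x hx' x hx).1 rfl
        simp only [tau, Pro.glue, if_neg hx']
      show f (tau (Pro.glue D p)) * g (tau (Pro.glue D p)) = _
      rw [e1, e2])
  have h2 := Pro.sum_union (D := D) (D' := D') h (fun _ => 1) (fun _ => 1) (fun _ => 1)
    (by intro p _ _; simp)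
  rw [Pro.sum_one, Pro.sum_one, Pro.sum_one] at h2
  show E2 (D ∪ D') (fun ω => f (tau ω) * g (tau ω)) =
    E2 D (fun ω => f (tau ω)) * E2 D' fun ω => g (tau ω)
  unfold E2
  rw [h1, h2, div_mul_div_comm]

end Vale.Agent.P153.A
end

section

/-!
P153, block A3, step (19): heights and pairs.
-/

namespace Vale.Agent.P153.A

open MeasureTheory
open Vale.Agent.P153.GFF (Adj)
open Vale.Agent.P153 (Step)

theorem rc_adj_step {x y : ℤ × ℤ} : Adj x y ↔ Step x y := by
  obtain ⟨a, b⟩ := x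
  obtain ⟨c, d⟩ := y
  simp only [Adj, Step, Set.mem_insert_iff, Set.mem_singleton_iff, Prod.mk.injEq]
  constructor <;> intro h <;> rcases h with h | h | h | h | h | h <;> omega

/-! ### finite facts -/

theorem rc_inc_anti (p q : Bool × Bool) : inc p q = - inc q p := by
  revert p q; decide

theorem rc_inc_mod (p q : Bool × Bool) (h : p.1 = q.1 ∨ p.2 = q.2) :
    (4 : ℤ) ∣ inc p q - (cd q - cd p) := by
  revert p q; decide

theorem rc_inc_tri (p q r : Bool × Bool) (h1 : p.1 = q.1 ∨ p.2 = q.2)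
    (h2 : q.1 = r.1 ∨ q.2 = r.2) (h3 : r.1 = p.1 ∨ r.2 = p.2) :
    inc p q + inc q r + inc r p = 0 := by
  revert p q r; decide

theorem rc_inc_neg (p q : Bool × Bool) :
    inc (p.1, !p.2) (q.1, !q.2) = - inc p q := by
  revert p q; decide

theorem rc_cd_enc (a : ℤ) : cd (enc a) = a % 4 := by
  have ha : a % 4 = 0 ∨ a % 4 = 1 ∨ a % 4 = 2 ∨ a % 4 = 3 := by omega
  unfold cd enc
  rcases ha with ha | ha | ha | ha <;> rw [ha] <;> decide

theorem rc_inc_enc {a b : ℤ} (h : |a - b| ≤ 1) : inc (enc a) (enc b) = b - a := by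
  have h1 := abs_le.1 h
  unfold inc
  rw [rc_cd_enc, rc_cd_enc]
  split_ifs <;> omega

/-! ### signed sums -/

theorem rc_Sm_zero (f : ℤ → ℤ) : Sm f 0 = 0 := by simp [Sm]

theorem rc_Sm_succ (f : ℤ → ℤ) (i : ℤ) : Sm f (i + 1) = Sm f i + f i := by
  unfold Sm
  rcases le_or_gt 0 i with h | h
  · have e1 : Finset.Ico 0 (i + 1) = insert i (Finset.Ico 0 i) := by
      ext k; simp only [Finset.mem_Ico, Finset.mem_insert]; omega
    have e2 : Finset.Ico (i + 1) 0 = ∅ := Finset.Ico_eq_empty (by omega)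
    have e3 : Finset.Ico i 0 = ∅ := Finset.Ico_eq_empty (by omega)
    simp only [e1, e2, e3, Finset.sum_empty]
    rw [Finset.sum_insert (by simp)]
    ring
  · have e1 : Finset.Ico i 0 = insert i (Finset.Ico (i + 1) 0) := by
      ext k; simp only [Finset.mem_Ico, Finset.mem_insert]; omega
    have e2 : Finset.Ico 0 (i + 1) = ∅ := Finset.Ico_eq_empty (by omega)
    have e3 : Finset.Ico 0 i = ∅ := Finset.Ico_eq_empty (by omega)
    simp only [e1, e2, e3, Finset.sum_empty]
    rw [Finset.sum_insert (by simp)]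
    ring

/-- A function with given increments is the signed sum. -/
theorem rc_Sm_eq {f F : ℤ → ℤ} (h0 : F 0 = 0) (h : ∀ i, F (i + 1) = F i + f i) (n : ℤ) :
    Sm f n = F n := by
  have key : ∀ j, F j - Sm f j = 0 := by
    intro j
    have hs : ∀ j, F (j + 1) - Sm f (j + 1) = F j - Sm f j := by
      intro j; rw [h, rc_Sm_succ]; ring
    induction j using Int.induction_on with
    | zero => rw [h0, rc_Sm_zero, sub_zero]
    | succ n ih => rw [hs, ih]
    | pred n ih =>
      have := hs (-(n : ℤ) - 1)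
      rw [sub_add_cancel] at this
      rw [← this, ih]
  have := key n
  omega

theorem rc_Sm_tele (F : ℤ → ℤ) (n : ℤ) : Sm (fun k => F (k + 1) - F k) n = F n - F 0 :=
  rc_Sm_eq (F := fun n => F n - F 0) (by simp) (fun i => by ring) n

theorem rc_Sm_neg (f : ℤ → ℤ) (n : ℤ) : Sm (fun k => - f k) n = - Sm f n :=
  rc_Sm_eq (F := fun n => - Sm f n) (by simp [rc_Sm_zero]) (fun i => by rw [rc_Sm_succ]; ring) n

theorem rc_Sm_dvd {f g : ℤ → ℤ} {a : ℤ} (h : ∀ k, a ∣ f k - g k) (n : ℤ) :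
    a ∣ Sm f n - Sm g n := by
  have e : Sm f n - Sm g n = Sm (fun k => f k - g k) n := by
    symm
    exact rc_Sm_eq (F := fun n => Sm f n - Sm g n) (by simp [rc_Sm_zero])
      (fun i => by rw [rc_Sm_succ, rc_Sm_succ]; ring) n
  rw [e]
  exact dvd_sub (Finset.dvd_sum fun k _ => h k) (Finset.dvd_sum fun k _ => h k)

theorem rc_Sm_congr {f g : ℤ → ℤ} {n : ℤ} (h : ∀ k, |k| ≤ |n| → f k = g k) : Sm f n = Sm g n := by
  unfold Sm
  congr 1
  · refine Finset.sum_congr rfl fun k hk => h k ?_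
    rw [Finset.mem_Ico] at hk
    rw [abs_of_nonneg hk.1, abs_of_nonneg (by omega)]
    omega
  · refine Finset.sum_congr rfl fun k hk => h k ?_
    rw [Finset.mem_Ico] at hk
    rw [abs_of_neg hk.2, abs_of_neg (by omega)]
    omega

/-! ### the height function -/

theorem rc_eq_of_pot {ω : Om} {U : Pt → ℤ}
    (h : ∀ x y, Step x y → inc (ω x) (ω y) = U y - U x) (x : Pt) : rc ω x = U x - U 0 := by
  have h1 : ∀ i j : ℤ, inc (ω (i, j)) (ω (i + 1, j)) = U (i + 1, j) - U (i, j) := fun i j =>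
    h _ _ (by unfold Step; dsimp only; omega)
  have h2 : ∀ i j : ℤ, inc (ω (i, j)) (ω (i, j + 1)) = U (i, j + 1) - U (i, j) := fun i j =>
    h _ _ (by unfold Step; dsimp only; omega)
  unfold rc
  simp only [h1, h2]
  rw [rc_Sm_tele (fun k => U (k, 0)), rc_Sm_tele (fun k => U (x.1, k))]
  have e : U 0 = U (0, 0) := rfl
  rw [e]
  ring

theorem rc_exists_pot {ω : Om} (h : Comp ω) :
    ∃ U : Pt → ℤ, ∀ x y, Step x y → inc (ω x) (ω y) = U y - U x := by
  refine Topo.exists_pot (fun x y => inc (ω x) (ω y)) (fun x y _ => rc_inc_anti _ _) ?_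
  intro x y z hxy hyz hzx
  exact rc_inc_tri _ _ _ (h _ _ (rc_adj_step.2 hxy)) (h _ _ (rc_adj_step.2 hyz))
    (h _ _ (rc_adj_step.2 hzx))

theorem rc_comp_enc {φ : Pt → ℤ} (h : ∀ x y, Adj x y → |φ x - φ y| ≤ 1) :
    Comp fun x => enc (φ x) := by
  intro x y hxy
  have h1 := abs_le.1 (h x y hxy)
  by_contra hcon
  push Not at hcon
  obtain ⟨h2, h3⟩ := hcon
  simp only [enc, ne_eq, decide_eq_decide] at h2 h3
  omega

/-- (19) -/
theorem s_rc : S_rc := by
  refine ⟨?_, ?_, ?_, ?_, ?_, ?_, ?_⟩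
  · intro ω h x y hxy
    obtain ⟨U, hU⟩ := rc_exists_pot h
    rw [rc_eq_of_pot hU, rc_eq_of_pot hU, hU x y (rc_adj_step.1 hxy)]
    ring
  · intro ω h x
    refine Int.emod_eq_zero_of_dvd ?_
    have h1 : (4 : ℤ) ∣ Sm (fun k => inc (ω (k, 0)) (ω (k + 1, 0))) x.1 -
        Sm (fun k => cd (ω (k + 1, 0)) - cd (ω (k, 0))) x.1 :=
      rc_Sm_dvd (fun k => rc_inc_mod _ _ (h _ _ (rc_adj_step.2
        (by unfold Step; dsimp only; omega)))) _
    have h2 : (4 : ℤ) ∣ Sm (fun k => inc (ω (x.1, k)) (ω (x.1, k + 1))) x.2 -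
        Sm (fun k => cd (ω (x.1, k + 1)) - cd (ω (x.1, k))) x.2 :=
      rc_Sm_dvd (fun k => rc_inc_mod _ _ (h _ _ (rc_adj_step.2
        (by unfold Step; dsimp only; omega)))) _
    rw [rc_Sm_tele (fun k => cd (ω (k, 0)))] at h1
    rw [rc_Sm_tele (fun k => cd (ω (x.1, k)))] at h2
    have h3 := dvd_add h1 h2
    have e : rc ω x + cd (ω 0) - cd (ω x) =
        Sm (fun k => inc (ω (k, 0)) (ω (k + 1, 0))) x.1 - (cd (ω (x.1, 0)) - cd (ω (0, 0))) +
        (Sm (fun k => inc (ω (x.1, k)) (ω (x.1, k + 1))) x.2 -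
          (cd (ω (x.1, x.2)) - cd (ω (x.1, 0)))) := by
      have e0 : ω 0 = ω (0, 0) := rfl
      have e1 : ω x = ω (x.1, x.2) := rfl
      unfold rc
      rw [e0, e1]
      ring
    rw [e]
    exact h3
  · intro φ h
    refine ⟨rc_comp_enc h, fun x => ?_⟩
    exact rc_eq_of_pot (fun x y hxy => rc_inc_enc (h x y (rc_adj_step.2 hxy))) x
  · intro ω x
    unfold rc
    have e1 : (fun k : ℤ => inc (neg ω (k, 0)) (neg ω (k + 1, 0))) =
        fun k => - inc (ω (k, 0)) (ω (k + 1, 0)) := by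
      funext k; exact rc_inc_neg _ _
    have e2 : (fun k : ℤ => inc (neg ω (x.1, k)) (neg ω (x.1, k + 1))) =
        fun k => - inc (ω (x.1, k)) (ω (x.1, k + 1)) := by
      funext k; exact rc_inc_neg _ _
    rw [e1, e2, rc_Sm_neg, rc_Sm_neg]
    ring
  · intro ω h z x
    obtain ⟨U, hU⟩ := rc_exists_pot h
    have hU' : ∀ x y, Step x y → inc (tr z ω x) (tr z ω y) = U (y + z) - U (x + z) := by
      intro x y hxy
      refine hU _ _ ?_
      unfold Step at hxy ⊢
      simp only [Prod.fst_add, Prod.snd_add]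
      omega
    rw [rc_eq_of_pot (U := fun x => U (x + z)) hU', rc_eq_of_pot hU, rc_eq_of_pot hU]
    simp only [zero_add]
    ring
  · rw [measurable_pi_iff]
    intro x
    have key : ∀ a b : Pt, Measurable fun ω : Om => inc (ω a) (ω b) := by
      intro a b
      have h1 : Measurable fun ω : Om => (ω a, ω b) :=
        (measurable_pi_apply a).prodMk (measurable_pi_apply b)
      have h2 : Measurable fun p : (Bool × Bool) × (Bool × Bool) => inc p.1 p.2 :=
        measurable_of_countable _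
      exact h2.comp h1
    unfold rc Sm
    refine ((Finset.measurable_sum _ fun k _ => key _ _).sub
      (Finset.measurable_sum _ fun k _ => key _ _)).add
      ((Finset.measurable_sum _ fun k _ => key _ _).sub
      (Finset.measurable_sum _ fun k _ => key _ _))
  · intro B
    refine ⟨B.biUnion fun x => (Finset.Icc (-|x.1|) (|x.1| + 1)).image (fun k => (k, 0)) ∪
      (Finset.Icc (-|x.2|) (|x.2| + 1)).image (fun k => (x.1, k)), ?_⟩
    intro ω ω' h x hx
    have h1 : ∀ k : ℤ, -|x.1| ≤ k → k ≤ |x.1| + 1 → ω (k, 0) = ω' (k, 0) := by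
      intro k hk hk'
      refine h _ (Finset.mem_biUnion.2 ⟨x, hx, Finset.mem_union_left _
        (Finset.mem_image.2 ⟨k, Finset.mem_Icc.2 ⟨hk, hk'⟩, rfl⟩)⟩)
    have h2 : ∀ k : ℤ, -|x.2| ≤ k → k ≤ |x.2| + 1 → ω (x.1, k) = ω' (x.1, k) := by
      intro k hk hk'
      refine h _ (Finset.mem_biUnion.2 ⟨x, hx, Finset.mem_union_right _
        (Finset.mem_image.2 ⟨k, Finset.mem_Icc.2 ⟨hk, hk'⟩, rfl⟩)⟩)
    unfold rc
    congr 1
    · refine rc_Sm_congr fun k hk => ?_
      have := abs_le.1 hk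
      rw [h1 k (by omega) (by omega), h1 (k + 1) (by omega) (by omega)]
    · refine rc_Sm_congr fun k hk => ?_
      have := abs_le.1 hk
      rw [h2 k (by omega) (by omega), h2 (k + 1) (by omega) (by omega)]

end Vale.Agent.P153.A
end

section

/-!
P153, block A3, step (23): finite volume reflection positivity (S_rp0).
-/

namespace Vale.Agent.P153.A

namespace Rp0

open Vale.Agent.P153.GFF (Ht hexa)

lemma ht_eq (D : Finset (ℤ × ℤ)) : Ht D = (Fv.reg D : Set (ℤ × ℤ → ℤ)) := by
  ext h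
  rw [Finset.mem_coe, Fv.mem_reg]
  constructor
  · rintro ⟨h1, h2⟩
    refine ⟨fun v hv => (h1 v).1 hv, fun v hv hv' => ?_, h2⟩
    refine (h1 v).2 ?_
    by_contra hcon
    push Not at hcon
    exact hv' ⟨hv, fun w hw => hcon w hw⟩
  · rintro ⟨h1, h2, h3⟩
    refine ⟨fun v => ⟨h1 v, ?_⟩, h3⟩
    rintro ⟨w, hw, hw'⟩
    by_cases hv : v ∈ D
    · exact h2 v hv fun h => hw' (h.2 w hw)
    · exact Or.inl (h1 v hv)

lemma hexa_eq (n : ℕ) : hexa n = Fv.hex n := rfl

end Rp0

open Rp0 in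
theorem s_rp0 : S_rp0 := by
  intro n F hF
  rw [ht_eq, finsum_mem_coe_finset, hexa_eq]
  have hdep : Fv.Dep (Fv.up 0) (fun φ : ℤ × ℤ → ℤ => F (fun x => φ x - φ 0)) := by
    intro h g hhg
    refine hF _ _ fun x hx => ?_
    have h0 : h 0 = g 0 := hhg 0 (by simp only [Fv.up, Set.mem_ofPred_eq, Prod.snd_zero, Std.le_refl])
    have hx' : h x = g x := hhg x hx
    rw [h0, hx']
  have h1 := Fv.reg_rp (Fv.hex_sym n) hdep
  have hcard : (0 : ℝ) < ((Fv.reg (Fv.hex n)).card : ℝ) := by
    exact_mod_cast Finset.card_pos.2 (Fv.reg_nonempty (Fv.hex n))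
  have h2 : ∀ φ : ℤ × ℤ → ℤ, (fun x => (φ ∘ Fv.th 0) x - (φ ∘ Fv.th 0) 0) =
      fun x => φ (GFF.th x) - φ 0 := by
    intro φ
    funext x
    have e1 : Fv.th 0 x = GFF.th x := by
      unfold Fv.th GFF.th
      ext <;> simp
    have e2 : Fv.th 0 (0 : ℤ × ℤ) = 0 := by
      unfold Fv.th
      ext <;> simp
    simp only [Function.comp_apply, e1, e2]
  simp only [h2] at h1
  unfold ev at h1
  rw [le_div_iff₀ hcard, zero_mul] at h1
  exact h1

end Vale.Agent.P153.A
end

section

/-!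
# The density of the spectral measure
-/

open MeasureTheory Filter Topology Set UnitAddTorus ProbabilityTheory
open scoped NNReal ENNReal Real unitInterval

namespace Vale.Agent.P153.RP

variable {V : (Fin 2 → ℤ) → ℝ}

/-! ### basic facts -/

theorem xe_toP (e : Fin 2 → ℤ) (θ : UnitAddTorus (Fin 2)) :
    xe e θ = ENNReal.ofReal (2 - 2 * cu (e 0) (e 1) (toP θ)) := by
  unfold xe XX; rw [cs_eq_cu]

theorem cu_10 (p : U × U) : 2 - 2 * cu 1 0 p = Xu p.1 := by
  unfold cu Xu; simp

/-- `X` as an extended nonnegative function -/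
noncomputable def Xe (y : U) : ℝ≥0∞ := ENNReal.ofReal (Xu y)

theorem Xe_measurable : Measurable Xe := Xu_continuous.measurable.ennreal_ofReal

theorem Xe_ne_top (y : U) : Xe y ≠ ⊤ := ENNReal.ofReal_ne_top

theorem Xe_le (y : U) : Xe y ≤ 4 := by
  unfold Xe
  refine (ENNReal.ofReal_le_ofReal (Xu_le y)).trans ?_
  simp

theorem xe_E1 (θ : UnitAddTorus (Fin 2)) : xe E1 θ = Xe (toP θ).1 := by
  rw [xe_toP]
  show ENNReal.ofReal (2 - 2 * cu 1 0 (toP θ)) = _
  rw [cu_10]; rfl

theorem Xu_zero {y : U} (h : Xu y = 0) : y = 0 := by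
  obtain ⟨r, rfl⟩ := QuotientAddGroup.mk_surjective y
  have h1 : Xu (pm (2 * π * r)) = 0 := by
    have : pm (2 * π * r) = (r : U) := by
      unfold pm
      congr 1
      field_simp
    rw [this]; exact h
  rw [Xu_pm] at h1
  have h2 : Real.cos (2 * π * r) = 1 := by linarith
  rw [Real.cos_eq_one_iff] at h2
  obtain ⟨n, hn⟩ := h2
  show ((r : ℝ) : U) = 0
  rw [AddCircle.coe_eq_zero_iff]
  refine ⟨n, ?_⟩
  rw [zsmul_eq_mul, mul_one]
  have hpi : (2 * π) ≠ 0 := by positivity
  have : (2 * π) * n = (2 * π) * r := by linarith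
  exact mul_left_cancel₀ hpi this

theorem Xe_zero {y : U} (h : Xe y = 0) : y = 0 := by
  unfold Xe at h
  rw [ENNReal.ofReal_eq_zero] at h
  exact Xu_zero (le_antisymm h (Xu_nonneg y))

theorem Xe1_measurable : Measurable fun p : U × U => Xe p.1 := Xe_measurable.comp measurable_fst

theorem GP_eq (h : VH V) : GP h.toVH0 E1 = (PhiP h).withDensity (fun p => Xe p.1) := by
  unfold GP PhiP
  rw [← xe_Phi h E1]
  ext s hs
  rw [Measure.map_apply toP_measurable hs, withDensity_apply _ (toP_measurable hs),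
    withDensity_apply _ hs]
  rw [setLIntegral_map hs Xe1_measurable toP_measurable]
  apply lintegral_congr
  intro θ
  exact xe_E1 θ

/-! ### symmetries -/

theorem mFourier_rP (n : Fin 2 → ℤ) (θ : UnitAddTorus (Fin 2)) :
    mFourier n (ofP (rP (toP θ))) = mFourier ![-n 1, n 0 + n 1] θ := by
  rw [mFourier_ofP, mFourier_eq]
  simp only [rP, toP, Matrix.cons_val_zero, Matrix.cons_val_one]
  rw [sub_eq_add_neg, fourier_add_arg, fourier_neg_arg, fourier_neg_idx, fourier_add_idx]
  ring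

theorem mFourier_fP (n : Fin 2 → ℤ) (θ : UnitAddTorus (Fin 2)) :
    mFourier n (ofP (fP (toP θ))) = mFourier ![n 0 + n 1, -n 1] θ := by
  rw [mFourier_ofP, mFourier_eq]
  simp only [fP, toP, Matrix.cons_val_zero, Matrix.cons_val_one]
  rw [sub_eq_add_neg, fourier_add_arg, fourier_neg_arg, fourier_neg_idx, fourier_add_idx]
  ring

theorem sym_aux (h : VH V) (T : UnitAddTorus (Fin 2) → UnitAddTorus (Fin 2)) (hT : Measurable T)
    (hneg : ∀ θ, T (-θ) = -T θ) (A : (Fin 2 → ℤ) → (Fin 2 → ℤ))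
    (hA : ∀ n θ, mFourier n (T θ) = mFourier (A n) θ) (hA1 : ∀ e, ∃ a, A a = e)
    (hV : ∀ x, V (A x) = V x) :
    (Phi h).map T = Phi h := by
  apply Phi_unique h
  · unfold EvenM
    rw [Measure.map_map measurable_negT hT]
    have : (fun x : UnitAddTorus (Fin 2) => -x) ∘ T = T ∘ (fun x => -x) := by
      funext θ
      exact (hneg θ).symm
    rw [this, ← Measure.map_map hT measurable_negT, Phi_even h]
  · rw [ae_map_iff hT.aemeasurable]
    · filter_upwards [Phi_xs_zero h] with θ hθ hc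
      apply hθ
      have h1 : ∀ e, mFourier e θ = 1 := by
        intro e
        obtain ⟨a, rfl⟩ := hA1 e
        rw [← hA]
        exact xs_zero' hc a
      have h2 : ∀ e, xe e θ = 0 := by
        intro e
        rw [xe, XX, cs, h1]
        simp
      rw [xs, h2, h2, add_zero]
    · exact (measurableSet_eq_fun xs_measurable measurable_const).compl
  · intro e
    rw [lintegral_map (xe_measurable e) hT]
    have : ∀ θ, xe e (T θ) = xe (A e) θ := by
      intro θ
      unfold xe XX cs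
      rw [hA]
    simp_rw [this]
    rw [lintegral_xe_Phi, hV]

theorem PhiP_rP (h : RPH V) : (PhiP h.toVH).map rP = PhiP h.toVH := by
  have hr := rP_continuous.measurable
  have hT : Measurable (fun θ : UnitAddTorus (Fin 2) => ofP (rP (toP θ))) :=
    ofP_measurable.comp (hr.comp toP_measurable)
  have key := sym_aux h.toVH (fun θ => ofP (rP (toP θ))) hT (fun θ => by
      funext i
      fin_cases i
      · rfl
      · show -θ 1 - -θ 0 = -(θ 1 - θ 0)
        abel) (fun n => ![-n 1, n 0 + n 1]) mFourier_rP (fun e => ⟨![e 0 + e 1, -e 0], by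
      funext i
      fin_cases i <;> simp⟩) h.rot
  unfold PhiP
  conv_rhs => rw [← key]
  rw [Measure.map_map hr toP_measurable, Measure.map_map toP_measurable hT]
  congr 1

theorem PhiP_fP (h : RPH V) : (PhiP h.toVH).map fP = PhiP h.toVH := by
  have hr := fP_continuous.measurable
  have hT : Measurable (fun θ : UnitAddTorus (Fin 2) => ofP (fP (toP θ))) :=
    ofP_measurable.comp (hr.comp toP_measurable)
  have key := sym_aux h.toVH (fun θ => ofP (fP (toP θ))) hT (fun θ => by
      funext i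
      fin_cases i
      · rfl
      · show -θ 0 - -θ 1 = -(θ 0 - θ 1)
        abel) (fun n => ![n 0 + n 1, -n 1]) mFourier_fP (fun e => ⟨![e 0 + e 1, -e 1], by
      funext i
      fin_cases i <;> simp⟩) h.refl
  unfold PhiP
  conv_rhs => rw [← key]
  rw [Measure.map_map hr toP_measurable, Measure.map_map toP_measurable hT]
  congr 1

/-! ### absolute continuity of the marginal -/

theorem half_null {S : Set U} (hS : MeasurableSet S) (h0 : volume S = 0) :
    volume (half ⁻¹' S) = 0 := by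
  have hm := half_measurable hS
  rw [← mp_dbl.measure_preimage hm.nullMeasurableSet]
  refine measure_mono_null (t := S ∪ (fun x => x + hf) ⁻¹' S) ?_ ?_
  · intro x hx
    have hx' : half (x + x) ∈ S := hx
    rcases half_dbl x with h | h
    · left; rwa [h] at hx'
    · right; rw [h] at hx'; exact hx'
  · rw [measure_union_null_iff]
    refine ⟨h0, ?_⟩
    rw [measure_preimage_add_right]
    exact h0

theorem Wm_apply (h : RPH V) (F : U × U → ℝ≥0∞) (hF : Measurable F) :
    ∫⁻ p, F p ∂(Wm h) = ∫⁻ q, ∫⁻ ϑ, PK (q, ϑ) * F (q.1, ϑ) ∂(volume : Measure U) ∂(nu h) := by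
  unfold Wm W0
  have h1 : Measurable fun q : (U × ℝ) × U => F (pw q) := hF.comp pw_meas
  rw [lintegral_map hF pw_meas, lintegral_withDensity_eq_lintegral_mul _ PK_measurable h1,
    lintegral_prod _ (PK_measurable.mul h1).aemeasurable]
  rfl

theorem nu_fst (h : RPH V) {S : Set U} (hS : MeasurableSet S) :
    nu h (Prod.fst ⁻¹' S) = GP h.toVH0 E1 (Prod.fst ⁻¹' S) := by
  have hm := tP_continuous.measurable
  have h1 : GP h.toVH0 E1 (Prod.fst ⁻¹' S) = Wm h (Prod.fst ⁻¹' S) := by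
    rw [← fold_GP, Measure.map_apply hm (measurable_fst hS)]
    rfl
  rw [h1, ← lintegral_indicator_one (measurable_fst hS), ← lintegral_indicator_one (measurable_fst hS),
    Wm_apply h _ (measurable_one.indicator (measurable_fst hS))]
  apply lintegral_congr_ae
  filter_upwards [nu_ae h] with q hq
  by_cases hqs : q.1 ∈ S
  · have h2 : ∀ ϑ : U, (Prod.fst ⁻¹' S : Set (U × U)).indicator (1 : U × U → ℝ≥0∞) (q.1, ϑ) = 1 :=
      fun ϑ => indicator_of_mem (show (q.1, ϑ) ∈ (Prod.fst ⁻¹' S : Set (U × U)) from hqs) _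
    simp_rw [h2, mul_one]
    rw [lintegral_PK hq.1 hq.2, indicator_of_mem (show q ∈ (Prod.fst ⁻¹' S : Set (U × ℝ)) from hqs)]
    rfl
  · have h2 : ∀ ϑ : U, (Prod.fst ⁻¹' S : Set (U × U)).indicator (1 : U × U → ℝ≥0∞) (q.1, ϑ) = 0 :=
      fun ϑ => indicator_of_notMem (show (q.1, ϑ) ∉ (Prod.fst ⁻¹' S : Set (U × U)) from hqs) _
    simp_rw [h2, mul_zero]
    rw [lintegral_zero, indicator_of_notMem (show q ∉ (Prod.fst ⁻¹' S : Set (U × ℝ)) from hqs)]

theorem GP_snd_null (h : RPH V) {S : Set U} (hS : MeasurableSet S) (h0 : volume S = 0) :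
    GP h.toVH0 E1 (Prod.snd ⁻¹' S) = 0 := by
  set S' : Set U := S ∪ (fun x => x + hf) ⁻¹' S with hS'
  have hmS' : MeasurableSet S' := hS.union ((measurable_add_const hf) hS)
  have h0' : volume S' = 0 := by
    rw [hS', measure_union_null_iff]
    refine ⟨h0, ?_⟩
    rw [measure_preimage_add_right]
    exact h0
  set D : Set (U × U) := {q | half (q.2 + q.1) ∈ S'} with hD
  have hmD : MeasurableSet D :=
    (half_measurable.comp (measurable_snd.add measurable_fst)) hmS'
  have h1 : GP h.toVH0 E1 (Prod.snd ⁻¹' S) ≤ GP h.toVH0 E1 (tP ⁻¹' D) := by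
    apply measure_mono
    intro p hp
    show half (p.2 + p.2 - p.1 + p.1) ∈ S'
    rw [sub_add_cancel]
    rcases half_dbl p.2 with h | h
    · rw [h]; left; exact hp
    · rw [h]; right
      show p.2 + hf + hf ∈ S
      rw [add_assoc, hf_add_hf, add_zero]
      exact hp
  have h2 : GP h.toVH0 E1 (tP ⁻¹' D) = 0 := by
    rw [← Measure.map_apply tP_continuous.measurable hmD, fold_GP h, ← lintegral_indicator_one hmD,
      Wm_apply h _ (measurable_one.indicator hmD), lintegral_eq_zero_iff']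
    · refine Eventually.of_forall fun q => ?_
      show ∫⁻ ϑ, PK (q, ϑ) * D.indicator 1 (q.1, ϑ) = 0
      have h3 : volume {ϑ : U | (q.1, ϑ) ∈ D} = 0 := by
        have h4 : {ϑ : U | (q.1, ϑ) ∈ D} = (fun ϑ => ϑ + q.1) ⁻¹' (half ⁻¹' S') := rfl
        rw [h4, measure_preimage_add_right]
        exact half_null hmS' h0'
      rw [lintegral_eq_zero_iff']
      · have h5 : ∀ᵐ ϑ : U, (q.1, ϑ) ∉ D := by
          rw [ae_iff]
          simpa only [not_not] using h3
        filter_upwards [h5] with ϑ hϑ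
        rw [indicator_of_notMem hϑ, mul_zero]
        rfl
      · apply Measurable.aemeasurable
        refine Measurable.mul ?_ ?_
        · exact PK_measurable.comp measurable_prodMk_left
        · exact (measurable_one.indicator hmD).comp measurable_prodMk_left
    · apply Measurable.aemeasurable
      refine Measurable.lintegral_prod_right' (f := fun z : (U × ℝ) × U => PK z * D.indicator 1 (z.1.1, z.2)) ?_
      refine PK_measurable.mul ?_
      exact (measurable_one.indicator hmD).comp ((measurable_fst.comp measurable_fst).prodMk measurable_snd)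
  exact le_antisymm (h1.trans_eq h2) (by simp)

theorem ae_ne_zero : ∀ᵐ y : U, y ≠ 0 := by
  rw [ae_iff]
  simp only [not_not]
  have hms : MeasurableSet {y : U | y = 0} := measurableSet_eq_fun measurable_id measurable_const
  have hpi := Real.pi_pos
  have h1 : ((volume.restrict (Ioc (-π) π)).map pm) {y : U | y = 0} = 0 := by
    rw [Measure.map_apply pm_measurable hms]
    refine Measure.absolutelyContinuous_of_le Measure.restrict_le_self ?_
    refine measure_mono_null (t := Set.range (fun n : ℤ => (n : ℝ) * (2 * π))) ?_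
      (Set.Countable.measure_zero (Set.countable_range _) _)
    intro s hs
    have hs' : ((s / (2 * π) : ℝ) : U) = 0 := hs
    rw [AddCircle.coe_eq_zero_iff] at hs'
    obtain ⟨n, hn⟩ := hs'
    rw [zsmul_eq_mul, mul_one] at hn
    refine ⟨n, ?_⟩
    show (n : ℝ) * (2 * π) = s
    rw [hn]
    field_simp
  rw [map_pm, Measure.smul_apply, smul_eq_mul, mul_eq_zero] at h1
  rcases h1 with h1 | h1
  · rw [ENNReal.ofReal_eq_zero] at h1
    linarith
  · exact h1

theorem volume_zero : (volume : Measure U) {0} = 0 := by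
  have := ae_ne_zero
  rw [ae_iff] at this
  simpa only [Measure.addHaar_singleton, ne_eq, Decidable.not_not, ofPred_eq_eq_singleton] using this

theorem PhiP_zero (h : VH V) : PhiP h {p | p.1 = 0 ∧ p.2 = 0} = 0 := by
  have hm : MeasurableSet {p : U × U | p.1 = 0 ∧ p.2 = 0} :=
    (measurable_fst (measurableSet_singleton (0 : U))).inter
      (measurable_snd (measurableSet_singleton (0 : U)))
  unfold PhiP
  rw [Measure.map_apply toP_measurable hm]
  have h1 := Phi_xs_zero h
  rw [ae_iff] at h1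
  refine measure_mono_null (fun θ hθ => ?_) h1
  have h2 : θ 0 = 0 := hθ.1
  have h3 : θ 1 = 0 := hθ.2
  show ¬ (xs θ ≠ 0)
  rw [not_not, xs, xe, xe, XX, XX, cs, cs, mFourier_eq, mFourier_eq, h2, h3]
  simp only [Fin.isValue, fourier_apply, smul_zero, AddCircle.toCircle_zero, Circle.coe_one, mul_one, Complex.one_re, sub_self, ENNReal.ofReal_zero, add_zero]

theorem PhiP_fst_ne (h : RPH V) : ∀ᵐ p ∂(PhiP h.toVH), Xe p.1 ≠ 0 := by
  have hS : MeasurableSet ({0} : Set U) := measurableSet_singleton 0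
  have h1 : GP h.toVH0 E1 (Prod.snd ⁻¹' {0}) = 0 := GP_snd_null h hS volume_zero
  rw [GP_eq h.toVH, withDensity_apply _ (measurable_snd hS), lintegral_eq_zero_iff Xe1_measurable] at h1
  have h2 : ∀ᵐ p ∂(PhiP h.toVH), p.2 = 0 → p.1 = 0 := by
    have h3 := (ae_restrict_iff' (measurable_snd hS)).1 h1
    filter_upwards [h3] with p hp hp2
    exact Xe_zero (hp hp2)
  have h4 : PhiP h.toVH {p | p.2 = 0} = 0 := by
    have h5 := PhiP_zero h.toVH
    rw [ae_iff] at h2
    refine measure_mono_null (t := {p | p.1 = 0 ∧ p.2 = 0} ∪ {p | ¬(p.2 = 0 → p.1 = 0)}) ?_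
      (measure_union_null h5 h2)
    intro p hp
    by_cases hp1 : p.1 = 0
    · left; exact ⟨hp1, hp⟩
    · right
      intro hc
      exact hp1 (hc hp)
  have h6 : PhiP h.toVH {p | p.1 = 0} = 0 := by
    have hm : MeasurableSet {p : U × U | p.1 = 0} := measurable_fst hS
    rw [← PhiP_rP h, Measure.map_apply rP_continuous.measurable hm]
    exact h4
  rw [ae_iff]
  refine measure_mono_null (fun p hp => ?_) h6
  simp only [not_not, mem_ofPred_eq] at hp
  exact Xe_zero hp

theorem PhiP_eq (h : RPH V) : PhiP h.toVH = (GP h.toVH0 E1).withDensity (fun p => (Xe p.1)⁻¹) := by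
  have hinv : Measurable fun p : U × U => (Xe p.1)⁻¹ := Xe1_measurable.inv
  rw [GP_eq, ← withDensity_mul _ Xe1_measurable hinv]
  rw [withDensity_congr_ae (g := 1), withDensity_one]
  filter_upwards [PhiP_fst_ne h] with p hp
  exact ENNReal.mul_inv_cancel hp (Xe_ne_top _)

theorem sfinite_PhiP (h : RPH V) : SFinite (PhiP h.toVH) := by
  rw [PhiP_eq h]; infer_instance

theorem lintegral_PhiP_tP (h : RPH V) (F : U × U → ℝ≥0∞) (hF : Measurable F) :
    ∫⁻ p, F (tP p) ∂(PhiP h.toVH) = ∫⁻ p, F p * (Xe p.1)⁻¹ ∂(Wm h) := by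
  have hm := tP_continuous.measurable
  have h1 : Measurable fun p : U × U => (Xe p.1)⁻¹ := (Xe_measurable.comp measurable_fst).inv
  have h2 : Measurable fun p : U × U => F p * (Xe p.1)⁻¹ := hF.mul h1
  have h3 : Measurable fun p : U × U => F (tP p) := hF.comp hm
  rw [← fold_GP, lintegral_map h2 hm, PhiP_eq h, lintegral_withDensity_eq_lintegral_mul _ h1 h3]
  apply lintegral_congr
  intro p
  simp only [Pi.mul_apply]
  rw [mul_comm]
  rfl

theorem PhiP_snd_null (h : RPH V) {S : Set U} (hS : MeasurableSet S) (h0 : volume S = 0) :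
    PhiP h.toVH (Prod.snd ⁻¹' S) = 0 := by
  rw [PhiP_eq h]
  exact (withDensity_absolutelyContinuous _ _) (GP_snd_null h hS h0)

theorem PhiP_fst_null (h : RPH V) {S : Set U} (hS : MeasurableSet S) (h0 : volume S = 0) :
    PhiP h.toVH (Prod.fst ⁻¹' S) = 0 := by
  rw [← PhiP_rP h, Measure.map_apply rP_continuous.measurable (measurable_fst hS)]
  exact PhiP_snd_null h hS h0

theorem nu_fst_ac (h : RPH V) : (nu h).fst ≪ (volume : Measure U) := by
  refine Measure.AbsolutelyContinuous.mk fun S hS h0 => ?_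
  rw [Measure.fst_apply hS, nu_fst h hS, GP_eq h.toVH]
  exact (withDensity_absolutelyContinuous _ _) (PhiP_fst_null h hS h0)

end Vale.Agent.P153.RP
end

section

/-!
# Disintegration and fold identity for densities
-/

open MeasureTheory Filter Topology Set UnitAddTorus ProbabilityTheory
open scoped NNReal ENNReal Real unitInterval

namespace Vale.Agent.P153.RP

variable {V : (Fin 2 → ℤ) → ℝ}

/-- density of the first marginal of `nu` -/
noncomputable def hh (h : RPH V) : U → ℝ≥0∞ := (nu h).fst.rnDeriv volume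

theorem hh_measurable (h : RPH V) : Measurable (hh h) := Measure.measurable_rnDeriv _ _

theorem hh_lt_top (h : RPH V) : ∀ᵐ y, hh h y < ⊤ := Measure.rnDeriv_lt_top _ _

theorem fst_eq (h : RPH V) : (nu h).fst = (volume : Measure U).withDensity (hh h) :=
  (Measure.withDensity_rnDeriv_eq _ _ (nu_fst_ac h)).symm

/-- density of the row kernel with respect to the conditional kernel of `nu` -/
noncomputable def wN (h : RPH V) (y : U) (τ : ℝ) : ℝ≥0 :=
  (hh h y).toNNReal * ((Xe y)⁻¹.toNNReal * Real.toNNReal (1 - τ ^ 2))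

theorem wN_measurable (h : RPH V) : Measurable (Function.uncurry (wN h)) := by
  unfold wN Function.uncurry
  refine Measurable.mul ?_ (Measurable.mul ?_ ?_)
  · exact ((hh_measurable h).comp measurable_fst).ennreal_toNNReal
  · exact (Xe_measurable.comp measurable_fst).inv.ennreal_toNNReal
  · exact (measurable_const.sub (measurable_snd.pow_const 2)).real_toNNReal

/-- the row kernel `m_y(dτ)` on the circle -/
noncomputable def mU (h : RPH V) : Kernel U ℝ :=
  Kernel.withDensity (nu h).condKernel (fun y τ => (wN h y τ : ℝ≥0∞))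

instance (h : RPH V) : IsSFiniteKernel (mU h) := by unfold mU; infer_instance

theorem mU_lint (h : RPH V) (F : U × ℝ → ℝ≥0∞) (hF : Measurable F) :
    ∫⁻ y, ∫⁻ τ, F (y, τ) ∂(mU h y) =
      ∫⁻ p, F p * ((Xe p.1)⁻¹ * ENNReal.ofReal (1 - p.2 ^ 2)) ∂(nu h) := by
  have hG : Measurable fun p : U × ℝ => F p * ((Xe p.1)⁻¹ * ENNReal.ofReal (1 - p.2 ^ 2)) := by
    refine hF.mul (Measurable.mul ?_ ?_)
    · exact (Xe_measurable.comp measurable_fst).inv
    · exact (measurable_const.sub (measurable_snd.pow_const 2)).ennreal_ofReal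
  have h1 : ∫⁻ p, F p * ((Xe p.1)⁻¹ * ENNReal.ofReal (1 - p.2 ^ 2)) ∂(nu h) =
      ∫⁻ y, ∫⁻ τ, F (y, τ) * ((Xe y)⁻¹ * ENNReal.ofReal (1 - τ ^ 2)) ∂((nu h).condKernel y)
        ∂((nu h).fst) := by
    exact (Measure.lintegral_condKernel (ρ := nu h) hG).symm
  have hG2 : Measurable fun y : U => ∫⁻ τ, F (y, τ) * ((Xe y)⁻¹ * ENNReal.ofReal (1 - τ ^ 2))
      ∂((nu h).condKernel y) := Measurable.lintegral_kernel_prod_right' hG
  rw [h1, fst_eq, lintegral_withDensity_eq_lintegral_mul _ (hh_measurable h) hG2]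
  apply lintegral_congr_ae
  filter_upwards [hh_lt_top h, ae_ne_zero] with y hy hy0
  have hm1 : Measurable fun τ : ℝ => F (y, τ) := hF.comp measurable_prodMk_left
  have hX : (Xe y)⁻¹ ≠ ⊤ := by
    rw [Ne, ENNReal.inv_eq_top]
    exact fun h0 => hy0 (Xe_zero h0)
  unfold mU
  rw [Kernel.lintegral_withDensity _ (wN_measurable h).coe_nnreal_ennreal _ hm1]
  simp only [Pi.mul_apply]
  rw [← lintegral_const_mul]
  · apply lintegral_congr
    intro τ
    unfold wN
    push_cast
    rw [ENNReal.coe_toNNReal hy.ne, ENNReal.coe_toNNReal hX]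
    show _ * (_ * ENNReal.ofReal (1 - τ ^ 2)) * _ = _
    ring
  · exact hG.comp measurable_prodMk_left

/-- the folded density -/
noncomputable def PsU (h : RPH V) (p : U × U) : ℝ≥0∞ :=
  ∫⁻ τ, ENNReal.ofReal (1 / dU τ p.2) ∂(mU h p.1)

theorem idU_measurable : Measurable fun q : (U × U) × ℝ => ENNReal.ofReal (1 / dU q.2 q.1.2) :=
  (measurable_const.div (dU_measurable.comp
    (measurable_snd.prodMk (measurable_snd.comp measurable_fst)))).ennreal_ofReal

theorem PsU_measurable (h : RPH V) : Measurable (PsU h) := by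
  have := Measurable.lintegral_kernel_prod_right' (κ := (mU h).comap Prod.fst measurable_fst)
    idU_measurable
  exact this

theorem swap_gen (μ : Measure ℝ) [SFinite μ] (F : U → ℝ≥0∞) (hF : Measurable F) :
    ∫⁻ τ, (∫⁻ ϑ : U, F ϑ * ENNReal.ofReal (1 / dU τ ϑ)) ∂μ =
      ∫⁻ ϑ : U, (∫⁻ τ, ENNReal.ofReal (1 / dU τ ϑ) ∂μ) * F ϑ := by
  have hm4 : Measurable (fun z : ℝ × U => F z.2 * ENNReal.ofReal (1 / dU z.1 z.2)) := by
    refine Measurable.mul ?_ ?_
    · exact hF.comp measurable_snd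
    · exact (measurable_const.div dU_measurable).ennreal_ofReal
  rw [lintegral_lintegral_swap (f := fun (τ : ℝ) (ϑ : U) => F ϑ * ENNReal.ofReal (1 / dU τ ϑ))
    hm4.aemeasurable]
  apply lintegral_congr
  intro ϑ
  have hm : Measurable fun τ : ℝ => ENNReal.ofReal (1 / dU τ ϑ) :=
    (measurable_const.div (dU_measurable.comp (measurable_id.prodMk measurable_const))).ennreal_ofReal
  rw [lintegral_const_mul _ hm, mul_comm]

theorem swap_aux (h : RPH V) (F : U × U → ℝ≥0∞) (hF : Measurable F) (y : U) :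
    ∫⁻ τ, (∫⁻ ϑ : U, F (y, ϑ) * ENNReal.ofReal (1 / dU τ ϑ)) ∂(mU h y) =
      ∫⁻ ϑ : U, PsU h (y, ϑ) * F (y, ϑ) :=
  swap_gen (mU h y) (fun ϑ => F (y, ϑ)) (hF.comp measurable_prodMk_left)

theorem tP_PhiP (h : RPH V) : (PhiP h.toVH).map tP = (volume : Measure (U × U)).withDensity (PsU h) := by
  have key : ∀ F : U × U → ℝ≥0∞, Measurable F → ∫⁻ p, F (tP p) ∂(PhiP h.toVH) =
      ∫⁻ p, PsU h p * F p := by
    intro F hF
    have hF1 : Measurable fun p : U × U => F p * (Xe p.1)⁻¹ := hF.mul Xe1_measurable.inv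
    rw [lintegral_PhiP_tP h F hF, Wm_apply h _ hF1]
    have hG3 : Measurable fun z : (U × ℝ) × U => F (z.1.1, z.2) * ENNReal.ofReal (1 / dU z.1.2 z.2) := by
      refine Measurable.mul ?_ ?_
      · exact hF.comp ((measurable_fst.comp measurable_fst).prodMk measurable_snd)
      · exact (measurable_const.div (dU_measurable.comp
          ((measurable_snd.comp measurable_fst).prodMk measurable_snd))).ennreal_ofReal
    have hG : Measurable fun q : U × ℝ => ∫⁻ ϑ : U, F (q.1, ϑ) * ENNReal.ofReal (1 / dU q.2 ϑ) :=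
      Measurable.lintegral_prod_right' hG3
    have h1 : ∫⁻ q, ∫⁻ ϑ, PK (q, ϑ) * (F (q.1, ϑ) * (Xe (q.1, ϑ).1)⁻¹) ∂(volume : Measure U) ∂(nu h) =
        ∫⁻ q, (∫⁻ ϑ : U, F (q.1, ϑ) * ENNReal.ofReal (1 / dU q.2 ϑ)) *
          ((Xe q.1)⁻¹ * ENNReal.ofReal (1 - q.2 ^ 2)) ∂(nu h) := by
      apply lintegral_congr_ae
      filter_upwards [nu_ae h] with q hq
      have hm : Measurable fun ϑ : U => F (q.1, ϑ) * ENNReal.ofReal (1 / dU q.2 ϑ) :=
        hG3.comp (measurable_prodMk_left (x := q))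
      rw [← lintegral_mul_const _ hm]
      apply lintegral_congr
      intro ϑ
      have h2 : PK (q, ϑ) = ENNReal.ofReal (1 - q.2 ^ 2) * ENNReal.ofReal (1 / dU q.2 ϑ) := by
        rw [← ENNReal.ofReal_mul (one_sub_sq_pos hq.1 hq.2).le, mul_one_div]
        rfl
      rw [h2]
      ring
    rw [h1, ← mU_lint h _ hG]
    have h2 : ∫⁻ p, PsU h p * F p = ∫⁻ y : U, ∫⁻ ϑ : U, PsU h (y, ϑ) * F (y, ϑ) := by
      have h3 : Measurable fun p : U × U => PsU h p * F p := (PsU_measurable h).mul hF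
      rw [Measure.volume_eq_prod, lintegral_prod _ h3.aemeasurable]
    rw [h2]
    apply lintegral_congr
    intro y
    exact swap_aux h F hF y
  ext s hs
  rw [Measure.map_apply tP_continuous.measurable hs, withDensity_apply _ hs,
    ← lintegral_indicator_one (tP_continuous.measurable hs), ← lintegral_indicator hs]
  have := key (s.indicator 1) (measurable_one.indicator hs)
  have e1 : ∀ p, (tP ⁻¹' s).indicator (1 : U × U → ℝ≥0∞) p = s.indicator 1 (tP p) := fun p => rfl
  simp_rw [e1]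
  rw [this]
  apply lintegral_congr
  intro p
  by_cases hp : p ∈ s
  · simp [hp]
  · simp [hp]

/-- section of `tP` -/
noncomputable def sP (q : U × U) : U × U := (q.1, half (q.2 + q.1))

theorem sP_measurable : Measurable sP :=
  measurable_fst.prodMk (half_measurable.comp (measurable_snd.add measurable_fst))

/-- the fibre translation -/
noncomputable def Qp : U × U := (0, hf)

theorem Qp_add : Qp + Qp = 0 := by
  unfold Qp
  rw [Prod.mk_add_mk, hf_add_hf, add_zero]
  rfl

theorem sP_tP (p : U × U) : sP (tP p) = p ∨ sP (tP p) = p + Qp := by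
  unfold sP tP
  simp only [sub_add_cancel]
  rcases half_dbl p.2 with h | h
  · left; rw [h]
  · right; rw [h]
    show _ = (p.1 + 0, p.2 + hf)
    rw [add_zero]

theorem tP_add_Qp (p : U × U) : tP (p + Qp) = tP p := by
  show (p.1 + 0, p.2 + hf + (p.2 + hf) - (p.1 + 0)) = (p.1, p.2 + p.2 - p.1)
  rw [add_zero]
  congr 1
  have : p.2 + hf + (p.2 + hf) = p.2 + p.2 + (hf + hf) := by abel
  rw [this, hf_add_hf, add_zero]

theorem mp_Qp : MeasurePreserving (fun p : U × U => p + Qp) (volume : Measure (U × U)) volume := by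
  have h := (measurePreserving_add_right (volume : Measure U) 0).prod
    (measurePreserving_add_right (volume : Measure U) hf)
  exact h

theorem sP_null {S : Set (U × U)} (hS : MeasurableSet S) (h0 : volume S = 0) :
    volume (sP ⁻¹' S) = 0 := by
  rw [← tP_mp.measure_preimage (sP_measurable hS).nullMeasurableSet]
  refine measure_mono_null (t := S ∪ (fun x => x + Qp) ⁻¹' S) ?_ ?_
  · intro x hx
    have hx' : sP (tP x) ∈ S := hx
    rcases sP_tP x with h | h
    · left; rwa [h] at hx'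
    · right; rw [h] at hx'; exact hx'
  · rw [measure_union_null_iff]
    refine ⟨h0, ?_⟩
    rw [mp_Qp.measure_preimage hS.nullMeasurableSet]
    exact h0

theorem PhiP_ac (h : RPH V) : PhiP h.toVH ≪ (volume : Measure (U × U)) := by
  refine Measure.AbsolutelyContinuous.mk fun S hS h0 => ?_
  set S' : Set (U × U) := S ∪ (fun x => x + Qp) ⁻¹' S with hS'
  have hmS' : MeasurableSet S' := hS.union ((measurable_add_const Qp) hS)
  have h0' : volume S' = 0 := by
    rw [hS', measure_union_null_iff]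
    refine ⟨h0, ?_⟩
    rw [mp_Qp.measure_preimage hS.nullMeasurableSet]
    exact h0
  refine measure_mono_null (t := tP ⁻¹' (sP ⁻¹' S')) ?_ ?_
  · intro p hp
    show sP (tP p) ∈ S'
    rcases sP_tP p with h | h
    · rw [h]; left; exact hp
    · rw [h]; right
      show p + Qp + Qp ∈ S
      rw [add_assoc, Qp_add, add_zero]
      exact hp
  · rw [← Measure.map_apply tP_continuous.measurable (sP_measurable hmS'), tP_PhiP h]
    exact (withDensity_absolutelyContinuous _ _) (sP_null hmS' h0')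

/-- the density of the spectral measure -/
noncomputable def fD (h : RPH V) : U × U → ℝ≥0∞ := (PhiP h.toVH).rnDeriv volume

theorem fD_measurable (h : RPH V) : Measurable (fD h) := Measure.measurable_rnDeriv _ _

theorem PhiP_fD (h : RPH V) : PhiP h.toVH = (volume : Measure (U × U)).withDensity (fD h) := by
  have := sfinite_PhiP h
  exact (Measure.withDensity_rnDeriv_eq _ _ (PhiP_ac h)).symm

theorem fD_sym (h : RPH V) {T S : U × U → U × U} (hT : MeasurePreserving T (volume : Measure (U × U)) volume)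
    (hS : Measurable S) (hST : ∀ p, S (T p) = p)
    (hP : (PhiP h.toVH).map T = PhiP h.toVH) : ∀ᵐ p, fD h (T p) = fD h p := by
  have h1 : (volume : Measure (U × U)).withDensity (fun p => fD h (T p)) =
      (volume : Measure (U × U)).withDensity (fD h) := by
    ext s hs
    rw [← PhiP_fD]
    have hpre : T ⁻¹' (S ⁻¹' s) = s := by
      ext p
      show S (T p) ∈ s ↔ p ∈ s
      rw [hST]
    rw [withDensity_apply _ hs]
    conv_lhs => rw [← hpre]
    rw [hT.setLIntegral_comp_preimage (hS hs) (fD_measurable h), ← withDensity_apply _ (hS hs),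
      ← PhiP_fD]
    conv_lhs => rw [← hP]
    rw [Measure.map_apply hT.measurable (hS hs), hpre]
  have h2 := (withDensity_eq_iff_of_sigmaFinite ((fD_measurable h).comp hT.measurable).aemeasurable
    (fD_measurable h).aemeasurable).1 h1
  exact h2

theorem fD_rP (h : RPH V) : ∀ᵐ p, fD h (rP p) = fD h p := by
  refine fD_sym h rP_mp (S := fun q => (q.1 - q.2, q.1)) ?_ ?_ (PhiP_rP h)
  · exact (measurable_fst.sub measurable_snd).prodMk measurable_fst
  · intro p
    show (p.2 - (p.2 - p.1), p.2) = p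
    rw [sub_sub_cancel]

theorem fD_fP (h : RPH V) : ∀ᵐ p, fD h (fP p) = fD h p := by
  refine fD_sym h fP_mp (S := fun q => (q.1, q.1 - q.2)) ?_ ?_ (PhiP_fP h)
  · exact measurable_fst.prodMk (measurable_fst.sub measurable_snd)
  · intro p
    show (p.1, p.1 - (p.1 - p.2)) = p
    rw [sub_sub_cancel]

/-- **fold identity for densities** -/
theorem fold_fD (h : RPH V) : ∀ᵐ p, fD h p + fD h (p + Qp) = 2 * PsU h (tP p) := by
  set g : U × U → ℝ≥0∞ := fun q => fD h (sP q) + fD h (sP q + Qp) with hg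
  have hgt : ∀ p, g (tP p) = fD h p + fD h (p + Qp) := by
    intro p
    simp only [hg]
    rcases sP_tP p with h1 | h1
    · rw [h1]
    · rw [h1, add_assoc, Qp_add, add_zero, add_comm]
  have hgm : Measurable g :=
    ((fD_measurable h).comp sP_measurable).add ((fD_measurable h).comp (sP_measurable.add_const Qp))
  have h1 : (volume : Measure (U × U)).withDensity g =
      (volume : Measure (U × U)).withDensity (fun q => 2 * PsU h q) := by
    ext s hs
    have hts := tP_continuous.measurable hs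
    rw [withDensity_apply _ hs, ← tP_mp.setLIntegral_comp_preimage hs hgm]
    simp_rw [hgt]
    rw [lintegral_add_left (fD_measurable h)]
    have e1 : ∫⁻ p in tP ⁻¹' s, fD h (p + Qp) = ∫⁻ p in tP ⁻¹' s, fD h p := by
      have h3 := mp_Qp.setLIntegral_comp_preimage hts (fD_measurable h)
      rw [← h3]
      congr 2
      ext p
      show tP p ∈ s ↔ tP (p + Qp) ∈ s
      rw [tP_add_Qp]
    rw [e1, ← withDensity_apply _ hts, ← PhiP_fD, ← Measure.map_apply tP_continuous.measurable hs,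
      tP_PhiP, withDensity_apply _ hs, withDensity_apply _ hs, lintegral_const_mul _ (PsU_measurable h)]
    rw [two_mul]
  have h2 := (withDensity_eq_iff_of_sigmaFinite hgm.aemeasurable
    (measurable_const.mul (PsU_measurable h)).aemeasurable).1 h1
  have h3 := tP_mp.quasiMeasurePreserving.ae h2
  filter_upwards [h3] with p hp
  rw [← hgt, hp]
  rfl

end Vale.Agent.P153.RP
end

section

/-!
# The row kernel in real momenta
-/

open MeasureTheory ProbabilityTheory

namespace Vale.Agent.P153.RP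

variable {V : (Fin 2 → ℤ) → ℝ}

/-- The row kernel `m_k(dτ)`, `k` a real momentum. -/
noncomputable def mR (h : RPH V) : Kernel ℝ ℝ := (mU h).comap pm pm_measurable

instance (h : RPH V) : IsSFiniteKernel (mR h) := by unfold mR; infer_instance

theorem mR_apply (h : RPH V) (k : ℝ) : mR h k = mU h (pm k) := rfl

/-- The density of the spectral measure in physical momenta `z = k_x + i k_y`. -/
noncomputable def phiR (h : RPH V) (z : ℂ) : ℝ :=
  (fD h (pm z.re, pm (z.re / 2 + √3 / 2 * z.im))).toReal / 2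

/-- Variogram of the even rows. -/
def Vr (V : (Fin 2 → ℤ) → ℝ) (j z : ℤ) : ℝ := V ![z - j, 2 * j]

end Vale.Agent.P153.RP
end

section

/-!
P153-F, top block: MONO. The moments of the heights are nonnegative and increasing in the set of
inner vertices.
-/

namespace Vale.Agent.P153.F.Top

open Finset Vale.Agent.P153 Vale.Agent.P153.F

/-- The indicators of the points of a list. -/
noncomputable def smPhi (v : List (ℤ × ℤ)) (i : Fin v.length) (x : Pt) : ℝ :=
  if x = v[i.1] then 1 else 0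

theorem smPhi_nonneg (v : List (ℤ × ℤ)) (i : Fin v.length) (x : Pt) : 0 ≤ smPhi v i x := by
  unfold smPhi
  split_ifs <;> norm_num

theorem sm_sum (F : Finset Pt) (v : List (ℤ × ℤ)) (h : Hg) (i : Fin v.length) :
    ∑ x ∈ F, smPhi v i x * (h x : ℝ) = vh F h v[i.1] := by
  unfold smPhi vh
  simp only [ite_mul, one_mul, zero_mul]
  rw [Finset.sum_ite_eq']

theorem sm_pl (F : Finset Pt) (v : List (ℤ × ℤ)) (h : Hg) :
    (v.map (vh F h)).prod = pl F (smPhi v) h := by
  unfold pl
  rw [← Fin.prod_univ_fun_getElem]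
  exact Finset.prod_congr rfl fun i _ => (sm_sum F v h i).symm

theorem sm_ze (F : Finset Pt) (v : List (ℤ × ℤ)) :
    ze F (fun ω => (v.map ω).prod) = ev (FreeF F (clo F)) (pl F (smPhi v)) := by
  unfold ze
  exact ev_congr _ _ _ fun h _ => sm_pl F v h

theorem sm_nonneg {k : ℕ} {D U I : Finset Pt} {φ : Fin k → Pt → ℝ} (hDU : ∀ x ∈ D, x ∈ U)
    (hφ : ∀ i, ∀ x ∈ I, 0 ≤ φ i x) : 0 ≤ ev (FreeF D U) (pl I φ) := by
  have h1 := sum_free_pl (I := I) (φ := φ) hDU (fun _ => (1 : ℝ))
  simp only [one_mul, mul_one] at h1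
  unfold ev
  rw [h1]
  exact div_nonneg (Finset.sum_nonneg fun a _ => mul_nonneg (Nat.cast_nonneg _) (Fk_nonneg hφ a))
    (Nat.cast_nonneg _)

theorem sm_clo {F F' : Finset Pt} (h : F ⊆ F') : clo F ⊆ clo F' := by
  unfold clo
  exact Finset.union_subset_union h (Finset.biUnion_subset_biUnion_of_subset_left _ h)

theorem sm_dom {k : ℕ} {D D' U I : Finset Pt} {φ : Fin k → Pt → ℝ} (hD : D' ⊆ D)
    (hDU : ∀ x ∈ D, x ∈ U) (hφ : ∀ i, ∀ x ∈ I, 0 ≤ φ i x) :
    ev (FreeF D' U) (pl I φ) ≤ ev (FreeF D U) (pl I φ) := by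
  have h1 := master (D' := D') (D := D) (U := U) (I := I) (φ := φ) hD hDU (fun _ => 1)
    (fun _ => 1) (fun _ => zero_le_one) (fun _ => zero_le_one) (fun _ _ _ _ => le_rfl) hφ
  simp only [one_mul, Finset.sum_const, nsmul_eq_mul, mul_one] at h1
  have c1 : (0 : ℝ) < #(FreeF D' U) := by exact_mod_cast (nonempty_free _ _).card_pos
  have c2 : (0 : ℝ) < #(FreeF D U) := by exact_mod_cast (nonempty_free _ _).card_pos
  unfold ev
  rw [div_le_div_iff₀ c1 c2]
  linarith

/-- MONO. -/
theorem s_mono : S_mono := by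
  classical
  intro F F' hF v
  refine ⟨?_, ?_, fun u => ?_⟩
  · rw [sm_ze]
    exact sm_nonneg (sub_clo F) fun i x _ => smPhi_nonneg v i x
  · rw [sm_ze, sm_ze]
    have e1 : ev (FreeF F (clo F')) (pl F (smPhi v)) = ev (FreeF F (clo F)) (pl F (smPhi v)) :=
      ev_window (sm_clo hF) (sub_clo F) (adj_clo F) _
        fun _ _ hh => pl_congr fun x hx => hh x (sub_clo F x hx)
    rw [← e1]
    refine (sm_dom hF (sub_clo F') fun i x _ => smPhi_nonneg v i x).trans ?_
    by_cases hv : ∀ i : Fin v.length, v[i.1] ∈ F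
    · refine (ev_congr _ _ _ fun h _ => ?_).le
      unfold pl
      refine Finset.prod_congr rfl fun i _ => ?_
      rw [sm_sum, sm_sum]
      unfold vh
      rw [if_pos (hv i), if_pos (hF (hv i))]
    · push Not at hv
      obtain ⟨i, hi⟩ := hv
      have e2 : ev (FreeF F' (clo F')) (pl F (smPhi v)) = 0 := by
        rw [ev_congr _ (pl F (smPhi v)) (fun _ => 0)]
        · exact ev_const _ (nonempty_free _ _) 0
        · intro h _
          unfold pl
          refine Finset.prod_eq_zero (Finset.mem_univ i) ?_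
          rw [sm_sum]
          unfold vh
          rw [if_neg hi]
      rw [e2]
      exact sm_nonneg (sub_clo F') fun i x _ => smPhi_nonneg v i x
  · unfold ze
    by_cases hu : u ∈ F
    · have h1 := free_one (adj_clo F) (sub_clo F u hu)
      have h2 : ev (FreeF F (clo F)) (fun h => vh F h u)
          = ev (FreeF F (clo F)) (fun h => (h u : ℝ)) := by
        refine ev_congr _ _ _ fun h _ => ?_
        unfold vh
        rw [if_pos hu]
      rw [h2]
      unfold ev
      rw [h1, zero_div]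
    · rw [ev_congr _ (fun h => vh F h u) (fun _ => 0)]
      · exact ev_const _ (nonempty_free _ _) 0
      · intro h _
        unfold vh
        rw [if_neg hu]

end Vale.Agent.P153.F.Top
end

section

/-!
# P153, block F-B: Tassion's argument on the triangular lattice, conclusion

`rsw`: for a positively associated and symmetric percolation of the midpoints whose rhombi and
hexagons are crossed with probability at least `c0` and for which the event `Arm` has small
probability, long parallelograms are crossed (and annuli contain circuits) with probability bounded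
below at all large scales.
-/

namespace Vale.Agent.P153.F.RSW

open Relation

namespace PT

variable {P : PT} {c0 : ℝ} {N : ℕ}

theorem next1 (G : Geo) (h0 : 0 < c0) (hsq : P.Sq c0 N)
    (harm : ∀ c : ℝ, 0 < c → ∀ M0 : ℤ, ∃ M : ℤ, M0 ≤ M ∧ ∃ s0 : ℤ, ∀ s : ℤ, s0 ≤ s →
      P.p (Arm s (2 * M * s)) < c) :
    ∃ M : ℕ, 12 ≤ M ∧ ∃ n0 : ℕ, ∀ n : ℕ, n0 ≤ n → P.Good c0 n →
      ∃ t : ℕ, 10 * n ≤ t ∧ t ≤ 4 * M * (5 * n) ∧ 5 * n ≤ P.al c0 t := by
  have hc1 : 0 < c1 c0 := c1_pos h0
  set c2 : ℝ := (c1 c0 * (c0 * c1 c0) ^ 79) ^ 4 with hc2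
  have hc2p : 0 < c2 := by positivity
  set a : ℝ := (c0 / 4) * (c0 / 4) * c2 with ha
  have hap : 0 < a := by positivity
  set A4 : ℝ := a * (c0 * a) ^ 20 with hA4
  have hA4p : 0 < A4 := by positivity
  obtain ⟨M', hM', s0, hs0⟩ := harm (c2 * (A4 ^ 4) * (A4 ^ 4 * (c0 / 4))) (by positivity) 12
  obtain ⟨M, rfl⟩ : ∃ M : ℕ, M' = M := ⟨M'.toNat, by omega⟩
  refine ⟨M, by omega, max (max N 36) s0.toNat, fun n hn hg => ?_⟩
  have hnN : N ≤ n := le_trans (le_trans (le_max_left _ _) (le_max_left _ _)) hn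
  have hn8 : 36 ≤ n := le_trans (le_trans (le_max_right _ _) (le_max_left _ _)) hn
  have hns : s0.toNat ≤ n := le_trans (le_max_right _ _) hn
  by_contra hcon
  push Not at hcon
  obtain ⟨s, hs⟩ : ∃ s : ℕ, s = 5 * n := ⟨_, rfl⟩
  obtain ⟨R, hR⟩ : ∃ R : ℕ, R = 2 * M * s := ⟨_, rfl⟩
  have hRs : 24 * s ≤ R := by
    rw [hR]
    exact Nat.mul_le_mul_right _ (by omega)
  have hal : ∀ t : ℕ, 2 * s ≤ t → t ≤ 2 * R → P.al c0 t < s := fun t h1 h2 => by
    rw [hs]
    refine hcon t (by omega) ?_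
    calc t ≤ 2 * R := h2
      _ = 4 * M * (5 * n) := by rw [hR, hs]; ring
  -- the small circuit
  have e1 : c2 ≤ P.p (Ann 0 0 s) := by
    have h1 := long_of_good G h0 hsq hnN hn8 hg 79 (4 * s) (by omega) (by push_cast; omega)
    have h2 : (5 * n : ℤ) = s := by omega
    rw [h2] at h1
    exact P.Ann_ge 0 0 (by positivity) h1
  have key1 : ∀ r : ℕ, 12 * s + 12 ≤ r → r ≤ 2 * R → A4 ≤ P.L (4 * r) r := by
    intro r h1 h2
    obtain ⟨t, ht⟩ : ∃ t : ℕ, t = r / 6 := ⟨_, rfl⟩
    have f1 := long_of_ann G h0 (s := s) (t := t) (by omega) (by omega)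
      (hal t (by omega) (by omega)) hc2p.le e1
    exact ratio4 G h0 hsq (t := t) (by omega) hap.le f1 (by omega) (by omega)
  have f3 : A4 ^ 4 ≤ P.p (Ann (3 * (2 * M * s)) 0 (2 * M * s)) := by
    refine P.Ann_ge _ _ hA4p.le ?_
    have h1 : (2 * M * s : ℤ) = R := by rw [hR]; push_cast; ring
    rw [h1]
    exact key1 R (by omega) (by omega)
  have g3 : A4 ^ 4 ≤ P.p (Ann 0 0 (2 * (2 * M * s))) := by
    refine P.Ann_ge _ _ hA4p.le ?_
    have h1 : 2 * (2 * M * s : ℤ) = (2 * R : ℕ) := by rw [hR]; push_cast; ring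
    rw [h1]
    exact key1 (2 * R) (by omega) le_rfl
  -- the arm
  have k1 : c0 / 4 ≤ P.p (HT (-(2 * (2 * M * s))) 0 (2 * (2 * M * s)) 0 s) := by
    have h1 := P.H_gt (c0 := c0) (n := 2 * R) (a := (s : ℤ))
      (by have := hal (2 * R) (by omega) le_rfl; omega)
      (by have := hal (2 * R) (by omega) le_rfl; omega)
    have h2 := P.H_nonneg (2 * R : ℕ) (s : ℤ) (2 * R : ℕ)
    have h4 : c0 / 4 ≤ P.H (2 * R : ℕ) 0 s := by linarith
    have h5 : 2 * (2 * M * s : ℤ) = (2 * R : ℕ) := by rw [hR]; push_cast; ring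
    rw [h5, P.HT_eq]
    simpa using h4
  have key := P.fkg3 (T := Arm s (2 * M * s)) (IL_Ann 0 0 s) (IL_Ann 0 0 (2 * (2 * M * s)))
    ((IL_Ann (3 * (2 * M * s)) 0 (2 * M * s)).and
      (IL_HT (-(2 * (2 * M * s))) 0 (2 * (2 * M * s)) 0 s))
    (fun S _ h1 h2 h3 => ⟨h1, h2, h3.1, h3.2⟩) hc2p.le (by positivity)
    (by positivity) e1 g3
    (P.fkg2 (T := fun S => Ann (3 * (2 * M * s)) 0 (2 * M * s) S ∧
      HT (-(2 * (2 * M * s))) 0 (2 * (2 * M * s)) 0 s S)
      (IL_Ann _ _ _) (IL_HT _ _ _ _ _) (fun S _ x y => ⟨x, y⟩) (by positivity) (by positivity)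
      f3 k1)
  have := hs0 s (by omega)
  linarith

/-- The sequence of scales with ratio `3/2`. -/
def useq (t : ℕ) : ℕ → ℕ
  | 0 => t
  | j + 1 => useq t j + useq t j / 2

theorem useq_ge (t : ℕ) : ∀ j, t ≤ useq t j
  | 0 => le_rfl
  | j + 1 => le_trans (useq_ge t j) (Nat.le_add_right _ _)

theorem useq_le (t : ℕ) : ∀ j, 2 ^ j * useq t j ≤ 3 ^ j * t
  | 0 => by simp [useq]
  | j + 1 => by
    have := useq_le t j
    have h2 : 2 * useq t (j + 1) ≤ 3 * useq t j := by simp only [useq]; omega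
    calc 2 ^ (j + 1) * useq t (j + 1) = 2 ^ j * (2 * useq t (j + 1)) := by ring
      _ ≤ 2 ^ j * (3 * useq t j) := Nat.mul_le_mul_left _ h2
      _ = 3 * (2 ^ j * useq t j) := by ring
      _ ≤ 3 * (3 ^ j * t) := Nat.mul_le_mul_left _ this
      _ = 3 ^ (j + 1) * t := by ring

theorem useq_le' (t : ℕ) : ∀ j, useq t j ≤ 2 ^ j * t
  | 0 => by simp [useq]
  | j + 1 => by
    have := useq_le' t j
    have h2 : useq t (j + 1) ≤ 2 * useq t j := by simp only [useq]; omega
    calc useq t (j + 1) ≤ 2 * useq t j := h2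
      _ ≤ 2 * (2 ^ j * t) := Nat.mul_le_mul_left _ this
      _ = 2 ^ (j + 1) * t := by ring

theorem grow (G : Geo) (h0 : 0 < c0) (hc : c0 ≤ 1) (hhx : P.Hx c0 N) {t : ℕ} (ht : 2 * N ≤ t)
    (ht1 : 1 ≤ t) {J : ℕ} (hb : ∀ j < J, ¬ P.Good c0 (useq t (j + 1))) :
    ∀ j ≤ J, 2 ^ j * P.al c0 t ≤ P.al c0 (useq t j) := by
  intro j
  induction j with
  | zero => intro _; simp [useq]
  | succ j ih =>
    intro hj
    have h1 := ih (by omega)
    have h2 := useq_ge t (j + 1)
    have h3 := (not_good G h0 hc hhx (n := useq t (j + 1)) (by omega) (by omega)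
      (hb j (by omega))).2
    have h4 : useq t (j + 1) - useq t (j + 1) / 3 = useq t j := by
      simp only [useq]; omega
    rw [h4] at h3
    calc 2 ^ (j + 1) * P.al c0 t = 2 * (2 ^ j * P.al c0 t) := by ring
      _ ≤ 2 * P.al c0 (useq t j) := Nat.mul_le_mul_left _ h1
      _ ≤ _ := h3

theorem exists_J (K : ℕ) : ∃ J : ℕ, 3 ^ J * K < 4 ^ J := by
  obtain ⟨J, hJ⟩ := pow_unbounded_of_one_lt (K : ℝ) (by norm_num : (1 : ℝ) < 4 / 3)
  refine ⟨J, ?_⟩
  have h1 : (3 : ℝ) ^ J * K < 4 ^ J := by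
    have h3 : (0 : ℝ) < 3 ^ J := by positivity
    calc (3 : ℝ) ^ J * K < 3 ^ J * (4 / 3) ^ J := by
          exact mul_lt_mul_of_pos_left hJ h3
      _ = 4 ^ J := by rw [← mul_pow]; norm_num
  exact_mod_cast h1

theorem next2 (G : Geo) (h0 : 0 < c0) (hc : c0 ≤ 1) (hhx : P.Hx c0 N) (K : ℕ) :
    ∃ J : ℕ, ∀ t : ℕ, 2 * N ≤ t → 2 ≤ t → 1 ≤ P.al c0 t → t ≤ K * P.al c0 t →
      ∃ n : ℕ, t < n ∧ n ≤ 2 ^ J * t ∧ P.Good c0 n := by
  obtain ⟨J, hJ⟩ := exists_J K
  refine ⟨J, fun t ht ht2 ha hK => ?_⟩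
  by_contra hcon
  push Not at hcon
  have hlt : ∀ j, t < useq t (j + 1) := fun j => by
    have := useq_ge t j
    simp only [useq]; omega
  have h1 := grow G h0 hc hhx ht (by omega) (J := J) (fun j hj hg => by
    refine hcon (useq t (j + 1)) (hlt j) ((useq_le' t (j + 1)).trans ?_) hg
    exact Nat.mul_le_mul_right _ (Nat.pow_le_pow_right (by norm_num) (by omega))) J le_rfl
  have h2 := P.al_le c0 (useq t J)
  have h3 := useq_le t J
  have h4 : 2 ^ J * P.al c0 t ≤ useq t J := by omega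
  have h5 : 2 ^ J * (2 ^ J * P.al c0 t) ≤ 3 ^ J * (K * P.al c0 t) :=
    calc 2 ^ J * (2 ^ J * P.al c0 t) ≤ 2 ^ J * useq t J := Nat.mul_le_mul_left _ h4
      _ ≤ 3 ^ J * t := h3
      _ ≤ 3 ^ J * (K * P.al c0 t) := Nat.mul_le_mul_left _ hK
  have h6 : 4 ^ J * P.al c0 t ≤ 3 ^ J * K * P.al c0 t := by
    have e : (4 : ℕ) ^ J = 2 ^ J * 2 ^ J := by rw [← mul_pow]; norm_num
    rw [e]
    calc 2 ^ J * 2 ^ J * P.al c0 t = 2 ^ J * (2 ^ J * P.al c0 t) := by ring
      _ ≤ _ := h5
      _ = 3 ^ J * K * P.al c0 t := by ring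
  have h7 : 3 ^ J * K * P.al c0 t < 4 ^ J * P.al c0 t :=
    Nat.mul_lt_mul_of_pos_right hJ ha
  omega

/-- Good scales have bounded ratios. -/
theorem next (G : Geo) (h0 : 0 < c0) (hc : c0 ≤ 1) (hsq : P.Sq c0 N) (hhx : P.Hx c0 N)
    (harm : ∀ c : ℝ, 0 < c → ∀ M0 : ℤ, ∃ M : ℤ, M0 ≤ M ∧ ∃ s0 : ℤ, ∀ s : ℤ, s0 ≤ s →
      P.p (Arm s (2 * M * s)) < c) :
    ∃ K n0 : ℕ, ∀ n : ℕ, n0 ≤ n → P.Good c0 n → ∃ n', n < n' ∧ n' ≤ K * n ∧ P.Good c0 n' := by
  obtain ⟨M, hM, n0, hn0⟩ := next1 G h0 hsq harm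
  obtain ⟨J, hJ⟩ := next2 (P := P) G h0 hc hhx (4 * M)
  refine ⟨2 ^ J * (20 * M), max (max n0 N) 1, fun n hn hg => ?_⟩
  have a1 : n0 ≤ n := le_trans (le_trans (le_max_left _ _) (le_max_left _ _)) hn
  have a2 : N ≤ n := le_trans (le_trans (le_max_right _ _) (le_max_left _ _)) hn
  have a3 : 1 ≤ n := le_trans (le_max_right _ _) hn
  obtain ⟨t, h1, h2, h3⟩ := hn0 n a1 hg
  obtain ⟨n', g1, g2, g3⟩ := hJ t (by omega) (by omega) (by omega)
    (h2.trans (Nat.mul_le_mul_left _ h3))
  refine ⟨n', by omega, ?_, g3⟩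
  calc n' ≤ 2 ^ J * t := g2
    _ ≤ 2 ^ J * (4 * M * (5 * n)) := Nat.mul_le_mul_left _ h2
    _ = 2 ^ J * (20 * M) * n := by ring

/-- **Box crossings at all scales.** -/
theorem rsw (P : PT) (G : Geo) {c0 : ℝ} (h0 : 0 < c0) (N : ℕ)
    (hsq : ∀ n : ℤ, (N : ℤ) ≤ n → c0 ≤ P.p (LRp 0 n 0 n))
    (hhx : ∀ n : ℤ, (N : ℤ) ≤ n → c0 ≤ P.p (HT 0 0 n (-n) n))
    (harm : ∀ c : ℝ, 0 < c → ∀ M0 : ℤ, ∃ M : ℤ, M0 ≤ M ∧ ∃ s0 : ℤ, ∀ s : ℤ, s0 ≤ s →
      P.p (Arm s (2 * M * s)) < c) :
    ∃ c : ℝ, 0 < c ∧ ∃ r0 : ℤ, ∀ r : ℤ, r0 ≤ r → c ≤ P.p (LRp 0 (4 * r) 0 r) := by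
  have hsq' : P.Sq c0 N := hsq
  have hhx' : P.Hx c0 N := hhx
  have hc : c0 ≤ 1 := (hsq N le_rfl).trans (P.le_one _)
  have hc1 := c1_pos h0
  obtain ⟨K, n0, hK⟩ := next G h0 hc hsq' hhx' harm
  obtain ⟨n1, hn1⟩ : ∃ n1 : ℕ, n1 = max (max n0 (2 * N)) 36 := ⟨_, rfl⟩
  have a1 : n0 ≤ n1 := by rw [hn1]; exact le_trans (le_max_left _ _) (le_max_left _ _)
  have a2 : 2 * N ≤ n1 := by rw [hn1]; exact le_trans (le_max_right _ _) (le_max_left _ _)
  have a3 : 36 ≤ n1 := by rw [hn1]; exact le_max_right _ _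
  by_cases hex : ∃ n, n1 ≤ n ∧ P.Good c0 n
  · obtain ⟨n2, hn2, hg2⟩ := hex
    refine ⟨c1 c0 * (c0 * c1 c0) ^ (80 * K + 79), by positivity, 5 * n2, fun r hr => ?_⟩
    obtain ⟨r', rfl⟩ : ∃ r' : ℕ, r = r' := ⟨r.toNat, by omega⟩
    classical
    set n := Nat.findGreatest (fun n => n2 ≤ n ∧ P.Good c0 n) (r' / 5) with hn
    have hspec : n2 ≤ n ∧ P.Good c0 n :=
      Nat.findGreatest_spec (P := fun n => n2 ≤ n ∧ P.Good c0 n) (m := n2) (by omega)
        ⟨le_rfl, hg2⟩
    have hnr : n ≤ r' / 5 := Nat.findGreatest_le _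
    obtain ⟨n', g1, g2, g3⟩ := hK n (by omega) hspec.2
    have hn' : ¬ n' ≤ r' / 5 := fun h =>
      Nat.findGreatest_is_greatest (P := fun n => n2 ≤ n ∧ P.Good c0 n) g1 h
        ⟨by omega, g3⟩
    have h1 : (r' : ℤ) ≤ 5 * (K * n) + 5 := by
      have : r' ≤ 5 * (K * n) + 5 := by omega
      exact_mod_cast this
    have h2 := long_of_good G h0 hsq' (n := n) (by omega) (by omega) hspec.2 (80 * K + 79)
      (4 * r') (by omega) (by push_cast; nlinarith)
    exact h2.trans (P.L_mono G (by omega) le_rfl (by omega))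
  · push Not at hex
    have hal : ∀ t, n1 ≤ t → P.al c0 t = 0 := by
      intro t ht
      by_contra hne
      obtain ⟨J, hJ⟩ := next2 (P := P) G h0 hc hhx' t
      obtain ⟨n, g1, _, g3⟩ := hJ t (by omega) (by omega) (by omega)
        (Nat.le_mul_of_pos_right _ (by omega))
      exact hex n (by omega) g3
    set a : ℝ := (c0 / 4) * (c0 / 4) with ha
    have hap : 0 < a := by positivity
    refine ⟨a * (c0 * a) ^ 20, by positivity, 6 * n1 + 6, fun r hr => ?_⟩
    obtain ⟨r', rfl⟩ : ∃ r' : ℕ, r = r' := ⟨r.toNat, by omega⟩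
    obtain ⟨t, ht⟩ : ∃ t : ℕ, t = r' / 6 := ⟨_, rfl⟩
    have h1 := long_of_edge (c0 := c0) G h0 (t := t) (by omega) (hal t (by omega))
    exact ratio4 G h0 hsq' (t := t) (by omega) hap.le h1 (by omega) (by omega)

/-- The annulus event at all large scales. -/
theorem rsw_ann (P : PT) (G : Geo) {c0 : ℝ} (h0 : 0 < c0) (N : ℕ)
    (hsq : ∀ n : ℤ, (N : ℤ) ≤ n → c0 ≤ P.p (LRp 0 n 0 n))
    (hhx : ∀ n : ℤ, (N : ℤ) ≤ n → c0 ≤ P.p (HT 0 0 n (-n) n))
    (harm : ∀ c : ℝ, 0 < c → ∀ M0 : ℤ, ∃ M : ℤ, M0 ≤ M ∧ ∃ s0 : ℤ, ∀ s : ℤ, s0 ≤ s →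
      P.p (Arm s (2 * M * s)) < c) :
    ∃ c : ℝ, 0 < c ∧ ∃ r0 : ℤ, ∀ r : ℤ, r0 ≤ r → ∀ p q : ℤ, c ≤ P.p (Ann p q r) := by
  obtain ⟨c, hc, r0, hr0⟩ := rsw P G h0 N hsq hhx harm
  exact ⟨c ^ 4, by positivity, r0, fun r hr p q => P.Ann_ge p q hc.le (hr0 r hr)⟩

end PT

end Vale.Agent.P153.F.RSW
end

section

/-!
# P153, block F-B: under the plane measure the law of `σ` is dominated by the law of `τ`

`dom_sigma`: `E f(σ) ≤ E f(τ)` for increasing local `f`. Proof: exchange the roles of the two spins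
in a box; the law of a free spin (the other one is fixed on the boundary) is positively associated,
and its law conditioned to be `+` off a smaller region is the law of `τ` in that region.
-/

namespace Vale.Agent.P153.F.RSW

open MeasureTheory Filter Topology Finset Vale.Agent.P153.A
open Vale.Agent.P153.GFF (Adj)

/-- Association for a supermodular weight on a finite sublattice. -/
theorem fkg_gen (A : Finset Sp) (W : Sp → ℝ) (hW0 : ∀ a, 0 ≤ W a)
    (hs : ∀ a ∈ A, ∀ b ∈ A, a ⊔ b ∈ A) (hi : ∀ a ∈ A, ∀ b ∈ A, a ⊓ b ∈ A)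
    (hW : ∀ a ∈ A, ∀ b ∈ A, W a * W b ≤ W (a ⊔ b) * W (a ⊓ b)) (f g : Sp → ℝ)
    (hf : Monotone f) (hg : Monotone g) (hf0 : ∀ a, 0 ≤ f a) (hg0 : ∀ a, 0 ≤ g a) :
    (∑ a ∈ A, W a * f a) * (∑ a ∈ A, W a * g a) ≤
      (∑ a ∈ A, W a) * ∑ a ∈ A, W a * (f a * g a) := by
  classical
  open scoped FinsetFamily in
  have hinf : A ⊼ A = A := by
    apply Finset.Subset.antisymm
    · intro x hx
      obtain ⟨a, ha, b, hb, rfl⟩ := Finset.mem_infs.1 hx
      exact hi a ha b hb
    · exact Finset.subset_infs_self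
  open scoped FinsetFamily in
  have hsup : A ⊻ A = A := by
    apply Finset.Subset.antisymm
    · intro x hx
      obtain ⟨a, ha, b, hb, rfl⟩ := Finset.mem_sups.1 hx
      exact hs a ha b hb
    · exact Finset.subset_sups_self
  have key := four_functions_theorem (α := Sp) (β := ℝ)
    (f₁ := fun τ => if τ ∈ A then W τ * f τ else 0)
    (f₂ := fun τ => if τ ∈ A then W τ * g τ else 0)
    (f₃ := fun τ => if τ ∈ A then W τ else 0)
    (f₄ := fun τ => if τ ∈ A then W τ * (f τ * g τ) else 0)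
    (fun τ => by
      simp only [Pi.zero_apply]
      split_ifs
      · exact mul_nonneg (hW0 _) (hf0 _)
      · exact le_rfl)
    (fun τ => by
      simp only [Pi.zero_apply]
      split_ifs
      · exact mul_nonneg (hW0 _) (hg0 _)
      · exact le_rfl)
    (fun τ => by
      simp only [Pi.zero_apply]
      split_ifs
      · exact hW0 _
      · exact le_rfl)
    (fun τ => by
      simp only [Pi.zero_apply]
      split_ifs
      · exact mul_nonneg (hW0 _) (mul_nonneg (hf0 _) (hg0 _))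
      · exact le_rfl)
    (fun a b => by
      by_cases ha : a ∈ A
      · by_cases hb : b ∈ A
        · simp only [if_pos ha, if_pos hb, if_pos (hs a ha b hb), if_pos (hi a ha b hb)]
          have h4 : f a * g b ≤ f (a ⊔ b) * g (a ⊔ b) :=
            mul_le_mul (hf le_sup_left) (hg le_sup_right) (hg0 _) (hf0 _)
          calc W a * f a * (W b * g b) = (W a * W b) * (f a * g b) := by ring
            _ ≤ (W (a ⊔ b) * W (a ⊓ b)) * (f (a ⊔ b) * g (a ⊔ b)) :=
              mul_le_mul (hW a ha b hb) h4 (mul_nonneg (hf0 _) (hg0 _))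
                (mul_nonneg (hW0 _) (hW0 _))
            _ = W (a ⊓ b) * (W (a ⊔ b) * (f (a ⊔ b) * g (a ⊔ b))) := by ring
        · simp only [if_neg hb, mul_zero]
          apply mul_nonneg
          · split_ifs
            · exact hW0 _
            · exact le_rfl
          · split_ifs
            · exact mul_nonneg (hW0 _) (mul_nonneg (hf0 _) (hg0 _))
            · exact le_rfl
      · simp only [if_neg ha, zero_mul]
        apply mul_nonneg
        · split_ifs
          · exact hW0 _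
          · exact le_rfl
        · split_ifs
          · exact mul_nonneg (hW0 _) (mul_nonneg (hf0 _) (hg0 _))
          · exact le_rfl)
    A A
  rw [hinf, hsup] at key
  simpa only [Finset.sum_ite_mem, Finset.inter_self] using key

/-- Association without sign conditions. -/
theorem fkg_gen' (A : Finset Sp) (W : Sp → ℝ) (hW0 : ∀ a, 0 ≤ W a)
    (hs : ∀ a ∈ A, ∀ b ∈ A, a ⊔ b ∈ A) (hi : ∀ a ∈ A, ∀ b ∈ A, a ⊓ b ∈ A)
    (hW : ∀ a ∈ A, ∀ b ∈ A, W a * W b ≤ W (a ⊔ b) * W (a ⊓ b)) (f g : Sp → ℝ)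
    (hf : Monotone f) (hg : Monotone g) :
    (∑ a ∈ A, W a * f a) * (∑ a ∈ A, W a * g a) ≤
      (∑ a ∈ A, W a) * ∑ a ∈ A, W a * (f a * g a) := by
  have key := fkg_gen A W hW0 hs hi hW (fun τ => f τ - f ⊥) (fun τ => g τ - g ⊥)
    (fun a b h => sub_le_sub_right (hf h) _) (fun a b h => sub_le_sub_right (hg h) _)
    (fun x => sub_nonneg.2 (hf bot_le)) (fun x => sub_nonneg.2 (hg bot_le))
  set Z := ∑ τ ∈ A, W τ with hZdef
  have e1 : ∀ (u : Sp → ℝ) (c : ℝ), (∑ τ ∈ A, W τ * (u τ - c)) =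
      (∑ τ ∈ A, W τ * u τ) - c * Z := by
    intro u c
    rw [hZdef, Finset.mul_sum, ← Finset.sum_sub_distrib]
    exact Finset.sum_congr rfl fun _ _ => by ring
  have e2 : (∑ τ ∈ A, W τ * ((f τ - f ⊥) * (g τ - g ⊥))) =
      (∑ τ ∈ A, W τ * (f τ * g τ)) - g ⊥ * (∑ τ ∈ A, W τ * f τ) -
        f ⊥ * (∑ τ ∈ A, W τ * g τ) + f ⊥ * g ⊥ * Z := by
    rw [hZdef, Finset.mul_sum, Finset.mul_sum, Finset.mul_sum, ← Finset.sum_sub_distrib,
      ← Finset.sum_sub_distrib, ← Finset.sum_add_distrib]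
    exact Finset.sum_congr rfl fun _ _ => by ring
  rw [e1, e1, e2] at key
  nlinarith [key]

/-! ### The free spin in a box -/

theorem mem_bx {R : ℕ} {x : Pt} : x ∈ bx R ↔ |x.1| ≤ R ∧ |x.2| ≤ R := by
  rw [bx, Finset.mem_product, Finset.mem_Icc, Finset.mem_Icc, abs_le, abs_le]

theorem ray_bx (R : ℕ) : Tau.Ray (bx R) := by
  intro x hx
  rw [mem_bx, abs_le, abs_le] at hx
  have h4 : x.1 < -(R : ℤ) ∨ (R : ℤ) < x.1 ∨ x.2 < -(R : ℤ) ∨ (R : ℤ) < x.2 := by omega
  rcases h4 with h | h | h | h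
  · refine ⟨(-1, 0), Tau.adj_zero.2 (by simp), fun k => ?_⟩
    simp only [bx, Finset.mem_product, Finset.mem_Icc]
    omega
  · refine ⟨(1, 0), Tau.adj_zero.2 (by simp), fun k => ?_⟩
    simp only [bx, Finset.mem_product, Finset.mem_Icc]
    omega
  · refine ⟨(0, -1), Tau.adj_zero.2 (by simp), fun k => ?_⟩
    simp only [bx, Finset.mem_product, Finset.mem_Icc]
    omega
  · refine ⟨(0, 1), Tau.adj_zero.2 (by simp), fun k => ?_⟩
    simp only [bx, Finset.mem_product, Finset.mem_Icc]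
    omega

theorem inn_bx (R : ℕ) : inn (bx (R + 1)) = (bx R : Set Pt) := by
  ext x
  rw [Finset.mem_coe, mem_bx]
  simp only [inn, Set.mem_ofPred_eq]
  constructor
  · rintro ⟨-, h⟩
    have a1 := h (x.1 + 1, x.2) (by unfold Adj; simp)
    have a2 := h (x.1 - 1, x.2) (by unfold Adj; simp)
    have a3 := h (x.1, x.2 + 1) (by unfold Adj; simp)
    have a4 := h (x.1, x.2 - 1) (by unfold Adj; simp)
    rw [mem_bx, abs_le, abs_le] at a1 a2 a3 a4
    rw [abs_le, abs_le]
    push_cast at a1 a2 a3 a4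
    omega
  · rintro ⟨h1, h2⟩
    rw [abs_le] at h1 h2
    refine ⟨?_, fun w hw => ?_⟩
    · rw [mem_bx, abs_le, abs_le]
      push_cast
      omega
    · rw [mem_bx, abs_le, abs_le]
      unfold Adj at hw
      simp only [Set.mem_insert_iff, Set.mem_singleton_iff, Prod.mk.injEq] at hw
      push_cast
      omega

/-- The free spins: `true` off the box. -/
def Fr (R : ℕ) : Set Sp := {τ | ∀ x, x ∉ bx (R + 1) → τ x = true}

theorem fr_finite (R : ℕ) : (Fr R).Finite :=
  E1f.finite_const _ (bx (R + 1)).finite_toSet true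

theorem w_super (R : ℕ) (τ τ' : Sp) : w (bx R) τ * w (bx R) τ' ≤
    w (bx R) (τ ⊔ τ') * w (bx R) (τ ⊓ τ') := by
  rw [w_eq_L1, w_eq_L1, w_eq_L1, w_eq_L1]
  have h2 : {x : Pt | (τ ⊔ τ') x = true} = {x | τ x = true} ∪ {x | τ' x = true} := by
    ext x
    simp only [Set.mem_ofPred_eq, Set.mem_union, Pi.sup_apply]
    cases τ x <;> cases τ' x <;> simp
  have h3 : {x : Pt | (τ ⊓ τ') x = true} = {x | τ x = true} ∩ {x | τ' x = true} := by
    ext x
    simp only [Set.mem_ofPred_eq, Set.mem_inter_iff, Pi.inf_apply]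
    cases τ x <;> cases τ' x <;> simp
  rw [h2, h3]
  exact L1.w_mul_le_of_ray (ray_bx R) _ _

/-- Expectation for the free spin. -/
noncomputable def EN (R : ℕ) (f : Sp → ℝ) : ℝ :=
  (∑ τ ∈ (fr_finite R).toFinset, (w (bx R) τ : ℝ) * f τ) /
    ∑ τ ∈ (fr_finite R).toFinset, (w (bx R) τ : ℝ)

theorem w_pos (D : Finset Pt) (τ : Sp) : 0 < w D τ := by
  unfold w
  have : Finite (G D τ) := (E1f.g_finite D τ).to_subtype
  exact Nat.card_pos

theorem adm_sub_fr {R : ℕ} {D : Finset Pt} (h : D ⊆ bx R) : Adm D ⊆ Fr R := by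
  intro τ hτ x hx
  refine hτ x fun h' => hx ?_
  have h1 := h h'.1
  rw [mem_bx] at h1 ⊢
  push_cast
  omega

/-- The free spin is dominated by `τ` in a smaller region. -/
theorem EN_le {R : ℕ} {D : Finset Pt} (h : D ⊆ bx R) {f : Sp → ℝ} (hf : Monotone f) :
    EN R f ≤ E1 D f := by
  classical
  have h2 := s_e1
  set T := (fr_finite R).toFinset with hT
  have hZ : 0 < ∑ τ ∈ T, (w (bx R) τ : ℝ) := by
    refine Finset.sum_pos (fun τ _ => by exact_mod_cast w_pos _ τ) ⟨fun _ => true, ?_⟩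
    rw [hT, Set.Finite.mem_toFinset]
    exact fun _ _ => rfl
  have hmem : ∀ {a}, a ∈ T ↔ a ∈ Fr R := by
    intro a
    rw [hT, Set.Finite.mem_toFinset]
  have key := fkg_gen' T (fun τ => (w (bx R) τ : ℝ)) (fun _ => Nat.cast_nonneg _)
    (fun a ha b hb => hmem.2 fun x hx => by
      rw [Pi.sup_apply, hmem.1 ha x hx]
      rfl)
    (fun a ha b hb => hmem.2 fun x hx => by
      rw [Pi.inf_apply, hmem.1 ha x hx, hmem.1 hb x hx]
      rfl)
    (fun a _ b _ => by exact_mod_cast w_super R a b) f (Dm.ind D) hf (Dm.ind_mono D)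
  have hsum : ∀ u : Sp → ℝ, (2 : ℝ) ^ (bx R \ D).card *
      ∑ τ ∈ (h2 D).1.toFinset, (w D τ : ℝ) * u τ =
      ∑ τ ∈ T, (w (bx R) τ : ℝ) * (u τ * Dm.ind D τ) := by
    intro u
    have hsub : (h2 D).1.toFinset ⊆ T := by
      intro τ hτ
      rw [Set.Finite.mem_toFinset] at hτ
      exact hmem.2 (adm_sub_fr h hτ)
    rw [← Finset.sum_subset hsub, Finset.mul_sum]
    · refine Finset.sum_congr rfl fun τ hτ => ?_
      rw [Set.Finite.mem_toFinset] at hτ
      rw [Dm.w_eq h hτ, Dm.ind, if_pos hτ]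
      push_cast
      ring
    · intro τ _ hτ
      rw [Set.Finite.mem_toFinset] at hτ
      rw [Dm.ind, if_neg hτ, mul_zero, mul_zero]
  have e1 := hsum f
  have e2 := hsum fun _ => 1
  simp only [mul_one, one_mul] at e2
  have hc : (0 : ℝ) < 2 ^ (bx R \ D).card := by positivity
  have hZD := fkg_Z_pos h2 D
  rw [← e1, ← e2] at key
  rw [EN, fkg_E1_eq h2 D f, div_le_div_iff₀ hZ hZD]
  have h5 : (2 : ℝ) ^ (bx R \ D).card * ((∑ τ ∈ T, (w (bx R) τ : ℝ) * f τ) *
      ∑ τ ∈ (h2 D).1.toFinset, (w D τ : ℝ)) ≤ (2 : ℝ) ^ (bx R \ D).card *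
      ((∑ τ ∈ (h2 D).1.toFinset, (w D τ : ℝ) * f τ) * ∑ τ ∈ T, (w (bx R) τ : ℝ)) := by
    linarith
  exact le_of_mul_le_mul_left h5 hc

/-! ### Exchange of the two spins -/

/-- The pair obtained by exchanging the spins. -/
noncomputable def exch (R : ℕ) (t s : Sp) : Om := by
  classical
  exact fun x => (!(s x), if x ∈ bx (R + 1) then t x else false)

theorem exch_mem {R : ℕ} {t s : Sp} (hs : s ∈ G (bx R) t) : exch R t s ∈ Cf (bx (R + 1)) := by
  classical
  have hin : ∀ x, x ∉ bx R → s x = false := hs.1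
  refine ⟨fun x y hxy => ?_, fun x hx => ?_, fun x hx => ?_⟩
  · by_cases hst : s x = s y
    · left
      simp [exch, hst]
    · right
      have ht : t x = t y := by
        by_contra hne
        exact hst (hs.2 x y hxy hne)
      have hor : x ∈ bx R ∨ y ∈ bx R := by
        by_contra hcon
        push Not at hcon
        exact hst ((hin x hcon.1).trans (hin y hcon.2).symm)
      have hxy' := hxy
      unfold Adj at hxy'
      simp only [Set.mem_insert_iff, Set.mem_singleton_iff, Prod.mk.injEq] at hxy'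
      have hx : x ∈ bx (R + 1) := by
        rw [mem_bx, abs_le, abs_le] at hor ⊢
        rw [mem_bx, abs_le, abs_le] at hor
        push_cast
        omega
      have hy : y ∈ bx (R + 1) := by
        rw [mem_bx, abs_le, abs_le] at hor ⊢
        rw [mem_bx, abs_le, abs_le] at hor
        push_cast
        omega
      simp [exch, hx, hy, ht]
  · have h1 : x ∉ bx R := by
      have h2 := inn_bx R
      intro h3
      exact hx (by rw [h2]; exact h3)
    simp [exch, hin x h1]
  · simp [exch, hx]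

/-- Exchange of the two spins. -/
theorem E2_eq_EN {R : ℕ} {B : Finset Pt} (hB : B ⊆ bx (R + 1)) {f : Sp → ℝ} (hf : A.Loc B f) :
    E2 (bx (R + 1)) (fun ω => f fun x => (ω x).2) = EN R f := by
  classical
  have hsum : ∀ u : Sp → ℝ, A.Loc B u → ∑ᶠ ω ∈ Cf (bx (R + 1)), u (fun x => (ω x).2) =
      ∑ τ ∈ (fr_finite R).toFinset, (w (bx R) τ : ℝ) * u τ := by
    intro u hu
    have h1 : ∀ τ ∈ (fr_finite R).toFinset, (w (bx R) τ : ℝ) * u τ =
        ∑ s ∈ (E1f.g_finite (bx R) τ).toFinset, u τ := by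
      intro τ _
      rw [Finset.sum_const, nsmul_eq_mul,
        ← Set.ncard_eq_toFinset_card _ (E1f.g_finite (bx R) τ), ← Nat.card_coe_set_eq]
      rfl
    rw [Finset.sum_congr rfl h1, Finset.sum_sigma',
      finsum_mem_eq_finite_toFinset_sum _ (E1f.cf_finite _)]
    symm
    refine Finset.sum_bij (fun p _ => exch R p.1 p.2) ?_ ?_ ?_ ?_
    · rintro ⟨t, s⟩ hp
      rw [Finset.mem_sigma, Set.Finite.mem_toFinset, Set.Finite.mem_toFinset] at hp
      rw [Set.Finite.mem_toFinset]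
      exact exch_mem hp.2
    · rintro ⟨t, s⟩ hp ⟨t', s'⟩ hp' he
      rw [Finset.mem_sigma, Set.Finite.mem_toFinset, Set.Finite.mem_toFinset] at hp hp'
      have hs : s = s' := by
        funext x
        have := congrArg Prod.fst (congrFun he x)
        simp only [exch] at this
        simpa using this
      have ht : t = t' := by
        funext x
        by_cases hx : x ∈ bx (R + 1)
        · have := congrArg Prod.snd (congrFun he x)
          simp only [exch, if_pos hx] at this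
          exact this
        · exact (hp.1 x hx).trans (hp'.1 x hx).symm
      rw [hs, ht]
    · intro ω hω
      rw [Set.Finite.mem_toFinset] at hω
      obtain ⟨h2, h3, h4⟩ := hω
      refine ⟨⟨fun x => if x ∈ bx (R + 1) then (ω x).2 else true, fun x => !(ω x).1⟩, ?_, ?_⟩
      · rw [Finset.mem_sigma, Set.Finite.mem_toFinset, Set.Finite.mem_toFinset]
        refine ⟨fun x hx => by simp [hx], fun x hx => ?_, fun x y hxy hne => ?_⟩
        · have h5 : x ∉ inn (bx (R + 1)) := by
            rw [inn_bx]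
            exact hx
          simp [h3 x h5]
        · dsimp only at hne ⊢
          by_contra hcon
          have hcon' : (ω x).1 ≠ (ω y).1 := fun h => hcon (by rw [h])
          have h6 : (ω x).2 = (ω y).2 := by
            rcases h2 x y hxy with h | h
            · exact absurd h hcon'
            · exact h
          have hor : x ∈ bx R ∨ y ∈ bx R := by
            by_contra hc2
            push Not at hc2
            refine hcon' ((h3 x ?_).trans (h3 y ?_).symm)
            · rw [inn_bx]; exact hc2.1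
            · rw [inn_bx]; exact hc2.2
          have hxy' := hxy
          unfold Adj at hxy'
          simp only [Set.mem_insert_iff, Set.mem_singleton_iff, Prod.mk.injEq] at hxy'
          have hx : x ∈ bx (R + 1) := by
            rw [mem_bx, abs_le, abs_le] at hor ⊢
            rw [mem_bx, abs_le, abs_le] at hor
            push_cast
            omega
          have hy : y ∈ bx (R + 1) := by
            rw [mem_bx, abs_le, abs_le] at hor ⊢
            rw [mem_bx, abs_le, abs_le] at hor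
            push_cast
            omega
          rw [if_pos hx, if_pos hy] at hne
          exact hne h6
      · funext x
        by_cases hx : x ∈ bx (R + 1)
        · simp [exch, hx]
        · have := h4 x hx
          simp only [exch, if_neg hx, Bool.not_not]
          rw [← this]
    · rintro ⟨t, s⟩ _
      refine hu _ _ fun x hx => ?_
      simp [exch, hB hx]
  have hcard : ((Cf (bx (R + 1))).ncard : ℝ) = ∑ τ ∈ (fr_finite R).toFinset, (w (bx R) τ : ℝ) := by
    have h1 := hsum (fun _ => 1) (fun _ _ _ => rfl)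
    simp only [mul_one] at h1
    rw [← h1, finsum_mem_eq_finite_toFinset_sum _ (E1f.cf_finite _), Finset.sum_const,
      nsmul_eq_mul, mul_one, ← Set.ncard_eq_toFinset_card _ (E1f.cf_finite _)]
  rw [E2, EN, hsum f hf, hcard]

/-! ### The plane -/

theorem tendsto_bx : Tendsto (fun R : ℕ => bx (R + 1)) atTop (atTop : Filter (Finset Pt)) := by
  refine tendsto_atTop_atTop.2 fun B => ?_
  obtain ⟨N, hN⟩ := L1.exists_box B
  refine ⟨N.toNat, fun R hR x hx => ?_⟩
  have h1 := hN x hx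
  rw [mem_bx]
  push_cast
  omega

/-- **The law of `σ` is dominated by the law of `τ`.** -/
theorem dom_sigma {Q : Measure Om} (hQ : IsQ Q) {B : Finset Pt} {f : Sp → ℝ} (hf : Monotone f)
    (hB : A.Loc B f) : ∫ ω, f (fun x => (ω x).2) ∂Q ≤ ∫ ω, f (tau ω) ∂Q := by
  have l1 : A.Loc B (fun ω : Om => f fun x => (ω x).2) := fun ω ω' h =>
    hB _ _ fun x hx => by rw [h x hx]
  have l2 : A.Loc B (fun ω : Om => f (tau ω)) := fun ω ω' h =>
    hB _ _ fun x hx => by unfold tau; rw [h x hx]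
  have h1 := (hQ.lim _ _ l1).comp tendsto_bx
  have h2 := hQ.lim _ _ l2
  refine ge_of_tendsto h2 (Eventually.of_forall fun D => ?_)
  refine le_of_tendsto h1 ?_
  obtain ⟨N, hN⟩ := L1.exists_box D
  obtain ⟨M, hM⟩ := L1.exists_box B
  filter_upwards [eventually_ge_atTop N.toNat, eventually_ge_atTop M.toNat] with R hR hR'
  have hDR : D ⊆ bx R := fun x hx => by
    have h3 := hN x hx
    rw [mem_bx]
    omega
  have hBR : B ⊆ bx (R + 1) := fun x hx => by
    have h3 := hM x hx
    rw [mem_bx]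
    push_cast
    omega
  rw [Function.comp_apply, E2_eq_EN hBR hB]
  exact EN_le hDR hf

theorem measurable_neg' : Measurable A.neg := by
  refine measurable_pi_lambda _ fun x => ?_
  have : (fun ω : Om => A.neg ω x) = (fun p : Bool × Bool => (p.1, !p.2)) ∘ fun ω : Om => ω x := rfl
  rw [this]
  exact (Measurable.of_discrete).comp (measurable_pi_apply x)

/-- Local functions of the pairs are measurable. -/
theorem loc_meas' {B : Finset Pt} {F : Om → ℝ} (hF : A.Loc B F) : Measurable F := by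
  classical
  have h1 : F = (fun u : B → Bool × Bool => F fun x => if h : x ∈ B then u ⟨x, h⟩ else (true, true)) ∘
      fun (ω : Om) (x : B) => ω x := by
    funext ω
    refine hF _ _ fun x hx => ?_
    simp [hx]
  rw [h1]
  exact (Measurable.of_discrete).comp (measurable_pi_lambda _ fun x => measurable_pi_apply _)

theorem loc_meas {B : Finset Pt} {f : Sp → ℝ} (hf : A.Loc B f) :
    Measurable fun ω : Om => f fun x => (ω x).2 :=
  loc_meas' (B := B) fun ω ω' h => hf _ _ fun x hx => by rw [h x hx]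

/-- The law of `-τ` is dominated by the law of `τ`. -/
theorem dom_neg (hsym : S_sym) {Q : Measure Om} (hQ : IsQ Q) {B : Finset Pt} {f : Sp → ℝ}
    (hf : Monotone f) (hB : A.Loc B f) :
    ∫ ω, f (fun x => !(tau ω x)) ∂Q ≤ ∫ ω, f (tau ω) ∂Q := by
  have hg : Monotone fun t : Sp => -f fun x => !(t x) := by
    intro a b hab
    refine neg_le_neg (hf fun x => ?_)
    have h1 : a x ≤ b x := hab x
    have h3 : ∀ u v : Bool, u ≤ v → (!v) ≤ !u := by decide
    exact h3 _ _ h1
  have hgB : A.Loc B fun t : Sp => -f fun x => !(t x) := fun ω ω' h => by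
    dsimp only
    rw [hB _ _ fun x hx => by rw [h x hx]]
  have h1 := dom_sigma hQ hg hgB
  rw [integral_neg, integral_neg, neg_le_neg_iff] at h1
  refine h1.trans ?_
  have h2 : ∫ ω, f (fun x => !((fun x => (ω x).2) x)) ∂Q = ∫ ω, f (fun x => (ω x).2) ∂Q := by
    conv_rhs => rw [← (hsym Q hQ).2.1]
    rw [integral_map]
    · rfl
    · exact (measurable_neg').aemeasurable
    · exact (loc_meas hB).aestronglyMeasurable
  rw [h2]
  exact dom_sigma hQ hf hB

end Vale.Agent.P153.F.RSW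
end
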