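import Mathlib
import Vale.Agent.P153.Bd5.B4
import Vale.Agent.P153.Bd5.B13
import Vale.Agent.P153.Bd5.B16
import Vale.Agent.P153.Bd5.B2

set_option linter.all false

section

/-!
# P153, block (D): statement (P4)

Owner: helper442.
-/

open MeasureTheory ProbabilityTheory Filter Topology Set
open scoped ENNReal Real

namespace Vale.Agent.P153.TwoPt

namespace Cn

variable {V : ℤ → ℤ → ℝ} {m : Kernel ℝ ℝ} {c κ C k0 : ℝ}

lemma Good.Bi_eq {k : ℝ} (hG : Good m C k) (K : ℕ) :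
    (Bi m K k).toReal = ∫ τ, (1 - τ ^ (2 * K)) / (1 - τ ^ 2) ∂(m k) := by
  refine (integral_eq_lintegral_of_nonneg_ae ?_ (by
    exact (by fun_prop : Measurable fun τ : ℝ =>
      (1 - τ ^ (2 * K)) / (1 - τ ^ 2)).aestronglyMeasurable)).symm
  filter_upwards [hG.supp] with τ hτ
  exact phi_nonneg hτ.1 hτ.2 K

lemma Good.integrable_phi {k : ℝ} (hG : Good m C k) (K : ℕ) :
    Integrable (fun τ : ℝ => (1 - τ ^ (2 * K)) / (1 - τ ^ 2)) (m k) :=
  hG.integrable_bdd (by fun_prop) K fun τ h0 h1 => by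
    rw [abs_of_nonneg (phi_nonneg h0 h1 K)]; exact phi_le h0 h1 K

lemma upper (hS : Spec V m c κ C k0) {ε : ℝ} (hε : 0 < ε) : ∃ D > 0, ∃ η > 0, ∀ K : ℕ,
    ∀ᵐ k : ℝ, |k| < η → (Bi m K k).toReal ≤ K * (κ + ε) + D := by
  have hC := hS.C_pos
  have hκ := hS.κ_nonneg
  obtain ⟨η1, hη1, h1⟩ := hS.lim (ε / 8) (by positivity)
  set θ := η1 / 2 with hθ
  have hθ0 : 0 < θ := by positivity
  set ρ := min 1 (ε / (8 * (κ + 1))) with hρ
  have hρ0 : 0 < ρ := lt_min one_pos (by positivity)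
  have hρ1 : ρ ≤ 1 := min_le_left _ _
  have hρκ : ρ * κ ≤ ε / 8 := by
    calc ρ * κ ≤ ε / (8 * (κ + 1)) * (κ + 1) := by
          gcongr
          · exact min_le_right _ _
          · linarith
      _ = ε / 8 := by field_simp
  set δ := ρ * θ with hδ
  have hδ0 : 0 < δ := by positivity
  refine ⟨C / δ, by positivity, min k0 η1, lt_min hS.k0_pos hη1, fun K => ?_⟩
  have h0 : ∀ᵐ k : ℝ, k ≠ 0 := by
    rw [ae_iff]; simp
  filter_upwards [ae_good hS, h1, h0] with k hg g1 hk0 hk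
  simp only [lt_min_iff] at hk
  have hG := hg hk.1 hk0
  have hfin := hG.fin
  have f1 := (abs_le.mp (g1 hk.2 hk0 θ (by rw [abs_of_pos hθ0, hθ]; linarith))).2
  have i1 : Integrable (fun τ => K * (1 + ρ) * ((c ^ 2 * k ^ 2 + θ ^ 2) * (1 / den τ θ))) (m k) :=
    ((hG.integrable_den θ).const_mul _).const_mul _
  have key : ∫ τ, (1 - τ ^ (2 * K)) / (1 - τ ^ 2) ∂(m k) ≤
      ∫ τ, (K * (1 + ρ) * ((c ^ 2 * k ^ 2 + θ ^ 2) * (1 / den τ θ)) + 1 / δ) ∂(m k) := by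
    refine integral_mono_ae (hG.integrable_phi K) (i1.add (integrable_const _)) ?_
    filter_upwards [hG.supp] with τ hτ
    have hd0 := den_pos hτ.1 hτ.2 θ
    have hd1 := den_le hτ.1 hτ.2 θ
    have hu : 0 < 1 - τ := by linarith [hτ.2]
    show (1 - τ ^ (2 * K)) / (1 - τ ^ 2) ≤
      K * (1 + ρ) * ((c ^ 2 * k ^ 2 + θ ^ 2) * (1 / den τ θ)) + 1 / δ
    rcases le_or_gt (1 - τ) δ with h | h
    · have h3 : (1 - τ) ^ 2 ≤ ρ * θ ^ 2 := by
        calc (1 - τ) ^ 2 ≤ δ ^ 2 := by gcongr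
          _ = ρ * (ρ * θ ^ 2) := by rw [hδ]; ring
          _ ≤ 1 * (ρ * θ ^ 2) := by gcongr
          _ = ρ * θ ^ 2 := one_mul _
      have h4 : 1 ≤ (1 + ρ) * ((c ^ 2 * k ^ 2 + θ ^ 2) * (1 / den τ θ)) := by
        rw [mul_one_div, mul_div_assoc', le_div_iff₀ hd0, one_mul]
        calc den τ θ ≤ (1 - τ) ^ 2 + θ ^ 2 := hd1
          _ ≤ ρ * θ ^ 2 + θ ^ 2 := by linarith
          _ = (1 + ρ) * θ ^ 2 := by ring
          _ ≤ (1 + ρ) * (c ^ 2 * k ^ 2 + θ ^ 2) := by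
              have : 0 ≤ c ^ 2 * k ^ 2 := by positivity
              gcongr
              linarith
      calc (1 - τ ^ (2 * K)) / (1 - τ ^ 2) ≤ K := phi_le hτ.1 hτ.2 K
        _ = K * 1 := (mul_one _).symm
        _ ≤ K * ((1 + ρ) * ((c ^ 2 * k ^ 2 + θ ^ 2) * (1 / den τ θ))) := by gcongr
        _ = K * (1 + ρ) * ((c ^ 2 * k ^ 2 + θ ^ 2) * (1 / den τ θ)) := by ring
        _ ≤ _ := by have : 0 ≤ 1 / δ := by positivity
                    linarith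
    · have h5 : 1 / (1 - τ) ≤ 1 / δ := one_div_le_one_div_of_le hδ0 h.le
      have h6 := phi_le' hτ.1 hτ.2 K
      have h7 : 0 ≤ K * (1 + ρ) * ((c ^ 2 * k ^ 2 + θ ^ 2) * (1 / den τ θ)) := by positivity
      linarith
  rw [integral_add i1 (integrable_const _), integral_const_mul, integral_const_mul,
    integral_const, smul_eq_mul, ← hG.Bi_eq K] at key
  have h8 := hG.real_le hC.le
  calc (Bi m K k).toReal ≤ _ := key
    _ ≤ K * (1 + ρ) * (κ + ε / 8) + C * (1 / δ) := by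
        gcongr
        linarith
    _ ≤ K * (κ + ε) + C / δ := by
        rw [mul_one_div]
        have h9 : (1 + ρ) * (κ + ε / 8) ≤ κ + ε := by nlinarith
        have h10 : (0 : ℝ) ≤ K := Nat.cast_nonneg K
        nlinarith

lemma lower (hS : Spec V m c κ C k0) {ε : ℝ} (hε : 0 < ε) (K : ℕ) : ∃ η > 0,
    ∀ᵐ k : ℝ, |k| < η → K * (κ - ε) ≤ (Bi m K k).toReal := by
  have hC := hS.C_pos
  have hc := hS.c_pos
  have hκ := hS.κ_nonneg
  obtain ⟨η1, hη1, h1⟩ := conc_b hS one_pos (ε := ε / 2) (by positivity)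
  set ρ := min 1 (ε / (2 * (κ + 1))) with hρ
  have hρ0 : 0 < ρ := lt_min one_pos (by positivity)
  have hρ1 : ρ ≤ 1 := min_le_left _ _
  have hρκ : ρ * κ ≤ ε / 2 := by
    calc ρ * κ ≤ ε / (2 * (κ + 1)) * (κ + 1) := by
          gcongr
          · exact min_le_right _ _
          · linarith
      _ = ε / 2 := by field_simp
  have hD : 0 < 2 * (K + 1) * (c + 1) := by positivity
  refine ⟨min k0 (min η1 (ρ / (2 * (K + 1) * (c + 1)))), lt_min hS.k0_pos (lt_min hη1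
    (by positivity)), ?_⟩
  have h0 : ∀ᵐ k : ℝ, k ≠ 0 := by
    rw [ae_iff]; simp
  filter_upwards [ae_good hS, h1, h0] with k hg g1 hk0 hk
  simp only [lt_min_iff] at hk
  obtain ⟨hka, hkb, hkc⟩ := hk
  rw [lt_div_iff₀ hD] at hkc
  have hG := hg hka hk0
  have hfin := hG.fin
  have hkp : 0 < |k| := abs_pos.mpr hk0
  have f1 := (abs_le.mp (g1 hkb hk0)).1
  have h3 := hG.mul_real_le (measurableSet_near 1 c k) (hG.integrable_phi K)
    (fun τ h0 h1 => phi_nonneg h0 h1 K) (w := K * (1 - ρ)) (by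
      intro τ hτ h0 h1
      have hτ' : abs ((1 - τ) - c * abs k) < 1 * |k| := hτ
      have h4 := (abs_lt.mp hτ').2
      refine le_trans ?_ (phi_ge h0 h1 K)
      have h5 : 2 * K * (1 - τ) ≤ ρ := by
        have h6 : 1 - τ ≤ (c + 1) * |k| := by linarith
        calc 2 * K * (1 - τ) ≤ 2 * K * ((c + 1) * |k|) := by gcongr
          _ ≤ 2 * (K + 1) * ((c + 1) * |k|) := by gcongr; linarith
          _ = |k| * (2 * (K + 1) * (c + 1)) := by ring
          _ ≤ ρ := hkc.le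
      gcongr)
  rw [← hG.Bi_eq K] at h3
  refine le_trans ?_ h3
  have h4 : (1 - ρ) * (κ - ε / 2) ≤ (1 - ρ) *
      (m k).real {τ | abs ((1 - τ) - c * abs k) < 1 * |k|} := by
    have : 0 ≤ 1 - ρ := by linarith
    gcongr
    linarith
  have h5 : κ - ε ≤ (1 - ρ) * (κ - ε / 2) := by nlinarith
  calc K * (κ - ε) ≤ K * ((1 - ρ) * (m k).real {τ | abs ((1 - τ) - c * abs k) < 1 * |k|}) := by
        gcongr
        exact h5.trans h4
    _ = _ := by ring

end Cn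

open Cn in
theorem p4 : P4Statement := by
  intro V m c κ C k0 hS hpos
  have hκ := hS.κ_nonneg
  have hcc : ∀ K, CK V K = cc (fun k => (Bi m K k).toReal) := fun K => funext (CK_eq hS K)
  have hF0 : ∀ K : ℕ, ∀ᵐ k : ℝ, |k| ≤ π → 0 ≤ (Bi m K k).toReal :=
    fun K => Eventually.of_forall fun k _ => ENNReal.toReal_nonneg
  have hpi : (1 : ℝ) ≤ π := by linarith [Real.pi_gt_three]
  rw [Metric.tendsto_atTop]
  intro ε hε
  obtain ⟨D, hD, η, hη, hup⟩ := upper hS (ε := ε / 4) (by positivity)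
  obtain ⟨N, hN⟩ := exists_nat_gt (D / (ε / 4))
  refine ⟨max N 1, fun K hK => ?_⟩
  have hK1 : 0 < K := lt_of_lt_of_le one_pos ((le_max_right _ _).trans hK)
  have hK1' : (0 : ℝ) < K := by exact_mod_cast hK1
  have hKN : (N : ℝ) ≤ K := by exact_mod_cast (le_max_left _ _).trans hK
  have hpos' : ∀ z, 0 ≤ cc (fun k => (Bi m K k).toReal) z := fun z => by
    rw [← CK_eq hS K z]; exact hpos K hK1 z
  have hDK : D ≤ K * (ε / 4) := by
    rw [div_lt_iff₀ (by positivity)] at hN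
    calc D ≤ N * (ε / 4) := hN.le
      _ ≤ K * (ε / 4) := by gcongr
  have hs : Summable (cc fun k => (Bi m K k).toReal) := by
    have := p3 V m c κ C k0 hS K hK1 (hpos K hK1)
    rwa [hcc K] at this
  have hU : ∑' z, CK V K z ≤ K * (κ + ε / 4) + D := by
    rw [hcc K]
    refine tsum_cc_le (int_B hS K) (hF0 K) (η := min η 1) (lt_min hη one_pos)
      ((min_le_right _ _).trans hpi) (by positivity) ?_ hpos'
    filter_upwards [hup K] with k hk hk1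
    exact hk (lt_of_lt_of_le hk1 (min_le_left _ _))
  have hL : K * (κ - ε / 4) ≤ ∑' z, CK V K z := by
    rw [hcc K]
    obtain ⟨η', hη', hlow⟩ := lower hS (ε := ε / 4) (by positivity) K
    refine le_trans (le_max_left _ 0) (le_tsum_cc (int_B hS K) (hF0 K) (η := min η' 1)
      (lt_min hη' one_pos) ((min_le_right _ _).trans hpi) (le_max_right _ _) ?_ hpos' hs)
    filter_upwards [hlow] with k hk hk1
    exact max_le (hk (lt_of_lt_of_le hk1 (min_le_left _ _))) ENNReal.toReal_nonneg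
  rw [Real.dist_eq, abs_lt]
  constructor
  · rw [lt_sub_iff_add_lt, lt_div_iff₀ hK1']
    nlinarith
  · rw [sub_lt_iff_lt_add, div_lt_iff₀ hK1']
    nlinarith

end Vale.Agent.P153.TwoPt
end

section

/-!
# P153, block (D): statement (P6), the conditional mean of the increment is negligible
-/

open MeasureTheory ProbabilityTheory Filter Topology Set
open scoped ENNReal Real

namespace Vale.Agent.P153.TwoPt

namespace P6

open Cn

/-- `∫ (1-τ^j)/(1-τ²) dm_k`. -/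
noncomputable def Bj (m : Kernel ℝ ℝ) (j : ℕ) (k : ℝ) : ℝ≥0∞ :=
  ∫⁻ τ, ENNReal.ofReal ((1 - τ ^ j) / (1 - τ ^ 2)) ∂(m k)

lemma Bj_measurable (m : Kernel ℝ ℝ) (j : ℕ) : Measurable (Bj m j) :=
  Measurable.lintegral_kernel (by fun_prop)

lemma one_sub_pow_le {τ : ℝ} (h0 : 0 ≤ τ) (j : ℕ) : 1 - τ ^ j ≤ j * (1 - τ) := by
  have := one_add_mul_le_pow (a := τ - 1) (by linarith) j
  have h2 : 1 + (τ - 1) = τ := by ring
  rw [h2] at this
  linarith only [this]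

lemma one_sub_pow_nonneg {τ : ℝ} (h0 : 0 ≤ τ) (h1 : τ < 1) (j : ℕ) : 0 ≤ 1 - τ ^ j :=
  sub_nonneg.2 (pow_le_one₀ h0 h1.le)

lemma sq_pos' {τ : ℝ} (h0 : 0 ≤ τ) (h1 : τ < 1) : 0 < 1 - τ ^ 2 := by nlinarith

lemma one_sub_le {τ : ℝ} (h0 : 0 ≤ τ) (h1 : τ < 1) : 1 - τ ≤ 1 - τ ^ 2 := by nlinarith

lemma phi_nonneg {τ : ℝ} (h0 : 0 ≤ τ) (h1 : τ < 1) (j : ℕ) : 0 ≤ (1 - τ ^ j) / (1 - τ ^ 2) :=
  div_nonneg (one_sub_pow_nonneg h0 h1 j) (sq_pos' h0 h1).le

lemma phi_le {τ : ℝ} (h0 : 0 ≤ τ) (h1 : τ < 1) (j : ℕ) : (1 - τ ^ j) / (1 - τ ^ 2) ≤ j := by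
  rw [div_le_iff₀ (sq_pos' h0 h1)]
  refine (one_sub_pow_le h0 j).trans ?_
  exact mul_le_mul_of_nonneg_left (one_sub_le h0 h1) (Nat.cast_nonneg _)

section

variable {V : ℤ → ℤ → ℝ} {m : Kernel ℝ ℝ} {c κ C k0 : ℝ}

lemma int_inv {k : ℝ} (hsupp : ∀ᵐ τ ∂(m k), 0 ≤ τ ∧ τ < 1) (hA : Ai m k < ⊤) :
    Integrable (fun τ : ℝ => 1 / (1 - τ ^ 2)) (m k) := by
  have hm1 : Measurable fun τ : ℝ => 1 / (1 - τ ^ 2) := by fun_prop
  have hn1 : 0 ≤ᵐ[m k] fun τ : ℝ => 1 / (1 - τ ^ 2) := by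
    filter_upwards [hsupp] with τ hτ
    have := sq_pos' hτ.1 hτ.2
    simp only [Pi.zero_apply]
    positivity
  exact ⟨hm1.aestronglyMeasurable, by rw [hasFiniteIntegral_iff_ofReal hn1]; exact hA⟩

lemma int_phi {k : ℝ} (hsupp : ∀ᵐ τ ∂(m k), 0 ≤ τ ∧ τ < 1) (hA : Ai m k < ⊤) (j : ℕ) :
    Integrable (fun τ : ℝ => (1 - τ ^ j) / (1 - τ ^ 2)) (m k) := by
  have hm2 : Measurable fun τ : ℝ => (1 - τ ^ j) / (1 - τ ^ 2) := by fun_prop
  refine (int_inv hsupp hA).mono' hm2.aestronglyMeasurable ?_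
  filter_upwards [hsupp] with τ hτ
  rw [Real.norm_eq_abs, abs_of_nonneg (phi_nonneg hτ.1 hτ.2 j)]
  have := sq_pos' hτ.1 hτ.2
  have h4 : 0 ≤ τ ^ j := pow_nonneg hτ.1 _
  gcongr
  linarith

lemma Bj_toReal {k : ℝ} (hsupp : ∀ᵐ τ ∂(m k), 0 ≤ τ ∧ τ < 1) (j : ℕ) :
    (Bj m j k).toReal = ∫ τ, (1 - τ ^ j) / (1 - τ ^ 2) ∂(m k) := by
  have hm2 : Measurable fun τ : ℝ => (1 - τ ^ j) / (1 - τ ^ 2) := by fun_prop
  refine (integral_eq_lintegral_of_nonneg_ae ?_ hm2.aestronglyMeasurable).symm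
  filter_upwards [hsupp] with τ hτ
  exact phi_nonneg hτ.1 hτ.2 j

lemma inner_eqj {k : ℝ} (hsupp : ∀ᵐ τ ∂(m k), 0 ≤ τ ∧ τ < 1) (hA : Ai m k < ⊤) (a : ℝ) (j : ℕ) :
    ∫ τ, (1 - a * τ ^ j) / (1 - τ ^ 2) ∂(m k) =
      (1 - a) * (Ai m k).toReal + a * (Bj m j k).toReal := by
  have hm1 : Measurable fun τ : ℝ => 1 / (1 - τ ^ 2) := by fun_prop
  have hn1 : 0 ≤ᵐ[m k] fun τ : ℝ => 1 / (1 - τ ^ 2) := by
    filter_upwards [hsupp] with τ hτ
    have := sq_pos' hτ.1 hτ.2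
    simp only [Pi.zero_apply]
    positivity
  have e1 : (Ai m k).toReal = ∫ τ, 1 / (1 - τ ^ 2) ∂(m k) :=
    (integral_eq_lintegral_of_nonneg_ae hn1 hm1.aestronglyMeasurable).symm
  rw [e1, Bj_toReal hsupp, ← integral_const_mul, ← integral_const_mul,
    ← integral_add ((int_inv hsupp hA).const_mul _) ((int_phi hsupp hA j).const_mul _)]
  refine integral_congr_ae ?_
  filter_upwards [hsupp] with τ hτ
  have : 1 - τ ^ 2 ≠ 0 := (sq_pos' hτ.1 hτ.2).ne'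
  field_simp
  ring

lemma Bj_le {k : ℝ} (hG : Good m C k) (hC : 0 ≤ C) (j : ℕ) : (Bj m j k).toReal ≤ j * C := by
  refine ENNReal.toReal_le_of_le_ofReal (by positivity) ?_
  calc Bj m j k ≤ ∫⁻ _, ENNReal.ofReal j ∂(m k) := by
        refine lintegral_mono_ae ?_
        filter_upwards [hG.supp] with τ hτ
        exact ENNReal.ofReal_le_ofReal (phi_le hτ.1 hτ.2 j)
    _ = ENNReal.ofReal j * m k univ := lintegral_const _
    _ ≤ ENNReal.ofReal j * ENNReal.ofReal C := by gcongr; exact hG.mass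
    _ = ENNReal.ofReal (j * C) := (ENNReal.ofReal_mul (by positivity)).symm

lemma int_Bj (hS : Spec V m c κ C k0) (j : ℕ) :
    IntegrableOn (fun k => (Bj m j k).toReal) (Icc (-π) π) := by
  have hk0π : k0 ≤ π := hS.k0_le.trans (by linarith [Real.pi_gt_three])
  have hcos := Cn.one_sub_cos_pos hS.k0_pos hk0π
  have hi : IntegrableOn (fun _ : ℝ => (j : ℝ) * C) (Icc (-π) π) :=
    continuous_const.integrableOn_Icc
  refine Integrable.mono' (hi.add ((int_g hS).const_mul (1 / (1 - Real.cos k0))))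
    (Bj_measurable m j).ennreal_toReal.aestronglyMeasurable ?_
  rw [ae_restrict_iff' measurableSet_Icc]
  have h0 : ∀ᵐ k : ℝ, k ≠ 0 := by
    rw [ae_iff]; simp
  filter_upwards [ae_good hS, ae_Ai_lt hS, hS.supp, h0] with k hg hA hs hk0 hk
  have hkπ : |k| ≤ π := abs_le.mpr ⟨hk.1, hk.2⟩
  rw [Real.norm_eq_abs, abs_of_nonneg ENNReal.toReal_nonneg]
  have h3 : 0 ≤ (Ai m k).toReal := ENNReal.toReal_nonneg
  have h4 : 0 ≤ 1 - Real.cos k := by linarith [Real.cos_le_one k]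
  show (Bj m j k).toReal ≤ j * C + 1 / (1 - Real.cos k0) * ((1 - Real.cos k) * (Ai m k).toReal)
  rcases lt_or_ge |k| k0 with h | h
  · have := Bj_le (hg h hk0) hS.C_pos.le j
    have : 0 ≤ 1 / (1 - Real.cos k0) * ((1 - Real.cos k) * (Ai m k).toReal) := by (clear * - hcos h4; positivity)
    linarith
  · have h5 : Real.cos k ≤ Real.cos k0 := by
      rw [← Real.cos_abs k]
      exact Real.cos_le_cos_of_nonneg_of_le_pi hS.k0_pos.le hkπ h
    have h6 : (Bj m j k).toReal ≤ (Ai m k).toReal := by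
      refine ENNReal.toReal_mono (hA hkπ hk0).ne ?_
      refine lintegral_mono_ae ?_
      filter_upwards [hs] with τ hτ
      refine ENNReal.ofReal_le_ofReal ?_
      have := sq_pos' hτ.1 hτ.2
      have h4 : 0 ≤ τ ^ j := pow_nonneg hτ.1 _
      gcongr
      linarith only [h4]
    have h7 : (Ai m k).toReal ≤ 1 / (1 - Real.cos k0) * ((1 - Real.cos k) * (Ai m k).toReal) := by
      rw [one_div_mul_eq_div, le_div_iff₀ hcos, mul_comm]
      (clear * - h5; gcongr)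
    have : 0 ≤ j * C := by have := hS.C_pos; (clear * - this; positivity)
    linarith only [h6, h7, this]

lemma V_eqj (hS : Spec V m c κ C k0) (j : ℕ) (z : ℤ) :
    V (j : ℤ) z = (1 / π) * ((∫ k in Icc (-π) π, (1 - Real.cos (k * z)) * (Ai m k).toReal) +
      ∫ k in Icc (-π) π, Real.cos (k * z) * (Bj m j k).toReal) := by
  rw [hS.rep, ← integral_add (int_A hS z) (integrableOn_cos_mul (int_Bj hS j) z)]
  congr 1
  refine setIntegral_congr_ae measurableSet_Icc ?_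
  have h0 : ∀ᵐ k : ℝ, k ≠ 0 := by
    rw [ae_iff]; simp
  filter_upwards [ae_Ai_lt hS, hS.supp, h0] with k hA hs hk0 hk
  have hkπ : |k| ≤ π := abs_le.mpr ⟨hk.1, hk.2⟩
  rw [Int.natAbs_natCast]
  exact inner_eqj hs (hA hkπ hk0) _ j

lemma Bj_zero (k : ℝ) : Bj m 0 k = 0 := by
  unfold Bj; simp only [pow_zero, sub_self, zero_div, ENNReal.ofReal_zero, lintegral_const, zero_mul]

/-- the density. -/
noncomputable def FK (m : Kernel ℝ ℝ) (K : ℕ) (k : ℝ) : ℝ :=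
  2 * (Bj m K k).toReal - (Bj m (2 * K) k).toReal

lemma int_FK (hS : Spec V m c κ C k0) (K : ℕ) : IntegrableOn (FK m K) (Icc (-π) π) :=
  ((int_Bj hS K).const_mul 2).sub (int_Bj hS (2 * K))

lemma TK_eq (hS : Spec V m c κ C k0) (K : ℕ) (z : ℤ) : TK V K z = cc (FK m K) z := by
  have h1 := V_eqj hS K z
  have h2 := V_eqj hS (2 * K) z
  have h3 := V_eqj hS 0 z
  simp only [Bj_zero, ENNReal.toReal_zero, mul_zero, integral_zero, add_zero] at h3
  push_cast at h2 h3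
  unfold TK cc FK
  rw [h1, h2, h3]
  have e : ∫ k in Icc (-π) π, Real.cos (k * z) * (2 * (Bj m K k).toReal - (Bj m (2 * K) k).toReal) =
      2 * (∫ k in Icc (-π) π, Real.cos (k * z) * (Bj m K k).toReal) -
        ∫ k in Icc (-π) π, Real.cos (k * z) * (Bj m (2 * K) k).toReal := by
    rw [← integral_const_mul, ← integral_sub ((integrableOn_cos_mul (int_Bj hS K) z).const_mul 2)
      (integrableOn_cos_mul (int_Bj hS (2 * K)) z)]
    refine integral_congr_ae (Eventually.of_forall fun k => ?_)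
    simp only
    ring
  rw [e]
  generalize (∫ k in Icc (-π) π, (1 - Real.cos (k * z)) * (Ai m k).toReal) = I0
  generalize (∫ k in Icc (-π) π, Real.cos (k * z) * (Bj m K k).toReal) = I1
  generalize (∫ k in Icc (-π) π, Real.cos (k * z) * (Bj m (2 * K) k).toReal) = I2
  have : π ≠ 0 := Real.pi_ne_zero
  field_simp
  ring

lemma FK_eq {k : ℝ} (hsupp : ∀ᵐ τ ∂(m k), 0 ≤ τ ∧ τ < 1) (hA : Ai m k < ⊤) (K : ℕ) :
    FK m K k = ∫ τ, (1 - τ ^ K) ^ 2 / (1 - τ ^ 2) ∂(m k) := by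
  unfold FK
  rw [Bj_toReal hsupp, Bj_toReal hsupp, ← integral_const_mul,
    ← integral_sub ((int_phi hsupp hA K).const_mul 2) (int_phi hsupp hA (2 * K))]
  refine integral_congr_ae (Eventually.of_forall fun τ => ?_)
  simp only
  ring

lemma FK_nonneg {k : ℝ} (hsupp : ∀ᵐ τ ∂(m k), 0 ≤ τ ∧ τ < 1) (hA : Ai m k < ⊤) (K : ℕ) :
    0 ≤ FK m K k := by
  rw [FK_eq hsupp hA]
  refine integral_nonneg_of_ae ?_
  filter_upwards [hsupp] with τ hτ
  have := sq_pos' hτ.1 hτ.2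
  simp only [Pi.zero_apply]
  (clear * - this; positivity)

lemma FK_le {k : ℝ} (hG : Good m C k) (hC : 0 ≤ C) (hA : Ai m k < ⊤) {A η ε' : ℝ} (hA0 : 0 ≤ A)
    (hη : 0 < η) (hε : 0 ≤ ε')
    (hmid : m k {τ | A * |k| < 1 - τ ∧ 1 - τ < η} ≤ ENNReal.ofReal ε') (K : ℕ) :
    FK m K k ≤ (K ^ 2 * (A * |k|) + 1 / η) * C + K * ε' := by
  have := hG.fin
  rw [FK_eq hG.supp hA]
  set S := {τ : ℝ | A * |k| < 1 - τ ∧ 1 - τ < η} with hS
  have hSm : MeasurableSet S := measurableSet_mid _ _ _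
  have hi : Integrable (S.indicator fun _ => (K : ℝ)) (m k) := (integrable_const _).indicator hSm
  have h1 : ∫ τ, (1 - τ ^ K) ^ 2 / (1 - τ ^ 2) ∂(m k) ≤
      ∫ τ, ((K ^ 2 * (A * |k|) + 1 / η) + S.indicator (fun _ => (K : ℝ)) τ) ∂(m k) := by
    refine integral_mono_of_nonneg ?_ ((integrable_const _).add hi) ?_
    · filter_upwards [hG.supp] with τ hτ
      have := sq_pos' hτ.1 hτ.2
      simp only [Pi.zero_apply]
      (clear * - this; positivity)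
    · filter_upwards [hG.supp] with τ hτ
      have hp := sq_pos' hτ.1 hτ.2
      have hp1 : 0 < 1 - τ := by linarith only [hτ]
      have hn := one_sub_pow_nonneg hτ.1 hτ.2 K
      have hb := one_sub_pow_le hτ.1 K
      have hle := one_sub_le hτ.1 hτ.2
      have t1 : 0 ≤ (K : ℝ) ^ 2 * (A * |k|) := by (clear * - hA0; positivity)
      have t2 : 0 ≤ 1 / η := by positivity
      have t3 : 0 ≤ S.indicator (fun _ => (K : ℝ)) τ :=
        indicator_nonneg (fun _ _ => Nat.cast_nonneg _) _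
      have hone : 1 - τ ^ K ≤ 1 := by
        have := pow_nonneg hτ.1 K
        linarith only [this]
      rcases le_or_gt (1 - τ) (A * |k|) with h | h
      · have : (1 - τ ^ K) ^ 2 / (1 - τ ^ 2) ≤ K ^ 2 * (A * |k|) := by
          rw [div_le_iff₀ hp]
          calc (1 - τ ^ K) ^ 2 ≤ (K * (1 - τ)) ^ 2 := by (clear * - hn hb; gcongr)
            _ = K ^ 2 * ((1 - τ) * (1 - τ)) := by ring
            _ ≤ K ^ 2 * ((A * |k|) * (1 - τ ^ 2)) := by (clear * - h hle hp1 hA0; gcongr)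
            _ = _ := by ring
        linarith only [t2, t3, this]
      · rcases lt_or_ge (1 - τ) η with h' | h'
        · have hmem : τ ∈ S := ⟨h, h'⟩
          rw [indicator_of_mem hmem]
          have : (1 - τ ^ K) ^ 2 / (1 - τ ^ 2) ≤ K := by
            rw [div_le_iff₀ hp]
            calc (1 - τ ^ K) ^ 2 = (1 - τ ^ K) * (1 - τ ^ K) := by ring
              _ ≤ 1 * (K * (1 - τ)) := by (clear * - hone hb hn; gcongr)
              _ ≤ 1 * (K * (1 - τ ^ 2)) := by (clear * - hle; gcongr)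
              _ = _ := by ring
          linarith only [t1, t2, this]
        · have : (1 - τ ^ K) ^ 2 / (1 - τ ^ 2) ≤ 1 / η := by
            calc (1 - τ ^ K) ^ 2 / (1 - τ ^ 2) ≤ 1 / (1 - τ ^ 2) := by
                  gcongr
                  exact pow_le_one₀ hn hone
              _ ≤ 1 / η := one_div_le_one_div_of_le hη (h'.trans hle)
          linarith only [t1, t3, this]
  refine h1.trans ?_
  rw [integral_add (integrable_const _) hi, integral_const, integral_indicator_const _ hSm,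
    smul_eq_mul, smul_eq_mul]
  have h2 : (m k).real S ≤ ε' := ENNReal.toReal_le_of_le_ofReal hε hmid
  have h3 := hG.real_le hC
  have t : 0 ≤ (K : ℝ) ^ 2 * (A * |k|) + 1 / η := by (clear * - hA0 hη; positivity)
  have h4 := mul_le_mul_of_nonneg_left h3 t
  have h5 := mul_le_mul_of_nonneg_left h2 (Nat.cast_nonneg K : (0 : ℝ) ≤ K)
  linarith only [h4, h5]

end

end P6

open P6 Cn in
theorem p6 : P6Statement := by
  intro V m c κ C k0 hS ε hε
  have hC := hS.C_pos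
  have hpi := Real.pi_gt_three
  obtain ⟨-, -, h3⟩ := conc V m c κ C k0 hS
  obtain ⟨A, hA, η, hη, η', hη', hmid⟩ := h3 (ε / 4) (by positivity)
  obtain ⟨K0, hK0⟩ := exists_nat_gt (4 * C / (η * ε))
  refine ⟨K0 + 1, fun K hK => ?_⟩
  have hKpos : (0 : ℝ) < K := by
    have : 0 < K := by omega
    exact_mod_cast this
  have hKb : C / η ≤ ε / 4 * K := by
    have h1 : 4 * C / (η * ε) < K := hK0.trans (by
      have : K0 < K := by omega
      exact_mod_cast this)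
    rw [div_lt_iff₀ (by positivity)] at h1
    rw [div_le_iff₀ hη]
    linarith only [h1]
  -- small momenta
  set δ : ℝ := min (min k0 η') (ε / (4 * (K * A * C))) with hδ
  have hδ0 : 0 < δ := lt_min (lt_min hS.k0_pos hη') (by (clear * - hε hKpos hA hC; positivity))
  have hδπ : δ ≤ π := by
    have h1 : δ ≤ k0 := (min_le_left _ _).trans (min_le_left _ _)
    linarith only [hpi, h1, hS.k0_le]
  have h0 : ∀ᵐ k : ℝ, k ≠ 0 := by
    rw [ae_iff]; simp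
  have hF0 : ∀ᵐ k : ℝ, |k| ≤ π → 0 ≤ FK m K k := by
    filter_upwards [ae_Ai_lt hS, hS.supp, h0] with k hA' hs hk0 hk
    exact FK_nonneg hs (hA' hk hk0) K
  have hFb : ∀ᵐ k : ℝ, |k| < δ → FK m K k ≤ 3 / 4 * ε * K := by
    filter_upwards [ae_Ai_lt hS, ae_good hS, hmid, h0] with k hA' hg hm' hk0 hk
    have k1 : |k| < k0 := hk.trans_le ((min_le_left _ _).trans (min_le_left _ _))
    have k2 : |k| < η' := hk.trans_le ((min_le_left _ _).trans (min_le_right _ _))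
    have k3 : |k| < ε / (4 * (K * A * C)) := hk.trans_le (min_le_right _ _)
    have hb := FK_le (hg k1 hk0) hC.le (hA' (hk.le.trans hδπ) hk0) hA.le hη
      (by positivity : (0 : ℝ) ≤ ε / 4) (hm' k2 hk0) K
    rw [lt_div_iff₀ (by (clear * - hKpos hA hC; positivity))] at k3
    have e1 : (K ^ 2 * (A * |k|) + 1 / η) * C + K * (ε / 4) =
        K * (|k| * (4 * (K * A * C))) / 4 + C / η + K * (ε / 4) := by ring
    rw [e1] at hb
    have e2 : K * (|k| * (4 * (K * A * C))) ≤ K * ε := mul_le_mul_of_nonneg_left k3.le hKpos.le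
    linarith only [hKb, hb, e2]
  have hB0 : 0 ≤ 3 / 4 * ε * K := by (clear * - hε hKpos; positivity)
  have hmain := fun l => fej_int_le (int_FK hS K) hF0 hδ0 hδπ hB0 hFb l
  set cst : ℝ := 1 / (2 * π) * (2 / (1 - Real.cos δ)) * ∫ k in Icc (-π) π, FK m K k with hcst
  obtain ⟨l0, hl0⟩ := exists_nat_gt (cst / (ε / 4 * K))
  refine ⟨l0 + 1, fun l hl => ?_⟩
  have hlpos : (0 : ℝ) < l := by
    have : 0 < l := by omega
    exact_mod_cast this
  have hlb : cst ≤ ε / 4 * K * l := by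
    have h1 : cst / (ε / 4 * K) < l := hl0.trans (by
      have : l0 < l := by omega
      exact_mod_cast this)
    rw [div_lt_iff₀ (by (clear * - hε hKpos; positivity))] at h1
    linarith only [h1]
  have hsum : ∑ x ∈ Finset.range l, ∑ y ∈ Finset.range l, TK V K ((x : ℤ) - y) ≤
      l * (3 / 4 * ε * K) + cst := by
    simp_rw [TK_eq hS]
    rw [sum_cc_eq (int_FK hS K)]
    exact hmain l
  rw [one_div, inv_mul_le_iff₀ hlpos]
  linarith only [hlb, hsum]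

end Vale.Agent.P153.TwoPt
end

section

/-!
# The limit of the plane inequality: conclusion
-/

namespace Vale.Agent.P153.Asm

open MeasureTheory Filter Finset
open scoped Topology
open Vale.Agent.P153.CLT Vale.Agent.P153.TwoPt

lemma count {J C K l L Q Gm : ℝ} (hK : 0 < K) (hL : 0 < L) (hJ0 : 0 ≤ J * K) (hC0 : 0 ≤ C * l)
    (hJ : J * K ≤ Q * L) (hC : C * l ≤ Q * L) : J * C * (Gm / L) ^ 2 * l ≤ (Q * Gm) ^ 2 / K := by
  rw [le_div_iff₀ hK]
  have h1 : J * C * (Gm / L) ^ 2 * l * K = (J * K) * (C * l) * (Gm / L) ^ 2 := by ring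
  have h2 : (J * K) * (C * l) ≤ (Q * L) * (Q * L) :=
    mul_le_mul hJ hC hC0 (hJ0.trans hJ)
  rw [h1]
  refine (mul_le_mul_of_nonneg_right h2 (sq_nonneg _)).trans (le_of_eq ?_)
  have h0 := hL.ne'
  field_simp

lemma sqrt_count {J C L Q w : ℝ} (hL : 0 < L) (hQ : 0 ≤ Q)
    (hJ : J ≤ Q * L) (hC : C ≤ Q * L) :
    Real.sqrt J * (C * (w / L) ^ 2) ≤ Q * Real.sqrt Q * w ^ 2 / Real.sqrt L := by
  have hs : 0 < Real.sqrt L := Real.sqrt_pos.2 hL
  have h1 : Real.sqrt J ≤ Real.sqrt Q * Real.sqrt L := by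
    rw [← Real.sqrt_mul hQ]
    exact Real.sqrt_le_sqrt hJ
  have h2 : C * (w / L) ^ 2 ≤ Q * L * (w / L) ^ 2 := mul_le_mul_of_nonneg_right hC (sq_nonneg _)
  have h3 : 0 ≤ Q * L * (w / L) ^ 2 := by positivity
  calc Real.sqrt J * (C * (w / L) ^ 2) ≤ Real.sqrt J * (Q * L * (w / L) ^ 2) :=
        mul_le_mul_of_nonneg_left h2 (Real.sqrt_nonneg _)
    _ ≤ (Real.sqrt Q * Real.sqrt L) * (Q * L * (w / L) ^ 2) := mul_le_mul_of_nonneg_right h1 h3
    _ = Q * Real.sqrt Q * w ^ 2 / Real.sqrt L := by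
        have e : Real.sqrt L * Real.sqrt L = L := Real.mul_self_sqrt hL.le
        have h0 := hL.ne'
        rw [eq_div_iff hs.ne']
        field_simp
        have e2 : Real.sqrt L ^ 2 = L := by rw [sq]; exact e
        rw [e2]
        ring

section bounds

variable {V : ℤ → ℤ → ℝ} {K : ℕ} {g : ℝ × ℝ → ℝ} {Gm L Q : ℝ} {C : Finset ℤ} {l J : ℕ} {I0 : ℤ}

lemma vcross_bd (hK : 0 < K) (hl : 0 < l) (hf : ∀ z, 0 ≤ CK V K z) (hs : Summable (CK V K))
    (hL : 0 < L) (hg : ∀ z, |g z| ≤ Gm) (hJ : (J : ℝ) * K ≤ Q * L) (hC : (C.card : ℝ) * l ≤ Q * L) :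
    vcross (tV V) (bgeo K I0 C l) (bwt g L K I0 C l) J ≤ (Q * Gm) ^ 2 / K *
      (∑' z, CK V K z - 1 / (l : ℝ) * ∑ x ∈ range l, ∑ y ∈ range l, CK V K ((x : ℤ) - y)) := by
  have hK' : (0 : ℝ) < K := by exact_mod_cast hK
  have hl' : (0 : ℝ) < l := by exact_mod_cast hl
  have cnt := count (Gm := Gm) hK' hL (by positivity : 0 ≤ (J : ℝ) * K)
    (by positivity : 0 ≤ (C.card : ℝ) * l) hJ hC
  refine (vcross_le hf hs hL hg I0 C l J).trans ?_
  have h0 := Asm.cesaro_le hs hf l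
  have h1 : (J : ℝ) * C.card * (Gm / L) ^ 2 * (l * (∑' z, CK V K z) -
      ∑ x ∈ range l, ∑ y ∈ range l, CK V K ((x : ℤ) - y)) =
      (J * C.card * (Gm / L) ^ 2 * l) * ((∑' z, CK V K z) -
        1 / (l : ℝ) * ∑ x ∈ range l, ∑ y ∈ range l, CK V K ((x : ℤ) - y)) := by
    field_simp
  rw [h1]
  refine mul_le_mul_of_nonneg_right cnt ?_
  rw [sub_nonneg, one_div, inv_mul_le_iff₀ hl']
  exact h0

lemma vsq_bd (hK : 0 < K) (hf : ∀ z, 0 ≤ CK V K z) (hs : Summable (CK V K))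
    (hL : 0 < L) (hg : ∀ z, |g z| ≤ Gm) (hJ : (J : ℝ) * K ≤ Q * L) (hC : (C.card : ℝ) * l ≤ Q * L) :
    vsq (tV V) (bgeo K I0 C l) (bwt g L K I0 C l) J ≤ (Q * Gm) ^ 2 / K * ∑' z, CK V K z := by
  have hK' : (0 : ℝ) < K := by exact_mod_cast hK
  have cnt := count (Gm := Gm) hK' hL (by positivity : 0 ≤ (J : ℝ) * K)
    (by positivity : 0 ≤ (C.card : ℝ) * l) hJ hC
  refine (vsq_le hf hs hL hg I0 C l J).trans ?_
  rw [← mul_assoc]
  exact mul_le_mul_of_nonneg_right cnt (tsum_nonneg hf)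

lemma vdel_bd (hK : 0 < K) (hl : 0 < l) (hL : 0 < L) (hg : ∀ z, |g z| ≤ Gm)
    (hJ : (J : ℝ) * K ≤ Q * L) (hC : (C.card : ℝ) * l ≤ Q * L) {om Ti E : ℝ} (hE : 0 ≤ E)
    (hom0 : 0 ≤ om) (hTi0 : 0 ≤ Ti)
    (hom : ∀ u v v' : ℝ, |v - v'| ≤ l / L → |g (u, v) - g (u, v')| ≤ om)
    (hTi : ∀ z : ℤ, |z| < l → |TK V K z| ≤ Ti)
    (hTE : ∑ x ∈ range l, ∑ y ∈ range l, TK V K ((x : ℤ) - y) ≤ E) :
    vdel (tV V) (bgeo K I0 C l) (bwt g L K I0 C l) J ≤
      (Q * Gm) ^ 2 * (E / (K * l)) + om * (Q ^ 2 / K * (2 * Gm * l * Ti)) := by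
  have hK' : (0 : ℝ) < K := by exact_mod_cast hK
  have hl' : (0 : ℝ) < l := by exact_mod_cast hl
  have hGm0 : 0 ≤ Gm := (abs_nonneg _).trans (hg 0)
  have cnt := count (Gm := Gm) hK' hL (by positivity : 0 ≤ (J : ℝ) * K)
    (by positivity : 0 ≤ (C.card : ℝ) * l) hJ hC
  have cnt1 := count (Gm := 1) hK' hL (by positivity : 0 ≤ (J : ℝ) * K)
    (by positivity : 0 ≤ (C.card : ℝ) * l) hJ hC
  refine (vdel_le (om := om) (Ti := Ti) (E := E) hL hg I0 C l J hE ?_ hTi hTE).trans ?_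
  · intro j _ i
    unfold bwt
    rw [← mul_sub, abs_mul, abs_of_pos (inv_pos.2 hL), div_eq_inv_mul om L]
    refine mul_le_mul_of_nonneg_left (hom _ _ _ ?_) (inv_pos.2 hL).le
    rw [← sub_div, abs_div, abs_of_pos hL]
    refine div_le_div_of_nonneg_right ?_ hL.le
    push_cast
    rw [add_sub_cancel_left, abs_of_nonneg (Nat.cast_nonneg _)]
    exact_mod_cast i.2.2.le
  · have h1 : (J : ℝ) * C.card * ((Gm / L) ^ 2 * E + 2 * (Gm / L) * (om / L) * l ^ 2 * Ti) =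
        (J * C.card * (Gm / L) ^ 2 * l) * (E / l) +
        (J * C.card * (1 / L) ^ 2 * l) * (2 * Gm * om * l * Ti) := by
      field_simp
    rw [h1]
    have h2 : (J * C.card * (Gm / L) ^ 2 * l) * (E / l) ≤ (Q * Gm) ^ 2 / K * (E / l) :=
      mul_le_mul_of_nonneg_right cnt (by positivity)
    have h3 : (J * C.card * (1 / L) ^ 2 * l) * (2 * Gm * om * l * Ti) ≤
        (Q * 1) ^ 2 / K * (2 * Gm * om * l * Ti) :=
      mul_le_mul_of_nonneg_right cnt1 (by positivity)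
    refine (add_le_add h2 h3).trans (le_of_eq ?_)
    field_simp

lemma eta_bd (hL : 0 < L) (hg : ∀ z, |g z| ≤ Gm) (j : ℕ) (cc : ↥C) :
    ∑ i ∈ sT (bgeo K I0 C l).b {cc}, |bwt g L K I0 C l j i| * (2 * (2 * (K : ℝ))) ≤
      (l * Gm * (2 * (2 * K))) / L := by
  rw [sum_sT]
  have h1 : ∀ r ∈ (Finset.univ : Finset (Fin l)), |bwt g L K I0 C l j (cc, r)| * (2 * (2 * (K : ℝ))) ≤
      Gm / L * (2 * (2 * K)) := fun r _ =>
    mul_le_mul_of_nonneg_right (abs_bwt hL hg I0 C l j (cc, r)) (by positivity)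
  refine (Finset.sum_le_sum h1).trans (le_of_eq ?_)
  rw [Finset.sum_const, Finset.card_univ, Fintype.card_fin, nsmul_eq_mul]
  ring

end bounds

lemma card_sym (N : ℕ) : (((Finset.Ico (-(N : ℤ)) N).card : ℕ) : ℝ) = 2 * (N : ℝ) := by
  rw [Int.card_Ico]
  have : ((N : ℤ) - -(N : ℤ)).toNat = 2 * N := by omega
  rw [this]
  push_cast
  ring

lemma sym_add (N : ℕ) : -(N : ℤ) + ((2 * N : ℕ) : ℤ) = N := by
  push_cast
  ring

/-- Deviation of the local squares for the concrete boxes. -/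
noncomputable def dvn (P : Measure (ℤ × ℤ → ℤ)) (g : ℝ × ℝ → ℝ) (S L : ℝ) (K l : ℕ) (s : ℝ) : ℝ :=
  dev P hev (bgeo K (-(hn S L K : ℤ)) (Finset.Ico (-(hn S L l : ℤ)) (hn S L l)) l)
    (bwt g L K (-(hn S L K : ℤ)) (Finset.Ico (-(hn S L l : ℤ)) (hn S L l)) l)
    (2 * hn S L K) s

lemma final_arith {y e x d0 v0 v1 v2 r s t q' SC cr E' X r' Z η η' : ℝ} (hs : 0 ≤ s) (ht : 0 < t)
    (main : y ≤ e + 2 * (4 * x + η * v0) + (s + 4) * (d0 + t * v1 + (1 + 1 / t) * v2 + r))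
    (h1 : v1 = v0 + v2) (hη : 0 ≤ η) (b1 : x ≤ q' * cr) (b2 : v0 ≤ q' * SC) (b3 : v2 ≤ E' + X)
    (b4 : r ≤ r') (hZ : Z = (s + 4) * (1 + 1 / t + t)) (hη' : η' = η * (q' * SC)) :
    y ≤ e + 8 * q' * cr + 2 * η' + (s + 4) * d0 + (s + 4) * (t * (q' * SC)) + Z * (E' + X) +
      (s + 4) * r' := by
  have hs4 : 0 ≤ s + 4 := by linarith
  have hZ0 : 0 ≤ Z := by rw [hZ]; positivity
  have c1 := mul_le_mul_of_nonneg_left b2 hη
  have c2 := mul_le_mul_of_nonneg_left (mul_le_mul_of_nonneg_left b2 ht.le) hs4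
  have c3 := mul_le_mul_of_nonneg_left b3 hZ0
  have c4 := mul_le_mul_of_nonneg_left b4 hs4
  have e1 : (s + 4) * (d0 + t * v1 + (1 + 1 / t) * v2 + r) =
      (s + 4) * d0 + (s + 4) * (t * v0) + Z * v2 + (s + 4) * r := by
    rw [h1, hZ]
    ring
  rw [e1] at main
  rw [hη']
  linarith

section

variable {P : Measure (ℤ × ℤ → ℤ)}

/-- The plane inequality at one scale. -/
lemma one_scale (hP : GFF.Plane P) (hR : RowLim P hev 2) {a : ℤ → ℤ → ℝ} {A1 A2 : Finset ℤ}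
    (ha : ∀ j y, j ∉ A1 ∨ y ∉ A2 → a j y = 0) (ha0 : ∑ᶠ p : ℤ × ℤ, a p.1 p.2 = 0)
    {g : ℝ × ℝ → ℝ} {S Gm L : ℝ} (hL : 1 ≤ L) (hS0 : 0 ≤ S)
    (hSg : ∀ u, g u ≠ 0 → |u.1| ≤ S ∧ |u.2| ≤ S) (hGm : ∀ z, |g z| ≤ Gm)
    {K l : ℕ} (hK : 0 < K) (hl : 0 < l) (hLK : (K : ℝ) ≤ L) (hLl : (l : ℝ) ≤ L)
    (hsum : Summable (CK (GFF.Vrow P) K))
    (hη1 : (l * Gm * (2 * (2 * K))) / L ≤ 1) {om Ti E : ℝ} (hE : 0 ≤ E)
    (hom0 : 0 ≤ om) (hTi0 : 0 ≤ Ti)
    (hom : ∀ u v v' : ℝ, |v - v'| ≤ l / L → |g (u, v) - g (u, v')| ≤ om)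
    (hTi : ∀ z : ℤ, |z| < l → |TK (GFF.Vrow P) K z| ≤ Ti)
    (hTE : ∑ x ∈ range l, ∑ y ∈ range l, TK (GFF.Vrow P) K ((x : ℤ) - y) ≤ E)
    {s t : ℝ} (hs0 : 0 ≤ s) (ht : 0 < t) :
    ‖∫ φ, ei (∑ᶠ p : ℤ × ℤ, a p.1 p.2 * hev p φ) ∂P - ((Real.exp (-s / 2) : ℝ) : ℂ)‖ ≤
      Real.sqrt (varX (GFF.Vrow P) a - 2 * covXX (GFF.Vrow P) a K L g +
        varX' (GFF.Vrow P) K L g) +
      8 * (((2 * S + 4) * Gm) ^ 2 / K) * (∑' z, CK (GFF.Vrow P) K z -
        1 / (l : ℝ) * ∑ x ∈ range l, ∑ y ∈ range l, CK (GFF.Vrow P) K ((x : ℤ) - y)) +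
      2 * ((l * Gm * (2 * (2 * K))) / L *
        (((2 * S + 4) * Gm) ^ 2 / K * ∑' z, CK (GFF.Vrow P) K z)) +
      (s + 4) * dvn P g S L K l s +
      (s + 4) * (t * (((2 * S + 4) * Gm) ^ 2 / K * ∑' z, CK (GFF.Vrow P) K z)) +
      ((s + 4) * (1 + 1 / t + t)) * (((2 * S + 4) * Gm) ^ 2 * (E / (K * l)) +
        om * ((2 * S + 4) ^ 2 / K * (2 * Gm * l * Ti))) +
      (s + 4) * ((2 * S + 4) * Real.sqrt (2 * S + 4) * (l * Gm * (2 * (2 * K))) ^ 2 /
        Real.sqrt L) := by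
  have hprob := hP.prob
  have hL0 : 0 < L := zero_lt_one.trans_le hL
  have hCK := CK_nonneg hP hR K hK
  have haA : ∑ w ∈ A1 ×ˢ A2, a w.1 w.2 = 0 := by
    rw [← pair_sum (fun p : ℤ × ℤ => a p.1 p.2) fun p hp => ha _ _ hp]
    exact ha0
  have main := plane (P := P) (h := hev) (B := 2) (by norm_num) measurable_hev hR
    (bgeo K (-(hn S L K : ℤ)) (Finset.Ico (-(hn S L l : ℤ)) (hn S L l)) l) hK
    (A1 ×ˢ A2) (fun w => a w.1 w.2) haA
    (bwt g L K (-(hn S L K : ℤ)) (Finset.Ico (-(hn S L l : ℤ)) (hn S L l)) l)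
    (2 * hn S L K) hη1 (fun j cc => eta_bd hL0 hGm j cc) s hs0 t ht
  have hg1 : ∀ i : ℤ, i ∉ Finset.Ico (-(hn S L K : ℤ)) (-(hn S L K : ℤ) + (2 * hn S L K : ℕ)) →
      ∀ y : ℝ, g ((i : ℝ) * K / L, y) = 0 := by
    intro i hi y
    rw [sym_add] at hi
    exact g_zero hSg (Or.inl (row_out hK hL0 hi))
  have hg2 : ∀ x : ℤ, x / (l : ℤ) ∉ Finset.Ico (-(hn S L l : ℤ)) (hn S L l) →
      ∀ t : ℝ, g (t, (x : ℝ) / L) = 0 := fun x hx t =>
    g_zero hSg (Or.inr (pos_out hl hL0 hx))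
  have hVK : ∀ z, GFF.Vrow P (-(K : ℤ)) z = GFF.Vrow P K z := fun z => Vrow_neg_left hP K z
  have hJK : ((2 * hn S L K : ℕ) : ℝ) * K ≤ (2 * S + 4) * L := by
    push_cast
    exact hn_mul hK hS0 hLK
  have hCl : (((Finset.Ico (-(hn S L l : ℤ)) (hn S L l)).card : ℕ) : ℝ) * l ≤
      (2 * S + 4) * L := by
    rw [card_sym]
    exact hn_mul hl hS0 hLl
  have b4 : Real.sqrt ((2 * hn S L K : ℕ) : ℝ) *
      (((Finset.Ico (-(hn S L l : ℤ)) (hn S L l)).card : ℕ) * ((l * Gm * (2 * (2 * K))) / L) ^ 2) ≤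
      (2 * S + 4) * Real.sqrt (2 * S + 4) * (l * Gm * (2 * (2 * K))) ^ 2 / Real.sqrt L := by
    refine sqrt_count hL0 (by positivity) ?_ ?_
    · push_cast
      exact hn_card hK hS0 hL
    · rw [card_sym]
      exact hn_card hl hS0 hL
  have eX : ∀ φ, ∑ᶠ p : ℤ × ℤ, a p.1 p.2 * hev p φ = ∑ w ∈ A1 ×ˢ A2, a w.1 w.2 * hev w φ := by
    intro φ
    exact pair_sum (fun p : ℤ × ℤ => a p.1 p.2 * hev p φ) fun p hp => by rw [ha _ _ hp, zero_mul]
  simp only [eX]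
  rw [msd_hev hP, err2_eq ha hl hg1 hg2, Fintype.card_coe] at main
  exact final_arith hs0 ht main (vloc_eq hVK _ _ _ _ _)
    (div_nonneg (by have := (abs_nonneg _).trans (hGm 0); positivity) hL0.le)
    (vcross_bd hK hl hCK hsum hL0 hGm hJK hCl) (vsq_bd hK hCK hsum hL0 hGm hJK hCl)
    (vdel_bd hK hl hL0 hGm hJK hCl hE hom0 hTi0 hom hTi hTE) b4 rfl rfl

end

end Vale.Agent.P153.Asm
end

section

/-!
# The limit of the plane inequality: all scales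
-/

namespace Vale.Agent.P153.Asm

open MeasureTheory Filter Finset
open scoped Topology
open Vale.Agent.P153.CLT Vale.Agent.P153.TwoPt

variable {P : Measure (ℤ × ℤ → ℤ)}

lemma dvn_tendsto (hP : GFF.Plane P) (l K : ℕ) (hl : 0 < l) (hK : 0 < K)
    (g : ℝ × ℝ → ℝ) (hg : Continuous g) (hgc : HasCompactSupport g) {S : ℝ} (hS0 : 0 ≤ S)
    (hSg : ∀ u, g u ≠ 0 → |u.1| ≤ S ∧ |u.2| ≤ S) (L : ℕ → ℝ) (hL1 : ∀ n, 1 ≤ L n)
    (hL : Tendsto L atTop atTop) :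
    Tendsto (fun n => dvn P g S (L n) K l (wKl P K l / (K * l) * ∫ z, g z ^ 2)) atTop (𝓝 0) := by
  have hL0 : ∀ n, 0 < L n := fun n => zero_lt_one.trans_le (hL1 n)
  have h1 := devLim hP l K hl hK g hg hgc L hL0 hL
    (fun n => Finset.Ico (-(hn S (L n) K : ℤ)) (hn S (L n) K))
    (fun n => Finset.Ico (-(hn S (L n) l : ℤ)) (hn S (L n) l)) (M := 2 * S + 4)
    (fun n => by rw [card_sym]; exact hn_card hK hS0 (hL1 n))
    (fun n => by rw [card_sym]; exact hn_card hl hS0 (hL1 n))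
    (fun n i hi y => g_zero hSg (Or.inl (row_out hK (hL0 n) hi)))
    (fun n i hi y => g_zero hSg (Or.inr (row_out hl (hL0 n) hi)))
    (fun n i x => (L n)⁻¹ * g ((i : ℝ) * K / L n, (x : ℝ) / L n)) (fun _ => 0)
    tendsto_const_nhds (fun n i x => by simp)
  refine h1.congr fun n => ?_
  unfold dvn
  rw [dev_eq, sym_add]
  rfl

lemma final_arith2 {y e e' c8 η' d0 s v Z E' X r' ρ : ℝ} (hs : 0 ≤ s)
    (main : y ≤ e' + c8 + 2 * η' + (s + 4) * d0 + (s + 4) * v + Z * (E' + X) + (s + 4) * r')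
    (h1 : e' ≤ e + ρ / 5) (h2 : 2 * η' ≤ ρ / 5) (h3 : d0 ≤ ρ / (5 * (s + 4)))
    (h4 : r' ≤ ρ / (5 * (s + 4))) (h5 : Z * X ≤ ρ / 5) :
    y ≤ e + c8 + ((s + 4) * v + Z * E') + ρ := by
  have hs4 : 0 < s + 4 := by linarith
  have c3 := mul_le_mul_of_nonneg_left h3 hs4.le
  have c4 := mul_le_mul_of_nonneg_left h4 hs4.le
  have h6 : (s + 4) * (ρ / (5 * (s + 4))) = ρ / 5 := by field_simp
  rw [h6] at c3 c4
  linarith

/-- **The limit of the plane inequality.** -/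
theorem meso (hP : GFF.Plane P) (hR : RowLim P hev 2)
    {m : ProbabilityTheory.Kernel ℝ ℝ} {c κ C k0 : ℝ}
    (hSp : TwoPt.Spec (GFF.Vrow P) m c κ C k0) : Meso P c κ := by
  intro f L a M hD g hg hgc
  obtain ⟨S, hS0, hSg⟩ := P3b.exists_radius hgc
  obtain ⟨Gm, hGm'⟩ := hgc.exists_bound_of_continuous hg
  have hGm : ∀ z, |g z| ≤ Gm := fun z => by
    have := hGm' z
    rwa [Real.norm_eq_abs] at this
  have hGm0 : 0 ≤ Gm := (abs_nonneg _).trans (hGm 0)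
  refine ⟨((2 * S + 4) * Gm) ^ 2, by positivity, ?_⟩
  intro K l hK hl t E ρ ht hE hρ hTE
  have hK' : (0 : ℝ) < K := by exact_mod_cast hK
  have hl' : (0 : ℝ) < l := by exact_mod_cast hl
  have hCK := CK_nonneg hP hR K hK
  have hsum := p3 _ _ _ _ _ _ hSp K hK hCK
  have hSC0 : 0 ≤ ∑' z, CK (GFF.Vrow P) K z := tsum_nonneg hCK
  have hI20 : 0 ≤ ∫ z, g z ^ 2 := integral_nonneg fun z => sq_nonneg _
  have hw0 : 0 ≤ wKl P K l := integral_nonneg fun φ => sq_nonneg _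
  have hs0 : 0 ≤ wKl P K l / (K * l) * ∫ z, g z ^ 2 := by positivity
  obtain ⟨s, hs⟩ : ∃ s, s = wKl P K l / (K * l) * ∫ z, g z ^ 2 := ⟨_, rfl⟩
  have hdv := dvn_tendsto hP l K hl hK g hg hgc hS0 hSg L hD.L_pos hD.L_top
  rw [← hs] at hs0 hdv ⊢
  -- the modulus of continuity
  obtain ⟨Ti, hTi⟩ : ∃ Ti : ℝ, Ti = ∑ z ∈ Finset.Icc (-(l : ℤ)) l, |TK (GFF.Vrow P) K z| := ⟨_, rfl⟩
  have hTi0 : 0 ≤ Ti := by
    rw [hTi]
    exact Finset.sum_nonneg fun _ _ => abs_nonneg _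
  obtain ⟨X0, hX0⟩ : ∃ X0 : ℝ, X0 = (2 * S + 4) ^ 2 / K * (2 * Gm * l * Ti) := ⟨_, rfl⟩
  have hX00 : 0 ≤ X0 := by
    rw [hX0]
    positivity
  obtain ⟨Z, hZ⟩ : ∃ Z : ℝ, Z = (s + 4) * (1 + 1 / t + t) := ⟨_, rfl⟩
  have hZ0 : 0 < Z := by
    rw [hZ]
    positivity
  obtain ⟨om, hom⟩ : ∃ om : ℝ, om = ρ / (5 * Z * (X0 + 1)) := ⟨_, rfl⟩
  have hom0 : 0 < om := by
    rw [hom]
    positivity
  have homX : Z * (om * X0) ≤ ρ / 5 := by
    have h1 : Z * (om * (X0 + 1)) = ρ / 5 := by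
      rw [hom]
      field_simp
    have h2 : om * X0 ≤ om * (X0 + 1) := mul_le_mul_of_nonneg_left (by linarith) hom0.le
    linarith [mul_le_mul_of_nonneg_left h2 hZ0.le]
  obtain ⟨d, hd, hdg⟩ := Metric.uniformContinuous_iff.1
    (hgc.uniformContinuous_of_continuous hg) om hom0
  have lim1 : Tendsto (fun n => Real.sqrt (varX (GFF.Vrow P) (a n) -
      2 * covXX (GFF.Vrow P) (a n) K (L n) g + varX' (GFF.Vrow P) K (L n) g)) atTop
      (𝓝 (Real.sqrt (sig c κ f - 2 * cov c κ g f +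
        (∑' z, CK (GFF.Vrow P) K z) / K * ∫ z, g z ^ 2))) :=
    (((p1 _ _ _ _ _ _ hSp f L a M hD).sub
      ((p2 _ _ _ _ _ _ hSp f L a M hD g hg hgc K hK).const_mul 2)).add
      (p3b _ K hK hCK hsum L hD.L_pos hD.L_top g hg hgc)).sqrt
  have lim2 : Tendsto (fun n => (l * Gm * (2 * (2 * K))) / L n) atTop (𝓝 0) :=
    tendsto_const_nhds.div_atTop hD.L_top
  have lim2' : Tendsto (fun n => 2 * ((l * Gm * (2 * (2 * K))) / L n *
      (((2 * S + 4) * Gm) ^ 2 / K * ∑' z, CK (GFF.Vrow P) K z))) atTop (𝓝 0) := by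
    have := (lim2.mul_const (((2 * S + 4) * Gm) ^ 2 / K * ∑' z, CK (GFF.Vrow P) K z)).const_mul 2
    simpa using this
  have lim4 : Tendsto (fun n => (2 * S + 4) * Real.sqrt (2 * S + 4) *
      (l * Gm * (2 * (2 * K))) ^ 2 / Real.sqrt (L n)) atTop (𝓝 0) :=
    tendsto_const_nhds.div_atTop (Real.tendsto_sqrt_atTop.comp hD.L_top)
  have lim5 : Tendsto (fun n => (l : ℝ) / L n) atTop (𝓝 0) :=
    tendsto_const_nhds.div_atTop hD.L_top
  have hρ5 : 0 < ρ / 5 := by positivity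
  have hρs : 0 < ρ / (5 * (s + 4)) := by positivity
  filter_upwards [lim1.eventually (gt_mem_nhds (lt_add_of_pos_right _ hρ5)),
    lim2.eventually (gt_mem_nhds one_pos), lim2'.eventually (gt_mem_nhds hρ5),
    hdv.eventually (gt_mem_nhds hρs), lim4.eventually (gt_mem_nhds hρs),
    lim5.eventually (gt_mem_nhds hd), hD.L_top.eventually_ge_atTop (K : ℝ),
    hD.L_top.eventually_ge_atTop (l : ℝ)] with n e1 e2 e2' e3 e4 e5 e6 e7
  have hom' : ∀ u v v' : ℝ, |v - v'| ≤ l / L n → |g (u, v) - g (u, v')| ≤ om := by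
    intro u v v' h
    rw [← Real.dist_eq]
    refine (hdg ?_).le
    rw [Prod.dist_eq, dist_self, Real.dist_eq]
    exact max_lt hd (h.trans_lt e5)
  have hTi' : ∀ z : ℤ, |z| < l → |TK (GFF.Vrow P) K z| ≤ Ti := by
    intro z hz
    rw [hTi]
    refine Finset.single_le_sum (f := fun z => |TK (GFF.Vrow P) K z|)
      (fun _ _ => abs_nonneg _) ?_
    rw [abs_lt] at hz
    exact Finset.mem_Icc.2 ⟨hz.1.le, hz.2.le⟩
  have main := one_scale hP hR (disc_zero hD n) (hD.sum_zero n) (hD.L_pos n) hS0 hSg hGm hK hl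
    e6 e7 hsum e2.le hE hom0.le hTi0 hom' hTi' hTE hs0 ht
  rw [← hZ, ← hX0] at main
  have fin := final_arith2 hs0 main e1.le e2'.le e3.le e4.le homX
  refine fin.trans (le_of_eq ?_)
  rw [hZ]
  ring

end Vale.Agent.P153.Asm
end

section

/-!
# The central limit theorem for the even rows
-/

namespace Vale.Agent.P153.Asm

open MeasureTheory Filter Finset
open scoped Topology
open Vale.Agent.P153.CLT Vale.Agent.P153.TwoPt

open TwoPt.P6 TwoPt.Cn in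
/-- The sums of the covariances of the projected increments are nonnegative. -/
theorem TK_sum_nonneg {V : ℤ → ℤ → ℝ} {m : ProbabilityTheory.Kernel ℝ ℝ} {c κ C k0 : ℝ}
    (hS : TwoPt.Spec V m c κ C k0) (K l : ℕ) :
    0 ≤ ∑ x ∈ range l, ∑ y ∈ range l, TK V K ((x : ℤ) - y) := by
  have h0 : ∀ᵐ k : ℝ, k ≠ 0 := by
    rw [ae_iff]; simp
  have hF0 : ∀ᵐ k : ℝ, |k| ≤ Real.pi → 0 ≤ FK m K k := by
    filter_upwards [ae_Ai_lt hS, hS.supp, h0] with k hA' hs hk0 hk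
    exact FK_nonneg hs (hA' hk hk0) K
  simp_rw [TK_eq hS]
  rw [sum_cc_eq (int_FK hS K)]
  refine mul_nonneg (by positivity) (setIntegral_nonneg_of_ae_restrict ?_)
  filter_upwards [ae_restrict_of_ae hF0, ae_restrict_mem measurableSet_Icc] with k hk hm
  exact mul_nonneg (fej_nonneg _ _) (hk (abs_le.2 ⟨hm.1, hm.2⟩))

lemma small_root {x σ δ : ℝ} (hx0 : 0 ≤ x)
    (hx : x ≤ min 1 (δ / (8 * (2 + Real.sqrt σ)))) :
    x + x * (2 * Real.sqrt σ + x) / 2 ≤ δ / 8 := by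
  have hs := Real.sqrt_nonneg σ
  have h1 : x ≤ 1 := hx.trans (min_le_left _ _)
  have h2 : x ≤ δ / (8 * (2 + Real.sqrt σ)) := hx.trans (min_le_right _ _)
  rw [le_div_iff₀ (by positivity)] at h2
  nlinarith [mul_nonneg hx0 hs]

lemma mul_frac_le {δ A x : ℝ} (hA : 0 ≤ A) (hδ : 0 ≤ δ) (hx : x = δ / (8 * (A + 1))) :
    A * x ≤ δ / 8 := by
  rw [hx, ← mul_div_assoc, div_le_div_iff₀ (by positivity) (by norm_num)]
  nlinarith

lemma total_arith {y z e σ s v ρ c8 m1 m2 δ : ℝ}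
    (h1 : y ≤ e + c8 + (m1 + m2) + ρ) (h2 : z ≤ |s - σ| / 2)
    (h3 : |v - σ| ≤ e * (2 * Real.sqrt σ + e)) (h4 : e + e * (2 * Real.sqrt σ + e) / 2 ≤ δ / 8)
    (h5 : |s - v| ≤ δ / 8 + δ / 8) (h6 : c8 ≤ δ / 8) (h7 : m1 ≤ δ / 8) (h8 : m2 ≤ δ / 8)
    (h9 : ρ = δ / 8) (hδ : 0 < δ) : y + z < δ := by
  have h10 : |s - σ| ≤ |s - v| + |v - σ| := abs_sub_le _ _ _
  linarith

/-- **Row central limit theorem**, characteristic functions. -/
theorem row_ei {P : Measure (ℤ × ℤ → ℤ)} (hP : GFF.Plane P) (hR : RowLim P hev 2)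
    {m : ProbabilityTheory.Kernel ℝ ℝ} {c κ C k0 : ℝ}
    (hSp : TwoPt.Spec (GFF.Vrow P) m c κ C k0) {f : ℝ × ℝ → ℝ} {L : ℕ → ℝ} {a : ℕ → ℤ → ℤ → ℝ}
    {M : ℝ} (hf : ContDiff ℝ 2 f) (hf0 : ∫ z, f z = 0) (hD : TwoPt.Disc f L a M) :
    Tendsto (fun n => ∫ φ, ei (∑ᶠ p : ℤ × ℤ, a n p.1 p.2 * hev p φ) ∂P) atTop
      (𝓝 ((Real.exp (-sig c κ f / 2) : ℝ) : ℂ)) := by
  rw [Metric.tendsto_nhds]
  intro δ hδ
  have hκ := hSp.κ_nonneg
  -- the approximating function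
  obtain ⟨ε1, hε1⟩ : ∃ ε1 : ℝ, ε1 = (min 1 (δ / (8 * (2 + Real.sqrt (sig c κ f))))) ^ 2 / 2 :=
    ⟨_, rfl⟩
  have hy0 : 0 < min 1 (δ / (8 * (2 + Real.sqrt (sig c κ f)))) := by positivity
  have hε10 : 0 < ε1 := by
    rw [hε1]
    positivity
  obtain ⟨g, hg, hgc, hg5⟩ := p5 c κ hSp.c_pos hκ f hf hD.f_supp hf0 ε1 hε10
  obtain ⟨q, hq0, hmeso⟩ := meso hP hR hSp f L a M hD g hg hgc
  have hclose := closeVar hP hR hSp f L a M hD g hg hgc
  have hI20 : 0 ≤ ∫ z, g z ^ 2 := integral_nonneg fun z => sq_nonneg _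
  obtain ⟨I2, hI2⟩ : ∃ I2 : ℝ, I2 = ∫ z, g z ^ 2 := ⟨_, rfl⟩
  rw [← hI2] at hg5 hclose hI20 hmeso
  -- the parameters
  obtain ⟨S4, hS4⟩ : ∃ S4 : ℝ, S4 = (κ + 1) * I2 + 4 := ⟨_, rfl⟩
  have hS40 : 0 < S4 := by
    rw [hS4]
    positivity
  obtain ⟨t, ht⟩ : ∃ t : ℝ, t = δ / (8 * (S4 * (q * (κ + 1)) + 1)) := ⟨_, rfl⟩
  have ht0 : 0 < t := by
    rw [ht]
    positivity
  obtain ⟨ε, hε⟩ : ∃ ε : ℝ, ε = δ / (8 * (S4 * (1 + 1 / t + t) * q + 1)) := ⟨_, rfl⟩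
  have hε0 : 0 < ε := by
    rw [hε]
    positivity
  obtain ⟨ε2, hε2⟩ : ∃ ε2 : ℝ, ε2 = min 1 (min (ε1 / (I2 + 1)) (δ / (8 * (I2 + 1)))) := ⟨_, rfl⟩
  have hε20 : 0 < ε2 := by
    rw [hε2]
    positivity
  have hε2a : ε2 ≤ 1 := by
    rw [hε2]
    exact min_le_left _ _
  have hε2b : ε2 * I2 ≤ ε1 := by
    have h1 : ε2 ≤ ε1 / (I2 + 1) := by
      rw [hε2]
      exact (min_le_right _ _).trans (min_le_left _ _)
    rw [le_div_iff₀ (by positivity)] at h1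
    nlinarith
  have hε2c : ε2 * I2 ≤ δ / 8 := by
    have h1 : ε2 ≤ δ / (8 * (I2 + 1)) := by
      rw [hε2]
      exact (min_le_right _ _).trans (min_le_right _ _)
    rw [le_div_iff₀ (by positivity)] at h1
    nlinarith
  -- the number of rows
  obtain ⟨K1, hK1⟩ := p6 _ _ _ _ _ _ hSp ε hε0
  have hCKall : ∀ K : ℕ, 0 < K → ∀ z, 0 ≤ CK (GFF.Vrow P) K z := CK_nonneg hP hR
  obtain ⟨K2, hK2⟩ := (Metric.tendsto_atTop.1 (p4 _ _ _ _ _ _ hSp hCKall)) ε2 hε20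
  obtain ⟨K3, hK3⟩ := wKl_lim hP hSp p3 p4 p6 (TK_sum_nonneg hSp) hCKall ε2 hε20
  obtain ⟨K, hK⟩ : ∃ K : ℕ, K = max (max K1 K2) (max K3 1) := ⟨_, rfl⟩
  have hKa : K1 ≤ K := by omega
  have hKb : K2 ≤ K := by omega
  have hKc : K3 ≤ K := by omega
  have hK0 : 0 < K := by omega
  have hK' : (0 : ℝ) < K := by exact_mod_cast hK0
  obtain ⟨l1, hl1⟩ := hK1 K hKa
  have hκK := hK2 K hKb
  rw [Real.dist_eq] at hκK
  obtain ⟨l3, hl3⟩ := hK3 K hKc
  have hCK := hCKall K hK0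
  have hsum := p3 _ _ _ _ _ _ hSp K hK0 hCK
  obtain ⟨hσ0, hv0, hcov⟩ := hclose K hK0
  obtain ⟨SC, hSC⟩ : ∃ SC : ℝ, SC = ∑' z, CK (GFF.Vrow P) K z := ⟨_, rfl⟩
  have hSC0 : 0 ≤ SC := by
    rw [hSC]
    exact tsum_nonneg hCK
  have hces := Asm.cesaro hsum hCK
  rw [← hSC] at hκK hv0 hcov hces
  obtain ⟨l2, hl2⟩ := (Metric.tendsto_atTop.1 hces) (δ / (64 * (q / K + 1))) (by positivity)
  obtain ⟨l, hl⟩ : ∃ l : ℕ, l = max (max l1 l2) (max l3 1) := ⟨_, rfl⟩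
  have hla : l1 ≤ l := by omega
  have hlb : l2 ≤ l := by omega
  have hlc : l3 ≤ l := by omega
  have hl0 : 0 < l := by omega
  have hl' : (0 : ℝ) < l := by exact_mod_cast hl0
  have hTK := hl1 l hla
  rw [one_div, inv_mul_le_iff₀ hl'] at hTK
  have havg := hl2 l hlb
  rw [Real.dist_eq] at havg
  have hw := hl3 l hlc
  have hw0 : 0 ≤ wKl P K l := integral_nonneg fun φ => sq_nonneg _
  have hE0 : 0 ≤ (l : ℝ) * (ε * K) := by positivity
  have hmain := hmeso K l hK0 hl0 t (l * (ε * K)) (δ / 8) ht0 hE0 (by positivity) hTK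
  rw [← hSC] at hmain
  obtain ⟨w', hw'⟩ : ∃ w' : ℝ, w' = wKl P K l / (K * l) := ⟨_, rfl⟩
  have hw'0 : 0 ≤ w' := by
    rw [hw']
    positivity
  rw [← hw'] at hmain hw
  have hκK' := abs_lt.1 hκK
  have hw'' := abs_le.1 hw
  have hκKb : SC / K ≤ κ + 1 := by linarith [hκK'.2]
  have hs1 : w' * I2 + 4 ≤ S4 := by
    rw [hS4]
    have : w' * I2 ≤ (κ + 1) * I2 := mul_le_mul_of_nonneg_right (by linarith [hw''.2]) hI20
    linarith
  -- the pieces
  have hroot : Real.sqrt (sig c κ f - 2 * cov c κ g f + SC / K * I2) ≤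
      min 1 (δ / (8 * (2 + Real.sqrt (sig c κ f)))) := by
    refine Real.sqrt_le_iff.2 ⟨hy0.le, ?_⟩
    have h1 : (SC / K - κ) * I2 ≤ ε2 * I2 := mul_le_mul_of_nonneg_right hκK'.2.le hI20
    have h2 : (min 1 (δ / (8 * (2 + Real.sqrt (sig c κ f))))) ^ 2 = ε1 + ε1 := by
      rw [hε1]
      ring
    rw [h2]
    linarith
  have hA1 := small_root (Real.sqrt_nonneg _) hroot
  have hA2 := sqrt_close hσ0 hv0 hcov
  have hA3 : |w' * I2 - SC / K * I2| ≤ δ / 8 + δ / 8 := by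
    rw [← sub_mul, abs_mul, abs_of_nonneg hI20]
    have h1 : |w' - SC / K| ≤ ε2 + ε2 := by
      rw [abs_le]
      constructor
      · linarith [hw''.1, hκK'.2]
      · linarith [hw''.2, hκK'.1]
    have h2 := mul_le_mul_of_nonneg_right h1 hI20
    linarith
  have hA4 : 8 * (q / K) * (SC - 1 / (l : ℝ) * ∑ x ∈ range l, ∑ y ∈ range l,
      CK (GFF.Vrow P) K ((x : ℤ) - y)) ≤ δ / 8 := by
    have h1 := (abs_lt.1 havg).1
    have h2 : SC - 1 / (l : ℝ) * ∑ x ∈ range l, ∑ y ∈ range l,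
        CK (GFF.Vrow P) K ((x : ℤ) - y) ≤ δ / (64 * (q / K + 1)) := by linarith
    have h3 : 0 ≤ q / K := by positivity
    have h4 := mul_le_mul_of_nonneg_left h2 (show 0 ≤ 8 * (q / K) by positivity)
    refine h4.trans ?_
    rw [← mul_div_assoc, div_le_div_iff₀ (by positivity) (by norm_num)]
    nlinarith
  have hA5 : (w' * I2 + 4) * (t * (q / K * SC)) ≤ δ / 8 := by
    have h1 : q / K * SC ≤ q * (κ + 1) := by
      have : q / K * SC = q * (SC / K) := by ring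
      rw [this]
      exact mul_le_mul_of_nonneg_left hκKb hq0
    have h2 : t * (q / K * SC) ≤ t * (q * (κ + 1)) := mul_le_mul_of_nonneg_left h1 ht0.le
    have h3 : (w' * I2 + 4) * (t * (q / K * SC)) ≤ S4 * (t * (q * (κ + 1))) :=
      mul_le_mul hs1 h2 (by positivity) hS40.le
    have h4 := mul_frac_le (A := S4 * (q * (κ + 1))) (by positivity) hδ.le ht
    have h5 : S4 * (t * (q * (κ + 1))) = S4 * (q * (κ + 1)) * t := by ring
    linarith
  have hA6 : (w' * I2 + 4) * ((1 + 1 / t + t) * (q * (l * (ε * K) / (K * l)))) ≤ δ / 8 := by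
    have h1 : l * (ε * K) / (K * l) = ε := by field_simp
    rw [h1]
    have h3 : (w' * I2 + 4) * ((1 + 1 / t + t) * (q * ε)) ≤ S4 * ((1 + 1 / t + t) * (q * ε)) :=
      mul_le_mul_of_nonneg_right hs1 (by positivity)
    have h4 := mul_frac_le (A := S4 * (1 + 1 / t + t) * q) (by positivity) hδ.le hε
    have h5 : S4 * ((1 + 1 / t + t) * (q * ε)) = S4 * (1 + 1 / t + t) * q * ε := by ring
    linarith
  have hs0 : 0 ≤ w' * I2 := by positivity
  have hA7 := exp_close hs0 hσ0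
  filter_upwards [hmain] with n hn
  rw [dist_eq_norm]
  rw [mul_add] at hn
  have tri : ‖∫ φ, ei (∑ᶠ p : ℤ × ℤ, a n p.1 p.2 * hev p φ) ∂P -
      ((Real.exp (-sig c κ f / 2) : ℝ) : ℂ)‖ ≤
      ‖∫ φ, ei (∑ᶠ p : ℤ × ℤ, a n p.1 p.2 * hev p φ) ∂P -
      ((Real.exp (-(w' * I2) / 2) : ℝ) : ℂ)‖ +
      |Real.exp (-(w' * I2) / 2) - Real.exp (-sig c κ f / 2)| := by
    have h1 := norm_sub_le_norm_sub_add_norm_sub
      (∫ φ, ei (∑ᶠ p : ℤ × ℤ, a n p.1 p.2 * hev p φ) ∂P)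
      ((Real.exp (-(w' * I2) / 2) : ℝ) : ℂ) ((Real.exp (-sig c κ f / 2) : ℝ) : ℂ)
    rwa [← Complex.ofReal_sub, Complex.norm_real, Real.norm_eq_abs] at h1
  exact tri.trans_lt (total_arith hn hA7 hA2 hA1 hA3 hA4 hA5 hA6 rfl hδ)

/-- **Row central limit theorem.** -/
theorem rowCLT {P : Measure (ℤ × ℤ → ℤ)} (hP : GFF.Plane P) (hR : RowLim P hev 2)
    {m : ProbabilityTheory.Kernel ℝ ℝ} {κ C k0 : ℝ}
    (hSp : TwoPt.Spec (GFF.Vrow P) m (√3) κ C k0) : GFF.RowCLT P κ := by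
  intro f L a M hf hf0 hD
  have h1 := row_ei hP hR hSp hf hf0 hD
  have e1 : ((Real.exp (-sig (√3) κ f / 2) : ℝ) : ℂ) =
      Complex.exp (-((sig (√3) κ f / 2 : ℝ) : ℂ)) := by
    rw [Complex.ofReal_exp]
    congr 1
    push_cast
    ring
  rw [e1] at h1
  exact h1

end Vale.Agent.P153.Asm
end

section

/-! P153, product Schwinger-Dyson: localisation by Gaussians of a charged functional and tightness
(helper492). -/

namespace Vale.Agent.P153.F.SD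

open Finset Filter Topology MeasureTheory
open Vale.Agent.P145.FA (gauss_sum)

/-- Gaussian sums over the even shifts are bounded uniformly. -/
lemma tg_sum {A : ℝ} (hA : 0 < A) : ∃ C : ℝ, 0 ≤ C ∧ ∀ x : ℝ,
    Summable (fun k : ℤ => Real.exp (-((x + 2 * k) ^ 2 / (2 * A ^ 2)))) ∧
    ∑' k : ℤ, Real.exp (-((x + 2 * k) ^ 2 / (2 * A ^ 2))) ≤ C := by
  obtain ⟨C, hC, hg⟩ := gauss_sum
  set K : ℝ := 1 + 2 * A with hK
  have hK1 : 1 ≤ K := by rw [hK]; linarith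
  have hKA : 2 * A ^ 2 ≤ K ^ 2 := by rw [hK]; nlinarith only [hA]
  refine ⟨K * √Real.pi / 2 + C * (K * Real.exp (-K ^ 2)), by positivity, fun x => ?_⟩
  obtain ⟨hs, hb⟩ := hg K hK1 x
  have hle : ∀ k : ℤ, Real.exp (-((x + 2 * k) ^ 2 / (2 * A ^ 2))) ≤
      Real.exp (-((x + 2 * k) ^ 2 / K ^ 2)) := by
    intro k
    refine Real.exp_le_exp.2 (neg_le_neg ?_)
    exact div_le_div_of_nonneg_left (sq_nonneg _) (by positivity) hKA
  have hs' := Summable.of_nonneg_of_le (fun k => (Real.exp_pos _).le) hle hs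
  refine ⟨hs', (hs'.tsum_le_tsum hle hs).trans ?_⟩
  have := (abs_le.1 hb).2
  linarith only [this]

/-- Integration of a nonnegative functional against `mu0`. -/
lemma tg_int {P : Measure Fld} {F : Hgt → ℝ} (hF : Measurable F)
    (h0 : ∀ h, 0 ≤ F h) {b : Fld → ℝ} (hb : Integrable b P)
    (hs : ∀ ω, Summable fun k : ℤ => F (fun q => pth ω q + 2 * k))
    (hle : ∀ ω, ∑' k : ℤ, F (fun q => pth ω q + 2 * k) ≤ b ω) :
    Integrable F (mu0 P) ∧ ∫ h, F h ∂(mu0 P) ≤ ∫ ω, b ω ∂P := by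
  have h1 : ∫⁻ h, ENNReal.ofReal (F h) ∂(mu0 P) ≤ ∫⁻ ω, ENNReal.ofReal (b ω) ∂P := by
    have hm : Measurable fun h => ENNReal.ofReal (F h) := ENNReal.measurable_ofReal.comp hF
    rw [lintegral_mu0 hm]
    refine lintegral_mono fun ω => ?_
    rw [← ENNReal.ofReal_tsum_of_nonneg (fun k => h0 _) (hs ω)]
    exact ENNReal.ofReal_le_ofReal (hle ω)
  have hb0 : ∀ ω, 0 ≤ b ω := fun ω => (tsum_nonneg fun k => h0 _).trans (hle ω)
  have h2 : ∫⁻ ω, ENNReal.ofReal (b ω) ∂P = ENNReal.ofReal (∫ ω, b ω ∂P) :=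
    (ofReal_integral_eq_lintegral_ofReal hb (Eventually.of_forall hb0)).symm
  have hi : Integrable F (mu0 P) := by
    refine ⟨hF.aestronglyMeasurable, ?_⟩
    rw [hasFiniteIntegral_iff_ofReal (Eventually.of_forall h0)]
    exact h1.trans_lt (by rw [h2]; exact ENNReal.ofReal_lt_top)
  refine ⟨hi, ?_⟩
  rw [integral_eq_lintegral_of_nonneg_ae (Eventually.of_forall h0) hF.aestronglyMeasurable]
  have h3 := ENNReal.toReal_mono (by rw [h2]; exact ENNReal.ofReal_ne_top) h1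
  rw [h2, ENNReal.toReal_ofReal (integral_nonneg hb0)] at h3
  exact h3

lemma tg_ev {w : (ℤ × ℤ) →₀ ℝ} (hw : mass w = 1) (ω : Fld) (k : ℤ) :
    ev w (fun q => pth ω q + 2 * k) = ev w (pth ω) + 2 * k := by
  have e : (fun q => pth ω q + 2 * k) = fun q => pth ω q + (2 * k : ℤ) := rfl
  rw [e, ev_shift, hw]
  push_cast
  ring

theorem loc_int (A : ℝ) (hA : 0 < A) : ∃ C : ℝ, 0 ≤ C ∧ ∀ (P : Measure Fld)
    [IsProbabilityMeasure P] (w : (ℤ × ℤ) →₀ ℝ), mass w = 1 →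
    Integrable (fun h => Real.exp (-((ev w h) ^ 2 / (2 * A ^ 2)))) (mu0 P) ∧
    ∫ h, Real.exp (-((ev w h) ^ 2 / (2 * A ^ 2))) ∂(mu0 P) ≤ C := by
  obtain ⟨C, hC, hg⟩ := tg_sum hA
  refine ⟨C, hC, fun P _ w hw => ?_⟩
  have hm : Measurable fun h => Real.exp (-((ev w h) ^ 2 / (2 * A ^ 2))) :=
    Real.measurable_exp.comp (((measurable_ev w).pow_const 2).div_const _).neg
  have h := tg_int (P := P) hm (fun h => (Real.exp_pos _).le) (b := fun _ => C)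
    (integrable_const C) (fun ω => by simp only [tg_ev hw]; exact (hg _).1)
    (fun ω => by simp only [tg_ev hw]; exact (hg _).2)
  refine ⟨h.1, h.2.trans ?_⟩
  simp

/-- Tightness from convergence of the characteristic functions. -/
lemma tg_tail {P : Measure Fld} [IsProbabilityMeasure P] {Y : ℕ → Fld → ℝ}
    (hY : ∀ n, Measurable (Y n)) {c : ℝ}
    (hc : ∀ t : ℝ, Tendsto (fun n => ∫ ω, Complex.exp (Complex.I * ((t * Y n ω : ℝ) : ℂ)) ∂P)
      atTop (𝓝 (Complex.exp (-((c * t ^ 2 : ℝ) : ℂ))))) {ε : ℝ} (hε : 0 < ε) :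
    ∃ T : ℝ, 0 < T ∧ ∀ᶠ n in atTop, P.real {ω | T < |Y n ω|} ≤ ε := by
  have hcont : Continuous fun t : ℝ => Complex.exp (-((c * t ^ 2 : ℝ) : ℂ)) := by fun_prop
  obtain ⟨δ, hδ, hδ2⟩ := Metric.continuousAt_iff.1 (hcont.continuousAt (x := 0)) (ε / 4)
    (by positivity)
  have hsmall : ∀ t : ℝ, |t| < δ → ‖1 - Complex.exp (-((c * t ^ 2 : ℝ) : ℂ))‖ ≤ ε / 4 := by
    intro t ht
    have := hδ2 (x := t) (by rw [Real.dist_eq, sub_zero]; exact ht)
    rw [dist_comm, dist_eq_norm] at this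
    simpa only [Complex.ofReal_mul, Complex.ofReal_pow, ge_iff_le, ne_eq, OfNat.ofNat_ne_zero, not_false_eq_true,     zero_pow, mul_zero, Complex.ofReal_zero, neg_zero, Complex.exp_zero] using this.le
  set T : ℝ := 4 / δ with hT
  have hT0 : 0 < T := by positivity
  have hTi : 2 * T⁻¹ = δ / 2 := by
    rw [hT]
    field_simp
    norm_num
  refine ⟨T, hT0, ?_⟩
  have hμ : ∀ n t, charFun (P.map (Y n)) t =
      ∫ ω, Complex.exp (Complex.I * ((t * Y n ω : ℝ) : ℂ)) ∂P := by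
    intro n t
    rw [charFun_apply_real, integral_map (hY n).aemeasurable (by (clear * -; fun_prop))]
    refine integral_congr_ae (Eventually.of_forall fun ω => ?_)
    simp only
    congr 1
    push_cast
    ring
  have hpr : ∀ n, IsProbabilityMeasure (P.map (Y n)) := fun n =>
    Measure.isProbabilityMeasure_map (hY n).aemeasurable
  have hlim : Tendsto (fun n => ∫ t in (-2 * T⁻¹)..(2 * T⁻¹), 1 - charFun (P.map (Y n)) t) atTop
      (𝓝 (∫ t in (-2 * T⁻¹)..(2 * T⁻¹), 1 - Complex.exp (-((c * t ^ 2 : ℝ) : ℂ)))) := by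
    refine intervalIntegral.tendsto_integral_filter_of_dominated_convergence (fun _ => 2)
      (Eventually.of_forall fun n => ?_) (Eventually.of_forall fun n => ?_)
      intervalIntegrable_const ?_
    · exact (measurable_const.sub measurable_charFun).aestronglyMeasurable
    · refine Eventually.of_forall fun t _ => ?_
      have := hpr n
      calc ‖1 - charFun (P.map (Y n)) t‖ ≤ ‖(1 : ℂ)‖ + ‖charFun (P.map (Y n)) t‖ := norm_sub_le _ _
        _ ≤ 1 + 1 := by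
          rw [norm_one]
          linarith only [norm_charFun_le_one (μ := P.map (Y n)) t]
        _ = 2 := by norm_num
    · refine Eventually.of_forall fun t _ => ?_
      simp only [hμ]
      exact (hc t).const_sub 1
  have hbd : ‖∫ t in (-2 * T⁻¹)..(2 * T⁻¹), 1 - Complex.exp (-((c * t ^ 2 : ℝ) : ℂ))‖ ≤
      ε / 4 * |2 * T⁻¹ - (-2 * T⁻¹)| := by
    refine intervalIntegral.norm_integral_le_of_norm_le_const fun t ht => ?_
    refine hsmall t ?_
    rw [Set.uIoc_of_le (by linarith only [hδ, hTi])] at ht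
    have h1 : |t| ≤ 2 * T⁻¹ := by
      rw [abs_le]
      constructor
      · linarith only [ht.1]
      · exact ht.2
    rw [hTi] at h1
    linarith only [hδ, h1]
  have habs : |2 * T⁻¹ - (-2 * T⁻¹)| = 4 * T⁻¹ := by
    rw [abs_of_nonneg (by linarith only [hδ, hTi])]
    ring
  rw [habs] at hbd
  have hev := hlim.norm.eventually (gt_mem_nhds (lt_of_le_of_lt hbd
    (show ε / 4 * (4 * T⁻¹) < 2 * ε * T⁻¹ by
      have : 0 < ε * T⁻¹ := mul_pos hε (inv_pos.2 hT0)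
      nlinarith only [this])))
  filter_upwards [hev] with n hn
  have := hpr n
  have h1 := measureReal_abs_gt_le_integral_charFun (μ := P.map (Y n)) hT0
  have h2 : (P.map (Y n)).real {x | T < |x|} = P.real {ω | T < |Y n ω|} := by
    rw [map_measureReal_apply (hY n) (measurableSet_lt measurable_const (by fun_prop))]
    rfl
  rw [h2] at h1
  refine h1.trans ?_
  calc 2⁻¹ * T * ‖∫ t in (-2 * T⁻¹)..(2 * T⁻¹), 1 - charFun (P.map (Y n)) t‖
      ≤ 2⁻¹ * T * (2 * ε * T⁻¹) := by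
        refine mul_le_mul_of_nonneg_left hn.le (by positivity)
    _ = ε := by
        field_simp

/-- The pointwise inequality behind the tightness. -/
lemma tg_point {u Y K T : ℝ} (hK : 0 < K) (h : |Y| ≤ T) :
    1 - Real.exp (-((u + Y) ^ 2 / (2 * K ^ 2))) ≤ (u ^ 2 + T ^ 2) / K ^ 2 := by
  have h1 : 1 - (u + Y) ^ 2 / (2 * K ^ 2) ≤ Real.exp (-((u + Y) ^ 2 / (2 * K ^ 2))) := by
    have := Real.add_one_le_exp (-((u + Y) ^ 2 / (2 * K ^ 2)))
    linarith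
  have h2 : (u + Y) ^ 2 / (2 * K ^ 2) ≤ (u ^ 2 + T ^ 2) / K ^ 2 := by
    rw [div_le_div_iff₀ (by positivity) (by positivity)]
    have h3 : Y ^ 2 ≤ T ^ 2 := by
      rw [← sq_abs Y]
      exact pow_le_pow_left₀ (abs_nonneg _) h 2
    have h4 : (u + Y) ^ 2 ≤ 2 * (u ^ 2 + T ^ 2) := by nlinarith only [h3, sq_nonneg (u - Y)]
    calc (u + Y) ^ 2 * K ^ 2 ≤ 2 * (u ^ 2 + T ^ 2) * K ^ 2 :=
          mul_le_mul_of_nonneg_right h4 (by positivity)
      _ = (u ^ 2 + T ^ 2) * (2 * K ^ 2) := by ring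
  linarith only [h1, h2]

/-- `u² exp(-u²/2A²) ≤ (8A²/3) exp(-u²/8A²)`. -/
lemma tg_sqexp {A : ℝ} (hA : 0 < A) (u : ℝ) :
    u ^ 2 * Real.exp (-(u ^ 2 / (2 * A ^ 2))) ≤
      8 * A ^ 2 / 3 * Real.exp (-(u ^ 2 / (2 * (2 * A) ^ 2))) := by
  set x : ℝ := 3 * u ^ 2 / (8 * A ^ 2) with hx
  have h1 : x * Real.exp (-x) ≤ 1 := by
    have h2 : x ≤ Real.exp x := by linarith only [Real.add_one_le_exp x]
    calc x * Real.exp (-x) ≤ Real.exp x * Real.exp (-x) :=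
          mul_le_mul_of_nonneg_right h2 (Real.exp_pos _).le
      _ = 1 := by rw [← Real.exp_add, add_neg_cancel, Real.exp_zero]
  have h2 : u ^ 2 = 8 * A ^ 2 / 3 * x := by
    rw [hx]
    field_simp
  have h3 : -(u ^ 2 / (2 * A ^ 2)) = -x + -(u ^ 2 / (2 * (2 * A) ^ 2)) := by
    rw [hx]
    field_simp
    ring
  calc u ^ 2 * Real.exp (-(u ^ 2 / (2 * A ^ 2)))
      = 8 * A ^ 2 / 3 * (x * Real.exp (-x)) * Real.exp (-(u ^ 2 / (2 * (2 * A) ^ 2))) := by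
        rw [h3, Real.exp_add]
        nth_rewrite 1 [h2]
        ring
    _ ≤ 8 * A ^ 2 / 3 * 1 * Real.exp (-(u ^ 2 / (2 * (2 * A) ^ 2))) := by
        refine mul_le_mul_of_nonneg_right ?_ (Real.exp_pos _).le
        exact mul_le_mul_of_nonneg_left h1 (by positivity)
    _ = _ := by ring

theorem tight_of {P : Measure Fld} [IsProbabilityMeasure P] {φ φ' : ℕ → (ℤ × ℤ) →₀ ℝ}
    (m1 : ∀ n, mass (φ n) = 1) (m2 : ∀ n, mass (φ' n) = 1) {c : ℝ}
    (hc : ∀ t : ℝ, Tendsto (fun n => ∫ ω, Complex.exp (Complex.I *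
      ((t * (ev (φ n) (pth ω) - ev (φ' n) (pth ω)) : ℝ) : ℂ)) ∂P) atTop
      (𝓝 (Complex.exp (-((c * t ^ 2 : ℝ) : ℂ)))))
    {G : ℕ → Hgt → ℂ} {A : ℝ} (hA : 0 < A) (hGm : ∀ n, Measurable (G n))
    (hG : ∀ n h, ‖G n h‖ ≤ Real.exp (-((ev (φ' n) h) ^ 2 / (2 * A ^ 2)))) : Tight P φ G := by
  obtain ⟨C, hC, hg⟩ := tg_sum hA
  obtain ⟨C', hC', hg'⟩ := tg_sum (A := 2 * A) (by positivity)
  intro ε hε
  have hYm : ∀ n, Measurable fun ω : Fld => ev (φ n) (pth ω) - ev (φ' n) (pth ω) := fun n =>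
    (measurable_evp _).sub (measurable_evp _)
  obtain ⟨T, hT, hev⟩ := tg_tail (P := P) hYm hc (ε := ε / (2 * (C + 1))) (by (clear * - hε hC; positivity))
  set M : ℝ := 8 * A ^ 2 / 3 * C' + T ^ 2 * C with hM
  have hM0 : 0 ≤ M := by (clear * - hA hC' hT hC; positivity)
  refine ⟨1 + 2 * M / ε, fun K hK => ?_⟩
  have hK1 : 1 ≤ K := by
    have : 0 ≤ 2 * M / ε := by (clear * - hA hC' hT hC hε; positivity)
    linarith only [hK, this]
  have hK0 : 0 < K := by linarith only [hK1]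
  have hMK : M / K ^ 2 ≤ ε / 2 := by
    rw [div_le_iff₀ (by (clear * - hK1; positivity))]
    have h1 : 2 * M / ε ≤ K := by linarith only [hK]
    rw [div_le_iff₀ hε] at h1
    have h2 : K ≤ K ^ 2 := by nlinarith only [hK1]
    nlinarith only [h1, hε, h2]
  filter_upwards [hev] with n hn
  set S : Set Fld := {ω | T < |ev (φ n) (pth ω) - ev (φ' n) (pth ω)|} with hS
  have hSm : MeasurableSet S := measurableSet_lt measurable_const (hYm n).abs
  have hF : Measurable fun h => ‖G n h‖ * (1 - Real.exp (-((ev (φ n) h) ^ 2 / (2 * K ^ 2)))) :=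
    (hGm n).norm.mul (measurable_const.sub
      (Real.measurable_exp.comp (((measurable_ev (φ n)).pow_const 2).div_const _).neg))
  have h1e : ∀ x : ℝ, 0 ≤ 1 - Real.exp (-(x ^ 2 / (2 * K ^ 2))) := by
    intro x
    have : Real.exp (-(x ^ 2 / (2 * K ^ 2))) ≤ 1 := by
      rw [Real.exp_le_one_iff]
      have : 0 ≤ x ^ 2 / (2 * K ^ 2) := by (clear * - hK1; positivity)
      linarith only [this]
    linarith only [this]
  have h0 : ∀ h, 0 ≤ ‖G n h‖ * (1 - Real.exp (-((ev (φ n) h) ^ 2 / (2 * K ^ 2)))) := fun h =>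
    mul_nonneg (norm_nonneg _) (h1e _)
  -- the dominating series
  set D : Fld → ℤ → ℝ := fun ω k =>
    (8 * A ^ 2 / 3 / K ^ 2) * Real.exp (-((ev (φ' n) (pth ω) + 2 * k) ^ 2 / (2 * (2 * A) ^ 2))) +
      (T ^ 2 / K ^ 2 + S.indicator (fun _ => (1 : ℝ)) ω) *
        Real.exp (-((ev (φ' n) (pth ω) + 2 * k) ^ 2 / (2 * A ^ 2))) with hD
  have hDs : ∀ ω, Summable (D ω) := fun ω =>
    ((hg' (ev (φ' n) (pth ω))).1.mul_left _).add ((hg (ev (φ' n) (pth ω))).1.mul_left _)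
  have hi0 : ∀ ω, 0 ≤ S.indicator (fun _ => (1 : ℝ)) ω := fun ω =>
    Set.indicator_nonneg (fun _ _ => zero_le_one) ω
  have hDt : ∀ ω, ∑' k, D ω k ≤ M / K ^ 2 + S.indicator (fun _ => (1 : ℝ)) ω * C := by
    intro ω
    have e1 : ∑' k, D ω k = (8 * A ^ 2 / 3 / K ^ 2) *
        ∑' k : ℤ, Real.exp (-((ev (φ' n) (pth ω) + 2 * k) ^ 2 / (2 * (2 * A) ^ 2))) +
        (T ^ 2 / K ^ 2 + S.indicator (fun _ => (1 : ℝ)) ω) *
        ∑' k : ℤ, Real.exp (-((ev (φ' n) (pth ω) + 2 * k) ^ 2 / (2 * A ^ 2))) := by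
      rw [← tsum_mul_left, ← tsum_mul_left, ← Summable.tsum_add
        ((hg' (ev (φ' n) (pth ω))).1.mul_left _) ((hg (ev (φ' n) (pth ω))).1.mul_left _)]
    rw [e1]
    have e2 := mul_le_mul_of_nonneg_left (hg' (ev (φ' n) (pth ω))).2
      (show 0 ≤ 8 * A ^ 2 / 3 / K ^ 2 by positivity)
    have e3 := mul_le_mul_of_nonneg_left (hg (ev (φ' n) (pth ω))).2
      (show 0 ≤ T ^ 2 / K ^ 2 + S.indicator (fun _ => (1 : ℝ)) ω by
        have := hi0 ω
        (clear * - hT hK1 this; positivity))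
    refine (add_le_add e2 e3).trans (le_of_eq ?_)
    rw [hM]
    ring
  have hFD : ∀ ω (k : ℤ), ‖G n (fun q => pth ω q + 2 * k)‖ *
      (1 - Real.exp (-((ev (φ n) (fun q => pth ω q + 2 * k)) ^ 2 / (2 * K ^ 2)))) ≤ D ω k := by
    intro ω k
    set u : ℝ := ev (φ' n) (pth ω) + 2 * k with hu
    have hev1 : ev (φ n) (fun q => pth ω q + 2 * k) =
        u + (ev (φ n) (pth ω) - ev (φ' n) (pth ω)) := by
      rw [tg_ev (m1 n), hu]
      ring
    have hGle : ‖G n (fun q => pth ω q + 2 * k)‖ ≤ Real.exp (-(u ^ 2 / (2 * A ^ 2))) := by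
      have := hG n (fun q => pth ω q + 2 * k)
      rwa [tg_ev (m2 n)] at this
    have hle : 1 - Real.exp (-((ev (φ n) (fun q => pth ω q + 2 * k)) ^ 2 / (2 * K ^ 2))) ≤
        (u ^ 2 + T ^ 2) / K ^ 2 + S.indicator (fun _ => (1 : ℝ)) ω := by
      rw [hev1]
      by_cases hω : ω ∈ S
      · rw [Set.indicator_of_mem hω]
        have h2 : 0 ≤ (u ^ 2 + T ^ 2) / K ^ 2 := by (clear * - hT hK1; positivity)
        have h3 := Real.exp_pos (-((u + (ev (φ n) (pth ω) - ev (φ' n) (pth ω))) ^ 2 / (2 * K ^ 2)))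
        linarith only [h2, h3]
      · rw [Set.indicator_of_notMem hω, add_zero]
        exact tg_point hK0 (not_lt.1 hω)
    calc ‖G n (fun q => pth ω q + 2 * k)‖ *
          (1 - Real.exp (-((ev (φ n) (fun q => pth ω q + 2 * k)) ^ 2 / (2 * K ^ 2))))
        ≤ Real.exp (-(u ^ 2 / (2 * A ^ 2))) *
          ((u ^ 2 + T ^ 2) / K ^ 2 + S.indicator (fun _ => (1 : ℝ)) ω) :=
          mul_le_mul hGle hle (h1e _) (Real.exp_pos _).le
      _ = (u ^ 2 * Real.exp (-(u ^ 2 / (2 * A ^ 2)))) / K ^ 2 +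
          (T ^ 2 / K ^ 2 + S.indicator (fun _ => (1 : ℝ)) ω) *
            Real.exp (-(u ^ 2 / (2 * A ^ 2))) := by ring
      _ ≤ (8 * A ^ 2 / 3 * Real.exp (-(u ^ 2 / (2 * (2 * A) ^ 2)))) / K ^ 2 +
          (T ^ 2 / K ^ 2 + S.indicator (fun _ => (1 : ℝ)) ω) *
            Real.exp (-(u ^ 2 / (2 * A ^ 2))) := by
          refine add_le_add (div_le_div_of_nonneg_right (tg_sqexp hA u) (by positivity)) le_rfl
      _ = D ω k := by
          rw [hD]
          ring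
  have hFs : ∀ ω, Summable fun k : ℤ => ‖G n (fun q => pth ω q + 2 * k)‖ *
      (1 - Real.exp (-((ev (φ n) (fun q => pth ω q + 2 * k)) ^ 2 / (2 * K ^ 2)))) := fun ω =>
    Summable.of_nonneg_of_le (fun k => h0 _) (hFD ω) (hDs ω)
  have hbi : Integrable (fun ω => M / K ^ 2 + S.indicator (fun _ => (1 : ℝ)) ω * C) P :=
    (integrable_const _).add (((integrable_const (1 : ℝ)).indicator hSm).mul_const C)
  have hfin := (tg_int (P := P) hF h0 hbi hFs
    (fun ω => ((hFs ω).tsum_le_tsum (hFD ω) (hDs ω)).trans (hDt ω))).2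
  refine hfin.trans ?_
  rw [integral_add (integrable_const _) (((integrable_const (1 : ℝ)).indicator hSm).mul_const C),
    integral_const, integral_mul_const, integral_indicator hSm, setIntegral_const]
  simp only [probReal_univ, smul_eq_mul, mul_one]
  have h5 : P.real S * C ≤ ε / 2 := by
    calc P.real S * C ≤ ε / (2 * (C + 1)) * C := mul_le_mul_of_nonneg_right hn hC
      _ ≤ ε / (2 * (C + 1)) * (C + 1) := by
        refine mul_le_mul_of_nonneg_left (by linarith only []) (by (clear * - hε hC; positivity))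
      _ = ε / 2 := by
        (clear * - hC hε; field_simp)
  linarith only [hMK, h5]

end Vale.Agent.P153.F.SD
end
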