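import Mathlib
import Vale.Agent.P153.Bd5.B13
import Vale.Agent.P153.Bd5.B8
import Vale.Agent.P153.Bd5.B19
import Vale.Agent.P153.Bd5.B15
import Vale.Agent.P153.Bd5.B21
import Vale.Agent.P153.Bd5.B3
import Vale.Agent.P153.Bd5.B4
import Vale.Agent.P153.Bd5.B1
import Vale.Agent.P153.Bd5.B14
import Vale.Agent.P153.Bd5.B11
import Vale.Agent.P153.Bd5.B12
import Vale.Agent.P153.Bd5.B16
import Vale.Agent.P153.Bd5.B7
import Vale.Agent.P153.Bd5.B9

set_option linter.all false

section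

/-!
# P153, block A2: heights and pairs of spins

A height `h` is coded modulo 4 by the pair `(τ, σ)`: `τ = +` for `0, 1` and `σ = 1` for `1, 2`.
`plus h` is the set of the vertices with `τ = +`. For a region `D` such that every vertex off `D`
is the origin of a ray off `D`, the height functions of `D` with free `{0,1}` boundary values are
in bijection with the compatible pairs of spins.
-/

namespace Vale.Agent.P153.Tau

open Finset Vale.Agent.P153

/-- the vertices with `τ = +` -/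
def plus (h : ℤ × ℤ → ℤ) : Set (ℤ × ℤ) := {v | h v % 4 = 0 ∨ h v % 4 = 1}

/-- the spin `σ` -/
def sg (h : ℤ × ℤ → ℤ) (v : ℤ × ℤ) : ZMod 2 := if h v % 4 = 1 ∨ h v % 4 = 2 then 1 else 0

open Classical in
/-- the value of the height modulo 4 -/
noncomputable def code (A : Set (ℤ × ℤ)) (s : ℤ × ℤ → ZMod 2) (v : ℤ × ℤ) : ℤ :=
  if v ∈ A then (if s v = 0 then 0 else 1) else (if s v = 0 then 3 else 2)

/-- `s` is constant on the bichromatic edges of `A` -/
def Comp (A : Set (ℤ × ℤ)) (s : ℤ × ℤ → ZMod 2) : Prop :=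
  ∀ x y, Adj x y → x ∈ A → y ∉ A → s x = s y

theorem code_mod (A : Set (ℤ × ℤ)) (s : ℤ × ℤ → ZMod 2) (v : ℤ × ℤ) :
    code A s v % 4 = code A s v := by
  unfold code
  split_ifs <;> rfl

theorem mod_eq_code (h : ℤ × ℤ → ℤ) (v : ℤ × ℤ) : h v % 4 = code (plus h) (sg h) v := by
  have h1 : h v % 4 = 0 ∨ h v % 4 = 1 ∨ h v % 4 = 2 ∨ h v % 4 = 3 := by omega
  have h2 : v ∈ plus h ↔ h v % 4 = 0 ∨ h v % 4 = 1 := Iff.rfl
  unfold code sg
  rcases h1 with h1 | h1 | h1 | h1 <;> rw [h1] at h2 ⊢ <;> simp [h2]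

theorem of_code {h : ℤ × ℤ → ℤ} {A : Set (ℤ × ℤ)} {s : ℤ × ℤ → ZMod 2}
    (hc : ∀ v, h v % 4 = code A s v) : plus h = A ∧ sg h = s := by
  have h2 : ∀ a : ZMod 2, a = 0 ∨ a = 1 := by decide
  constructor
  · ext v
    have := hc v
    unfold code at this
    unfold plus
    rw [Set.mem_ofPred_eq, this]
    by_cases hv : v ∈ A
    · simp only [hv, if_true, iff_true]
      split_ifs <;> simp
    · simp only [hv, if_false, iff_false]
      split_ifs <;> simp
  · funext v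
    have := hc v
    unfold code at this
    unfold sg
    rw [this]
    rcases h2 (s v) with h3 | h3 <;> by_cases hv : v ∈ A <;> simp [h3, hv]

/-- the step between two codes -/
noncomputable def stp (A : Set (ℤ × ℤ)) (s : ℤ × ℤ → ZMod 2) (x y : ℤ × ℤ) : ℤ :=
  Int.bmod (code A s x - code A s y) 4

theorem code_range (A : Set (ℤ × ℤ)) (s : ℤ × ℤ → ZMod 2) (v : ℤ × ℤ) :
    code A s v = 0 ∨ code A s v = 1 ∨ code A s v = 2 ∨ code A s v = 3 := by
  unfold code
  split_ifs <;> simp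

theorem Comp.ne2 {A : Set (ℤ × ℤ)} {s : ℤ × ℤ → ZMod 2} (h : Comp A s) {x y : ℤ × ℤ}
    (hxy : Adj x y) : (code A s x - code A s y) % 4 ≠ 2 := by
  have h1 := h x y hxy
  have h2 := h y x (Fv.adj_comm'.1 hxy)
  unfold code
  by_cases hx : x ∈ A <;> by_cases hy : y ∈ A
  · simp only [hx, hy, if_true]
    split_ifs <;> simp
  · simp only [hx, hy, if_true, if_false, h1 hx hy]
    split_ifs <;> simp
  · simp only [hx, hy, if_true, if_false, h2 hy hx]
    split_ifs <;> simp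
  · simp only [hx, hy, if_false]
    split_ifs <;> simp

theorem Comp.stp_spec {A : Set (ℤ × ℤ)} {s : ℤ × ℤ → ZMod 2} (h : Comp A s) {x y : ℤ × ℤ}
    (hxy : Adj x y) : |stp A s x y| ≤ 1 ∧ (stp A s x y) % 4 = (code A s x - code A s y) % 4 := by
  have h1 := h.ne2 hxy
  unfold stp
  have h3 := code_range A s x
  have h4 := code_range A s y
  rw [abs_le]
  rcases h3 with h3 | h3 | h3 | h3 <;> rcases h4 with h4 | h4 | h4 | h4 <;>
    rw [h3, h4] at h1 ⊢ <;> first | (exact absurd rfl h1) | decide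

theorem Comp.stp_anti {A : Set (ℤ × ℤ)} {s : ℤ × ℤ → ZMod 2} (h : Comp A s) {x y : ℤ × ℤ}
    (hxy : Adj x y) : stp A s y x = -stp A s x y := by
  obtain ⟨h1, h2⟩ := h.stp_spec hxy
  obtain ⟨h3, h4⟩ := h.stp_spec (Fv.adj_comm'.1 hxy)
  rw [abs_le] at h1 h3
  omega

theorem Comp.stp_tri {A : Set (ℤ × ℤ)} {s : ℤ × ℤ → ZMod 2} (h : Comp A s) {x y z : ℤ × ℤ}
    (hxy : Adj x y) (hyz : Adj y z) (hxz : Adj x z) :
    stp A s x y + stp A s y z = stp A s x z := by
  obtain ⟨h1, h2⟩ := h.stp_spec hxy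
  obtain ⟨h3, h4⟩ := h.stp_spec hyz
  obtain ⟨h5, h6⟩ := h.stp_spec hxz
  rw [abs_le] at h1 h3 h5
  omega

/-- a box containing `D` -/
theorem exists_box (D : Finset (ℤ × ℤ)) : ∃ R : ℤ, ∀ x ∈ D, |x.1| ≤ R ∧ |x.2| ≤ R := by
  refine ⟨∑ x ∈ D, (|x.1| + |x.2|), fun x hx => ?_⟩
  have h1 : |x.1| + |x.2| ≤ ∑ x ∈ D, (|x.1| + |x.2|) :=
    single_le_sum (f := fun x : ℤ × ℤ => |x.1| + |x.2|) (fun y _ => by (clear * -; positivity)) hx
  constructor <;> nlinarith only [h1, abs_nonneg x.1, abs_nonneg x.2]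

/-- the pairs of spins of the region `D` -/
def Pairs (D : Finset (ℤ × ℤ)) (A : Set (ℤ × ℤ)) (s : ℤ × ℤ → ZMod 2) : Prop :=
  (Fv.inner D)ᶜ ⊆ A ∧ (∀ x, x ∉ D → s x = 0) ∧ Comp A s

theorem code_off {D : Finset (ℤ × ℤ)} {A : Set (ℤ × ℤ)} {s : ℤ × ℤ → ZMod 2}
    (h : Pairs D A s) {v : ℤ × ℤ} (hv : v ∉ D) : code A s v = 0 := by
  have h1 : v ∈ A := h.1 fun h2 => hv h2.1
  unfold code
  simp [h1, h.2.1 v hv]

/-- a function with steps at most one and the right values modulo four is determined -/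
theorem lift_unique {h g : ℤ × ℤ → ℤ} {R : ℤ}
    (hl : ∀ v w, Adj v w → |h v - h w| ≤ 1) (gl : ∀ v w, Adj v w → |g v - g w| ≤ 1)
    (hm : ∀ v, h v % 4 = g v % 4) (h0 : ∀ x : ℤ × ℤ, R < |x.1| → h x = g x) : h = g := by
  refine eq_of_sub (R := R) (fun x y hxy => ?_) h0
  have h1 := abs_le.1 (hl x y hxy)
  have h2 := abs_le.1 (gl x y hxy)
  have h3 := hm x
  have h4 := hm y
  omega

theorem reg_inj {D : Finset (ℤ × ℤ)} {h g : ℤ × ℤ → ℤ} (hh : h ∈ Fv.reg D) (hg : g ∈ Fv.reg D)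
    (h1 : plus h = plus g) (h2 : sg h = sg g) : h = g := by
  obtain ⟨R, hR⟩ := exists_box D
  have hm := Fv.mem_reg.1 hh
  have gm := Fv.mem_reg.1 hg
  refine lift_unique (R := R) hm.2.2 gm.2.2
    (fun v => by rw [mod_eq_code, mod_eq_code, h1, h2]) fun x hx => ?_
  have hxD : x ∉ D := fun h3 => absurd (hR x h3).1 (not_le.2 hx)
  rw [hm.1 x hxD, gm.1 x hxD]

end Vale.Agent.P153.Tau
end

section

/-!
P153, block A3, step (20): the heights of a region with connected complement are in bijection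
with the pairs (tau, sigma).
-/

namespace Vale.Agent.P153.A

open Relation
open Vale.Agent.P153.GFF (Ht)
open Vale.Agent.P153.Topo (Conn)
open Vale.Agent.P153.Tau (Coch pot stp code plus sg Pairs)

/-- The potential of a cochain vanishes off `D` if the cochain vanishes on the edges off `D` and
the complement of `D` is connected. -/
theorem bij_pot_off {G : Type*} [AddCommGroup G] {η : ℤ × ℤ → ℤ × ℤ → G} {R : ℤ}
    (h : Coch η R) {D : Finset (ℤ × ℤ)} (hD : Cc D)
    (h0 : ∀ x y, Adj x y → x ∉ D → y ∉ D → η x y = 0) {x : ℤ × ℤ} (hx : x ∉ D) :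
    pot η R x = 0 := by
  obtain ⟨R', hR'⟩ := Tau.exists_box D
  have hy1 : |R'| + |R| + 1 ≤ |(|R'| + |R| + 1)| := le_abs_self _
  have hy : ((|R'| + |R| + 1, 0) : ℤ × ℤ) ∉ D := by
    intro hy
    have h1 := (hR' _ hy).1
    have h2 := le_abs_self R'
    have h3 := abs_nonneg R
    simp only at h1
    omega
  have hc := hD x _ hx hy
  have key : pot η R ((|R'| + |R| + 1, 0) : ℤ × ℤ) = pot η R x := by
    refine Conn.ind (S := ((D : Set (ℤ × ℤ))ᶜ)) (fun z => pot η R z = pot η R x) rfl ?_ hc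
    intro u v hu huv hv ih
    have hu' : u ∉ D := fun h' => hu.right_mem (Finset.mem_coe.2 h')
    have hv' : v ∉ D := fun h' => hv (Finset.mem_coe.2 h')
    have h1 := h.sub huv
    rw [h0 u v huv hu' hv', sub_eq_zero] at h1
    show pot η R v = pot η R x
    rw [← h1, ih]
  rw [← key]
  refine h.pot_far (Or.inl ?_)
  have h2 := le_abs_self R
  have h3 := abs_nonneg R'
  simp only
  omega

/-- Existence of the height function of a pair of spins. -/
theorem bij_lift {D : Finset (ℤ × ℤ)} (hD : Cc D) {A : Set (ℤ × ℤ)} {s : ℤ × ℤ → ZMod 2}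
    (h : Pairs D A s) : ∃ g ∈ Fv.reg D, plus g = A ∧ sg g = s := by
  obtain ⟨R, hR⟩ := Tau.exists_box D
  have hc := h.2.2
  have hoff : ∀ x y, Adj x y → x ∉ D → y ∉ D → stp A s x y = 0 := by
    intro x y _ hx hy
    unfold stp
    rw [Tau.code_off h hx, Tau.code_off h hy]
    rfl
  have hadj : ∀ x y : ℤ × ℤ, Adj x y → |x.1 - y.1| ≤ 1 ∧ |x.2 - y.2| ≤ 1 := by
    intro x y hxy
    rcases Fv.adj_iff.1 hxy with ⟨h1, h2⟩ | ⟨h1, h2⟩ | ⟨h1, h2⟩ | ⟨h1, h2⟩ | ⟨h1, h2⟩ | ⟨h1, h2⟩ <;>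
      rw [h1, h2] <;> simp
  have hη : Coch (stp A s) (R + 1) := by
    refine ⟨fun x y hxy => hc.stp_anti hxy, fun x y z hxy hyz hxz => hc.stp_tri hxy hyz hxz,
      fun x y hxy hx => hoff x y hxy (fun hxD => ?_) fun hyD => ?_⟩
    · have := hR x hxD
      omega
    · have h1 := hR y hyD
      obtain ⟨h2, h3⟩ := hadj x y hxy
      rw [abs_le] at h1 h2 h3
      rw [abs_le] at h1
      simp only [lt_abs] at hx
      omega
  set g := pot (stp A s) (R + 1) with hg
  have hsub : ∀ x y, Adj x y → g x - g y = stp A s x y := fun x y hxy => hη.sub hxy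
  have hl : ∀ v w, Adj v w → |g v - g w| ≤ 1 := by
    intro v w hvw
    rw [hsub v w hvw]
    exact (hc.stp_spec hvw).1
  have h0 : ∀ x, x ∉ D → g x = 0 := fun x hx => bij_pot_off hη hD hoff hx
  have hmod : ∀ v, g v % 4 = code A s v := by
    have e : (fun v => ((g v : ℤ) : ZMod 4)) = fun v => ((code A s v : ℤ) : ZMod 4) := by
      refine Tau.eq_of_sub (R := R) (fun x y hxy => ?_) fun x hx => ?_
      · rw [← Int.cast_sub, ← Int.cast_sub, hsub x y hxy]
        have h2 := (hc.stp_spec hxy).2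
        exact (ZMod.intCast_eq_intCast_iff' _ _ 4).2 (by exact_mod_cast h2)
      · have hxD : x ∉ D := fun h3 => absurd (hR x h3).1 (not_le.2 hx)
        simp only [h0 x hxD, Tau.code_off h hxD]
    intro v
    have h2 : ((g v : ℤ) : ZMod 4) = ((code A s v : ℤ) : ZMod 4) := congrFun e v
    have h3 := (ZMod.intCast_eq_intCast_iff' _ _ 4).1 h2
    rw [← Tau.code_mod A s v]
    exact_mod_cast h3
  refine ⟨g, Fv.mem_reg.2 ⟨h0, fun v hv hv' => ?_, hl⟩, Tau.of_code hmod⟩
  have h1 : v ∈ A := h.1 hv'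
  have h2 : ∃ w, Adj v w ∧ w ∉ D := by
    by_contra hcon
    push Not at hcon
    exact hv' ⟨hv, hcon⟩
  obtain ⟨w, hw, hwD⟩ := h2
  have h3 := abs_le.1 (hl v w hw)
  rw [h0 w hwD, sub_zero] at h3
  have h4 := hmod v
  unfold code at h4
  rw [if_pos h1] at h4
  split_ifs at h4 <;> omega

/-- The two descriptions of the height functions of a region agree. -/
theorem bij_mem_Ht {D : Finset Pt} {φ : Pt → ℤ} : φ ∈ Ht D ↔ φ ∈ Fv.reg D := by
  rw [Fv.mem_reg]
  constructor
  · rintro ⟨h1, h2⟩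
    refine ⟨fun v hv => (h1 v).1 hv, fun v hv hv' => (h1 v).2 ?_, h2⟩
    by_contra hcon
    push Not at hcon
    exact hv' ⟨hv, hcon⟩
  · rintro ⟨h1, h2, h3⟩
    refine ⟨fun v => ⟨h1 v, ?_⟩, h3⟩
    rintro ⟨w, hw, hwD⟩
    by_cases hv : v ∈ D
    · exact h2 v hv fun h => hwD (h.2 w hw)
    · exact Or.inl (h1 v hv)

/-- the first code -/
theorem bij_enc_fst {a : ℤ} : (enc a).1 = true ↔ a % 4 = 0 ∨ a % 4 = 1 := by
  simp only [enc, EuclideanDomain.mod_eq_zero, Bool.decide_or, Bool.or_eq_true, decide_eq_true_eq]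

/-- the second code -/
theorem bij_enc_snd {a : ℤ} : (enc a).2 = true ↔ a % 4 = 1 ∨ a % 4 = 2 := by
  simp only [enc, EuclideanDomain.mod_eq_zero, Bool.decide_or, Bool.or_eq_true, decide_eq_true_eq]

theorem bij_sg {φ : Pt → ℤ} (x : Pt) : sg φ x = if (enc (φ x)).2 = true then 1 else 0 := by
  unfold sg
  by_cases h : φ x % 4 = 1 ∨ φ x % 4 = 2
  · rw [if_pos h, if_pos (bij_enc_snd.2 h)]
  · rw [if_neg h, if_neg fun h' => h (bij_enc_snd.1 h')]

theorem bij_plus {φ : Pt → ℤ} (x : Pt) : x ∈ plus φ ↔ (enc (φ x)).1 = true := by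
  rw [bij_enc_fst]
  exact Iff.rfl

/-- The codes of a Lipschitz function are compatible. -/
theorem bij_comp {φ : Pt → ℤ} (h : ∀ x y, Adj x y → |φ x - φ y| ≤ 1) :
    Comp fun x => enc (φ x) := by
  intro x y hxy
  have h1 := abs_le.1 (h x y hxy)
  by_contra hcon
  push Not at hcon
  obtain ⟨h2, h3⟩ := hcon
  simp only [enc, ne_eq, decide_eq_decide] at h2 h3
  omega

/-- (20) -/
theorem s_bij : S_bij := by
  intro D hD
  refine ⟨?_, ?_, ?_⟩
  · intro φ hφ
    have hφ := bij_mem_Ht.1 hφ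
    obtain ⟨h1, h2, h3⟩ := Fv.mem_reg.1 hφ
    refine ⟨bij_comp h3, fun x hx => ?_, fun x hx => ?_⟩
    · show (enc (φ x)).1 = true
      rw [bij_enc_fst]
      by_cases hD : x ∈ D
      · rcases h2 x hD hx with h4 | h4 <;> simp [h4]
      · simp [h1 x hD]
    · show (enc (φ x)).2 = false
      rw [h1 x hx]
      rfl
  · intro φ hφ ψ hψ h
    have h' : ∀ x, enc (φ x) = enc (ψ x) := fun x => congrFun h x
    refine Tau.reg_inj (bij_mem_Ht.1 hφ) (bij_mem_Ht.1 hψ) ?_ ?_
    · ext x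
      rw [bij_plus, bij_plus, h' x]
    · funext x
      rw [bij_sg, bij_sg, h' x]
  · intro ω hω
    obtain ⟨h1, h2, h3⟩ := hω
    have hP : Pairs D {v | (ω v).1 = true} (fun v => if (ω v).2 = true then 1 else 0) := by
      refine ⟨fun v hv => h2 v hv, fun v hv => ?_, fun x y hxy hx hy => ?_⟩
      · simp [h3 v hv]
      · rcases h1 x y hxy with h4 | h4
        · have hx' : (ω x).1 = true := hx
          exact absurd (h4.symm.trans hx') hy
        · simp only [h4]
    obtain ⟨g, hg, hg1, hg2⟩ := bij_lift hD hP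
    refine ⟨g, bij_mem_Ht.2 hg, ?_⟩
    funext x
    have e1 : (enc (g x)).1 = true ↔ (ω x).1 = true := by
      rw [← bij_plus, hg1]
      exact Iff.rfl
    have e2 : (enc (g x)).2 = true ↔ (ω x).2 = true := by
      have h4 := congrFun hg2 x
      rw [bij_sg] at h4
      by_cases h5 : (ω x).2 = true <;> by_cases h6 : (enc (g x)).2 = true <;>
        simp [h5, h6] at h4 ⊢
    exact Prod.ext (Bool.eq_iff_iff.2 e1) (Bool.eq_iff_iff.2 e2)

end Vale.Agent.P153.A
end

section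

/-!
P153, block A3 (13): given tau, the spin sigma is given by fair coins on the bichromatic clusters.
-/

namespace Vale.Agent.P153.A

open MeasureTheory Filter Topology Relation Finset
open Vale.Agent.P153.GFF (Adj)

/-- average over a finite group through a surjective homomorphism -/
theorem avg_hom {G H : Type*} [AddCommGroup G] [AddCommGroup H] [Fintype G] [Fintype H]
    (f : G →+ H) (hf : Function.Surjective f) (φ : H → ℝ) :
    (∑ g, φ (f g)) / Fintype.card G = (∑ h, φ h) / Fintype.card H := by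
  classical
  have hc : ∀ h : H, #{g : G | f g = h} = #{g : G | f g = 0} := fun h =>
    AddMonoidHom.card_fiber_eq_of_mem_range f (hf h) (hf 0)
  have h0 : 0 < #{g : G | f g = 0} := by
    rw [card_pos]
    exact ⟨0, by simp only [mem_filter, mem_univ, map_zero, and_self]⟩
  have e1 : ∑ g, φ (f g) = #{g : G | f g = 0} * ∑ h, φ h := by
    rw [← sum_fiberwise (s := (univ : Finset G)) (g := f), mul_sum]
    refine sum_congr rfl fun h _ => ?_
    rw [sum_congr rfl (g := fun _ => φ h) (fun g hg => by rw [(mem_filter.1 hg).2]), sum_const,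
      nsmul_eq_mul, hc h]
  have e2 : (Fintype.card G : ℝ) = #{g : G | f g = 0} * Fintype.card H := by
    have := sum_fiberwise (s := (univ : Finset G)) (g := f) (f := fun _ => (1 : ℝ))
    simp only [sum_const, card_univ, nsmul_eq_mul, mul_one] at this
    rw [← this, sum_congr rfl (fun h _ => by rw [hc h]), sum_const, card_univ, nsmul_eq_mul]
    ring
  have h0' : (0 : ℝ) < #{g : G | f g = 0} := by exact_mod_cast h0
  rw [e1, e2, mul_div_mul_left _ _ h0'.ne']

theorem adj_symm {x y : Pt} (h : Adj x y) : Adj y x := Fv.adj_comm'.1 h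

theorem Bich.symm {S : Set Pt} {τ : Sp} {x y : Pt} (h : Bich S τ x y) : Bich S τ y x := by
  unfold Bich at *
  induction h with
  | refl => exact ReflTransGen.refl
  | tail _ h2 ih =>
    exact ReflTransGen.head ⟨adj_symm h2.1, h2.2.1.symm, h2.2.2.2, h2.2.2.1⟩ ih

theorem Bich.trans' {S : Set Pt} {τ : Sp} {x y z : Pt} (h : Bich S τ x y) (h' : Bich S τ y z) :
    Bich S τ x z := ReflTransGen.trans h h'

theorem Bich.one {τ : Sp} {x y : Pt} (h : Adj x y) (h' : τ x ≠ τ y) : Bich Set.univ τ x y :=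
  ReflTransGen.single ⟨h, h', trivial, trivial⟩

/-- a vertex off `D` is isolated -/
theorem bich_off {D : Finset Pt} {τ : Sp} (hτ : τ ∈ Adm D) {x y : Pt} (hx : x ∉ D)
    (h : Bich Set.univ τ x y) : y = x := by
  rcases ReflTransGen.cases_head h with h1 | ⟨u, ⟨h1, h2, -, -⟩, -⟩
  · exact h1.symm
  · exfalso
    have h3 : τ x = true := hτ x fun h4 => hx h4.1
    have h4 : u ∈ inn D := by
      by_contra h5
      exact h2 (h3.trans (hτ u h5).symm)
    exact hx (h4.2 x (adj_symm h1))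

theorem finite_supp (D : Finset Pt) : {s : Sp | ∀ x, x ∉ D → s x = false}.Finite := by
  classical
  apply Set.Finite.of_finite_image (f := fun h : Sp => fun x : D => h x)
  · exact Set.toFinite _
  · intro h hh g hg hhg
    funext x
    by_cases hx : x ∈ D
    · exact congrFun hhg ⟨x, hx⟩
    · rw [hh x hx, hg x hx]

theorem finite_G (D : Finset Pt) (τ : Sp) : (G D τ : Set Sp).Finite :=
  (finite_supp D).subset fun _ hs => hs.1

/-- the functions on `B` which are constant on the classes of `r` -/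
def TT (B : Finset Pt) (r : Pt → Pt → Prop) : AddSubgroup Sp where
  carrier := {t : Sp | (∀ x, x ∉ B → t x = false) ∧ ∀ x ∈ B, ∀ y ∈ B, r x y → t x = t y}
  add_mem' := by
    rintro a b ⟨ha, ha'⟩ ⟨hb, hb'⟩
    refine ⟨fun x hx => ?_, fun x hx y hy h => ?_⟩
    · show xor (a x) (b x) = false
      rw [ha x hx, hb x hx]; rfl
    · show xor (a x) (b x) = xor (a y) (b y)
      rw [ha' x hx y hy h, hb' x hx y hy h]
  zero_mem' := ⟨fun _ _ => rfl, fun _ _ _ _ _ => rfl⟩
  neg_mem' := fun {a} ha => ha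

theorem finite_TT (B : Finset Pt) (r : Pt → Pt → Prop) : (TT B r : Set Sp).Finite :=
  (finite_supp B).subset fun _ hs => hs.1

open Classical in
/-- restriction to `B` -/
noncomputable def res (B : Finset Pt) (s : Sp) : Sp := fun x => if x ∈ B then s x else false

theorem G_bich {D : Finset Pt} {τ s : Sp} (hs : s ∈ G D τ) {x y : Pt}
    (h : Bich Set.univ τ x y) : s x = s y := by
  induction h with
  | refl => rfl
  | tail _ h2 ih => exact ih.trans (hs.2 _ _ h2.1 h2.2.1)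

open Classical in
/-- extension of a function on `B` to the clusters -/
noncomputable def ext (B : Finset Pt) (τ t : Sp) : Sp := fun x =>
  if h : ∃ b ∈ B, Bich Set.univ τ x b then t h.choose else false

theorem ext_eq {B : Finset Pt} {τ t : Sp} (ht : t ∈ TT B (Bich Set.univ τ)) {x b : Pt} (hb : b ∈ B)
    (h : Bich Set.univ τ x b) : ext B τ t x = t b := by
  have h1 : ∃ b ∈ B, Bich Set.univ τ x b := ⟨b, hb, h⟩
  have h2 := h1.choose_spec
  rw [ext, dif_pos h1]
  exact ht.2 _ h2.1 _ hb (h2.2.symm.trans' h)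

theorem ext_mem {D B : Finset Pt} {τ t : Sp} (hB : B ⊆ D) (hτ : τ ∈ Adm D)
    (ht : t ∈ TT B (Bich Set.univ τ)) : ext B τ t ∈ G D τ := by
  refine ⟨fun x hx => ?_, fun x y hxy h => ?_⟩
  · rw [ext, dif_neg]
    rintro ⟨b, hb, h⟩
    have := bich_off hτ hx h
    exact hx (this ▸ hB hb)
  · by_cases h1 : ∃ b ∈ B, Bich Set.univ τ x b
    · obtain ⟨b, hb, h2⟩ := h1
      rw [ext_eq ht hb h2, ext_eq ht hb ((Bich.one hxy h).symm.trans' h2)]
    · have h3 : ¬ ∃ b ∈ B, Bich Set.univ τ y b := by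
        rintro ⟨b, hb, h2⟩
        exact h1 ⟨b, hb, (Bich.one hxy h).trans' h2⟩
      rw [ext, dif_neg h1, ext, dif_neg h3]

theorem s_coin : S_coin := by
  classical
  intro D B F τ hB hF hτ
  have : Finite (G D τ) := (finite_G D τ).to_subtype
  have : Finite (TT B (Bich Set.univ τ)) := (finite_TT B _).to_subtype
  let _ := Fintype.ofFinite (G D τ)
  let _ := Fintype.ofFinite (TT B (Bich Set.univ τ))
  let f : G D τ →+ TT B (Bich Set.univ τ) :=
    { toFun := fun s => ⟨res B s.1, fun x hx => by simp [res, hx], fun x hx y hy h => by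
        simp only [res, hx, hy, if_true]
        exact G_bich s.2 h⟩
      map_zero' := by
        apply Subtype.ext
        funext x
        show (if x ∈ B then false else false) = false
        split_ifs <;> rfl
      map_add' := fun a b => by
        apply Subtype.ext
        funext x
        show (if x ∈ B then xor (a.1 x) (b.1 x) else false) =
          xor (if x ∈ B then a.1 x else false) (if x ∈ B then b.1 x else false)
        split_ifs <;> simp }
  have hf : Function.Surjective f := by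
    rintro ⟨t, ht⟩
    refine ⟨⟨ext B τ t, ext_mem hB hτ ht⟩, ?_⟩
    apply Subtype.ext
    funext x
    show (if x ∈ B then ext B τ t x else false) = t x
    split_ifs with hx
    · exact ext_eq ht hx ReflTransGen.refl
    · exact (ht.1 x hx).symm
  have key := avg_hom f hf fun t => F (pr τ t.1)
  have e1 : ∀ s : G D τ, F (pr τ (f s).1) = F (pr τ s.1) := by
    intro s
    refine hF _ _ fun x hx => ?_
    show (τ x, if x ∈ B then s.1 x else false) = (τ x, s.1 x)
    rw [if_pos hx]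
  simp only [e1] at key
  unfold coin w
  rw [← finsum_set_coe_eq_finsum_mem (G D τ : Set Sp),
    ← finsum_set_coe_eq_finsum_mem {t : Sp | (∀ x, x ∉ B → t x = false) ∧
      ∀ x ∈ B, ∀ y ∈ B, Bich Set.univ τ x y → t x = t y}]
  have e2 : (∑ᶠ s : (G D τ : Set Sp), F (pr τ s.1)) = ∑ s : G D τ, F (pr τ s.1) :=
    finsum_eq_sum_of_fintype (fun s : G D τ => F (pr τ s.1))
  have e3 : (∑ᶠ s : {t : Sp | (∀ x, x ∉ B → t x = false) ∧
      ∀ x ∈ B, ∀ y ∈ B, Bich Set.univ τ x y → t x = t y}, F (pr τ s.1)) =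
      ∑ s : TT B (Bich Set.univ τ), F (pr τ s.1) :=
    finsum_eq_sum_of_fintype (fun s : TT B (Bich Set.univ τ) => F (pr τ s.1))
  rw [e2, e3, Nat.card_eq_fintype_card, key]
  congr 1
  rw [← Nat.card_coe_set_eq, ← Nat.card_eq_fintype_card]
  rfl

end Vale.Agent.P153.A
end

section

/-!
P153, block A3 (16): the coin average of a product of two distant even functions factorises.
-/

namespace Vale.Agent.P153.A

open MeasureTheory Filter Topology Relation Finset
open Vale.Agent.P153.GFF (Adj)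

/-- the coin average is a finite average -/
theorem coin_eq_avg (B : Finset Pt) (r : Pt → Pt → Prop) (F : Om → ℝ) (τ : Sp)
    [Fintype (TT B r)] :
    coin B r F τ = (∑ t : TT B r, F (pr τ t.1)) / Fintype.card (TT B r) := by
  unfold coin
  rw [← finsum_set_coe_eq_finsum_mem {t : Sp | (∀ x, x ∉ B → t x = false) ∧
      ∀ x ∈ B, ∀ y ∈ B, r x y → t x = t y}]
  have e3 : (∑ᶠ s : {t : Sp | (∀ x, x ∉ B → t x = false) ∧
      ∀ x ∈ B, ∀ y ∈ B, r x y → t x = t y}, F (pr τ s.1)) =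
      ∑ s : TT B r, F (pr τ s.1) :=
    finsum_eq_sum_of_fintype (fun s : TT B r => F (pr τ s.1))
  rw [e3]
  congr 1
  rw [← Nat.card_coe_set_eq, ← Nat.card_eq_fintype_card]
  rfl

theorem adj_add {x y : Pt} (z : Pt) : Adj (x + z) (y + z) ↔ Adj x y := by
  simp only [adj_iff_st, Step, Prod.fst_add, Prod.snd_add]
  constructor <;> intro h <;> rcases h with h | h | h | h | h | h <;> omega

theorem bich_tr {τ : Sp} (z : Pt) {x y : Pt} (h : Bich Set.univ (tr z τ) x y) :
    Bich Set.univ τ (x + z) (y + z) := by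
  unfold Bich at *
  refine ReflTransGen.lift (fun u => u + z) ?_ _ _ h
  rintro u v ⟨h1, h2, -, -⟩
  exact ⟨(adj_add z).2 h1, h2, trivial, trivial⟩

theorem bich_tr' {τ : Sp} (z : Pt) {x y : Pt} (h : Bich Set.univ τ (x + z) (y + z)) :
    Bich Set.univ (tr z τ) x y := by
  have h1 : Bich Set.univ (tr (-z) (tr z τ)) (x + z) (y + z) := by
    have : tr (-z) (tr z τ) = τ := by
      funext u
      simp [tr]
    rw [this]; exact h
  have h2 := bich_tr (-z) h1
  simpa using h2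

theorem mem_bx {R : ℕ} {x : Pt} (h : x ∈ bx R) : |x.1| ≤ R ∧ |x.2| ≤ R := by
  unfold bx at h
  rw [Finset.mem_product, Finset.mem_Icc, Finset.mem_Icc] at h
  rw [abs_le, abs_le]
  exact h

theorem far_sep {R : ℕ} {z : Pt} (hz : 2 * (R : ℤ) + 4 < |z.1| ∨ 2 * (R : ℤ) + 4 < |z.2|)
    {x y : Pt} (hx : x ∈ bx R) (hy : y ∈ bx R) : x ≠ y + z := by
  rintro rfl
  obtain ⟨h1, h2⟩ := mem_bx hx
  obtain ⟨h3, h4⟩ := mem_bx hy
  simp only [Prod.fst_add, Prod.snd_add] at h1 h2
  rw [abs_le] at h1 h2 h3 h4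
  rcases hz with hz | hz
  · rcases lt_abs.1 hz with h | h <;> omega
  · rcases lt_abs.1 hz with h | h <;> omega

/-- a vertex of `B` which is joined to a vertex off `bx R` reaches the outside inside
`bx (R + 1)`. -/
theorem reach_out {R : ℕ} {τ : Sp} {x y : Pt} (hx : x ∈ bx R) (hy : y ∉ bx R)
    (h : Bich Set.univ τ x y) : ∃ u, u ∉ bx R ∧ Bich (bx (R + 1)) τ x u := by
  by_cases h1 : Bich (bx (R + 1)) τ x y
  · exact ⟨y, hy, h1⟩
  · exact bich_out hx h h1

theorem bich_univ {S : Set Pt} {τ : Sp} {x y : Pt} (h : Bich S τ x y) : Bich Set.univ τ x y := by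
  unfold Bich at *
  exact ReflTransGen.mono (fun u v h => ⟨h.1, h.2.1, trivial, trivial⟩) _ _ h

theorem coin_far {R : ℕ} {B : Finset Pt} {F F' : Om → ℝ} (hB : B ⊆ bx R) (hF : Loc B F)
    (hF' : Loc B F') (hFn : ∀ ω, F (neg ω) = F ω) {z : Pt}
    (hz : 2 * (R : ℤ) + 4 < |z.1| ∨ 2 * (R : ℤ) + 4 < |z.2|) (τ : Sp)
    (hfar : ∀ x ∈ B, ∀ y ∈ B, τ ∉ Far R x y) :
    coin (B ∪ B.image (· + z)) (Bich Set.univ τ) (fun ω => F ω * F' (tr z ω)) τ =
      coin B (Bich Set.univ τ) F τ * coin B (Bich Set.univ (tr z τ)) F' (tr z τ) := by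
  classical
  set C := B ∪ B.image (· + z) with hC
  set r := Bich Set.univ τ with hr
  set r' := Bich Set.univ (tr z τ) with hr'
  have : Finite (TT C r) := (finite_TT C r).to_subtype
  have : Finite (TT B r) := (finite_TT B r).to_subtype
  have : Finite (TT B r') := (finite_TT B r').to_subtype
  let _ := Fintype.ofFinite (TT C r)
  let _ := Fintype.ofFinite (TT B r)
  let _ := Fintype.ofFinite (TT B r')
  have hBC : ∀ x ∈ B, x ∈ C := fun x hx => Finset.mem_union_left _ hx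
  have hBC' : ∀ x ∈ B, x + z ∈ C := fun x hx =>
    Finset.mem_union_right _ (Finset.mem_image_of_mem _ hx)
  have hout : ∀ y ∈ B, y + z ∉ bx R := fun y hy h => far_sep hz h (hB hy) rfl
  -- all points of `B` joined to the other box are joined
  have hcross : ∀ x ∈ B, ∀ y ∈ B, ∀ x' ∈ B, ∀ y' ∈ B, r x (y + z) → r x' (y' + z) → r x x' := by
    intro x hx y hy x' hx' y' hy' h h'
    by_contra hn
    exact hfar x hx x' hx' ⟨fun h1 => hn (bich_univ h1), reach_out (hB hx) (hout y hy) h,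
      reach_out (hB hx') (hout y' hy') h'⟩
  let f : TT C r × Bool →+ TT B r × TT B r' :=
    { toFun := fun p =>
        (⟨fun x => if x ∈ B then xor (p.1.1 x) p.2 else false, fun x hx => by simp [hx],
          fun x hx y hy h => by
            simp only [hx, hy, if_true]
            rw [p.1.2.2 x (hBC x hx) y (hBC y hy) h]⟩,
         ⟨fun x => if x ∈ B then p.1.1 (x + z) else false, fun x hx => by simp [hx],
          fun x hx y hy h => by
            simp only [hx, hy, if_true]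
            exact p.1.2.2 _ (hBC' x hx) _ (hBC' y hy) (bich_tr z h)⟩)
      map_zero' := by
        apply Prod.ext
        · apply Subtype.ext
          funext x
          show (if x ∈ B then xor false false else false) = false
          split_ifs <;> rfl
        · apply Subtype.ext
          funext x
          show (if x ∈ B then false else false) = false
          split_ifs <;> rfl
      map_add' := fun a b => by
        apply Prod.ext
        · apply Subtype.ext
          funext x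
          show (if x ∈ B then xor (xor (a.1.1 x) (b.1.1 x)) (xor a.2 b.2) else false) =
            xor (if x ∈ B then xor (a.1.1 x) a.2 else false)
              (if x ∈ B then xor (b.1.1 x) b.2 else false)
          split_ifs
          · cases a.1.1 x <;> cases b.1.1 x <;> cases a.2 <;> cases b.2 <;> rfl
          · rfl
        · apply Subtype.ext
          funext x
          show (if x ∈ B then xor (a.1.1 (x + z)) (b.1.1 (x + z)) else false) =
            xor (if x ∈ B then a.1.1 (x + z) else false) (if x ∈ B then b.1.1 (x + z) else false)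
          split_ifs <;> simp }
  -- gluing
  have glue : ∀ a ∈ TT B r, ∀ b ∈ TT B r', (∀ x ∈ B, ∀ y ∈ B, r x (y + z) → a x = b y) →
      ∃ t : TT C r, (∀ x ∈ B, t.1 x = a x) ∧ ∀ x ∈ B, t.1 (x + z) = b x := by
    intro a ha b hb hab
    let t : Sp := fun x => if x ∈ B then a x else if x - z ∈ B then b (x - z) else false
    have t1 : ∀ x ∈ B, t x = a x := fun x hx => by simp only [t, hx, if_true]
    have t2 : ∀ x ∈ B, t (x + z) = b x := fun x hx => by
      have hn : x + z ∉ B := fun h => hout x hx (hB h)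
      have hz' : x + z - z = x := by abel
      simp only [t, hn, if_false, hz', hx, if_true]
    refine ⟨⟨t, fun x hx => ?_, fun x hx y hy h => ?_⟩, t1, t2⟩
    · have h1 : x ∉ B := fun h => hx (hBC x h)
      have h2 : x - z ∉ B := fun h => hx (by simpa using hBC' _ h)
      simp only [t, h1, h2, if_false]
    · rw [hC, Finset.mem_union, Finset.mem_image] at hx hy
      rcases hx with hx | ⟨x', hx', rfl⟩ <;> rcases hy with hy | ⟨y', hy', rfl⟩
      · rw [t1 x hx, t1 y hy]; exact ha.2 x hx y hy h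
      · rw [t1 x hx]
        show a x = t (y' + z)
        rw [t2 y' hy']; exact hab x hx y' hy' h
      · rw [t1 y hy]
        show t (x' + z) = a y
        rw [t2 x' hx']; exact (hab y hy x' hx' h.symm).symm
      · show t (x' + z) = t (y' + z)
        rw [t2 x' hx', t2 y' hy']
        exact hb.2 x' hx' y' hy' (bich_tr' z h)
  have hf : Function.Surjective f := by
    rintro ⟨⟨a, ha⟩, ⟨b, hb⟩⟩
    by_cases hab : ∀ x ∈ B, ∀ y ∈ B, r x (y + z) → a x = b y
    · obtain ⟨t, h1, h2⟩ := glue a ha b hb hab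
      refine ⟨(t, false), ?_⟩
      apply Prod.ext
      · apply Subtype.ext
        funext x
        show (if x ∈ B then xor (t.1 x) false else false) = a x
        split_ifs with hx
        · rw [h1 x hx, Bool.xor_false]
        · exact (ha.1 x hx).symm
      · apply Subtype.ext
        funext x
        show (if x ∈ B then t.1 (x + z) else false) = b x
        split_ifs with hx
        · exact h2 x hx
        · exact (hb.1 x hx).symm
    · push Not at hab
      obtain ⟨x0, hx0, y0, hy0, h0, hne⟩ := hab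
      let a' : Sp := fun x => if x ∈ B then !(a x) else false
      have ha' : a' ∈ TT B r := ⟨fun x hx => by simp [a', hx], fun x hx y hy h => by
        simp only [a', hx, hy, if_true]
        rw [ha.2 x hx y hy h]⟩
      have hab' : ∀ x ∈ B, ∀ y ∈ B, r x (y + z) → a' x = b y := by
        intro x hx y hy h
        have e1 : a x = a x0 := ha.2 x hx x0 hx0 (hcross x hx y hy x0 hx0 y0 hy0 h h0)
        have e2 : b y = b y0 := by
          refine hb.2 y hy y0 hy0 (bich_tr' z ?_)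
          exact (h.symm.trans' (hcross x hx y hy x0 hx0 y0 hy0 h h0)).trans' h0
        simp only [a', hx, if_true]
        rw [e1, e2]
        revert hne
        cases a x0 <;> cases b y0 <;> simp
      obtain ⟨t, h1, h2⟩ := glue a' ha' b hb hab'
      refine ⟨(t, true), ?_⟩
      apply Prod.ext
      · apply Subtype.ext
        funext x
        show (if x ∈ B then xor (t.1 x) true else false) = a x
        split_ifs with hx
        · rw [h1 x hx]
          simp only [a', hx, if_true]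
          cases a x <;> rfl
        · exact (ha.1 x hx).symm
      · apply Subtype.ext
        funext x
        show (if x ∈ B then t.1 (x + z) else false) = b x
        split_ifs with hx
        · exact h2 x hx
        · exact (hb.1 x hx).symm
  have key := avg_hom f hf fun p => F (pr τ p.1.1) * F' (pr (tr z τ) p.2.1)
  have e1 : ∀ p : TT C r × Bool, F (pr τ (f p).1.1) * F' (pr (tr z τ) (f p).2.1) =
      F (pr τ p.1.1) * F' (tr z (pr τ p.1.1)) := by
    rintro ⟨t, ε⟩
    congr 1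
    · cases ε
      · refine hF _ _ fun x hx => ?_
        show (τ x, if x ∈ B then xor (t.1 x) false else false) = (τ x, t.1 x)
        rw [if_pos hx, Bool.xor_false]
      · rw [← hFn (pr τ t.1)]
        refine hF _ _ fun x hx => ?_
        show (τ x, if x ∈ B then xor (t.1 x) true else false) = (τ x, !(t.1 x))
        rw [if_pos hx, Bool.xor_true]
    · refine hF' _ _ fun x hx => ?_
      show (τ (x + z), if x ∈ B then t.1 (x + z) else false) = (τ (x + z), t.1 (x + z))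
      rw [if_pos hx]
  simp only [e1] at key
  rw [Fintype.sum_prod_type, Fintype.sum_prod_type, Fintype.card_prod, Fintype.card_prod,
    Fintype.card_bool] at key
  simp only [Finset.sum_const, Finset.card_univ, Fintype.card_bool] at key
  rw [coin_eq_avg, coin_eq_avg, coin_eq_avg]
  have hc : (Fintype.card (TT C r) : ℝ) ≠ 0 := by
    exact_mod_cast (Fintype.card_pos (α := TT C r)).ne'
  calc (∑ t : TT C r, F (pr τ t.1) * F' (tr z (pr τ t.1))) / (Fintype.card (TT C r) : ℝ)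
      = (∑ t : TT C r, 2 • (F (pr τ t.1) * F' (tr z (pr τ t.1)))) /
          ((Fintype.card (TT C r) * 2 : ℕ) : ℝ) := by
        rw [← Finset.smul_sum, nsmul_eq_mul]
        push_cast
        field_simp
    _ = (∑ a : TT B r, ∑ b : TT B r', F (pr τ a.1) * F' (pr (tr z τ) b.1)) /
          ((Fintype.card (TT B r) * Fintype.card (TT B r') : ℕ) : ℝ) := key
    _ = _ := by
        rw [div_mul_div_comm, Finset.sum_mul_sum]
        push_cast
        rfl

/-- (16) two distant even functions: the coin average factorises. -/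
theorem s_coin3 : S_coin3 := by
  intro R B F F' hB hF hF' hFn _ z hz τ h1 h2
  rw [coin_far hB hF hF' hFn hz τ h1, (s_coin2 R B F hB hF).2 τ h1,
    (s_coin2 R B F' hB hF').2 (tr z τ) h2]

end Vale.Agent.P153.A
end

section

/-!
P153, block A3, step (26): mixing of even functions of the heights.
-/

namespace Vale.Agent.P153.A

open MeasureTheory Filter Topology

/-- A function of the heights in a finite set is measurable. -/
lemma mixP_meas (B : Finset Pt) (W : (Pt → ℤ) → ℝ)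
    (h : ∀ φ ψ : Pt → ℤ, (∀ x ∈ B, φ x = ψ x) → W φ = W ψ) : Measurable W := by
  classical
  have e : W = (fun g : B → ℤ => W fun x => if hx : x ∈ B then g ⟨x, hx⟩ else 0) ∘
      fun (φ : Pt → ℤ) (x : B) => φ x := by
    funext φ
    refine h _ _ fun x hx => ?_
    simp [hx]
  rw [e]
  exact (measurable_of_countable _).comp (by fun_prop)

/-- (26) -/
theorem s_mixP (h19 : S_rc) (h18 : S_sym) (h17 : S_mixQ) : S_mixP := by
  intro Q hQ hfar B W W' hW hW' hlW hlW' heW heW'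
  obtain ⟨-, -, -, hneg, htr, hmeas, hloc⟩ := h19
  obtain ⟨B', hB'⟩ := hloc B
  have hcomp : ∀ᵐ ω ∂Q, Comp ω := (h18 Q hQ).2.2
  have mW := mixP_meas B W hlW
  have mW' := mixP_meas B W' hlW'
  have key := h17 Q hQ hfar B' (fun ω => W (rc ω)) (fun ω => W' (rc ω))
    (fun ω ω' h => hlW _ _ (hB' ω ω' h)) (fun ω ω' h => hlW' _ _ (hB' ω ω' h))
    (fun ω => by
      have : rc (neg ω) = fun x => - rc ω x := funext fun x => hneg ω x
      rw [this]
      exact heW _)
    (fun ω => by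
      have : rc (neg ω) = fun x => - rc ω x := funext fun x => hneg ω x
      rw [this]
      exact heW' _)
  have e1 : ∫ φ, W φ ∂(Q.map rc) = ∫ ω, W (rc ω) ∂Q :=
    integral_map hmeas.aemeasurable mW.aestronglyMeasurable
  have e2 : ∫ φ, W' φ ∂(Q.map rc) = ∫ ω, W' (rc ω) ∂Q :=
    integral_map hmeas.aemeasurable mW'.aestronglyMeasurable
  rw [e1, e2]
  refine key.congr fun t => ?_
  have mS : Measurable (GFF.shift t) := by
    unfold GFF.shift
    fun_prop
  have m2 : Measurable (fun φ : Pt → ℤ => W φ * W' (GFF.shift t φ)) := mW.mul (mW'.comp mS)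
  rw [integral_map hmeas.aemeasurable m2.aestronglyMeasurable]
  refine integral_congr_ae ?_
  filter_upwards [hcomp] with ω hω
  have : rc (tr t ω) = GFF.shift t (rc ω) := funext fun x => htr ω hω t x
  rw [this]

end Vale.Agent.P153.A
end

section

/-!
P153, block A3 (17): mixing of even functions under the limit law of (tau, sigma).
-/

namespace Vale.Agent.P153.A.MixQ

open MeasureTheory Filter Topology Relation
open Vale.Agent.P153.GFF (Adj Ht Pat LocLim hexa)
open Vale.Agent.P153.A Vale.Agent.P153.A.QLim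

theorem isMu {Q : Measure Om} (hQ : IsQ Q) : IsMu (Q.map tau) := by
  have := hQ.prob
  refine ⟨Measure.isProbabilityMeasure_map tau_meas.aemeasurable, fun B f hf => ?_⟩
  rw [integral_map tau_meas.aemeasurable (loc_meas hf).aestronglyMeasurable]
  exact hQ.lim B (fun ω => f (tau ω)) fun ω ω' h => hf _ _ fun x hx => congrArg Prod.fst (h x hx)

/-- transfer from the pair to tau -/
theorem transfer (h1 : S_e1) (h2 : S_coin) {Q : Measure Om} (hQ : IsQ Q) {B B' B'' : Finset Pt}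
    {F : Om → ℝ} {g k : Sp → ℝ} (hF : Loc B F) (hg : Loc B' g) (hk : Loc B'' k)
    (h : ∀ τ, |cu B F τ - g τ| ≤ k τ) :
    |∫ ω, F ω ∂Q - ∫ τ, g τ ∂(Q.map tau)| ≤ ∫ τ, k τ ∂(Q.map tau) := by
  have hμ := isMu hQ
  have t1 := hQ.lim B F hF
  have t2 := hμ.lim B' g hg
  have t3 := hμ.lim B'' k hk
  refine le_of_tendsto_of_tendsto (t1.sub t2).abs t3 ?_
  filter_upwards [eventually_ge_atTop B] with D hD
  have hD' : B ⊆ D := hD
  rw [E2_coin h1 h2 hD' hF]
  exact E1_abs h1 D h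

/-- the coin average localised in `bx (R + 1)` -/
noncomputable def cc (R : ℕ) (B : Finset Pt) (F : Om → ℝ) (τ : Sp) : ℝ :=
  coin B (Bich (bx (R + 1)) τ) F τ

/-- the sum of the indicators of Far -/
noncomputable def sf (R : ℕ) (B : Finset Pt) (τ : Sp) : ℝ := ∑ p ∈ B ×ˢ B, fi R p.1 p.2 τ

theorem fi_nonneg (R : ℕ) (x y : Pt) (τ : Sp) : 0 ≤ fi R x y τ := by
  unfold fi
  exact Set.indicator_nonneg (fun _ _ => zero_le_one) _

theorem sf_nonneg (R : ℕ) (B : Finset Pt) (τ : Sp) : 0 ≤ sf R B τ :=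
  Finset.sum_nonneg fun p _ => fi_nonneg R p.1 p.2 τ

theorem sf_loc (R : ℕ) (B : Finset Pt) : Loc (bx (R + 1)) (sf R B) := by
  intro τ τ' h
  unfold sf
  exact Finset.sum_congr rfl fun p _ => fi_loc R p.1 p.2 τ τ' h

theorem one_le_sf {R : ℕ} {B : Finset Pt} {τ : Sp}
    (h : ¬ ∀ x ∈ B, ∀ y ∈ B, τ ∉ Far R x y) : 1 ≤ sf R B τ := by
  push Not at h
  obtain ⟨x, hx, y, hy, hxy⟩ := h
  calc (1 : ℝ) = fi R x y τ := by
        unfold fi
        rw [Set.indicator_of_mem hxy]; rfl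
    _ ≤ _ := Finset.single_le_sum (f := fun p : Pt × Pt => fi R p.1 p.2 τ)
        (fun p _ => fi_nonneg R p.1 p.2 τ) (Finset.mk_mem_product hx hy)

theorem sf_int {μ : Measure Sp} (hμ : IsMu μ) (R : ℕ) (B : Finset Pt) :
    ∫ τ, sf R B τ ∂μ = ∑ p ∈ B ×ˢ B, μ.real (Far R p.1 p.2) := by
  have := hμ.prob
  unfold sf
  rw [integral_finsetSum]
  · simp only [int_fi]
  · intro p _
    obtain ⟨M, -, hM⟩ := loc_bdd (fi_loc R p.1 p.2)
    exact Integrable.of_bound (loc_meas (fi_loc R p.1 p.2)).aestronglyMeasurable M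
      (ae_of_all _ fun τ => by rw [Real.norm_eq_abs]; exact hM τ)

theorem sf_lim {μ : Measure Sp} (hμ : IsMu μ) (hfar : FarLim μ) (B : Finset Pt) :
    Tendsto (fun R => ∫ τ, sf R B τ ∂μ) atTop (𝓝 0) := by
  simp only [sf_int hμ]
  have : Tendsto (fun R => ∑ p ∈ B ×ˢ B, μ.real (Far R p.1 p.2)) atTop
      (𝓝 (∑ p ∈ B ×ˢ B, (0 : ℝ))) := tendsto_finsetSum _ fun p _ => hfar p.1 p.2
  simpa using this

theorem far_cofinite (R : ℕ) : ∀ᶠ z : Pt in cofinite,
    2 * (R : ℤ) + 4 < |z.1| ∨ 2 * (R : ℤ) + 4 < |z.2| := by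
  have hfin : ((bx (2 * R + 4) : Finset Pt) : Set Pt).Finite := Finset.finite_toSet _
  filter_upwards [hfin.compl_mem_cofinite] with z hz
  by_contra h
  push Not at h
  apply hz
  unfold bx
  rw [Finset.mem_coe, Finset.mem_product, Finset.mem_Icc, Finset.mem_Icc]
  obtain ⟨h1, h2⟩ := h
  rw [abs_le] at h1 h2
  push_cast
  exact ⟨⟨by linarith [h1.1], by linarith [h1.2]⟩, ⟨by linarith [h2.1], by linarith [h2.2]⟩⟩

theorem loc_prod {B : Finset Pt} {F F' : Om → ℝ} (hF : Loc B F) (hF' : Loc B F') (z : Pt) :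
    Loc (B ∪ B.image (· + z)) (fun ω => F ω * F' (tr z ω)) := by
  intro ω ω' h
  have e1 : F ω = F ω' := hF _ _ fun x hx => h x (Finset.mem_union_left _ hx)
  have e2 : F' (tr z ω) = F' (tr z ω') := hF' _ _ fun x hx =>
    h (x + z) (Finset.mem_union_right _ (Finset.mem_image_of_mem _ hx))
  simp only [e1, e2]

theorem loc_tr {X : Type} {B : Finset Pt} {F : (Pt → X) → ℝ} (hF : Loc B F) (z : Pt) :
    Loc (B.image (· + z)) (fun ω => F (tr z ω)) := by
  intro ω ω' h
  exact hF _ _ fun x hx => h (x + z) (Finset.mem_image_of_mem _ hx)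

theorem s_mixQ (h_e1 : S_e1) (h_coin : S_coin) (h_coin2 : S_coin2) (h_coin3 : S_coin3)
    (h_mix : S_muMix) : S_mixQ := by
  classical
  intro Q hQ hfar B F F' hF hF' hFn hFn'
  have hprob := hQ.prob
  have hμ := isMu hQ
  set μ := Q.map tau with hμdef
  have hprobμ := hμ.prob
  obtain ⟨M1, hM1, hFM1⟩ := loc_bdd hF
  obtain ⟨M2, hM2, hFM2⟩ := loc_bdd hF'
  set M := max M1 M2 with hMdef
  have hM : 0 ≤ M := hM1.trans (le_max_left _ _)
  have hFM : ∀ ω, |F ω| ≤ M := fun ω => (hFM1 ω).trans (le_max_left _ _)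
  have hFM' : ∀ ω, |F' ω| ≤ M := fun ω => (hFM2 ω).trans (le_max_right _ _)
  rw [Metric.tendsto_nhds]
  intro ε hε
  obtain ⟨R0, hR0⟩ := sub_bx B
  have hlim : Tendsto (fun R => (8 * M ^ 2) * ∫ τ, sf R B τ ∂μ) atTop (𝓝 0) := by
    have := (sf_lim hμ hfar B).const_mul (8 * M ^ 2)
    simpa using this
  obtain ⟨R, hR, hRε⟩ : ∃ R, R0 ≤ R ∧ (8 * M ^ 2) * ∫ τ, sf R B τ ∂μ < ε / 2 := by
    have := ((tendsto_order.1 hlim).2 (ε / 2) (by positivity)).and (eventually_ge_atTop R0)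
    obtain ⟨R, h⟩ := this.exists
    exact ⟨R, h.2, h.1⟩
  have hBR := hR0 R hR
  set s := ∫ τ, sf R B τ ∂μ with hs
  have hs0 : 0 ≤ s := integral_nonneg fun τ => sf_nonneg R B τ
  -- localised coin averages
  have lc : Loc (bx (R + 1)) (cc R B F) := (h_coin2 R B F hBR hF).1
  have lc' : Loc (bx (R + 1)) (cc R B F') := (h_coin2 R B F' hBR hF').1
  have bc : ∀ τ, |cc R B F τ| ≤ M := fun τ => coin_bdd hM hFM
  have bc' : ∀ τ, |cc R B F' τ| ≤ M := fun τ => coin_bdd hM hFM'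
  have hk1 : Loc (bx (R + 1)) (fun τ : Sp => (2 * M) * sf R B τ) := fun τ τ' h =>
    congrArg (fun t => (2 * M) * t) (sf_loc R B τ τ' h)
  have a1 : |∫ ω, F ω ∂Q - ∫ τ, cc R B F τ ∂μ| ≤ 2 * M * s := by
    refine (transfer h_e1 h_coin hQ hF lc hk1 fun τ => cu_close h_coin2 hBR hF hM hFM τ).trans ?_
    rw [integral_const_mul]
  have a2 : |∫ ω, F' ω ∂Q - ∫ τ, cc R B F' τ ∂μ| ≤ 2 * M * s := by
    refine (transfer h_e1 h_coin hQ hF' lc' hk1 fun τ => cu_close h_coin2 hBR hF' hM hFM' τ).trans ?_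
    rw [integral_const_mul]
  -- mixing of mu
  have hmix := h_mix μ hμ (bx (R + 1)) (cc R B F) (cc R B F') lc lc'
  filter_upwards [far_cofinite R, (Metric.tendsto_nhds.1 hmix) (ε / 2) (by positivity)]
    with z hz hmz
  rw [Real.dist_eq] at hmz ⊢
  -- the product
  have hk2 : Loc (bx (R + 1) ∪ (bx (R + 1)).image (· + z))
      (fun τ : Sp => (2 * M ^ 2) * (sf R B τ + sf R B (tr z τ))) := fun τ τ' h => by
    have e1 := sf_loc R B τ τ' fun x hx => h x (Finset.mem_union_left _ hx)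
    have e2 := loc_tr (sf_loc R B) z τ τ' fun x hx => h x (Finset.mem_union_right _ hx)
    simp only [e1, e2]
  have hg : Loc (bx (R + 1) ∪ (bx (R + 1)).image (· + z))
      (fun τ : Sp => cc R B F τ * cc R B F' (tr z τ)) := fun τ τ' h => by
    have e1 := lc τ τ' fun x hx => h x (Finset.mem_union_left _ hx)
    have e2 := loc_tr lc' z τ τ' fun x hx => h x (Finset.mem_union_right _ hx)
    simp only [e1, e2]
  have close : ∀ τ : Sp, |cu (B ∪ B.image (· + z)) (fun ω => F ω * F' (tr z ω)) τ -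
      cc R B F τ * cc R B F' (tr z τ)| ≤ (2 * M ^ 2) * (sf R B τ + sf R B (tr z τ)) := by
    intro τ
    have n1 := sf_nonneg R B τ
    have n2 := sf_nonneg R B (tr z τ)
    by_cases h : (∀ x ∈ B, ∀ y ∈ B, τ ∉ Far R x y) ∧ ∀ x ∈ B, ∀ y ∈ B, tr z τ ∉ Far R x y
    · have e : cu (B ∪ B.image (· + z)) (fun ω => F ω * F' (tr z ω)) τ =
          cc R B F τ * cc R B F' (tr z τ) :=
        h_coin3 R B F F' hBR hF hF' hFn hFn' z hz τ h.1 h.2
      rw [e, sub_self, abs_zero]
      positivity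
    · have h4 : 1 ≤ sf R B τ + sf R B (tr z τ) := by
        rw [not_and_or] at h
        rcases h with h | h
        · linarith [one_le_sf h]
        · linarith [one_le_sf h]
      have b1 : |cu (B ∪ B.image (· + z)) (fun ω => F ω * F' (tr z ω)) τ| ≤ M ^ 2 := by
        refine coin_bdd (by positivity) fun ω => ?_
        rw [abs_mul, sq]
        exact mul_le_mul (hFM _) (hFM' _) (abs_nonneg _) hM
      have b2 : |cc R B F τ * cc R B F' (tr z τ)| ≤ M ^ 2 := by
        rw [abs_mul, sq]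
        exact mul_le_mul (bc _) (bc' _) (abs_nonneg _) hM
      calc _ ≤ |cu (B ∪ B.image (· + z)) (fun ω => F ω * F' (tr z ω)) τ| +
            |cc R B F τ * cc R B F' (tr z τ)| := abs_sub _ _
        _ ≤ 2 * M ^ 2 * 1 := by linarith
        _ ≤ _ := mul_le_mul_of_nonneg_left h4 (by positivity)
  have a3 := transfer h_e1 h_coin hQ (loc_prod hF hF' z) hg hk2 close
  have int_s : Integrable (sf R B) μ := by
    obtain ⟨M', -, hM'⟩ := loc_bdd (sf_loc R B)
    exact Integrable.of_bound (loc_meas (sf_loc R B)).aestronglyMeasurable M'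
      (ae_of_all _ fun τ => by rw [Real.norm_eq_abs]; exact hM' τ)
  have int_s' : Integrable (fun τ => sf R B (tr z τ)) μ := by
    have l := loc_tr (sf_loc R B) z
    obtain ⟨M', -, hM'⟩ := loc_bdd l
    exact Integrable.of_bound (loc_meas l).aestronglyMeasurable M'
      (ae_of_all _ fun τ => by rw [Real.norm_eq_abs]; exact hM' τ)
  rw [integral_const_mul, integral_add int_s int_s', hμ.integral_tr z (sf_loc R B)] at a3
  -- products of the means
  have c1 : |∫ τ, cc R B F' τ ∂μ| ≤ M := by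
    have := norm_integral_le_of_norm_le_const (μ := μ) (f := fun τ => cc R B F' τ) (C := M)
      (ae_of_all _ fun τ => by rw [Real.norm_eq_abs]; exact bc' τ)
    simpa using this
  have c2 : |∫ ω, F ω ∂Q| ≤ M := by
    have := norm_integral_le_of_norm_le_const (μ := Q) (f := fun ω => F ω) (C := M)
      (ae_of_all _ fun τ => by rw [Real.norm_eq_abs]; exact hFM τ)
    simpa using this
  set a := ∫ ω, F ω ∂Q
  set a' := ∫ ω, F' ω ∂Q
  set b := ∫ τ, cc R B F τ ∂μ
  set b' := ∫ τ, cc R B F' τ ∂μ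
  set X := ∫ ω, F ω * F' (tr z ω) ∂Q
  set Y := ∫ τ, cc R B F τ * cc R B F' (tr z τ) ∂μ
  have d1 : |b * b' - a * a'| ≤ 4 * M ^ 2 * s := by
    have e : b * b' - a * a' = -((a - b) * b') - a * (a' - b') := by ring
    rw [e]
    calc |-((a - b) * b') - a * (a' - b')| ≤ |-((a - b) * b')| + |a * (a' - b')| := abs_sub _ _
      _ = |a - b| * |b'| + |a| * |a' - b'| := by rw [abs_neg, abs_mul, abs_mul]
      _ ≤ (2 * M * s) * M + M * (2 * M * s) :=
        add_le_add (mul_le_mul a1 c1 (abs_nonneg _) (by positivity))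
          (mul_le_mul c2 a2 (abs_nonneg _) hM)
      _ = _ := by ring
  calc |X - a * a'| = |(X - Y) + (Y - b * b') + (b * b' - a * a')| := by ring_nf
    _ ≤ |X - Y| + |Y - b * b'| + |b * b' - a * a'| := abs_add_three _ _ _
    _ < 4 * M ^ 2 * s + ε / 2 + 4 * M ^ 2 * s := by
        have : |X - Y| ≤ 4 * M ^ 2 * s := by
          refine a3.trans (le_of_eq ?_)
          rw [← hs]; ring
        linarith
    _ ≤ ε := by linarith

end Vale.Agent.P153.A.MixQ

namespace Vale.Agent.P153.A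

/-- (17) mixing of even functions. -/
theorem s_mixQ (h_e1 : S_e1) (h_coin : S_coin) (h_coin2 : S_coin2) (h_coin3 : S_coin3)
    (h_mix : S_muMix) : S_mixQ :=
  MixQ.s_mixQ h_e1 h_coin h_coin2 h_coin3 h_mix

end Vale.Agent.P153.A
end

section

/-!
# P153, strips: the strip is a row model
-/

namespace Vale.Agent.P153.Strip

open Finset MeasureTheory

variable {N : ℕ}

theorem rows_strip [Fintype (RowSt N)] (D : PData (RowSt N)) (hD : D.A = Amat N)
    (hpar : D.par = RowSt.par) (hls : LS D.psi) (e : ZMod 2) (H : ℕ) :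
    Asm.Rows (D.mu e (4 * H)) (FR N H) (fun p => hR H p) 2 (-(H : ℤ)) H := by
  refine Asm.Rows.of_plain (fun l => Fl_le _ _) (FR_mono N H) (fun p => measurable_hR H p)
    (fun p => hR_bm H p) ?_ ?_ ?_ ?_
  · rintro l p q ⟨hp1, hp2, hp3⟩ ⟨hq1, hq2, hq3⟩
    exact hR_refl D hD e H l p q (by omega) hp1 hp2 hq1 hq2 hq3
  · rintro l p q ⟨hp1, hp2, hp3⟩ ⟨hq1, hq2, hq3⟩
    exact hR_inv D hD e H l p q (by omega) hp1 hp2 hq1 hq2 hq3 hp3
  · intro l ι _ u hl hu
    exact hR_np D hD hpar hls e H l u (fun i => by have := (hu i).1; omega)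
      (fun i => (hu i).2)
  · intro j x ω h1 h2
    exact hR_lip H j x h1 h2 ω

end Vale.Agent.P153.Strip
end

section

/-!
# P153, strips: the Perron data of the strip transfer matrix

The positive eigenvector is log-supermodular on each parity class, and the powers of the transfer
matrix converge.
-/

namespace Vale.Agent.P153.Strip

open Finset Matrix Filter Topology

theorem itA_eq (N : ℕ) [DecidableEq (RowSt N)] (n : ℕ) (x : RowSt N) :
    itA N n x = ((Matrix.of (Amat N)) ^ n).mulVec (fun _ => 1) x := by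
  induction n generalizing x with
  | zero =>
    rw [pow_zero, Matrix.one_mulVec]
    rfl
  | succ n ih =>
    rw [pow_succ', ← Matrix.mulVec_mulVec]
    have e1 : (Matrix.of (Amat N)).mulVec (((Matrix.of (Amat N)) ^ n).mulVec fun _ => 1) x =
        ∑ y, Amat N x y * ((Matrix.of (Amat N)) ^ n).mulVec (fun _ => 1) y := rfl
    rw [e1]
    show ∑ y, Amat N x y * itA N n y = _
    exact sum_congr rfl fun y _ => by rw [ih y]

/-- **Perron data of the strip.** -/
theorem exists_strip (N : ℕ) [DecidableEq (RowSt N)] :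
    ∃ D : PData (RowSt N), D.A = Amat N ∧ D.par = RowSt.par ∧ LS D.psi ∧
      ∀ (v : RowSt N → ℝ) (x : RowSt N),
        Tendsto (fun n : ℕ => ((Matrix.of (Amat N)) ^ n).mulVec v x / D.lam ^ n -
          D.psi x * ∑ y, (if y.par = x.par + n then D.psi y * v y else 0)) atTop (𝓝 0) := by
  obtain ⟨D, hA, hp, hT⟩ := (Amat_bip N).exists_pdata_tendsto
  refine ⟨D, hA, hp, ?_, hT⟩
  set c : ZMod 2 → ℝ := fun e => ∑ y : RowSt N, (if y.par = e then D.psi y * 1 else 0) with hc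
  have hcpos : ∀ e, 0 < c e := by
    intro e
    simp only [hc]
    refine sum_pos' (fun y _ => ?_) ⟨zrow N e, mem_univ _, ?_⟩
    · split_ifs
      · rw [mul_one]; exact (D.pos y).le
      · exact le_rfl
    · rw [if_pos (zrow_par N e), mul_one]
      exact D.pos _
  have hlim : ∀ x : RowSt N, Tendsto
      (fun n : ℕ => (fun (m : ℕ) (x : RowSt N) => (D.lam ^ m)⁻¹ * itA N m x) (2 * n) x) atTop
      (𝓝 (D.psi x * c x.par)) := by
    intro x
    have h0 : Tendsto (fun n : ℕ => 2 * n) atTop atTop :=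
      tendsto_atTop_mono (fun n => by omega : ∀ n : ℕ, n ≤ 2 * n) tendsto_id
    have h1 := (hT (fun _ => 1) x).comp h0
    have h2 : ∀ n : ℕ, ((2 * n : ℕ) : ZMod 2) = 0 := fun n => by
      rw [ZMod.natCast_eq_zero_iff]; exact dvd_mul_right 2 n
    simp only [Function.comp_def] at h1
    simp only [h2, add_zero] at h1
    have h3 := h1.add_const (D.psi x * c x.par)
    rw [zero_add] at h3
    refine h3.congr fun n => ?_
    simp only [hc]
    rw [itA_eq, sub_add_cancel, div_eq_inv_mul]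
  have hls : ∀ n : ℕ, LS (fun x : RowSt N => (D.lam ^ n)⁻¹ * itA N n x) :=
    fun n => (LS.itA n).smul
  exact LS.lim (f := fun (m : ℕ) (x : RowSt N) => (D.lam ^ m)⁻¹ * itA N m x) (k := fun n => 2 * n)
    hls hcpos hlim

end Vale.Agent.P153.Strip
end

section

/-!
# P153, strips: the plane measure is, on each window, a limit of row models
-/

namespace Vale.Agent.P153.Strip

open Finset MeasureTheory Filter Topology

/-- `P` is the local limit along rectangles, for functions of the height differences in a finite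
set. -/
def EvLim (P : Measure (ℤ × ℤ → ℤ)) : Prop :=
  ∀ (B : Finset (ℤ × ℤ)) (F : (ℤ × ℤ → ℤ) → ℝ),
    (∀ φ ψ : ℤ × ℤ → ℤ, (∀ x ∈ B, ∀ y ∈ B, φ x - φ y = ψ x - ψ y) → F φ = F ψ) →
    ∀ ε : ℝ, 0 < ε → ∃ n0 : ℕ, ∀ N ≥ n0, ∀ K ≥ n0, ∀ K' ≥ n0,
      |Vale.Agent.P153.ev (Fv.reg (Fv.rect N K K')) F - ∫ φ, F φ ∂P| ≤ ε

theorem EE_cast {X : Type*} [Fintype X] (D : PData X) {e e' : ZMod 2} (he : e = e') {n n' : ℕ}
    (hn : n = n') (G : ∀ n : ℕ, (Fin (n + 1) → X) → ℝ) :
    D.EE e n (G n) = D.EE e' n' (G n') := by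
  subst he hn
  rfl

/-- The strip of half-width `N`. -/
theorem exists_strip_data (N : ℕ) :
    ∃ D : PData (RowSt N), StripData N D ∧ LS D.psi := by
  classical
  obtain ⟨D, h1, h2, h3, h4⟩ := exists_strip N
  refine ⟨D, ⟨h1, h2, fun v x => ?_⟩, h3⟩
  simp only [ext_eq_mulVec]
  exact h4 v x

/-- Reading of the heights of the even rows. -/
theorem hR_fld {N : ℕ} (D : PData (RowSt N)) (hD : D.A = Amat N) (e : ZMod 2) (H : ℕ) :
    ∀ᵐ q ∂(D.mu e (4 * H)), ∀ p : ℤ × ℤ, -(H : ℤ) ≤ p.1 → p.1 ≤ H → hR H p q =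
      ((fld (-((2 * H : ℕ) : ℤ)) (q : Fin (4 * H + 1) → RowSt N) (GFF.ev p.1 p.2) : ℤ) : ℝ) := by
  rw [ae_all_iff]
  intro p
  by_cases h1 : -(H : ℤ) ≤ p.1 ∧ p.1 ≤ H
  · filter_upwards [hR_ae D hD e H p h1.1 h1.2] with q hq _ _
    rw [hq]
    unfold fld
    rw [dif_pos (by
      simp only [GFF.ev]
      push_cast
      omega)]
    have e1 : (⟨((GFF.ev p.1 p.2).2 - -((2 * H : ℕ) : ℤ)).toNat, by
        simp only [GFF.ev]; push_cast; omega⟩ : Fin (4 * H + 1)) =
        ⟨2 * (p.1 + H).toNat, by omega⟩ := by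
      apply Fin.ext
      simp only [GFF.ev]
      push_cast
      omega
    have e2 : key (GFF.ev p.1 p.2) = 2 * p.2 := by
      simp only [key, GFF.ev]
      ring
    rw [e1, e2]
  · exact ae_of_all _ fun q a b => absurd ⟨a, b⟩ h1

/-- **Strips and the plane.** -/
theorem rowLim {P : Measure (ℤ × ℤ → ℤ)} (hP : EvLim P) :
    Asm.RowLim P (fun p φ => ((φ (GFF.ev p.1 p.2) : ℤ) : ℝ)) 2 := by
  intro H
  choose D hD hls using exists_strip_data
  refine ⟨fun n => Path (RowSt n) (4 * H), fun n => inferInstance,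
    fun n => (D n).mu 0 (4 * H), fun n => FR n H, fun n p => hR H p, fun n => inferInstance,
    fun n => rows_strip (D n) (hD n).hA (hD n).hpar (hls n) 0 H, ?_⟩
  rintro φ ⟨-, S, hS, hφ⟩
  -- the functional of the height function
  set F : (ℤ × ℤ → ℤ) → ℝ := fun h =>
    φ (fun p => ((h (GFF.ev p.1 p.2) : ℤ) : ℝ) - ((h (GFF.ev 0 0) : ℤ) : ℝ)) with hF
  have hdep : Fv.Dep {v : ℤ × ℤ | |v.2| ≤ ((2 * H : ℕ) : ℤ)} F := by
    intro h g hg
    simp only [hF]
    apply hφ
    intro p hp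
    have h1 := hS p hp
    rw [hg (GFF.ev p.1 p.2) (by
      show |2 * p.1| ≤ _
      rw [abs_le]
      push_cast
      omega), hg (GFF.ev 0 0) (by
      show |2 * (0 : ℤ)| ≤ _
      rw [abs_le]
      push_cast
      omega)]
  have hint : ∀ n, ∫ ω, φ (fun p => hR H p ω - hR H (0, 0) ω) ∂((D n).mu 0 (4 * H)) =
      (D n).EE ((2 * H : ℕ) : ZMod 2) (2 * (2 * H))
        (fun q => F (fld (-((2 * H : ℕ) : ℤ)) q)) := by
    intro n
    have e1 := EE_cast (D n) (e := ((2 * H : ℕ) : ZMod 2)) (e' := 0) (by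
      push_cast
      have : (2 : ZMod 2) = 0 := by decide
      rw [this, zero_mul]) (n := 2 * (2 * H)) (n' := 4 * H) (by ring)
      (fun m q => F (fld (-((2 * H : ℕ) : ℤ)) q))
    rw [e1]
    refine Eq.trans ?_ ((D n).integral_mu 0 (4 * H) (fun q => F (fld (-((2 * H : ℕ) : ℤ)) q)))
    apply integral_congr_ae
    filter_upwards [hR_fld (D n) (hD n).hA 0 H] with q hq
    simp only [hF]
    apply hφ
    intro p hp
    rw [hq p (hS p hp).1 (hS p hp).2, hq (0, 0) (by simp) (by simp)]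
  rw [Metric.tendsto_atTop]
  intro ε hε
  obtain ⟨n0, hn0⟩ := hP (insert (GFF.ev 0 0) (S.image fun p => GFF.ev p.1 p.2)) F (by
    intro h g hhg
    simp only [hF]
    apply hφ
    intro p hp
    have h1 := hhg (GFF.ev p.1 p.2) (Finset.mem_insert_of_mem (Finset.mem_image_of_mem _ hp))
      (GFF.ev 0 0) (Finset.mem_insert_self _ _)
    exact_mod_cast h1) (ε / 4) (by positivity)
  refine ⟨n0, fun n hn => ?_⟩
  obtain ⟨K0, hK0⟩ := exists_rect (hD n) (2 * H) hdep (ε := ε / 4) (by positivity)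
  have h1 := hn0 n hn (max n0 K0) (le_max_left _ _) (max n0 K0) (le_max_left _ _)
  have h2 := hK0 (max n0 K0) (le_max_right _ _) (max n0 K0) (le_max_right _ _)
  rw [Real.dist_eq]
  rw [show ∫ ω, φ (fun p => (fun n p => hR H p) n p ω - (fun n p => hR H p) n (0, 0) ω)
    ∂(fun n => (D n).mu 0 (4 * H)) n = _ from hint n]
  rw [abs_le] at h1
  rw [abs_lt] at h2 ⊢
  constructor <;> linarith [h1.1, h1.2, h2.1, h2.2]

end Vale.Agent.P153.Strip
end

section

/-!
P153, block A: final assembly. The law of the height function is the image under `rc` of the limit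
law `Q` of the pairs (tau, sigma); it satisfies `GFF.Plane` and `Strip.EvLim`.
-/

namespace Vale.Agent.P153.A

open MeasureTheory Filter Topology
open Vale.Agent.P153.GFF (Ht Pat LocLim hexa)

/-! ### heights -/

theorem rc_zero (ω : Om) : rc ω 0 = 0 := by
  unfold rc Sm
  simp

/-- Two functions with the same increments along the edges and the same value at `0` are equal. -/
theorem eq_of_inc {f g : Pt → ℤ} (h : ∀ x y, Adj x y → f y - f x = g y - g x) (h0 : f 0 = g 0) :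
    f = g := by
  funext v
  set k : ℤ := |v.1| + |v.2| + 1 with hk
  have hk0 : 0 < k := by positivity
  have h1 := CLT.abs_le_of_lip (fun x => k * (f x - g x)) (fun x y hxy => by
    have h2 := h x y hxy
    have h3 : k * (f x - g x) - k * (f y - g y) = 0 := by
      have : f x - g x = f y - g y := by linarith
      rw [this, sub_self]
    rw [h3]
    simp) (by simp [h0]) v
  change |k * (f v - g v)| ≤ |v.1| + |v.2| at h1
  rw [abs_mul, abs_of_pos hk0] at h1
  by_contra hne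
  have h4 : 1 ≤ |f v - g v| := Int.one_le_abs (sub_ne_zero.2 hne)
  have h5 : k * 1 ≤ k * |f v - g v| := mul_le_mul_of_nonneg_left h4 hk0.le
  linarith

theorem rc_aut (hrc : S_rc) (θ : Pt ≃ Pt) (hθ : ∀ v u, Adj v u ↔ Adj (θ v) (θ u)) (ω : Om)
    (hω : Comp ω) (x : Pt) : rc (fun x => ω (θ x)) x = rc ω (θ x) - rc ω (θ 0) := by
  have hω' : Comp fun x => ω (θ x) := fun x y hxy => hω _ _ ((hθ x y).1 hxy)
  have h1 := eq_of_inc (f := rc fun x => ω (θ x)) (g := fun x => rc ω (θ x) - rc ω (θ 0))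
    (fun x y hxy => by
      rw [hrc.1 _ hω' x y hxy]
      have := hrc.1 ω hω (θ x) (θ y) ((hθ x y).1 hxy)
      rw [sub_sub_sub_cancel_right, this]) (by simp [rc_zero])
  exact congrFun h1 x

theorem abs_inc (p q : Bool × Bool) : |inc p q| ≤ 1 := by
  unfold inc
  split_ifs <;> simp

variable {Q : Measure Om}

theorem prob_rc (hrc : S_rc) (hQ : IsQ Q) : IsProbabilityMeasure (Q.map rc) := by
  have := hQ.prob
  exact Measure.isProbabilityMeasure_map hrc.2.2.2.2.2.1.aemeasurable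

theorem zero_rc (hrc : S_rc) : ∀ᵐ φ ∂(Q.map rc), φ 0 = 0 := by
  have h1 : MeasurableSet {φ : Pt → ℤ | φ 0 = 0} :=
    (measurable_pi_apply (0 : Pt) : Measurable fun φ : Pt → ℤ => φ 0) (measurableSet_singleton 0)
  rw [ae_map_iff hrc.2.2.2.2.2.1.aemeasurable h1]
  exact Eventually.of_forall rc_zero

theorem lip_rc (hrc : S_rc) (hsym : S_sym) (hQ : IsQ Q) :
    ∀ᵐ φ ∂(Q.map rc), ∀ x y, Adj x y → |φ x - φ y| ≤ 1 := by
  rw [ae_all_iff]
  intro x
  rw [ae_all_iff]
  intro y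
  by_cases hxy : Adj x y
  · simp only [hxy, true_imp_iff]
    rw [ae_map_iff hrc.2.2.2.2.2.1.aemeasurable (by
      have h1 : Measurable fun φ : Pt → ℤ => φ x - φ y :=
        (measurable_pi_apply x).sub (measurable_pi_apply y)
      exact h1 (MeasurableSet.of_discrete (s := {k : ℤ | |k| ≤ 1})))]
    filter_upwards [(hsym Q hQ).2.2] with ω hω
    rw [abs_sub_comm, hrc.1 ω hω x y hxy]
    exact abs_inc _ _
  · exact Eventually.of_forall fun φ h => absurd h hxy

theorem measurable_rec (θ : Pt ≃ Pt) :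
    Measurable fun (φ : Pt → ℤ) x => φ (θ x) - φ (θ 0) := by
  rw [measurable_pi_iff]
  intro x
  exact (measurable_pi_apply _).sub (measurable_pi_apply _)

/-- Invariance of the recentred heights. -/
theorem aut_rc (hrc : S_rc) (hsym : S_sym) (hQ : IsQ Q) (θ : Pt ≃ Pt)
    (hθ : ∀ v u, Adj v u ↔ Adj (θ v) (θ u)) :
    (Q.map rc).map (fun φ x => φ (θ x) - φ (θ 0)) = Q.map rc := by
  have hm := hrc.2.2.2.2.2.1
  have hm2 : Measurable fun (ω : Om) x => ω (θ x) :=
    measurable_pi_iff.2 fun x => measurable_pi_apply _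
  rw [Measure.map_map (measurable_rec θ) hm]
  have h1 : Q.map ((fun (φ : Pt → ℤ) x => φ (θ x) - φ (θ 0)) ∘ rc) =
      Q.map (rc ∘ fun (ω : Om) x => ω (θ x)) := by
    refine Measure.map_congr ?_
    filter_upwards [(hsym Q hQ).2.2] with ω hω
    funext x
    exact (rc_aut hrc θ hθ ω hω x).symm
  rw [h1, ← Measure.map_map hm hm2, (hsym Q hQ).1 θ hθ]

theorem adj_addRight (t v u : Pt) : Adj v u ↔ Adj (v + t) (u + t) := by
  unfold Vale.Agent.P153.Adj
  simp

theorem adj_rot (v u : Pt) : Adj v u ↔ Adj (GFF.rot v) (GFF.rot u) := by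
  unfold Vale.Agent.P153.Adj GFF.rot
  simp only [Set.mem_insert_iff, Set.mem_singleton_iff, Prod.mk.injEq]
  constructor <;> intro h <;> rcases h with h | h | h | h | h | h <;> omega

theorem adj_swap (v u : Pt) : Adj v u ↔ Adj v.swap u.swap := by
  unfold Vale.Agent.P153.Adj
  simp only [Set.mem_insert_iff, Set.mem_singleton_iff, Prod.mk.injEq, Prod.fst_swap,
    Prod.snd_swap]
  constructor <;> intro h <;> rcases h with h | h | h | h | h | h <;> omega

/-- The rotation as an equivalence. -/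
def rotE : Pt ≃ Pt where
  toFun := GFF.rot
  invFun v := (v.1 + v.2, -v.1)
  left_inv v := by
    unfold GFF.rot
    ext <;> simp
  right_inv v := by
    unfold GFF.rot
    ext <;> simp

theorem tendsto_hexa (hcc : S_cc) : Tendsto hexa atTop (atTop ⊓ 𝓟 {D : Finset Pt | Cc D}) := by
  refine tendsto_inf.2 ⟨tendsto_atTop.2 fun B => ?_, tendsto_principal.2 ?_⟩
  · obtain ⟨n, hn, -⟩ := hcc.2.2 B
    filter_upwards [eventually_ge_atTop n] with m hm
    exact hn m hm
  · exact Eventually.of_forall hcc.1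

/-- **The law of the heights is a plane measure.** -/
theorem plane_of (hrc : S_rc) (hsym : S_sym) (hloc : S_loc) (hcc : S_cc) (hrp : S_rp)
    (hg : S_gibbs) (hmix : S_mixP) (hQ : IsQ Q) (hF : FarLim (Q.map tau)) :
    GFF.Plane (Q.map rc) where
  prob := prob_rc hrc hQ
  zero := zero_rc hrc
  lip := lip_rc hrc hsym hQ
  shift t := by
    have h1 := aut_rc hrc hsym hQ (Equiv.addRight t) (fun v u => adj_addRight t v u)
    have h2 : GFF.shift t = fun (φ : Pt → ℤ) x => φ ((Equiv.addRight t) x) -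
        φ ((Equiv.addRight t) 0) := by
      funext φ x
      simp [GFF.shift]
    rw [h2]
    exact h1
  rot := by
    have h1 := aut_rc hrc hsym hQ rotE adj_rot
    conv_rhs => rw [← h1]
    refine Measure.map_congr ?_
    filter_upwards [zero_rc (Q := Q) hrc] with φ hφ
    funext x
    have h2 : rotE 0 = 0 := by
      change GFF.rot 0 = 0
      simp [GFF.rot]
    rw [h2, hφ, sub_zero]
    rfl
  swap := by
    have h1 := aut_rc hrc hsym hQ (Equiv.prodComm ℤ ℤ) adj_swap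
    conv_rhs => rw [← h1]
    refine Measure.map_congr ?_
    filter_upwards [zero_rc (Q := Q) hrc] with φ hφ
    funext x
    have h2 : (Equiv.prodComm ℤ ℤ) 0 = 0 := rfl
    rw [h2, hφ, sub_zero]
    rfl
  rp := hrp Q hQ
  mix B W W' _ _ hW hW' he he' hB hB' := hmix Q hQ hF B W W' hW hW' hB hB' he he'
  lim B a := (hloc Q hQ B a).comp (tendsto_hexa hcc)
  gibbs := hg _ (prob_rc hrc hQ) fun B a => (hloc Q hQ B a).comp (tendsto_hexa hcc)

/-! ### The limit of the averages of local functions -/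

theorem Ht_eq_reg (Λ : Finset Pt) : Ht Λ = ↑(Fv.reg Λ) := by
  ext h
  rw [Finset.mem_coe, Fv.mem_reg]
  unfold GFF.Ht Fv.Lp GFF.bc
  simp only [Set.mem_ofPred_eq]
  constructor
  · rintro ⟨h1, h2⟩
    refine ⟨fun v hv => (h1 v).1 hv, fun v hv hv' => ?_, h2⟩
    refine (h1 v).2 ?_
    by_contra hcon
    push Not at hcon
    exact hv' ⟨hv, hcon⟩
  · rintro ⟨h1, h2, h3⟩
    refine ⟨fun v => ⟨h1 v, ?_⟩, h3⟩
    rintro ⟨w, hw, hwΛ⟩
    by_cases hv : v ∈ Λ
    · exact h2 v hv fun h => hwΛ (h.2 w hw)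
    · exact Or.inl (h1 v hv)

/-- The pattern of `φ` on `B`. -/
noncomputable def pat (B : Finset Pt) (φ : Pt → ℤ) : Pt → ℤ := fun x =>
  if x ∈ B then φ x - φ 0 else 0

/-- The finite set of patterns. -/
noncomputable def pats (B : Finset Pt) : Finset (Pt → ℤ) :=
  (Fv.finite_of_bdd B 0 (∑ x ∈ B, (|x.1| + |x.2|))).toFinset.filter fun a => a 0 = 0

theorem pat_mem (B : Finset Pt) (φ : Pt → ℤ)
    (h : ∀ x y, Adj x y → |φ x - φ y| ≤ 1) : pat B φ ∈ pats B := by
  unfold pats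
  rw [Finset.mem_filter, Set.Finite.mem_toFinset]
  refine ⟨⟨fun x => ?_, fun x hx => ?_⟩, ?_⟩
  · unfold pat
    split_ifs with hx
    · have h1 := CLT.abs_le_of_lip (fun y => φ y - φ 0) (fun a b hab => by
        rw [sub_sub_sub_cancel_right]
        exact h a b hab) (by simp) x
      refine h1.trans ?_
      exact Finset.single_le_sum (f := fun x : Pt => |x.1| + |x.2|)
        (fun i _ => by positivity) hx
    · rw [abs_zero]
      exact Finset.sum_nonneg fun i _ => by positivity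
  · simp [pat, hx]
  · simp [pat]

theorem mem_Pat_iff {B : Finset Pt} (hB : (0 : Pt) ∈ B) {a : Pt → ℤ} (ha : a ∈ pats B)
    (φ : Pt → ℤ) : φ ∈ Pat B a ↔ a = pat B φ := by
  unfold pats at ha
  rw [Finset.mem_filter, Set.Finite.mem_toFinset] at ha
  obtain ⟨⟨-, h1⟩, h2⟩ := ha
  constructor
  · intro h
    funext x
    unfold pat
    split_ifs with hx
    · have := h x hx 0 hB
      rw [this, h2, sub_zero]
    · exact h1 x hx
  · intro h x hx y hy
    rw [h]
    unfold pat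
    rw [if_pos hx, if_pos hy]
    ring

theorem measurableSet_Pat (B : Finset Pt) (a : Pt → ℤ) : MeasurableSet (Pat B a) := by
  have h1 : Pat B a = ⋂ x ∈ B, ⋂ y ∈ B, {φ : Pt → ℤ | φ x - φ y = a x - a y} := by
    ext φ
    simp [GFF.Pat]
  rw [h1]
  refine Finset.measurableSet_biInter _ fun x _ => Finset.measurableSet_biInter _ fun y _ => ?_
  have h2 : Measurable fun φ : Pt → ℤ => φ x - φ y :=
    (measurable_pi_apply x).sub (measurable_pi_apply y)
  exact h2 (measurableSet_singleton _)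

open Classical in
/-- Expansion of a local function of the differences. -/
theorem expand {B : Finset Pt} (hB : (0 : Pt) ∈ B) {F : (Pt → ℤ) → ℝ}
    (hF : ∀ φ ψ : Pt → ℤ, (∀ x ∈ B, ∀ y ∈ B, φ x - φ y = ψ x - ψ y) → F φ = F ψ) (φ : Pt → ℤ)
    (h : ∀ x y, Adj x y → |φ x - φ y| ≤ 1) :
    F φ = ∑ a ∈ pats B, F a * if φ ∈ Pat B a then 1 else 0 := by
  rw [Finset.sum_eq_single (pat B φ)]
  · have h1 : φ ∈ Pat B (pat B φ) := (mem_Pat_iff hB (pat_mem B φ h) φ).2 rfl
    rw [if_pos h1, mul_one]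
    exact hF _ _ h1
  · intro a ha hne
    rw [if_neg, mul_zero]
    exact fun h2 => hne ((mem_Pat_iff hB ha φ).1 h2)
  · intro h1
    exact absurd (pat_mem B φ h) h1

theorem ev_expand {B : Finset Pt} (hB : (0 : Pt) ∈ B) {F : (Pt → ℤ) → ℝ}
    (hF : ∀ φ ψ : Pt → ℤ, (∀ x ∈ B, ∀ y ∈ B, φ x - φ y = ψ x - ψ y) → F φ = F ψ)
    (Λ : Finset Pt) :
    Vale.Agent.P153.ev (Fv.reg Λ) F =
      ∑ a ∈ pats B, F a * (((Ht Λ ∩ Pat B a).ncard : ℝ) / (Ht Λ).ncard) := by
  classical
  have h1 : ∀ φ ∈ Fv.reg Λ, F φ = ∑ a ∈ pats B, F a * if φ ∈ Pat B a then 1 else 0 :=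
    fun φ hφ => expand hB hF φ (Fv.mem_reg.1 hφ).2.2
  unfold Vale.Agent.P153.ev
  rw [Finset.sum_congr rfl h1, Finset.sum_comm, Finset.sum_div]
  refine Finset.sum_congr rfl fun a _ => ?_
  have h2 : (Ht Λ ∩ Pat B a).ncard = ((Fv.reg Λ).filter fun φ => φ ∈ Pat B a).card := by
    rw [← Set.ncard_coe_finset]
    congr 1
    rw [Ht_eq_reg]
    ext φ
    simp
  have h3 : (Ht Λ).ncard = (Fv.reg Λ).card := by
    rw [Ht_eq_reg, Set.ncard_coe_finset]
  rw [h2, h3, ← Finset.mul_sum, mul_div_assoc]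
  congr 2
  rw [Finset.sum_boole]

theorem integral_expand (hrc : S_rc) (hsym : S_sym) (hQ : IsQ Q) {B : Finset Pt}
    (hB : (0 : Pt) ∈ B) {F : (Pt → ℤ) → ℝ}
    (hF : ∀ φ ψ : Pt → ℤ, (∀ x ∈ B, ∀ y ∈ B, φ x - φ y = ψ x - ψ y) → F φ = F ψ) :
    ∫ φ, F φ ∂(Q.map rc) = ∑ a ∈ pats B, F a * (Q.map rc).real (Pat B a) := by
  classical
  have := prob_rc hrc hQ
  have h1 : ∀ᵐ φ ∂(Q.map rc), F φ = ∑ a ∈ pats B, F a * (Pat B a).indicator (fun _ => (1 : ℝ)) φ := by
    filter_upwards [lip_rc hrc hsym hQ] with φ hφ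
    rw [expand hB hF φ hφ]
    refine Finset.sum_congr rfl fun a _ => ?_
    rw [Set.indicator_apply]
  rw [integral_congr_ae h1, integral_finsetSum _ fun a _ =>
    ((integrable_const _).indicator (measurableSet_Pat B a)).const_mul _]
  refine Finset.sum_congr rfl fun a _ => ?_
  rw [integral_const_mul, integral_indicator_const _ (measurableSet_Pat B a), smul_eq_mul, mul_one]

/-- **Local limit along the rectangles.** -/
theorem evLim_of (hrc : S_rc) (hsym : S_sym) (hloc : S_loc) (hcc : S_cc) (hQ : IsQ Q) :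
    Strip.EvLim (Q.map rc) := by
  intro B F hF ε hε
  have hF' : ∀ φ ψ : Pt → ℤ, (∀ x ∈ insert 0 B, ∀ y ∈ insert 0 B, φ x - φ y = ψ x - ψ y) →
      F φ = F ψ := fun φ ψ h => hF φ ψ fun x hx y hy =>
    h x (Finset.mem_insert_of_mem hx) y (Finset.mem_insert_of_mem hy)
  have h0 : (0 : Pt) ∈ insert 0 B := Finset.mem_insert_self _ _
  have h1 : Tendsto (fun Λ : Finset Pt => Vale.Agent.P153.ev (Fv.reg Λ) F)
      (atTop ⊓ 𝓟 {D : Finset Pt | Cc D}) (𝓝 (∫ φ, F φ ∂(Q.map rc))) := by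
    rw [integral_expand hrc hsym hQ h0 hF']
    simp_rw [ev_expand h0 hF']
    exact tendsto_finsetSum _ fun a _ => (hloc Q hQ _ a).const_mul _
  have h2 := (Metric.tendsto_nhds.1 h1) ε hε
  rw [eventually_inf_principal, eventually_atTop] at h2
  obtain ⟨D0, hD0⟩ := h2
  obtain ⟨n, -, hn⟩ := hcc.2.2 D0
  refine ⟨n, fun N hN K hK K' hK' => ?_⟩
  have h3 := hD0 _ (hn N K K' hN hK hK') (hcc.2.1 N K K')
  rw [Real.dist_eq] at h3
  exact h3.le

end Vale.Agent.P153.A
end

section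

/-!
P153, block A3, step (24): reflection positivity of the limit measure (S_rp).
Owner: helper442.
-/

namespace Vale.Agent.P153.A

open MeasureTheory Filter Topology
open Vale.Agent.P153.GFF (Adj Ht Pat LocLim hexa)

namespace Rp

/-- The upper half of the box. -/
noncomputable def ub (n : ℕ) : Finset Pt := (bx n).filter fun x => 0 ≤ x.2

lemma mem_ub {n : ℕ} {x : Pt} :
    x ∈ ub n ↔ ((-(n : ℤ) ≤ x.1 ∧ x.1 ≤ n) ∧ -(n : ℤ) ≤ x.2 ∧ x.2 ≤ n) ∧ 0 ≤ x.2 := by
  simp [ub, bx, Finset.mem_filter, Finset.mem_product, Finset.mem_Icc]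

lemma ub_mono : Monotone ub := by
  intro n m h x hx
  rw [mem_ub] at hx ⊢
  have : (n : ℤ) ≤ m := by exact_mod_cast h
  omega

/-- The filtration of the upper half boxes. -/
noncomputable def fil : Filtration ℕ (inferInstance : MeasurableSpace (Pt → ℤ)) where
  seq n := Filtration.piFinset (X := fun _ : Pt => ℤ) (ub n)
  mono' := fun _ _ h => Filtration.piFinset.mono (ub_mono h)
  le' n := Filtration.piFinset.le (ub n)

lemma coord_meas {n : ℕ} {x : Pt} (hx : x ∈ ub n) :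
    Measurable[fil n] fun φ : Pt → ℤ => φ x := by
  have h1 : Measurable[fil n] ((ub n).restrict : (Pt → ℤ) → (ub n → ℤ)) :=
    comap_measurable _
  exact (measurable_pi_apply (⟨x, hx⟩ : ub n)).comp h1

lemma sup_meas (F : (Pt → ℤ) → ℝ) (hF : Measurable F)
    (hdep : ∀ φ ψ, (∀ x : Pt, 0 ≤ x.2 → φ x = ψ x) → F φ = F ψ) :
    StronglyMeasurable[⨆ n, fil n] F := by
  classical
  have h1 : Measurable[⨆ n, fil n] fun (φ : Pt → ℤ) (x : Pt) => if 0 ≤ x.2 then φ x else 0 := by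
    refine @measurable_pi_lambda (Pt → ℤ) Pt (fun _ => ℤ) (⨆ n, fil n) _ _ fun x => ?_
    by_cases hx : 0 ≤ x.2
    · simp only [hx, if_true]
      have hm : x ∈ ub (x.1.natAbs + x.2.natAbs) := by
        rw [mem_ub]; omega
      exact (coord_meas hm).mono (le_iSup (fun n => (fil n : MeasurableSpace (Pt → ℤ))) _) le_rfl
    · simp only [hx, if_false]
      exact measurable_const
  have h2 : F = fun φ => F fun x => if 0 ≤ x.2 then φ x else 0 := by
    funext φ
    refine hdep _ _ fun x hx => ?_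
    simp [hx]
  have h3 : Measurable[⨆ n, fil n] F := by
    rw [h2]
    exact hF.comp h1
  exact h3.stronglyMeasurable

lemma approx (ν : Measure (Pt → ℤ)) [IsFiniteMeasure ν] (F : (Pt → ℤ) → ℝ) (hF : Measurable F)
    {M : ℝ} (hM : ∀ φ, |F φ| ≤ M)
    (hdep : ∀ φ ψ, (∀ x : Pt, 0 ≤ x.2 → φ x = ψ x) → F φ = F ψ) :
    ∃ G : ℕ → (Pt → ℤ) → ℝ, (∀ n, Measurable (G n)) ∧ (∀ n φ, |G n φ| ≤ M) ∧
      (∀ n φ ψ, (∀ x ∈ ub n, φ x = ψ x) → G n φ = G n ψ) ∧
      ∀ᵐ φ ∂ν, Tendsto (fun n => G n φ) atTop (𝓝 (F φ)) := by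
  have hM0 : 0 ≤ M := (abs_nonneg _).trans (hM 0)
  have hint : Integrable F ν :=
    Integrable.mono' (integrable_const M) hF.aestronglyMeasurable
      (Eventually.of_forall fun φ => hM φ)
  have hfm : ∀ n, StronglyMeasurable[fil n] fun φ => max (-M) (min M ((ν[F | fil n]) φ)) := by
    intro n
    have h0 : StronglyMeasurable[fil n] (ν[F | fil n]) := stronglyMeasurable_condExp
    exact (by fun_prop : Continuous fun t : ℝ => max (-M) (min M t)).comp_stronglyMeasurable h0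
  refine ⟨fun n φ => max (-M) (min M ((ν[F | fil n]) φ)), fun n => ?_, fun n φ => ?_,
    fun n φ ψ h => ?_, ?_⟩
  · exact ((hfm n).mono (fil.le n)).measurable
  · rw [abs_le]
    exact ⟨le_max_left _ _, max_le (by linarith) (min_le_left _ _)⟩
  · exact (hfm n).dependsOn_of_piFinset (s := ub n) fun x hx => h x hx
  · filter_upwards [hint.tendsto_ae_condExp (sup_meas F hF hdep)] with φ hφ
    have h1 : Tendsto (fun n => max (-M) (min M ((ν[F | fil n]) φ))) atTop
        (𝓝 (max (-M) (min M (F φ)))) :=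
      tendsto_const_nhds.max (tendsto_const_nhds.min hφ)
    have h2 := abs_le.1 (hM φ)
    rwa [min_eq_right h2.2, max_eq_right h2.1] at h1

lemma th_meas : Measurable fun (φ : Pt → ℤ) (x : Pt) => φ (GFF.th x) := by fun_prop

/-- Local functions. -/
lemma local_rp (hrc : S_rc) (hbij : S_bij) (hcc : S_cc) (hrp0 : S_rp0) {Q : Measure Om}
    (hQ : IsQ Q) (B : Finset Pt) (hB : ∀ x ∈ B, 0 ≤ x.2) (F : (Pt → ℤ) → ℝ) (hF : Measurable F)
    (hloc : ∀ φ ψ, (∀ x ∈ B, φ x = ψ x) → F φ = F ψ) :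
    0 ≤ ∫ φ, F φ * F (fun x => φ (GFF.th x)) ∂(Q.map rc) := by
  classical
  obtain ⟨-, -, hφ, -, -, hmeas, hl⟩ := hrc
  obtain ⟨B', hB'⟩ := hl (B ∪ B.image GFF.th)
  have hm : Measurable fun φ : Pt → ℤ => F φ * F (fun x => φ (GFF.th x)) :=
    hF.mul (hF.comp th_meas)
  rw [integral_map hmeas.aemeasurable hm.aestronglyMeasurable]
  have hL : Loc B' fun ω : Om => F (rc ω) * F (fun x => rc ω (GFF.th x)) := by
    intro ω ω' h
    have h1 := hB' ω ω' h
    have h2 : F (rc ω) = F (rc ω') :=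
      hloc _ _ fun x hx => h1 x (Finset.mem_union_left _ hx)
    have h3 : F (fun x => rc ω (GFF.th x)) = F (fun x => rc ω' (GFF.th x)) :=
      hloc _ _ fun x hx => h1 _ (Finset.mem_union_right _ (Finset.mem_image_of_mem _ hx))
    simp only [h2, h3]
  have hlim := hQ.lim B' _ hL
  have hex : Tendsto hexa atTop atTop := by
    rw [tendsto_atTop]
    intro S
    obtain ⟨n, hn, -⟩ := hcc.2.2 S
    filter_upwards [eventually_ge_atTop n] with m hm
    exact hn m hm
  refine ge_of_tendsto (hlim.comp hex) (Eventually.of_forall fun n => ?_)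
  show 0 ≤ E2 (hexa n) _
  unfold E2
  refine div_nonneg ?_ (Nat.cast_nonneg _)
  have h4 := hrp0 n F fun φ ψ h => hloc φ ψ fun x hx => h x (hB x hx)
  refine h4.trans_eq ?_
  refine finsum_mem_eq_of_bijOn _ (hbij (hexa n) (hcc.1 n)) fun φ hφ' => ?_
  have h5 := (hφ φ fun x y hxy => hφ'.2 x y hxy).2
  have h6 : rc (fun x => enc (φ x)) = fun x => φ x - φ 0 := funext h5
  simp only [h6]

end Rp

open Rp in
/-- (24) -/
theorem s_rp (hrc : S_rc) (hbij : S_bij) (hcc : S_cc) (hrp0 : S_rp0) : S_rp := by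
  intro Q hQ F hF hb hdep
  obtain ⟨M, hM⟩ := hb
  have hQp := hQ.prob
  have hmeas : Measurable rc := hrc.2.2.2.2.2.1
  have hP : IsProbabilityMeasure (Q.map rc) := Measure.isProbabilityMeasure_map hmeas.aemeasurable
  set P := Q.map rc with hPdef
  set θ : (Pt → ℤ) → (Pt → ℤ) := fun φ x => φ (GFF.th x) with hθ
  have hθm : Measurable θ := th_meas
  have hP' : IsProbabilityMeasure (P.map θ) := Measure.isProbabilityMeasure_map hθm.aemeasurable
  obtain ⟨G, hGm, hGb, hGl, hGt⟩ := approx (P + P.map θ) F hF hM hdep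
  rw [ae_add_measure_iff] at hGt
  obtain ⟨ht1, ht2⟩ := hGt
  have ht2' : ∀ᵐ φ ∂P, Tendsto (fun n => G n (θ φ)) atTop (𝓝 (F (θ φ))) :=
    ae_of_ae_map hθm.aemeasurable ht2
  have hpos : ∀ n, 0 ≤ ∫ φ, G n φ * G n (θ φ) ∂P := fun n =>
    local_rp hrc hbij hcc hrp0 hQ (ub n) (fun x hx => (mem_ub.1 hx).2) (G n) (hGm n) (hGl n)
  have hlim : Tendsto (fun n => ∫ φ, G n φ * G n (θ φ) ∂P) atTop (𝓝 (∫ φ, F φ * F (θ φ) ∂P)) := by
    refine tendsto_integral_of_dominated_convergence (fun _ => M * M) ?_ (integrable_const _) ?_ ?_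
    · exact fun n => ((hGm n).mul ((hGm n).comp hθm)).aestronglyMeasurable
    · refine fun n => Eventually.of_forall fun φ => ?_
      rw [Real.norm_eq_abs, abs_mul]
      exact mul_le_mul (hGb n φ) (hGb n _) (abs_nonneg _) ((abs_nonneg _).trans (hGb n φ))
    · filter_upwards [ht1, ht2'] with φ h1 h2
      exact h1.mul h2
  exact ge_of_tendsto' hlim hpos

end Vale.Agent.P153.A
end

section

/-!
# P153 GFF: local limits along all exhausting sequences with connected complements, mixing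
-/

namespace Vale.Agent.P153.GFF

open MeasureTheory Filter Topology

/-- The complement of `D` is connected. -/
def CoConn (D : Finset (ℤ × ℤ)) : Prop :=
  ∀ x y, x ∉ D → y ∉ D → Relation.ReflTransGen (fun u v => Adj u v ∧ v ∉ D) x y

theorem cc_of_coConn {D : Finset (ℤ × ℤ)} (h : CoConn D) : A.Cc D := by
  intro x y hx hy
  exact ⟨hx, h x y hx hy⟩

/-- The plane limit along all finite domains with connected complement. -/
theorem exists_plane_loc : ∃ P : Measure (ℤ × ℤ → ℤ), Plane P ∧ Strip.EvLim P ∧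
    ∀ (B : Finset (ℤ × ℤ)) (a : ℤ × ℤ → ℤ), Tendsto
      (fun D : Finset (ℤ × ℤ) => ((Ht D ∩ Pat B a).ncard : ℝ) / (Ht D).ncard)
      (atTop ⊓ 𝓟 {D | A.Cc D}) (𝓝 (P.real (Pat B a))) := by
  have h3 : A.S_fkg := A.s_fkg A.s_super A.s_e1
  have h4 : A.S_dom := A.s_dom A.s_e1 h3
  have h9 : A.S_muMix := A.s_muMix h3 h4 A.s_prod
  have h7 : A.S_mu := A.s_mu A.s_e1 h4 A.s_comp
  have h21 : A.S_loc := A.s_loc A.s_rc A.s_bij
  obtain ⟨μ, hμ⟩ := h7
  have h1 := A.s_bk μ hμ.prob (A.s_muInv μ hμ) (h9 μ hμ) (A.s_muFlip μ hμ)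
  obtain ⟨Q, hQ, hF⟩ := A.s_q A.s_e1 A.s_comp A.s_coin A.s_coin2
    ⟨μ, hμ, A.s_far μ hμ.prob h1⟩
  exact ⟨Q.map A.rc, A.plane_of A.s_rc A.s_sym h21 A.s_cc
    (A.s_rp A.s_rc A.s_bij A.s_cc A.s_rp0) A.s_gibbs
    (A.s_mixP A.s_rc A.s_sym (A.s_mixQ A.s_e1 A.s_coin A.s_coin2 A.s_coin3 h9)) hQ hF,
    A.evLim_of A.s_rc A.s_sym h21 A.s_cc hQ, h21 Q hQ⟩

/-- Local limit along every exhausting sequence with connected complements. -/
theorem oddLim_all {P : Measure (ℤ × ℤ → ℤ)}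
    (hP : ∀ (B : Finset (ℤ × ℤ)) (a : ℤ × ℤ → ℤ), Tendsto
      (fun D : Finset (ℤ × ℤ) => ((Ht D ∩ Pat B a).ncard : ℝ) / (Ht D).ncard)
      (atTop ⊓ 𝓟 {D | A.Cc D}) (𝓝 (P.real (Pat B a))))
    {D : ℕ → Finset (ℤ × ℤ)} (hD : ∀ n, CoConn (D n)) (hx : ∀ x, ∀ᶠ n in atTop, x ∈ D n) :
    OddLim (P.map dbl) D := by
  refine oddLim_map fun B a => (hP B a).comp (tendsto_inf.2 ⟨tendsto_atTop.2 fun E => ?_,
    tendsto_principal.2 (Eventually.of_forall fun n => cc_of_coConn (hD n))⟩)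
  exact (eventually_all_finset (l := atTop) (p := fun x n => x ∈ D n) E).2 fun x _ => hx x

theorem measurable_shift (t : ℤ × ℤ) : Measurable (shift t) :=
  measurable_pi_iff.2 fun x => (measurable_pi_apply (x + t)).sub (measurable_pi_apply t)

/-- Mixing of even local functions, in the normalisation of the problem. -/
theorem mix_map {P : Measure (ℤ × ℤ → ℤ)} (hP : Plane P) (B : Finset (ℤ × ℤ))
    (W W' : (ℤ × ℤ → ℤ) → ℝ) (hW : Measurable W) (hW' : Measurable W')
    (hb : ∃ M, ∀ φ, |W φ| ≤ M) (hb' : ∃ M, ∀ φ, |W' φ| ≤ M) (he : ∀ φ, W (-φ) = W φ)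
    (he' : ∀ φ, W' (-φ) = W' φ) (hl : ∀ φ ψ, (∀ x ∈ B, φ x = ψ x) → W φ = W ψ)
    (hl' : ∀ φ ψ, (∀ x ∈ B, φ x = ψ x) → W' φ = W' ψ) :
    Tendsto (fun t => ∫ φ, W φ * W' (shift t φ) ∂(P.map dbl)) cofinite
      (𝓝 ((∫ φ, W φ ∂(P.map dbl)) * ∫ φ, W' φ ∂(P.map dbl))) := by
  have hn : ∀ φ : ℤ × ℤ → ℤ, dbl (-φ) = -dbl φ := by
    intro φ
    funext x
    simp [dbl]
  have h1 := hP.mix B (fun φ => W (dbl φ)) (fun φ => W' (dbl φ)) (hW.comp measurable_dbl)
    (hW'.comp measurable_dbl) (hb.imp fun M h φ => h _) (hb'.imp fun M h φ => h _)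
    (fun φ => by rw [hn, he]) (fun φ => by rw [hn, he'])
    (fun φ ψ h => hl _ _ fun x hx => by simp only [dbl, h x hx])
    (fun φ ψ h => hl' _ _ fun x hx => by simp only [dbl, h x hx])
  have e1 : ∫ φ, W φ ∂(P.map dbl) = ∫ φ, W (dbl φ) ∂P :=
    integral_map measurable_dbl.aemeasurable hW.aestronglyMeasurable
  have e2 : ∫ φ, W' φ ∂(P.map dbl) = ∫ φ, W' (dbl φ) ∂P :=
    integral_map measurable_dbl.aemeasurable hW'.aestronglyMeasurable
  rw [e1, e2]
  refine h1.congr fun t => ?_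
  have h2 : ∫ φ, W φ * W' (shift t φ) ∂(P.map dbl) = ∫ φ, W (dbl φ) * W' (shift t (dbl φ)) ∂P :=
    integral_map measurable_dbl.aemeasurable
      (hW.mul (hW'.comp (measurable_shift t))).aestronglyMeasurable
  rw [h2]
  congr 1
  funext φ
  congr 2
  funext x
  simp only [shift, dbl]
  ring

end Vale.Agent.P153.GFF
end

section

/-!
# P153 GFF: finite domains which grow fast enough
-/

open MeasureTheory ProbabilityTheory Filter Topology Set

namespace Vale.Agent.P153.GFF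

open Vale.Agent.P153.CLT (measurable_coord)
open Vale.Agent.P153.A (Pt pats expand ev_expand Ht_eq_reg)

variable {P : Measure (ℤ × ℤ → ℤ)} {f : ℝ × ℝ → ℝ} {K δ κ : ℝ}

/-! ### Uniform measures -/

open Classical in
lemma odd2_eq (D : Finset (ℤ × ℤ)) :
    Odd2 D = (((Fv.reg D).image toOdd : Finset (ℤ × ℤ → ℤ)) : Set (ℤ × ℤ → ℤ)) := by
  rw [← toOdd_image, Ht_eq_reg, Finset.coe_image]

lemma unif_prob (D : Finset (ℤ × ℤ)) : IsProbabilityMeasure (uniformOn (Odd2 D)) := by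
  classical
  rw [odd2_eq]
  apply isProbabilityMeasure_uniformOn (Finset.finite_toSet _)
  rw [Finset.coe_nonempty]
  exact ⟨toOdd fun _ => 0, Finset.mem_image_of_mem _ (Fv.zero_mem_reg D)⟩

lemma unif_int (D : Finset (ℤ × ℤ)) (F : (ℤ × ℤ → ℤ) → ℝ) :
    ∫ h, F h ∂(uniformOn (Odd2 D)) = Vale.Agent.P153.ev (Fv.reg D) fun φ => F (toOdd φ) := by
  classical
  rw [odd2_eq, Vale.Agent.P153.integral_uniformOn]
  unfold Vale.Agent.P153.ev
  rw [Finset.sum_image fun a _ b _ h => toOdd_inj h, Finset.card_image_of_injective _ toOdd_inj]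

lemma int_cexp {Ω : Type*} [MeasurableSpace Ω] (μ : Measure Ω) [IsProbabilityMeasure μ]
    {X : Ω → ℝ} (hX : Measurable X) : ∫ ω, Complex.exp (Complex.I * (X ω : ℂ)) ∂μ =
      ((∫ ω, Real.cos (X ω) ∂μ : ℝ) : ℂ) + ((∫ ω, Real.sin (X ω) ∂μ : ℝ) : ℂ) * Complex.I := by
  have h1 : ∀ ω, Complex.exp (Complex.I * (X ω : ℂ)) =
      ((Real.cos (X ω) : ℝ) : ℂ) + ((Real.sin (X ω) : ℝ) : ℂ) * Complex.I := by
    intro ω
    rw [mul_comm, Complex.exp_mul_I, Complex.ofReal_cos, Complex.ofReal_sin]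
  simp_rw [h1]
  have i1 : Integrable (fun ω => ((Real.cos (X ω) : ℝ) : ℂ)) μ :=
    (Integrable.of_bound (Real.measurable_cos.comp hX).aestronglyMeasurable 1
      (ae_of_all _ fun ω => Real.abs_cos_le_one _)).ofReal
  have i2 : Integrable (fun ω => ((Real.sin (X ω) : ℝ) : ℂ) * Complex.I) μ :=
    ((Integrable.of_bound (Real.measurable_sin.comp hX).aestronglyMeasurable 1
      (ae_of_all _ fun ω => Real.abs_sin_le_one _)).ofReal).mul_const _
  rw [integral_add i1 i2, integral_mul_const]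
  congr 1
  · exact integral_ofReal
  · congr 1
    exact integral_ofReal

/-! ### Smeared fields are local functions of the differences -/

lemma smear_toOdd (hf : Csts f K) (h0 : ∫ z, f z = 0) (hδ : 0 < δ) (φ : ℤ × ℤ → ℤ) :
    smear (toOdd φ) δ f = smear φ δ (fun z => 2 * f z) := by
  rw [← smear_dbl, smear_finsum hf hδ, smear_finsum hf hδ]
  have h1 : (∑ᶠ v : ℤ × ℤ, (toOdd φ v : ℝ) * wt δ f v) =
      (∑ᶠ v : ℤ × ℤ, (dbl φ v : ℝ) * wt δ f v) - ∑ᶠ v : ℤ × ℤ, wt δ f v := by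
    rw [← finsum_sub_distrib _ (wt_support_finite hf hδ)]
    · apply finsum_congr
      intro v
      unfold toOdd dbl
      push_cast
      ring
    · apply (wt_support_finite hf hδ).subset
      intro v hv
      rw [Function.mem_support] at hv ⊢
      intro h2
      apply hv
      rw [h2, mul_zero]
  rw [h1, finsum_wt hf hδ, h0, sub_zero]

lemma smear_local (hf : Csts f K) (h0 : ∫ z, f z = 0) (hδ : 0 < δ) {B : Finset (ℤ × ℤ)}
    (hB : (0 : ℤ × ℤ) ∈ B) (hBB : box δ K ⊆ B) {φ ψ : ℤ × ℤ → ℤ}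
    (h : ∀ x ∈ B, ∀ y ∈ B, φ x - φ y = ψ x - ψ y) : smear φ δ f = smear ψ δ f := by
  have hs : ∑ v ∈ box δ K, wt δ f v = 0 := by
    rw [sum_wt hδ hf.pos.le hf.cont hf.supp hf.zero, h0]
  have key : ∀ φ : ℤ × ℤ → ℤ, smear φ δ f = ∑ v ∈ box δ K, ((φ v - φ 0 : ℤ) : ℝ) * wt δ f v := by
    intro φ
    rw [smear_eq_sum hδ hf.pos.le hf.cont hf.supp hf.zero]
    have : ∑ v ∈ box δ K, ((φ v - φ 0 : ℤ) : ℝ) * wt δ f v =
        ∑ v ∈ box δ K, (φ v : ℝ) * wt δ f v - (φ 0 : ℝ) * ∑ v ∈ box δ K, wt δ f v := by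
      rw [Finset.mul_sum, ← Finset.sum_sub_distrib]
      refine Finset.sum_congr rfl fun v _ => ?_
      push_cast
      ring
    rw [this, hs, mul_zero, sub_zero]
  rw [key, key]
  refine Finset.sum_congr rfl fun v hv => ?_
  rw [h v (hBB hv) 0 hB]

/-! ### Comparison -/

open Classical in
lemma integral_expandP (hP : Plane P) {B : Finset (ℤ × ℤ)}
    (hB : (0 : ℤ × ℤ) ∈ B) {F : (ℤ × ℤ → ℤ) → ℝ}
    (hF : ∀ φ ψ : ℤ × ℤ → ℤ, (∀ x ∈ B, ∀ y ∈ B, φ x - φ y = ψ x - ψ y) → F φ = F ψ) :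
    ∫ φ, F φ ∂P = ∑ a ∈ pats B, F a * P.real (Pat B a) := by
  have := hP.prob
  have h1 : ∀ᵐ φ ∂P, F φ = ∑ a ∈ pats B, F a * (Pat B a).indicator (fun _ => (1 : ℝ)) φ := by
    filter_upwards [hP.lip] with φ hφ
    rw [expand hB hF φ hφ]
    refine Finset.sum_congr rfl fun a _ => ?_
    rw [Set.indicator_apply]
  rw [integral_congr_ae h1, integral_finsetSum _ fun a _ =>
    ((integrable_const _).indicator (measurableSet_Pat B a)).const_mul _]
  refine Finset.sum_congr rfl fun a _ => ?_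
  rw [integral_const_mul, integral_indicator_const _ (measurableSet_Pat B a), smul_eq_mul, mul_one]

/-- the error for the patterns on `B` -/
noncomputable def perr (P : Measure (ℤ × ℤ → ℤ)) (B D : Finset (ℤ × ℤ)) : ℝ :=
  ∑ a ∈ pats B, |((Ht D ∩ Pat B a).ncard : ℝ) / (Ht D).ncard - P.real (Pat B a)|

lemma ev_close (hP : Plane P) {B : Finset (ℤ × ℤ)} (hB : (0 : ℤ × ℤ) ∈ B)
    {F : (ℤ × ℤ → ℤ) → ℝ}
    (hF : ∀ φ ψ : ℤ × ℤ → ℤ, (∀ x ∈ B, ∀ y ∈ B, φ x - φ y = ψ x - ψ y) → F φ = F ψ)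
    (hF1 : ∀ φ, |F φ| ≤ 1) (D : Finset (ℤ × ℤ)) :
    |Vale.Agent.P153.ev (Fv.reg D) F - ∫ φ, F φ ∂P| ≤ perr P B D := by
  rw [ev_expand hB hF, integral_expandP hP hB hF, ← Finset.sum_sub_distrib]
  refine (Finset.abs_sum_le_sum_abs _ _).trans (Finset.sum_le_sum fun a _ => ?_)
  rw [← mul_sub, abs_mul]
  exact mul_le_of_le_one_left (abs_nonneg _) (hF1 a)

lemma char_close (hP : Plane P) {B : Finset (ℤ × ℤ)} (hB : (0 : ℤ × ℤ) ∈ B)
    (hf : Test f) (hK : Csts (fun z => 2 * f z) K) (hδ : 0 < δ) (hBB : box δ K ⊆ B)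
    (D : Finset (ℤ × ℤ)) :
    ‖(∫ h : ℤ × ℤ → ℤ, Complex.exp (Complex.I * ((smear h δ f : ℝ) : ℂ)) ∂(uniformOn (Odd2 D))) -
      ∫ φ : ℤ × ℤ → ℤ, Complex.exp (Complex.I * ((smear φ δ (fun z => 2 * f z) : ℝ) : ℂ)) ∂P‖ ≤
      2 * perr P B D := by
  have := hP.prob
  have := unif_prob D
  obtain ⟨K', hK'⟩ := hf.csts
  have h20 : ∫ z, 2 * f z = 0 := (test_two hf).2.2
  have hloc : ∀ φ ψ : ℤ × ℤ → ℤ, (∀ x ∈ B, ∀ y ∈ B, φ x - φ y = ψ x - ψ y) →
      smear φ δ (fun z => 2 * f z) = smear ψ δ (fun z => 2 * f z) :=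
    fun φ ψ h => smear_local hK h20 hδ hB hBB h
  rw [int_cexp _ (measurable_smear hK' hδ), int_cexp _ (measurable_smear hK hδ), unif_int, unif_int]
  simp_rw [smear_toOdd hK' hf.2.2 hδ]
  have c1 := ev_close hP hB (F := fun φ => Real.cos (smear φ δ fun z => 2 * f z))
    (fun φ ψ h => by rw [hloc φ ψ h]) (fun φ => Real.abs_cos_le_one _) D
  have c2 := ev_close hP hB (F := fun φ => Real.sin (smear φ δ fun z => 2 * f z))
    (fun φ ψ h => by rw [hloc φ ψ h]) (fun φ => Real.abs_sin_le_one _) D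
  set a := Vale.Agent.P153.ev (Fv.reg D) (fun φ => Real.cos (smear φ δ fun z => 2 * f z))
  set b := ∫ φ : ℤ × ℤ → ℤ, Real.cos (smear φ δ fun z => 2 * f z) ∂P
  set c := Vale.Agent.P153.ev (Fv.reg D) (fun φ => Real.sin (smear φ δ fun z => 2 * f z))
  set d := ∫ φ : ℤ × ℤ → ℤ, Real.sin (smear φ δ fun z => 2 * f z) ∂P
  have e : (a : ℂ) + (c : ℂ) * Complex.I - ((b : ℂ) + (d : ℂ) * Complex.I) =
      ((a - b : ℝ) : ℂ) + ((c - d : ℝ) : ℂ) * Complex.I := by
    push_cast
    ring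
  rw [e]
  refine (norm_add_le _ _).trans ?_
  rw [norm_mul, Complex.norm_I, mul_one, Complex.norm_real, Complex.norm_real, Real.norm_eq_abs,
    Real.norm_eq_abs]
  linarith

/-- the window at mesh `δ` -/
noncomputable def win (δ : ℝ) : Finset (ℤ × ℤ) :=
  insert 0 (Finset.Icc (-⌈1 / δ ^ 2⌉) ⌈1 / δ ^ 2⌉ ×ˢ Finset.Icc (-⌈1 / δ ^ 2⌉) ⌈1 / δ ^ 2⌉)

lemma win_box (K : ℝ) : ∀ᶠ δ : ℝ in 𝓝[>] 0, box δ K ⊆ win δ := by
  have h1 : Tendsto (fun δ : ℝ => 2 * K * δ + 6 * δ ^ 2) (𝓝[>] 0) (𝓝 0) := by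
    have : Continuous fun δ : ℝ => 2 * K * δ + 6 * δ ^ 2 := by fun_prop
    have h2 := this.tendsto 0
    simp only [mul_zero, ne_eq, OfNat.ofNat_ne_zero, not_false_eq_true, zero_pow, add_zero] at h2
    exact h2.mono_left nhdsWithin_le_nhds
  filter_upwards [h1.eventually (gt_mem_nhds one_pos), self_mem_nhdsWithin] with δ hδ1 hδ
  have hδ0 : (0 : ℝ) < δ := hδ
  have h3 : 2 * (K / δ) + 6 ≤ 1 / δ ^ 2 := by
    rw [le_div_iff₀ (by positivity)]
    have : (2 * (K / δ) + 6) * δ ^ 2 = 2 * K * δ + 6 * δ ^ 2 := by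
      field_simp
    rw [this]
    exact hδ1.le
  have h4 : ⌈2 * (K / δ) + 6⌉ ≤ ⌈1 / δ ^ 2⌉ := Int.ceil_le_ceil h3
  intro v hv
  unfold box at hv
  unfold win
  rw [Finset.mem_product, Finset.mem_Icc, Finset.mem_Icc] at hv
  rw [Finset.mem_insert, Finset.mem_product, Finset.mem_Icc, Finset.mem_Icc]
  right
  omega

theorem fin_dom (hP : Plane P) (hS : SpecOut P κ) (hC : RowCLT P κ)
    (hloc : ∀ (B : Finset (ℤ × ℤ)) (a : ℤ × ℤ → ℤ), Tendsto (fun D : Finset (ℤ × ℤ) =>
      ((Ht D ∩ Pat B a).ncard : ℝ) / (Ht D).ncard) (atTop ⊓ 𝓟 {D | A.Cc D})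
        (𝓝 (P.real (Pat B a)))) :
    ∃ R : ℝ → Finset (ℤ × ℤ), ∀ D : ℝ → Finset (ℤ × ℤ), (∀ δ, R δ ⊆ D δ) → (∀ δ, A.Cc (D δ)) →
      ∀ F, Test F → Tendsto (fun δ : ℝ => ∫ h : ℤ × ℤ → ℤ,
        Complex.exp (Complex.I * ((smear h δ F : ℝ) : ℂ)) ∂(uniformOn (Odd2 (D δ)))) (𝓝[>] 0)
        (𝓝 (Complex.exp (-((4 * κ / √3 * gffCov F F / 2 : ℝ) : ℂ)))) := by
  have h1 : ∀ δ : ℝ, 0 < δ → ∃ R : Finset (ℤ × ℤ), ∀ D, R ⊆ D → A.Cc D →
      perr P (win δ) D < δ := by
    intro δ hδ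
    have h2 : Tendsto (fun D => perr P (win δ) D) (atTop ⊓ 𝓟 {D | A.Cc D}) (𝓝 0) := by
      unfold perr
      have h3 : ∀ a ∈ pats (win δ), Tendsto (fun D : Finset (ℤ × ℤ) =>
          |((Ht D ∩ Pat (win δ) a).ncard : ℝ) / (Ht D).ncard - P.real (Pat (win δ) a)|)
          (atTop ⊓ 𝓟 {D | A.Cc D}) (𝓝 0) := by
        intro a _
        have h4 := ((hloc (win δ) a).sub_const (P.real (Pat (win δ) a))).abs
        simpa using h4
      simpa using tendsto_finsetSum _ h3
    have h5 := h2.eventually (gt_mem_nhds hδ)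
    rw [eventually_inf_principal, eventually_atTop] at h5
    obtain ⟨R, hR⟩ := h5
    exact ⟨R, fun D hD hc => hR D hD hc⟩
  classical
  refine ⟨fun δ => if h : 0 < δ then (h1 δ h).choose else ∅, fun D hD hc F hF => ?_⟩
  have hclose : ∀ᶠ δ : ℝ in 𝓝[>] 0, ‖(∫ h : ℤ × ℤ → ℤ,
      Complex.exp (Complex.I * ((smear h δ F : ℝ) : ℂ)) ∂(uniformOn (Odd2 (D δ)))) -
      ∫ φ : ℤ × ℤ → ℤ, Complex.exp (Complex.I * ((smear φ δ (fun z => 2 * F z) : ℝ) : ℂ)) ∂P‖ ≤
      2 * δ := by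
    obtain ⟨K, hK⟩ := (test_two hF).csts
    filter_upwards [win_box K, self_mem_nhdsWithin] with δ hw hδ
    have hδ0 : (0 : ℝ) < δ := hδ
    have h6 := char_close hP (B := win δ) (Finset.mem_insert_self _ _) hF hK hδ0 hw (D δ)
    have h7 := hD δ
    simp only [dif_pos hδ0] at h7
    have h8 := (h1 δ hδ0).choose_spec (D δ) h7 (hc δ)
    linarith
  have h9 := char_fun hP hS hC (test_two hF)
  rw [gffCov_two] at h9
  have h10 : κ / √3 * (4 * gffCov F F) / 2 = 4 * κ / √3 * gffCov F F / 2 := by ring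
  rw [h10] at h9
  have h11 : Tendsto (fun δ : ℝ => (∫ h : ℤ × ℤ → ℤ,
      Complex.exp (Complex.I * ((smear h δ F : ℝ) : ℂ)) ∂(uniformOn (Odd2 (D δ)))) -
      ∫ φ : ℤ × ℤ → ℤ, Complex.exp (Complex.I * ((smear φ δ (fun z => 2 * F z) : ℝ) : ℂ)) ∂P)
      (𝓝[>] 0) (𝓝 0) := by
    apply squeeze_zero_norm' hclose
    have : Tendsto (fun δ : ℝ => 2 * δ) (𝓝 0) (𝓝 (2 * 0)) := tendsto_id.const_mul 2
    rw [mul_zero] at this
    exact this.mono_left nhdsWithin_le_nhds
  have h12 := h11.add h9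
  rw [zero_add] at h12
  refine h12.congr fun δ => ?_
  ring

end Vale.Agent.P153.GFF
end

section

/-!
P145, block F-TOP, K2: dominating test functions.
-/

namespace Vale.Agent.P153.F.Top

open MeasureTheory Set Filter Topology
open Vale.Agent.P145.PT

/-- A cutoff function for a test function. -/
theorem exists_chi {D : Set (ℝ × ℝ)} (hD : IsOpen D) (hb : Bornology.IsBounded D)
    {f : ℝ × ℝ → ℝ} (hf : TestOn D f) : ∃ (r : ℝ) (χ : ℝ × ℝ → ℝ), 0 < r ∧ TestOn D χ ∧
      (∀ z, 0 ≤ χ z ∧ χ z ≤ 1) ∧ (∀ z, r / 2 ≤ dd D z → χ z = 1) ∧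
      ∀ z, dd D z ≤ r → f z = 0 := by
  obtain ⟨r, hr, hz⟩ := exists_low hD hb hf
  obtain ⟨χ, hχs, hχ01, hχ0, hχ1⟩ := exists_cutoff D (show r / 4 < r / 2 by linarith)
  have hsub : tsupport χ ⊆ {x | r / 4 ≤ dd D x} := by
    refine closure_minimal ?_ (isClosed_le continuous_const (dd_cont D))
    intro x hx
    by_contra h
    rw [mem_ofPred_eq, not_le] at h
    exact hx (hχ0 x h.le)
  have hsubD : tsupport χ ⊆ D := fun x hx => by
    have h1 : r / 4 ≤ dd D x := hsub hx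
    exact (dd_pos hD hb).1 (by linarith)
  have hχT : TestOn D χ := ⟨hχs,
    Metric.isCompact_of_isClosed_isBounded (isClosed_tsupport _) (hb.subset hsubD), hsubD⟩
  exact ⟨r, χ, hr, hχT, hχ01, hχ1, hz⟩

/-- Domination of a test function by a nonnegative one, with `L²` norm almost as small. -/
theorem exists_dom {D : Set (ℝ × ℝ)} (hD : IsOpen D) (hb : Bornology.IsBounded D)
    {f : ℝ × ℝ → ℝ} (hf : TestOn D f) {ε : ℝ} (hε : 0 < ε) : ∃ g : ℝ × ℝ → ℝ, TestOn D g ∧
      (∀ z, |f z| ≤ g z) ∧ ∫ z, g z ^ 2 ≤ (∫ z, f z ^ 2) + ε := by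
  obtain ⟨r, χ, hr, hχT, hχ01, hχ1, hz⟩ := exists_chi hD hb hf
  set I : ℝ := ∫ z, χ z ^ 2 with hI
  have hI0 : 0 ≤ I := integral_nonneg fun z => sq_nonneg _
  set e : ℝ := Real.sqrt (ε / (I + 1)) with he
  have he0 : 0 < e := Real.sqrt_pos.2 (by positivity)
  have he2 : e ^ 2 = ε / (I + 1) := Real.sq_sqrt (by positivity)
  have heI : e ^ 2 * I ≤ ε := by
    rw [he2, div_mul_eq_mul_div, div_le_iff₀ (by linarith)]
    nlinarith
  set g : ℝ × ℝ → ℝ := fun z => Real.sqrt (f z ^ 2 + (e * χ z) ^ 2) with hg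
  have hsq : ∀ z, g z ^ 2 = f z ^ 2 + (e * χ z) ^ 2 := fun z => Real.sq_sqrt (by positivity)
  -- the function away from the boundary and close to it
  have hlow : ∀ z, dd D z ≤ r → g z = e * χ z := by
    intro z hzr
    rw [hg]; simp only
    rw [hz z hzr]
    rw [zero_pow two_ne_zero, zero_add, Real.sqrt_sq (mul_nonneg he0.le (hχ01 z).1)]
  have hhigh : ∀ z, r / 2 ≤ dd D z → f z ^ 2 + (e * χ z) ^ 2 ≠ 0 := by
    intro z hzr
    rw [hχ1 z hzr]
    have : 0 < (e * 1) ^ 2 := by positivity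
    positivity
  have hgs : ContDiff ℝ ((⊤ : ℕ∞) : WithTop ℕ∞) g := by
    rw [contDiff_iff_contDiffAt]
    intro z
    rcases lt_or_ge (dd D z) r with h | h
    · have hev : g =ᶠ[𝓝 z] fun z => e * χ z := by
        filter_upwards [(dd_cont D).continuousAt.eventually_lt continuousAt_const h] with y hy
        exact hlow y hy.le
      exact (((contDiff_const (c := e)).mul hχT.1).contDiffAt (x := z)).congr_of_eventuallyEq hev
    · have h1 : ContDiff ℝ ((⊤ : ℕ∞) : WithTop ℕ∞) fun z => f z ^ 2 + (e * χ z) ^ 2 :=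
        (hf.1.pow 2).add (((contDiff_const (c := e)).mul hχT.1).pow 2)
      exact h1.contDiffAt.sqrt (hhigh z (by linarith))
  have hsubg : Function.support g ⊆ tsupport f ∪ tsupport χ := by
    intro z hzg
    by_contra h
    rw [mem_union, not_or] at h
    have h1 : f z = 0 := image_eq_zero_of_notMem_tsupport h.1
    have h2 : χ z = 0 := image_eq_zero_of_notMem_tsupport h.2
    apply hzg
    rw [hg]; simp only
    rw [h1, h2]; simp
  have hclg : tsupport g ⊆ tsupport f ∪ tsupport χ :=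
    closure_minimal hsubg ((isClosed_tsupport _).union (isClosed_tsupport _))
  have hsubD : tsupport g ⊆ D := hclg.trans (union_subset hf.2.2 hχT.2.2)
  refine ⟨g, ⟨hgs, Metric.isCompact_of_isClosed_isBounded (isClosed_tsupport _)
    (hb.subset hsubD), hsubD⟩, fun z => ?_, ?_⟩
  · refine Real.abs_le_sqrt ?_
    nlinarith [sq_nonneg (e * χ z)]
  · have e1 : (fun z => g z ^ 2) = fun z => f z ^ 2 + e ^ 2 * χ z ^ 2 := by
      funext z; rw [hsq z]; ring
    rw [e1, integral_add hf.intSq (hχT.intSq.const_mul _), integral_const_mul]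
    linarith

/-- A large test function. -/
theorem exists_big {R : ℝ} (hR : 0 < R) : ∃ f0 : ℝ × ℝ → ℝ,
    TestOn (Metric.ball (0 : ℝ × ℝ) (2 * R)) f0 ∧ (∀ z, 0 ≤ f0 z) ∧
      ∀ z ∈ Metric.ball (0 : ℝ × ℝ) R, 1 ≤ f0 z := by
  obtain ⟨χ, h0, h1, h2⟩ := exists_contMDiffMap_zero_one_of_isClosed (n := (⊤ : ℕ∞))
    (modelWithCornersSelf ℝ (ℝ × ℝ)) (s := {x : ℝ × ℝ | 3 / 2 * R ≤ dist x 0})
    (t := {x : ℝ × ℝ | dist x 0 ≤ R})
    (isClosed_le continuous_const (by fun_prop)) (isClosed_le (by fun_prop) continuous_const)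
    (by
      rw [Set.disjoint_left]
      intro x hx hx'
      have h1 : 3 / 2 * R ≤ dist x 0 := hx
      have h2 : dist x 0 ≤ R := hx'
      linarith)
  have hsub : tsupport χ ⊆ {x : ℝ × ℝ | dist x 0 ≤ 3 / 2 * R} := by
    refine closure_minimal ?_ (isClosed_le (by fun_prop) continuous_const)
    intro x hx
    by_contra h
    rw [mem_ofPred_eq, not_le] at h
    exact hx (h0 h.le)
  have hsub' : tsupport χ ⊆ Metric.ball (0 : ℝ × ℝ) (2 * R) := fun x hx => by
    have h1 : dist x 0 ≤ 3 / 2 * R := hsub hx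
    rw [Metric.mem_ball]; linarith
  refine ⟨χ, ⟨χ.contMDiff.contDiff, Metric.isCompact_of_isClosed_isBounded (isClosed_tsupport _)
    (Metric.isBounded_ball.subset hsub'), hsub'⟩, fun z => (h2 z).1, fun z hz => ?_⟩
  exact (h1 (show dist z 0 ≤ R from (Metric.mem_ball.1 hz).le)).ge

/-- Decomposition of a test function, with domination. -/
theorem pos_part {D : Set (ℝ × ℝ)} (hD : IsOpen D) (hb : Bornology.IsBounded D)
    {f : ℝ × ℝ → ℝ} (hf : TestOn D f) {R : ℝ} {f0 : ℝ × ℝ → ℝ}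
    (hDR : D ⊆ Metric.ball (0 : ℝ × ℝ) R) (h0 : ∀ z, 0 ≤ f0 z)
    (h1 : ∀ z ∈ Metric.ball (0 : ℝ × ℝ) R, 1 ≤ f0 z) :
    ∃ (p m : ℝ × ℝ → ℝ) (C : ℝ), 0 ≤ C ∧ TestOn D p ∧ TestOn D m ∧
      (∀ z, 0 ≤ p z ∧ p z ≤ C * f0 z) ∧ (∀ z, 0 ≤ m z ∧ m z ≤ C * f0 z) ∧
      ∀ z, f z = p z - m z := by
  obtain ⟨p, m, hp, hm, hp0, hm0, hpm⟩ := exists_decomp hD hb hf
  have key : ∀ {q : ℝ × ℝ → ℝ}, TestOn D q → (∀ z, 0 ≤ q z) →
      ∃ C : ℝ, 0 ≤ C ∧ ∀ C' : ℝ, C ≤ C' → ∀ z, q z ≤ C' * f0 z := by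
    intro q hq hq0
    obtain ⟨B, hB⟩ := hq.cs.exists_bound_of_continuous hq.cont
    have hB0 : 0 ≤ B := (norm_nonneg _).trans (hB 0)
    refine ⟨B, hB0, fun C' hC' z => ?_⟩
    by_cases hz : z ∈ D
    · have h2 := h1 z (hDR hz)
      have h3 : q z ≤ B := (le_abs_self _).trans (hB z)
      have h4 : C' * 1 ≤ C' * f0 z := mul_le_mul_of_nonneg_left h2 (hB0.trans hC')
      linarith
    · have h2 : q z = 0 := by
        by_contra h
        exact hz (hq.2.2 (subset_tsupport q h))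
      rw [h2]
      exact mul_nonneg (hB0.trans hC') (h0 z)
  obtain ⟨C1, hC1, hb1⟩ := key hp hp0
  obtain ⟨C2, hC2, hb2⟩ := key hm hm0
  exact ⟨p, m, max C1 C2, hC1.trans (le_max_left _ _), hp, hm,
    fun z => ⟨hp0 z, hb1 _ (le_max_left _ _) z⟩, fun z => ⟨hm0 z, hb2 _ (le_max_right _ _) z⟩, hpm⟩

end Vale.Agent.P153.F.Top
end

section

/-!
P153-F, X-level (mirror of `P145.X.Pin`): the three outer regions of the pinwheel of a triangle, and
the partition of a test function along the corridors.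
-/

set_option autoImplicit false

namespace Vale.Agent.P153.F.X

open Filter Topology Set MeasureTheory
open Vale.Agent.P145.PT Vale.Agent.P153.F.Top
open Vale.Agent.P145.X (T T_nonneg T_le T_zero T_one T_pos T_sm mul_T_le line_null)

/-- The four cutoffs. -/
noncomputable def k0 (a b c e : ℝ) (z : ℝ × ℝ) : ℝ :=
  T ((c1 z - a) / e - 1) * T ((c - (c1 z + c2 z)) / e - 1) * T ((c2 z - b) / e - 1)
noncomputable def k1 (a e : ℝ) (z : ℝ × ℝ) : ℝ := T ((a - c1 z) / e - 1)
noncomputable def k2 (a c e : ℝ) (z : ℝ × ℝ) : ℝ :=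
  T ((c1 z - a) / e) * T ((c1 z + c2 z - c) / e - 1)
noncomputable def k3 (a b c e : ℝ) (z : ℝ × ℝ) : ℝ :=
  T ((b - c2 z) / e - 1) * (T ((c1 z - a) / e) * T ((c - (c1 z + c2 z)) / e))

/-- The outer cutoff. -/
noncomputable def kp (a b c e : ℝ) (z : ℝ × ℝ) : ℝ :=
  k1 a e z + k2 a c e z + k3 a b c e z

theorem sm_c1 : ContDiff ℝ ((⊤ : ℕ∞) : WithTop ℕ∞) c1 := by
  unfold c1; fun_prop

theorem sm_c2 : ContDiff ℝ ((⊤ : ℕ∞) : WithTop ℕ∞) c2 := by
  unfold c2; fun_prop

theorem sm_k0 (a b c e : ℝ) : Sm (k0 a b c e) := by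
  have h := T_sm
  have h1 := sm_c1
  have h2 := sm_c2
  unfold Sm k0
  have e1 : ContDiff ℝ ((⊤ : ℕ∞) : WithTop ℕ∞) (fun z : ℝ × ℝ => (c1 z - a) / e - 1) := by
    fun_prop
  have e2 : ContDiff ℝ ((⊤ : ℕ∞) : WithTop ℕ∞)
      (fun z : ℝ × ℝ => (c - (c1 z + c2 z)) / e - 1) := by fun_prop
  have e3 : ContDiff ℝ ((⊤ : ℕ∞) : WithTop ℕ∞) (fun z : ℝ × ℝ => (c2 z - b) / e - 1) := by
    fun_prop
  exact ((h.comp e1).mul (h.comp e2)).mul (h.comp e3)

theorem sm_kp (a b c e : ℝ) : Sm (kp a b c e) := by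
  have h := T_sm
  have h1 := sm_c1
  have h2 := sm_c2
  unfold Sm kp k1 k2 k3
  have e1 : ContDiff ℝ ((⊤ : ℕ∞) : WithTop ℕ∞) (fun z : ℝ × ℝ => (a - c1 z) / e - 1) := by
    fun_prop
  have e2 : ContDiff ℝ ((⊤ : ℕ∞) : WithTop ℕ∞) (fun z : ℝ × ℝ => (c1 z - a) / e) := by
    fun_prop
  have e3 : ContDiff ℝ ((⊤ : ℕ∞) : WithTop ℕ∞)
      (fun z : ℝ × ℝ => (c1 z + c2 z - c) / e - 1) := by fun_prop
  have e4 : ContDiff ℝ ((⊤ : ℕ∞) : WithTop ℕ∞) (fun z : ℝ × ℝ => (b - c2 z) / e - 1) := by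
    fun_prop
  have e5 : ContDiff ℝ ((⊤ : ℕ∞) : WithTop ℕ∞)
      (fun z : ℝ × ℝ => (c - (c1 z + c2 z)) / e) := by fun_prop
  exact ((h.comp e1).add ((h.comp e2).mul (h.comp e3))).add
    ((h.comp e4).mul ((h.comp e2).mul (h.comp e5)))

section
variable {a b c e : ℝ}

theorem k0_nonneg (z : ℝ × ℝ) : 0 ≤ k0 a b c e z :=
  mul_nonneg (mul_nonneg (T_nonneg _) (T_nonneg _)) (T_nonneg _)
theorem k1_nonneg (z : ℝ × ℝ) : 0 ≤ k1 a e z := T_nonneg _
theorem k2_nonneg (z : ℝ × ℝ) : 0 ≤ k2 a c e z := mul_nonneg (T_nonneg _) (T_nonneg _)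
theorem k3_nonneg (z : ℝ × ℝ) : 0 ≤ k3 a b c e z :=
  mul_nonneg (T_nonneg _) (mul_nonneg (T_nonneg _) (T_nonneg _))
theorem kp_nonneg (z : ℝ × ℝ) : 0 ≤ kp a b c e z :=
  add_nonneg (add_nonneg (k1_nonneg z) (k2_nonneg z)) (k3_nonneg z)

theorem k0_le (z : ℝ × ℝ) : k0 a b c e z ≤ 1 :=
  mul_T_le (mul_nonneg (T_nonneg _) (T_nonneg _)) (mul_T_le (T_nonneg _) (T_le _) (T_nonneg _)
    (T_le _)) (T_nonneg _) (T_le _)

theorem pos_of_k0 (he : 0 < e) {z : ℝ × ℝ} (h : k0 a b c e z ≠ 0) :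
    a + e < c1 z ∧ b + e < c2 z ∧ c1 z + c2 z < c - e := by
  unfold k0 at h
  have h1 := T_pos (left_ne_zero_of_mul (left_ne_zero_of_mul h))
  have h2 := T_pos (right_ne_zero_of_mul (left_ne_zero_of_mul h))
  have h3 := T_pos (right_ne_zero_of_mul h)
  rw [sub_pos, lt_div_iff₀ he] at h1 h2 h3
  refine ⟨?_, ?_, ?_⟩ <;> linarith

theorem pos_of_k1 (he : 0 < e) {z : ℝ × ℝ} (h : k1 a e z ≠ 0) : c1 z < a - e := by
  have h1 := T_pos h
  rw [sub_pos, lt_div_iff₀ he] at h1
  linarith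

theorem pos_of_k2 (he : 0 < e) {z : ℝ × ℝ} (h : k2 a c e z ≠ 0) :
    a < c1 z ∧ c + e < c1 z + c2 z := by
  unfold k2 at h
  have h1 := T_pos (left_ne_zero_of_mul h)
  have h2 := T_pos (right_ne_zero_of_mul h)
  rw [lt_div_iff₀ he] at h1
  rw [sub_pos, lt_div_iff₀ he] at h2
  refine ⟨?_, ?_⟩ <;> linarith

theorem pos_of_k3 (he : 0 < e) {z : ℝ × ℝ} (h : k3 a b c e z ≠ 0) :
    c2 z < b - e ∧ a < c1 z ∧ c1 z + c2 z < c := by
  unfold k3 at h
  have h1 := T_pos (left_ne_zero_of_mul h)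
  have h2 := T_pos (left_ne_zero_of_mul (right_ne_zero_of_mul h))
  have h3 := T_pos (right_ne_zero_of_mul (right_ne_zero_of_mul h))
  rw [sub_pos, lt_div_iff₀ he] at h1
  rw [lt_div_iff₀ he] at h2 h3
  refine ⟨?_, ?_, ?_⟩ <;> linarith

theorem kp_pin (he : 0 < e) {z : ℝ × ℝ} (h : kp a b c e z ≠ 0) : z ∈ Pin a b c e := by
  unfold kp at h
  by_cases h1 : k1 a e z = 0
  · by_cases h2 : k2 a c e z = 0
    · have h3 : k3 a b c e z ≠ 0 := by
        intro h3
        exact h (by rw [h1, h2, h3]; norm_num)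
      obtain ⟨q1, q2, q3⟩ := pos_of_k3 he h3
      exact Or.inr (Or.inr ⟨q2.le, q3.le, q1.le⟩)
    · obtain ⟨q1, q2⟩ := pos_of_k2 he h2
      exact Or.inr (Or.inl ⟨q1.le, q2.le⟩)
  · exact Or.inl (pos_of_k1 he h1).le

/-- The sum of the cutoffs. -/
theorem k_sum (he : 0 < e) (z : ℝ × ℝ) : k0 a b c e z + kp a b c e z ≤ 1 := by
  set s : ℝ := c1 z with hs
  set d : ℝ := c2 z with hd
  have n0 : ¬ (a + e < s ∧ b + e < d ∧ s + d < c - e) → k0 a b c e z = 0 := by
    intro h; by_contra h0; exact h (pos_of_k0 he h0)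
  have n1 : ¬ (s < a - e) → k1 a e z = 0 := by
    intro h; by_contra h0; exact h (pos_of_k1 he h0)
  have n2 : ¬ (a < s ∧ c + e < s + d) → k2 a c e z = 0 := by
    intro h; by_contra h0; exact h (pos_of_k2 he h0)
  have n3 : ¬ (d < b - e ∧ a < s ∧ s + d < c) → k3 a b c e z = 0 := by
    intro h; by_contra h0; exact h (pos_of_k3 he h0)
  have l1 : k1 a e z ≤ 1 := T_le _
  have l2 : k2 a c e z ≤ 1 := mul_T_le (T_nonneg _) (T_le _) (T_nonneg _) (T_le _)
  have l3 : k3 a b c e z ≤ 1 := mul_T_le (T_nonneg _) (T_le _) (mul_nonneg (T_nonneg _)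
    (T_nonneg _)) (mul_T_le (T_nonneg _) (T_le _) (T_nonneg _) (T_le _))
  have l0 : k0 a b c e z ≤ 1 := k0_le z
  unfold kp
  rcases le_or_gt s a with h1 | h1
  · rw [n0 (by intro h; linarith [h.1]), n2 (by intro h; linarith [h.1]),
      n3 (by intro h; linarith [h.2.1])]
    linarith
  · rw [n1 (by intro h; linarith)]
    rcases le_or_gt c (s + d) with h2 | h2
    · rw [n0 (by intro h; linarith [h.2.2]), n3 (by intro h; linarith [h.2.2])]
      linarith
    · rw [n2 (by intro h; linarith [h.2])]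
      rcases le_or_gt d b with h4 | h4
      · rw [n0 (by intro h; linarith [h.2.1])]
        linarith
      · rw [n3 (by intro h; linarith [h.1])]
        linarith

end

/-- Off the lines the sum of the cutoffs is eventually one. -/
theorem k_sum_one {a b c : ℝ} {z : ℝ × ℝ}
    (h1 : c1 z ≠ a) (h2 : c2 z ≠ b) (h3 : c1 z + c2 z ≠ c) :
    ∀ᶠ e : ℝ in 𝓝[>] 0, k0 a b c e z + kp a b c e z = 1 := by
  set s : ℝ := c1 z with hs
  set d : ℝ := c2 z with hd
  have key : ∀ x : ℝ, 0 < x → ∀ᶠ e : ℝ in 𝓝[>] 0, T (x / e - 1) = 1 ∧ T (x / e) = 1 := by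
    intro x hx
    have : ∀ᶠ e : ℝ in 𝓝[>] 0, e < x / 2 :=
      nhdsWithin_le_nhds (eventually_lt_nhds (half_pos hx))
    filter_upwards [this, self_mem_nhdsWithin] with e he he0
    have he0' : (0 : ℝ) < e := he0
    have h5 : 2 ≤ x / e := by rw [le_div_iff₀ he0']; linarith
    exact ⟨T_one (by linarith only [h5]), T_one (by linarith only [h5])⟩
  have key' : ∀ x : ℝ, x < 0 → ∀ᶠ e : ℝ in 𝓝[>] 0, T (x / e - 1) = 0 ∧ T (x / e) = 0 := by
    intro x hx
    filter_upwards [self_mem_nhdsWithin] with e he0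
    have he0' : (0 : ℝ) < e := he0
    have h5 : x / e < 0 := div_neg_of_neg_of_pos hx he0'
    exact ⟨T_zero (by linarith), T_zero h5.le⟩
  have both : ∀ x : ℝ, x ≠ 0 → ∀ᶠ e : ℝ in 𝓝[>] 0,
      (0 < x → T (x / e - 1) = 1 ∧ T (x / e) = 1) ∧ (x < 0 → T (x / e - 1) = 0 ∧ T (x / e) = 0) := by
    intro x hx
    rcases lt_or_gt_of_ne hx with h | h
    · filter_upwards [key' x h] with e he
      exact ⟨fun h' => absurd h' (not_lt.2 h.le), fun _ => he⟩
    · filter_upwards [key x h] with e he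
      exact ⟨fun _ => he, fun h' => absurd h' (not_lt.2 h.le)⟩
  filter_upwards [both (s - a) (sub_ne_zero.2 h1), both (a - s) (sub_ne_zero.2 h1.symm),
    both (c - (s + d)) (sub_ne_zero.2 h3.symm), both (s + d - c) (sub_ne_zero.2 h3),
    both (d - b) (sub_ne_zero.2 h2), both (b - d) (sub_ne_zero.2 h2.symm)]
    with e q1 q2 q3 q4 q5 q6
  unfold kp k0 k1 k2 k3
  rw [← hs, ← hd]
  rcases lt_or_gt_of_ne h1 with c1 | c1
  · rw [(q1.2 (by linarith)).1, (q1.2 (by linarith)).2, (q2.1 (by linarith)).1]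
    ring
  · rcases lt_or_gt_of_ne h3 with c3 | c3
    · rcases lt_or_gt_of_ne h2 with c2 | c2
      · rw [(q1.1 (by linarith)).1, (q1.1 (by linarith)).2, (q2.2 (by linarith)).1,
          (q3.1 (by linarith)).1, (q3.1 (by linarith)).2, (q4.2 (by linarith)).1,
          (q5.2 (by linarith)).1, (q6.1 (by linarith)).1]
        ring
      · rw [(q1.1 (by linarith)).1, (q1.1 (by linarith)).2, (q2.2 (by linarith)).1,
          (q3.1 (by linarith)).1, (q3.1 (by linarith)).2, (q4.2 (by linarith)).1,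
          (q5.1 (by linarith)).1, (q6.2 (by linarith)).1]
        ring
    · rw [(q1.1 (by linarith)).2, (q2.2 (by linarith)).1,
        (q3.2 (by linarith)).1, (q3.2 (by linarith)).2, (q4.1 (by linarith)).1]
      ring

theorem lines_null (a b c : ℝ) : ∀ᵐ z : ℝ × ℝ, c1 z ≠ a ∧ c2 z ≠ b ∧ c1 z + c2 z ≠ c := by
  have h3 : (0 : ℝ) < √3 := by positivity
  have h1 := line_null c1 (by unfold c1; fun_prop) (fun x y y' h => by
    simp only [c1] at h
    have : y / √3 = y' / √3 := by linarith only [h]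
    exact (div_left_inj' h3.ne').1 this) a
  have h2 := line_null c2 (by unfold c2; fun_prop) (fun x y y' h => by
    simp only [c2] at h
    have := (div_left_inj' h3.ne').1 h
    linarith only [this]) b
  have h4 := line_null (fun z => c1 z + c2 z) (by unfold c1 c2; fun_prop) (fun x y y' h => by
    simp only [c1, c2] at h
    have : y / √3 = y' / √3 := by
      have e1 : 2 * y / √3 = 2 * (y / √3) := by ring
      have e2 : 2 * y' / √3 = 2 * (y' / √3) := by ring
      rw [e1, e2] at h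
      linarith only [h]
    exact (div_left_inj' h3.ne').1 this) c
  filter_upwards [h1, h2, h4] with z q1 q2 q3
  exact ⟨q1, q2, q3⟩

/-- **partition along the corridors** -/
theorem exists_pin {D : Set (ℝ × ℝ)} {f : ℝ × ℝ → ℝ} (hf : TestOn D f) (hf0 : ∀ z, 0 ≤ f z)
    (a b c : ℝ) {ρ : ℝ} (hρ : 0 < ρ) :
    ∃ e : ℝ, 0 < e ∧ ∃ f0 g : ℝ × ℝ → ℝ, TestOn (cell a b c) f0 ∧ TestOn D f0 ∧ TestOn D g ∧
      (∀ z, 0 ≤ f0 z) ∧ (∀ z, 0 ≤ g z) ∧ (∀ z, g z ≠ 0 → z ∈ Pin a b c e) ∧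
      (∀ z, f0 z + g z ≤ f z) ∧ (∫ z, (f z - (f0 z + g z)) ^ 2) ≤ ρ ∧
      (∫ z, (f z - (f0 z + g z))) ≤ ρ := by
  set F : ℝ → ℝ × ℝ → ℝ := fun e z => k0 a b c e z + kp a b c e z with hF
  have hF0 : ∀ e z, 0 ≤ F e z := fun e z => add_nonneg (k0_nonneg z) (kp_nonneg z)
  have hlim : ∀ᵐ z : ℝ × ℝ, Tendsto (fun e => f z - F e z * f z) (𝓝[>] 0) (𝓝 0) := by
    filter_upwards [lines_null a b c] with z hz
    refine Tendsto.congr' ?_ tendsto_const_nhds
    filter_upwards [k_sum_one hz.1 hz.2.1 hz.2.2] with e he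
    simp only [hF]
    rw [he]; ring
  have hFc : ∀ e, Continuous (F e) := fun e =>
    (sm_k0 a b c e).continuous.add (sm_kp a b c e).continuous
  have hbd : ∀ e, 0 < e → ∀ z, 0 ≤ f z - F e z * f z ∧ f z - F e z * f z ≤ f z := by
    intro e he z
    have h1 := k_sum (a := a) (b := b) (c := c) he z
    have h2 := hF0 e z
    have h3 := hf0 z
    constructor
    · have : F e z * f z ≤ 1 * f z := mul_le_mul_of_nonneg_right h1 h3
      linarith
    · have : 0 ≤ F e z * f z := mul_nonneg h2 h3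
      linarith
  have L1 : Tendsto (fun e => ∫ z, (f z - F e z * f z)) (𝓝[>] 0) (𝓝 0) := by
    have h := tendsto_integral_filter_of_dominated_convergence (μ := volume)
      (F := fun e z => f z - F e z * f z) (f := fun _ => (0 : ℝ)) (l := 𝓝[>] (0 : ℝ))
      (bound := f) ?_ ?_ hf.int hlim
    · simpa using h
    · exact Eventually.of_forall fun e =>
        (hf.cont.sub ((hFc e).mul hf.cont)).aestronglyMeasurable
    · filter_upwards [self_mem_nhdsWithin] with e he
      refine Eventually.of_forall fun z => ?_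
      have h1 := hbd e he z
      rw [Real.norm_eq_abs, abs_of_nonneg h1.1]
      exact h1.2
  have L2 : Tendsto (fun e => ∫ z, (f z - F e z * f z) ^ 2) (𝓝[>] 0) (𝓝 0) := by
    have hf2 : Integrable (fun z => f z ^ 2) := hf.intSq
    have h := tendsto_integral_filter_of_dominated_convergence (μ := volume)
      (F := fun e z => (f z - F e z * f z) ^ 2) (f := fun _ => (0 : ℝ)) (l := 𝓝[>] (0 : ℝ))
      (bound := fun z => f z ^ 2) ?_ ?_ hf2 ?_
    · simpa using h
    · exact Eventually.of_forall fun e =>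
        ((hf.cont.sub ((hFc e).mul hf.cont)).pow 2).aestronglyMeasurable
    · filter_upwards [self_mem_nhdsWithin] with e he
      refine Eventually.of_forall fun z => ?_
      have h1 := hbd e he z
      rw [Real.norm_eq_abs, abs_of_nonneg (sq_nonneg _)]
      exact pow_le_pow_left₀ h1.1 h1.2 2
    · filter_upwards [hlim] with z hz
      have := hz.pow 2
      simpa using this
  have hev := (L1.eventually (gt_mem_nhds hρ)).and (L2.eventually (gt_mem_nhds hρ))
  obtain ⟨e, ⟨e1, e2⟩, he⟩ := (hev.and self_mem_nhdsWithin).exists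
  have he0 : 0 < e := he
  refine ⟨e, he0, fun z => k0 a b c e z * f z, fun z => kp a b c e z * f z, ?_,
    hf.mulSm (sm_k0 _ _ _ _), hf.mulSm (sm_kp _ _ _ _),
    fun z => mul_nonneg (k0_nonneg z) (hf0 z), fun z => mul_nonneg (kp_nonneg z) (hf0 z),
    fun z hz => kp_pin he0 (left_ne_zero_of_mul hz), ?_, ?_, ?_⟩
  · refine ⟨(sm_k0 _ _ _ _).mul hf.1, hf.2.1.mul_left, ?_⟩
    have hcl : IsClosed {z : ℝ × ℝ | a + e ≤ c1 z ∧ b + e ≤ c2 z ∧ c1 z + c2 z ≤ c - e} := by
      have q1 : Continuous c1 := sm_c1.continuous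
      have q2 : Continuous c2 := sm_c2.continuous
      exact (isClosed_le continuous_const q1).inter ((isClosed_le continuous_const q2).inter
        (isClosed_le (q1.add q2) continuous_const))
    have hsub : tsupport (fun z => k0 a b c e z * f z) ⊆
        {z : ℝ × ℝ | a + e ≤ c1 z ∧ b + e ≤ c2 z ∧ c1 z + c2 z ≤ c - e} := by
      refine closure_minimal ?_ hcl
      intro z hz
      obtain ⟨q1, q2, q3⟩ := pos_of_k0 he0 (left_ne_zero_of_mul hz)
      exact ⟨q1.le, q2.le, q3.le⟩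
    intro z hz
    obtain ⟨q1, q2, q3⟩ := hsub hz
    exact ⟨by linarith, by linarith, by linarith⟩
  · intro z
    have h1 := k_sum (a := a) (b := b) (c := c) he0 z
    have h3 := hf0 z
    have h4 : (k0 a b c e z + kp a b c e z) * f z ≤ 1 * f z :=
      mul_le_mul_of_nonneg_right h1 h3
    linarith
  · refine le_trans (le_of_eq ?_) e2.le
    congr 1
    funext z
    simp only [hF]
    ring
  · refine le_trans (le_of_eq ?_) e1.le
    congr 1
    funext z
    simp only [hF]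
    ring

end Vale.Agent.P153.F.X
end
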