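import Mathlib
import Vale.Agent.P153.Bd5.B1
import Vale.Agent.P153.Bd5.B9
import Vale.Agent.P153.Bd5.B6
import Vale.Agent.P153.Bd5.B12
import Vale.Agent.P153.Bd5.B20

set_option linter.all false

section

/-!
P153-F: the leaves between the polygons of the final statement and the lattice domains `Vs δ D`.
-/

namespace Vale.Agent.P153.F.Dom

open Finset Filter Topology MeasureTheory
open Vale.Agent.P153.F.Top Vale.Agent.P145.PT

open Classical in
/-- The inner vertices of the domain enclosed by `p`. -/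
noncomputable def inner {n : ℕ} (p : ZMod n → ℤ × ℤ) (S : Finset ((ℤ × ℤ) × Bool)) :
    Finset (ℤ × ℤ) := (verts S).filter fun v => ∀ i, p i ≠ v

/-- Leaf D1: the law is a probability measure, and the heights at the inner vertices have the law
of `ze`. -/
def S_law : Prop := ∀ {n : ℕ} (p : ZMod n → ℤ × ℤ) (S : Finset ((ℤ × ℤ) × Bool)),
  IsPolygon p → Encloses p S → (Heights p S).Finite ∧ (Heights p S).Nonempty ∧
    IsProbabilityMeasure (law p S) ∧ (∀ G : (ℤ × ℤ → ℤ) → ℝ, Integrable G (law p S)) ∧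
    ∀ A : Om → ℝ, ∫ h, A (vh (inner p S) h) ∂(law p S) = ze (inner p S) A

/-- Leaf D2: inner inclusion. -/
def S_in : Prop := ∀ (D : Set (ℝ × ℝ)) (δ : ℕ → ℝ) (N : ℕ → ℕ) (p : ∀ n, ZMod (N n) → ℤ × ℤ)
  (S : ℕ → Finset ((ℤ × ℤ) × Bool)), Approx D δ N p S → ∀ D' : Set (ℝ × ℝ),
    Bornology.IsBounded D' → closure D' ⊆ D → ∀ᶠ n in atTop, Vs (δ n) D' ⊆ inner (p n) (S n)

/-- Leaf D3: outer inclusion. -/
def S_out : Prop := ∀ (D : Set (ℝ × ℝ)) (δ : ℕ → ℝ) (N : ℕ → ℕ) (p : ∀ n, ZMod (N n) → ℤ × ℤ)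
  (S : ℕ → Finset ((ℤ × ℤ) × Bool)), JordanDomain D → Approx D δ N p S → ∀ D' : Set (ℝ × ℝ),
    IsOpen D' → Bornology.IsBounded D' → closure D ⊆ D' → ∀ᶠ n in atTop,
      inner (p n) (S n) ⊆ Vs (δ n) D'

/-- Leaf D4: the field `fld` is the sum of the heights of the inner vertices with weights close to
`√3/2 δ² φ(δ v)`: for every test function there are weights `w n v`, vanishing off the inner
vertices and off a fixed compact subset of `D`, with error `O(δ³)`. -/
def S_fld : Prop := ∀ (D : Set (ℝ × ℝ)), IsOpen D → ∀ (δ : ℕ → ℝ) (N : ℕ → ℕ) (p : ∀ n, ZMod (N n) → ℤ × ℤ)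
  (S : ℕ → Finset ((ℤ × ℤ) × Bool)), Approx D δ N p S → ∀ φ : ℝ × ℝ → ℝ, TestOn D φ →
    ∃ (C : ℝ) (K : Set (ℝ × ℝ)) (w : ℕ → ℤ × ℤ → ℝ), IsCompact K ∧ K ⊆ D ∧ ∀ᶠ n in atTop,
      (∀ v, w n v ≠ 0 → v ∈ inner (p n) (S n) ∧ dp (δ n) v ∈ K) ∧
      (∀ v, |w n v - δ n ^ 2 * tl φ (δ n * v.1, δ n * v.2)| ≤ C * δ n ^ 3) ∧
      (∀ v, φ (dp (δ n) v) ≠ 0 → v ∈ inner (p n) (S n)) ∧
      ∀ h : ℤ × ℤ → ℤ, fld (S n) (δ n) φ h = ∑ v ∈ inner (p n) (S n), w n v * (h v : ℝ)

end Vale.Agent.P153.F.Dom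
end

section

/-!
P153-F, leaf D1: the law of the heights in a polygon.
-/

namespace Vale.Agent.P153.F.Dom

open Finset Filter Topology MeasureTheory
open Vale.Agent.P153.F.Top Vale.Agent.P145.PT

section LawTri

variable {n : ℕ} {p : ZMod n → ℤ × ℤ} {S : Finset ((ℤ × ℤ) × Bool)}

theorem dl_mem {v : ℤ × ℤ} {t : (ℤ × ℤ) × Bool} (ht : t ∈ S) (hv : v ∈ corners t) : v ∈ verts S :=
  mem_biUnion.2 ⟨t, ht, hv⟩

theorem dl_cF {v w : ℤ × ℤ} : w ∈ corners (v, false) ↔ w = v ∨ w = v + (1, 0) ∨ w = v + (0, 1) := by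
  simp [corners]

theorem dl_cT {v w : ℤ × ℤ} :
    w ∈ corners (v, true) ↔ w = v + (1, 0) ∨ w = v + (0, 1) ∨ w = v + (1, 1) := by
  simp [corners]

theorem IsEdge.left {a b : ℤ × ℤ} (h : IsEdge p a b) : ∃ i, p i = a := by
  obtain ⟨i, ⟨h1, _⟩ | ⟨_, h2⟩⟩ := h
  · exact ⟨i, h1⟩
  · exact ⟨i + 1, h2⟩

theorem IsEdge.right {a b : ℤ × ℤ} (h : IsEdge p a b) : ∃ i, p i = b := by
  obtain ⟨i, ⟨_, h2⟩ | ⟨h1, _⟩⟩ := h
  · exact ⟨i + 1, h2⟩
  · exact ⟨i, h1⟩

theorem IsEdge.symm {a b : ℤ × ℤ} (h : IsEdge p a b) : IsEdge p b a := by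
  obtain ⟨i, h⟩ := h
  exact ⟨i, h.symm⟩

/-- The six triangles around a vertex off the polygon. -/
theorem dl_six (hS : Encloses p S) (v : ℤ × ℤ) (hv : ∀ i, p i ≠ v) :
    (((v - (1, 0), true) ∈ S) ↔ (v, false) ∈ S) ∧ (((v - (1, 0), false) ∈ S) ↔ (v, false) ∈ S) ∧
    (((v - (1, 1), true) ∈ S) ↔ (v, false) ∈ S) ∧ (((v - (0, 1), false) ∈ S) ↔ (v, false) ∈ S) ∧
    (((v - (0, 1), true) ∈ S) ↔ (v, false) ∈ S) := by
  obtain ⟨h1, h2, h3⟩ := hS
  have hn : ∀ b, ¬ IsEdge p v b := fun b h => by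
    obtain ⟨i, hi⟩ := h.left
    exact hv i hi
  have hn' : ∀ b, ¬ IsEdge p b v := fun b h => hn b h.symm
  have e1 := h2 v
  have e2 := h3 (v - (1, 0))
  have e3 := h1 (v - (1, 0))
  have e4 := h2 (v - (0, 1))
  have e6 := h1 v
  rw [sub_add_cancel] at e2 e3 e4
  rw [show v - (1, 0) - (0, 1) = v - (1, 1) by rw [sub_sub]; rfl] at e3
  rw [show v - (0, 1) - (1, 0) = v - (1, 1) by rw [sub_sub]; rfl] at e4
  have i1 : (v, false) ∈ S ↔ (v - (1, 0), true) ∈ S := not_not.1 fun hc => hn _ (e1.2 hc)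
  have i2 : (v - (1, 0), false) ∈ S ↔ (v - (1, 0), true) ∈ S := not_not.1 fun hc => hn _ (e2.2 hc)
  have i3 : (v - (1, 0), false) ∈ S ↔ (v - (1, 1), true) ∈ S := not_not.1 fun hc => hn' _ (e3.2 hc)
  have i4 : (v - (0, 1), false) ∈ S ↔ (v - (1, 1), true) ∈ S := not_not.1 fun hc => hn' _ (e4.2 hc)
  have i6 : (v, false) ∈ S ↔ (v - (0, 1), true) ∈ S := not_not.1 fun hc => hn _ (e6.2 hc)
  exact ⟨i1.symm, i2.trans i1.symm, i3.symm.trans (i2.trans i1.symm),
    i4.trans (i3.symm.trans (i2.trans i1.symm)), i6.symm⟩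

theorem dl_inner {v : ℤ × ℤ} : v ∈ inner p S ↔ v ∈ verts S ∧ ∀ i, p i ≠ v := by
  classical
  simp [inner]

theorem dl_all (hS : Encloses p S) {v : ℤ × ℤ} (hv : v ∈ inner p S) :
    (v, false) ∈ S ∧ (v - (1, 0), false) ∈ S ∧ (v - (0, 1), false) ∈ S := by
  obtain ⟨h1, h2⟩ := dl_inner.1 hv
  obtain ⟨k1, k2, k3, k4, k5⟩ := dl_six hS v h2
  have h0 : (v, false) ∈ S := by
    obtain ⟨⟨w, b⟩, ht, hc⟩ := mem_biUnion.1 h1
    cases b
    · rcases dl_cF.1 hc with h | h | h
      · rw [h]; exact ht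
      · rw [← k2, h, add_sub_cancel_right]; exact ht
      · rw [← k4, h, add_sub_cancel_right]; exact ht
    · rcases dl_cT.1 hc with h | h | h
      · rw [← k1, h, add_sub_cancel_right]; exact ht
      · rw [← k5, h, add_sub_cancel_right]; exact ht
      · rw [← k3, h, add_sub_cancel_right]; exact ht
  exact ⟨h0, k2.2 h0, k4.2 h0⟩

/-- The neighbours of an inner vertex are in the domain. -/
theorem dl_nbr (hS : Encloses p S) {v w : ℤ × ℤ} (hv : v ∈ inner p S) (hw : Adj v w) :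
    w ∈ verts S := by
  obtain ⟨h1, h2, h3⟩ := dl_all hS hv
  unfold Adj at hw
  obtain ⟨v1, v2⟩ := v
  obtain ⟨w1, w2⟩ := w
  simp only [Set.mem_insert_iff, Set.mem_singleton_iff, Prod.mk.injEq] at hw
  rcases hw with h | h | h | h | h | h
  · refine dl_mem h1 (dl_cF.2 ?_)
    right; left
    simp only [Prod.mk_add_mk, Prod.mk.injEq]
    omega
  · refine dl_mem h2 (dl_cF.2 ?_)
    left
    simp only [Prod.mk_sub_mk, Prod.mk.injEq]
    omega
  · refine dl_mem h1 (dl_cF.2 ?_)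
    right; right
    simp only [Prod.mk_add_mk, Prod.mk.injEq]
    omega
  · refine dl_mem h3 (dl_cF.2 ?_)
    left
    simp only [Prod.mk_sub_mk, Prod.mk.injEq]
    omega
  · refine dl_mem h3 (dl_cF.2 ?_)
    right; left
    simp only [Prod.mk_sub_mk, Prod.mk_add_mk, Prod.mk.injEq]
    omega
  · refine dl_mem h2 (dl_cF.2 ?_)
    right; right
    simp only [Prod.mk_sub_mk, Prod.mk_add_mk, Prod.mk.injEq]
    omega

/-- The ends of an edge of the polygon are in the domain. -/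
theorem dl_edge (hS : Encloses p S) {a b : ℤ × ℤ} (h : IsEdge p a b) (hab : GFF.Adj a b) :
    a ∈ verts S := by
  obtain ⟨h1, h2, h3⟩ := hS
  have key : ∀ t t' : (ℤ × ℤ) × Bool, ¬ (t ∈ S ↔ t' ∈ S) → a ∈ corners t → a ∈ corners t' →
      a ∈ verts S := by
    intro t t' h ha ha'
    by_cases ht : t ∈ S
    · exact dl_mem ht ha
    · by_cases ht' : t' ∈ S
      · exact dl_mem ht' ha'
      · exact absurd (by tauto) h
  unfold GFF.Adj at hab
  obtain ⟨a1, a2⟩ := a
  obtain ⟨b1, b2⟩ := b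
  simp only [Set.mem_insert_iff, Set.mem_singleton_iff, Prod.mk.injEq] at hab
  rcases hab with g | g | g | g | g | g
  · have e : ((b1, b2) : ℤ × ℤ) = (a1, a2) + (1, 0) := by
      simp only [Prod.mk_add_mk, Prod.mk.injEq]; omega
    rw [e] at h
    refine key _ _ ((h1 _).1 h) (dl_cF.2 ?_) (dl_cT.2 ?_)
    · left; rfl
    · right; left; rw [sub_add_cancel]
  · have e : ((a1, a2) : ℤ × ℤ) = (b1, b2) + (1, 0) := by
      simp only [Prod.mk_add_mk, Prod.mk.injEq]; omega
    rw [e] at h key ⊢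
    refine key _ _ ((h1 _).1 h.symm) (dl_cF.2 ?_) (dl_cT.2 ?_)
    · right; left; rfl
    · right; right
      simp only [Prod.mk_sub_mk, Prod.mk_add_mk, Prod.mk.injEq]; omega
  · have e : ((b1, b2) : ℤ × ℤ) = (a1, a2) + (0, 1) := by
      simp only [Prod.mk_add_mk, Prod.mk.injEq]; omega
    rw [e] at h
    refine key _ _ ((h2 _).1 h) (dl_cF.2 ?_) (dl_cT.2 ?_)
    · left; rfl
    · left; rw [sub_add_cancel]
  · have e : ((a1, a2) : ℤ × ℤ) = (b1, b2) + (0, 1) := by
      simp only [Prod.mk_add_mk, Prod.mk.injEq]; omega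
    rw [e] at h key ⊢
    refine key _ _ ((h2 _).1 h.symm) (dl_cF.2 ?_) (dl_cT.2 ?_)
    · right; right; rfl
    · right; right
      simp only [Prod.mk_sub_mk, Prod.mk_add_mk, Prod.mk.injEq]; omega
  · have e1 : ((a1, a2) : ℤ × ℤ) = (a1, a2 - 1) + (0, 1) := by
      simp only [Prod.mk_add_mk, Prod.mk.injEq]; omega
    have e2 : ((b1, b2) : ℤ × ℤ) = (a1, a2 - 1) + (1, 0) := by
      simp only [Prod.mk_add_mk, Prod.mk.injEq]; omega
    rw [e2] at h
    have h' : IsEdge p ((a1, a2 - 1) + (0, 1)) ((a1, a2 - 1) + (1, 0)) := by rw [← e1]; exact h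
    refine key _ _ ((h3 _).1 h'.symm) (dl_cF.2 ?_) (dl_cT.2 ?_)
    · right; right; exact e1
    · right; left; exact e1
  · have e1 : ((a1, a2) : ℤ × ℤ) = (a1 - 1, a2) + (1, 0) := by
      simp only [Prod.mk_add_mk, Prod.mk.injEq]; omega
    have e2 : ((b1, b2) : ℤ × ℤ) = (a1 - 1, a2) + (0, 1) := by
      simp only [Prod.mk_add_mk, Prod.mk.injEq]; omega
    rw [e2] at h
    have h' : IsEdge p ((a1 - 1, a2) + (1, 0)) ((a1 - 1, a2) + (0, 1)) := by rw [← e1]; exact h
    refine key _ _ ((h3 _).1 h') (dl_cF.2 ?_) (dl_cT.2 ?_)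
    · right; left; exact e1
    · left; exact e1

theorem dl_poly (hp : IsPolygon p) (hS : Encloses p S) (i : ZMod n) : p i ∈ verts S :=
  dl_edge hS ⟨i, Or.inl ⟨rfl, rfl⟩⟩ (hp.2.2 i)

end LawTri

section LawHts

variable {n : ℕ} {p : ZMod n → ℤ × ℤ} {S : Finset ((ℤ × ℤ) × Bool)}

open Classical in
/-- restriction to the domain -/
noncomputable def dlR (V : Finset (ℤ × ℤ)) (g : ℤ × ℤ → ℤ) : ℤ × ℤ → ℤ := fun x => if x ∈ V then g x else 0

theorem dl_heights (hp : IsPolygon p) (hS : Encloses p S) :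
    Heights p S = dlR (verts S) '' (FreeF (inner p S) (verts S) : Set (ℤ × ℤ → ℤ)) := by
  classical
  ext h
  simp only [Set.mem_image, SetLike.mem_coe, mem_FreeF]
  constructor
  · rintro ⟨h1, h2, h3, h4⟩
    refine ⟨fun x => if x ∈ verts S then h x else 1, ⟨⟨fun x => ?_, fun x y hxy => ?_⟩, fun x hx => ?_, fun x hx => ?_⟩, ?_⟩
    · by_cases hx : x ∈ verts S
      · simp only [hx, if_true]; exact h1 x hx
      · simp only [hx, if_false]; exact odd_one
    · have hb : ∀ x, x ∈ verts S → x ∉ inner p S → |h x| = 1 := by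
        intro x hx hx'
        have : ∃ i, p i = x := by
          by_contra hc
          push Not at hc
          exact hx' (dl_inner.2 ⟨hx, hc⟩)
        obtain ⟨i, rfl⟩ := this
        rcases h2 i with e | e <;> simp [e]
      by_cases hx : x ∈ verts S <;> by_cases hy : y ∈ verts S
      · simp only [hx, hy, if_true]
        rcases h3 x hx y hy hxy with e | e <;> simp [e]
      · simp only [hx, hy, if_true, if_false]
        have e := hb x hx fun hi => hy (dl_nbr hS hi hxy)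
        rcases abs_eq (zero_le_one' ℤ) |>.1 e with e | e <;> simp [e]
      · simp only [hx, hy, if_true, if_false]
        have e := hb y hy fun hi => hx (dl_nbr hS hi hxy.symm)
        rcases abs_eq (zero_le_one' ℤ) |>.1 e with e | e <;> simp [e]
      · simp [hx, hy]
    · by_cases hx' : x ∈ verts S
      · simp only [hx', if_true]
        have : ∃ i, p i = x := by
          by_contra hc
          push Not at hc
          exact hx (dl_inner.2 ⟨hx', hc⟩)
        obtain ⟨i, rfl⟩ := this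
        rcases h2 i with e | e <;> simp [e]
      · simp [hx']
    · simp [hx]
    · funext x
      unfold dlR
      by_cases hx : x ∈ verts S
      · simp [hx]
      · simp [hx, h4 x hx]
  · rintro ⟨g, ⟨⟨g1, g2⟩, g3, g4⟩, rfl⟩
    refine ⟨fun v hv => ?_, fun i => ?_, fun v hv w hw hvw => ?_, fun v hv => ?_⟩
    · simp only [dlR, hv, if_true]; exact g1 v
    · have hi := dl_poly hp hS i
      simp only [dlR, hi, if_true]
      have e := g3 (p i) fun h => (dl_inner.1 h).2 i rfl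
      exact abs_eq (zero_le_one' ℤ) |>.1 e
    · simp only [dlR, hv, hw, if_true]
      have e := g2 v w hvw
      have e1 := (g1 v).sub_odd (g1 w)
      obtain ⟨k, hk⟩ := e1
      rw [hk] at e ⊢
      have e0 := abs_nonneg (k + k)
      obtain ⟨e2, e3⟩ := abs_le.1 e
      have : k = 0 ∨ k = 1 ∨ k = -1 := by omega
      rcases this with rfl | rfl | rfl <;> simp
    · simp [dlR, hv]

theorem dl_inj : Set.InjOn (dlR (verts S)) (FreeF (inner p S) (verts S) : Set (ℤ × ℤ → ℤ)) := by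
  intro g hg g' hg' h
  rw [SetLike.mem_coe, mem_FreeF] at hg hg'
  funext x
  by_cases hx : x ∈ verts S
  · have := congrFun h x
    simpa [dlR, hx] using this
  · rw [hg.2.2 x hx, hg'.2.2 x hx]

end LawHts

section LawMeas

/-- The uniform distribution on a finite set. -/
theorem dl_unif {T : Finset (ℤ × ℤ → ℤ)} (hT : T.Nonempty) :
    IsProbabilityMeasure (((#T : ENNReal))⁻¹ • ∑ h ∈ T, Measure.dirac h) ∧
    (∀ G : (ℤ × ℤ → ℤ) → ℝ, Integrable G (((#T : ENNReal))⁻¹ • ∑ h ∈ T, Measure.dirac h)) ∧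
    ∀ G : (ℤ × ℤ → ℤ) → ℝ, ∫ h, G h ∂(((#T : ENNReal))⁻¹ • ∑ h ∈ T, Measure.dirac h) = ev T G := by
  have h0 : ((#T : ℕ) : ENNReal) ≠ 0 := by
    rw [Nat.cast_ne_zero]
    exact hT.card_pos.ne'
  have h1 : ((#T : ℕ) : ENNReal) ≠ ⊤ := ENNReal.natCast_ne_top _
  have hi : ∀ G : (ℤ × ℤ → ℤ) → ℝ, ∀ h ∈ T, Integrable G (Measure.dirac h) := fun G h _ =>
    integrable_dirac (by simp)
  refine ⟨⟨?_⟩, fun G => ?_, fun G => ?_⟩
  · rw [Measure.smul_apply, Measure.finsetSum_apply]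
    simp only [measure_univ, sum_const, nsmul_eq_mul, mul_one, smul_eq_mul]
    exact ENNReal.inv_mul_cancel h0 h1
  · refine Integrable.smul_measure ?_ (ENNReal.inv_ne_top.2 h0)
    exact integrable_finsetSum_measure.2 (hi G)
  · rw [integral_smul_measure, integral_finsetSum_measure (hi G)]
    simp only [integral_dirac]
    rw [ev, ENNReal.toReal_inv, ENNReal.toReal_natCast, smul_eq_mul]
    ring

end LawMeas

/-- Leaf D1. -/
theorem s_law : S_law := by
  classical
  intro n p S hp hS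
  set T : Finset (ℤ × ℤ → ℤ) := (FreeF (inner p S) (verts S)).image (dlR (verts S)) with hT
  have hH : Heights p S = (T : Set (ℤ × ℤ → ℤ)) := by
    rw [dl_heights hp hS, hT, coe_image]
  have hTn : T.Nonempty := (nonempty_free _ _).image _
  have hlaw : law p S = ((#T : ENNReal))⁻¹ • ∑ h ∈ T, Measure.dirac h := by
    unfold law
    rw [hH, Set.ncard_coe_finset, finsum_mem_coe_finset]
  obtain ⟨k1, k2, k3⟩ := dl_unif hTn
  refine ⟨hH ▸ T.finite_toSet, hH ▸ hTn, hlaw ▸ k1, fun G => hlaw ▸ k2 G, fun A => ?_⟩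
  rw [hlaw, k3]
  have hcl : clo (inner p S) ⊆ verts S := by
    intro x hx
    unfold clo at hx
    rcases mem_union.1 hx with h | h
    · exact (dl_inner.1 h).1
    · obtain ⟨y, hy, hyx⟩ := mem_biUnion.1 h
      refine dl_nbr hS hy ?_
      obtain ⟨x1, x2⟩ := x
      simp only [mem_insert, mem_singleton, Prod.mk.injEq] at hyx
      unfold Adj
      simp only [Set.mem_insert_iff, Set.mem_singleton_iff, Prod.mk.injEq]
      omega
  have e1 : ze (inner p S) A = ev (FreeF (inner p S) (verts S)) fun h => A (vh (inner p S) h) := by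
    unfold ze
    refine (F.ev_window hcl (sub_clo _) (adj_clo _) _ fun h h' hh => ?_).symm
    have : vh (inner p S) h = vh (inner p S) h' := by
      funext v
      unfold vh
      by_cases hv : v ∈ inner p S
      · simp only [hv, if_true, hh v (sub_clo _ v hv)]
      · simp only [hv, if_false]
    simp only [this]
  rw [e1]
  have e2 : ∀ g : ℤ × ℤ → ℤ, vh (inner p S) (dlR (verts S) g) = vh (inner p S) g := by
    intro g
    funext v
    unfold vh dlR
    by_cases hv : v ∈ inner p S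
    · simp only [hv, (dl_inner.1 hv).1, if_true]
    · simp only [hv, if_false]
  unfold ev
  rw [hT, card_image_of_injOn dl_inj, sum_image dl_inj]
  simp only [e2]

end Vale.Agent.P153.F.Dom
end

section

/-!
P153-F, X-level (mirror of `P145.X.FrA`): families of circuits at level `0` and the closing events (locality, monotonicity,
union bound).
-/

namespace Vale.Agent.P153.F.X

open Filter Topology Set MeasureTheory
open Vale.Agent.P153
open Vale.Agent.P153.F.Top (Om Cone)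

/-- The property `Q` depends on finitely many edges of `A`. -/
def LocP (A : Set Pt) (Q : Set Pt → Prop) : Prop :=
  ∃ Λ : Finset Pt, (∀ w ∈ Λ, w ∈ A) ∧ ∀ B B' : Set Pt, (∀ w ∈ Λ, w ∈ B ↔ w ∈ B') → (Q B ↔ Q B')

/-- The property `Q` is increasing. -/
def IncP (Q : Set Pt → Prop) : Prop := ∀ B B' : Set Pt, B ⊆ B' → Q B → Q B'

theorem ind_of {Q : Set Pt → Prop} {B : Set Pt} (h : Q B) : ind Q B = 1 := if_pos h

theorem ind_not {Q : Set Pt → Prop} {B : Set Pt} (h : ¬ Q B) : ind Q B = 0 := if_neg h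

theorem ind_nonneg (Q : Set Pt → Prop) (B : Set Pt) : 0 ≤ ind Q B := by
  unfold ind; split_ifs <;> norm_num

theorem ind_ne {Q : Set Pt → Prop} {B : Set Pt} (h : ind Q B ≠ 0) : Q B := by
  by_contra h0
  exact h (ind_not h0)

theorem ind_eq_iff {Q : Set Pt → Prop} {B B' : Set Pt} : ind Q B = ind Q B' ↔ (Q B ↔ Q B') := by
  unfold ind
  by_cases h : Q B <;> by_cases h' : Q B' <;> simp [h, h']

theorem locP_iff {A : Set Pt} {Q : Set Pt → Prop} : LocP A Q ↔ LocS A (ind Q) := by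
  unfold LocP LocS
  constructor
  · rintro ⟨Λ, h1, h2⟩
    exact ⟨Λ, h1, fun B B' h => ind_eq_iff.2 (h2 B B' h)⟩
  · rintro ⟨Λ, h1, h2⟩
    exact ⟨Λ, h1, fun B B' h => ind_eq_iff.1 (h2 B B' h)⟩

theorem incP_iff {Q : Set Pt → Prop} : IncP Q ↔ Monotone (ind Q) := by
  constructor
  · intro h B B' hB
    by_cases hQ : Q B
    · rw [ind_of hQ, ind_of (h B B' hB hQ)]
    · rw [ind_not hQ]; exact ind_nonneg _ _
  · intro h B B' hB hQ
    have h1 := h hB
    rw [ind_of hQ] at h1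
    by_contra h2
    rw [ind_not h2] at h1
    linarith

theorem LocP.mono {A A' : Set Pt} {Q : Set Pt → Prop} (h : LocP A Q) (hA : A ⊆ A') : LocP A' Q := by
  obtain ⟨Λ, h1, h2⟩ := h
  exact ⟨Λ, fun w hw => hA (h1 w hw), h2⟩

theorem LocP.not {A : Set Pt} {Q : Set Pt → Prop} (h : LocP A Q) : LocP A fun B => ¬ Q B := by
  obtain ⟨Λ, h1, h2⟩ := h
  exact ⟨Λ, h1, fun B B' h => not_congr (h2 B B' h)⟩

theorem LocP.and {A : Set Pt} {Q Q' : Set Pt → Prop} (h : LocP A Q) (h' : LocP A Q') :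
    LocP A fun B => Q B ∧ Q' B := by
  classical
  obtain ⟨Λ, h1, h2⟩ := h
  obtain ⟨Λ', h1', h2'⟩ := h'
  refine ⟨Λ ∪ Λ', fun w hw => ?_, fun B B' h => and_congr (h2 B B' fun w hw => h w ?_)
    (h2' B B' fun w hw => h w ?_)⟩
  · rcases Finset.mem_union.1 hw with h | h
    · exact h1 w h
    · exact h1' w h
  · exact Finset.mem_union_left _ hw
  · exact Finset.mem_union_right _ hw

theorem LocP.all {ι : Type*} (s : Finset ι) {A : Set Pt} {Q : ι → Set Pt → Prop}
    (h : ∀ i ∈ s, LocP A (Q i)) : LocP A fun B => ∀ i ∈ s, Q i B := by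
  classical
  induction s using Finset.induction_on with
  | empty => exact ⟨∅, by simp, by simp⟩
  | insert a s ha ih =>
    have h1 := (h a (Finset.mem_insert_self _ _)).and
      (ih fun i hi => h i (Finset.mem_insert_of_mem hi))
    obtain ⟨Λ, h2, h3⟩ := h1
    refine ⟨Λ, h2, fun B B' hB => ?_⟩
    have h4 := h3 B B' hB
    simpa only [Finset.forall_mem_insert] using h4

theorem LocP.ex {ι : Type*} (s : Finset ι) {A : Set Pt} {Q : ι → Set Pt → Prop}
    (h : ∀ i ∈ s, LocP A (Q i)) : LocP A fun B => ∃ i ∈ s, Q i B := by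
  have h1 := (LocP.all s fun i hi => (h i hi).not).not
  obtain ⟨Λ, h2, h3⟩ := h1
  refine ⟨Λ, h2, fun B B' hB => ?_⟩
  have h4 := h3 B B' hB
  simpa only [not_forall, not_not, exists_prop] using h4

theorem fn_ind {A : Set Pt} {Q : Set Pt → Prop} (h : LocP A Q) (h0 : ¬ Q ∅) : Fn A (ind Q) :=
  ⟨ind_nonneg Q, locP_iff.1 h, ind_not h0⟩

theorem meas_blw (w : Pt) : MeasurableSet {h : Hg | w ∈ bl h} := by
  have e : {h : Hg | w ∈ bl h} = ⋃ x : Pt, ⋃ y : Pt,
      ({h : Hg | Adj x y ∧ w = x + y} ∩ ({h : Hg | |h x| = 1} ∩ {h : Hg | |h y| = 1})) := by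
    ext h
    simp only [bl, mem_ofPred_eq, mem_iUnion, mem_inter_iff, and_assoc]
  rw [e]
  have m : ∀ x : Pt, MeasurableSet {h : Hg | |h x| = 1} := by
    intro x
    have h1 : Measurable fun h : Hg => h x := measurable_pi_apply x
    exact h1 (MeasurableSet.of_discrete (s := {a : ℤ | |a| = 1}))
  exact MeasurableSet.iUnion fun x => MeasurableSet.iUnion fun y =>
    (MeasurableSet.const _).inter ((m x).inter (m y))

/-- The event is measurable. -/
theorem LocP.meas {A : Set Pt} {Q : Set Pt → Prop} (h : LocP A Q) :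
    MeasurableSet {h : Hg | Q (bl h)} := by
  classical
  obtain ⟨Λ, -, h2⟩ := h
  have e : {h : Hg | Q (bl h)} = ⋃ S ∈ Λ.powerset.filter (fun S : Finset Pt => Q (S : Set Pt)),
      ⋂ w ∈ Λ, {h : Hg | w ∈ S ↔ w ∈ bl h} := by
    ext h
    simp only [mem_ofPred_eq, mem_iUnion, mem_iInter, exists_prop, Finset.mem_filter,
      Finset.mem_powerset]
    constructor
    · intro hQ
      have h3 : ∀ w ∈ Λ, (w ∈ ((Λ.filter fun w => w ∈ bl h : Finset Pt) : Set Pt) ↔ w ∈ bl h) := by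
        intro w hw
        rw [Finset.coe_filter, mem_ofPred_eq]
        exact ⟨fun h => h.2, fun h => ⟨hw, h⟩⟩
      exact ⟨Λ.filter fun w => w ∈ bl h, ⟨Finset.filter_subset _ _, (h2 _ _ h3).2 hQ⟩,
        fun w hw => h3 w hw⟩
    · rintro ⟨S, ⟨-, hQ⟩, h3⟩
      exact (h2 _ _ fun w hw => h3 w hw).1 hQ
  rw [e]
  refine Finset.measurableSet_biUnion _ fun S _ => Finset.measurableSet_biInter _ fun w _ => ?_
  by_cases hw : w ∈ S
  · have : {h : Hg | w ∈ S ↔ w ∈ bl h} = {h : Hg | w ∈ bl h} := by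
      ext h; simp [hw]
    rw [this]; exact meas_blw w
  · have : {h : Hg | w ∈ S ↔ w ∈ bl h} = {h : Hg | w ∈ bl h}ᶜ := by
      ext h; simp [hw]
    rw [this]; exact (meas_blw w).compl

theorem II_indL {P : Measure (Pt → ℤ)} {A : Set Pt} {Q : Set Pt → Prop}
    (h : LocP A Q) (F : Om → ℝ) :
    II P (ind Q) F = ∫ h in {h | Q (bl h)}, F (vm h) ∂(muT P) := by
  unfold II
  rw [← integral_indicator h.meas]
  refine integral_congr_ae (ae_of_all _ fun x => ?_)
  by_cases hx : Q (bl x)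
  · have hx' : x ∈ {x : Hg | Q (bl x)} := hx
    simp only [Set.indicator_of_mem hx', ind_of hx, one_mul]
  · have hx' : x ∉ {x : Hg | Q (bl x)} := hx
    simp only [Set.indicator_of_notMem hx', ind_not hx, zero_mul]

theorem II_one {P : Measure (Pt → ℤ)} {A : Set Pt} {Q : Set Pt → Prop}
    (h : LocP A Q) : II P (ind Q) (fun _ => 1) = (muT P).real {h | Q (bl h)} := by
  rw [II_indL h, setIntegral_const, smul_eq_mul, mul_one]

/-! ### Circuits -/

theorem zr_inc (hL : S_loc) {p : ℤ × ℤ} {r : ℤ} (hr : 1 ≤ r) : IncP (Zr p r) :=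
  incP_iff.2 (hL p r hr).1

theorem zr_loc (hL : S_loc) {p : ℤ × ℤ} {r : ℤ} (hr : 1 ≤ r) {A : Set Pt}
    (hA : iE (bx p (2 * r)) ⊆ A) : LocP A (Zr p r) :=
  (locP_iff.2 (hL p r hr).2.loc).mono fun _ hw => hA hw.1

theorem zr_empty (hL : S_loc) {p : ℤ × ℤ} {r : ℤ} (hr : 1 ≤ r) : ¬ Zr p r ∅ := by
  intro h
  have := (hL p r hr).2.pin
  rw [ind_of h] at this
  norm_num at this

/-- The closing event. -/
def Zy (w s : ℤ) (lo hi : ℕ) (Q : Finset (ℤ × ℤ)) (B : Set Pt) : Prop :=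
  ∀ y ∈ Q, ∃ i, lo ≤ i ∧ i ≤ hi ∧ Zr (ce w y) (4 ^ i * s) B

/-- No circuit at the larger scales. -/
def Gy (p : ℤ × ℤ) (s : ℤ) (lo hi : ℕ) (B : Set Pt) : Prop :=
  ∀ i, lo ≤ i → i ≤ hi → ¬ Zr p (4 ^ i * s) B

section fam
variable {w r s : ℤ} {p : ℤ × ℤ} {Y Q : Finset (ℤ × ℤ)} {lo hi : ℕ} {A : Set Pt}

theorem fy_inc (hL : S_loc) (hw : 1 ≤ w) (hr : 1 ≤ r) : IncP (Fy w Y p r) :=
  fun B B' hB h => ⟨fun y hy => zr_inc hL hw B B' hB (h.1 y hy), zr_inc hL hr B B' hB h.2⟩

theorem fy_loc (hL : S_loc) (hw : 1 ≤ w) (hr : 1 ≤ r)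
    (hY : ∀ y ∈ Y, iE (bx (ce w y) (2 * w)) ⊆ A) (hp : iE (bx p (2 * r)) ⊆ A) :
    LocP A (Fy w Y p r) :=
  (LocP.all Y fun y hy => zr_loc hL hw (hY y hy)).and (zr_loc hL hr hp)

theorem fy_empty (hL : S_loc) (hr : 1 ≤ r) : ¬ Fy w Y p r ∅ := fun h => zr_empty hL hr h.2

theorem pow_ge {s : ℤ} (hs : 1 ≤ s) (i : ℕ) : 1 ≤ 4 ^ i * s := by
  have : (1 : ℤ) ≤ 4 ^ i := one_le_pow₀ (by norm_num)
  nlinarith

theorem bx_mono {p : ℤ × ℤ} {r r' : ℤ} (h : r ≤ r') : bx p r ⊆ bx p r' := by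
  rintro f ⟨h1, h2⟩
  exact ⟨h1.trans h, h2.trans h⟩

theorem iE_mono {F F' : Set (ℤ × ℤ)} (h : F ⊆ F') : iE F ⊆ iE F' := by
  rintro w ⟨x, hx, y, hy, h1⟩
  exact ⟨x, h hx, y, h hy, h1⟩

theorem pow_le_of {s : ℤ} (hs : 1 ≤ s) {i k : ℕ} (h : i ≤ k) : 4 ^ i * s ≤ 4 ^ k * s := by
  have : (4 : ℤ) ^ i ≤ 4 ^ k := pow_le_pow_right₀ (by norm_num) h
  nlinarith only [this, hs]

theorem zy_loc (hL : S_loc) (hs : 1 ≤ s)
    (hQ : ∀ y ∈ Q, iE (bx (ce w y) (2 * (4 ^ hi * s))) ⊆ A) : LocP A (Zy w s lo hi Q) := by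
  refine LocP.all Q fun y hy => ?_
  have h1 : LocP A fun B => ∃ i ∈ Finset.Icc lo hi, Zr (ce w y) (4 ^ i * s) B := by
    refine LocP.ex _ fun i hi => zr_loc hL (pow_ge hs i) ?_
    refine Subset.trans (iE_mono (bx_mono ?_)) (hQ y hy)
    have := pow_le_of hs (Finset.mem_Icc.1 hi).2
    linarith only [this]
  obtain ⟨Λ, h2, h3⟩ := h1
  refine ⟨Λ, h2, fun B B' hB => ?_⟩
  have h4 := h3 B B' hB
  simpa only [Finset.mem_Icc, and_assoc] using h4

theorem gy_loc (hL : S_loc) (hs : 1 ≤ s) : LocP univ (Gy p s lo hi) := by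
  have h1 : LocP univ fun B => ∃ i ∈ Finset.Icc lo hi, Zr p (4 ^ i * s) B :=
    LocP.ex _ fun i _ => zr_loc hL (pow_ge hs i) (subset_univ _)
  obtain ⟨Λ, h2, h3⟩ := h1
  refine ⟨Λ, h2, fun B B' hB => ?_⟩
  have h4 := not_congr (h3 B B' hB)
  simp only [Finset.mem_Icc, not_exists, not_and, and_imp] at h4
  exact h4

/-- **The union bound**: the closing event fails with small probability. -/
theorem gap_fam {P : Measure (Pt → ℤ)} (hL : S_loc) (hw : 1 ≤ w) (hr : 1 ≤ r)
    (hs : 1 ≤ s) (hfin : muT P {x | Fy w Y p r (bl x)} ≠ ⊤) {η : ℝ}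
    (hg : ∀ y ∈ Q, II P (fun B => ind (Fy w Y p r) B * ind (Gy (ce w y) s lo hi) B)
      (fun _ => 1) ≤ η * II P (ind (Fy w Y p r)) (fun _ => 1)) :
    (muT P).real ({x | Fy w Y p r (bl x)} \ {x | Zy w s lo hi Q (bl x)}) ≤
      Q.card * η * (muT P).real {x | Fy w Y p r (bl x)} := by
  have hF : LocP univ (Fy w Y p r) := fy_loc hL hw hr (fun _ _ => subset_univ _) (subset_univ _)
  have hsub : {x : Hg | Fy w Y p r (bl x)} \ {x | Zy w s lo hi Q (bl x)} ⊆
      ⋃ y ∈ Q, {x | Fy w Y p r (bl x) ∧ Gy (ce w y) s lo hi (bl x)} := by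
    rintro x ⟨h1, h2⟩
    have h2' : ¬ ∀ y ∈ Q, ∃ i, lo ≤ i ∧ i ≤ hi ∧ Zr (ce w y) (4 ^ i * s) (bl x) := h2
    push Not at h2'
    obtain ⟨y, hy, h3⟩ := h2'
    rw [mem_iUnion₂]
    exact ⟨y, hy, h1, h3⟩
  have hfy : ∀ y, muT P {x | Fy w Y p r (bl x) ∧ Gy (ce w y) s lo hi (bl x)} ≠ ⊤ := fun y =>
    ne_top_of_le_ne_top hfin (measure_mono fun x hx => hx.1)
  have h1 : (muT P).real ({x | Fy w Y p r (bl x)} \ {x | Zy w s lo hi Q (bl x)}) ≤
      ∑ y ∈ Q, (muT P).real {x | Fy w Y p r (bl x) ∧ Gy (ce w y) s lo hi (bl x)} := by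
    refine (measureReal_mono hsub ?_).trans (measureReal_biUnion_finset_le _ _)
    refine ne_top_of_le_ne_top ?_ (measure_biUnion_finset_le Q _)
    exact (ENNReal.sum_lt_top.2 fun y _ => lt_top_iff_ne_top.2 (hfy y)).ne
  refine h1.trans ?_
  rw [mul_assoc, ← nsmul_eq_mul]
  refine Finset.sum_le_card_nsmul _ _ _ fun y hy => ?_
  have h2 := hg y hy
  have e : (fun B => ind (Fy w Y p r) B * ind (Gy (ce w y) s lo hi) B) =
      ind fun B => Fy w Y p r B ∧ Gy (ce w y) s lo hi B := by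
    funext B
    by_cases h3 : Fy w Y p r B <;> by_cases h4 : Gy (ce w y) s lo hi B <;> simp [ind, h3, h4]
  rw [e, II_one (hF.and (gy_loc hL hs)), II_one hF] at h2
  exact h2

end fam

end Vale.Agent.P153.F.X
end

section

/-!
P153-F, X-level (mirror of `P145.X.SandX`): the normalised restriction of a measure to an event, seen through the vertex heights;
the sandwich between two zero boundary expectations.
-/

namespace Vale.Agent.P153.F.X

open Filter Topology Set MeasureTheory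
open Vale.Agent.P153.F.Top Vale.Agent.P145.PT

section abs
variable {Ω : Type*} [MeasurableSpace Ω]

/-- `μ` restricted to `X`, normalised, as a law on the vertex heights `T`. -/
noncomputable def nuA (μ : Measure Ω) (X : Set Ω) (T : Ω → Om) : Measure Om :=
  ((μ X)⁻¹ • μ.restrict X).map T

/-- The hypotheses on the event. -/
structure XEv (μ : Measure Ω) (X : Set Ω) (T : Ω → Om) : Prop where
  mT : Measurable T
  mX : MeasurableSet X
  pos : μ X ≠ 0
  fin : μ X ≠ ⊤
  int : ∀ v : List (ℤ × ℤ), Integrable (fun x => (v.map (T x)).prod) (μ.restrict X)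

variable {μ : Measure Ω} {X : Set Ω} {T : Ω → Om}

theorem XEv.real_pos (h : XEv μ X T) : 0 < μ.real X :=
  ENNReal.toReal_pos h.pos h.fin

theorem XEv.isFinite (h : XEv μ X T) : IsFiniteMeasure (μ.restrict X) :=
  ⟨by rw [Measure.restrict_apply_univ]; exact lt_top_iff_ne_top.2 h.fin⟩

theorem measurable_mon (v : List (ℤ × ℤ)) : Measurable fun ω : Om => (v.map ω).prod := by
  induction v with
  | nil => simp
  | cons u v ih =>
    simp only [List.map_cons, List.prod_cons]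
    exact (measurable_pi_apply u).mul ih

theorem measurable_pol {Q : ℝ → Prop} {A : Om → ℝ} (hA : Pol Q A) : Measurable A := by
  induction hA with
  | mon v => exact measurable_mon v
  | zero => exact measurable_const
  | add _ _ h1 h2 => exact h1.add h2
  | smul c _ _ h => exact h.const_mul c

theorem XEv.int_pol (h : XEv μ X T) {Q : ℝ → Prop} {A : Om → ℝ} (hA : Pol Q A) :
    Integrable (fun x => A (T x)) (μ.restrict X) := by
  induction hA with
  | mon v => exact h.int v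
  | zero => exact integrable_zero _ _ _
  | add _ _ h1 h2 => exact h1.add h2
  | smul c _ _ h1 => exact h1.const_mul c

theorem XEv.mom (h : XEv μ X T) : Mom (nuA μ X T) := by
  have h1 : ((μ X)⁻¹ • μ.restrict X) univ = 1 := by
    rw [Measure.smul_apply, Measure.restrict_apply_univ, smul_eq_mul,
      ENNReal.inv_mul_cancel h.pos h.fin]
  refine ⟨⟨?_⟩, fun v => ?_⟩
  · rw [nuA, Measure.map_apply h.mT MeasurableSet.univ, preimage_univ, h1]
  · rw [nuA, integrable_map_measure (measurable_mon v).aestronglyMeasurable h.mT.aemeasurable]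
    exact (h.int_pol (Q := fun _ => True) (Pol.mon v)).smul_measure (ENNReal.inv_ne_top.2 h.pos)

theorem XEv.integral (h : XEv μ X T) {A : Om → ℝ} (hA : Measurable A) :
    ∫ ω, A ω ∂(nuA μ X T) = (μ.real X)⁻¹ * ∫ x in X, A (T x) ∂μ := by
  rw [nuA, integral_map h.mT.aemeasurable hA.aestronglyMeasurable, integral_smul_measure,
    smul_eq_mul, ENNReal.toReal_inv]
  rfl

/-- **The sandwich**, abstract form. -/
theorem XEv.sand (h : XEv μ X T) {Z : Set Ω} (hZ : MeasurableSet Z) {Q : ℝ → Prop} {A : Om → ℝ}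
    (hA : Pol Q A) {z₁ z₂ η C : ℝ} (hz₂ : 0 ≤ z₂) (hη : 0 ≤ η) (hC : 0 ≤ C)
    (hlow : z₁ * μ.real X ≤ ∫ x in X, A (T x) ∂μ)
    (hup : ∫ x in X ∩ Z, A (T x) ∂μ ≤ z₂ * μ.real (X ∩ Z))
    (hgap : μ.real (X \ Z) ≤ η ^ 2 * μ.real X)
    (hmom : ∫ x in X, A (T x) ^ 2 ∂μ ≤ C ^ 2 * μ.real X) :
    z₁ ≤ ∫ ω, A ω ∂(nuA μ X T) ∧ ∫ ω, A ω ∂(nuA μ X T) ≤ z₂ + η * C := by
  have hX := h.real_pos
  have hfin := h.isFinite
  rw [h.integral (measurable_pol hA)]
  have i1 := h.int_pol hA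
  have i2 := h.int_pol (hA.alg.pow 2)
  constructor
  · rw [inv_mul_eq_div, le_div_iff₀ hX]
    exact hlow
  · rw [inv_mul_eq_div, div_le_iff₀ hX]
    -- Cauchy-Schwarz on `X \ Z`
    have hsub : X \ Z ⊆ X := sdiff_subset
    have i1' : IntegrableOn (fun x => A (T x)) X μ := i1
    have i2' : IntegrableOn (fun x => A (T x) ^ 2) X μ := i2
    have e1 : ∫ x in X, A (T x) ∂μ = ∫ x in X ∩ Z, A (T x) ∂μ + ∫ x in X \ Z, A (T x) ∂μ :=
      (integral_inter_add_sdiff hZ i1').symm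
    have hD : ∫ x in X \ Z, A (T x) ∂μ ≤ η * C * μ.real X := by
      have hmeas : MeasurableSet (X \ Z) := h.mX.diff hZ
      have hDfin : μ (X \ Z) ≠ ⊤ := ne_top_of_le_ne_top h.fin (measure_mono hsub)
      have key : ∀ s : ℝ, 0 < s → ∫ x in X \ Z, A (T x) ∂μ ≤
          (s * (C ^ 2 * μ.real X) + s⁻¹ * (η ^ 2 * μ.real X)) / 2 := by
        intro s hs
        have j1 : IntegrableOn (fun x => A (T x)) (X \ Z) μ := i1'.mono_set hsub
        have j2 : IntegrableOn (fun x => A (T x) ^ 2) (X \ Z) μ := i2'.mono_set hsub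
        have hcst : IntegrableOn (fun _ : Ω => s⁻¹ / 2) (X \ Z) μ :=
          integrableOn_const hDfin
        have h1 : ∫ x in X \ Z, A (T x) ∂μ ≤ ∫ x in X \ Z, (s / 2 * A (T x) ^ 2 + s⁻¹ / 2) ∂μ := by
          refine integral_mono j1 ((j2.const_mul _).add hcst) fun x => ?_
          have h3 : 0 ≤ s / 2 * (A (T x) - s⁻¹) ^ 2 := by (clear * - hs; positivity)
          have h4 : s / 2 * (A (T x) - s⁻¹) ^ 2 =
              s / 2 * A (T x) ^ 2 - A (T x) + s⁻¹ / 2 := by
            field_simp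
            ring
          simp only []
          linarith only [h3, h4]
        have h2 : ∫ x in X \ Z, (s / 2 * A (T x) ^ 2 + s⁻¹ / 2) ∂μ =
            s / 2 * ∫ x in X \ Z, A (T x) ^ 2 ∂μ + s⁻¹ / 2 * μ.real (X \ Z) := by
          rw [integral_add (j2.const_mul _) hcst, integral_const_mul, setIntegral_const,
            smul_eq_mul]
          ring
        have h3 : ∫ x in X \ Z, A (T x) ^ 2 ∂μ ≤ ∫ x in X, A (T x) ^ 2 ∂μ :=
          setIntegral_mono_set i2' (ae_of_all _ fun x => sq_nonneg _) hsub.eventuallyLE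
        rw [h2] at h1
        have hs' : 0 < s⁻¹ := inv_pos.2 hs
        nlinarith only [hs', hs, h1, h3, hmom, hgap]
      rcases eq_or_lt_of_le hC with hC0 | hC0
      · -- `C = 0`
        subst hC0
        rw [mul_zero, zero_mul]
        refine le_of_forall_pos_le_add fun ε hε => ?_
        have h5 := key ((η ^ 2 * μ.real X + 1) / ε) (by (clear * - hX hε; positivity))
        have h6 : ((η ^ 2 * μ.real X + 1) / ε)⁻¹ * (η ^ 2 * μ.real X) ≤ ε := by
          rw [inv_div, div_mul_eq_mul_div, div_le_iff₀ (by (clear * - hX; positivity))]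
          nlinarith only [hε]
        have h7 : (0 : ℝ) ^ 2 * μ.real X = 0 := by ring
        rw [h7, mul_zero, zero_add] at h5
        linarith only [hε, h5, h6]
      rcases eq_or_lt_of_le hη with hη0 | hη0
      · subst hη0
        rw [zero_mul, zero_mul]
        refine le_of_forall_pos_le_add fun ε hε => ?_
        have h5 := key (ε / (C ^ 2 * μ.real X + 1)) (by (clear * - hε hC0 hX; positivity))
        have h6 : ε / (C ^ 2 * μ.real X + 1) * (C ^ 2 * μ.real X) ≤ ε := by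
          rw [div_mul_eq_mul_div, div_le_iff₀ (by positivity)]
          nlinarith only [hε]
        have h7 : (0 : ℝ) ^ 2 * μ.real X = 0 := by ring
        rw [h7, mul_zero, add_zero] at h5
        linarith only [hε, h5, h6]
      · have h5 := key (η / C) (by (clear * - hη0 hC0; positivity))
        have h6 : (η / C * (C ^ 2 * μ.real X) + (η / C)⁻¹ * (η ^ 2 * μ.real X)) / 2 =
            η * C * μ.real X := by
          field_simp
          ring
        rwa [h6] at h5
    have hle : μ.real (X ∩ Z) ≤ μ.real X := measureReal_mono inter_subset_left h.fin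
    have h8 := mul_le_mul_of_nonneg_left hle hz₂
    rw [e1, add_mul]
    linarith only [hup, hD, h8]

end abs

section conc

/-- Products of nonnegative linear functionals are in the cone. -/
theorem cone_hvl {δ : ℝ} (hδ : 0 < δ) {D : Set (ℝ × ℝ)} (hb : Bornology.IsBounded D)
    {l : List (ℝ × ℝ → ℝ)} (hl : ∀ f ∈ l, TestOn D f ∧ ∀ z, 0 ≤ f z) : Cone (hvl δ l) := by
  obtain ⟨R, hR⟩ := hb.subset_ball (0 : ℝ × ℝ)
  obtain ⟨B, hB⟩ := hv_eq_hB (R := R) hδ
  refine (cone_hl (B := B) (δ := δ) l fun f hf => (hl f hf).2).of_eq fun ω => ?_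
  unfold hvl Top.hl
  congr 1
  refine List.map_congr_left fun f hf => (hB f (fun z hz => ?_) ω).symm
  exact hR ((hl f hf).1.2.2 (subset_tsupport _ hz))

theorem hvl_append (δ : ℝ) (l l' : List (ℝ × ℝ → ℝ)) (ω : Om) :
    hvl δ (l ++ l') ω = hvl δ l ω * hvl δ l' ω := by
  unfold hvl
  rw [List.map_append, List.prod_append]

end conc

end Vale.Agent.P153.F.X
end

section

/-!
P153-F, X-level (mirror of `P145.X.NuX`): the measure `nuX`.
-/

namespace Vale.Agent.P153.F.X.Sb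

open Filter Topology Set MeasureTheory
open Vale.Agent.P153
open Vale.Agent.P153.F.Top (Om Cone Alg Pol Mom EE hv hvl ze dp)
open Vale.Agent.P145.PT (TestOn)

/-- The law of the heights of the vertices given the event `Q(bl)`. -/
noncomputable def nuX (P : Measure (Pt → ℤ)) (Q : Set Pt → Prop) : Measure Om :=
  nuA (muT P) {h : Hg | Q (bl h)} vm

variable {P : Measure (Pt → ℤ)} {Q : Set Pt → Prop}

theorem ind_one {B : Set Pt} (h : Q B) : ind Q B = 1 := if_pos h

theorem ind_zero {B : Set Pt} (h : ¬ Q B) : ind Q B = 0 := if_neg h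

theorem ind_ne {B : Set Pt} : ind Q B ≠ 0 ↔ Q B := by
  by_cases h : Q B
  · simp [ind_one h, h]
  · simp [ind_zero h, h]

theorem ind_nonneg (B : Set Pt) : 0 ≤ ind Q B := by
  by_cases h : Q B
  · rw [ind_one h]; norm_num
  · rw [ind_zero h]

theorem ind_congr {B B' : Set Pt} (h : ind Q B = ind Q B') (hB : Q B) : Q B' := by
  refine ind_ne.1 ?_
  rw [← h]
  exact ind_ne.2 hB

theorem locS_mono {A A' : Set Pt} {g : Set Pt → ℝ} (h : LocS A g) (hA : A ⊆ A') : LocS A' g := by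
  obtain ⟨Λ, h1, h2⟩ := h
  exact ⟨Λ, fun w hw => hA (h1 w hw), h2⟩

/-- Events which depend on finitely many edges are measurable. -/
theorem measQ (h : LocS univ (ind Q)) : MeasurableSet {h : Hg | Q (bl h)} :=
  (locP_iff.2 h).meas

theorem measurable_vm : Measurable vm := by
  refine measurable_pi_lambda _ fun v => ?_
  exact (measurable_of_countable (fun z : ℤ => (z : ℝ))).comp (measurable_pi_apply v)

theorem ind_mul_eq (A : Om → ℝ) : (fun x : Hg => ind Q (bl x) * A (vm x)) =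
    {x : Hg | Q (bl x)}.indicator fun x => A (vm x) := by
  funext x
  by_cases h : Q (bl x)
  · rw [ind_one h, one_mul, Set.indicator_of_mem (show x ∈ {x : Hg | Q (bl x)} from h)]
  · rw [ind_zero h, zero_mul,
      Set.indicator_of_notMem (show x ∉ {x : Hg | Q (bl x)} from h)]

theorem II_ind (h : LocS univ (ind Q)) (A : Om → ℝ) :
    II P (ind Q) A = ∫ x in {x : Hg | Q (bl x)}, A (vm x) ∂(muT P) := by
  unfold II
  rw [ind_mul_eq, integral_indicator (measQ h)]

theorem II_ind_one (h : LocS univ (ind Q)) :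
    II P (ind Q) (fun _ => 1) = (muT P).real {x : Hg | Q (bl x)} := by
  rw [II_ind h, setIntegral_const, smul_eq_mul, mul_one]

theorem int_ind (hint : S_int P) (h : LocS univ (ind Q)) (h0 : ind Q ∅ = 0) {A : Om → ℝ}
    (hA : Alg A) : IntegrableOn (fun x => A (vm x)) {x : Hg | Q (bl x)} (muT P) := by
  have h1 := hint (ind Q) A h h0 hA
  rw [ind_mul_eq, integrable_indicator_iff (measQ h)] at h1
  exact h1

theorem meas_fin (hint : S_int P) (h : LocS univ (ind Q)) (h0 : ind Q ∅ = 0) :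
    muT P {x : Hg | Q (bl x)} ≠ ⊤ := by
  have h1 := int_ind hint h h0 (A := fun _ => 1) Pol.one
  have h2 : IntegrableOn (fun _ : Hg => (1 : ℝ)) {x : Hg | Q (bl x)} (muT P) := h1
  rw [integrableOn_const_iff] at h2
  rcases h2 with h2 | h2
  · exact absurd h2 (by simp)
  · exact h2.ne

/-- The event as an `XEv`. -/
theorem xevQ (hint : S_int P) (h : LocS univ (ind Q)) (h0 : ind Q ∅ = 0)
    (hpos : 0 < II P (ind Q) fun _ => 1) :
    XEv (muT P) {x : Hg | Q (bl x)} vm := by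
  refine ⟨measurable_vm, measQ h, ?_, meas_fin hint h h0, fun v => ?_⟩
  · intro h1
    rw [II_ind_one h, Measure.real, h1, ENNReal.toReal_zero] at hpos
    exact lt_irrefl _ hpos
  · exact int_ind hint h h0 (Pol.mon (P := fun _ => True) v)

theorem nuX_mom (hint : S_int P) (h : LocS univ (ind Q)) (h0 : ind Q ∅ = 0)
    (hpos : 0 < II P (ind Q) fun _ => 1) : Mom (nuX P Q) := by
  exact (xevQ hint h h0 hpos).mom

theorem nuX_int (hint : S_int P) (h : LocS univ (ind Q)) (h0 : ind Q ∅ = 0)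
    (hpos : 0 < II P (ind Q) fun _ => 1) {A : Om → ℝ} (hA : Alg A) :
    ∫ ω, A ω ∂(nuX P Q) = II P (ind Q) A / II P (ind Q) fun _ => 1 := by
  rw [nuX, (xevQ hint h h0 hpos).integral (measurable_pol hA), II_ind h,
    II_ind_one h, inv_mul_eq_div]

end Vale.Agent.P153.F.X.Sb
end

section

/-!
P153-F, X-level (mirror of `P145.X.ConfL`): `Conf B F'ᶜ Fᶜ` is monotone in `B` and depends on
finitely many edges, none of them with an end in `F`.
-/

namespace Vale.Agent.P153.F.X.Sb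

open Filter Topology Set MeasureTheory
open Vale.Agent.P153

theorem conf_mono {B B' : Set Pt} (h : B ⊆ B') {S T : Set Pt} (hB : Conf B S T) :
    Conf B' S T := by
  intro f hf g hg
  have key : Relation.ReflTransGen (stp B) f g := by
    induction hg with
    | refl => exact Relation.ReflTransGen.refl
    | tail _ hs ih => exact ih.tail ⟨hs.1, fun h' => hs.2 (h h')⟩
  exact hB f hf g key

/-- The edges of a finite set of vertices. -/
theorem tE_finite (F : Finset Pt) : (tE (F : Set Pt)).Finite := by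
  have h1 : tE (F : Set Pt) ⊆ ⋃ x ∈ F, (fun y => x + y) '' {y | Adj x y} := by
    rintro w ⟨x, hx, y, hxy, rfl⟩
    rw [mem_iUnion₂]
    exact ⟨x, hx, y, hxy, rfl⟩
  refine Set.Finite.subset (F.finite_toSet.biUnion fun x _ => Set.Finite.image _ ?_) h1
  have h2 : {y : Pt | Adj x y} ⊆ Set.Icc ((x.1 - 1, x.2 - 1) : ℤ × ℤ) (x.1 + 1, x.2 + 1) := by
    rintro ⟨a, b⟩ h
    obtain ⟨c, d⟩ := x
    simp only [Adj, Set.mem_insert_iff, Set.mem_singleton_iff, Prod.mk.injEq,
      mem_ofPred_eq] at h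
    simp only [Set.mem_Icc, Prod.mk_le_mk]
    omega
  exact (Set.finite_Icc _ _).subset h2

theorem adj_symm {x y : Pt} (h : Adj x y) : Adj y x := by
  obtain ⟨a, b⟩ := x
  obtain ⟨c, d⟩ := y
  simp only [Adj, Set.mem_insert_iff, Set.mem_singleton_iff, Prod.mk.injEq] at *
  rcases h with h | h | h | h | h | h <;> omega

theorem conf_congr {F' : Finset Pt} {T B B' : Set Pt}
    (h : ∀ w, w ∈ tE (F' : Set Pt) → w ∈ B → w ∈ B')
    (hB : Conf B (F' : Set Pt)ᶜ T) : Conf B' (F' : Set Pt)ᶜ T := by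
  intro f hf g hg
  have key : ∃ f₀ ∈ (F' : Set Pt)ᶜ, Relation.ReflTransGen (stp B) f₀ g := by
    induction hg with
    | refl => exact ⟨f, hf, Relation.ReflTransGen.refl⟩
    | tail _ hs ih =>
      rename_i a b _
      obtain ⟨f₀, hf₀, hp⟩ := ih
      by_cases hb : b ∈ (F' : Set Pt)
      · refine ⟨f₀, hf₀, hp.tail ⟨hs.1, fun hwB => hs.2 (h _ ?_ hwB)⟩⟩
        exact ⟨b, hb, a, adj_symm hs.1, add_comm a b⟩
      · exact ⟨b, hb, Relation.ReflTransGen.refl⟩
  obtain ⟨f₀, hf₀, hp⟩ := key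
  exact hB f₀ hf₀ g hp

/-- Locality of the confinement. -/
theorem conf_loc (F F' : Finset Pt) : LocS (tE (F : Set Pt))ᶜ
    (ind fun B => Conf (B \ tE (F : Set Pt)) (F' : Set Pt)ᶜ (F : Set Pt)ᶜ) := by
  classical
  have hfin : (tE (F' : Set Pt) \ tE (F : Set Pt)).Finite :=
    (tE_finite F').subset fun w hw => hw.1
  refine ⟨hfin.toFinset, fun w hw => ?_, fun B B' hBB => ?_⟩
  · rw [Set.Finite.mem_toFinset] at hw
    exact hw.2
  · have h1 : Conf (B \ tE (F : Set Pt)) (F' : Set Pt)ᶜ (F : Set Pt)ᶜ ↔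
        Conf (B' \ tE (F : Set Pt)) (F' : Set Pt)ᶜ (F : Set Pt)ᶜ := by
      constructor
      · refine conf_congr fun w h1 h2 => ⟨(hBB w ?_).1 h2.1, h2.2⟩
        rw [Set.Finite.mem_toFinset]
        exact ⟨h1, h2.2⟩
      · refine conf_congr fun w h1 h2 => ⟨(hBB w ?_).2 h2.1, h2.2⟩
        rw [Set.Finite.mem_toFinset]
        exact ⟨h1, h2.2⟩
    by_cases h : Conf (B \ tE (F : Set Pt)) (F' : Set Pt)ᶜ (F : Set Pt)ᶜ
    · rw [ind_one (Q := fun B => Conf (B \ tE (F : Set Pt)) (F' : Set Pt)ᶜ (F : Set Pt)ᶜ) h,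
        ind_one (Q := fun B => Conf (B \ tE (F : Set Pt)) (F' : Set Pt)ᶜ (F : Set Pt)ᶜ) (h1.1 h)]
    · rw [ind_zero (Q := fun B => Conf (B \ tE (F : Set Pt)) (F' : Set Pt)ᶜ (F : Set Pt)ᶜ) h,
        ind_zero (Q := fun B => Conf (B \ tE (F : Set Pt)) (F' : Set Pt)ᶜ (F : Set Pt)ᶜ)
          fun h' => h (h1.2 h')]

theorem ind_and (Q G : Set Pt → Prop) (B : Set Pt) :
    ind (fun B => Q B ∧ G B) B = ind Q B * ind G B := by
  by_cases h : Q B
  · by_cases h' : G B
    · rw [ind_one (Q := fun B => Q B ∧ G B) ⟨h, h'⟩, ind_one h, ind_one h', one_mul]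
    · rw [ind_zero (Q := fun B => Q B ∧ G B) fun h2 => h' h2.2, ind_zero h', mul_zero]
  · rw [ind_zero (Q := fun B => Q B ∧ G B) fun h2 => h h2.1, ind_zero h, zero_mul]

theorem locS_mul {A : Set Pt} {g g' : Set Pt → ℝ} (h : LocS A g) (h' : LocS A g') :
    LocS A fun B => g B * g' B := by
  classical
  obtain ⟨Λ, h1, h2⟩ := h
  obtain ⟨Λ', h1', h2'⟩ := h'
  refine ⟨Λ ∪ Λ', fun w hw => ?_, fun B B' hBB => ?_⟩
  · rcases Finset.mem_union.1 hw with hw | hw
    · exact h1 w hw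
    · exact h1' w hw
  · have e1 := h2 B B' fun w hw => hBB w (Finset.mem_union_left _ hw)
    have e2 := h2' B B' fun w hw => hBB w (Finset.mem_union_right _ hw)
    simp only [e1, e2]

theorem locS_and {A : Set Pt} {Q G : Set Pt → Prop} (h : LocS A (ind Q)) (h' : LocS A (ind G)) :
    LocS A (ind fun B => Q B ∧ G B) := by
  have : (ind fun B => Q B ∧ G B) = fun B => ind Q B * ind G B := funext fun B => ind_and Q G B
  rw [this]
  exact locS_mul h h'

theorem locS_not {A : Set Pt} {Q : Set Pt → Prop} (h : LocS A (ind Q)) :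
    LocS A (ind fun B => ¬ Q B) := by
  obtain ⟨Λ, h1, h2⟩ := h
  refine ⟨Λ, h1, fun B B' hBB => ?_⟩
  have h3 := h2 B B' hBB
  by_cases hQ : Q B
  · have hQ' := ind_congr h3 hQ
    rw [ind_zero (Q := fun B => ¬ Q B) (not_not.2 hQ), ind_zero (Q := fun B => ¬ Q B)
      (not_not.2 hQ')]
  · have hQ' : ¬ Q B' := fun h' => hQ (ind_congr h3.symm h')
    rw [ind_one (Q := fun B => ¬ Q B) hQ, ind_one (Q := fun B => ¬ Q B) hQ']

theorem mono_ind {Q : Set Pt → Prop} (h : ∀ B B' : Set Pt, B ⊆ B' → Q B → Q B') :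
    Monotone (ind Q) := by
  intro B B' hBB
  by_cases hQ : Q B
  · rw [ind_one hQ, ind_one (h B B' hBB hQ)]
  · rw [ind_zero hQ]
    exact ind_nonneg B'

theorem of_mono_ind {Q : Set Pt → Prop} (h : Monotone (ind Q)) {B B' : Set Pt} (hBB : B ⊆ B')
    (hQ : Q B) : Q B' := by
  have h1 := h hBB
  rw [ind_one hQ] at h1
  by_contra h2
  rw [ind_zero h2] at h1
  norm_num at h1

end Vale.Agent.P153.F.X.Sb
end

section

/-!
P153-F, top block: the convergence in law of the fields in Jordan domains, from the convergence of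
the moments (`S_key`).
-/

namespace Vale.Agent.P153.F.Top

open Filter Topology Set MeasureTheory ProbabilityTheory
open Vale.Agent.P145.PT Vale.Agent.P153
open Vale.Agent.P153.F.Dom (JordanDomain Approx Conv law fld region inner S_law S_in S_out S_fld
  corners pt)

/-! ### Domination of polynomials in the heights -/

theorem Pol.mul' {P : ℝ → Prop} {f g : Om → ℝ} (hf : Pol P f) (hg : Pol P g) :
    Pol P (fun ω => f ω * g ω) := by
  induction hf with
  | mon l =>
    induction l with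
    | nil => exact hg.of_eq fun ω => by simp
    | cons v l ih => exact (ih.cons v).of_eq fun ω => by simp; ring
  | zero => exact Pol.zero.of_eq fun ω => by simp
  | add _ _ h1 h2 => exact (h1.add h2).of_eq fun ω => by ring
  | smul c hc _ h1 => exact (h1.smul c hc).of_eq fun ω => by ring

/-- `A ± B` are in the cone. -/
def Dm (A B : Om → ℝ) : Prop := Cone (fun ω => A ω + B ω) ∧ Cone (fun ω => A ω - B ω)

theorem Dm.of_eq {A B A' B' : Om → ℝ} (h : Dm A B) (hA : ∀ ω, A ω = A' ω) (hB : ∀ ω, B ω = B' ω) :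
    Dm A' B' := by
  have h1 : A = A' := funext hA
  have h2 : B = B' := funext hB
  rwa [← h1, ← h2]

theorem Dm.mul {A B C E : Om → ℝ} (h1 : Dm A B) (h2 : Dm C E) :
    Dm (fun ω => A ω * C ω) (fun ω => B ω * E ω) :=
  ⟨(((Pol.mul' h1.1 h2.1).add (Pol.mul' h1.2 h2.2)).smul (1 / 2) (by norm_num)).of_eq
      fun ω => by ring,
    (((Pol.mul' h1.1 h2.2).add (Pol.mul' h1.2 h2.1)).smul (1 / 2) (by norm_num)).of_eq
      fun ω => by ring⟩

theorem Dm.add {A B C E : Om → ℝ} (h1 : Dm A B) (h2 : Dm C E) :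
    Dm (fun ω => A ω + C ω) (fun ω => B ω + E ω) :=
  ⟨(h1.1.add h2.1).of_eq fun ω => by ring, (h1.2.add h2.2).of_eq fun ω => by ring⟩

theorem Dm.pow {A B : Om → ℝ} (h : Dm A B) (k : ℕ) :
    Dm (fun ω => A ω ^ k) (fun ω => B ω ^ k) := by
  induction k with
  | zero =>
    exact ⟨((Pol.one (P := fun c => 0 ≤ c)).add Pol.one).of_eq fun ω => by simp,
      Pol.zero.of_eq fun ω => by simp⟩
  | succ k ih => exact (ih.mul h).of_eq (fun ω => by ring) fun ω => by ring

/-- Difference of powers. -/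
theorem Dm.sub_pow {Z X Y : Om → ℝ} {e : ℝ} (hX : Dm Z X) (hY : Dm Z Y)
    (hD : Dm (fun ω => e * Z ω) (fun ω => X ω - Y ω)) (k : ℕ) :
    Dm (fun ω => k * e * Z ω ^ k) (fun ω => X ω ^ k - Y ω ^ k) := by
  induction k with
  | zero => exact ⟨Pol.zero.of_eq fun ω => by simp, Pol.zero.of_eq fun ω => by simp⟩
  | succ k ih =>
    refine (((hX.pow k).mul hD).add (ih.mul hY)).of_eq (fun ω => ?_) fun ω => ?_
    · push_cast; ring
    · ring

theorem Dm.ze_abs (hm : S_mono) (F : Finset (ℤ × ℤ)) {A B : Om → ℝ} (h : Dm A B) :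
    |ze F B| ≤ ze F A := by
  have h1 := cone_ze_nonneg hm F h.1
  have h2 := cone_ze_nonneg hm F h.2
  have e1 : ze F (fun ω => A ω + B ω) = ze F A + ze F B := ze_add' F _ _
  have e2 : ze F (fun ω => A ω - B ω) = ze F A - ze F B := by
    have h3 := ze_add' F A (fun ω => (-1) * B ω)
    rw [ze_smul'] at h3
    have h4 : (fun ω => A ω - B ω) = fun ω => A ω + (-1) * B ω := by funext ω; ring
    rw [h4, h3]; ring
  rw [e1] at h1
  rw [e2] at h2
  rw [abs_le]
  constructor <;> linarith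

/-- Linear form in the heights. -/
noncomputable def lf (I : Finset (ℤ × ℤ)) (a : ℤ × ℤ → ℝ) (ω : Om) : ℝ := ∑ v ∈ I, a v * ω v

theorem cone_lf {I : Finset (ℤ × ℤ)} {a : ℤ × ℤ → ℝ} (h : ∀ v ∈ I, 0 ≤ a v) : Cone (lf I a) :=
  Pol.sum I (fun v ω => a v * ω v) fun v hv =>
    ((Pol.mon (P := fun c => 0 ≤ c) [v]).of_eq (g := fun ω => ω v) fun ω => by simp).smul _ (h v hv)

theorem dm_lf {I : Finset (ℤ × ℤ)} {a c : ℤ × ℤ → ℝ} (h : ∀ v ∈ I, |a v| ≤ c v) :
    Dm (lf I c) (lf I a) := by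
  refine ⟨(cone_lf (I := I) (a := fun v => c v + a v) fun v hv => ?_).of_eq fun ω => ?_,
    (cone_lf (I := I) (a := fun v => c v - a v) fun v hv => ?_).of_eq fun ω => ?_⟩
  · have := (abs_le.1 (h v hv)).1
    linarith
  · unfold lf
    rw [← Finset.sum_add_distrib]
    exact Finset.sum_congr rfl fun v _ => by ring
  · have := (abs_le.1 (h v hv)).2
    linarith
  · unfold lf
    rw [← Finset.sum_sub_distrib]
    exact Finset.sum_congr rfl fun v _ => by ring

/-- Comparison of the moments of two linear forms. -/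
theorem ze_lf_sub (hm : S_mono) (I : Finset (ℤ × ℤ)) {a b c : ℤ × ℤ → ℝ} {e : ℝ}
    (ha : ∀ v ∈ I, |a v| ≤ c v) (hb : ∀ v ∈ I, |b v| ≤ c v) (hab : ∀ v ∈ I, |a v - b v| ≤ e * c v)
    (k : ℕ) :
    |ze I (fun ω => lf I a ω ^ k) - ze I (fun ω => lf I b ω ^ k)| ≤
      k * e * ze I (fun ω => lf I c ω ^ k) := by
  have hD : Dm (fun ω => e * lf I c ω) (fun ω => lf I a ω - lf I b ω) := by
    refine (dm_lf (I := I) (a := fun v => a v - b v) (c := fun v => e * c v) hab).of_eq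
      (fun ω => ?_) fun ω => ?_
    · unfold lf
      rw [Finset.mul_sum]
      exact Finset.sum_congr rfl fun v _ => by ring
    · unfold lf
      rw [← Finset.sum_sub_distrib]
      exact Finset.sum_congr rfl fun v _ => by ring
  have h := (Dm.sub_pow (dm_lf ha) (dm_lf hb) hD k).ze_abs hm I
  have e1 : ze I (fun ω => k * e * lf I c ω ^ k) = k * e * ze I (fun ω => lf I c ω ^ k) :=
    ze_smul' I _ _
  have e2 : ze I (fun ω => lf I a ω ^ k - lf I b ω ^ k) =
      ze I (fun ω => lf I a ω ^ k) - ze I (fun ω => lf I b ω ^ k) := by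
    have h3 := ze_add' I (fun ω => lf I a ω ^ k) (fun ω => (-1) * lf I b ω ^ k)
    rw [ze_smul'] at h3
    have h4 : (fun ω => lf I a ω ^ k - lf I b ω ^ k) =
        fun ω => lf I a ω ^ k + (-1) * lf I b ω ^ k := by funext ω; ring
    rw [h4, h3]; ring
  rwa [e1, e2] at h

theorem ze_congr {I : Finset (ℤ × ℤ)} {A B : Om → ℝ}
    (h : ∀ ω : Om, (∀ v, v ∉ I → ω v = 0) → A ω = B ω) : ze I A = ze I B := by
  unfold ze
  congr 1
  funext g
  refine h _ fun v hv => ?_
  unfold vh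
  rw [if_neg hv]

theorem hv_eq_lf (δ : ℝ) (f : ℝ × ℝ → ℝ) {I : Finset (ℤ × ℤ)} {ω : Om}
    (h : ∀ v, v ∉ I → ω v = 0) :
    hv δ f ω = lf I (fun v => δ ^ 2 * tl f (δ * v.1, δ * v.2)) ω := by
  unfold hv lf
  rw [finsum_eq_sum_of_support_subset (s := I), Finset.mul_sum]
  · exact Finset.sum_congr rfl fun v _ => by ring
  · intro v hv
    by_contra hn
    exact hv (by show ω v * _ = 0; rw [h v hn, zero_mul])

/-- A test function which is `1` on a compact set. -/
theorem exists_one {D : Set (ℝ × ℝ)} (hD : IsOpen D) (hb : Bornology.IsBounded D)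
    {K : Set (ℝ × ℝ)} (hK : IsCompact K) (hKD : K ⊆ D) :
    ∃ χ : ℝ × ℝ → ℝ, TestOn D χ ∧ (∀ z, 0 ≤ χ z) ∧ ∀ z ∈ K, χ z = 1 := by
  obtain ⟨r, hr, hrK⟩ : ∃ r : ℝ, 0 < r ∧ ∀ z ∈ K, r ≤ dd D z := by
    rcases K.eq_empty_or_nonempty with he | hne
    · exact ⟨1, one_pos, fun z hz => by rw [he] at hz; exact absurd hz (notMem_empty _)⟩
    · obtain ⟨z0, hz0, hmin⟩ := hK.exists_isMinOn hne (dd_cont D).continuousOn
      exact ⟨dd D z0, (dd_pos hD hb).2 (hKD hz0), fun z hz => hmin hz⟩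
  obtain ⟨χ, hχs, hχ01, hχ0, hχ1⟩ := exists_cutoff D (show r / 2 < r by linarith)
  have hsub : tsupport χ ⊆ {x | r / 2 ≤ dd D x} := by
    refine closure_minimal ?_ (isClosed_le continuous_const (dd_cont D))
    intro x hx
    by_contra h
    rw [mem_ofPred_eq, not_le] at h
    exact hx (hχ0 x h.le)
  have hsubD : tsupport χ ⊆ D := fun x hx => by
    have h1 : r / 2 ≤ dd D x := hsub hx
    exact (dd_pos hD hb).1 (by linarith)
  exact ⟨χ, ⟨hχs, Metric.isCompact_of_isClosed_isBounded (isClosed_tsupport _)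
    (hb.subset hsubD), hsubD⟩, fun z => (hχ01 z).1, fun z hz => hχ1 z (hrK z hz)⟩

/-! ### The moments of the field -/

theorem tl_dp (f : ℝ × ℝ → ℝ) (δ : ℝ) (v : ℤ × ℤ) :
    tl f (δ * v.1, δ * v.2) = √3 / 2 * f (dp δ v) := by
  unfold tl dp
  congr 2
  refine Prod.ext ?_ ?_
  · show δ * (v.1 : ℝ) + δ * v.2 / 2 = δ * (v.1 + v.2 / 2)
    ring
  · show √3 / 2 * (δ * (v.2 : ℝ)) = δ * (√3 / 2 * v.2)
    ring

/-- Convergence of the moments of the field. -/
theorem mom_fld {κ : ℝ} (hm : S_mono) (hlaw : S_law) (hin : S_in) (hout : S_out) (hfld : S_fld)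
    {D : Set (ℝ × ℝ)} (hJ : JordanDomain D)
    (hkey : ∀ δ : ℕ → ℝ, (∀ n, 0 < δ n) → Tendsto δ atTop (𝓝 0) → S_key κ δ)
    {δ : ℕ → ℝ} {N : ℕ → ℕ} {p : ∀ n, ZMod (N n) → ℤ × ℤ} {S : ℕ → Finset ((ℤ × ℤ) × Bool)}
    (hA : Approx D δ N p S) {φ : ℝ × ℝ → ℝ} (hφ : TestOn D φ) (k : ℕ) :
    Tendsto (fun n => ∫ h, fld (S n) (δ n) φ h ^ k ∂(law (p n) (S n))) atTop
      (𝓝 (gm (κ * V D φ) k)) := by
  have hJ' : Vale.Agent.P145.Dom.JordanDomain D := hJ
  have hop : IsOpen D := hJ'.isOpen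
  have hb : Bornology.IsBounded D := hJ'.isBounded
  have hsq : ∀ ψ : ℝ × ℝ → ℝ, TestOn D ψ →
      Tendsto (fun n => ze (inner (p n) (S n)) (fun ω => hv (δ n) ψ ω ^ k)) atTop
        (𝓝 (gm (κ * V D ψ) k)) := fun ψ hψ =>
    squeeze hm hA.pos (hkey δ hA.pos hA.lim) hJ'
      (fun D' _ hb' hD' => hin D δ N p S hA D' hb' hD')
      (fun D' ho' hb' hD' => hout D δ N p S hJ hA D' ho' hb' hD') hψ k
  obtain ⟨C, K, w, hK, hKD, hw⟩ := hfld D hop δ N p S hA φ hφ
  obtain ⟨χ, hχ, hχ0, hχ1⟩ := exists_one hop hb (hK.union hφ.2.1)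
    (union_subset hKD hφ.2.2)
  obtain ⟨B, hB⟩ := hφ.cont.bounded_above_of_compact_support hφ.cs
  set M : ℝ := 2 / √3 * (|C| + √3 / 2 * |B|) with hM
  have h3 : (0 : ℝ) < √3 := by positivity
  have hM0 : 0 ≤ M := by positivity
  set ψ : ℝ × ℝ → ℝ := fun z => M * χ z with hψ
  have hψT : TestOn D ψ := hχ.smul M
  have key : ∀ᶠ n in atTop, |(∫ h, fld (S n) (δ n) φ h ^ k ∂(law (p n) (S n))) -
      ze (inner (p n) (S n)) (fun ω => hv (δ n) φ ω ^ k)| ≤
      k * δ n * ze (inner (p n) (S n)) (fun ω => hv (δ n) ψ ω ^ k) := by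
    filter_upwards [hw, hA.lim.eventually_lt_const (zero_lt_one)] with n hn hδ1
    have hδ := hA.pos n
    obtain ⟨hn1, hn2, hn3, hn4⟩ := hn
    set I := inner (p n) (S n) with hI
    have e0 : ∫ h, fld (S n) (δ n) φ h ^ k ∂(law (p n) (S n)) =
        ze I (fun ω => lf I (w n) ω ^ k) := by
      obtain ⟨-, -, -, -, h5⟩ := hlaw (p n) (S n) (hA.poly n) (hA.encl n)
      rw [← h5 (fun ω => lf I (w n) ω ^ k)]
      congr 1
      funext h
      rw [hn4 h]
      congr 1
      unfold lf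
      refine Finset.sum_congr rfl fun v hv => ?_
      unfold vh
      rw [if_pos hv]
    have e1 : ze I (fun ω => hv (δ n) φ ω ^ k) =
        ze I (fun ω => lf I (fun v => δ n ^ 2 * tl φ (δ n * v.1, δ n * v.2)) ω ^ k) :=
      ze_congr fun ω hω => by rw [hv_eq_lf (δ n) φ hω]
    have e2 : ze I (fun ω => hv (δ n) ψ ω ^ k) =
        ze I (fun ω => lf I (fun v => δ n ^ 2 * tl ψ (δ n * v.1, δ n * v.2)) ω ^ k) :=
      ze_congr fun ω hω => by rw [hv_eq_lf (δ n) ψ hω]
    rw [e0, e1, e2]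
    -- the dominating weights
    have hdom : ∀ v : ℤ × ℤ, 0 ≤ tl ψ (δ n * v.1, δ n * v.2) ∧
        (dp (δ n) v ∈ K ∪ tsupport φ →
          tl ψ (δ n * v.1, δ n * v.2) = |C| + √3 / 2 * |B|) := by
      intro v
      rw [tl_dp]
      refine ⟨mul_nonneg (by positivity) (mul_nonneg hM0 (hχ0 _)), fun hv => ?_⟩
      rw [hψ]
      simp only
      rw [hχ1 _ hv, hM]
      field_simp
    have hφB : ∀ v : ℤ × ℤ, |tl φ (δ n * v.1, δ n * v.2)| ≤ √3 / 2 * |B| := by
      intro v
      rw [tl_dp, abs_mul, abs_of_pos (by positivity : (0 : ℝ) < √3 / 2)]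
      refine mul_le_mul_of_nonneg_left ?_ (by positivity)
      exact ((Real.norm_eq_abs _).symm.le.trans (hB _)).trans (le_abs_self B)
    have hCC := le_abs_self C
    have hd2 : 0 < δ n ^ 2 := by positivity
    have hd3 : δ n ^ 3 ≤ δ n ^ 2 := by nlinarith
    have hd3' : 0 < δ n ^ 3 := by positivity
    have hor : ∀ v : ℤ × ℤ, dp (δ n) v ∈ K ∪ tsupport φ ∨
        (w n v = 0 ∧ tl φ (δ n * v.1, δ n * v.2) = 0) := by
      intro v
      by_cases h1 : w n v = 0
      · by_cases h2 : φ (dp (δ n) v) = 0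
        · right
          refine ⟨h1, ?_⟩
          rw [tl_dp, h2, mul_zero]
        · exact Or.inl (Or.inr (subset_tsupport _ h2))
      · exact Or.inl (Or.inl (hn1 v h1).2)
    refine ze_lf_sub hm I (fun v _ => ?_) (fun v _ => ?_) (fun v _ => ?_) k
    · rcases hor v with h | ⟨h, h'⟩
      · rw [(hdom v).2 h]
        have h1 := hn2 v
        have h2 := hφB v
        have h4 : |w n v| ≤ |w n v - δ n ^ 2 * tl φ (δ n * v.1, δ n * v.2)| +
            |δ n ^ 2 * tl φ (δ n * v.1, δ n * v.2)| := by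
          have := abs_add_le (w n v - δ n ^ 2 * tl φ (δ n * v.1, δ n * v.2))
            (δ n ^ 2 * tl φ (δ n * v.1, δ n * v.2))
          rwa [sub_add_cancel] at this
        rw [abs_mul, abs_of_pos hd2] at h4
        have h5 : C * δ n ^ 3 ≤ δ n ^ 2 * |C| := by
          have := mul_le_mul_of_nonneg_right hCC hd3'.le
          have h6 := mul_le_mul_of_nonneg_left hd3 (abs_nonneg C)
          linarith
        have h7 := mul_le_mul_of_nonneg_left h2 hd2.le
        rw [mul_add]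
        linarith
      · rw [h, abs_zero]
        exact mul_nonneg hd2.le (hdom v).1
    · rw [abs_mul, abs_of_pos hd2]
      refine mul_le_mul_of_nonneg_left ?_ hd2.le
      rcases hor v with h | ⟨h, h'⟩
      · rw [(hdom v).2 h]
        have h2 := hφB v
        have := abs_nonneg C
        linarith
      · rw [h', abs_zero]
        exact (hdom v).1
    · rcases hor v with h | ⟨h, h'⟩
      · rw [(hdom v).2 h]
        refine (hn2 v).trans ?_
        have h1 := mul_le_mul_of_nonneg_right hCC hd3'.le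
        have h2 : 0 ≤ δ n ^ 3 * (√3 / 2 * |B|) := by positivity
        have h4 : δ n * (δ n ^ 2 * (|C| + √3 / 2 * |B|)) =
          |C| * δ n ^ 3 + δ n ^ 3 * (√3 / 2 * |B|) := by ring
        rw [h4]
        linarith
      · rw [h, h', mul_zero, sub_zero, abs_zero]
        exact mul_nonneg hδ.le (mul_nonneg hd2.le (hdom v).1)
  have hz : Tendsto (fun n => k * δ n * ze (inner (p n) (S n)) (fun ω => hv (δ n) ψ ω ^ k)) atTop
      (𝓝 0) := by
    have h1 := ((hA.lim.const_mul (k : ℝ))).mul (hsq ψ hψT)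
    simpa using h1
  have hdiff := squeeze_zero_norm' (f := fun n =>
    (∫ h, fld (S n) (δ n) φ h ^ k ∂(law (p n) (S n))) -
      ze (inner (p n) (S n)) (fun ω => hv (δ n) φ ω ^ k)) key hz
  have h1 := hdiff.add (hsq φ hφ)
  rw [zero_add] at h1
  refine h1.congr fun n => ?_
  ring

/-! ### Linearity of the field -/

theorem region_meas (δ : ℝ) (S : Finset ((ℤ × ℤ) × Bool)) : MeasurableSet (region δ S) := by
  have h : region δ S = ⋃ t ∈ S, convexHull ℝ ((fun v => δ • pt v) '' (corners t : Set (ℤ × ℤ))) := by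
    ext z
    simp [region]
  rw [h]
  refine Finset.measurableSet_biUnion _ fun t _ => ?_
  have hf : ((fun v => δ • pt v) '' (corners t : Set (ℤ × ℤ))).Finite :=
    (Finset.finite_toSet _).image _
  exact (hf.isCompact_convexHull (𝕜 := ℝ)).isClosed.measurableSet

theorem interp_int {δ : ℝ} (hδ : 0 < δ) {f : ℝ × ℝ → ℝ} (hc : Continuous f)
    (hs : HasCompactSupport f) (h : ℤ × ℤ → ℤ) :
    Integrable (fun z : ℝ × ℝ => GFF.interp h (z.1 / δ, z.2 / δ) * f z) := by
  obtain ⟨R, hR⟩ := hs.isCompact.isBounded.subset_closedBall (0 : ℝ × ℝ)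
  have hf : ∀ z : ℝ × ℝ, (|R| < |z.1| ∨ |R| < |z.2|) → f z = 0 := by
    intro z hz
    by_contra hne
    have h4 : z ∈ tsupport f := subset_tsupport _ hne
    have h5 := hR h4
    rw [mem_closedBall_zero_iff, Prod.norm_def, sup_le_iff, Real.norm_eq_abs, Real.norm_eq_abs] at h5
    have := le_abs_self R
    rcases hz with h | h <;> linarith [h5.1, h5.2]
  have h1 : ∀ z : ℝ × ℝ, GFF.interp h (z.1 / δ, z.2 / δ) * f z =
      ∑ v ∈ GFF.box δ |R|, (h v : ℝ) * (GFF.ker ((z.1 / δ, z.2 / δ) - GFF.pos v) * f z) := by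
    intro z
    have hz : δ • ((z.1 / δ, z.2 / δ) : ℝ × ℝ) = z := by
      refine Prod.ext ?_ ?_
      · show δ * (z.1 / δ) = z.1
        field_simp
      · show δ * (z.2 / δ) = z.2
        field_simp
    by_cases hu : f z = 0
    · rw [hu, mul_zero]
      symm
      apply Finset.sum_eq_zero
      intro v _
      rw [mul_zero, mul_zero]
    · unfold GFF.interp
      rw [finsum_eq_sum_of_support_subset (s := GFF.box δ |R|), Finset.sum_mul]
      · apply Finset.sum_congr rfl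
        intro v _
        rw [GFF.hat_eq_ker]
        ring
      · intro v hv
        rw [Function.mem_support] at hv
        by_contra hvb
        have := GFF.ker_zero_of_box hδ (abs_nonneg R) hf hvb (z.1 / δ, z.2 / δ)
        rw [hz] at this
        rcases mul_eq_zero.1 this with h0 | h0
        · apply hv
          rw [GFF.hat_eq_ker, h0, mul_zero]
        · exact hu h0
  simp_rw [h1]
  refine integrable_finsetSum _ fun v _ => ?_
  refine Integrable.const_mul ?_ _
  apply Continuous.integrable_of_hasCompactSupport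
  · exact (GFF.continuous_ker.comp (by fun_prop)).mul hc
  · exact hs.mul_left

theorem fld_int {D : Set (ℝ × ℝ)} {δ : ℝ} (hδ : 0 < δ) (S : Finset ((ℤ × ℤ) × Bool))
    {f : ℝ × ℝ → ℝ} (hf : TestOn D f) (h : ℤ × ℤ → ℤ) :
    Integrable (fun z : ℝ × ℝ =>
      (open Classical in if z ∈ region δ S then GFF.interp h (z.1 / δ, z.2 / δ) else 0) * f z) := by
  classical
  have h1 := (interp_int hδ hf.cont hf.cs h).indicator (region_meas δ S)
  refine h1.congr (ae_of_all _ fun z => ?_)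
  by_cases hz : z ∈ region δ S
  · simp only [indicator_of_mem hz, if_pos hz]
  · simp only [indicator_of_notMem hz, if_neg hz, zero_mul]

theorem fld_sum {D : Set (ℝ × ℝ)} {δ : ℝ} (hδ : 0 < δ) (S : Finset ((ℤ × ℤ) × Bool)) {k : ℕ}
    {φ : Fin k → ℝ × ℝ → ℝ} (hφ : ∀ j, TestOn D (φ j)) (x : Fin k → ℝ) (h : ℤ × ℤ → ℤ) :
    fld S δ (fun z => ∑ j, x j * φ j z) h = ∑ j, x j * fld S δ (φ j) h := by
  unfold fld
  simp_rw [← integral_const_mul]
  rw [← integral_finsetSum]
  · congr 1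
    funext z
    rw [Finset.mul_sum]
    exact Finset.sum_congr rfl fun j _ => by ring
  · intro j _
    exact (fld_int hδ S (hφ j) h).const_mul _

/-- Convergence of the characteristic functions of all single test functions gives the joint
convergence in law to the centred Gaussian vector (linearity on the test functions only). -/
theorem vec_conv' {D : Set (ℝ × ℝ)} (hD : Bornology.IsBounded D) {c : ℝ} (hc : 0 ≤ c)
    {Ω : ℕ → Type*} [∀ n, MeasurableSpace (Ω n)] (μ : ∀ n, Measure (Ω n))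
    [∀ n, IsProbabilityMeasure (μ n)] (X : ∀ n, Ω n → (ℝ × ℝ → ℝ) → ℝ)
    (k : ℕ) (φ : Fin k → ℝ × ℝ → ℝ) (hφ : ∀ j, TestOn D (φ j))
    (hlin : ∀ n ω (x : Fin k → ℝ), X n ω (fun z => ∑ j, x j * φ j z) = ∑ j, x j * X n ω (φ j))
    (hm : ∀ n φ, AEMeasurable (fun ω => X n ω φ) (μ n))
    (hch : ∀ φ, TestOn D φ → Tendsto
      (fun n => ∫ ω, Complex.exp ((X n ω φ : ℂ) * Complex.I) ∂μ n) atTop
      (𝓝 (Complex.exp (-((c * V D φ : ℝ) : ℂ) / 2)))) :
    (Matrix.of fun i j => c * Vale.Agent.P145.Dom.dirCov D (φ i) (φ j)).PosSemidef ∧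
    TendstoInDistribution
      (fun n ω => (WithLp.toLp 2 (fun j => X n ω (φ j)) : EuclideanSpace ℝ (Fin k))) atTop
      (id : EuclideanSpace ℝ (Fin k) → EuclideanSpace ℝ (Fin k)) μ
      (multivariateGaussian 0
        (Matrix.of fun i j => c * Vale.Agent.P145.Dom.dirCov D (φ i) (φ j))) := by
  have hpsd := Vale.Agent.P145.Dom.dirCov_posSemidef hD hc hφ
  refine ⟨hpsd, ?_⟩
  have hX : ∀ n, AEMeasurable (fun ω =>
      (WithLp.toLp 2 (fun j => X n ω (φ j)) : EuclideanSpace ℝ (Fin k))) (μ n) := by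
    intro n
    exact (WithLp.measurable_toLp 2 (Fin k → ℝ)).comp_aemeasurable
      (aemeasurable_pi_lambda _ fun j => hm n (φ j))
  refine ⟨hX, by fun_prop, ?_⟩
  refine ProbabilityMeasure.tendsto_of_tendsto_charFun fun t => ?_
  have hid : (multivariateGaussian 0
        (Matrix.of fun i j => c * Vale.Agent.P145.Dom.dirCov D (φ i) (φ j))).map
      (id : EuclideanSpace ℝ (Fin k) → EuclideanSpace ℝ (Fin k)) =
      multivariateGaussian 0
        (Matrix.of fun i j => c * Vale.Agent.P145.Dom.dirCov D (φ i) (φ j)) := Measure.map_id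
  simp only [ProbabilityMeasure.coe_mk, hid]
  rw [charFun_multivariateGaussian hpsd]
  have hF := Vale.Agent.P145.Dom.TestOn.sum hφ (fun j => t j)
  have h1 := hch _ hF
  have h2 : Complex.exp (((inner ℝ t (0 : EuclideanSpace ℝ (Fin k)) : ℝ) : ℂ) * Complex.I -
      ((t : Fin k → ℝ) ⬝ᵥ
        (Matrix.of fun i j => c * Vale.Agent.P145.Dom.dirCov D (φ i) (φ j)).mulVec t : ℝ) / 2) =
      Complex.exp (-((c * V D (fun z => ∑ j, t j * φ j z) : ℝ) : ℂ) / 2) := by
    rw [Vale.Agent.P145.Dom.dirCov_dot hD c hφ, inner_zero_right]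
    congr 1
    push_cast
    ring
  rw [h2]
  refine h1.congr fun n => ?_
  change ∫ ω, Complex.exp ((X n ω (fun z => ∑ j, t j * φ j z) : ℂ) * Complex.I) ∂μ n =
    charFun ((μ n).map (fun ω =>
      (WithLp.toLp 2 (fun j => X n ω (φ j)) : EuclideanSpace ℝ (Fin k)))) t
  rw [charFun_apply, integral_map (hX n) (by fun_prop)]
  refine integral_congr_ae (ae_of_all _ fun ω => ?_)
  simp only []
  rw [hlin n ω (fun j => t j)]
  congr 3

/-- **The convergence in law**, from the output of the top block. -/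
theorem conv_of_key {κ : ℝ} (hκ : 0 ≤ κ) (hm : S_mono)
    (hkey : ∀ δ : ℕ → ℝ, (∀ n, 0 < δ n) → Tendsto δ atTop (𝓝 0) → S_key κ δ)
    (hlaw : S_law) (hin : S_in) (hout : S_out) (hfld : S_fld)
    {D : Set (ℝ × ℝ)} (hJ : JordanDomain D) : Conv κ D := by
  have hJ' : Vale.Agent.P145.Dom.JordanDomain D := hJ
  intro δ N p S hA
  have hprob : ∀ n, IsProbabilityMeasure (law (p n) (S n)) := fun n =>
    (hlaw (p n) (S n) (hA.poly n) (hA.encl n)).2.2.1
  have hint : ∀ n (G : (ℤ × ℤ → ℤ) → ℝ), Integrable G (law (p n) (S n)) := fun n =>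
    (hlaw (p n) (S n) (hA.poly n) (hA.encl n)).2.2.2.1
  refine ⟨hprob, fun k φ hφ => ?_⟩
  exact vec_conv' (c := κ) hJ'.isBounded hκ (fun n => law (p n) (S n))
    (fun n h φ => fld (S n) (δ n) φ h) k φ hφ
    (fun n h x => fld_sum (hA.pos n) (S n) hφ x h)
    (fun n φ => (hint n _).aestronglyMeasurable.aemeasurable)
    (fun ψ hψ => by
      have key := charfun_of_moments (l := atTop) (fun n => law (p n) (S n))
        (fun n h => fld (S n) (δ n) ψ h) (fun n j => hint n _) (v := κ * V D ψ)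
        (fun j => mom_fld hm hlaw hin hout hfld hJ hkey hA hψ j)
      have e1 : ((-(κ * V D ψ / 2) : ℝ) : ℂ) = -((κ * V D ψ : ℝ) : ℂ) / 2 := by
        push_cast; ring
      rw [e1] at key
      refine key.congr fun n => ?_
      refine integral_congr_ae (ae_of_all _ fun h => ?_)
      simp only []
      rw [mul_comm])

end Vale.Agent.P153.F.Top
end

section

/-!
P153-F, leaf D2: inner inclusion.
-/

namespace Vale.Agent.P153.F.Dom

open Finset Filter Topology MeasureTheory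
open Vale.Agent.P153.F.Top Vale.Agent.P145.PT

/-- offset of the centre of a triangle -/
private noncomputable def dinO (b : Bool) : ℝ := if b then 2 / 3 else 1 / 3

/-- the centre of a triangle of the lattice of mesh `δ` -/
private noncomputable def dinC (δ : ℝ) (t : (ℤ × ℤ) × Bool) : ℝ × ℝ :=
  (δ * ((t.1.1 + dinO t.2) + (t.1.2 + dinO t.2) / 2), δ * (√3 / 2 * (t.1.2 + dinO t.2)))

private theorem din_sqrt_pos : (0 : ℝ) < √3 := Real.sqrt_pos.2 (by norm_num)

private theorem din_c1 (δ : ℝ) (t : (ℤ × ℤ) × Bool) :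
    c1 (dinC δ t) = δ * (t.1.1 + dinO t.2) := by
  have := din_sqrt_pos.ne'
  unfold c1 dinC
  field_simp
  ring

private theorem din_c2 (δ : ℝ) (t : (ℤ × ℤ) × Bool) :
    c2 (dinC δ t) = δ * (t.1.2 + dinO t.2) := by
  have := din_sqrt_pos.ne'
  unfold c2 dinC
  field_simp

private theorem din_c1_pt (δ : ℝ) (v : ℤ × ℤ) : c1 (δ • pt v) = δ * v.1 := by
  have := din_sqrt_pos.ne'
  unfold c1 pt
  simp only [Prod.smul_mk, smul_eq_mul]
  field_simp
  ring

private theorem din_c2_pt (δ : ℝ) (v : ℤ × ℤ) : c2 (δ • pt v) = δ * v.2 := by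
  have := din_sqrt_pos.ne'
  unfold c2 pt
  simp only [Prod.smul_mk, smul_eq_mul]
  field_simp

private theorem din_convex (a b c : ℝ) :
    Convex ℝ {z : ℝ × ℝ | a * c1 z + b * c2 z ≤ c} := by
  intro x hx y hy s t hs ht hst
  change a * c1 x + b * c2 x ≤ c at hx
  change a * c1 y + b * c2 y ≤ c at hy
  change a * c1 (s • x + t • y) + b * c2 (s • x + t • y) ≤ c
  have h1 : c1 (s • x + t • y) = s * c1 x + t * c1 y := by
    unfold c1
    simp only [Prod.fst_add, Prod.snd_add, Prod.smul_fst, Prod.smul_snd, smul_eq_mul]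
    ring
  have h2 : c2 (s • x + t • y) = s * c2 x + t * c2 y := by
    unfold c2
    simp only [Prod.snd_add, Prod.smul_snd, smul_eq_mul]
    ring
  rw [h1, h2]
  calc a * (s * c1 x + t * c1 y) + b * (s * c2 x + t * c2 y) =
      s * (a * c1 x + b * c2 x) + t * (a * c1 y + b * c2 y) := by ring
    _ ≤ s * c + t * c := by (clear * - hx hs hy ht; gcongr)
    _ = c := by rw [← add_mul, hst, one_mul]

/-- a half plane containing the corners of a triangle contains the triangle -/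
private theorem din_half (δ a b c : ℝ) (t : (ℤ × ℤ) × Bool) (z : ℝ × ℝ)
    (hz : z ∈ convexHull ℝ ((fun v => δ • pt v) '' (corners t : Set (ℤ × ℤ))))
    (h : ∀ v ∈ corners t, a * (δ * v.1) + b * (δ * v.2) ≤ c) : a * c1 z + b * c2 z ≤ c := by
  refine convexHull_min ?_ (din_convex a b c) hz
  rintro _ ⟨v, hv, rfl⟩
  change a * c1 (δ • pt v) + b * c2 (δ • pt v) ≤ c
  rw [din_c1_pt, din_c2_pt]
  exact h v hv

/-- the centre of a triangle lies in no other triangle -/
private theorem din_mem {δ : ℝ} (hδ : 0 < δ) {S : Finset ((ℤ × ℤ) × Bool)}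
    {t : (ℤ × ℤ) × Bool} (h : dinC δ t ∈ region δ S) : t ∈ S := by
  obtain ⟨t', ht', hz⟩ := h
  suffices ht : t = t' by rwa [ht]
  obtain ⟨⟨i, j⟩, b⟩ := t
  obtain ⟨⟨i', j'⟩, b'⟩ := t'
  have e1 := din_c1 δ ((i, j), b)
  have e2 := din_c2 δ ((i, j), b)
  simp only at e1 e2
  cases b'
  · have h1 := din_half δ (-1) 0 (-(δ * i')) _ _ hz (by
      intro v hv
      simp only [corners, Bool.false_eq_true, if_false, Finset.mem_insert, Finset.mem_singleton] at hv
      rcases hv with rfl | rfl | rfl <;> simp <;> linarith)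
    have h2 := din_half δ 0 (-1) (-(δ * j')) _ _ hz (by
      intro v hv
      simp only [corners, Bool.false_eq_true, if_false, Finset.mem_insert, Finset.mem_singleton] at hv
      rcases hv with rfl | rfl | rfl <;> simp only [Prod.mk_add_mk, add_zero, zero_mul, Int.cast_add, Int.cast_one, neg_mul, one_mul, zero_add, neg_le_neg_iff] <;> nlinarith only [hδ])
    have h3 := din_half δ 1 1 (δ * (i' + j' + 1)) _ _ hz (by
      intro v hv
      simp only [corners, Bool.false_eq_true, if_false, Finset.mem_insert, Finset.mem_singleton] at hv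
      rcases hv with rfl | rfl | rfl <;> simp <;> nlinarith)
    rw [e1, e2] at h1 h2 h3
    have k1 : (i' : ℝ) ≤ i + dinO b := by
      have : δ * (i' : ℝ) ≤ δ * (i + dinO b) := by linarith
      exact le_of_mul_le_mul_left this hδ
    have k2 : (j' : ℝ) ≤ j + dinO b := by
      have : δ * (j' : ℝ) ≤ δ * (j + dinO b) := by linarith
      exact le_of_mul_le_mul_left this hδ
    have k3 : (i + dinO b) + (j + dinO b) ≤ (i' : ℝ) + j' + 1 := by
      have : δ * ((i + dinO b) + (j + dinO b)) ≤ δ * ((i' : ℝ) + j' + 1) := by linarith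
      exact le_of_mul_le_mul_left this hδ
    cases b
    · simp only [dinO, Bool.false_eq_true, if_false] at k1 k2 k3
      have m1 : i' < i + 1 := by
        have : (i' : ℝ) < i + 1 := by linarith only [k1]
        exact_mod_cast this
      have m2 : j' < j + 1 := by
        have : (j' : ℝ) < j + 1 := by linarith only [k2]
        exact_mod_cast this
      have m3 : i + j < i' + j' + 1 := by
        have : (i : ℝ) + j < i' + j' + 1 := by linarith only [k3]
        exact_mod_cast this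
      have : i = i' := by omega
      have : j = j' := by omega
      subst_vars
      rfl
    · simp only [dinO, if_true] at k1 k2 k3
      have m1 : i' < i + 1 := by
        have : (i' : ℝ) < i + 1 := by linarith only [k1]
        exact_mod_cast this
      have m2 : j' < j + 1 := by
        have : (j' : ℝ) < j + 1 := by linarith only [k2]
        exact_mod_cast this
      have m3 : i + j < i' + j' := by
        have : (i : ℝ) + j < i' + j' := by linarith only [k3]
        exact_mod_cast this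
      omega
  · have h1 := din_half δ 1 0 (δ * (i' + 1)) _ _ hz (by
      intro v hv
      simp only [corners, if_true, Finset.mem_insert, Finset.mem_singleton] at hv
      rcases hv with rfl | rfl | rfl <;> simp <;> nlinarith only [hδ])
    have h2 := din_half δ 0 1 (δ * (j' + 1)) _ _ hz (by
      intro v hv
      simp only [corners, if_true, Finset.mem_insert, Finset.mem_singleton] at hv
      rcases hv with rfl | rfl | rfl <;> simp only [Prod.mk_add_mk, add_zero, Int.cast_add, Int.cast_one, zero_mul, one_mul, zero_add] <;> linarith)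
    have h3 := din_half δ (-1) (-1) (-(δ * (i' + j' + 1))) _ _ hz (by
      intro v hv
      simp only [corners, if_true, Finset.mem_insert, Finset.mem_singleton] at hv
      rcases hv with rfl | rfl | rfl <;> simp <;> nlinarith)
    rw [e1, e2] at h1 h2 h3
    have k1 : i + dinO b ≤ (i' : ℝ) + 1 := by
      have : δ * (i + dinO b) ≤ δ * ((i' : ℝ) + 1) := by linarith
      exact le_of_mul_le_mul_left this hδ
    have k2 : j + dinO b ≤ (j' : ℝ) + 1 := by
      have : δ * (j + dinO b) ≤ δ * ((j' : ℝ) + 1) := by linarith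
      exact le_of_mul_le_mul_left this hδ
    have k3 : (i' : ℝ) + j' + 1 ≤ (i + dinO b) + (j + dinO b) := by
      have : δ * ((i' : ℝ) + j' + 1) ≤ δ * ((i + dinO b) + (j + dinO b)) := by linarith only [h3]
      exact le_of_mul_le_mul_left this hδ
    cases b
    · simp only [dinO, Bool.false_eq_true, if_false] at k1 k2 k3
      have m1 : i < i' + 1 := by
        have : (i : ℝ) < i' + 1 := by linarith only [k1]
        exact_mod_cast this
      have m2 : j < j' + 1 := by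
        have : (j : ℝ) < j' + 1 := by linarith only [k2]
        exact_mod_cast this
      have m3 : i' + j' < i + j := by
        have : (i' : ℝ) + j' < i + j := by linarith only [k3]
        exact_mod_cast this
      omega
    · simp only [dinO, if_true] at k1 k2 k3
      have m1 : i < i' + 1 := by
        have : (i : ℝ) < i' + 1 := by linarith only [k1]
        exact_mod_cast this
      have m2 : j < j' + 1 := by
        have : (j : ℝ) < j' + 1 := by linarith only [k2]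
        exact_mod_cast this
      have m3 : i' + j' < i + j + 1 := by
        have : (i' : ℝ) + j' < i + j + 1 := by linarith only [k3]
        exact_mod_cast this
      have : i = i' := by omega
      have : j = j' := by omega
      subst_vars
      rfl

/-- the centres of the triangles around a vertex are close to the vertex -/
private theorem din_ball {δ : ℝ} (hδ : 0 < δ) (v : ℤ × ℤ) (t : (ℤ × ℤ) × Bool)
    (h1 : |(t.1.1 : ℝ) + dinO t.2 - v.1| ≤ 2 / 3) (h2 : |(t.1.2 : ℝ) + dinO t.2 - v.2| ≤ 2 / 3) :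
    dinC δ t ∈ Metric.closedBall (dp δ v) (2 * δ) := by
  rw [Metric.mem_closedBall, Prod.dist_eq, max_le_iff]
  have h3 : √3 / 2 ≤ 1 := by
    have : √3 ≤ 2 := by
      rw [Real.sqrt_le_left (by norm_num)]
      norm_num
    linarith only [this]
  have h4 := din_sqrt_pos
  rw [abs_le] at h1 h2
  unfold dinC dp
  constructor
  · rw [Real.dist_eq, abs_le]
    constructor <;> nlinarith
  · rw [Real.dist_eq]
    have e : δ * (√3 / 2 * (↑t.1.2 + dinO t.2)) - δ * (√3 / 2 * ↑v.2) =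
        (δ * (√3 / 2)) * (↑t.1.2 + dinO t.2 - v.2) := by ring
    simp only [e]
    rw [abs_mul, abs_of_pos (by positivity)]
    have h5 : |(t.1.2 : ℝ) + dinO t.2 - v.2| ≤ 2 / 3 := abs_le.2 h2
    have h6 : δ * (√3 / 2) ≤ δ := by nlinarith only [hδ, h3]
    calc δ * (√3 / 2) * |(t.1.2 : ℝ) + dinO t.2 - v.2| ≤ δ * (2 / 3) := by
          apply mul_le_mul h6 h5 (abs_nonneg _) hδ.le
      _ ≤ 2 * δ := by linarith only [hδ]

private theorem din_step {n : ℕ} {p : ZMod n → ℤ × ℤ} {S : Finset ((ℤ × ℤ) × Bool)}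
    (hp : IsPolygon p) (he : Encloses p S) {v : ℤ × ℤ} (a1 : (v, false) ∈ S)
    (a2 : (v - (1, 0), false) ∈ S) (a3 : (v - (0, 1), false) ∈ S) (b1 : (v - (1, 0), true) ∈ S)
    (b2 : (v - (0, 1), true) ∈ S) (b3 : (v - (1, 1), true) ∈ S) (i : ZMod n) : p i ≠ v := by
  intro hi
  obtain ⟨q1, q2, q3⟩ := he
  have hadj := hp.2.2 i
  rw [hi] at hadj
  have hE : IsEdge p v (p (i + 1)) := ⟨i, Or.inl ⟨hi, rfl⟩⟩
  have hE' : IsEdge p (p (i + 1)) v := ⟨i, Or.inr ⟨hi, rfl⟩⟩
  obtain ⟨w, hw⟩ : ∃ w, p (i + 1) = w := ⟨_, rfl⟩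
  rw [hw] at hadj hE hE'
  obtain ⟨x, y⟩ := v
  obtain ⟨x', y'⟩ := w
  simp only [GFF.Adj, Set.mem_insert_iff, Set.mem_singleton_iff, Prod.mk.injEq] at hadj
  simp only [Prod.mk_sub_mk] at a2 a3 b1 b2 b3
  rcases hadj with h | h | h | h | h | h
  · have ex : x' = x + 1 := by omega
    have ey : y' = y := by omega
    subst ex ey
    have := (q1 (x, y')).1 (by simpa using hE)
    apply this
    simp only [Prod.mk_sub_mk]
    (clear * - h this a1 b2; tauto)
  · have ex : x = x' + 1 := by omega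
    have ey : y' = y := by omega
    subst ex ey
    have := (q1 (x', y')).1 (by simpa using hE')
    apply this
    simp only [Prod.mk_sub_mk]
    simp only [add_sub_cancel_right, sub_zero] at a2 b3 ⊢
    (clear * - h this a2 b3; tauto)
  · have ex : x' = x := by omega
    have ey : y' = y + 1 := by omega
    subst ex ey
    have := (q2 (x', y)).1 (by simpa using hE)
    apply this
    simp only [Prod.mk_sub_mk]
    (clear * - h this a1 b1; tauto)
  · have ex : x' = x := by omega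
    have ey : y = y' + 1 := by omega
    subst ex ey
    have := (q2 (x', y')).1 (by simpa using hE')
    apply this
    simp only [Prod.mk_sub_mk]
    simp only [add_sub_cancel_right, sub_zero] at a3 b3 ⊢
    (clear * - h this a3 b3; tauto)
  · have ex : x' = x + 1 := by omega
    have ey : y = y' + 1 := by omega
    subst ex ey
    have := (q3 (x, y')).1 (by simpa using hE')
    apply this
    simp only [add_sub_cancel_right, sub_zero] at a3 b2 ⊢
    (clear * - h this a3 b2; tauto)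
  · have ex : x = x' + 1 := by omega
    have ey : y' = y + 1 := by omega
    subst ex ey
    have := (q3 (x', y)).1 (by simpa using hE)
    apply this
    simp only [add_sub_cancel_right, sub_zero] at a2 b1 ⊢
    (clear * - h this a2 b1; tauto)

/-- Leaf D2. -/
theorem s_in : S_in := by
  intro D δ N p S hA D' hb hD'
  have hK : IsCompact (closure D') := Metric.isCompact_of_isClosed_isBounded isClosed_closure
    hb.closure
  filter_upwards [hA.cpt _ hD' hK] with n hn
  intro v hv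
  have hδ := hA.pos n
  have hball : Metric.closedBall (dp (δ n) v) (2 * δ n) ⊆ D' := by
    unfold Vs at hv
    split_ifs at hv with hfin
    · simpa only [Set.Finite.mem_toFinset, Set.mem_ofPred_eq] using hv
    · simp at hv
  have key : ∀ t : (ℤ × ℤ) × Bool, |(t.1.1 : ℝ) + dinO t.2 - v.1| ≤ 2 / 3 →
      |(t.1.2 : ℝ) + dinO t.2 - v.2| ≤ 2 / 3 → t ∈ S n := by
    intro t h1 h2
    exact din_mem hδ (hn (subset_closure (hball (din_ball hδ v t h1 h2))))
  have a1 : (v, false) ∈ S n := by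
    apply key <;> simp only [dinO, Bool.false_eq_true, ↓reduceIte, one_div, add_sub_cancel_left, abs_inv, Nat.abs_ofNat] <;> first | (norm_num; done) | (constructor <;> linarith)
  have a2 : (v - (1, 0), false) ∈ S n := by
    apply key <;> simp [dinO, abs_le] <;> first | (norm_num; done) | (constructor <;> linarith only [])
  have a3 : (v - (0, 1), false) ∈ S n := by
    apply key <;> simp [dinO, abs_le] <;> first | (norm_num; done) | (constructor <;> linarith)
  have b1 : (v - (1, 0), true) ∈ S n := by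
    apply key <;> simp [dinO, abs_le] <;> first | (norm_num; done) | (constructor <;> linarith only [])
  have b2 : (v - (0, 1), true) ∈ S n := by
    apply key <;> simp [dinO, abs_le] <;> first | (norm_num; done) | (constructor <;> linarith only [])
  have b3 : (v - (1, 1), true) ∈ S n := by
    apply key <;> simp [dinO, abs_le] <;> first | (norm_num; done) | (constructor <;> linarith only [])
  classical
  unfold inner
  rw [Finset.mem_filter]
  refine ⟨?_, din_step (hA.poly n) (hA.encl n) a1 a2 a3 b1 b2 b3⟩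
  unfold verts
  rw [Finset.mem_biUnion]
  exact ⟨_, a1, by simp only [corners, Bool.false_eq_true, ↓reduceIte, mem_insert, left_eq_add, Prod.mk_eq_zero, one_ne_zero, and_true, mem_singleton, and_false, or_self, or_false]⟩

end Vale.Agent.P153.F.Dom
end

section

/-!
P153-F, leaf D3: the inner vertices of the lattice polygons are eventually in every neighbourhood of
the closure of the domain.
-/

namespace Vale.Agent.P153.F.Dom

open Finset Filter Topology MeasureTheory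
open Vale.Agent.P153.F.Top Vale.Agent.P145.PT

namespace OutI

/-- The lattice coordinates of the point `z`, rounded down. -/
noncomputable def fl (δ : ℝ) (z : ℝ × ℝ) : ℤ × ℤ := (⌊c1 z / δ⌋, ⌊c2 z / δ⌋)

lemma s3 : (1 : ℝ) < √3 := by
  rw [Real.lt_sqrt (by norm_num)]; norm_num

lemma s3' : √3 < (2 : ℝ) := by
  rw [Real.sqrt_lt' (by norm_num)]; norm_num

lemma z2_eq (z : ℝ × ℝ) : z.2 = √3 / 2 * c2 z := by
  have h3 : √3 ≠ 0 := by positivity
  simp only [c2]; field_simp

lemma z1_eq (z : ℝ × ℝ) : z.1 = c1 z + c2 z / 2 := by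
  have h3 : √3 ≠ 0 := by positivity
  simp only [c1, c2]; field_simp; ring

lemma c1_dp (δ : ℝ) (v : ℤ × ℤ) : c1 (dp δ v) = δ * v.1 := by
  have h3 : √3 ≠ 0 := by positivity
  simp only [c1, dp]; field_simp; ring

lemma c2_dp (δ : ℝ) (v : ℤ × ℤ) : c2 (dp δ v) = δ * v.2 := by
  have h3 : √3 ≠ 0 := by positivity
  simp only [c2, dp]; field_simp

lemma fl_dp {δ : ℝ} (hδ : 0 < δ) (v : ℤ × ℤ) : fl δ (dp δ v) = v := by
  simp only [fl, c1_dp, c2_dp, mul_div_cancel_left₀ _ hδ.ne', Int.floor_intCast]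

lemma smul_pt (δ : ℝ) (v : ℤ × ℤ) : δ • pt v = dp δ v := rfl

lemma dist_dp {δ : ℝ} {z : ℝ × ℝ} {v : ℤ × ℤ} (h1 : |c1 z - δ * v.1| ≤ 3 * δ)
    (h2 : |c2 z - δ * v.2| ≤ 3 * δ) : dist z (dp δ v) ≤ 5 * δ := by
  have a1 := z1_eq z
  have a2 := z2_eq z
  rw [abs_le] at h1 h2
  have h3 := s3
  have h4 := s3'
  rw [Prod.dist_eq, Real.dist_eq, Real.dist_eq]
  simp only [dp]
  have e1 : z.1 - δ * (v.1 + v.2 / 2) = (c1 z - δ * v.1) + (c2 z - δ * v.2) / 2 := by
    rw [a1]; ring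
  have e2 : z.2 - δ * (√3 / 2 * v.2) = √3 / 2 * (c2 z - δ * v.2) := by
    rw [a2]; ring
  rw [e1, e2]
  refine max_le (abs_le.2 ⟨by linarith only [h1, h2], by (clear * - h1 h2; linarith)⟩) ?_
  rw [abs_mul, abs_of_pos (by positivity : (0 : ℝ) < √3 / 2)]
  have h5 : |c2 z - δ * v.2| ≤ 3 * δ := abs_le.2 h2
  have h6 := abs_nonneg (c2 z - δ * v.2)
  nlinarith only [h1, h5, h4, h3]

lemma near_fl {δ : ℝ} (hδ : 0 < δ) {z : ℝ × ℝ} {v : ℤ × ℤ} (h1 : |v.1 - (fl δ z).1| ≤ 2)
    (h2 : |v.2 - (fl δ z).2| ≤ 2) : dist z (dp δ v) ≤ 5 * δ := by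
  rw [abs_le] at h1 h2
  simp only [fl] at h1 h2
  have a1 := Int.floor_le (c1 z / δ)
  have a2 := Int.lt_floor_add_one (c1 z / δ)
  have a3 := Int.floor_le (c2 z / δ)
  have a4 := Int.lt_floor_add_one (c2 z / δ)
  have b1 : ((v.1 : ℤ) : ℝ) ≤ ⌊c1 z / δ⌋ + 2 := by
    have : v.1 ≤ ⌊c1 z / δ⌋ + 2 := by omega
    exact_mod_cast this
  have b2 : ((⌊c1 z / δ⌋ : ℤ) : ℝ) ≤ v.1 + 2 := by
    have : ⌊c1 z / δ⌋ ≤ v.1 + 2 := by omega
    exact_mod_cast this
  have b3 : ((v.2 : ℤ) : ℝ) ≤ ⌊c2 z / δ⌋ + 2 := by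
    have : v.2 ≤ ⌊c2 z / δ⌋ + 2 := by omega
    exact_mod_cast this
  have b4 : ((⌊c2 z / δ⌋ : ℤ) : ℝ) ≤ v.2 + 2 := by
    have : ⌊c2 z / δ⌋ ≤ v.2 + 2 := by omega
    exact_mod_cast this
  have e1 : c1 z = δ * (c1 z / δ) := by (clear * - hδ; field_simp)
  have e2 : c2 z = δ * (c2 z / δ) := by (clear * - hδ; field_simp)
  have hk : ∀ x y : ℝ, x ≤ y + 3 → y ≤ x + 3 → |δ * x - δ * y| ≤ 3 * δ := by
    intro x y hx hy
    rw [← mul_sub, abs_mul, abs_of_pos hδ, mul_comm (3 : ℝ)]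
    exact mul_le_mul_of_nonneg_left (abs_le.2 ⟨by linarith only [hy], by linarith only [hx]⟩) hδ.le
  refine dist_dp ?_ ?_
  · rw [e1]; exact hk _ _ (by linarith only [a2, b2]) (by linarith only [a1, b1])
  · rw [e2]; exact hk _ _ (by linarith only [a4, b4]) (by linarith only [a3, b3])

lemma fl_close {δ : ℝ} (hδ : 0 < δ) {z z' : ℝ × ℝ} (h : dist z' z < δ / 4) :
    |(fl δ z').1 - (fl δ z).1| ≤ 1 ∧ |(fl δ z').2 - (fl δ z).2| ≤ 1 := by
  rw [Prod.dist_eq, Real.dist_eq, Real.dist_eq, max_lt_iff, abs_lt, abs_lt] at h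
  obtain ⟨⟨h1, h2⟩, h3, h4⟩ := h
  have h5 := s3
  have hi : 0 < (√3)⁻¹ := by positivity
  have hi1 : (√3)⁻¹ < 1 := inv_lt_one_of_one_lt₀ h5
  have e1 : c1 z' - c1 z = (z'.1 - z.1) - (z'.2 - z.2) * (√3)⁻¹ := by
    simp only [c1, div_eq_mul_inv]; ring
  have e2 : c2 z' - c2 z = 2 * ((z'.2 - z.2) * (√3)⁻¹) := by
    simp only [c2, div_eq_mul_inv]; ring
  have h6 : |(z'.2 - z.2) * (√3)⁻¹| < δ / 4 := by
    rw [abs_mul, abs_of_pos hi]
    have : |z'.2 - z.2| < δ / 4 := abs_lt.2 ⟨h3, h4⟩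
    nlinarith only [hδ, hi1, hi, this]
  rw [abs_lt] at h6
  have hk : ∀ x y : ℝ, |x - y| < δ → |⌊x / δ⌋ - ⌊y / δ⌋| ≤ 1 := by
    intro x y hxy
    have h7 : |x / δ - y / δ| < 1 := by
      rw [← sub_div, abs_div, abs_of_pos hδ, div_lt_one hδ]; exact hxy
    rw [abs_lt] at h7
    have a1 := Int.floor_le (x / δ)
    have a2 := Int.lt_floor_add_one (x / δ)
    have a3 := Int.floor_le (y / δ)
    have a4 := Int.lt_floor_add_one (y / δ)
    have b1 : ((⌊x / δ⌋ : ℤ) : ℝ) < ⌊y / δ⌋ + 2 := by linarith only [h7, a1, a4]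
    have b2 : ((⌊y / δ⌋ : ℤ) : ℝ) < ⌊x / δ⌋ + 2 := by linarith only [h7, a2, a3]
    have b1' : ⌊x / δ⌋ < ⌊y / δ⌋ + 2 := by exact_mod_cast b1
    have b2' : ⌊y / δ⌋ < ⌊x / δ⌋ + 2 := by exact_mod_cast b2
    rw [abs_le]; omega
  refine ⟨hk _ _ ?_, hk _ _ ?_⟩
  · rw [e1, abs_lt]; constructor <;> linarith only [h1, h6, h2]
  · rw [e2, abs_lt]; constructor <;> linarith

/-! ### The triangles near a lattice point off the polygon -/

section Disc

variable {n : ℕ} {p : ZMod n → ℤ × ℤ} {S : Finset ((ℤ × ℤ) × Bool)}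

lemma noEdge {a b : ℤ × ℤ} (ha : ∀ i, p i ≠ a) : ¬ IsEdge p a b := by
  rintro ⟨i, h | h⟩
  · exact ha _ h.1
  · exact ha _ h.2

lemma st0 (hE : Encloses p S) {x y : ℤ} (h : ∀ i, p i ≠ (x + 1, y)) :
    ((x, y), false) ∈ S ↔ ((x, y), true) ∈ S := by
  have h1 := hE.2.2 (x, y)
  have h2 : ¬ IsEdge p ((x, y) + (1, 0)) ((x, y) + (0, 1)) := by
    refine noEdge ?_
    simpa only [Prod.mk_add_mk, add_zero, ne_eq] using h
  rw [h1, not_not] at h2
  exact h2

lemma st1 (hE : Encloses p S) {x y : ℤ} (h : ∀ i, p i ≠ (x, y + 1)) :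
    ((x, y), true) ∈ S ↔ ((x, y + 1), false) ∈ S := by
  have h1 := hE.1 (x, y + 1)
  have h2 : ¬ IsEdge p (x, y + 1) ((x, y + 1) + (1, 0)) := noEdge h
  rw [h1, not_not] at h2
  have e : ((x, y + 1) : ℤ × ℤ) - (0, 1) = (x, y) := by simp
  rw [e] at h2
  exact h2.symm

lemma st2 (hE : Encloses p S) {x y : ℤ} (h : ∀ i, p i ≠ (x + 1, y)) :
    ((x, y), true) ∈ S ↔ ((x + 1, y), false) ∈ S := by
  have h1 := hE.2.1 (x + 1, y)
  have h2 : ¬ IsEdge p (x + 1, y) ((x + 1, y) + (0, 1)) := noEdge h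
  rw [h1, not_not] at h2
  have e : ((x + 1, y) : ℤ × ℤ) - (1, 0) = (x, y) := by simp
  rw [e] at h2
  exact h2.symm

lemma sth (hE : Encloses p S) {x y : ℤ} (h : ∀ i, p i ≠ (x + 1, y)) :
    ((x, y), false) ∈ S ↔ ((x + 1, y), false) ∈ S := (st0 hE h).trans (st2 hE h)

lemma stv (hE : Encloses p S) {x y : ℤ} (h : ∀ i, p i ≠ (x + 1, y)) (h' : ∀ i, p i ≠ (x, y + 1)) :
    ((x, y), false) ∈ S ↔ ((x, y + 1), false) ∈ S := (st0 hE h).trans (st1 hE h')

/-- No vertex of the polygon near `u`. -/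
def Free (p : ZMod n → ℤ × ℤ) (u : ℤ × ℤ) : Prop :=
  ∀ x y : ℤ, |x - u.1| ≤ 2 → |y - u.2| ≤ 2 → ∀ i, p i ≠ (x, y)

lemma const (hE : Encloses p S) {u u' : ℤ × ℤ} (hf : Free p u) (h1 : |u'.1 - u.1| ≤ 1)
    (h2 : |u'.2 - u.2| ≤ 1) : (u', false) ∈ S ↔ (u, false) ∈ S := by
  obtain ⟨x, y⟩ := u
  obtain ⟨x', y'⟩ := u'
  simp only [Free, abs_le] at hf h1 h2
  have hx : ((x', y'), false) ∈ S ↔ ((x, y'), false) ∈ S := by
    have h : x' = x - 1 ∨ x' = x ∨ x' = x + 1 := by omega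
    rcases h with rfl | rfl | rfl
    · have := sth hE (x := x - 1) (y := y') (hf _ _ (by constructor <;> omega)
        (by constructor <;> omega))
      rwa [sub_add_cancel] at this
    · rfl
    · exact (sth hE (x := x) (y := y') (hf _ _ (by constructor <;> omega)
        (by constructor <;> omega))).symm
  have hy : ((x, y'), false) ∈ S ↔ ((x, y), false) ∈ S := by
    have h : y' = y - 1 ∨ y' = y ∨ y' = y + 1 := by omega
    rcases h with rfl | rfl | rfl
    · have := stv hE (x := x) (y := y - 1) (hf _ _ (by constructor <;> omega)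
        (by constructor <;> omega)) (hf _ _ (by constructor <;> omega) (by constructor <;> omega))
      rwa [sub_add_cancel] at this
    · rfl
    · exact (stv hE (x := x) (y := y) (hf _ _ (by constructor <;> omega)
        (by constructor <;> omega)) (hf _ _ (by constructor <;> omega)
        (by constructor <;> omega))).symm
  exact hx.trans hy

lemma start (hE : Encloses p S) {v : ℤ × ℤ} (hf : Free p v) (hv : v ∈ verts S) :
    (v, false) ∈ S := by
  simp only [verts, mem_biUnion] at hv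
  obtain ⟨⟨u, b⟩, ht, hv⟩ := hv
  cases b with
  | false =>
    refine (const hE hf (u' := u) ?_ ?_).1 ht
    all_goals
      simp only [corners, Bool.false_eq_true, if_false, Finset.mem_insert,
        Finset.mem_singleton] at hv
      rcases hv with rfl | rfl | rfl <;> simp
  | true =>
    have h0 : (u, false) ∈ S := by
      refine (st0 hE (x := u.1) (y := u.2) ?_).2 ht
      refine hf _ _ ?_ ?_
      all_goals
        simp only [corners, if_true, Finset.mem_insert, Finset.mem_singleton] at hv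
        rcases hv with rfl | rfl | rfl <;> simp
    refine (const hE hf (u' := u) ?_ ?_).1 h0
    all_goals
      simp only [corners, if_true, Finset.mem_insert, Finset.mem_singleton] at hv
      rcases hv with rfl | rfl | rfl <;> simp

/-- An unbounded path which stays away from the polygon starts outside. -/
lemma outside (hE : Encloses p S) {δ : ℝ} (hδ : 0 < δ) {γ : ℝ → ℝ × ℝ} (hγ : Continuous γ)
    (hfar : ∀ c, 1 ≤ c → ∀ i, 5 * δ < dist (γ c) (dp δ (p i)))
    (hub : ¬ Bornology.IsBounded (γ '' Set.Ici 1)) : (fl δ (γ 1), false) ∉ S := by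
  intro hcon
  classical
  have hfree : ∀ c, 1 ≤ c → Free p (fl δ (γ c)) := by
    intro c hc x y hx hy i hi
    have h1 := near_fl hδ (z := γ c) (v := (x, y)) hx hy
    have h2 := hfar c hc i
    rw [hi] at h2
    linarith only [h1, h2]
  have hco : ContinuousOn (fun c => decide ((fl δ (γ c), false) ∈ S)) (Set.Ici 1) := by
    intro c hc
    have h1 : ∀ᶠ c' in 𝓝[Set.Ici 1] c, dist (γ c') (γ c) < δ / 4 :=
      (hγ.continuousAt.mono_left nhdsWithin_le_nhds).eventually
        (Metric.ball_mem_nhds _ (by positivity))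
    refine tendsto_nhds_of_eventually_eq ?_
    filter_upwards [h1] with c' h2
    obtain ⟨h3, h4⟩ := fl_close hδ h2
    exact decide_eq_decide.2 (const hE (hfree c hc) h3 h4)
  have hall : ∀ c, 1 ≤ c → (fl δ (γ c), false) ∈ S := by
    intro c hc
    have h := isPreconnected_Ici.constant hco (Set.mem_Ici.2 hc) Set.self_mem_Ici
    simpa [hcon] using h
  refine hub ?_
  have hb : Bornology.IsBounded (⋃ t ∈ S, Metric.closedBall (dp δ t.1) (5 * δ)) :=
    (Bornology.isBounded_biUnion_finset S).2 fun t _ => Metric.isBounded_closedBall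
  refine hb.subset ?_
  rintro _ ⟨c, hc, rfl⟩
  refine Set.mem_biUnion (hall c hc) ?_
  rw [Metric.mem_closedBall]
  exact near_fl hδ (by simp only [sub_self, abs_zero, Nat.ofNat_nonneg]) (by simp only [sub_self, abs_zero, Nat.ofNat_nonneg])

end Disc

/-! ### Rays -/

/-- The open unit disc. -/
def dsc : Set (ℝ × ℝ) := {z | z.1 ^ 2 + z.2 ^ 2 < 1}

lemma closed_disc (Φ : (ℝ × ℝ) ≃ₜ (ℝ × ℝ)) {s : ℝ} (hs : 0 < s) {w : ℝ × ℝ}
    (hw : w.1 ^ 2 + w.2 ^ 2 ≤ 1) : Φ w ∈ Metric.thickening s (Φ '' dsc) := by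
  have hc : Continuous fun c : ℝ => Φ (c • w) :=
    Φ.continuous.comp (continuous_id.smul continuous_const)
  obtain ⟨η, hη, h⟩ := Metric.continuousAt_iff.1 (hc.continuousAt (x := 1)) s hs
  set c : ℝ := 1 - min (η / 2) (1 / 2) with hcdef
  have h0 : 0 < min (η / 2) (1 / 2) := lt_min (by (clear * - hη; positivity)) (by norm_num)
  have h1 : min (η / 2) (1 / 2) ≤ η / 2 := min_le_left _ _
  have h2 : min (η / 2) (1 / 2) ≤ 1 / 2 := min_le_right _ _
  have h3 := h (x := c) (by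
    rw [Real.dist_eq, hcdef, abs_lt]; constructor <;> linarith only [h0, h1])
  simp only [one_smul] at h3
  rw [Metric.mem_thickening_iff]
  refine ⟨Φ (c • w), ⟨c • w, ?_, rfl⟩, by rwa [dist_comm]⟩
  simp only [dsc, Set.mem_ofPred_eq, Prod.smul_fst, Prod.smul_snd, smul_eq_mul]
  have h4 : c < 1 := by linarith only [h0]
  have h5 : 0 < c := by linarith only [h2]
  have h6 : c ^ 2 < 1 := by nlinarith only [h0, h2]
  nlinarith only [h6, hw]

lemma bdd_disc (r : ℝ) : Bornology.IsBounded {w : ℝ × ℝ | w.1 ^ 2 + w.2 ^ 2 ≤ r} := by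
  refine (Metric.isBounded_closedBall (x := (0 : ℝ × ℝ)) (r := r + 1)).subset ?_
  intro w hw
  simp only [Set.mem_ofPred_eq] at hw
  rw [mem_closedBall_zero_iff, Prod.norm_def, Real.norm_eq_abs, Real.norm_eq_abs]
  refine max_le (abs_le.2 ⟨?_, ?_⟩) (abs_le.2 ⟨?_, ?_⟩) <;>
    nlinarith only [hw]

lemma ray (Φ : (ℝ × ℝ) ≃ₜ (ℝ × ℝ)) {s : ℝ} (hs : 0 < s) :
    ∃ ε : ℝ, 0 < ε ∧ ∀ z, z ∉ Metric.thickening s (Φ '' dsc) → ∃ γ : ℝ → ℝ × ℝ, Continuous γ ∧
      γ 1 = z ∧ (∀ c, 1 ≤ c → ∀ y ∈ Φ '' dsc, ε ≤ dist (γ c) y) ∧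
      ¬ Bornology.IsBounded (γ '' Set.Ici 1) := by
  have hqc : Continuous fun w : ℝ × ℝ => w.1 ^ 2 + w.2 ^ 2 := by (clear * -; fun_prop)
  have hm : ∃ m : ℝ, 1 < m ∧ ∀ w, Φ w ∉ Metric.thickening s (Φ '' dsc) →
      m ≤ w.1 ^ 2 + w.2 ^ 2 := by
    set K : Set (ℝ × ℝ) := {w | w.1 ^ 2 + w.2 ^ 2 ≤ 2} ∩
      Φ ⁻¹' (Metric.thickening s (Φ '' dsc))ᶜ with hK
    have hKc : IsCompact K := by
      refine Metric.isCompact_of_isClosed_isBounded ?_ ((bdd_disc 2).subset Set.inter_subset_left)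
      exact (isClosed_le hqc continuous_const).inter
        (Metric.isOpen_thickening.isClosed_compl.preimage Φ.continuous)
    rcases K.eq_empty_or_nonempty with h0 | h0
    · refine ⟨2, by norm_num, fun w hw => ?_⟩
      by_contra hlt
      have : w ∈ K := ⟨(not_le.1 hlt).le, hw⟩
      rw [h0] at this
      exact this
    · obtain ⟨w0, hw0, hmin⟩ := hKc.exists_isMinOn h0 hqc.continuousOn
      have h1 : 1 < w0.1 ^ 2 + w0.2 ^ 2 := by
        by_contra hle
        exact hw0.2 (closed_disc Φ hs (not_lt.1 hle))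
      refine ⟨min (w0.1 ^ 2 + w0.2 ^ 2) 2, lt_min h1 (by norm_num), fun w hw => ?_⟩
      by_cases h2 : w.1 ^ 2 + w.2 ^ 2 ≤ 2
      · exact (min_le_left _ _).trans (hmin ⟨h2, hw⟩)
      · exact (min_le_right _ _).trans (not_le.1 h2).le
  obtain ⟨m, hm1, hm⟩ := hm
  have hL : IsCompact (Φ '' {w | w.1 ^ 2 + w.2 ^ 2 ≤ 1}) :=
    (Metric.isCompact_of_isClosed_isBounded (isClosed_le hqc continuous_const) (bdd_disc 1)).image
      Φ.continuous
  have hC : IsClosed (Φ '' {w | m ≤ w.1 ^ 2 + w.2 ^ 2}) :=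
    Φ.isClosedMap _ (isClosed_le continuous_const hqc)
  have hdis : Disjoint (Φ '' {w : ℝ × ℝ | w.1 ^ 2 + w.2 ^ 2 ≤ 1})
      (Φ '' {w | m ≤ w.1 ^ 2 + w.2 ^ 2}) := by
    rw [Set.disjoint_image_iff Φ.injective, Set.disjoint_left]
    intro w h1 h2
    simp only [Set.mem_ofPred_eq] at h1 h2
    linarith
  obtain ⟨ε, hε, hεd⟩ := hdis.exists_thickenings hL hC
  refine ⟨ε, hε, fun z hz => ?_⟩
  set w : ℝ × ℝ := Φ.symm z with hw
  have hwz : Φ w = z := Φ.apply_symm_apply z
  have hwm : m ≤ w.1 ^ 2 + w.2 ^ 2 := hm w (by rwa [hwz])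
  refine ⟨fun c => Φ (c • w), Φ.continuous.comp (continuous_id.smul continuous_const),
    by simpa using hwz, ?_, ?_⟩
  · intro c hc y hy
    by_contra hlt
    rw [not_le] at hlt
    obtain ⟨y0, hy0, rfl⟩ := hy
    have h1 : Φ y0 ∈ Φ '' {w | w.1 ^ 2 + w.2 ^ 2 ≤ 1} := by
      refine ⟨y0, ?_, rfl⟩
      have h0 : y0.1 ^ 2 + y0.2 ^ 2 < 1 := hy0
      exact h0.le
    have h2 : Φ (c • w) ∈ Φ '' {w | m ≤ w.1 ^ 2 + w.2 ^ 2} := by
      refine ⟨c • w, ?_, rfl⟩
      simp only [Set.mem_ofPred_eq, Prod.smul_fst, Prod.smul_snd, smul_eq_mul]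
      have h3 : 1 ≤ c ^ 2 := by nlinarith only [hc]
      have h4 : (c * w.1) ^ 2 + (c * w.2) ^ 2 = c ^ 2 * (w.1 ^ 2 + w.2 ^ 2) := by ring
      rw [h4]
      nlinarith only [hwm, h3]
    refine Set.disjoint_left.1 hεd (Metric.self_subset_thickening hε _ h1) ?_
    rw [Metric.mem_thickening_iff]
    exact ⟨_, h2, by rwa [dist_comm] at hlt⟩
  · intro hb
    have h1 : Bornology.IsBounded (Φ.symm '' closure ((fun c : ℝ => Φ (c • w)) '' Set.Ici 1)) :=
      (hb.isCompact_closure.image Φ.symm.continuous).isBounded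
    obtain ⟨R, hR⟩ := h1.exists_norm_le
    have hw0 : 0 < ‖w‖ := by
      rw [norm_pos_iff]
      rintro h0
      rw [h0] at hwm
      simp only [Prod.fst_zero, Prod.snd_zero] at hwm
      norm_num at hwm
      linarith
    set c : ℝ := max 1 ((R + 1) / ‖w‖) with hc
    have hc1 : 1 ≤ c := le_max_left _ _
    have hc2 : (R + 1) / ‖w‖ ≤ c := le_max_right _ _
    have h2 := hR (c • w) ⟨Φ (c • w), subset_closure ⟨c, hc1, rfl⟩, Φ.symm_apply_apply _⟩
    rw [norm_smul, Real.norm_of_nonneg (by linarith only [hc1])] at h2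
    rw [div_le_iff₀ hw0] at hc2
    linarith

lemma mem_Vs {δ : ℝ} (hδ : 0 < δ) {D : Set (ℝ × ℝ)} (hb : Bornology.IsBounded D) {v : ℤ × ℤ}
    (h : Metric.closedBall (dp δ v) (2 * δ) ⊆ D) : v ∈ Vs δ D := by
  have hfin : {v : ℤ × ℤ | Metric.closedBall (dp δ v) (2 * δ) ⊆ D}.Finite := by
    obtain ⟨R, hR⟩ := hb.exists_norm_le
    set M : ℤ := ⌈2 * R / δ⌉ with hM
    have hM' : 2 * R ≤ δ * M := by
      have := Int.le_ceil (2 * R / δ)
      rw [div_le_iff₀ hδ] at this
      linarith only [this]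
    refine (Set.finite_Icc ((-M, -M) : ℤ × ℤ) (M, M)).subset ?_
    intro u hu
    have h1 := hR _ (hu (Metric.mem_closedBall_self (by positivity)))
    rw [Prod.norm_def, max_le_iff, Real.norm_eq_abs, Real.norm_eq_abs, abs_le, abs_le] at h1
    simp only [dp] at h1
    obtain ⟨⟨h2, h3⟩, h4, h5⟩ := h1
    have h6 := s3
    have h7 : |δ * (u.2 : ℝ)| ≤ 2 * R := by
      have h8 : |δ * (√3 / 2 * (u.2 : ℝ))| ≤ R := abs_le.2 ⟨h4, h5⟩
      have h9 : δ * (√3 / 2 * (u.2 : ℝ)) = √3 / 2 * (δ * u.2) := by ring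
      rw [h9, abs_mul, abs_of_pos (by positivity : (0 : ℝ) < √3 / 2)] at h8
      nlinarith only [h8, h2, h6, h3]
    rw [abs_le] at h7
    have k : ∀ a : ℤ, δ * (a : ℝ) ≤ 2 * R → a ≤ M := by
      intro a ha
      have : δ * (a : ℝ) ≤ δ * M := ha.trans hM'
      exact_mod_cast le_of_mul_le_mul_left this hδ
    have k' : ∀ a : ℤ, -(2 * R) ≤ δ * (a : ℝ) → -M ≤ a := by
      intro a ha
      have : δ * ((-M : ℤ) : ℝ) ≤ δ * a := by push_cast; linarith only [hM', ha]
      exact_mod_cast le_of_mul_le_mul_left this hδ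
    have e : δ * ((u.1 : ℝ) + u.2 / 2) = δ * u.1 + δ * u.2 / 2 := by ring
    rw [e] at h2 h3
    refine ⟨⟨k' _ ?_, k' _ ?_⟩, ⟨k _ ?_, k _ ?_⟩⟩ <;> linarith only [h2, h7, h3]
  rw [Vs, dif_pos hfin, Set.Finite.mem_toFinset]
  exact h

end OutI

open OutI in
theorem s_out : S_out := by
  intro D δ N p S hJ h D' hD' hb hcl
  obtain ⟨Φ, hΦ⟩ := hJ
  have hD : D = Φ '' dsc := hΦ
  have hDc : IsCompact (closure D) := by
    refine Bornology.IsBounded.isCompact_closure ?_
    exact hb.subset (subset_closure.trans hcl)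
  obtain ⟨r, hr, hrD⟩ := hDc.exists_thickening_subset_open hD' hcl
  obtain ⟨ε, hε, hray⟩ := ray Φ (s := r / 2) (by (clear * - hr; positivity))
  have h1 := h.near (ε / 2) (by positivity)
  have h2 : ∀ᶠ n in atTop, δ n < min (ε / 12) (r / 8) :=
    h.lim.eventually_lt_const (lt_min (by positivity) (by positivity))
  filter_upwards [h1, h2] with n h3 h4 v hv
  have hδ := h.pos n
  have h5 : δ n < ε / 12 := h4.trans_le (min_le_left _ _)
  have h6 : δ n < r / 8 := h4.trans_le (min_le_right _ _)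
  simp only [inner, Finset.mem_filter] at hv
  by_cases hz : dp (δ n) v ∈ Metric.thickening (r / 2) (Φ '' dsc)
  · refine OutI.mem_Vs hδ hb ?_
    intro y hy
    refine hrD ?_
    rw [Metric.mem_closedBall] at hy
    rw [← hD, Metric.mem_thickening_iff] at hz
    obtain ⟨x, hx, hxz⟩ := hz
    rw [Metric.mem_thickening_iff]
    refine ⟨x, subset_closure hx, ?_⟩
    have := dist_triangle y (dp (δ n) v) x
    linarith only [hδ, h6, hy, hxz, this]
  · exfalso
    obtain ⟨γ, hγ, hγ1, hγd, hub⟩ := hray _ hz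
    have hfar : ∀ c, 1 ≤ c → ∀ i, 5 * δ n < dist (γ c) (dp (δ n) (p n i)) := by
      intro c hc i
      obtain ⟨y, hy, hyd⟩ := h3 i
      rw [hD] at hy
      have h7 := hγd c hc y hy
      have h8 := dist_triangle (γ c) (dp (δ n) (p n i)) y
      rw [smul_pt] at hyd
      linarith
    refine outside (h.encl n) hδ hγ hfar hub ?_
    rw [hγ1, fl_dp hδ]
    refine start (h.encl n) ?_ hv.1
    intro x y hx hy i hi
    have h7 := near_fl hδ (z := γ 1) (v := (x, y)) (by rw [hγ1, fl_dp hδ]; exact hx)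
      (by rw [hγ1, fl_dp hδ]; exact hy)
    have h8 := hfar 1 le_rfl i
    rw [hi] at h8
    linarith only [h7, h8]

end Vale.Agent.P153.F.Dom
end

section

/-!
P153-F, leaf D4: the field `fld` versus sums over the lattice.
-/

namespace Vale.Agent.P153.F.Dom

open Finset Filter Topology MeasureTheory
open Vale.Agent.P153.F.Top Vale.Agent.P145.PT

/-- Constants of a test function. -/
theorem fd930_csts {D : Set (ℝ × ℝ)} {f : ℝ × ℝ → ℝ} (hf : TestOn D f) : ∃ K, GFF.Csts f K := by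
  obtain ⟨h1, h2, -⟩ := hf
  have hc : Continuous f := h1.continuous
  obtain ⟨B, hB⟩ := hc.bounded_above_of_compact_support h2
  obtain ⟨C, hC⟩ := h1.lipschitzWith_of_hasCompactSupport h2 (by simp)
  obtain ⟨M, hM0, hM⟩ := GFF.second_diff (by exact_mod_cast contDiff_infty.1 h1 2) h2
  obtain ⟨R, hR⟩ := h2.isCompact.isBounded.subset_closedBall (0 : ℝ × ℝ)
  have hBn : 0 ≤ B := (norm_nonneg _).trans (hB 0)
  have hCn : (0 : ℝ) ≤ C := C.2
  refine ⟨1 + |R| + B + C + M, by positivity, hc, h2, ?_, ?_, ?_, ?_⟩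
  · intro z hz
    by_contra hne
    have h4 : z ∈ tsupport f := subset_tsupport _ hne
    have h5 := hR h4
    rw [mem_closedBall_zero_iff, Prod.norm_def, sup_le_iff, Real.norm_eq_abs, Real.norm_eq_abs] at h5
    have := le_abs_self R
    rcases hz with h | h <;> linarith [h5.1, h5.2]
  · intro z
    have := hB z
    rw [Real.norm_eq_abs] at this
    have := abs_nonneg R
    linarith
  · intro x y
    have h4 := hC.dist_le_mul x y
    rw [Real.dist_eq, dist_eq_norm] at h4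
    refine h4.trans (mul_le_mul_of_nonneg_right ?_ (norm_nonneg _))
    have := abs_nonneg R
    linarith
  · intro x y
    refine (hM x y).trans (mul_le_mul_of_nonneg_right ?_ (by positivity))
    have := abs_nonneg R
    linarith

theorem fd930_dp (δ : ℝ) (v : ℤ × ℤ) : dp δ v = δ • GFF.pos v := by
  unfold dp GFF.pos
  rw [Prod.smul_mk, smul_eq_mul, smul_eq_mul, mul_comm (√3 / 2)]

/-- Membership in `Vs`. -/
theorem fd930_mem {δ : ℝ} (hδ : 0 < δ) {D : Set (ℝ × ℝ)} (hD : Bornology.IsBounded D) {v : ℤ × ℤ}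
    (hv : Metric.closedBall (dp δ v) (2 * δ) ⊆ D) : v ∈ Vs δ D := by
  obtain ⟨M, hM⟩ := hD.subset_closedBall (0 : ℝ × ℝ)
  have hfin : {v : ℤ × ℤ | Metric.closedBall (dp δ v) (2 * δ) ⊆ D}.Finite := by
    refine (Finset.finite_toSet ((Finset.Icc (-⌈2 * |M| / δ⌉) ⌈2 * |M| / δ⌉) ×ˢ
      (Finset.Icc (-⌈2 * |M| / δ⌉) ⌈2 * |M| / δ⌉))).subset fun u hu => ?_
    have h1 : dp δ u ∈ Metric.closedBall (0 : ℝ × ℝ) M :=
      hM (hu (Metric.mem_closedBall_self (by positivity)))
    rw [mem_closedBall_zero_iff, Prod.norm_def, sup_le_iff, Real.norm_eq_abs, Real.norm_eq_abs] at h1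
    obtain ⟨h2, h3⟩ := h1
    unfold dp at h2 h3
    simp only at h2 h3
    rw [abs_mul, abs_of_pos hδ] at h2 h3
    have hMM := le_abs_self M
    have h5 : (1 : ℝ) ≤ √3 := by
      rw [Real.one_le_sqrt]
      norm_num
    have h4 : |(u.2 : ℝ)| ≤ 2 * |M| / δ := by
      rw [le_div_iff₀ hδ]
      rw [abs_mul, abs_of_pos (by positivity : (0 : ℝ) < √3 / 2)] at h3
      have h6 : 0 ≤ δ * |(u.2 : ℝ)| := by positivity
      nlinarith
    have h7 : |(u.1 : ℝ)| ≤ 2 * |M| / δ := by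
      have h8 : |(u.1 : ℝ) + u.2 / 2| ≤ |M| / δ := by
        rw [le_div_iff₀ hδ]
        linarith
      have h9 : |(u.1 : ℝ)| ≤ |(u.1 : ℝ) + u.2 / 2| + |(u.2 : ℝ) / 2| := by
        have := abs_sub ((u.1 : ℝ) + u.2 / 2) ((u.2 : ℝ) / 2)
        rw [add_sub_cancel_right] at this
        exact this
      rw [abs_div, abs_of_pos (by norm_num : (0 : ℝ) < 2)] at h9
      have h10 : 2 * |M| / δ = |M| / δ + |M| / δ := by ring
      have h11 : |(u.2 : ℝ)| / 2 ≤ |M| / δ := by
        rw [h10] at h4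
        linarith
      linarith
    have hc := Int.le_ceil (2 * |M| / δ)
    rw [abs_le] at h4 h7
    rw [Finset.mem_coe, Finset.mem_product, Finset.mem_Icc, Finset.mem_Icc]
    refine ⟨⟨?_, ?_⟩, ?_, ?_⟩
    · have : (-(⌈2 * |M| / δ⌉ : ℝ)) ≤ u.1 := by linarith
      exact_mod_cast this
    · have : (u.1 : ℝ) ≤ ⌈2 * |M| / δ⌉ := by linarith
      exact_mod_cast this
    · have : (-(⌈2 * |M| / δ⌉ : ℝ)) ≤ u.2 := by linarith
      exact_mod_cast this
    · have : (u.2 : ℝ) ≤ ⌈2 * |M| / δ⌉ := by linarith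
      exact_mod_cast this
  unfold Vs
  rw [dif_pos hfin, Set.Finite.mem_toFinset]
  exact hv

theorem fd930_ball {φ : ℝ × ℝ → ℝ} {δ r : ℝ} (h4 : 4 * δ ≤ r) {v : ℤ × ℤ} {z : ℝ × ℝ}
    (hz : z ∈ tsupport φ) (hd : dist (dp δ v) z ≤ 2 * δ) :
    Metric.closedBall (dp δ v) (2 * δ) ⊆ Metric.cthickening r (tsupport φ) := by
  intro x hx
  refine Metric.mem_cthickening_of_dist_le x z r _ hz ?_
  have h1 := dist_triangle x (dp δ v) z
  rw [Metric.mem_closedBall] at hx
  linarith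

theorem fd930_wt {φ : ℝ × ℝ → ℝ} {δ : ℝ} (hδ : 0 < δ) {v : ℤ × ℤ} (h : GFF.wt δ φ v ≠ 0) :
    ∃ z ∈ tsupport φ, dist (dp δ v) z ≤ 2 * δ := by
  obtain ⟨u, hu⟩ : ∃ u : ℝ × ℝ, GFF.ker u * φ (δ • (u + GFF.pos v)) ≠ 0 := by
    by_contra hn
    push Not at hn
    refine h ?_
    unfold GFF.wt
    simp_rw [hn]
    simp
  have hk : GFF.ker u ≠ 0 := left_ne_zero_of_mul hu
  have hf : φ (δ • (u + GFF.pos v)) ≠ 0 := right_ne_zero_of_mul hu
  have h1 : ¬(2 < |u.1| ∨ 1 < |u.2|) := fun h => hk (GFF.ker_eq_zero h)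
  rw [not_or, not_lt, not_lt] at h1
  refine ⟨_, subset_tsupport _ hf, ?_⟩
  rw [fd930_dp, dist_eq_norm, ← smul_sub, sub_add_cancel_right, smul_neg, norm_neg, norm_smul,
    Real.norm_eq_abs, abs_of_pos hδ, mul_comm]
  refine mul_le_mul_of_nonneg_right ?_ hδ.le
  rw [Prod.norm_def, sup_le_iff, Real.norm_eq_abs, Real.norm_eq_abs]
  exact ⟨h1.1, by linarith [h1.2]⟩

/-- Leaf D4 for open domains. -/
def S_fldO : Prop := ∀ D : Set (ℝ × ℝ), IsOpen D → ∀ (δ : ℕ → ℝ) (N : ℕ → ℕ) (p : ∀ n, ZMod (N n) → ℤ × ℤ)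
  (S : ℕ → Finset ((ℤ × ℤ) × Bool)), Approx D δ N p S → ∀ φ : ℝ × ℝ → ℝ, TestOn D φ →
    ∃ (C : ℝ) (K : Set (ℝ × ℝ)) (w : ℕ → ℤ × ℤ → ℝ), IsCompact K ∧ K ⊆ D ∧ ∀ᶠ n in atTop,
      (∀ v, w n v ≠ 0 → v ∈ inner (p n) (S n) ∧ dp (δ n) v ∈ K) ∧
      (∀ v, |w n v - δ n ^ 2 * tl φ (δ n * v.1, δ n * v.2)| ≤ C * δ n ^ 3) ∧
      (∀ v, φ (dp (δ n) v) ≠ 0 → v ∈ inner (p n) (S n)) ∧
      ∀ h : ℤ × ℤ → ℤ, fld (S n) (δ n) φ h = ∑ v ∈ inner (p n) (S n), w n v * (h v : ℝ)

/-- Leaf D4 from leaf D2. -/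
theorem s_fld_of (hin : S_in) : S_fldO := by
  intro D hD δ N p S hA φ hφ
  obtain ⟨K, hK⟩ := fd930_csts hφ
  obtain ⟨r, hr, hrD⟩ := (hK.supp.isCompact).exists_cthickening_subset_open hD hφ.2.2
  have hbd : Bornology.IsBounded (Metric.cthickening r (tsupport φ)) :=
    (hK.supp.isCompact.isBounded).cthickening
  have hin' := hin D δ N p S hA (Metric.cthickening r (tsupport φ)) hbd
    (by rw [Metric.isClosed_cthickening.closure_eq]; exact hrD)
  have hreg := hA.cpt (tsupport φ) hφ.2.2 hK.supp.isCompact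
  have hsm : ∀ᶠ n in atTop, δ n < r / 4 := hA.lim.eventually_lt_const (by positivity)
  refine ⟨2 * K, Metric.cthickening r (tsupport φ), fun n v => GFF.wt (δ n) φ v,
    hK.supp.isCompact.cthickening, hrD, ?_⟩
  filter_upwards [hin', hreg, hsm] with n h1 h2 h3
  have hδ := hA.pos n
  have h4 : 4 * δ n ≤ r := by linarith
  have hsup : ∀ v, GFF.wt (δ n) φ v ≠ 0 → v ∈ inner (p n) (S n) ∧
      dp (δ n) v ∈ Metric.cthickening r (tsupport φ) := by
    intro v hv
    obtain ⟨z, hz, hd⟩ := fd930_wt hδ hv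
    have h5 := fd930_ball h4 hz hd
    exact ⟨h1 (fd930_mem hδ hbd h5), h5 (Metric.mem_closedBall_self (by positivity))⟩
  refine ⟨hsup, ?_, ?_, ?_⟩
  · intro v
    have h5 := GFF.wt_close hK hδ v (dp (δ n) v) 0 (by rw [fd930_dp, sub_self, norm_zero])
    rw [add_zero] at h5
    have h6 : tl φ (δ n * v.1, δ n * v.2) = √3 / 2 * φ (dp (δ n) v) := by
      unfold tl dp
      congr 2
      refine Prod.ext ?_ ?_
      · show δ n * (v.1 : ℝ) + δ n * v.2 / 2 = δ n * (v.1 + v.2 / 2)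
        ring
      · show √3 / 2 * (δ n * (v.2 : ℝ)) = δ n * (√3 / 2 * v.2)
        ring
    rw [h6]
    have h7 : GFF.wt (δ n) φ v - δ n ^ 2 * (√3 / 2 * φ (dp (δ n) v)) =
        δ n ^ 2 * (GFF.wt (δ n) φ v / δ n ^ 2 - √3 / 2 * φ (dp (δ n) v)) := by
      rw [mul_sub, mul_div_cancel₀ _ (by positivity)]
    rw [h7, abs_mul, abs_of_pos (by positivity : (0 : ℝ) < δ n ^ 2)]
    refine (mul_le_mul_of_nonneg_left h5 (by positivity)).trans (le_of_eq ?_)
    ring
  · intro v hv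
    have h5 : dp (δ n) v ∈ tsupport φ := subset_tsupport _ hv
    exact h1 (fd930_mem hδ hbd (fd930_ball h4 h5 (by rw [dist_self]; positivity)))
  · intro h
    have h5 : fld (S n) (δ n) φ h = GFF.smear h (δ n) φ := by
      unfold fld GFF.smear
      congr 1
      funext z
      by_cases hz : φ z = 0
      · rw [hz, mul_zero, mul_zero]
      · rw [if_pos (h2 (subset_tsupport _ hz))]
    rw [h5, GFF.smear_eq_sum hδ hK.pos.le hK.cont hK.supp hK.zero h]
    have e1 : ∑ v ∈ GFF.box (δ n) K, (h v : ℝ) * GFF.wt (δ n) φ v =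
        ∑ v ∈ GFF.box (δ n) K ∪ inner (p n) (S n), (h v : ℝ) * GFF.wt (δ n) φ v := by
      refine Finset.sum_subset Finset.subset_union_left fun v _ hv => ?_
      rw [GFF.wt_zero_of_box hδ hK.pos.le hK.zero hv, mul_zero]
    have e2 : ∑ v ∈ inner (p n) (S n), GFF.wt (δ n) φ v * (h v : ℝ) =
        ∑ v ∈ GFF.box (δ n) K ∪ inner (p n) (S n), (h v : ℝ) * GFF.wt (δ n) φ v := by
      have e3 : ∑ v ∈ inner (p n) (S n), GFF.wt (δ n) φ v * (h v : ℝ) =
          ∑ v ∈ inner (p n) (S n), (h v : ℝ) * GFF.wt (δ n) φ v :=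
        Finset.sum_congr rfl fun v _ => mul_comm _ _
      rw [e3]
      refine Finset.sum_subset Finset.subset_union_right fun v _ hv => ?_
      have : GFF.wt (δ n) φ v = 0 := by
        by_contra hne
        exact hv (hsup v hne).1
      rw [this, mul_zero]
    rw [e1, e2]

/-- Leaf D4 for open domains. -/
theorem s_fldO : S_fldO := s_fld_of s_in

end Vale.Agent.P153.F.Dom
end
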