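import Mathlib
import Vale.Agent.P153.Bd5.B1
import Vale.Agent.P153.Bd5.B13
import Vale.Agent.P153.Bd5.B20
import Vale.Agent.P153.Bd5.B9
import Vale.Agent.P153.Bd5.B5
import Vale.Agent.P153.Bd5.B16
import Vale.Agent.P153.Bd5.B19
import Vale.Agent.P153.Bd5.B15
import Vale.Agent.P153.Bd5.B10
import Vale.Agent.P153.Bd5.B21

set_option linter.all false

section

/-!
P153, product Schwinger-Dyson: symmetries and reflection positivity of the height law of the plane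
measure, and the legs in the six directions of the triangular lattice.
-/

namespace Vale.Agent.P153.F.SD

open Finset Filter Topology MeasureTheory

variable {P : Measure Fld}

/-- the height law is invariant under `pb g` -/
def Sy (P : Measure Fld) (g : ℤ × ℤ → ℤ × ℤ) : Prop := (mu0 P).map (pb g) = mu0 P

theorem Sy.comp {g g' : ℤ × ℤ → ℤ × ℤ} (h : Sy P g) (h' : Sy P g') :
    Sy P (fun q => g (g' q)) := by
  have e : pb (fun q => g (g' q)) = pb g' ∘ pb g := rfl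
  unfold Sy at *
  rw [e, ← Measure.map_map (measurable_pb _) (measurable_pb _), h, h']

theorem Sy.of_grad {g : ℤ × ℤ → ℤ × ℤ} (hg : P.map (fun φ x => φ (g x) - φ (g 0)) = P) :
    Sy P g := by
  have hgm : Measurable (fun (φ : Fld) (x : ℤ × ℤ) => φ (g x) - φ (g 0)) :=
    measurable_pi_lambda _ fun x => (measurable_pi_apply _).sub (measurable_pi_apply _)
  refine Measure.ext_of_lintegral _ fun f hf => ?_
  rw [lintegral_map hf (measurable_pb g)]
  have e0 := lintegral_mu0 (P := P) (F := fun h => f (pb g h)) (hf.comp (measurable_pb g))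
  rw [e0, lintegral_mu0 hf]
  have hm : Measurable fun ω : Fld => ∑' k : ℤ, f (fun q => pth ω q + 2 * k) :=
    Measurable.ennreal_tsum fun k => hf.comp (measurable_hk k)
  conv_rhs => rw [← hg]
  rw [lintegral_map hm hgm]
  refine lintegral_congr fun ω => ?_
  rw [← (Equiv.addRight (ω (g 0))).tsum_eq (fun k : ℤ => f (fun q =>
    pth (fun x => ω (g x) - ω (g 0)) q + 2 * k))]
  refine tsum_congr fun k => ?_
  congr 1
  funext q
  simp only [pb, pth, Equiv.coe_addRight]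
  ring

theorem Sy.of_lin {g : ℤ × ℤ → ℤ × ℤ} (hz : ∀ᵐ φ ∂P, φ 0 = 0) (h0 : g 0 = 0)
    (hg : P.map (fun φ x => φ (g x)) = P) : Sy P g := by
  apply Sy.of_grad
  conv_rhs => rw [← hg]
  refine Measure.map_congr ?_
  filter_upwards [hz] with φ hφ
  funext x
  rw [h0, hφ, sub_zero]

theorem sy_shift (hP : GFF.Plane P) (a : ℤ × ℤ) : Sy P (fun q => q + a) := by
  apply Sy.of_grad
  have e : (fun (φ : Fld) (x : ℤ × ℤ) => φ (x + a) - φ (0 + a)) = GFF.shift a := by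
    funext φ x
    simp only [GFF.shift, zero_add]
  rw [e]
  exact hP.shift a

theorem sy_rot (hP : GFF.Plane P) : Sy P GFF.rot :=
  Sy.of_lin hP.zero (by simp [GFF.rot]) hP.rot

theorem sy_swap (hP : GFF.Plane P) : Sy P (fun q => (q.2, q.1)) :=
  Sy.of_lin hP.zero (by simp) hP.swap

theorem sy_dY (hP : GFF.Plane P) (m : ℤ) : Sy P (dY.θ m) := by
  have h := (sy_shift hP (-m, 2 * m)).comp ((sy_swap hP).comp (sy_rot hP))
  have e : (fun q : ℤ × ℤ => ((fun q => ((fun q : ℤ × ℤ => (q.2, q.1)) (GFF.rot q))) q) +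
      (-m, 2 * m)) = dY.θ m := by
    funext q
    ext <;> simp only [GFF.rot, Prod.mk_add_mk, dY, Int.reduceNeg] <;> ring
  rw [← e]
  exact h

theorem sy_dX (hP : GFF.Plane P) (m : ℤ) : Sy P (dX.θ m) := by
  have h := (sy_shift hP (2 * m, -m)).comp ((sy_rot hP).comp (sy_swap hP))
  have e : (fun q : ℤ × ℤ => GFF.rot ((fun q : ℤ × ℤ => (q.2, q.1)) q) + (2 * m, -m)) =
      dX.θ m := by
    funext q
    ext <;> simp only [GFF.rot, Prod.mk_add_mk, dX, Int.reduceNeg] <;> ring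
  rw [← e]
  exact h

theorem sy_dA (hP : GFF.Plane P) (m : ℤ) : Sy P (dA.θ m) := by
  have h := (sy_shift hP (m, m)).comp
    ((sy_rot hP).comp ((sy_rot hP).comp ((sy_rot hP).comp (sy_swap hP))))
  have e : (fun q : ℤ × ℤ => GFF.rot (GFF.rot (GFF.rot ((fun q : ℤ × ℤ => (q.2, q.1)) q))) +
      (m, m)) = dA.θ m := by
    funext q
    ext <;> simp only [GFF.rot, neg_add_rev, neg_add_cancel_comm_assoc, neg_add_cancel_right, Prod.mk_add_mk, dA] <;> ring
  rw [← e]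
  exact h

/-! ### directions -/

theorem good_dY : dY.Good := by
  refine ⟨?_, ?_, ?_, ?_, ?_, ?_⟩
  · intro q r; simp [dY]
  · simp [dY]
  · intro m q; simp [dY]
  · intro m q; ext <;> simp only [dY, Int.reduceNeg, sub_sub_cancel]; ring
  · intro m q; ext <;> simp only [dY, Int.reduceNeg, Prod.fst_add, Prod.snd_add, Prod.mk_sub_mk, sub_neg_eq_add] <;> ring
  · intro m q; ext <;> simp only [dY, Int.reduceNeg, Prod.mk_add_mk] <;> ring

theorem good_dX : dX.Good := by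
  refine ⟨?_, ?_, ?_, ?_, ?_, ?_⟩
  · intro q r; simp only [dX, Int.reduceNeg, Prod.fst_add]
  · simp [dX]
  · intro m q; simp only [dX, Int.reduceNeg]
  · intro m q; ext <;> simp only [dX, Int.reduceNeg, sub_sub_cancel]; ring
  · intro m q; ext <;> simp only [dX, Int.reduceNeg, Prod.fst_add, Prod.snd_add, Prod.mk_sub_mk, sub_neg_eq_add] <;> ring
  · intro m q; ext <;> simp only [dX, Int.reduceNeg, Prod.mk_add_mk] <;> ring

theorem good_dA : dA.Good := by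
  refine ⟨?_, ?_, ?_, ?_, ?_, ?_⟩
  · intro q r; simp only [dA, Prod.fst_add, Prod.snd_add]; ring
  · simp [dA]
  · intro m q; simp only [dA]; ring
  · intro m q; ext <;> simp [dA]
  · intro m q; ext <;> simp [dA] <;> ring
  · intro m q; ext <;> simp [dA] <;> ring

theorem Dir.Good.neg {D : Dir} (hD : D.Good) : D.neg.Good := by
  have hneg : ∀ q, D.l (-q) = - D.l q := by
    intro q
    have h0 : D.l 0 = 0 := by
      have := hD.l_add 0 0
      rw [add_zero] at this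
      omega
    have := hD.l_add q (-q)
    rw [add_neg_cancel, h0] at this
    omega
  refine ⟨?_, ?_, ?_, ?_, ?_, ?_⟩
  · intro q r
    show - D.l (q + r) = - D.l q + - D.l r
    rw [hD.l_add]; ring
  · show - D.l (- D.s) = 2
    rw [hneg, hD.l_s]; norm_num
  · intro m q
    show - D.l (D.θ (-m) q) = 2 * m - - D.l q
    rw [hD.l_θ]; ring
  · intro m q
    show D.θ (-m) (D.θ (-m) q) = q
    exact hD.θθ _ _
  · intro m q
    show D.θ (-m) (q + - D.s) = D.θ (-m) q - - D.s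
    have := hD.θ_s (-m) (q + - D.s)
    rw [neg_add_cancel_right] at this
    rw [this, sub_neg_eq_add, sub_add_cancel]
  · intro m q
    show D.θ (-(m + 1)) q = D.θ (-m) q + - D.s
    have := hD.θ_succ (-(m + 1)) q
    rw [show -(m + 1) + 1 = -m by ring] at this
    rw [this, add_neg_cancel_right]

/-! ### reflection positivity -/

/-- reflection positivity in one line -/
def RPm (P : Measure Fld) (D : Dir) (m : ℤ) : Prop :=
  ∀ F : Hgt → ℝ, Adm P {q | m ≤ D.l q} F → 0 ≤ ∫ h, F h * F (pb (D.θ m) h) ∂(mu0 P)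

theorem RPm.transfer {D D' : Dir} {m m' : ℤ} (h : RPm P D m) {g : ℤ × ℤ → ℤ × ℤ} (hg : Sy P g)
    (hl : ∀ q, m' ≤ D'.l q → m ≤ D.l (g q)) (hθ : ∀ q, D.θ m (g q) = g (D'.θ m' q)) :
    RPm P D' m' := by
  intro F hF
  have h1 := h (fun h => F (pb g h)) (hF.pull hl hg)
  have hm : Measurable (fun h => F h * F (pb (D'.θ m') h)) :=
    hF.measurable.mul (hF.measurable.comp (measurable_pb _))
  rw [← int_pull hg hm]
  refine le_trans h1 (le_of_eq ?_)
  congr 1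
  funext h
  have e : pb g (pb (D.θ m) h) = pb (D'.θ m') (pb g h) := by
    funext q
    show h (D.θ m (g q)) = h (g (D'.θ m' q))
    rw [hθ]
  rw [e]

theorem rpm_zero (hP : GFF.Plane P) : RPm P dY 0 := by
  intro F hF
  have hθ : Adm P Set.univ (fun h => F (pb (dY.θ 0) h)) :=
    hF.pull (fun _ _ => trivial) (sy_dY hP 0)
  have hi : Integrable (fun h => F h * F (pb (dY.θ 0) h)) (mu0 P) :=
    hF.memLp.integrable_mul hθ.memLp
  have hs := hasSum_mu0 hi
  refine hs.nonneg fun k => ?_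
  obtain ⟨C, hC⟩ := hF.bdd
  have h1 := hP.rp (fun φ => F (fun q => pth φ q + 2 * k))
    (hF.measurable.comp (measurable_hk k)) ⟨C, fun φ => hC _⟩ (by
      intro φ ψ hφ
      obtain ⟨Λ, hΛ, hloc⟩ := hF.loc
      refine hloc _ _ fun q hq => ?_
      have : (0 : ℤ) ≤ q.2 := hΛ q hq
      simp only [pth, hφ q this])
  refine le_trans h1 (le_of_eq ?_)
  congr 1
  funext φ
  congr 2
  funext q
  simp only [pb, pth, dY, GFF.th, mul_zero, zero_sub, sub_zero]

theorem rpm_dY (hP : GFF.Plane P) (m : ℤ) : RPm P dY m := by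
  refine (rpm_zero hP).transfer (g := fun q => q + (0, -m)) (sy_shift hP _) ?_ ?_
  · intro q hq
    have : m ≤ q.2 := hq
    show 0 ≤ (q + (0, -m)).2
    simp only [Prod.snd_add]
    linarith only [this]
  · intro q
    ext <;> simp only [dY, Int.reduceNeg, Prod.fst_add, add_zero, Prod.snd_add, sub_zero, mul_zero, zero_sub, neg_add_rev, neg_neg, Prod.mk_add_mk] <;> ring

theorem rpm_dA (hP : GFF.Plane P) (m : ℤ) : RPm P dA m := by
  refine (rpm_dY hP m).transfer (g := GFF.rot) (sy_rot hP) ?_ ?_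
  · intro q hq
    exact hq
  · intro q
    ext <;> simp only [dY, Int.reduceNeg, GFF.rot, neg_add_cancel_comm_assoc, dA, neg_sub] <;> ring

theorem rpm_dX (hP : GFF.Plane P) (m : ℤ) : RPm P dX m := by
  refine (rpm_dY hP m).transfer (g := fun q => GFF.rot (GFF.rot q))
    ((sy_rot hP).comp (sy_rot hP)) ?_ ?_
  · intro q hq
    have : m ≤ q.1 := hq
    show m ≤ (GFF.rot (GFF.rot q)).2
    simp only [GFF.rot]
    linarith
  · intro q
    ext <;> simp only [dY, Int.reduceNeg, GFF.rot, neg_add_rev, neg_add_cancel_comm_assoc, neg_add_cancel_right, dX, neg_sub] <;> ring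

theorem rp_neg {D : Dir} (hD : D.Good) (hI : ∀ m, Sy P (D.θ m)) (hR : ∀ m, RPm P D m) (m : ℤ) :
    RPm P D.neg m := by
  refine (hR (-m)).transfer (g := D.θ (-m)) (hI (-m)) ?_ ?_
  · intro q hq
    have : m ≤ - D.l q := hq
    rw [hD.l_θ]
    linarith
  · intro q
    rfl

/-- all legs on the triangular lattice -/
theorem legs_T (hP : GFF.Plane P) :
    (∀ a : ℤ × ℤ, (mu0 P).map (pb (fun q => q + a)) = mu0 P) ∧
    (∀ D ∈ [dX, dY, dA, dX.neg, dY.neg, dA.neg], LegLim P D) ∧ Inv P dY ∧ RP P dY := by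
  have hs : ∀ a : ℤ × ℤ, (mu0 P).map (pb (fun q => q + a)) = mu0 P := sy_shift hP
  have key : ∀ D : Dir, D.Good → (∀ m, Sy P (D.θ m)) → (∀ m, RPm P D m) →
      LegLim P D ∧ LegLim P D.neg := by
    intro D hD hI hR
    refine ⟨s_leg hD ⟨hI, hs _⟩ hR, s_leg hD.neg ⟨fun m => hI (-m), hs _⟩ (rp_neg hD hI hR)⟩
  refine ⟨hs, ?_, ⟨sy_dY hP, hs _⟩, rpm_dY hP⟩
  intro D hD
  simp only [List.mem_cons, List.not_mem_nil, or_false] at hD
  rcases hD with rfl | rfl | rfl | rfl | rfl | rfl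
  · exact (key _ good_dX (sy_dX hP) (rpm_dX hP)).1
  · exact (key _ good_dY (sy_dY hP) (rpm_dY hP)).1
  · exact (key _ good_dA (sy_dA hP) (rpm_dA hP)).1
  · exact (key _ good_dX (sy_dX hP) (rpm_dX hP)).2
  · exact (key _ good_dY (sy_dY hP) (rpm_dY hP)).2
  · exact (key _ good_dA (sy_dA hP) (rpm_dA hP)).2

end Vale.Agent.P153.F.SD
end

section

/-!
P153, product Schwinger-Dyson: product form of the null property on the triangular lattice, from
the half-plane statement by four legs.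
-/

namespace Vale.Agent.P153.F.SD

open Finset Filter Topology MeasureTheory

/-- translate of a functional -/
def sf (a : ℤ × ℤ) (F : Hgt → ℂ) : Hgt → ℂ := fun h => F (pb (fun q => q + a) h)

theorem sf_zero (F : Hgt → ℂ) : sf 0 F = F := by
  funext h
  exact congrArg F (by funext q; simp [pb])

theorem tr_sf (D : Dir) (n : ℕ) (a : ℤ × ℤ) (F : Hgt → ℂ) (h : Hgt) :
    sf a F (pb (fun q => q + n • D.s) h) = sf (a + n • D.s) F h := by
  refine congrArg F ?_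
  funext q
  show h (q + a + n • D.s) = h (q + (a + n • D.s))
  rw [add_assoc]

theorem Loc.measurableC {A : Set (ℤ × ℤ)} {F : Hgt → ℂ} (h : Loc A F) : Measurable F := by
  classical
  obtain ⟨s, -, hs⟩ := h
  let g : (s → ℤ) → ℂ := fun y => F (fun x => if hx : x ∈ s then y ⟨x, hx⟩ else 0)
  have hg : Measurable g := measurable_of_countable g
  have hF : F = g ∘ (fun h : Hgt => fun x : s => h x) := by
    funext ω
    apply hs
    intro x hx
    simp [hx]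
  rw [hF]
  exact hg.comp (measurable_pi_lambda _ fun x => measurable_pi_apply _)

variable {P : Measure (Fld)}

/-- product of an admissible functional and a bounded local one -/
theorem Adm.mulLoc {A : Set (ℤ × ℤ)} {F G : Hgt → ℂ} (hF : Adm P A F) (hG : Loc A G) {B : ℝ}
    (hB : ∀ h, ‖G h‖ ≤ B) : Adm P A (fun h => F h * G h) := by
  obtain ⟨C, hC⟩ := hF.bdd
  refine ⟨hF.loc.comp₂ hG (fun a b => a * b), ⟨C * B, fun h => ?_⟩, ?_⟩
  · rw [norm_mul]
    exact mul_le_mul (hC h) (hB h) (norm_nonneg _) ((norm_nonneg _).trans (hC h))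
  · exact hF.int.mul_bdd hG.measurableC.aestronglyMeasurable (Eventually.of_forall hB)

theorem Adm.sf {A A' : Set (ℤ × ℤ)} {F : Hgt → ℂ} (hF : Adm P A F) {a : ℤ × ℤ}
    (ha : ∀ x ∈ A, x + a ∈ A') (hm : (mu0 P).map (pb (fun q => q + a)) = mu0 P) :
    Adm P A' (sf a F) := by
  obtain ⟨C, hC⟩ := hF.bdd
  refine ⟨hF.loc.pull ha, ⟨C, fun h => hC _⟩, ?_⟩
  have := hF.int
  rw [← hm] at this
  exact this.comp_measurable (measurable_pbS _)

theorem int_norm_sf {F : Hgt → ℂ} (hF : Measurable F) {a : ℤ × ℤ}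
    (hm : (mu0 P).map (pb (fun q => q + a)) = mu0 P) :
    ∫ h, ‖sf a F h‖ ∂(mu0 P) = ∫ h, ‖F h‖ ∂(mu0 P) := by
  have := integral_map (μ := mu0 P) (measurable_pbS (fun q => q + a)).aemeasurable
    (f := fun h => ‖F h‖) hF.norm.aestronglyMeasurable
  rw [hm] at this
  exact this.symm

section gen

variable {K1 K2 K3 KQ : ℕ → Set (ℤ × ℤ)} {N : ℕ → ℕ} {Y G1 G2 G3 : ℕ → Hgt → ℂ} {B C : ℝ}

/-- the statement with groups 1, 2 translated by `N w1`, `N w2` -/
def TT (P : Measure Fld) (N : ℕ → ℕ) (Y G1 G2 G3 : ℕ → Hgt → ℂ) (w1 w2 : ℤ × ℤ) : Prop :=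
  Tendsto (fun n => ∫ h, (Y n h * G3 n h) * (sf (N n • w1) (G1 n) h * sf (N n • w2) (G2 n) h)
    ∂(mu0 P)) atTop (𝓝 0)

/-- one leg: group 1 is moved, group 2 is moved according to `c2` -/
theorem legGen
    (hinv : ∀ a : ℤ × ℤ, (mu0 P).map (pb (fun q => q + a)) = mu0 P)
    (hN : ∀ n, 1 ≤ N n)
    (hY : ∀ n, Loc (KQ n) (Y n)) (hYB : ∀ n h, ‖Y n h‖ ≤ B)
    (hG1 : ∀ n, Adm P (K1 n) (G1 n)) (hG2 : ∀ n, Loc (K2 n) (G2 n))
    (hG3 : ∀ n, Adm P (K3 n) (G3 n))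
    (b1 : ∀ n h, ‖G1 n h‖ ≤ 1) (b2 : ∀ n h, ‖G2 n h‖ ≤ 1) (b3 : ∀ n h, ‖G3 n h‖ ≤ 1)
    (i1 : ∀ n, ∫ h, ‖G1 n h‖ ∂(mu0 P) ≤ C) (i3 : ∀ n, ∫ h, ‖G3 n h‖ ∂(mu0 P) ≤ C)
    (D : Dir) (hL : LegLim P D) (c2 : Bool) (w1 w2 : ℤ × ℤ) (m : ℕ → ℤ)
    (hQ : ∀ n, ∀ q ∈ KQ n, D.l q ≤ m n) (h3 : ∀ n, ∀ q ∈ K3 n, D.l q ≤ m n)
    (h1 : ∀ n, ∀ q ∈ K1 n, m n + 2 * N n ≤ D.l (q + N n • w1))
    (h2 : ∀ n, ∀ q ∈ K2 n, if c2 then m n + 2 * N n ≤ D.l (q + N n • w2) else
      D.l (q + N n • w2) ≤ m n)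
    (hlim : ∃ k0 : ℕ, ∀ k, k0 ≤ k → TT P N Y G1 G2 G3 (w1 + k • D.s)
      (w2 + if c2 then k • D.s else 0)) :
    TT P N Y G1 G2 G3 w1 w2 := by
  have hC0 : 0 ≤ C := (integral_nonneg fun h => norm_nonneg _).trans (i1 0)
  have hB0 : 0 ≤ B := (norm_nonneg _).trans (hYB 0 (fun _ => 0))
  let F : ℕ → Hgt → ℂ := fun n h => sf (N n • w1) (G1 n) h *
    (if c2 then sf (N n • w2) (G2 n) h else 1)
  let G : ℕ → Hgt → ℂ := fun n h => (G3 n h * Y n h) *
    (if c2 then 1 else sf (N n • w2) (G2 n) h)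
  have hone : ∀ A : Set (ℤ × ℤ), Loc A (fun _ : Hgt => (1 : ℂ)) := fun A =>
    ⟨∅, by simp, fun _ _ _ => rfl⟩
  have n2a : ∀ n h, ‖(if c2 then sf (N n • w2) (G2 n) h else 1 : ℂ)‖ ≤ 1 := by
    intro n h
    split_ifs
    · exact b2 n _
    · simp
  have n2b : ∀ n h, ‖(if c2 then 1 else sf (N n • w2) (G2 n) h : ℂ)‖ ≤ 1 := by
    intro n h
    split_ifs
    · simp
    · exact b2 n _
  -- the moved factor
  have hF : ∀ n, Adm P {q | m n + 2 * N n ≤ D.l q} (F n) := by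
    intro n
    have a1 : Adm P {q | m n + 2 * N n ≤ D.l q} (sf (N n • w1) (G1 n)) :=
      (hG1 n).sf (h1 n) (hinv _)
    have l2 : Loc {q | m n + 2 * N n ≤ D.l q}
        (fun h => if c2 then sf (N n • w2) (G2 n) h else 1) := by
      cases c2
      · simpa only [Bool.false_eq_true, ↓reduceIte] using hone _
      · simp only [if_true] at h2 ⊢
        exact (hG2 n).pull (h2 n)
    exact a1.mulLoc l2 (B := 1) (n2a n)
  have hG : ∀ n, Adm P {q | D.l q ≤ m n} (G n) := by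
    intro n
    have a4 : Adm P {q | D.l q ≤ m n} (fun h => G3 n h * Y n h) :=
      ((hG3 n).mono (h3 n)).mulLoc ((hY n).monoS (hQ n)) (hYB n)
    have l2 : Loc {q | D.l q ≤ m n}
        (fun h => if c2 then 1 else sf (N n • w2) (G2 n) h) := by
      cases c2
      · simp only [Bool.false_eq_true, if_false] at h2 ⊢
        exact (hG2 n).pull (h2 n)
      · simpa using hone _
    exact a4.mulLoc l2 (B := 1) (n2b n)
  have hFn : ∀ n, ∫ h, ‖F n h‖ ^ 2 ∂(mu0 P) ≤ C + B ^ 2 * C := by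
    intro n
    have hi : Integrable (sf (N n • w1) (G1 n)) (mu0 P) :=
      ((hG1 n).sf (A' := Set.univ) (fun _ _ => trivial) (hinv _)).int
    calc ∫ h, ‖F n h‖ ^ 2 ∂(mu0 P) ≤ ∫ h, ‖sf (N n • w1) (G1 n) h‖ ∂(mu0 P) := by
          apply integral_mono (hF n).sq_int hi.norm
          intro h
          have hb : ‖sf (N n • w1) (G1 n) h‖ ≤ 1 := b1 n _
          have hle : ‖F n h‖ ≤ ‖sf (N n • w1) (G1 n) h‖ := by
            show ‖_ * _‖ ≤ _
            rw [norm_mul]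
            exact mul_le_of_le_one_right (norm_nonneg _) (n2a n h)
          show ‖F n h‖ ^ 2 ≤ _
          nlinarith only [hle, hb, norm_nonneg (F n h)]
      _ = ∫ h, ‖G1 n h‖ ∂(mu0 P) :=
          int_norm_sf (hG1 n).loc.measurableC (hinv _)
      _ ≤ C := i1 n
      _ ≤ C + B ^ 2 * C := by nlinarith only [hC0]
  have hGn : ∀ n, ∫ h, ‖G n h‖ ^ 2 ∂(mu0 P) ≤ C + B ^ 2 * C := by
    intro n
    calc ∫ h, ‖G n h‖ ^ 2 ∂(mu0 P) ≤ ∫ h, B ^ 2 * ‖G3 n h‖ ∂(mu0 P) := by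
          apply integral_mono (hG n).sq_int ((hG3 n).int.norm.const_mul _)
          intro h
          have hle : ‖G n h‖ ≤ ‖G3 n h‖ * B := by
            show ‖_ * _ * _‖ ≤ _
            rw [norm_mul, norm_mul]
            calc _ ≤ ‖G3 n h‖ * ‖Y n h‖ * 1 := by
                  apply mul_le_mul_of_nonneg_left _ (by (clear * -; positivity))
                  exact n2b n h
              _ ≤ _ := by
                  rw [mul_one]
                  exact mul_le_mul_of_nonneg_left (hYB n h) (norm_nonneg _)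
          have h5 := b3 n h
          show ‖G n h‖ ^ 2 ≤ B ^ 2 * ‖G3 n h‖
          calc ‖G n h‖ ^ 2 ≤ (‖G3 n h‖ * B) ^ 2 := by (clear * - hle; gcongr)
            _ = B ^ 2 * (‖G3 n h‖ * ‖G3 n h‖) := by ring
            _ ≤ B ^ 2 * ‖G3 n h‖ := by
                apply mul_le_mul_of_nonneg_left _ (sq_nonneg B)
                exact mul_le_of_le_one_right (norm_nonneg _) h5
      _ = B ^ 2 * ∫ h, ‖G3 n h‖ ∂(mu0 P) := integral_const_mul _ _
      _ ≤ B ^ 2 * C := mul_le_mul_of_nonneg_left (i3 n) (sq_nonneg B)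
      _ ≤ C + B ^ 2 * C := by linarith
  have key := hL N m F G (C + B ^ 2 * C) hF hG hFn hGn ?_ hN
  · refine key.congr fun n => ?_
    congr 1
    funext h
    show (G3 n h * Y n h) * (if c2 then 1 else sf (N n • w2) (G2 n) h) *
      (sf (N n • w1) (G1 n) h * (if c2 then sf (N n • w2) (G2 n) h else 1)) = _
    cases c2 <;>
      simp only [Bool.false_eq_true, if_true, if_false, mul_one, one_mul] <;> ring
  · obtain ⟨k0, hk⟩ := hlim
    refine ⟨k0, fun k hk0 => (hk k hk0).congr fun n => ?_⟩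
    congr 1
    funext h
    have hs : ∀ w : ℤ × ℤ, N n • (w + k • D.s) = N n • w + (k * N n) • D.s := by
      intro w
      rw [smul_add, smul_smul, mul_comm (N n) k]
    show _ = (G3 n h * Y n h) * (if c2 then 1 else sf (N n • w2) (G2 n) h) *
      (sf (N n • w1) (G1 n) (pb (fun q => q + (k * N n) • D.s) h) *
        (if c2 then sf (N n • w2) (G2 n) (pb (fun q => q + (k * N n) • D.s) h) else 1))
    simp only [tr_sf]
    cases c2 <;>
      simp only [Bool.false_eq_true, if_true, if_false, mul_one, one_mul, add_zero, hs] <;> ring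

end gen

/-! ### the four legs -/

theorem sm1 (N : ℕ) (q w : ℤ × ℤ) : (q + N • w).1 = q.1 + N * w.1 := by
  rw [Prod.fst_add, Prod.smul_fst, nsmul_eq_mul]

theorem sm2 (N : ℕ) (q w : ℤ × ℤ) : (q + N • w).2 = q.2 + N * w.2 := by
  rw [Prod.snd_add, Prod.smul_snd, nsmul_eq_mul]

/-- total displacement of group 1 -/
def W1 (k1 k2 k3 k4 : ℤ) : ℤ × ℤ := (-2 * k1 - k2 + k3 + 2 * k4, k1 + 2 * k2 + k3 - k4)

/-- total displacement of group 2 -/
def W2 (k3 k4 : ℤ) : ℤ × ℤ := (k3 + 2 * k4, k3 - k4)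

/-- **four legs**: the product statement for the triangular pinwheel from the half-plane statement.
The cell `Q` is contained in the triangle `0 ≤ q.2`, `xl n ≤ q.1`, `q.1 + q.2 ≤ tr n`. -/
theorem four_legs
    (hinv : ∀ a : ℤ × ℤ, (mu0 P).map (pb (fun q => q + a)) = mu0 P)
    (hL : ∀ D ∈ [dX, dY, dA, dX.neg, dY.neg, dA.neg], LegLim P D)
    (ρ : ℕ) (N : ℕ → ℕ) (xl sr : ℕ → ℤ) (hN : ∀ n, 1 ≤ N n)
    (hbox : ∀ n, |xl n| ≤ ρ * N n ∧ |sr n| ≤ ρ * N n)
    (Y G1 G2 G3 : ℕ → Hgt → ℂ) (B C : ℝ)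
    (hY : ∀ n, Loc {q | 0 ≤ q.2 ∧ xl n ≤ q.1 ∧ q.1 + q.2 ≤ sr n ∧ |q.1| ≤ ρ * N n ∧
      |q.2| ≤ ρ * N n} (Y n)) (hYB : ∀ n h, ‖Y n h‖ ≤ B)
    (hG1 : ∀ n, Adm P {q | q.1 ≤ xl n - 2 * N n ∧ |q.1| ≤ ρ * N n ∧ |q.2| ≤ ρ * N n} (G1 n))
    (hG2 : ∀ n, Loc {q | sr n + 2 * N n ≤ q.1 + q.2 ∧ xl n ≤ q.1 ∧ |q.1| ≤ ρ * N n ∧
      |q.2| ≤ ρ * N n} (G2 n))
    (hG3 : ∀ n, Adm P {q | q.2 ≤ 0 ∧ xl n ≤ q.1 ∧ q.1 + q.2 ≤ sr n ∧ |q.1| ≤ ρ * N n ∧
      |q.2| ≤ ρ * N n} (G3 n))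
    (b1 : ∀ n h, ‖G1 n h‖ ≤ 1) (b2 : ∀ n h, ‖G2 n h‖ ≤ 1) (b3 : ∀ n h, ‖G3 n h‖ ≤ 1)
    (i1 : ∀ n, ∫ h, ‖G1 n h‖ ∂(mu0 P) ≤ C) (i3 : ∀ n, ∫ h, ‖G3 n h‖ ∂(mu0 P) ≤ C)
    (hHP : ∀ G : ℕ → Hgt → ℂ, (∀ n, Adm P {q | q.2 ≤ 0} (G n)) →
      (∀ n h, ‖G n h‖ ≤ ‖G3 n h‖) →
      Tendsto (fun n => ∫ h, Y n h * G n h ∂(mu0 P)) atTop (𝓝 0)) :
    Tendsto (fun n => ∫ h, Y n h * G1 n h * G2 n h * G3 n h ∂(mu0 P)) atTop (𝓝 0) := by
  have leg := fun (D : Dir) (hD : LegLim P D) (c2 : Bool) (w1 w2 : ℤ × ℤ) (m : ℕ → ℤ) =>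
    legGen hinv hN hY hYB hG1 hG2 hG3 b1 b2 b3 i1 i3 D hD c2 w1 w2 m
  -- after all legs
  have T4 : ∀ k1 k2 k3 k4 : ℕ, ρ + k1 + 2 * k2 + k3 ≤ k4 →
      TT P N Y G1 G2 G3 (W1 k1 k2 k3 k4) (W2 k3 k4) := by
    intro k1 k2 k3 k4 hk
    have := hHP (fun n h => G3 n h * (sf (N n • W1 k1 k2 k3 k4) (G1 n) h *
      sf (N n • W2 k3 k4) (G2 n) h)) (fun n => ?_) (fun n h => ?_)
    · refine this.congr fun n => ?_
      congr 1
      funext h
      ring
    · have hk' : ((ρ : ℤ) + k1 + 2 * k2 + k3) * N n ≤ k4 * N n :=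
        mul_le_mul_of_nonneg_right (by exact_mod_cast hk) (by (clear * -; positivity))
      have hp1 : (0 : ℤ) ≤ k1 * N n := by (clear * -; positivity)
      have hp2 : (0 : ℤ) ≤ k2 * N n := by positivity
      have l1 : Loc {q | q.2 ≤ 0} (sf (N n • W1 k1 k2 k3 k4) (G1 n)) :=
        (hG1 n).loc.pull (fun q hq => by
          obtain ⟨-, -, h2⟩ := hq
          have h2 := (abs_le.mp h2).2
          show (q + N n • W1 k1 k2 k3 k4).2 ≤ 0
          rw [sm2, W1]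
          linarith)
      have l2 : Loc {q | q.2 ≤ 0} (sf (N n • W2 k3 k4) (G2 n)) :=
        (hG2 n).pull (fun q hq => by
          obtain ⟨-, -, -, h2⟩ := hq
          have h2 := (abs_le.mp h2).2
          show (q + N n • W2 k3 k4).2 ≤ 0
          rw [sm2, W2]
          linarith)
      refine ((hG3 n).mono fun q hq => hq.1).mulLoc (B := 1)
        (l1.comp₂ l2 (fun a b => a * b)) fun h => ?_
      rw [norm_mul]
      exact mul_le_one₀ (b1 n _) (norm_nonneg _) (b2 n _)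
    · rw [norm_mul, norm_mul]
      exact mul_le_of_le_one_right (norm_nonneg _) (mul_le_one₀ (b1 n _) (norm_nonneg _) (b2 n _))
  -- leg 4
  have T3 : ∀ k1 k2 k3 : ℕ, 2 * ρ + 2 + 2 * k1 + k2 ≤ k3 →
      TT P N Y G1 G2 G3 (W1 k1 k2 k3 0) (W2 k3 0) := by
    intro k1 k2 k3 hk
    have hk' : ∀ n, (2 * (ρ : ℤ) + 2 + 2 * k1 + k2) * N n ≤ k3 * N n := fun n =>
      mul_le_mul_of_nonneg_right (by exact_mod_cast hk) (by (clear * -; positivity))
    have hp : ∀ (k n : ℕ), (0 : ℤ) ≤ k * N n := fun k n => by (clear * -; positivity)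
    refine leg dX (hL dX (by simp)) true _ _ (fun n => ρ * N n) ?_ ?_ ?_ ?_ ?_
    · rintro n q ⟨-, -, -, h1, -⟩
      exact (abs_le.mp h1).2
    · rintro n q ⟨-, -, -, h1, -⟩
      exact (abs_le.mp h1).2
    · rintro n q ⟨-, h1, -⟩
      have h1 := (abs_le.mp h1).1
      show _ ≤ (q + N n • W1 k1 k2 k3 0).1
      rw [sm1, W1]
      nlinarith only [h1, hk' n]
    · rintro n q ⟨-, -, h1, -⟩
      have h1 := (abs_le.mp h1).1
      rw [if_pos rfl]
      show _ ≤ (q + N n • W2 k3 0).1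
      rw [sm1, W2]
      nlinarith only [h1, hk' n]
    · refine ⟨ρ + k1 + 2 * k2 + k3, fun k hk0 => ?_⟩
      have e1 : W1 k1 k2 k3 0 + k • dX.s = W1 k1 k2 k3 k := by
        apply Prod.ext <;> simp [W1, dX] <;> ring
      have e2 : W2 k3 0 + k • dX.s = W2 k3 k := by
        apply Prod.ext <;> simp [W2, dX] <;> ring
      simp only [if_true]
      rw [e1, e2]
      exact T4 k1 k2 k3 k hk0
  -- leg 3
  have T2 : ∀ k1 k2 : ℕ, 3 * ρ + 2 + k1 ≤ k2 →
      TT P N Y G1 G2 G3 (W1 k1 k2 0 0) 0 := by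
    intro k1 k2 hk
    have hk' : ∀ n, (3 * (ρ : ℤ) + 2 + k1) * N n ≤ k2 * N n := fun n =>
      mul_le_mul_of_nonneg_right (by exact_mod_cast hk) (by (clear * -; positivity))
    refine leg dA (hL dA (by simp)) true _ _ (fun n => sr n) ?_ ?_ ?_ ?_ ?_
    · rintro n q ⟨-, -, h3, -, -⟩
      exact h3
    · rintro n q ⟨-, -, h3, -, -⟩
      exact h3
    · rintro n q ⟨-, h1, h2⟩
      have h1 := (abs_le.mp h1).1
      have h2 := (abs_le.mp h2).1
      have h3 := (abs_le.mp (hbox n).2).2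
      show _ ≤ (q + N n • W1 k1 k2 0 0).1 + (q + N n • W1 k1 k2 0 0).2
      rw [sm1, sm2, W1]
      nlinarith only [h1, h2, h3, hk' n]
    · rintro n q ⟨h1, -, -, -⟩
      rw [if_pos rfl]
      show _ ≤ (q + N n • (0 : ℤ × ℤ)).1 + (q + N n • (0 : ℤ × ℤ)).2
      rw [sm1, sm2]
      simp only [Prod.fst_zero, Prod.snd_zero, mul_zero, add_zero]
      exact h1
    · refine ⟨2 * ρ + 2 + 2 * k1 + k2, fun k hk0 => ?_⟩
      have e1 : W1 k1 k2 0 0 + k • dA.s = W1 k1 k2 k 0 := by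
        apply Prod.ext <;> simp only [W1, Int.reduceNeg, neg_mul, add_zero, mul_zero, sub_zero, dA, Prod.smul_mk, Int.nsmul_eq_mul, mul_one, Prod.mk_add_mk]
      have e2 : 0 + k • dA.s = W2 k 0 := by
        apply Prod.ext <;> simp [W2, dA]
      simp only [if_true]
      rw [e1, e2]
      exact T3 k1 k2 k hk0
  -- leg 2
  have T1 : ∀ k1 : ℕ, 2 * ρ + 2 ≤ k1 → TT P N Y G1 G2 G3 (W1 k1 0 0 0) 0 := by
    intro k1 hk
    have hk' : ∀ n, (2 * (ρ : ℤ) + 2) * N n ≤ k1 * N n := fun n =>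
      mul_le_mul_of_nonneg_right (by exact_mod_cast hk) (by (clear * -; positivity))
    refine leg dY (hL dY (by simp)) false _ _ (fun n => ρ * N n) ?_ ?_ ?_ ?_ ?_
    · rintro n q ⟨-, -, -, -, h2⟩
      exact (abs_le.mp h2).2
    · rintro n q ⟨-, -, -, -, h2⟩
      exact (abs_le.mp h2).2
    · rintro n q ⟨-, -, h2⟩
      have h2 := (abs_le.mp h2).1
      show _ ≤ (q + N n • W1 k1 0 0 0).2
      rw [sm2, W1]
      nlinarith only [h2, hk' n]
    · rintro n q ⟨-, -, -, h2⟩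
      rw [if_neg (by simp)]
      show (q + N n • (0 : ℤ × ℤ)).2 ≤ _
      rw [sm2]
      simp only [Prod.snd_zero, mul_zero, add_zero]
      exact (abs_le.mp h2).2
    · refine ⟨3 * ρ + 2 + k1, fun k hk0 => ?_⟩
      have e1 : W1 k1 0 0 0 + k • dY.s = W1 k1 k 0 0 := by
        apply Prod.ext <;> simp [W1, dY] <;> ring
      simp only [Bool.false_eq_true, if_false]
      rw [e1, add_zero]
      exact T2 k1 k hk0
  -- leg 1
  have T0 : TT P N Y G1 G2 G3 0 0 := by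
    refine leg dX.neg (hL dX.neg (by simp)) false _ _ (fun n => -xl n) ?_ ?_ ?_ ?_ ?_
    · rintro n q ⟨-, h1, -, -, -⟩
      show -q.1 ≤ _
      linarith
    · rintro n q ⟨-, h1, -, -, -⟩
      show -q.1 ≤ _
      linarith
    · rintro n q ⟨h1, -, -⟩
      show _ ≤ -(q + N n • (0 : ℤ × ℤ)).1
      rw [sm1]
      simp only [Prod.fst_zero, mul_zero, add_zero]
      linarith
    · rintro n q ⟨-, h1, -, -⟩
      rw [if_neg (by simp)]
      show -(q + N n • (0 : ℤ × ℤ)).1 ≤ _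
      rw [sm1]
      simp only [Prod.fst_zero, mul_zero, add_zero]
      linarith
    · refine ⟨2 * ρ + 2, fun k hk0 => ?_⟩
      have e1 : 0 + k • dX.neg.s = W1 k 0 0 0 := by
        apply Prod.ext <;> simp [W1, dX, Dir.neg] <;> ring
      simp only [Bool.false_eq_true, if_false]
      rw [e1, add_zero]
      exact T1 k hk0
  refine T0.congr fun n => ?_
  congr 1
  funext h
  simp only [smul_zero, sf_zero]
  ring

/-! ### the product statement for the null functional -/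

theorem ev_loc (w : (ℤ × ℤ) →₀ ℝ) {A : Set (ℤ × ℤ)} (h : ∀ q ∈ w.support, q ∈ A) :
    Loc A (ev w) := by
  refine ⟨w.support, h, fun a b hab => ?_⟩
  unfold ev Finsupp.sum
  refine Finset.sum_congr rfl fun q hq => ?_
  show w q * ((a q : ℤ) : ℝ) = w q * ((b q : ℤ) : ℝ)
  rw [hab q hq]

theorem Yf_loc (w u : (ℤ × ℤ) →₀ ℝ) (α : ℝ) {A : Set (ℤ × ℤ)} (h1 : ∀ q ∈ w.support, q ∈ A)
    (h2 : ∀ q ∈ u.support, q ∈ A) : Loc A (Yf w u α) := by
  have := (ev_loc w h1).comp₂ (ev_loc u h2) (fun x y : ℝ =>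
    Complex.exp (Complex.I * (x : ℂ)) * (Complex.exp (Complex.I * (y : ℂ)) - (α : ℂ)))
  exact this

/-- **Product form of the Schwinger-Dyson identity on the triangular lattice**, for the plane
measure: `Q` lies in the triangle `0 ≤ q.2`, `xl ≤ q.1`, `q.1 + q.2 ≤ sr`; `G1, G2, G3` are
arbitrary bounded lattice functionals of the three arms of the pinwheel around it. -/
theorem fa_T (hP : GFF.Plane P) {w u φ : ℕ → (ℤ × ℤ) →₀ ℝ} {α : ℝ} (hSD : SDseq P w u φ α)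
    (ρ : ℕ) (N : ℕ → ℕ) (xl sr : ℕ → ℤ) (hN : ∀ n, 1 ≤ N n)
    (hbox : ∀ n, |xl n| ≤ ρ * N n ∧ |sr n| ≤ ρ * N n)
    (hsupp : ∀ n, ∀ q, q ∈ (w n).support ∨ q ∈ (u n).support ∨ q ∈ (φ n).support →
      0 ≤ q.2 ∧ xl n ≤ q.1 ∧ q.1 + q.2 ≤ sr n ∧ |q.1| ≤ ρ * N n ∧ |q.2| ≤ ρ * N n)
    (G1 G2 G3 : ℕ → Hgt → ℂ) (C : ℝ)
    (hG1 : ∀ n, Adm P {q | q.1 ≤ xl n - 2 * N n ∧ |q.1| ≤ ρ * N n ∧ |q.2| ≤ ρ * N n} (G1 n))
    (hG2 : ∀ n, Loc {q | sr n + 2 * N n ≤ q.1 + q.2 ∧ xl n ≤ q.1 ∧ |q.1| ≤ ρ * N n ∧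
      |q.2| ≤ ρ * N n} (G2 n))
    (hG3 : ∀ n, Adm P {q | q.2 ≤ 0 ∧ xl n ≤ q.1 ∧ q.1 + q.2 ≤ sr n ∧ |q.1| ≤ ρ * N n ∧
      |q.2| ≤ ρ * N n} (G3 n))
    (b1 : ∀ n h, ‖G1 n h‖ ≤ 1) (b2 : ∀ n h, ‖G2 n h‖ ≤ 1) (b3 : ∀ n h, ‖G3 n h‖ ≤ 1)
    (i1 : ∀ n, ∫ h, ‖G1 n h‖ ∂(mu0 P) ≤ C) (i3 : ∀ n, ∫ h, ‖G3 n h‖ ∂(mu0 P) ≤ C)
    (hT : Tight P φ G3) :
    Tendsto (fun n => ∫ h, Yf (w n) (u n) α h * G1 n h * G2 n h * G3 n h ∂(mu0 P))
      atTop (𝓝 0) := by
  have := hP.prob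
  obtain ⟨hinv, hL, hI, hR⟩ := legs_T hP
  refine four_legs hinv hL ρ N xl sr hN hbox (fun n => Yf (w n) (u n) α) G1 G2 G3
    (1 + |α|) C ?_ (fun n h => norm_Yf _ _ _ _) hG1 hG2 hG3 b1 b2 b3 i1 i3 ?_
  · intro n
    exact Yf_loc _ _ _ (fun q hq => hsupp n q (Or.inl hq))
      (fun q hq => hsupp n q (Or.inr (Or.inl hq)))
  · intro G hG hle
    refine s_hp hI hR w u φ α hSD (fun n q hq => (hsupp n q hq).1) G C hG
      (fun n h => (hle n h).trans (b3 n h)) (fun n => ?_) ?_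
    · exact (integral_mono (hG n).int.norm (hG3 n).int.norm (hle n)).trans (i3 n)
    · intro ε hε
      obtain ⟨K0, hK0⟩ := hT ε hε
      refine ⟨K0, fun K hK => ?_⟩
      filter_upwards [hK0 K hK] with n hn
      refine le_trans ?_ hn
      have hm : Measurable (fun h : Hgt => 1 - Real.exp (-((ev (φ n) h) ^ 2 / (2 * K ^ 2)))) :=
        ((ev_loc (φ n) (A := Set.univ) (fun _ _ => trivial)).comp
          (fun x : ℝ => 1 - Real.exp (-(x ^ 2 / (2 * K ^ 2))))).measS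
      have h0 : ∀ h : Hgt, 0 ≤ 1 - Real.exp (-((ev (φ n) h) ^ 2 / (2 * K ^ 2))) := by
        intro h
        have : Real.exp (-((ev (φ n) h) ^ 2 / (2 * K ^ 2))) ≤ 1 :=
          Real.exp_le_one_iff.mpr (by
            have : 0 ≤ (ev (φ n) h) ^ 2 / (2 * K ^ 2) := by (clear * -; positivity)
            linarith only [this])
        linarith only [this]
      have h1 : ∀ h : Hgt, ‖1 - Real.exp (-((ev (φ n) h) ^ 2 / (2 * K ^ 2)))‖ ≤ 1 := by
        intro h
        rw [Real.norm_eq_abs, abs_of_nonneg (h0 h)]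
        have := Real.exp_pos (-((ev (φ n) h) ^ 2 / (2 * K ^ 2)))
        linarith only [this]
      apply integral_mono
      · exact (hG n).int.norm.mul_bdd hm.aestronglyMeasurable (Eventually.of_forall h1)
      · exact (hG3 n).int.norm.mul_bdd hm.aestronglyMeasurable (Eventually.of_forall h1)
      · intro h
        exact mul_le_mul_of_nonneg_right (hle n h) (h0 h)

end Vale.Agent.P153.F.SD
end

section

/-!
P153-F, decay at the boundary (mirror of `P145.X.DecA`): the expectation of the product of two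
functionals of the heights is bounded by the probability that their supports are connected.
-/

namespace Vale.Agent.P153.F.X

open Filter Topology Set MeasureTheory Relation
open Vale.Agent.P153
open Vale.Agent.P153.F.Top (Om Cone EE hv hvl ze dp vh tl)

/-- Indicator of the event that `O` and `I` are connected by edges touching `F` not in `B`. -/
noncomputable def cn (F O I : Set Pt) : Set Pt → ℝ :=
  ind fun B => ∃ f ∈ O, ∃ g ∈ I, ReflTransGen (fun a b => (a ∈ F ∨ b ∈ F) ∧ stp B a b) f g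

/-- Probability, with free boundary values, that `O` and `I` are connected. -/
noncomputable def pcn (F : Finset Pt) (O I : Set Pt) : ℝ :=
  ev (FreeF F (clo F)) fun h => cn (F : Set Pt) O I (bl h)

theorem ind_casesD (Q : Set Pt → Prop) (B : Set Pt) : ind Q B = 0 ∨ ind Q B = 1 := by
  unfold ind; split_ifs <;> simp

theorem ind_nonnegD (Q : Set Pt → Prop) (B : Set Pt) : 0 ≤ ind Q B := by
  rcases ind_casesD Q B with h | h <;> simp [h]

theorem pcn_nonneg (F : Finset Pt) (O I : Set Pt) : 0 ≤ pcn F O I :=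
  div_nonneg (Finset.sum_nonneg fun _ _ => ind_nonnegD _ _) (Nat.cast_nonneg _)

private theorem da_adj {x y x' y' : Pt} (h : Adj x y) (h' : Adj x' y') (e : x + y = x' + y') :
    (x' = x ∧ y' = y) ∨ (x' = y ∧ y' = x) := by
  obtain ⟨a, b⟩ := x
  obtain ⟨c, d⟩ := y
  obtain ⟨a', b'⟩ := x'
  obtain ⟨c', d'⟩ := y'
  simp only [Adj, Set.mem_insert_iff, Set.mem_singleton_iff, Prod.mk_add_mk, Prod.mk.injEq] at *
  rcases h with h | h | h | h | h | h <;> rcases h' with h' | h' | h' | h' | h' | h' <;> omega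

theorem bl_iffD {h : Hg} {x y : Pt} (hxy : Adj x y) : x + y ∈ bl h ↔ |h x| = 1 ∧ |h y| = 1 := by
  constructor
  · rintro ⟨x', y', h', e, h1, h2⟩
    rcases da_adj hxy h' e with ⟨rfl, rfl⟩ | ⟨rfl, rfl⟩
    · exact ⟨h1, h2⟩
    · exact ⟨h2, h1⟩
  · rintro ⟨h1, h2⟩
    exact ⟨x, y, hxy, rfl, h1, h2⟩

theorem stp_iffD {h : Hg} {x y : Pt} : stp (bl h) x y ↔ Op h x y := by
  unfold stp Op
  constructor
  · rintro ⟨h1, h2⟩
    exact ⟨h1, fun h3 => h2 ((bl_iffD h1).2 h3)⟩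
  · rintro ⟨h1, h2⟩
    exact ⟨h1, fun h3 => h2 ((bl_iffD h1).1 h3)⟩

/-- Change of the signs on the clusters of `A`. -/
noncomputable def flD (A : Set Pt) (h : Hg) : Hg :=
  comb (Clu A h) (fun x => -h x) h

theorem abs_flD (A : Set Pt) (h : Hg) (x : Pt) : |flD A h x| = |h x| := by
  unfold flD
  by_cases hx : x ∈ Clu A h
  · rw [comb_in hx, abs_neg]
  · rw [comb_out hx]

theorem clu_flD (A : Set Pt) (h : Hg) : Clu A (flD A h) = Clu A h := by
  have e : Op (flD A h) = Op h := by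
    funext x y
    unfold Op
    rw [abs_flD, abs_flD]
  unfold Clu
  rw [e]

theorem bl_flD (A : Set Pt) (h : Hg) : bl (flD A h) = bl h := by
  unfold bl
  simp only [abs_flD]

theorem flD_flD (A : Set Pt) (h : Hg) : flD A (flD A h) = h := by
  funext x
  have e : flD A (flD A h) = comb (Clu A h) (fun x => -flD A h x) (flD A h) := by
    conv_lhs => unfold flD
    rw [show Clu A (comb (Clu A h) (fun x => -h x) h) = Clu A h from clu_flD A h]
    rfl
  rw [e]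
  by_cases hx : x ∈ Clu A h
  · rw [comb_in hx]
    unfold flD
    rw [comb_in hx, neg_neg]
  · rw [comb_out hx]
    unfold flD
    rw [comb_out hx]

/-- The clusters of the inner vertices stay in the closure. -/
theorem clu_clo {F : Finset Pt} {h : Hg} (hh : h ∈ Free F (clo F)) {A : Set Pt}
    (hA : A ⊆ (F : Set Pt)) : Clu A h ⊆ (clo F : Set Pt) := by
  rintro y ⟨x, hx, hxy⟩
  induction hxy with
  | refl => exact sub_clo F x (hA hx)
  | @tail b c _ h3 ih =>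
    by_cases hb : b ∈ F
    · exact adj_clo F b hb c h3.1
    · by_cases hc : c ∈ F
      · exact sub_clo F c hc
      · exact absurd ⟨hh.2.1 b hb, hh.2.1 c hc⟩ h3.2

theorem flD_mem {F : Finset Pt} {h : Hg} (hh : h ∈ Free F (clo F)) {A : Set Pt}
    (hA : A ⊆ (F : Set Pt)) : flD A h ∈ Free F (clo F) := by
  refine ⟨⟨fun x => ?_, fun x y hxy => ?_⟩, fun x hx => ?_, fun x hx => ?_⟩
  · unfold flD
    by_cases hx : x ∈ Clu A h
    · rw [comb_in hx]
      exact (hh.1.1 x).neg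
    · rw [comb_out hx]
      exact hh.1.1 x
  · have key : ∀ x y, Adj x y → x ∈ Clu A h → y ∉ Clu A h → |(-h x) - h y| ≤ 2 := by
      intro x y hxy hx hy
      obtain ⟨h1, h2⟩ := closed_of_cross hx hy hxy
      rcases abs_eq (zero_le_one' ℤ) |>.1 h1 with h1 | h1 <;>
        rcases abs_eq (zero_le_one' ℤ) |>.1 h2 with h2 | h2 <;> simp [h1, h2]
    unfold flD
    by_cases hx : x ∈ Clu A h <;> by_cases hy : y ∈ Clu A h
    · rw [comb_in hx, comb_in hy]
      have := hh.1.2 x y hxy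
      rwa [← abs_neg, neg_sub_neg, neg_sub]
    · rw [comb_in hx, comb_out hy]; exact key x y hxy hx hy
    · rw [comb_out hx, comb_in hy, abs_sub_comm]; exact key y x hxy.symm hy hx
    · rw [comb_out hx, comb_out hy]; exact hh.1.2 x y hxy
  · rw [abs_flD]
    exact hh.2.1 x hx
  · unfold flD
    rw [comb_out fun hc => hx (clu_clo hh hA hc)]
    exact hh.2.2 x hx

/-- The functional `hv` of the heights. -/
theorem hv_negD {δ : ℝ} {b : ℝ × ℝ → ℝ} {ω ω' : Om}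
    (h : ∀ v : Pt, b (dp δ v) ≠ 0 → ω' v = -ω v) : hv δ b ω' = -hv δ b ω := by
  unfold hv
  rw [← mul_neg, ← finsum_neg_distrib]
  congr 1
  refine finsum_congr fun v => ?_
  rw [Top.tl_eq]
  by_cases hv : b (dp δ v) = 0
  · rw [hv]; ring
  · rw [h v hv]; ring

theorem hv_congrD {δ : ℝ} {b : ℝ × ℝ → ℝ} {ω ω' : Om}
    (h : ∀ v : Pt, b (dp δ v) ≠ 0 → ω' v = ω v) : hv δ b ω' = hv δ b ω := by
  unfold hv
  congr 1
  refine finsum_congr fun v => ?_
  rw [Top.tl_eq]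
  by_cases hv : b (dp δ v) = 0
  · rw [hv]; ring
  · rw [h v hv]

/-- Configurations without a connection do not contribute. -/
theorem sum_unc {δ : ℝ} {F : Finset Pt} {b f : ℝ × ℝ → ℝ} (k : ℕ) {O I : Set Pt}
    (hO : ∀ v : Pt, b (dp δ v) ≠ 0 → v ∈ O) (hI : ∀ v : Pt, f (dp δ v) ≠ 0 → v ∈ I) :
    ∑ h ∈ FreeF F (clo F), hv δ b (vh F h) * hv δ f (vh F h) ^ k *
      (1 - cn (F : Set Pt) O I (bl h)) = 0 := by
  classical
  set A : Set Pt := O ∩ F with hA
  have hAF : A ⊆ (F : Set Pt) := inter_subset_right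
  have key : ∀ h ∈ FreeF F (clo F), hv δ b (vh F (flD A h)) * hv δ f (vh F (flD A h)) ^ k *
      (1 - cn (F : Set Pt) O I (bl (flD A h))) =
      -(hv δ b (vh F h) * hv δ f (vh F h) ^ k * (1 - cn (F : Set Pt) O I (bl h))) := by
    intro h hh
    rw [mem_FreeF] at hh
    rw [bl_flD]
    rcases ind_casesD (fun B => ∃ f ∈ O, ∃ g ∈ I,
      ReflTransGen (fun a b => (a ∈ (F : Set Pt) ∨ b ∈ (F : Set Pt)) ∧ stp B a b) f g) (bl h)
      with h0 | h0
    · have h1 : hv δ b (vh F (flD A h)) = -hv δ b (vh F h) := by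
        refine hv_negD fun v hv => ?_
        unfold Top.vh
        by_cases hvF : v ∈ F
        · rw [if_pos hvF, if_pos hvF]
          unfold flD
          rw [comb_in (subset_clu (A := A) (show v ∈ A from ⟨hO v hv, hvF⟩))]
          push_cast
          ring
        · rw [if_neg hvF, if_neg hvF, neg_zero]
      have h2 : hv δ f (vh F (flD A h)) = hv δ f (vh F h) := by
        refine hv_congrD fun v hv => ?_
        unfold Top.vh
        by_cases hvF : v ∈ F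
        · rw [if_pos hvF, if_pos hvF]
          unfold flD
          rw [comb_out]
          rintro ⟨x, hx, hxv⟩
          have h3 : ∃ f ∈ O, ∃ g ∈ I,
              ReflTransGen (fun a b => (a ∈ (F : Set Pt) ∨ b ∈ (F : Set Pt)) ∧ stp (bl h) a b) f g := by
            refine ⟨x, hx.1, v, hI v hv,
              ReflTransGen.mono (fun a c hac => ⟨?_, stp_iffD.2 hac⟩) _ _ hxv⟩
            by_contra hcon
            rw [not_or] at hcon
            exact hac.2 ⟨hh.2.1 a hcon.1, hh.2.1 c hcon.2⟩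
          rw [ind, if_pos h3] at h0
          exact one_ne_zero h0
        · rw [if_neg hvF, if_neg hvF]
      rw [h1, h2]
      ring
    · have h3 : cn (F : Set Pt) O I (bl h) = 1 := h0
      rw [h3]
      ring
  have h1 : ∑ h ∈ FreeF F (clo F), hv δ b (vh F h) * hv δ f (vh F h) ^ k *
      (1 - cn (F : Set Pt) O I (bl h)) =
      ∑ h ∈ FreeF F (clo F), hv δ b (vh F (flD A h)) * hv δ f (vh F (flD A h)) ^ k *
      (1 - cn (F : Set Pt) O I (bl (flD A h))) := by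
    symm
    refine Finset.sum_nbij' (fun h => flD A h) (fun h => flD A h) ?_ ?_ ?_ ?_ ?_
    · intro h hh
      rw [mem_FreeF] at hh ⊢
      exact flD_mem hh hAF
    · intro h hh
      rw [mem_FreeF] at hh ⊢
      exact flD_mem hh hAF
    · intro h _
      exact flD_flD A h
    · intro h _
      exact flD_flD A h
    · intro h _
      rfl
  rw [Finset.sum_congr rfl key, Finset.sum_neg_distrib] at h1
  linarith only [h1]

/-- The mixed moment is bounded by the probability of a connection. -/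
theorem ze_mixed {δ : ℝ} {F : Finset Pt} {b f : ℝ × ℝ → ℝ} (k : ℕ) {O I : Set Pt}
    (hO : ∀ v : Pt, b (dp δ v) ≠ 0 → v ∈ O) (hI : ∀ v : Pt, f (dp δ v) ≠ 0 → v ∈ I) :
    ze F (fun ω => hv δ b ω * hv δ f ω ^ k) ^ 4 ≤
      ze F (fun ω => hv δ b ω ^ 4) * ze F (fun ω => hv δ f ω ^ (4 * k)) * pcn F O I ^ 2 := by
  set T := FreeF F (clo F) with hT
  have hcard : (0 : ℝ) < (T.card : ℝ) := by
    have : 0 < T.card := (Top.free_nonempty F (clo F)).card_pos
    exact_mod_cast this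
  set X : Hg → ℝ := fun h => hv δ b (vh F h) with hX
  set Y : Hg → ℝ := fun h => hv δ f (vh F h) ^ k with hY
  set C : Hg → ℝ := fun h => cn (F : Set Pt) O I (bl h) with hC
  have hC2 : ∀ h, C h * C h = C h := by
    intro h
    rcases ind_casesD (fun B => ∃ f ∈ O, ∃ g ∈ I,
      ReflTransGen (fun a b => (a ∈ (F : Set Pt) ∨ b ∈ (F : Set Pt)) ∧ stp B a b) f g) (bl h)
      with h0 | h0
    · have : C h = 0 := h0
      rw [this, mul_zero]
    · have : C h = 1 := h0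
      rw [this, mul_one]
  have e0 : ∑ h ∈ T, X h * Y h = ∑ h ∈ T, (X h * Y h) * C h := by
    have h1 := sum_unc (δ := δ) (F := F) (b := b) (f := f) k hO hI
    have h2 : ∑ h ∈ T, X h * Y h = ∑ h ∈ T, ((X h * Y h) * C h + X h * Y h * (1 - C h)) :=
      Finset.sum_congr rfl fun h _ => by ring
    rw [h2, Finset.sum_add_distrib]
    have h3 : ∑ h ∈ T, X h * Y h * (1 - C h) = 0 := h1
    rw [h3, add_zero]
  have c1 : (∑ h ∈ T, (X h * Y h) * C h) ^ 2 ≤ (∑ h ∈ T, (X h * Y h) ^ 2) * ∑ h ∈ T, C h := by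
    have h1 := Finset.sum_mul_sq_le_sq_mul_sq T (fun h => X h * Y h) C
    have h2 : ∑ h ∈ T, C h ^ 2 = ∑ h ∈ T, C h :=
      Finset.sum_congr rfl fun h _ => by rw [sq, hC2]
    rwa [h2] at h1
  have c2 : (∑ h ∈ T, (X h * Y h) ^ 2) ^ 2 ≤ (∑ h ∈ T, X h ^ 4) * ∑ h ∈ T, Y h ^ 4 := by
    have h1 := Finset.sum_mul_sq_le_sq_mul_sq T (fun h => X h ^ 2) (fun h => Y h ^ 2)
    have h2 : ∑ h ∈ T, X h ^ 2 * Y h ^ 2 = ∑ h ∈ T, (X h * Y h) ^ 2 :=
      Finset.sum_congr rfl fun h _ => by ring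
    have h3 : ∑ h ∈ T, (X h ^ 2) ^ 2 = ∑ h ∈ T, X h ^ 4 :=
      Finset.sum_congr rfl fun h _ => by ring
    have h4 : ∑ h ∈ T, (Y h ^ 2) ^ 2 = ∑ h ∈ T, Y h ^ 4 :=
      Finset.sum_congr rfl fun h _ => by ring
    rwa [h2, h3, h4] at h1
  have hC0 : 0 ≤ ∑ h ∈ T, C h := Finset.sum_nonneg fun h _ => ind_nonnegD _ _
  have c3 : (∑ h ∈ T, X h * Y h) ^ 4 ≤
      (∑ h ∈ T, X h ^ 4) * (∑ h ∈ T, Y h ^ 4) * (∑ h ∈ T, C h) ^ 2 := by
    rw [e0]
    calc (∑ h ∈ T, (X h * Y h) * C h) ^ 4 = ((∑ h ∈ T, (X h * Y h) * C h) ^ 2) ^ 2 := by ring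
      _ ≤ ((∑ h ∈ T, (X h * Y h) ^ 2) * ∑ h ∈ T, C h) ^ 2 :=
          pow_le_pow_left₀ (sq_nonneg _) c1 2
      _ = (∑ h ∈ T, (X h * Y h) ^ 2) ^ 2 * (∑ h ∈ T, C h) ^ 2 := by ring
      _ ≤ _ := mul_le_mul_of_nonneg_right c2 (sq_nonneg _)
  have e1 : ∀ h, Y h ^ 4 = hv δ f (vh F h) ^ (4 * k) := by
    intro h
    simp only [hY]
    rw [← pow_mul, mul_comm k 4]
  have e2 : ze F (fun ω => hv δ b ω * hv δ f ω ^ k) = (∑ h ∈ T, X h * Y h) / (T.card : ℝ) := rfl
  have e3 : ze F (fun ω => hv δ b ω ^ 4) = (∑ h ∈ T, X h ^ 4) / (T.card : ℝ) := rfl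
  have e4 : ze F (fun ω => hv δ f ω ^ (4 * k)) = (∑ h ∈ T, Y h ^ 4) / (T.card : ℝ) := by
    rw [Finset.sum_congr rfl fun h _ => e1 h]
    rfl
  have e5 : pcn F O I = (∑ h ∈ T, C h) / (T.card : ℝ) := rfl
  rw [e2, e3, e4, e5, div_pow, div_pow, div_mul_div_comm, div_mul_div_comm]
  have e6 : (T.card : ℝ) * T.card * (T.card : ℝ) ^ 2 = (T.card : ℝ) ^ 4 := by ring
  rw [e6]
  exact div_le_div_of_nonneg_right c3 (by (clear * - hcard; positivity))

end Vale.Agent.P153.F.X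
end

section

/-!
P153-F, decay at the boundary (mirror of `P145.X.DecB`, `DecGeo`).
-/

namespace Vale.Agent.P153.F.X

open Filter Topology Set MeasureTheory Relation
open Vale.Agent.P153
open Vale.Agent.P153.F.Top (Om Cone EE hv hvl ze dp vh tl Vs ThickC)

/-- Comparison of decreasing functions of the blocked edges with free boundary values with those
in the plane. -/
def S_lowc (P : Measure (Pt → ℤ)) : Prop :=
  ∀ (F : Finset Pt) (X Θ : Set Pt → ℝ), Fn (tE (F : Set Pt))ᶜ Θ → Antitone X → (∀ B, 0 ≤ X B) →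
    LocS (tE (F : Set Pt)) X →
    ev (FreeF F (clo F)) (fun h => X (bl h)) * II P Θ (fun _ => 1) ≤
      II P (fun B => Θ B * X B) (fun _ => 1)

theorem ind_leD {Q Q' : Set Pt → Prop} {B : Set Pt} (h : Q B → Q' B) : ind Q B ≤ ind Q' B := by
  unfold ind
  by_cases h1 : Q B
  · rw [if_pos h1, if_pos (h h1)]
  · rw [if_neg h1]; split_ifs <;> norm_num

theorem ind_neD {Q : Set Pt → Prop} {B : Set Pt} (h : ind Q B ≠ 0) : Q B := by
  by_contra h1
  exact h (if_neg h1)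

theorem locS_iffD {A : Set Pt} {Q : Set Pt → Prop} : LocS A (ind Q) ↔
    ∃ Λ : Finset Pt, (∀ w ∈ Λ, w ∈ A) ∧ ∀ B B' : Set Pt, (∀ w ∈ Λ, w ∈ B ↔ w ∈ B') →
      (Q B ↔ Q B') := by
  constructor
  · rintro ⟨Λ, h1, h2⟩
    refine ⟨Λ, h1, fun B B' hB => ?_⟩
    have h3 := h2 B B' hB
    unfold ind at h3
    by_cases a : Q B <;> by_cases b : Q B'
    · exact ⟨fun _ => b, fun _ => a⟩
    · rw [if_pos a, if_neg b] at h3; exact absurd h3 one_ne_zero
    · rw [if_neg a, if_pos b] at h3; exact absurd h3 zero_ne_one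
    · exact ⟨fun h => absurd h a, fun h => absurd h b⟩
  · rintro ⟨Λ, h1, h2⟩
    refine ⟨Λ, h1, fun B B' hB => ?_⟩
    have h3 := h2 B B' hB
    unfold ind
    by_cases a : Q B
    · rw [if_pos a, if_pos (h3.1 a)]
    · rw [if_neg a, if_neg fun h => a (h3.2 h)]

theorem locS_allD {A : Set Pt} {S : Finset ℕ} {Q : ℕ → Set Pt → Prop}
    (h : ∀ i ∈ S, LocS A (ind (Q i))) : LocS A (ind fun B => ∀ i ∈ S, ¬ Q i B) := by
  classical
  rw [locS_iffD]
  choose! Λ h1 h2 using fun i (hi : i ∈ S) => locS_iffD.1 (h i hi)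
  refine ⟨S.biUnion Λ, fun w hw => ?_, fun B B' hB => ?_⟩
  · obtain ⟨i, hi, hw⟩ := Finset.mem_biUnion.1 hw
    exact h1 i hi w hw
  · refine forall_congr' fun i => forall_congr' fun hi => not_congr ?_
    exact h2 i hi B B' fun w hw => hB w (Finset.mem_biUnion.2 ⟨i, hi, hw⟩)

theorem LocS.monoD {A A' : Set Pt} {g : Set Pt → ℝ} (h : LocS A g) (hA : A ⊆ A') : LocS A' g := by
  obtain ⟨Λ, h1, h2⟩ := h
  exact ⟨Λ, fun w hw => hA (h1 w hw), h2⟩

theorem Fn.monoD {A A' : Set Pt} {g : Set Pt → ℝ} (h : Fn A g) (hA : A ⊆ A') : Fn A' g :=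
  ⟨h.nonneg, h.loc.monoD hA, h.pin⟩

theorem LocS.mulD {A : Set Pt} {g g' : Set Pt → ℝ} (h : LocS A g) (h' : LocS A g') :
    LocS A (fun B => g B * g' B) := by
  classical
  obtain ⟨Λ, h1, h2⟩ := h
  obtain ⟨Λ', h1', h2'⟩ := h'
  refine ⟨Λ ∪ Λ', fun w hw => ?_, fun B B' hB => ?_⟩
  · rcases Finset.mem_union.1 hw with h | h
    · exact h1 w h
    · exact h1' w h
  · show g B * g' B = g B' * g' B'
    rw [h2 B B' fun w hw => hB w (Finset.mem_union_left _ hw),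
      h2' B B' fun w hw => hB w (Finset.mem_union_right _ hw)]

theorem II_monoD {P : Measure (Pt → ℤ)} (hint : S_int P) {g g' : Set Pt → ℝ}
    (h0 : ∀ B, 0 ≤ g B) (hle : ∀ B, g B ≤ g' B) (hl : LocS univ g') (he : g' ∅ = 0) :
    II P g (fun _ => 1) ≤ II P g' (fun _ => 1) := by
  unfold II
  refine integral_mono_of_nonneg (Eventually.of_forall fun x => ?_)
    (hint g' (fun _ => 1) hl he Top.Pol.one) (Eventually.of_forall fun x => ?_)
  · simp only [mul_one]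
    exact h0 _
  · simp only [mul_one]
    exact hle _

/-- The event of a connection is a decreasing local event. -/
theorem cn_antiD (F O I : Set Pt) : Antitone (cn F O I) := by
  intro B B' hB
  unfold cn ind
  by_cases h1 : ∃ f ∈ O, ∃ g ∈ I, ReflTransGen (fun a b => (a ∈ F ∨ b ∈ F) ∧ stp B' a b) f g
  · rw [if_pos h1, if_pos]
    obtain ⟨f, hf, g, hg, h⟩ := h1
    exact ⟨f, hf, g, hg,
      ReflTransGen.mono (fun _ _ h => ⟨h.1, h.2.1, fun h' => h.2.2 (hB h')⟩) _ _ h⟩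
  · rw [if_neg h1]
    split_ifs <;> norm_num

theorem cn_locD (F : Finset Pt) (O I : Set Pt) : LocS (tE (F : Set Pt)) (cn (F : Set Pt) O I) := by
  classical
  unfold cn
  rw [locS_iffD]
  -- the edges which touch `F`
  refine ⟨((F ×ˢ clo F).filter fun z => Adj z.1 z.2).image fun z => z.1 + z.2, fun w hw => ?_,
    fun B B' hB => ?_⟩
  · obtain ⟨z, hz, rfl⟩ := Finset.mem_image.1 hw
    rw [Finset.mem_filter, Finset.mem_product] at hz
    exact ⟨z.1, hz.1.1, z.2, hz.2, rfl⟩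
  · have e : (fun a b : Pt => (a ∈ (F : Set Pt) ∨ b ∈ (F : Set Pt)) ∧ stp B a b) =
        fun a b : Pt => (a ∈ (F : Set Pt) ∨ b ∈ (F : Set Pt)) ∧ stp B' a b := by
      funext a b
      refine propext (and_congr_right fun h => ?_)
      unfold stp
      refine and_congr_right fun hab => not_congr ?_
      refine hB _ (Finset.mem_image.2 ?_)
      rcases h with h | h
      · exact ⟨(a, b), Finset.mem_filter.2 ⟨Finset.mem_product.2 ⟨h, adj_clo F a h b hab⟩, hab⟩, rfl⟩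
      · exact ⟨(b, a), Finset.mem_filter.2 ⟨Finset.mem_product.2 ⟨h, adj_clo F b h a hab.symm⟩,
          hab.symm⟩, add_comm b a⟩
    rw [e]

/-- Edges in a box outside of `D` do not touch the domain. -/
theorem iE_compl {δ : ℝ} (hδ : 0 < δ) {D : Set (ℝ × ℝ)} (hb : Bornology.IsBounded D) {S : Set Pt}
    (hS : ∀ f ∈ S, dp δ f ∉ D) : iE S ⊆ (tE (Vs δ D : Set Pt))ᶜ := by
  rintro w ⟨x, hx, y, hy, hxy, rfl⟩ ⟨x', hx', y', hxy', e⟩
  have h2 : dp δ x' ∈ D := (Top.mem_Vs hδ hb).1 hx' (Metric.mem_closedBall_self (by positivity))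
  have h1 : x' ∈ S := by
    have h3 : x' = x ∨ x' = y := by
      obtain ⟨a, b⟩ := x
      obtain ⟨c, d⟩ := y
      obtain ⟨a', b'⟩ := x'
      obtain ⟨c', d'⟩ := y'
      simp only [Adj, Set.mem_insert_iff, Set.mem_singleton_iff, Prod.mk_add_mk, Prod.mk.injEq] at *
      omega
    rcases h3 with h | h
    · rw [h]; exact hx
    · rw [h]; exact hy
  exact hS x' h1 h2

/-- Distance in the plane and in lattice coordinates. -/
theorem dp_le {e r : ℝ} (he : 0 < e) {a p : Pt} (h1 : |(a.1 : ℝ) - p.1| ≤ r)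
    (h2 : |(a.2 : ℝ) - p.2| ≤ r) :
    |(dp e a).1 - (dp e p).1| ≤ e * (3 / 2 * r) ∧ |(dp e a).2 - (dp e p).2| ≤ e * (3 / 2 * r) := by
  have hr : 0 ≤ r := (abs_nonneg _).trans h1
  have hs : √3 ≤ 2 := by
    rw [Real.sqrt_le_left (by norm_num)]
    norm_num
  have hs0 : 0 ≤ √3 := Real.sqrt_nonneg 3
  simp only [dp]
  constructor
  · have e1 : e * ((a.1 : ℝ) + a.2 / 2) - e * ((p.1 : ℝ) + p.2 / 2) =
        e * (((a.1 : ℝ) - p.1) + ((a.2 : ℝ) - p.2) / 2) := by ring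
    rw [e1, abs_mul, abs_of_pos he]
    refine mul_le_mul_of_nonneg_left ?_ he.le
    have h3 := abs_add_le ((a.1 : ℝ) - p.1) (((a.2 : ℝ) - p.2) / 2)
    rw [abs_div, abs_two] at h3
    linarith only [h1, h2, h3]
  · have e1 : e * (√3 / 2 * (a.2 : ℝ)) - e * (√3 / 2 * (p.2 : ℝ)) =
        e * (√3 / 2 * ((a.2 : ℝ) - p.2)) := by ring
    rw [e1, abs_mul, abs_of_pos he]
    refine mul_le_mul_of_nonneg_left ?_ he.le
    rw [abs_mul, abs_of_nonneg (by positivity : 0 ≤ √3 / 2)]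
    have h4 : √3 / 2 * |(a.2 : ℝ) - p.2| ≤ 1 * r :=
      mul_le_mul (by linarith only [hs]) h2 (abs_nonneg _) (by norm_num)
    linarith only [hr, h4]

/-- Distance in lattice coordinates and in the plane. -/
theorem dp_ge {e r : ℝ} (he : 0 < e) {a p : Pt} (h1 : |(dp e a).1 - (dp e p).1| ≤ e * r)
    (h2 : |(dp e a).2 - (dp e p).2| ≤ e * r) :
    |(a.1 : ℝ) - p.1| ≤ 8 / 5 * r ∧ |(a.2 : ℝ) - p.2| ≤ 6 / 5 * r := by
  have hs : (5 / 3 : ℝ) ≤ √3 := by
    rw [Real.le_sqrt (by norm_num) (by norm_num)]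
    norm_num
  simp only [dp] at h1 h2
  have e1 : e * ((a.1 : ℝ) + a.2 / 2) - e * ((p.1 : ℝ) + p.2 / 2) =
      e * (((a.1 : ℝ) - p.1) + ((a.2 : ℝ) - p.2) / 2) := by ring
  have e2 : e * (√3 / 2 * (a.2 : ℝ)) - e * (√3 / 2 * (p.2 : ℝ)) =
      e * (√3 / 2 * ((a.2 : ℝ) - p.2)) := by ring
  rw [e1, abs_mul, abs_of_pos he] at h1
  rw [e2, abs_mul, abs_of_pos he] at h2
  have h3 := le_of_mul_le_mul_left h1 he
  have h4 := le_of_mul_le_mul_left h2 he
  rw [abs_mul, abs_of_nonneg (by positivity : 0 ≤ √3 / 2)] at h4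
  have hr : 0 ≤ r := (abs_nonneg _).trans h3
  have h5 : |(a.2 : ℝ) - p.2| ≤ 6 / 5 * r := by
    have h6 : 5 / 6 * |(a.2 : ℝ) - p.2| ≤ r := by
      refine le_trans (mul_le_mul_of_nonneg_right ?_ (abs_nonneg _)) h4
      linarith only [hs]
    linarith only [h6]
  refine ⟨?_, h5⟩
  have h6 : (a.1 : ℝ) - p.1 = (((a.1 : ℝ) - p.1) + ((a.2 : ℝ) - p.2) / 2) - ((a.2 : ℝ) - p.2) / 2 := by
    ring
  rw [h6]
  have h7 := abs_sub (((a.1 : ℝ) - p.1) + ((a.2 : ℝ) - p.2) / 2) (((a.2 : ℝ) - p.2) / 2)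
  rw [abs_div, abs_two] at h7
  linarith only [h3, h5, h7]

/-- A lattice point near `q`. -/
theorem exists_near {e : ℝ} (he : 0 < e) (q : ℝ × ℝ) :
    ∃ p : Pt, |(dp e p).1 - q.1| ≤ e ∧ |(dp e p).2 - q.2| ≤ e := by
  have hs : √3 ≤ 2 := by
    rw [Real.sqrt_le_left (by norm_num)]
    norm_num
  have hs0 : 0 < √3 := by positivity
  have c2 : ∀ (m r : ℝ), 0 < m → |m * (⌊r / m⌋ : ℝ) - r| ≤ m := by
    intro m r hm
    have h1 := Int.floor_le (r / m)
    have h2 := Int.lt_floor_add_one (r / m)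
    have e' : m * (r / m) = r := mul_div_cancel₀ _ hm.ne'
    have h3 := mul_le_mul_of_nonneg_left h1 hm.le
    have h4 := mul_le_mul_of_nonneg_left h2.le hm.le
    rw [e'] at h3 h4
    rw [abs_le]
    constructor <;> linarith only [h4, hm, h3]
  set p2 : ℤ := ⌊q.2 / (e * (√3 / 2))⌋ with hp2
  refine ⟨(⌊(q.1 - e * (p2 / 2)) / e⌋, p2), ?_, ?_⟩
  · simp only [dp]
    have h1 := c2 e (q.1 - e * (p2 / 2)) he
    have e1 : e * ((⌊(q.1 - e * (p2 / 2)) / e⌋ : ℝ) + (p2 : ℝ) / 2) - q.1 =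
        e * (⌊(q.1 - e * (p2 / 2)) / e⌋ : ℝ) - (q.1 - e * (p2 / 2)) := by ring
    rw [e1]
    exact h1
  · simp only [dp]
    have h1 := c2 (e * (√3 / 2)) q.2 (by positivity)
    rw [← hp2] at h1
    have e1 : e * (√3 / 2 * (p2 : ℝ)) = e * (√3 / 2) * (p2 : ℝ) := by ring
    rw [e1]
    refine h1.trans ?_
    have : e * (√3 / 2) ≤ e * 1 := mul_le_mul_of_nonneg_left (by linarith only [hs]) he.le
    linarith only [this]

/-- A box of half side `2 W` outside of `D` near the point `z₀`. -/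
theorem exists_boxD {D : Set (ℝ × ℝ)} {g : ℝ} (hg : 0 < g)
    (hT : ∀ x ∉ D, ∃ y : ℝ × ℝ, x ∈ Metric.closedBall y g ∧ Disjoint (Metric.closedBall y g) D)
    {z₀ : ℝ × ℝ} (hz : z₀ ∉ D) {δ : ℝ} (hδ : 0 < δ) {W : ℤ} (hW : 0 < W)
    (h : 3 * (δ * W) + δ ≤ g) :
    ∃ p : Pt, (∀ f ∈ bx p (2 * W), dp δ f ∉ D) ∧
      |(dp δ p).1 - z₀.1| ≤ 3 * (δ * W) + 2 * δ ∧ |(dp δ p).2 - z₀.2| ≤ 3 * (δ * W) + 2 * δ := by
  obtain ⟨y, hy, hyD⟩ := hT z₀ hz
  have hW' : (0 : ℝ) < W := by exact_mod_cast hW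
  set ρ : ℝ := 3 * (δ * W) + δ with hρ
  have hρ0 : 0 < ρ := by positivity
  set u : ℝ := ρ / g with hu
  have hu0 : 0 ≤ u := by positivity
  have hu1 : u ≤ 1 := (div_le_one hg).2 h
  have hug : u * g = ρ := div_mul_cancel₀ _ hg.ne'
  rw [Metric.mem_closedBall, Prod.dist_eq, max_le_iff, Real.dist_eq, Real.dist_eq] at hy
  obtain ⟨hy1, hy2⟩ := hy
  set q : ℝ × ℝ := (z₀.1 + u * (y.1 - z₀.1), z₀.2 + u * (y.2 - z₀.2)) with hq
  have c1 : ∀ a b : ℝ, |a - b| ≤ g → |a + u * (b - a) - a| ≤ ρ ∧ |a + u * (b - a) - b| ≤ g - ρ := by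
    intro a b hab
    constructor
    · have : a + u * (b - a) - a = -(u * (a - b)) := by ring
      rw [this, abs_neg, abs_mul, abs_of_nonneg hu0, ← hug]
      exact mul_le_mul_of_nonneg_left hab hu0
    · have : a + u * (b - a) - b = (1 - u) * (a - b) := by ring
      rw [this, abs_mul, abs_of_nonneg (by linarith only [hu1])]
      have := mul_le_mul_of_nonneg_left hab (by linarith only [hu1] : 0 ≤ 1 - u)
      calc (1 - u) * |a - b| ≤ (1 - u) * g := this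
        _ = g - ρ := by rw [← hug]; ring
  obtain ⟨a1, a2⟩ := c1 z₀.1 y.1 hy1
  obtain ⟨b1, b2⟩ := c1 z₀.2 y.2 hy2
  obtain ⟨p, f1, g1⟩ := exists_near hδ q
  have q1 : q.1 = z₀.1 + u * (y.1 - z₀.1) := rfl
  have q2 : q.2 = z₀.2 + u * (y.2 - z₀.2) := rfl
  rw [← q1] at a1 a2
  rw [← q2] at b1 b2
  rw [abs_le] at a1 a2 b1 b2 f1 g1
  refine ⟨p, fun f hf hfD => ?_, ?_, ?_⟩
  · refine Set.disjoint_left.1 hyD ?_ hfD
    obtain ⟨k1, k2⟩ := hf
    have m1 : |(f.1 : ℝ) - p.1| ≤ 2 * W := by exact_mod_cast k1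
    have m2 : |(f.2 : ℝ) - p.2| ≤ 2 * W := by exact_mod_cast k2
    obtain ⟨l1, l2⟩ := dp_le hδ m1 m2
    rw [abs_le] at l1 l2
    rw [Metric.mem_closedBall, Prod.dist_eq, max_le_iff, Real.dist_eq, Real.dist_eq]
    constructor
    · rw [abs_le]
      constructor <;> linarith only [a2, f1, l1]
    · rw [abs_le]
      constructor <;> linarith only [b2, g1, l2]
  · rw [abs_le]
    constructor <;> linarith
  · rw [abs_le]
    constructor <;> linarith only [b1, g1]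

end Vale.Agent.P153.F.X
end

section

/-!
P153-F, decay at the boundary (mirror of `P145.X.DecP`): the probability of a connection between a
small neighbourhood of a point near the boundary and a compact subset of the domain.
-/

namespace Vale.Agent.P153.F.X

open Filter Topology Set MeasureTheory Relation
open Vale.Agent.P153
open Vale.Agent.P153.F.Top (Om Cone EE hv hvl ze dp vh tl Vs ThickC)
open Vale.Agent.P145.PT (dd)

/-- The event of a connection excludes the circuits in between. -/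
theorem cn_exclD (hconf : S_conf) {F O I : Set Pt} {p : Pt} {r : ℤ} (hr : 1 ≤ r)
    (hO : ∀ v ∈ O, v ∈ bx p r) (hI : ∀ v ∈ I, v ∉ bx p (2 * r)) {B : Set Pt}
    (h : ∃ f ∈ O, ∃ g ∈ I, ReflTransGen (fun a b => (a ∈ F ∨ b ∈ F) ∧ stp B a b) f g) :
    ¬ Zr p r B := by
  intro hZ
  obtain ⟨f, hf, g, hg, hfg⟩ := h
  have h1 : ReflTransGen (stp B) f g := ReflTransGen.mono (fun _ _ h => h.2) _ _ hfg
  exact hI g hg (hconf p r B hr hZ f (hO f hf) g h1)

theorem pos_OD {e d : ℝ} (he : 0 < e) {s W r : ℤ} (hes : d ≤ e * s) (hsW : 4 * s ≤ W) (hW : 1 ≤ W)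
    (hr : 64 * W ≤ r) {x z : ℝ × ℝ} (hxz : dist x z ≤ d) {p v : Pt}
    (hp1 : |(dp e p).1 - z.1| ≤ 3 * (e * W) + 2 * e) (hp2 : |(dp e p).2 - z.2| ≤ 3 * (e * W) + 2 * e)
    (hv : dp e v ∈ Metric.closedBall x (d / 2)) : v ∈ bx p r := by
  rw [Metric.mem_closedBall, Prod.dist_eq, Real.dist_eq, Real.dist_eq, max_le_iff] at hv
  rw [Prod.dist_eq, Real.dist_eq, Real.dist_eq, max_le_iff] at hxz
  have hsW' : (4 : ℝ) * s ≤ W := by exact_mod_cast hsW
  have hW' : (1 : ℝ) ≤ W := by exact_mod_cast hW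
  have h0 : 4 * (e * s) ≤ e * W := by
    have := mul_le_mul_of_nonneg_left hsW' he.le
    linarith only [this]
  have h0' : e ≤ e * W := by
    have := mul_le_mul_of_nonneg_left hW' he.le
    linarith only [this]
  have key : ∀ a b c q : ℝ, |a - b| ≤ d / 2 → |b - c| ≤ d → |q - c| ≤ 3 * (e * W) + 2 * e →
      |a - q| ≤ e * (10 * W) := by
    intro a b c q h1 h2 h3
    have : a - q = (a - b) + (b - c) - (q - c) := by ring
    rw [this]
    have i1 := abs_sub ((a - b) + (b - c)) (q - c)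
    have i2 := abs_add_le (a - b) (b - c)
    linarith only [he, hes, h0, h0', h1, h2, h3, i1, i2]
  obtain ⟨a1, a2⟩ := dp_ge he (key _ _ _ _ hv.1 hxz.1 hp1) (key _ _ _ _ hv.2 hxz.2 hp2)
  have b1 : |(v.1 : ℝ) - p.1| ≤ 16 * W := a1.trans (by linarith only [])
  have b2 : |(v.2 : ℝ) - p.2| ≤ 16 * W := a2.trans (by linarith only [hW'])
  have b1' : |v.1 - p.1| ≤ 16 * W := by exact_mod_cast b1
  have b2' : |v.2 - p.2| ≤ 16 * W := by exact_mod_cast b2
  exact ⟨by omega, by omega⟩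

theorem pos_ID {e R : ℝ} (he : 0 < e) {W r : ℤ} {z : ℝ × ℝ} {p v : Pt}
    (hp1 : |(dp e p).1 - z.1| ≤ 3 * (e * W) + 2 * e) (hp2 : |(dp e p).2 - z.2| ≤ 3 * (e * W) + 2 * e)
    (h : e * (3 / 2 * r) + (3 * (e * W) + 2 * e) < R) (hv : v ∈ bx p r) :
    dist z (dp e v) < R := by
  obtain ⟨k1, k2⟩ := hv
  have l1 : |(v.1 : ℝ) - p.1| ≤ r := by exact_mod_cast k1
  have l2 : |(v.2 : ℝ) - p.2| ≤ r := by exact_mod_cast k2
  obtain ⟨m1, m2⟩ := dp_le he l1 l2
  rw [Prod.dist_eq, Real.dist_eq, Real.dist_eq, max_lt_iff]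
  have key : ∀ a q c : ℝ, |a - q| ≤ e * (3 / 2 * r) → |q - c| ≤ 3 * (e * W) + 2 * e →
      |c - a| < R := by
    intro a q c h1 h2
    have : c - a = -(a - q) - (q - c) := by ring
    rw [this]
    have i1 := abs_sub (-(a - q)) (q - c)
    rw [abs_neg] at i1
    linarith
  exact ⟨key _ _ _ m1 hp1, key _ _ _ m2 hp2⟩

/-- The scale of the distance to the boundary. -/
theorem scaleD {d e N₀ : ℝ} (he : 0 < e) (hN : 1 ≤ N₀) (he1 : e < d / 100) (he2 : e < d / N₀) :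
    d ≤ e * (⌈d / e⌉ : ℤ) ∧ e * (⌈d / e⌉ : ℤ) ≤ 101 / 100 * d ∧ N₀ ≤ (⌈d / e⌉ : ℤ) := by
  have hs1 : d / e ≤ (⌈d / e⌉ : ℤ) := Int.le_ceil _
  have hs2 : ((⌈d / e⌉ : ℤ) : ℝ) < d / e + 1 := Int.ceil_lt_add_one _
  refine ⟨?_, ?_, ?_⟩
  · rw [div_le_iff₀ he] at hs1
    linarith only [hs1]
  · have h1 := mul_le_mul_of_nonneg_left hs2.le he.le
    rw [mul_add, mul_div_cancel₀ _ he.ne', mul_one] at h1
    linarith only [he1, h1]
  · refine le_trans ?_ hs1
    rw [le_div_iff₀ he]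
    rw [lt_div_iff₀ (by linarith only [hN])] at he2
    linarith only [he2]

/-- The event that there is no circuit at the larger scales is local. -/
theorem locS_noD (hloc : S_loc) (p : Pt) {s : ℤ} (hs : 1 ≤ s) (j m : ℕ) :
    LocS univ (ind fun B => ∀ i, j + 4 ≤ i → i ≤ 2 * m → ¬ Zr p (4 ^ i * s) B) := by
  have h3 := locS_allD (A := univ) (S := (Finset.range (2 * m + 1)).filter fun i => j + 4 ≤ i)
    (Q := fun i => Zr p (4 ^ i * s)) (fun i _ => by
      have h41 : (1 : ℤ) ≤ 4 ^ i := one_le_pow₀ (by norm_num)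
      exact (hloc p (4 ^ i * s) (one_le_mul_of_one_le_of_one_le h41 hs)).2.loc.monoD
        (Set.subset_univ _))
  have h4 : (fun B => ∀ i ∈ (Finset.range (2 * m + 1)).filter fun i => j + 4 ≤ i,
      ¬ Zr p (4 ^ i * s) B) = fun B => ∀ i, j + 4 ≤ i → i ≤ 2 * m → ¬ Zr p (4 ^ i * s) B := by
    funext B
    refine propext ⟨fun h i h1 h2 => h i ?_, fun h i hi => ?_⟩
    · rw [Finset.mem_filter, Finset.mem_range]
      exact ⟨by omega, h1⟩
    · rw [Finset.mem_filter, Finset.mem_range] at hi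
      exact h i hi.2 (by omega)
  rw [h4] at h3
  exact h3

/-- The probabilistic step. -/
theorem pcn_leD {P : Measure (Pt → ℤ)} (hint : S_int P)
    (hlowc : S_lowc P) (hloc : S_loc) (hconf : S_conf) {F : Finset Pt}
    {O I : Set Pt} {p : Pt} {s W : ℤ} {j m : ℕ}
    (hs : 1 ≤ s) (hW : 1 ≤ W) (hF : iE (bx p (2 * W)) ⊆ (tE (F : Set Pt))ᶜ)
    (hO : ∀ i, j + 4 ≤ i → ∀ v ∈ O, v ∈ bx p (4 ^ i * s))
    (hI : ∀ i, i ≤ 2 * m → ∀ v ∈ I, v ∉ bx p (2 * (4 ^ i * s))) {η c₁ : ℝ} (hc₁ : 0 < c₁)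
    (hgap : II P (fun B => ind (Zr p W) B *
        ind (fun B => ∀ i, j + 4 ≤ i → i ≤ 2 * m → ¬ Zr p (4 ^ i * s) B) B) (fun _ => 1) ≤
      η * II P (ind (Zr p W)) (fun _ => 1))
    (hrsw : c₁ ≤ II P (ind (Zr p W)) (fun _ => 1)) : pcn F O I ≤ η := by
  obtain ⟨hm1, hf1⟩ := hloc p W hW
  have hΘ : Fn (tE (F : Set Pt))ᶜ (ind (Zr p W)) := hf1.monoD fun w hw => hF hw.1
  have hlow := hlowc F (cn (F : Set Pt) O I) _ hΘ (cn_antiD _ _ _) (fun B => ind_nonnegD _ _)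
    (cn_locD F O I)
  have hle : II P (fun E => ind (Zr p W) E * cn (F : Set Pt) O I E) (fun _ => 1) ≤
      II P (fun B => ind (Zr p W) B *
        ind (fun B => ∀ i, j + 4 ≤ i → i ≤ 2 * m → ¬ Zr p (4 ^ i * s) B) B) (fun _ => 1) := by
    refine II_monoD hint (fun B => mul_nonneg (ind_nonnegD _ _) (ind_nonnegD _ _)) (fun B => ?_)
      ?_ ?_
    · refine mul_le_mul_of_nonneg_left (ind_leD fun h => ?_) (ind_nonnegD _ _)
      intro i hi1 hi2
      have h41 : (1 : ℤ) ≤ 4 ^ i := one_le_pow₀ (by norm_num)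
      exact cn_exclD hconf (one_le_mul_of_one_le_of_one_le h41 hs) (hO i hi1) (hI i hi2) h
    · exact LocS.mulD (hf1.loc.monoD (Set.subset_univ _)) (locS_noD hloc p hs j m)
    · show ind (Zr p W) ∅ * _ = 0
      rw [hf1.pin, zero_mul]
  exact le_of_mul_le_mul_right (hlow.trans (hle.trans hgap)) (hc₁.trans_le hrsw)

theorem dec_probD {P : Measure (Pt → ℤ)} (hint : S_int P)
    (hlowc : S_lowc P) (hgap : S_gap P) (hrsw : S_rsw P) (hloc : S_loc) (hconf : S_conf)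
    {δ : ℕ → ℝ} (hδ : ∀ n, 0 < δ n) (hlim : Tendsto δ atTop (𝓝 0)) {D : Set (ℝ × ℝ)}
    (hD : IsOpen D) (hb : Bornology.IsBounded D) (hT : ThickC D) {S : Set (ℝ × ℝ)}
    (hS : IsCompact S) (hSD : S ⊆ D) {η : ℝ} (hη : 0 < η) :
    ∃ r : ℝ, 0 < r ∧ ∀ x ∈ D, dd D x < r → ∀ᶠ n in atTop,
      pcn (Vs (δ n) D) {v | dp (δ n) v ∈ Metric.closedBall x (dd D x / 2)}
        {v | dp (δ n) v ∈ S} ≤ η := by
  obtain ⟨g, hg, hT⟩ := hT
  obtain ⟨R, hR, hRS⟩ := hS.exists_thickening_subset_open hD hSD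
  have hRS' : ∀ z ∈ S, ∀ y ∉ D, ¬ dist y z < R := by
    intro z hz y hy hc
    exact hy (hRS (Metric.mem_thickening_iff.2 ⟨z, hz, hc⟩))
  obtain ⟨m, -, s₁, hs₁, hgap⟩ := hgap η hη 0
  obtain ⟨c₁, hc₁, r₀, hr₀, hrsw⟩ := hrsw
  have hM0 : (0 : ℝ) < 16 * 4 ^ (2 * m) := by positivity
  refine ⟨min g R / (16 * 4 ^ (2 * m)), div_pos (lt_min hg hR) hM0, fun x hx hxr => ?_⟩
  have hd0 : 0 < dd D x := (Vale.Agent.P145.PT.dd_pos hD hb).2 hx
  obtain ⟨z₀, hz₀, hdz⟩ :=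
    hD.isClosed_compl.exists_infDist_eq_dist (Vale.Agent.P145.PT.compl_ne hb) x
  have hdz' : dist x z₀ = dd D x := hdz.symm
  generalize dd D x = d at hxr hd0 hdz' ⊢
  rw [lt_div_iff₀ hM0] at hxr
  have hdg : 16 * (4 ^ (2 * m) * d) < g := by linarith [min_le_left g R]
  have hdR : 16 * (4 ^ (2 * m) * d) < R := by linarith only [hxr, min_le_right g R]
  -- small mesh
  have hN₀1 : (1 : ℝ) ≤ max (s₁ : ℝ) r₀ := le_max_of_le_left (by exact_mod_cast hs₁)
  have hev : ∀ᶠ n in atTop, δ n < min (d / 100) (d / max (s₁ : ℝ) r₀) :=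
    (tendsto_order.1 hlim).2 _ (lt_min (by (clear * - hd0; positivity)) (by (clear * - hd0 hs₁; positivity)))
  filter_upwards [hev] with n hn
  have hδn := hδ n
  generalize δ n = e at hn hδn ⊢
  have he1 : e < d / 100 := hn.trans_le (min_le_left _ _)
  obtain ⟨hes1, hes3, hsN⟩ := scaleD hδn hN₀1 he1 (hn.trans_le (min_le_right _ _))
  generalize ⌈d / e⌉ = s at hes1 hes3 hsN
  have hss : s₁ ≤ s := by exact_mod_cast (le_max_left (s₁ : ℝ) r₀).trans hsN
  have hsr : r₀ ≤ s := by exact_mod_cast (le_max_right (s₁ : ℝ) r₀).trans hsN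
  have hs0 : 1 ≤ s := hs₁.trans hss
  obtain ⟨j, hj, hgap⟩ := hgap s hss
  have h41 : (1 : ℤ) ≤ 4 ^ j := one_le_pow₀ (by norm_num)
  have hW4 : 4 * s ≤ 4 ^ (j + 1) * s := by
    have : 1 * s ≤ 4 ^ j * s := mul_le_mul_of_nonneg_right h41 (by omega)
    rw [pow_succ]
    linarith only [this]
  have heW : e * ((4 ^ (j + 1) * s : ℤ) : ℝ) ≤ 101 / 100 * (4 ^ (2 * m) * d) := by
    have hp1 : (4 : ℝ) ^ (j + 1) ≤ 4 ^ (2 * m) := pow_le_pow_right₀ (by norm_num) (by omega)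
    have h0 : 0 ≤ e * s := hd0.le.trans hes1
    push_cast
    calc e * (4 ^ (j + 1) * (s : ℝ)) = 4 ^ (j + 1) * (e * s) := by ring
      _ ≤ 4 ^ (2 * m) * (e * s) := mul_le_mul_of_nonneg_right hp1 h0
      _ ≤ 4 ^ (2 * m) * (101 / 100 * d) := mul_le_mul_of_nonneg_left hes3 (by positivity)
      _ = _ := by ring
  have hmd : d ≤ 4 ^ (2 * m) * d := by
    have : (1 : ℝ) * d ≤ 4 ^ (2 * m) * d :=
      mul_le_mul_of_nonneg_right (one_le_pow₀ (by norm_num)) hd0.le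
    linarith only [this]
  have hr64 : ∀ i, j + 4 ≤ i → 64 * (4 ^ (j + 1) * s) ≤ 4 ^ i * s := by
    intro i hi
    have h1 : (4 : ℤ) ^ (j + 4) ≤ 4 ^ i := pow_le_pow_right₀ (by norm_num) hi
    have h2 : (4 : ℤ) ^ (j + 4) = 64 * 4 ^ (j + 1) := by rw [pow_add, pow_add]; ring
    rw [h2] at h1
    have h3 := mul_le_mul_of_nonneg_right h1 (by omega : (0 : ℤ) ≤ s)
    linarith only [h3]
  have hri : ∀ i, i ≤ 2 * m →
      e * (3 / 2 * ((2 * (4 ^ i * s) : ℤ) : ℝ)) ≤ 3 * (101 / 100 * (4 ^ (2 * m) * d)) := by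
    intro i hi
    have hq : (4 : ℝ) ^ i ≤ 4 ^ (2 * m) := pow_le_pow_right₀ (by norm_num) hi
    have h0 : 0 ≤ e * s := hd0.le.trans hes1
    push_cast
    calc e * (3 / 2 * (2 * (4 ^ i * (s : ℝ)))) = 3 * (4 ^ i * (e * s)) := by ring
      _ ≤ 3 * (4 ^ (2 * m) * (e * s)) := by
          have := mul_le_mul_of_nonneg_right hq h0
          linarith only [this]
      _ ≤ 3 * (4 ^ (2 * m) * (101 / 100 * d)) := by
          have := mul_le_mul_of_nonneg_left hes3 (by positivity : (0 : ℝ) ≤ 4 ^ (2 * m))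
          linarith only [this]
      _ = _ := by ring
  have hrW : r₀ ≤ 4 ^ (j + 1) * s := by omega
  have hgap' := fun p => hgap p (ind (Zr p (4 ^ (j + 1) * s)))
    ((hloc p (4 ^ (j + 1) * s) (by omega)).2.monoD (Set.subset_univ _))
    (hloc p (4 ^ (j + 1) * s) (by omega)).1 fun B hB => ind_neD hB
  generalize (4 ^ (j + 1) * s : ℤ) = W at hW4 heW hr64 hrW hgap'
  have hW0 : 0 < W := by omega
  obtain ⟨p, hp, hpz1, hpz2⟩ := exists_boxD hg hT hz₀ hδn hW0 (by linarith only [hdg, hδn, he1, hmd, heW])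
  exact pcn_leD hint hlowc hloc hconf hs0 hW0 (iE_compl hδn hb hp)
    (fun i hi v hv => pos_OD hδn hes1 hW4 hW0 (hr64 i hi) hdz'.le hpz1 hpz2 hv)
    (fun i hi v hv hvb => hRS' _ hv z₀ hz₀
      (pos_ID hδn hpz1 hpz2 (by have := hri i hi; linarith only [hdR, hδn, he1, hmd, heW, this]) hvb))
    hc₁ (hgap' p) (hrsw W hrW p).1

end Vale.Agent.P153.F.X
end

section

/-!
P153-F: decay at the boundary, `S_dec` (mirror of `P145.X.Dec`, `DecM`).
-/

namespace Vale.Agent.P153.F.X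

open Filter Topology Set MeasureTheory Relation
open Vale.Agent.P153
open Vale.Agent.P153.F.Top (Om Cone EE hv hvl ze dp vh tl Vs ThickC hB)
open Vale.Agent.P145.PT (dd TestOn bump Z0)

theorem ze_nonnegD (F : Finset Pt) {A : Om → ℝ} (h : ∀ x, 0 ≤ A x) : 0 ≤ ze F A :=
  div_nonneg (Finset.sum_nonneg fun _ _ => h _) (Nat.cast_nonneg _)

/-- Fourth moments of the bump near the boundary. -/
def S_bump (δ : ℕ → ℝ) : Prop :=
  ∀ D : Set (ℝ × ℝ), IsOpen D → Bornology.IsBounded D → ThickC D → ∃ C r : ℝ, 0 < C ∧ 0 < r ∧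
    ∀ x ∈ D, dd D x < r → ∀ᶠ n in atTop,
      EE (δ n) D (fun ω => hv (δ n) (bump (dd D x / 2) x) ω ^ 4) ≤ C

theorem s_dec_of {P : Measure (Pt → ℤ)} (hint : S_int P)
    (hlowc : S_lowc P) (hgap : S_gap P) (hrsw : S_rsw P) (hloc : S_loc) (hconf : S_conf)
    {δ : ℕ → ℝ} (hδ : ∀ n, 0 < δ n) (hlim : Tendsto δ atTop (𝓝 0)) (hmb : Top.S_mb δ)
    (hbump : S_bump δ) : Top.S_dec δ := by
  intro D hD hb hT f hf hf0 k ε hε
  obtain ⟨C, r₁, hC, hr₁, hbump⟩ := hbump D hD hb hT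
  obtain ⟨C', hmb⟩ := hmb D hD hb f ⟨hf.1, hf.2.1, Set.subset_univ _⟩ hf0 (4 * k)
  set C'' : ℝ := max C' 1 with hC''
  have hC0 : 0 < C'' := lt_of_lt_of_le one_pos (le_max_right _ _)
  -- the size of the probability
  set η : ℝ := ε ^ 2 / √(C * C'') with hη
  have hCC : 0 < C * C'' := mul_pos hC hC0
  have hη0 : 0 < η := div_pos (pow_pos hε 2) (Real.sqrt_pos.2 hCC)
  have hη2 : C * C'' * η ^ 2 = ε ^ 4 := by
    rw [hη, div_pow, Real.sq_sqrt hCC.le]
    field_simp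
  obtain ⟨r₂, hr₂, hprob⟩ := dec_probD hint hlowc hgap hrsw hloc hconf hδ hlim hD hb hT
    hf.2.1 hf.2.2 hη0
  refine ⟨min r₁ r₂, lt_min hr₁ hr₂, fun x hx hxr => ?_⟩
  have hd0 : 0 < dd D x := (Vale.Agent.P145.PT.dd_pos hD hb).2 hx
  filter_upwards [hbump x hx (hxr.trans_le (min_le_left _ _)),
    hprob x hx (hxr.trans_le (min_le_right _ _)), hmb] with n h1 hp h3
  have h4 := ze_mixed (δ := δ n) (F := Vs (δ n) D) (b := bump (dd D x / 2) x) (f := f) k
    (O := {v | dp (δ n) v ∈ Metric.closedBall x (dd D x / 2)})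
    (I := {v | dp (δ n) v ∈ tsupport f})
    (fun v hv => Vale.Agent.P145.PT.bump_supp (by linarith) x hv)
    (fun v hv => subset_tsupport f hv)
  have n1 : 0 ≤ ze (Vs (δ n) D) (fun x' => hv (δ n) (bump (dd D x / 2) x) x' ^ 4) :=
    ze_nonnegD _ fun x' => by positivity
  have n2 : 0 ≤ ze (Vs (δ n) D) (fun x' => hv (δ n) f x' ^ (4 * k)) :=
    ze_nonnegD _ fun x' => by
      rw [mul_comm, pow_mul]
      positivity
  have h5 : ze (Vs (δ n) D)
      (fun x' => hv (δ n) (bump (dd D x / 2) x) x' * hv (δ n) f x' ^ k) ^ 4 ≤ ε ^ 4 := by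
    refine h4.trans ?_
    rw [← hη2]
    refine mul_le_mul (mul_le_mul h1 (h3.trans (le_max_left _ _)) n2 hC.le)
      (pow_le_pow_left₀ (pcn_nonneg _ _ _) hp 2) (by positivity) hCC.le
  show ze (Vs (δ n) D)
      (fun x' => hv (δ n) (bump (dd D x / 2) x) x' * hv (δ n) f x' ^ k) ≤ ε
  by_contra hcon
  push Not at hcon
  exact absurd h5 (not_le.2 (pow_lt_pow_left₀ hcon hε.le (by norm_num)))

theorem bump_leD (s : ℝ) (x z : ℝ × ℝ) : bump s x z ≤ Z0⁻¹ * (s ^ 2)⁻¹ := by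
  unfold Vale.Agent.P145.PT.bump Vale.Agent.P145.PT.rs
  have h0 : 0 ≤ Z0⁻¹ * (s ^ 2)⁻¹ :=
    mul_nonneg (inv_nonneg.2 Vale.Agent.P145.PT.Z0_pos.le) (inv_nonneg.2 (sq_nonneg _))
  calc Z0⁻¹ * (s ^ 2)⁻¹ * Vale.Agent.P145.PT.kk (Vale.Agent.P145.PT.sqn (z - x) / s ^ 2)
      ≤ Z0⁻¹ * (s ^ 2)⁻¹ * 1 :=
        mul_le_mul_of_nonneg_left (Vale.Agent.P145.PT.kk_le_one _) h0
    _ = _ := mul_one _

/-- The functional as a finitely supported function. -/
theorem exists_uD {e : ℝ} (he : 0 < e) {b : ℝ × ℝ → ℝ} {x : ℝ × ℝ} {r : ℝ}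
    (hb : ∀ z, b z ≠ 0 → z ∈ Metric.closedBall x r) :
    ∃ u : Pt →₀ ℝ, (∀ v : Pt, u v = e ^ 2 * (√3 / 2 * b (dp e v))) ∧
      ∀ ω : Om, (u.sum fun v a => a * ω v) = hv e b ω := by
  obtain ⟨R, hR⟩ := (Metric.isBounded_closedBall (x := x) (r := r)).subset_ball (0 : ℝ × ℝ)
  have hfin : (Function.support fun v : Pt => e ^ 2 * (√3 / 2 * b (dp e v))).Finite := by
    refine (Top.lat_finite he R).subset fun v hv => ?_
    exact hR (hb _ (right_ne_zero_of_mul (right_ne_zero_of_mul hv)))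
  refine ⟨Finsupp.ofSupportFinite _ hfin, fun v => rfl, fun ω => ?_⟩
  unfold hv
  rw [finsum_eq_sum_of_support_subset (s := (Finsupp.ofSupportFinite
    (fun v : Pt => e ^ 2 * (√3 / 2 * b (dp e v))) hfin).support), Finset.mul_sum, Finsupp.sum]
  · refine Finset.sum_congr rfl fun v _ => ?_
    rw [Top.tl_eq]
    show e ^ 2 * (√3 / 2 * b (dp e v)) * ω v = _
    ring
  · intro v hv
    rw [Finset.mem_coe, Finsupp.mem_support_iff]
    have h1 := right_ne_zero_of_mul hv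
    rw [Top.tl_eq] at h1
    exact mul_ne_zero (pow_ne_zero 2 he.ne') h1

theorem cone_hvD {e : ℝ} (he : 0 < e) {b : ℝ × ℝ → ℝ} (h0 : ∀ z, 0 ≤ b z)
    (hb : HasCompactSupport b) (k : ℕ) : Cone fun ω => hv e b ω ^ k := by
  obtain ⟨R, hR⟩ := hb.isBounded.subset_ball (0 : ℝ × ℝ)
  obtain ⟨B, hB⟩ := Top.hv_eq_hB (R := R) he
  refine (Top.cone_pow (B := B) (δ := e) h0 k).of_eq fun ω => ?_
  rw [hB b fun z hz => hR (subset_tsupport b hz)]

theorem pos_bD {e d : ℝ} (he : 0 < e) {s : ℤ} (hes : d ≤ e * s) (hs : 1 ≤ s)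
    {x z : ℝ × ℝ} (hxz : dist x z ≤ d) {p v : Pt}
    (hp1 : |(dp e p).1 - z.1| ≤ 3 * (e * s) + 2 * e) (hp2 : |(dp e p).2 - z.2| ≤ 3 * (e * s) + 2 * e)
    (hv : dp e v ∈ Metric.closedBall x (d / 2)) {K : ℝ} (hK : 16 ≤ K) :
    |((v.1 - p.1 : ℤ) : ℝ)| ≤ K * s ∧ |((v.2 - p.2 : ℤ) : ℝ)| ≤ K * s := by
  rw [Metric.mem_closedBall, Prod.dist_eq, Real.dist_eq, Real.dist_eq, max_le_iff] at hv
  rw [Prod.dist_eq, Real.dist_eq, Real.dist_eq, max_le_iff] at hxz
  have hs' : (1 : ℝ) ≤ s := by exact_mod_cast hs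
  have h0' : e ≤ e * s := by
    have := mul_le_mul_of_nonneg_left hs' he.le
    linarith
  have key : ∀ a b c q : ℝ, |a - b| ≤ d / 2 → |b - c| ≤ d → |q - c| ≤ 3 * (e * s) + 2 * e →
      |a - q| ≤ e * (10 * s) := by
    intro a b c q h1 h2 h3
    have : a - q = (a - b) + (b - c) - (q - c) := by ring
    rw [this]
    have i1 := abs_sub ((a - b) + (b - c)) (q - c)
    have i2 := abs_add_le (a - b) (b - c)
    linarith
  obtain ⟨a1, a2⟩ := dp_ge he (key _ _ _ _ hv.1 hxz.1 hp1) (key _ _ _ _ hv.2 hxz.2 hp2)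
  have h3 : 16 * (s : ℝ) ≤ K * s := mul_le_mul_of_nonneg_right hK (by linarith)
  push_cast
  exact ⟨a1.trans (by linarith), a2.trans (by linarith)⟩

theorem u_leD {e d s : ℝ} (he : 0 < e) (hd : 0 < d) (hs : 0 < s) (hes : e * s ≤ 101 / 100 * d)
    {y K : ℝ} (hy : y ≤ Z0⁻¹ * ((d / 2) ^ 2)⁻¹) (hK : 5 * Z0⁻¹ ≤ K) : e ^ 2 * y ≤ K / s ^ 2 := by
  have hZ : 0 < Z0⁻¹ := inv_pos.2 Vale.Agent.P145.PT.Z0_pos
  have h1 : (e * s) ^ 2 ≤ (101 / 100 * d) ^ 2 := pow_le_pow_left₀ (by positivity) hes 2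
  rw [le_div_iff₀ (by positivity)]
  calc e ^ 2 * y * s ^ 2 = (e * s) ^ 2 * y := by ring
    _ ≤ (e * s) ^ 2 * (Z0⁻¹ * ((d / 2) ^ 2)⁻¹) := mul_le_mul_of_nonneg_left hy (sq_nonneg _)
    _ ≤ (101 / 100 * d) ^ 2 * (Z0⁻¹ * ((d / 2) ^ 2)⁻¹) :=
        mul_le_mul_of_nonneg_right h1 (by positivity)
    _ = (101 / 100) ^ 2 * 4 * Z0⁻¹ := by field_simp; ring
    _ ≤ 5 * Z0⁻¹ := by nlinarith
    _ ≤ K := hK

theorem s_bump {P : Measure (Pt → ℤ)} (hlow : S_low P)
    (hmom : S_mom P) (hrsw : S_rsw P) (hloc : S_loc) {δ : ℕ → ℝ} (hδ : ∀ n, 0 < δ n)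
    (hlim : Tendsto δ atTop (𝓝 0)) : S_bump δ := by
  intro D hD hb hT
  obtain ⟨g, hg, hT⟩ := hT
  set K : ℝ := max 16 (5 * Z0⁻¹) with hK
  have hK10 : 16 ≤ K := le_max_left _ _
  obtain ⟨C, s₁, hs₁, hmom⟩ := hmom K 2 (by linarith)
  obtain ⟨c₁, hc₁, r₀, hr₀, hrsw⟩ := hrsw
  refine ⟨|C| / c₁ + 1, g / 16, by positivity, by positivity, fun x hx hxr => ?_⟩
  have hd0 : 0 < dd D x := (Vale.Agent.P145.PT.dd_pos hD hb).2 hx
  obtain ⟨z₀, hz₀, hdz⟩ :=
    hD.isClosed_compl.exists_infDist_eq_dist (Vale.Agent.P145.PT.compl_ne hb) x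
  have hdz' : dist x z₀ = dd D x := hdz.symm
  generalize dd D x = d at hxr hd0 hdz' ⊢
  have hN₀1 : (1 : ℝ) ≤ max (s₁ : ℝ) r₀ := le_max_of_le_left (by exact_mod_cast hs₁)
  have hev : ∀ᶠ n in atTop, δ n < min (d / 100) (d / max (s₁ : ℝ) r₀) :=
    (tendsto_order.1 hlim).2 _ (lt_min (by positivity) (by positivity))
  filter_upwards [hev] with n hn
  have hδn := hδ n
  generalize δ n = e at hn hδn ⊢
  have he1 : e < d / 100 := hn.trans_le (min_le_left _ _)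
  obtain ⟨hes1, hes3, hsN⟩ := scaleD hδn hN₀1 he1 (hn.trans_le (min_le_right _ _))
  generalize ⌈d / e⌉ = s at hes1 hes3 hsN
  have hss : s₁ ≤ s := by exact_mod_cast (le_max_left (s₁ : ℝ) r₀).trans hsN
  have hsr : r₀ ≤ s := by exact_mod_cast (le_max_right (s₁ : ℝ) r₀).trans hsN
  have hs0 : 1 ≤ s := hs₁.trans hss
  have hs0' : (0 : ℝ) < s := by exact_mod_cast hs0
  obtain ⟨p, hp, hpz1, hpz2⟩ := exists_boxD hg hT hz₀ hδn (W := s) hs0 (by linarith)
  set b : ℝ × ℝ → ℝ := bump (d / 2) x with hbdef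
  have hbs : ∀ z, b z ≠ 0 → z ∈ Metric.closedBall x (d / 2) := fun z hz =>
    Vale.Agent.P145.PT.bump_supp (by linarith) x hz
  have hb0 : ∀ z, 0 ≤ b z := fun z => Vale.Agent.P145.PT.bump_nonneg _ _ _
  obtain ⟨u, hu, hus⟩ := exists_uD hδn hbs
  have hs3 : √3 / 2 ≤ 1 := by
    have : √3 ≤ 2 := by
      rw [Real.sqrt_le_left (by norm_num)]
      norm_num
    linarith
  have h1 := hmom s hss p u (fun v => by
      rw [hu]
      refine ⟨mul_nonneg (sq_nonneg _) (mul_nonneg (by positivity) (hb0 _)),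
        u_leD hδn hd0 hs0' hes3 ?_ (le_max_right _ _)⟩
      have h2 : √3 / 2 * b (dp e v) ≤ 1 * b (dp e v) := mul_le_mul_of_nonneg_right hs3 (hb0 _)
      rw [one_mul] at h2
      exact h2.trans (bump_leD _ _ _))
    (fun v hv => by
      rw [hu] at hv
      exact pos_bD hδn hes1 hs0 hdz'.le hpz1 hpz2
        (hbs _ (right_ne_zero_of_mul (right_ne_zero_of_mul hv))) hK10)
  have e1 : (fun ω : Om => (u.sum fun v a => a * ω v) ^ (2 * 2)) = fun ω => hv e b ω ^ 4 := by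
    funext ω
    rw [hus]
  rw [e1] at h1
  obtain ⟨-, hf1⟩ := hloc p s hs0
  have hΘ : Fn (tE (Vs e D : Set Pt))ᶜ (ind (Zr p s)) :=
    hf1.monoD fun w hw => iE_compl hδn hb hp hw.1
  have h2 := hlow (Vs e D) (ind (Zr p s)) (fun ω => hv e b ω ^ 4) hΘ
    (cone_hvD hδn hb0
      (HasCompactSupport.intro' (isCompact_closedBall x (d / 2)) Metric.isClosed_closedBall
        fun z hz => by_contra fun h => hz (hbs z h)) 4)
  have h3 := (hrsw s hsr p).1
  show ze (Vs e D) (fun x' => hv e b x' ^ 4) ≤ |C| / c₁ + 1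
  have n1 : 0 ≤ ze (Vs e D) (fun x' => hv e b x' ^ 4) :=
    ze_nonnegD _ fun x' => by positivity
  have h4 : ze (Vs e D) (fun x' => hv e b x' ^ 4) * c₁ ≤ |C| :=
    (mul_le_mul_of_nonneg_left h3 n1).trans (h2.trans (h1.trans (le_abs_self C)))
  have h5 : ze (Vs e D) (fun x' => hv e b x' ^ 4) ≤ |C| / c₁ := by
    rw [le_div_iff₀ hc₁]; exact h4
  linarith

/-- The decay at the boundary. -/
theorem s_dec {P : Measure (Pt → ℤ)} (hint : S_int P)
    (hlow : S_low P) (hlowc : S_lowc P) (hgap : S_gap P) (hmom : S_mom P)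
    (hrsw : S_rsw P) (hloc : S_loc) (hconf : S_conf) {δ : ℕ → ℝ} (hδ : ∀ n, 0 < δ n)
    (hlim : Tendsto δ atTop (𝓝 0)) (hmb : Top.S_mb δ) : Top.S_dec δ :=
  s_dec_of hint hlowc hgap hrsw hloc hconf hδ hlim hmb
    (s_bump hlow hmom hrsw hloc hδ hlim)

end Vale.Agent.P153.F.X
end

section

/-!
# The event `Arm`: one cluster of `S` contains the three circuits
-/

namespace Vale.Agent.P153.F.RSW

open Vale.Agent.P153 Vale.Agent.P153.Topo

/-- `C` meets every path of the triangular lattice from the box with centre `(p, q)` and half side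
`t` to the complement of the interior of the box with half side `2t`. -/
def Sep (C : Set (ℤ × ℤ)) (p q t : ℤ) : Prop :=
  ∀ (D : Set (ℤ × ℤ)) (x y : ℤ × ℤ), Conn D x y → x ∈ pr (p - t) (p + t) (q - t) (q + t) →
    (y.1 ≤ 2 * (p - 2 * t) ∨ 2 * (p + 2 * t) ≤ y.1 ∨ y.2 ≤ 2 * (q - 2 * t) ∨
      2 * (q + 2 * t) ≤ y.2) → (D ∩ C).Nonempty

/-- On `Arm` one cluster of `S` in a box contains circuits around the three boxes. -/
theorem Arm.joined {s R : ℤ} (hs : 0 < s) (hsR : s ≤ 2 * R) {S : Set (ℤ × ℤ)} (hA : Arm s R S) :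
    ∃ o : ℤ × ℤ, o ∈ S ∩ pr (-(4 * R)) (6 * R) (-(8 * R)) (4 * R) ∧
      Sep {w | Conn (S ∩ pr (-(4 * R)) (6 * R) (-(8 * R)) (4 * R)) o w} 0 0 s ∧
      Sep {w | Conn (S ∩ pr (-(4 * R)) (6 * R) (-(8 * R)) (4 * R)) o w} 0 0 (2 * R) ∧
      Sep {w | Conn (S ∩ pr (-(4 * R)) (6 * R) (-(8 * R)) (4 * R)) o w} (3 * R) 0 R := by
  obtain ⟨hA1, hA2, hA3, hH⟩ := hA
  have hR : 0 < R := by omega
  obtain ⟨o1, ho1, h1⟩ := hA1.cluster hs
  obtain ⟨o2, ho2, h2⟩ := hA2.cluster (by omega)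
  obtain ⟨o3, ho3, h3⟩ := hA3.cluster hR
  obtain ⟨x, y, hxy, hx, hy, hy1, hy2⟩ := hH
  set B := pr (-(4 * R)) (6 * R) (-(8 * R)) (4 * R) with hB
  have s1 : annR 0 0 s ⊆ B :=
    (annR_sub 0 0 s).trans (pr_mono (by omega) (by omega) (by omega) (by omega))
  have s2 : annR 0 0 (2 * R) ⊆ B :=
    (annR_sub 0 0 (2 * R)).trans (pr_mono (by omega) (by omega) (by omega) (by omega))
  have s3 : annR (3 * R) 0 R ⊆ B :=
    (annR_sub (3 * R) 0 R).trans (pr_mono (by omega) (by omega) (by omega) (by omega))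
  have s4 : hex (-(2 * R)) 0 (2 * R) ⊆ B := by
    intro z hz
    rw [mem_hex] at hz
    rw [hB, mem_pr]
    omega
  -- the path meets the circuits 1 and 2
  obtain ⟨w1, hw1, hw1'⟩ := h1 _ y x (c_cluster hxy.symm) (by rw [mem_pr]; omega)
    (by right; right; left; omega)
  obtain ⟨w2, hw2, hw2'⟩ := h2 _ y x (c_cluster hxy.symm) (by rw [mem_pr]; omega)
    (by right; right; left; omega)
  have e1 : Conn (S ∩ B) y o1 := c_join s4 s1 hw1 hw1'
  have e2 : Conn (S ∩ B) y o2 := c_join s4 s2 hw2 hw2'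
  have e12 : Conn (S ∩ B) o2 o1 := e2.symm.trans e1
  -- the circuits 2 and 3 meet
  obtain ⟨v, hv, hv'⟩ := h2 {z | z.2 = 0 ∧ 0 ≤ z.1} (0, 0) (8 * R, 0)
    (conn_row (fun i hi _ => ⟨rfl, by simp only; omega⟩)) (by rw [mem_pr]; simp only; omega)
    (by right; left; simp only; omega)
  obtain ⟨u, hu, hu'⟩ := h2 {z | z.2 = 0 ∧ z.1 ≤ 0} (0, 0) (-(8 * R), 0)
    (conn_row (fun i _ hi => ⟨rfl, by simp only; omega⟩)) (by rw [mem_pr]; simp only; omega)
    (by left; simp only; omega)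
  have hvm := hv'.right_mem.2
  have hum := hu'.right_mem.2
  obtain ⟨hv1, hv2⟩ := hv
  obtain ⟨hu1, hu2⟩ := hu
  obtain ⟨hvm1, hvm2⟩ := hvm
  rw [mem_pr] at hvm1
  have hvu : Conn (S ∩ annR 0 0 (2 * R)) v u := hv'.symm.trans hu'
  obtain ⟨w3, hw3, hw3'⟩ := h3 _ v u (c_cluster hvu) (by rw [mem_pr]; omega)
    (by left; omega)
  have e3 : Conn (S ∩ B) v o3 := c_join s2 s3 hw3 hw3'
  have e23 : Conn (S ∩ B) o2 o3 := (hv'.mono (Set.inter_subset_inter_right S s2)).trans e3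
  refine ⟨o2, ⟨ho2.1, s2 ho2.2⟩, ?_, ?_, ?_⟩
  · intro D x y hD hx hy
    obtain ⟨w, hw, hw'⟩ := h1 D x y hD hx hy
    exact ⟨w, hw, e12.trans (hw'.mono (Set.inter_subset_inter_right S s1))⟩
  · intro D x y hD hx hy
    obtain ⟨w, hw, hw'⟩ := h2 D x y hD hx hy
    exact ⟨w, hw, hw'.mono (Set.inter_subset_inter_right S s2)⟩
  · intro D x y hD hx hy
    obtain ⟨w, hw, hw'⟩ := h3 D x y hD hx hy
    exact ⟨w, hw, e23.trans (hw'.mono (Set.inter_subset_inter_right S s3))⟩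

end Vale.Agent.P153.F.RSW
end

section

/-!
# P153, block F-B: anti-concentration, statement

Heights `φ : ℤ × ℤ → ℤ` with steps at most one, `φ 0 = 0`; lattice coordinates.
-/

namespace Vale.Agent.P153.F.RSW

open MeasureTheory

/-- Linear statistics of the heights. -/
noncomputable def evT (r : (ℤ × ℤ) →₀ ℝ) (φ : ℤ × ℤ → ℤ) : ℝ := r.sum fun q a => a * (φ q : ℝ)

/-- Bounded second moments at comparable scales, and anti-concentration between the scales `s` and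
`2 M s`. -/
def AcT (P : Measure (ℤ × ℤ → ℤ)) : Prop :=
  ∃ C : ℝ, ∀ K ε : ℝ, 0 < ε → ∃ M1 : ℕ, 1 ≤ M1 ∧ ∀ M : ℕ, M1 ≤ M → ∃ s0 : ℕ, 1 ≤ s0 ∧
    ∀ s : ℕ, s0 ≤ s → ∃ r1 o1 r2 o2 : (ℤ × ℤ) →₀ ℝ,
      ((r1.sum fun _ a => a) = 1 ∧ (o1.sum fun _ a => a) = 1 ∧ (r2.sum fun _ a => a) = 1 ∧
        (o2.sum fun _ a => a) = 1) ∧
      (∀ q ∈ r1.support, |q.1| < s ∧ |q.2| < s) ∧
      (∀ q ∈ o1.support, 2 * s < q.1) ∧
      (∀ q ∈ r2.support, |q.1 - 3 * (2 * M * s)| < 2 * M * s ∧ |q.2| < 2 * M * s) ∧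
      (∀ q ∈ o2.support, 2 * (2 * M * s) < q.1 - 3 * (2 * M * s)) ∧
      ∫ φ, (evT r1 φ - evT o1 φ) ^ 2 ∂P ≤ C ∧
      ∫ φ, (evT r2 φ - evT o2 φ) ^ 2 ∂P ≤ C ∧
      P.real {φ | |evT r1 φ - evT r2 φ| ≤ K} ≤ ε

end Vale.Agent.P153.F.RSW
end

section

/-!
# P153, block F-B: anti-concentration of the smeared height differences in the plane
-/

namespace Vale.Agent.P153.F.RSW.AC

open MeasureTheory Filter Topology ProbabilityTheory
open Vale.Agent.P153.GFF

variable {P : Measure (ℤ × ℤ → ℤ)} {κ : ℝ}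

/-! ### Weights of the bumps -/

lemma phi_bd (c z : ℝ × ℝ) (h : |c.1| + |c.2| + 1 < |z.1| ∨ |c.1| + |c.2| + 1 < |z.2|) :
    phi c z = 0 := by
  by_contra hne
  have h1 := phi_supp hne
  have h2 := abs_sub_abs_le_abs_sub z.1 c.1
  have h3 := abs_sub_abs_le_abs_sub z.2 c.2
  have h4 := abs_nonneg c.1
  have h5 := abs_nonneg c.2
  rcases h with h | h
  · linarith [h1.1]
  · linarith [h1.2]

/-- The weights of the bump at `c` at scale `s`. -/
noncomputable def bw (c : ℝ × ℝ) (s : ℕ) : (ℤ × ℤ) →₀ ℝ :=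
  Finsupp.onFinset (box (1 / s) (|c.1| + |c.2| + 1))
    (fun v => if v ∈ box (1 / s) (|c.1| + |c.2| + 1) then wt (1 / s) (phi c) v else 0) (by
      intro v hv
      by_contra h
      rw [if_neg h] at hv
      exact hv rfl)

lemma bw_sum (c : ℝ × ℝ) (s : ℕ) (g : ℤ × ℤ → ℝ → ℝ) (hg : ∀ v, g v 0 = 0) :
    (bw c s).sum g = ∑ v ∈ box (1 / s) (|c.1| + |c.2| + 1), g v (wt (1 / s) (phi c) v) := by
  unfold bw
  rw [Finsupp.onFinset_sum _ hg]
  refine Finset.sum_congr rfl fun v hv => ?_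
  rw [if_pos hv]

lemma ev_bw (c : ℝ × ℝ) {s : ℕ} (hs : 0 < s) (φ : ℤ × ℤ → ℤ) :
    evT (bw c s) φ = smear φ (1 / s) (phi c) := by
  have h0 : (0 : ℝ) < 1 / s := by positivity
  unfold evT
  rw [bw_sum c s _ (fun v => by simp), smear_eq_sum h0 (by positivity) (phi_cont c) (phi_compact c)
    (phi_bd c)]
  exact Finset.sum_congr rfl fun v _ => mul_comm _ _

lemma mass_bw (c : ℝ × ℝ) {s : ℕ} (hs : 0 < s) : ((bw c s).sum fun _ a => a) = 1 := by
  have h0 : (0 : ℝ) < 1 / s := by positivity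
  rw [bw_sum c s _ (fun v => rfl), sum_wt h0 (by positivity) (phi_cont c) (phi_compact c)
    (phi_bd c), phi_int]

lemma supp_bw (c : ℝ × ℝ) {s : ℕ} (hs : 0 < s) {v : ℤ × ℤ} (hv : v ∈ (bw c s).support) :
    |(v.1 : ℝ) + v.2 / 2 - s * c.1| ≤ s / 2 + 2 ∧ |(v.2 : ℝ) * (√3 / 2) - s * c.2| ≤ s / 2 + 1 := by
  have hs' : (0 : ℝ) < s := by exact_mod_cast hs
  rw [Finsupp.mem_support_iff] at hv
  have hw : wt (1 / s) (phi c) v ≠ 0 := by
    intro h
    apply hv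
    show (if v ∈ box (1 / s) (|c.1| + |c.2| + 1) then wt (1 / s) (phi c) v else 0) = 0
    rw [h, ite_self]
  by_contra hno
  apply hw
  unfold wt
  have h0 : ∀ u : ℝ × ℝ, ker u * phi c ((1 / (s : ℝ)) • (u + pos v)) = 0 := by
    intro u
    by_contra hne
    have hk : ker u ≠ 0 := left_ne_zero_of_mul hne
    have hf : phi c ((1 / (s : ℝ)) • (u + pos v)) ≠ 0 := right_ne_zero_of_mul hne
    have h1 : ¬(2 < |u.1| ∨ 1 < |u.2|) := fun h => hk (ker_eq_zero h)
    rw [not_or, not_lt, not_lt] at h1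
    obtain ⟨h2, h3⟩ := phi_supp hf
    simp only [Prod.smul_fst, Prod.smul_snd, Prod.fst_add, Prod.snd_add, pos, smul_eq_mul] at h2 h3
    have key : ∀ x y p d : ℝ, |1 / (s : ℝ) * (x + p) - y| < 1 / 2 → |x| ≤ d →
        |p - s * y| ≤ s / 2 + d := by
      intro x y p d a1 a2
      have e : p - s * y = s * (1 / (s : ℝ) * (x + p) - y) - x := by
        field_simp
        ring
      rw [e]
      refine (abs_sub _ _).trans ?_
      rw [abs_mul, abs_of_pos hs']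
      have := mul_le_mul_of_nonneg_left a1.le hs'.le
      linarith
    exact hno ⟨key _ _ _ _ h2 h1.1, key _ _ _ _ h3 h1.2⟩
  simp_rw [h0]
  simp

lemma s3 : (17 : ℝ) / 10 < √3 ∧ √3 < 18 / 10 := by
  constructor
  · rw [Real.lt_sqrt (by norm_num)]
    norm_num
  · rw [Real.sqrt_lt' (by norm_num)]
    norm_num

/-- The support of the weights of a bump centred on the horizontal axis. -/
lemma supp_ax (a : ℝ) {s : ℕ} (hs : 20 ≤ s) {v : ℤ × ℤ} (hv : v ∈ (bw (a, 0) s).support) :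
    |(v.2 : ℝ)| < s ∧ |(v.1 : ℝ) - s * a| < s := by
  have hs' : (20 : ℝ) ≤ s := by exact_mod_cast hs
  obtain ⟨h1, h2⟩ := supp_bw (a, 0) (by omega) hv
  simp only [mul_zero, sub_zero] at h1 h2
  rw [abs_mul, abs_of_pos (by positivity : (0 : ℝ) < √3 / 2)] at h2
  have h3 := s3.1
  have h4 : |(v.2 : ℝ)| ≤ (s / 2 + 1) * (10 / 8) := by
    have h5 : |(v.2 : ℝ)| * (17 / 20) ≤ s / 2 + 1 := by
      refine le_trans ?_ h2
      exact mul_le_mul_of_nonneg_left (by linarith) (abs_nonneg _)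
    nlinarith [abs_nonneg (v.2 : ℝ)]
  constructor
  · linarith
  · have h6 : (v.1 : ℝ) - s * a = ((v.1 : ℝ) + v.2 / 2 - s * a) - v.2 / 2 := by ring
    rw [h6]
    refine lt_of_le_of_lt (abs_sub _ _) ?_
    rw [abs_div, abs_of_pos (by norm_num : (0 : ℝ) < 2)]
    linarith

/-! ### Linearity -/

lemma smear_sub (h : ℤ × ℤ → ℤ) {δ : ℝ} (hδ : 0 < δ) {F G : ℝ × ℝ → ℝ} (hF : Continuous F)
    (cF : HasCompactSupport F) (hG : Continuous G) (cG : HasCompactSupport G) :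
    smear h δ (fun x => F x - G x) = smear h δ F - smear h δ G := by
  obtain ⟨R, hR0, hR⟩ := g3radius cF
  obtain ⟨S, hS0, hS⟩ := g3radius cG
  have hM0 : 0 ≤ max R S := le_max_of_le_left hR0
  have hFM : ∀ z : ℝ × ℝ, (max R S < |z.1| ∨ max R S < |z.2|) → F z = 0 := fun z hz =>
    hR z (hz.imp (fun h => (le_max_left _ _).trans_lt h) (fun h => (le_max_left _ _).trans_lt h))
  have hGM : ∀ z : ℝ × ℝ, (max R S < |z.1| ∨ max R S < |z.2|) → G z = 0 := fun z hz =>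
    hS z (hz.imp (fun h => (le_max_right _ _).trans_lt h) (fun h => (le_max_right _ _).trans_lt h))
  have e0 : smear h δ (fun x => F x - G x) =
      ∑ v ∈ box δ (max R S), (h v : ℝ) * wt δ (fun x => F x - G x) v :=
    smear_eq_sum hδ hM0 (hF.sub hG) (cF.sub cG) (fun z hz => by
      show F z - G z = 0
      rw [hFM z hz, hGM z hz, sub_zero]) h
  rw [e0, smear_eq_sum hδ hM0 hF cF hFM h, smear_eq_sum hδ hM0 hG cG hGM h, ← Finset.sum_sub_distrib]
  refine Finset.sum_congr rfl fun v _ => ?_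
  have h2 : wt δ (fun x => F x - G x) v = wt δ F v - wt δ G v := by
    unfold wt
    rw [← mul_sub, ← integral_sub (g3wt_int hδ hF cF v) (g3wt_int hδ hG cG v)]
    congr 1
    refine integral_congr_ae (Eventually.of_forall fun u => ?_)
    simp only
    ring
  rw [h2, mul_sub]

lemma gffCov_smul (t : ℝ) (f : ℝ × ℝ → ℝ) :
    gffCov (fun x => t * f x) (fun x => t * f x) = t ^ 2 * gffCov f f := by
  unfold gffCov
  rw [← integral_const_mul]
  congr 1
  funext x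
  rw [← integral_const_mul]
  congr 1
  funext y
  ring

lemma smear_smul (h : ℤ × ℤ → ℤ) (δ t : ℝ) (f : ℝ × ℝ → ℝ) :
    smear h δ (fun x => t * f x) = t * smear h δ f := by
  unfold smear
  rw [← integral_const_mul]
  congr 1
  funext x
  ring

lemma test_smul {f : ℝ × ℝ → ℝ} (hf : Test f) (t : ℝ) : Test (fun x => t * f x) := by
  refine ⟨contDiff_const.mul hf.1, hf.2.1.mul_left, ?_⟩
  rw [integral_const_mul, hf.2.2, mul_zero]

lemma test_sub (c d : ℝ × ℝ) : Test (fun x => phi c x - phi d x) := by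
  refine ⟨(phi_smooth _).sub (phi_smooth _), (phi_compact _).sub (phi_compact _), ?_⟩
  rw [integral_sub (phi_integrable _) (phi_integrable _), phi_int, phi_int, sub_self]

/-! ### Anti-concentration -/

theorem anti_dif (hP : Plane P) (hS : SpecOut P κ) (hC : RowCLT P κ) (hκ : 0 < κ) (K ε : ℝ)
    (hε : 0 < ε) :
    ∃ M1 : ℕ, 1 ≤ M1 ∧ ∀ M : ℕ, M1 ≤ M → ∀ᶠ δ : ℝ in 𝓝[>] 0,
      P.real {φ | |smear φ δ (dif (2 * M))| ≤ K} ≤ ε := by
  have := hP.prob
  have hs3 : (0 : ℝ) < √3 := by positivity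
  set lam : ℝ := κ / √3 with hlam
  have hl : 0 < lam := by positivity
  obtain ⟨a, ha⟩ := cov_dif
  set K' : ℝ := max K 1 with hK'
  have hK1 : 0 < K' := lt_of_lt_of_le one_pos (le_max_right _ _)
  set V : ℝ := (4 * K' / ε) ^ 2 / lam + 1 with hV
  refine ⟨⌈Real.exp (2 * Real.pi * (V - a))⌉₊ + 1, by omega, fun M hM => ?_⟩
  have hM1 : (1 : ℝ) ≤ M := by
    have : 1 ≤ M := by omega
    exact_mod_cast this
  have hl1 : (1 : ℝ) ≤ 2 * M := by linarith
  have hl0 : (0 : ℝ) < 2 * M := by linarith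
  have hMe : Real.exp (2 * Real.pi * (V - a)) ≤ 2 * M := by
    have h1 := Nat.le_ceil (Real.exp (2 * Real.pi * (V - a)))
    have h2 : ((⌈Real.exp (2 * Real.pi * (V - a))⌉₊ : ℕ) : ℝ) ≤ M := by
      have : ⌈Real.exp (2 * Real.pi * (V - a))⌉₊ ≤ M := by omega
      exact_mod_cast this
    linarith
  have hlog : 2 * Real.pi * (V - a) ≤ Real.log (2 * M) := by
    rw [← Real.log_exp (2 * Real.pi * (V - a))]
    exact Real.log_le_log (Real.exp_pos _) hMe
  have hcov : V ≤ gffCov (dif (2 * M)) (dif (2 * M)) := by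
    have h1 := ha (2 * M) hl1
    have h2 : V - a ≤ (2 * Real.pi)⁻¹ * Real.log (2 * M) := by
      have h3 := mul_le_mul_of_nonneg_left hlog pi_pos'.le
      have h4 : (2 * Real.pi)⁻¹ * (2 * Real.pi * (V - a)) = V - a := by
        have : (2 * Real.pi) ≠ 0 := by positivity
        field_simp
      linarith
    linarith
  have hVpos : 0 < V := by positivity
  have hTest : Test (dif (2 * M)) := dif_test hl0
  set v : ℝ := lam * gffCov (dif (2 * M)) (dif (2 * M)) with hv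
  have hv0 : 0 < v := mul_pos hl (lt_of_lt_of_le hVpos hcov)
  have hvV : (4 * K' / ε) ^ 2 ≤ v := by
    have h1 : lam * V ≤ v := mul_le_mul_of_nonneg_left hcov hl.le
    have h2 : lam * V = (4 * K' / ε) ^ 2 + lam := by
      rw [hV]
      field_simp
    linarith
  have hlim : ∀ t : ℝ, Tendsto (fun δ => ∫ φ, Complex.exp (Complex.I *
      ((t * smear φ δ (dif (2 * M)) : ℝ) : ℂ)) ∂P) (𝓝[>] 0)
      (𝓝 (Complex.exp (-((v / 2 * t ^ 2 : ℝ) : ℂ)))) := by
    intro t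
    have h1 := char_fun hP hS hC (test_smul hTest t)
    simp_rw [smear_smul, gffCov_smul] at h1
    have e : κ / √3 * (t ^ 2 * gffCov (dif (2 * M)) (dif (2 * M))) / 2 = v / 2 * t ^ 2 := by
      rw [hv, hlam]
      ring
    rw [e] at h1
    exact h1
  have hmain := Vale.Agent.P145.FB.AC.anti (P := P) (X := fun δ φ => smear φ δ (dif (2 * M)))
    (fun δ => (g3meas δ hTest).aemeasurable) hv0 hlim hK1 (η := ε / 2) (by positivity)
  filter_upwards [hmain] with δ hδ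
  have h1 : 4 * K' / ε ≤ Real.sqrt v := by
    refine Real.le_sqrt_of_sq_le hvV
  have h2 : 0 < 4 * K' / ε := by positivity
  have h3 : 2 * K' / Real.sqrt v ≤ ε / 2 := by
    rw [div_le_div_iff₀ (lt_of_lt_of_le h2 h1) (by norm_num)]
    have h4 := mul_le_mul_of_nonneg_left h1 hε.le
    have h5 : ε * (4 * K' / ε) = 4 * K' := by field_simp
    linarith
  have h4 : P.real {φ | |smear φ δ (dif (2 * M))| ≤ K} ≤
      P.real {φ | |smear φ δ (dif (2 * M))| ≤ K'} := by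
    refine measureReal_mono fun φ hφ => ?_
    have hω' : |smear φ δ (dif (2 * M))| ≤ K := hφ
    exact hω'.trans (le_max_left _ _)
  linarith

/-- **Anti-concentration.** -/
theorem acT (hP : Plane P) (hS : SpecOut P κ) (hC : RowCLT P κ) (hκ : 0 < κ) : AcT P := by
  obtain ⟨D1, hD1⟩ := second hP hS (test_sub (0, 0) (6, 0))
  obtain ⟨D2, hD2⟩ := second hP hS (test_sub (3, 0) (9, 0))
  refine ⟨max D1 D2, fun K ε hε => ?_⟩
  obtain ⟨M1, hM1, hM⟩ := anti_dif hP hS hC hκ K ε hε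
  refine ⟨M1, hM1, fun M hMM => ?_⟩
  have hMpos : 1 ≤ M := le_trans hM1 hMM
  have hMr : (1 : ℝ) ≤ M := by exact_mod_cast hMpos
  have t1 : Tendsto (fun s : ℕ => 1 / (s : ℝ)) atTop (𝓝[>] 0) := by
    rw [tendsto_nhdsWithin_iff]
    refine ⟨tendsto_one_div_atTop_nhds_zero_nat, ?_⟩
    filter_upwards [eventually_gt_atTop 0] with s hs
    have : (0 : ℝ) < s := by exact_mod_cast hs
    exact one_div_pos.2 this
  have t2 : Tendsto (fun s : ℕ => 1 / ((2 * M * s : ℕ) : ℝ)) atTop (𝓝[>] 0) := by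
    refine t1.comp ?_
    refine tendsto_atTop_mono (fun s => ?_) tendsto_id
    show s ≤ 2 * M * s
    nlinarith
  have ev1 := t1.eventually hD1
  have ev2 := t2.eventually hD2
  have ev3 := t1.eventually (hM M hMM)
  obtain ⟨s0, hs0⟩ := Filter.eventually_atTop.1 (ev1.and (ev2.and ev3))
  refine ⟨max s0 20, by omega, fun s hs => ?_⟩
  have hs4 : 20 ≤ s := le_trans (le_max_right _ _) hs
  obtain ⟨h1, h2, h3⟩ := hs0 s (le_trans (le_max_left _ _) hs)
  have hspos : 0 < s := by omega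
  have hRpos : 0 < 2 * M * s := by positivity
  have hs4' : 20 ≤ 2 * M * s := by nlinarith
  have hsr : (20 : ℝ) ≤ s := by exact_mod_cast hs4
  have hRr : (20 : ℝ) ≤ ((2 * M * s : ℕ) : ℝ) := by exact_mod_cast hs4'
  refine ⟨bw (0, 0) s, bw (6, 0) s, bw (3, 0) (2 * M * s), bw (9, 0) (2 * M * s),
    ⟨mass_bw _ hspos, mass_bw _ hspos, mass_bw _ hRpos, mass_bw _ hRpos⟩, ?_, ?_, ?_, ?_, ?_, ?_, ?_⟩
  · intro q hq
    obtain ⟨a2, a1⟩ := supp_ax 0 hs4 hq
    rw [mul_zero, sub_zero] at a1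
    constructor
    · exact_mod_cast a1
    · exact_mod_cast a2
  · intro q hq
    obtain ⟨-, a1⟩ := supp_ax 6 hs4 hq
    rw [abs_lt] at a1
    rify
    linarith [a1.1]
  · intro q hq
    obtain ⟨a2, a1⟩ := supp_ax 3 hs4' hq
    push_cast at a1 a2
    constructor
    · rify
      have e : (q.1 : ℝ) - 3 * (2 * M * s) = (q.1 : ℝ) - 2 * M * s * 3 := by ring
      rw [e]
      exact a1
    · rify
      exact a2
  · intro q hq
    obtain ⟨-, a1⟩ := supp_ax 9 hs4' hq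
    push_cast at a1
    rw [abs_lt] at a1
    push_cast at hRr
    rify
    linarith [a1.1]
  · refine le_trans ?_ (le_max_left _ _)
    have h0 : (0 : ℝ) < 1 / s := by positivity
    refine le_trans (le_of_eq ?_) h1
    refine integral_congr_ae (Eventually.of_forall fun φ => ?_)
    simp only
    rw [ev_bw _ hspos, ev_bw _ hspos,
      smear_sub φ h0 (phi_cont _) (phi_compact _) (phi_cont _) (phi_compact _)]
  · refine le_trans ?_ (le_max_right _ _)
    have h0 : (0 : ℝ) < 1 / ((2 * M * s : ℕ) : ℝ) := by positivity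
    refine le_trans (le_of_eq ?_) h2
    refine integral_congr_ae (Eventually.of_forall fun φ => ?_)
    simp only
    rw [ev_bw _ hRpos, ev_bw _ hRpos,
      smear_sub φ h0 (phi_cont _) (phi_compact _) (phi_cont _) (phi_compact _)]
  · have hl0 : (0 : ℝ) < 2 * M := by linarith
    have e : ∀ φ : ℤ × ℤ → ℤ, evT (bw (0, 0) s) φ - evT (bw (3, 0) (2 * M * s)) φ =
        smear φ (1 / s) (dif (2 * M)) := by
      intro φ
      have hs1 : (0 : ℝ) < 1 / s := by positivity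
      have e1 : (1 : ℝ) / ((2 * M * s : ℕ) : ℝ) = 1 / s / (2 * M) := by
        push_cast
        field_simp
      have e2 := smear_sub φ hs1 (phi_cont (0, 0)) (phi_compact _)
        (psi_smooth (2 * M) (3, 0)).continuous (psi_compact hl0 _)
      rw [ev_bw _ hspos, ev_bw _ hRpos, e1, ← smear_scale φ hl0, ← e2]
      rfl
    simp_rw [e]
    exact h3

end Vale.Agent.P153.F.RSW.AC
end

section

/-!
P153-F, block X (triangular lattice): the input `MomJ` of the counting lemma from the logarithmic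
growth of second moments (`LogT`), the flip and the moment bound of the plane measure.
-/

namespace Vale.Agent.P153.F.X

open Finset MeasureTheory
open Vale.Agent.P153

/-- Logarithmic growth of the second moments. -/
def LogT (P : Measure (Pt → ℤ)) : Prop :=
  ∃ (w : ℤ → (Pt →₀ ℝ)) (K : ℝ) (s₁ : ℤ), 0 ≤ K ∧
    (∀ s, s₁ ≤ s → massT (w s) = 1 ∧ (∀ v, 0 ≤ w s v) ∧ ∀ v ∈ (w s).support, v ∈ bx 0 s) ∧
    ∀ j : ℕ, ∃ s₀ : ℤ, ∀ s, s₀ ≤ s → ∃ b : Pt →₀ ℝ, massT b = 1 ∧ (∀ v, 0 ≤ b v) ∧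
      (∀ v ∈ b.support, v ∉ bx 0 (2 * (4 ^ j * s))) ∧
      ∫ φ, evT (w s - b) φ ^ 2 ∂P ≤ K * (j + 1)

theorem evT_lin (w : Pt →₀ ℝ) (φ : Pt → ℤ) : evT w φ = PL.lin w.support w φ := rfl

/-- All moments of neutral functionals of the plane measure. -/
theorem plane_mom {P : Measure (Pt → ℤ)} (hP : GFF.Plane P) {w : Pt →₀ ℝ} (hw : massT w = 0)
    {A V : ℝ} (hA : ∑ v ∈ w.support, |w v| ≤ A) (hV : ∫ φ, evT w φ ^ 2 ∂P ≤ V) (n : ℕ) :
    ∫⁻ φ, ENNReal.ofReal ((2 * evT w φ) ^ (2 * n)) ∂P ≤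
      ENNReal.ofReal (4 ^ n * (81 ^ n * PL.Ck n * (V + A ^ 2) ^ n)) := by
  have := hP.prob
  have hw' : ∑ v ∈ w.support, w v = 0 := hw
  have hm := PL.moment n hP.lip hP.lim hw'
  obtain ⟨M, hM⟩ := PL.lin_bdd hP.lip hw'
  have hX := PL.measurable_lin w.support w
  have hXi : Integrable (fun φ => (2 * evT w φ) ^ (2 * n)) P := by
    refine Integrable.mono' (integrable_const ((2 * M) ^ (2 * n)))
      ((hX.const_mul 2).pow_const _).aestronglyMeasurable ?_
    filter_upwards [hM] with φ hφ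
    rw [evT_lin, norm_pow, Real.norm_eq_abs, abs_mul, abs_two]
    exact pow_le_pow_left₀ (by positivity) (by linarith) _
  have h00 : ∀ φ : Pt → ℤ, 0 ≤ (2 * evT w φ) ^ (2 * n) := fun φ => by
    rw [pow_mul]
    positivity
  rw [← ofReal_integral_eq_lintegral_ofReal hXi (Filter.Eventually.of_forall h00)]
  refine ENNReal.ofReal_le_ofReal ?_
  have e : ∀ φ : Pt → ℤ, (2 * evT w φ) ^ (2 * n) = 4 ^ n * PL.lin w.support w φ ^ (2 * n) := by
    intro φ
    rw [mul_pow, evT_lin, pow_mul (2 : ℝ) 2 n]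
    norm_num
  simp only [e]
  rw [integral_const_mul]
  refine mul_le_mul_of_nonneg_left (hm.trans ?_) (by positivity)
  have hc := PL.ck_nonneg n
  refine mul_le_mul_of_nonneg_left ?_ (by positivity)
  have h0 : 0 ≤ ∫ φ, PL.lin w.support w φ ^ 2 ∂P := integral_nonneg fun φ => sq_nonneg _
  have hA0 : 0 ≤ ∑ v ∈ w.support, |w v| := Finset.sum_nonneg fun v _ => abs_nonneg _
  refine pow_le_pow_left₀ (by positivity) (add_le_add hV ?_) n
  exact pow_le_pow_left₀ hA0 hA 2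

theorem massT_sub (a b : Pt →₀ ℝ) : massT (a - b) = massT a - massT b := by
  unfold massT
  exact Finsupp.sum_sub_index fun _ _ _ => rfl

/-- The total variation of a difference of two probability weights. -/
theorem tv_sub {a b : Pt →₀ ℝ} (ha : massT a = 1) (hb : massT b = 1) (ha0 : ∀ v, 0 ≤ a v)
    (hb0 : ∀ v, 0 ≤ b v) : ∑ v ∈ (a - b).support, |(a - b) v| ≤ 2 := by
  classical
  have key : ∀ (c : Pt →₀ ℝ) (S : Finset Pt), (∀ v, 0 ≤ c v) → ∑ v ∈ S, c v ≤ massT c := by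
    intro c S hc
    have h1 : ∑ v ∈ S, c v = ∑ v ∈ S ∩ c.support, c v := by
      refine (Finset.sum_subset Finset.inter_subset_left fun v hv hv' => ?_).symm
      by_contra h
      exact hv' (Finset.mem_inter.2 ⟨hv, Finsupp.mem_support_iff.2 h⟩)
    rw [h1]
    exact Finset.sum_le_sum_of_subset_of_nonneg Finset.inter_subset_right fun v _ _ => hc v
  calc ∑ v ∈ (a - b).support, |(a - b) v| ≤ ∑ v ∈ (a - b).support, (a v + b v) := by
        refine Finset.sum_le_sum fun v _ => ?_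
        rw [Finsupp.sub_apply, abs_le]
        have := ha0 v
        have := hb0 v
        constructor <;> linarith
    _ = ∑ v ∈ (a - b).support, a v + ∑ v ∈ (a - b).support, b v := Finset.sum_add_distrib
    _ ≤ 1 + 1 := add_le_add ((key a _ ha0).trans ha.le) ((key b _ hb0).trans hb.le)
    _ = 2 := by norm_num

/-- **MomJ.** -/
theorem momJ_of {P : Measure (Pt → ℤ)} (hP : GFF.Plane P) (hL : LogT P) : MomJ P := by
  obtain ⟨w, K, s₁, hK, hw, hj⟩ := hL
  have hc := PL.ck_nonneg 2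
  refine ⟨w, 3 * (4 ^ 2 * (81 ^ 2 * PL.Ck 2 * (K + 4) ^ 2)), s₁, by positivity,
    fun s hs => (hw s hs).1, fun j => ?_⟩
  obtain ⟨s₀, h0⟩ := hj j
  refine ⟨max (max s₀ s₁) 1, fun s hs => ?_⟩
  have hs0 : s₀ ≤ s := ((le_max_left _ _).trans (le_max_left _ _)).trans hs
  have hs1 : s₁ ≤ s := ((le_max_right _ _).trans (le_max_left _ _)).trans hs
  have hs2 : 1 ≤ s := (le_max_right _ _).trans hs
  obtain ⟨b, hb1, hb2, hb3, hb4⟩ := h0 s hs0
  obtain ⟨hw1, hw2, hw3⟩ := hw s hs1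
  have hs3 : 1 ≤ 4 ^ j * s := one_le_sc hs2 j
  have hle : s ≤ 4 ^ j * s := by
    have h4 : (1 : ℤ) ≤ 4 ^ j := one_le_pow₀ (by norm_num)
    nlinarith
  have hm0 : massT (w s - b) = 0 := by rw [massT_sub, hw1, hb1, sub_self]
  have e : w s + -b = w s - b := (sub_eq_add_neg _ _).symm
  have h1 := (momT (gb_of_plane hP) (p := 0) hs3 (a := w s) (b := -b)
    (fun v hv => ?_) (fun v hv => ?_) (by rw [e]; exact hm0) 2).1
  · rw [e] at h1
    have h2 := plane_mom hP hm0 (tv_sub hw1 hb1 hw2 hb2) hb4 2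
    refine h1.trans ((mul_le_mul_right h2 3).trans ?_)
    have e3 : (3 : ENNReal) = ENNReal.ofReal 3 := by norm_num
    rw [e3, ← ENNReal.ofReal_mul (by norm_num)]
    refine ENNReal.ofReal_le_ofReal ?_
    have h5 : (K * (j + 1) + 2 ^ 2) ^ 2 ≤ (K + 4) ^ 2 * (j + 1) ^ 2 := by
      rw [← mul_pow]
      refine pow_le_pow_left₀ (by positivity) ?_ 2
      have : (0 : ℝ) ≤ j := Nat.cast_nonneg j
      nlinarith
    calc 3 * (4 ^ 2 * (81 ^ 2 * PL.Ck 2 * (K * (j + 1) + 2 ^ 2) ^ 2))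
        ≤ 3 * (4 ^ 2 * (81 ^ 2 * PL.Ck 2 * ((K + 4) ^ 2 * (j + 1) ^ 2))) := by
          refine mul_le_mul_of_nonneg_left ?_ (by norm_num)
          refine mul_le_mul_of_nonneg_left ?_ (by norm_num)
          exact mul_le_mul_of_nonneg_left h5 (by positivity)
      _ = _ := by ring
  · obtain ⟨q1, q2⟩ := hw3 v hv
    exact ⟨q1.trans hle, q2.trans hle⟩
  · rw [Finsupp.support_neg] at hv
    exact hb3 v hv

end Vale.Agent.P153.F.X
end

section

/-!
P153-F, block X (triangular lattice): logarithmic growth of the second moments of the smeared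
differences of the plane measure (`LogT`), and the counting leaf `S_cnt`.
-/

namespace Vale.Agent.P153.F.X

open MeasureTheory Filter Topology
open Vale.Agent.P153.GFF
open Vale.Agent.P153.F.RSW.AC (bw dif second phi psi seq_lim row_var supp_ax mass_bw ev_bw smear_sub
  smear_scale dif_test cov_dif_up phi_cont phi_compact psi_smooth psi_compact phi_nonneg)

/-- Second moments of the smeared field, with the constant. -/
theorem second_le {P : Measure (Pt → ℤ)} {κ : ℝ} (hP : Plane P) (hS : SpecOut P κ)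
    {f : ℝ × ℝ → ℝ} (hf : Test f) :
    ∀ᶠ δ : ℝ in 𝓝[>] 0, ∫ φ, (smear φ δ f) ^ 2 ∂P ≤ 2 * (κ / √3 * gffCov f f) + 1 := by
  obtain ⟨K, hK⟩ := hf.csts
  obtain ⟨A, hA0, hA⟩ := growth (grow_row hS)
  obtain ⟨m, C, k0, hspec⟩ := hS
  set E1 : ℝ → ℝ := fun δ => ∫ φ, (smear φ δ f - rowS δ f φ) ^ 2 ∂P with hE1
  set E2 : ℝ → ℝ := fun δ => ∫ φ, (rowS δ f φ) ^ 2 ∂P with hE2
  have l1 : Tendsto E1 (𝓝[>] 0) (𝓝 0) := seq_lim fun δ h1 h2 h3 =>
    (close hP (dec hspec) hA0 hA hK δ h1 h2 h3).1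
  have l2 : Tendsto E2 (𝓝[>] 0) (𝓝 (κ / √3 * gffCov f f)) := seq_lim fun δ h1 h2 h3 => by
    have hD := disc hK hf.2.2 δ h1 h2 h3
    have h4 := TwoPt.p1 _ _ _ _ _ _ hspec _ _ _ _ hD
    rw [sig_ft hf] at h4
    refine h4.congr fun n => ?_
    exact (row_var hP hD n).1.symm
  have l3 : Tendsto (fun δ => 2 * E1 δ + 2 * E2 δ) (𝓝[>] 0)
      (𝓝 (2 * 0 + 2 * (κ / √3 * gffCov f f))) := (l1.const_mul 2).add (l2.const_mul 2)
  have h5 := l3.eventually_le_const (u := 2 * (κ / √3 * gffCov f f) + 1) (by linarith)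
  have h6 : ∀ᶠ δ : ℝ in 𝓝[>] 0, 0 < δ ∧ δ ≤ 1 := by
    filter_upwards [Ioc_mem_nhdsGT (zero_lt_one' ℝ)] with x hx
    exact hx
  filter_upwards [h5, h6] with δ hδ hδ'
  refine le_trans ?_ hδ
  have h1 : ∀ n : ℕ, 0 < δ / ((n : ℝ) + 1) := fun n => div_pos hδ'.1 (by positivity)
  have h2 : ∀ n : ℕ, δ / ((n : ℝ) + 1) ≤ 1 := fun n => by
    rw [div_le_one (by positivity)]
    have : (0 : ℝ) ≤ n := by positivity
    linarith [hδ'.2]
  have h3 : Tendsto (fun n : ℕ => δ / ((n : ℝ) + 1)) atTop (𝓝 0) := by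
    have := (tendsto_one_div_add_atTop_nhds_zero_nat (𝕜 := ℝ)).const_mul δ
    rw [mul_zero] at this
    refine this.congr fun n => ?_
    ring
  have i1 : Integrable (fun φ => (smear φ δ f - rowS δ f φ) ^ 2) P := by
    have h4 := (close hP (dec hspec) hA0 hA hK _ h1 h2 h3).2 0
    simpa using h4
  have i2 : Integrable (fun φ => (rowS δ f φ) ^ 2) P := by
    have h4 := (row_var hP (disc hK hf.2.2 _ h1 h2 h3) 0).2
    simpa [rowS] using h4
  calc ∫ φ, (smear φ δ f) ^ 2 ∂P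
      ≤ ∫ φ, (2 * (smear φ δ f - rowS δ f φ) ^ 2 + 2 * (rowS δ f φ) ^ 2) ∂P := by
        refine integral_mono_of_nonneg (Eventually.of_forall fun φ => sq_nonneg _)
          ((i1.const_mul 2).add (i2.const_mul 2)) (Eventually.of_forall fun φ => ?_)
        simp only
        nlinarith [sq_nonneg (smear φ δ f - 2 * rowS δ f φ)]
    _ = 2 * E1 δ + 2 * E2 δ := by
        rw [integral_add (i1.const_mul 2) (i2.const_mul 2), integral_const_mul, integral_const_mul]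

theorem bw_nonneg (c : ℝ × ℝ) (s : ℕ) (v : Pt) : 0 ≤ bw c s v := by
  unfold bw
  rw [Finsupp.onFinset_apply]
  split_ifs
  · unfold GFF.wt
    refine mul_nonneg (sq_nonneg _) (integral_nonneg fun u => ?_)
    exact mul_nonneg (ker_nonneg _) (phi_nonneg _ _)
  · exact le_rfl

theorem evT_sub (a b : Pt →₀ ℝ) (h : Hg) : evT (a - b) h = evT a h - evT b h := by
  unfold evT
  exact Finsupp.sum_sub_index fun v x y => by ring

/-- **Logarithmic growth of the second moments.** -/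
theorem logT {P : Measure (Pt → ℤ)} {κ : ℝ} (hP : Plane P) (hS : SpecOut P κ) (hκ : 0 ≤ κ) :
    LogT P := by
  obtain ⟨a, ha0, ha⟩ := cov_dif_up
  have hc0 : 0 ≤ κ / √3 := by positivity
  have hlog4 : 0 ≤ (Real.pi)⁻¹ * Real.log 4 :=
    mul_nonneg (by positivity) (Real.log_nonneg (by norm_num))
  refine ⟨fun s => bw (0, 0) s.toNat, 2 * (κ / √3 * (a + (Real.pi)⁻¹ * Real.log 4)) + 1, 20,
    by positivity, fun s hs => ?_, fun j => ?_⟩
  · have hn : 20 ≤ s.toNat := by omega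
    refine ⟨mass_bw _ (by omega), bw_nonneg _ _, fun v hv => ?_⟩
    obtain ⟨h1, h2⟩ := supp_ax 0 hn hv
    rw [mul_zero, sub_zero] at h2
    have e : ((s.toNat : ℕ) : ℝ) = (s : ℝ) := by
      exact_mod_cast Int.toNat_of_nonneg (by omega : (0 : ℤ) ≤ s)
    rw [e] at h1 h2
    have h3 : |v.1| < s := by exact_mod_cast h2
    have h4 : |v.2| < s := by exact_mod_cast h1
    constructor
    · simpa using h3.le
    · simpa using h4.le
  · have hl1 : (1 : ℝ) ≤ 4 ^ j := one_le_pow₀ (by norm_num)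
    have hl0 : (0 : ℝ) < 4 ^ j := by positivity
    have h2 := second_le hP hS (dif_test hl0)
    have t1 : Tendsto (fun s : ℕ => 1 / (s : ℝ)) atTop (𝓝[>] 0) := by
      rw [tendsto_nhdsWithin_iff]
      refine ⟨tendsto_one_div_atTop_nhds_zero_nat, ?_⟩
      filter_upwards [eventually_gt_atTop 0] with s hs
      have : (0 : ℝ) < s := by exact_mod_cast hs
      exact one_div_pos.2 this
    obtain ⟨s0, hs0⟩ := Filter.eventually_atTop.1 (t1.eventually h2)
    refine ⟨max s0 20, fun s hs => ?_⟩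
    obtain ⟨n, rfl⟩ : ∃ n : ℕ, s = n := ⟨s.toNat, by omega⟩
    have hn0 : s0 ≤ n := by omega
    have hn : 20 ≤ n := by omega
    have hN : 20 ≤ 4 ^ j * n := by
      have : 1 ≤ 4 ^ j := Nat.one_le_pow _ _ (by norm_num)
      nlinarith
    have hnpos : 0 < n := by omega
    have hNpos : 0 < 4 ^ j * n := by omega
    refine ⟨bw (3, 0) (4 ^ j * n), mass_bw _ hNpos, bw_nonneg _ _, fun v hv => ?_, ?_⟩
    · obtain ⟨-, h3⟩ := supp_ax 3 hN hv
      intro hb
      have hb1 : |v.1 - 0| ≤ 2 * (4 ^ j * (n : ℤ)) := hb.1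
      rw [abs_lt] at h3
      rw [sub_zero, abs_le] at hb1
      have hb2 : (v.1 : ℝ) ≤ 2 * (4 ^ j * (n : ℝ)) := by exact_mod_cast hb1.2
      have h4 := h3.1
      push_cast at h4
      linarith
    · have e : ∀ φ : Pt → ℤ, evT (bw (0, 0) ((n : ℤ)).toNat - bw (3, 0) (4 ^ j * n)) φ =
          smear φ (1 / n) (dif (4 ^ j)) := by
        intro φ
        have hs1 : (0 : ℝ) < 1 / n := by positivity
        have e1 : (1 : ℝ) / ((4 ^ j * n : ℕ) : ℝ) = 1 / n / (4 ^ j) := by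
          push_cast
          field_simp
        have e2 := smear_sub φ hs1 (phi_cont (0, 0)) (phi_compact _)
          (psi_smooth (4 ^ j) (3, 0)).continuous (psi_compact hl0 _)
        have e3 : evT (bw (0, 0) n) φ = smear φ (1 / n) (phi (0, 0)) := ev_bw _ hnpos φ
        have e4 : evT (bw (3, 0) (4 ^ j * n)) φ = smear φ (1 / ((4 ^ j * n : ℕ) : ℝ)) (phi (3, 0)) :=
          ev_bw _ hNpos φ
        rw [Int.toNat_natCast, evT_sub, e3, e4, e1, ← smear_scale φ hl0, ← e2]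
        rfl
      simp only
      simp_rw [e]
      refine (hs0 n hn0).trans ?_
      have h5 := ha (4 ^ j) hl1
      rw [Real.log_pow] at h5
      have h6 := mul_le_mul_of_nonneg_left h5 hc0
      have hj : (0 : ℝ) ≤ j := Nat.cast_nonneg j
      have h7 : a + (Real.pi)⁻¹ * (j * Real.log 4) ≤ (a + (Real.pi)⁻¹ * Real.log 4) * (j + 1) := by
        nlinarith [mul_nonneg ha0 hj]
      have h8 := mul_le_mul_of_nonneg_left h7 hc0
      nlinarith

end Vale.Agent.P153.F.X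
end

section

/-!
# P153, block F-B: the flip of `σ` in a region with closed boundary

On the arm event one cluster of closed edges separates the inner box from the outer box in the
annuli around `(0, 0)` and `(3R, 0)`. The set `Uf C p q t` consists of the vertices of the outer box
which are not joined to its complement by edges outside the cluster `C`.
-/

namespace Vale.Agent.P153.F.RSW

open MeasureTheory Filter Topology Relation
open Vale.Agent.P153 Vale.Agent.P153.Topo Vale.Agent.P153.A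

/-- The big parallelogram. -/
def bigB (R : ℤ) : Set (ℤ × ℤ) := pr (-(4 * R)) (6 * R) (-(8 * R)) (4 * R)

/-- The cluster of `o` in `T`. -/
def clu (T : Set (ℤ × ℤ)) (o : ℤ × ℤ) : Set (ℤ × ℤ) := {w | Conn T o w}

theorem clu_sub {T : Set (ℤ × ℤ)} {o : ℤ × ℤ} : clu T o ⊆ T := fun _ h => Conn.right_mem h

/-- The vertices `V` and `W` are joined by an edge with midpoint outside `C`. -/
def DS (C : Set (ℤ × ℤ)) (V W : ℤ × ℤ) : Prop := Adj V W ∧ V + W ∉ C

/-- Strictly inside the box with centre `(p, q)` and half side `2t`. -/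
def inB (p q t : ℤ) (W : ℤ × ℤ) : Prop :=
  p - 2 * t < W.1 ∧ W.1 < p + 2 * t ∧ q - 2 * t < W.2 ∧ W.2 < q + 2 * t

/-- Paths which avoid `C` and start in the box with centre `(p, q)` and half side `t` stay
strictly inside the box with half side `2t`. -/
def Cut (C : Set (ℤ × ℤ)) (p q t : ℤ) : Prop :=
  ∀ V W : ℤ × ℤ, |V.1 - p| ≤ t → |V.2 - q| ≤ t → ReflTransGen (DS C) V W → inB p q t W

theorem ds_conn {C : Set (ℤ × ℤ)} {V W : ℤ × ℤ} (h : ReflTransGen (DS C) V W) :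
    Conn {z | z ∉ Mid ∨ z ∉ C} (2 * V.1, 2 * V.2) (2 * W.1, 2 * W.2) := by
  have hm : ∀ U : ℤ × ℤ, ((2 * U.1, 2 * U.2) : ℤ × ℤ) ∉ Mid := by
    intro U
    simp only [Mid, Set.mem_ofPred_eq, Int.odd_iff]
    omega
  induction h with
  | refl => exact Conn.refl (Or.inl (hm V))
  | @tail b c _ hbc ih =>
    obtain ⟨h1, h2⟩ := hbc
    rw [Topo.adj_iff] at h1
    refine (ih.tail (z := b + c) ?_ (Or.inr h2)).tail ?_ (Or.inl (hm c))
    · rw [Topo.adj_iff]
      simp only [Prod.fst_add, Prod.snd_add]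
      omega
    · rw [Topo.adj_iff]
      simp only [Prod.fst_add, Prod.snd_add]
      omega

theorem cut_of_sep {C : Set (ℤ × ℤ)} {p q t : ℤ} (h : Sep C p q t) (hC : C ⊆ Mid) :
    Cut C p q t := by
  intro V W h1 h2 h3
  by_contra hg
  rw [abs_le] at h1 h2
  obtain ⟨z, hz1, hz2⟩ := h _ _ _ (ds_conn h3)
    (by simp only [pr, Set.mem_ofPred_eq]; omega) (by unfold inB at hg; simp only; omega)
  rcases hz1 with h4 | h4
  · exact h4 (hC hz2)
  · exact h4 hz2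

/-- The arm event gives one cluster which cuts both annuli. -/
theorem arm_cut {s R : ℤ} (hs : 0 < s) (hsR : s ≤ 2 * R) {S : Set (ℤ × ℤ)} (hS : S ⊆ Mid)
    (h : Arm s R S) :
    ∃ o ∈ S ∩ bigB R, Cut (clu (S ∩ bigB R) o) 0 0 s ∧
      Cut (clu (S ∩ bigB R) o) (3 * R) 0 R := by
  obtain ⟨o, ho, h1, -, h3⟩ := h.joined hs hsR
  have hc : clu (S ∩ bigB R) o ⊆ Mid := fun z hz => hS (clu_sub hz).1
  exact ⟨o, ho, cut_of_sep h1 hc, cut_of_sep h3 hc⟩

/-- The vertices which are not joined to the complement of the box with centre `(p, q)` and half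
side `2t` by a path avoiding `C`. -/
def UU (C : Set (ℤ × ℤ)) (p q t : ℤ) : Set (ℤ × ℤ) :=
  {V | ∀ W, ReflTransGen (DS C) V W → inB p q t W}

theorem UU_fin (C : Set (ℤ × ℤ)) (p q t : ℤ) : (UU C p q t).Finite := by
  refine Set.Finite.subset ((Set.finite_Icc (p - 2 * t) (p + 2 * t)).prod
    (Set.finite_Icc (q - 2 * t) (q + 2 * t))) ?_
  intro V hV
  have := hV V ReflTransGen.refl
  unfold inB at this
  rw [Set.mem_prod, Set.mem_Icc, Set.mem_Icc]
  omega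

/-- `UU` as a finite set. -/
noncomputable def Uf (C : Set (ℤ × ℤ)) (p q t : ℤ) : Finset (ℤ × ℤ) := (UU_fin C p q t).toFinset

theorem mem_Uf {C : Set (ℤ × ℤ)} {p q t : ℤ} {V : ℤ × ℤ} :
    V ∈ Uf C p q t ↔ ∀ W, ReflTransGen (DS C) V W → inB p q t W := by
  unfold Uf; rw [Set.Finite.mem_toFinset]; rfl

/-- The boundary of `Uf` belongs to `C`. -/
theorem Uf_bd {C : Set (ℤ × ℤ)} {p q t : ℤ} {V W : ℤ × ℤ} (h : Adj V W) (hV : V ∈ Uf C p q t)
    (hW : W ∉ Uf C p q t) : V + W ∈ C := by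
  by_contra hc
  exact hW (mem_Uf.2 fun X hX => mem_Uf.1 hV X (ReflTransGen.head ⟨h, hc⟩ hX))

theorem Uf_in {C : Set (ℤ × ℤ)} {p q t : ℤ} (hcut : Cut C p q t) {V : ℤ × ℤ} (h1 : |V.1 - p| ≤ t)
    (h2 : |V.2 - q| ≤ t) : V ∈ Uf C p q t :=
  mem_Uf.2 fun W hW => hcut V W h1 h2 hW

theorem Uf_inB {C : Set (ℤ × ℤ)} {p q t : ℤ} {V : ℤ × ℤ} (h : V ∈ Uf C p q t) : inB p q t V :=
  mem_Uf.1 h V ReflTransGen.refl

/-- The ends of the edge with midpoint `V + W`. -/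
theorem ends {V W : ℤ × ℤ} (h : Adj V W) :
    V + W ∈ Mid ∧ ((v1 (V + W) = V ∧ v2 (V + W) = W) ∨ (v1 (V + W) = W ∧ v2 (V + W) = V)) := by
  rw [Topo.adj_iff] at h
  obtain ⟨a, b⟩ := V
  obtain ⟨c, d⟩ := W
  simp only [Mid, Set.mem_ofPred_eq, Int.odd_iff, v1, v2, Prod.mk_add_mk, Prod.mk.injEq] at h ⊢
  rcases h with h | h | h | h | h | h <;> omega

theorem v_adj {z : ℤ × ℤ} (hz : z ∈ Mid) : GFF.Adj (v1 z) (v2 z) := by
  simp only [Mid, Set.mem_ofPred_eq, Int.odd_iff] at hz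
  rw [adj_iff]
  simp only [v1, v2]
  omega

/-! ### The level of a cluster -/

/-- The spin `σ` as a number. -/
def s1 (b : Bool) : ℤ := if b then 1 else 0

/-- The level of a vertex with `τ = +`. -/
noncomputable def lev (ω : Om) (v : Pt) : ℤ := rc ω v - s1 (ω v).2

theorem inc_tt (a b : Bool) : inc (true, a) (true, b) = s1 b - s1 a := by
  revert a b; decide

theorem lev_step {ω : Om} (hω : Comp ω) {x y : Pt} (h : GFF.Adj x y) (hx : (ω x).1 = true)
    (hy : (ω y).1 = true) : lev ω x = lev ω y := by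
  have h1 := s_rc.1 ω hω x y h
  have h2 : ω x = (true, (ω x).2) := by rw [← hx]
  have h3 : ω y = (true, (ω y).2) := by rw [← hy]
  have h4 : inc (ω x) (ω y) = s1 (ω y).2 - s1 (ω x).2 := by
    rw [h2, h3, inc_tt]
  unfold lev
  omega

theorem lev_clu {ω : Om} (hω : Comp ω) {T : Set (ℤ × ℤ)} (hT : T ⊆ Wp (tau ω)) {o z : ℤ × ℤ}
    (h : Conn T o z) : lev ω (v1 z) = lev ω (v1 o) ∧ lev ω (v2 z) = lev ω (v1 o) := by
  have hm : ∀ z ∈ T, lev ω (v1 z) = lev ω (v2 z) := fun z hz =>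
    lev_step hω (v_adj (hT hz).1) (hT hz).2.1 (hT hz).2.2
  refine Conn.ind (fun z => lev ω (v1 z) = lev ω (v1 o) ∧ lev ω (v2 z) = lev ω (v1 o))
    ⟨rfl, (hm o h.left_mem).symm⟩ (fun a b ha hab hb ih => ?_) h
  have h1 := hm a ha.right_mem
  have h2 := hm b hb
  have h3 : lev ω (v1 b) = lev ω (v1 o) ∨ lev ω (v2 b) = lev ω (v1 o) := by
    rcases share (hT ha.right_mem).1 (hT hb).1 hab with h4 | h4 | h4 | h4
    · left; rw [← h4]; exact ih.1
    · right; rw [← h4]; exact ih.1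
    · left; rw [← h4]; exact ih.2
    · right; rw [← h4]; exact ih.2
  rcases h3 with h3 | h3
  · exact ⟨h3, by rw [← h2]; exact h3⟩
  · exact ⟨by rw [h2]; exact h3, h3⟩

/-- The boundary of the flipped region is closed and has the level of `b`. -/
def BdC (U : Finset Pt) (b : Pt) (ω : Om) : Prop :=
  ∀ x y, GFF.Adj x y → x ∈ U → y ∉ U → (ω x).1 = true ∧ (ω y).1 = true ∧
    lev ω x = lev ω b ∧ lev ω y = lev ω b

theorem bdC_clu {ω : Om} (hω : Comp ω) {T : Set (ℤ × ℤ)} (hT : T ⊆ Wp (tau ω)) (o : ℤ × ℤ)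
    (p q t : ℤ) : BdC (Uf (clu T o) p q t) (v1 o) ω := by
  intro x y hxy hx hy
  have h1 : Conn T o (x + y) := Uf_bd hxy hx hy
  have h2 := hT h1.right_mem
  have h3 := lev_clu hω hT h1
  rcases (ends hxy).2 with ⟨h4, h5⟩ | ⟨h4, h5⟩
  · rw [h4, h5] at h3
    exact ⟨by have := h2.2.1; rwa [h4] at this, by have := h2.2.2; rwa [h5] at this, h3.1, h3.2⟩
  · rw [h4, h5] at h3
    exact ⟨by have := h2.2.2; rwa [h5] at this, by have := h2.2.1; rwa [h4] at this, h3.2, h3.1⟩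

/-- The potential of the flipped configuration. -/
noncomputable def psi (U : Finset Pt) (b : Pt) (ω : Om) (x : Pt) : ℤ :=
  if x ∈ U then 1 - (rc ω x - lev ω b) else rc ω x - lev ω b

theorem s1_not (b : Bool) : s1 (!b) = 1 - s1 b := by revert b; decide

theorem negOn_in {U : Finset Pt} {ω : Om} {x : Pt} (h : x ∈ U) :
    negOn U ω x = ((ω x).1, !(ω x).2) := by unfold negOn; rw [if_pos h]

theorem negOn_out {U : Finset Pt} {ω : Om} {x : Pt} (h : x ∉ U) : negOn U ω x = ω x := by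
  unfold negOn; rw [if_neg h]

theorem rc_negOn {ω : Om} (hω : Comp ω) {U : Finset Pt} {b : Pt} (hb : BdC U b ω) (x : Pt) :
    rc (negOn U ω) x = psi U b ω x - psi U b ω 0 := by
  refine rc_eq_of_pot (fun x y hxy => ?_) x
  have hadj : GFF.Adj x y := rc_adj_step.2 hxy
  have hadj' : GFF.Adj y x := Topo.adj_symm hadj
  have h1 := s_rc.1 ω hω x y hadj
  unfold psi
  by_cases hx : x ∈ U <;> by_cases hy : y ∈ U
  · rw [negOn_in hx, negOn_in hy, rc_inc_neg, if_pos hx, if_pos hy, ← h1]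
    ring
  · obtain ⟨h2, h3, h4, h5⟩ := hb x y hadj hx hy
    rw [negOn_in hx, negOn_out hy, if_pos hx, if_neg hy, h2]
    have h6 : ω y = (true, (ω y).2) := by rw [← h3]
    rw [h6, inc_tt, s1_not]
    unfold lev at h4 h5 ⊢
    omega
  · obtain ⟨h2, h3, h4, h5⟩ := hb y x hadj' hy hx
    rw [negOn_out hx, negOn_in hy, if_neg hx, if_pos hy, h2]
    have h6 : ω x = (true, (ω x).2) := by rw [← h3]
    rw [h6, inc_tt, s1_not]
    unfold lev at h4 h5 ⊢
    omega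
  · rw [negOn_out hx, negOn_out hy, if_neg hx, if_neg hy, ← h1]
    ring

/-- The level of the flipped configuration. -/
theorem lev_negOn {ω : Om} (hω : Comp ω) {U : Finset Pt} {b : Pt} (hb : BdC U b ω) :
    lev (negOn U ω) b = - psi U b ω 0 := by
  have h1 := rc_negOn hω hb b
  unfold lev
  rw [h1]
  by_cases hx : b ∈ U
  · rw [negOn_in hx]
    unfold psi
    rw [if_pos hx, s1_not]
    unfold lev
    ring
  · rw [negOn_out hx]
    unfold psi
    rw [if_neg hx]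
    unfold lev
    ring

/-- The level as a real number. -/
noncomputable def lv (b : Pt) (ω : Om) : ℝ := (lev ω b : ℝ) + 1 / 2

theorem ev_sub {r : (ℤ × ℤ) →₀ ℝ} (hr : (r.sum fun _ a => a) = 1) (φ : ℤ × ℤ → ℤ) (c : ℝ) :
    evT r φ - c = r.sum fun q a => a * ((φ q : ℝ) - c) := by
  have h1 : (r.sum fun q a => a * ((φ q : ℝ) - c)) =
      (r.sum fun q a => a * (φ q : ℝ)) - (r.sum fun _ a => a) * c := by
    unfold Finsupp.sum
    rw [Finset.sum_mul, ← Finset.sum_sub_distrib]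
    exact Finset.sum_congr rfl fun q _ => by ring
  rw [h1, hr]
  unfold evT
  ring

theorem ev_flip_in {ω : Om} (hω : Comp ω) {U : Finset Pt} {b : Pt} (hb : BdC U b ω)
    {r : (ℤ × ℤ) →₀ ℝ} (hr : (r.sum fun _ a => a) = 1) (h : ∀ q ∈ r.support, q ∈ U) :
    evT r (rc (negOn U ω)) - lv b (negOn U ω) = -(evT r (rc ω) - lv b ω) := by
  rw [ev_sub hr, ev_sub hr]
  unfold Finsupp.sum
  rw [← Finset.sum_neg_distrib]
  refine Finset.sum_congr rfl fun q hq => ?_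
  have h1 : ((rc (negOn U ω) q : ℤ) : ℝ) - lv b (negOn U ω) = 1 / 2 - ((rc ω q : ℝ) - lev ω b) := by
    unfold lv
    rw [rc_negOn hω hb q, lev_negOn hω hb]
    have h2 : psi U b ω q = 1 - (rc ω q - lev ω b) := by unfold psi; rw [if_pos (h q hq)]
    rw [h2]
    push_cast
    ring
  beta_reduce
  rw [h1]
  unfold lv
  ring

theorem ev_flip_out {ω : Om} (hω : Comp ω) {U : Finset Pt} {b : Pt} (hb : BdC U b ω)
    {r : (ℤ × ℤ) →₀ ℝ} (hr : (r.sum fun _ a => a) = 1) (h : ∀ q ∈ r.support, q ∉ U) :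
    evT r (rc (negOn U ω)) - lv b (negOn U ω) = evT r (rc ω) - lv b ω := by
  rw [ev_sub hr, ev_sub hr]
  unfold Finsupp.sum
  refine Finset.sum_congr rfl fun q hq => ?_
  have h1 : ((rc (negOn U ω) q : ℤ) : ℝ) - lv b (negOn U ω) = (rc ω q : ℝ) - lev ω b - 1 / 2 := by
    unfold lv
    rw [rc_negOn hω hb q, lev_negOn hω hb]
    have h2 : psi U b ω q = rc ω q - lev ω b := by unfold psi; rw [if_neg (h q hq)]
    rw [h2]
    push_cast
    ring
  beta_reduce
  rw [h1]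
  unfold lv
  ring

/-! ### The flip preserves the law -/

theorem meas_negOn (U : Finset Pt) : Measurable (negOn U) := by
  refine measurable_pi_lambda _ fun x => ?_
  by_cases hx : x ∈ U
  · have : (fun ω : Om => negOn U ω x) = (fun p : Bool × Bool => (p.1, !p.2)) ∘
        fun ω : Om => ω x := by funext ω; exact negOn_in hx
    rw [this]
    exact (Measurable.of_discrete).comp (measurable_pi_apply x)
  · have : (fun ω : Om => negOn U ω x) = fun ω : Om => ω x := by funext ω; exact negOn_out hx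
    rw [this]
    exact measurable_pi_apply x

theorem negOn_fst (U : Finset Pt) (ω : Om) (x : Pt) : (negOn U ω x).1 = (ω x).1 := rfl

theorem negOn_cf {D U : Finset Pt} (hUD : U ⊆ D) {ω : Om} (h : ω ∈ Cf D)
    (hb : ∀ x y, GFF.Adj x y → x ∈ U → y ∉ U → (ω x).1 = true ∧ (ω y).1 = true) :
    negOn U ω ∈ Cf D := by
  obtain ⟨h1, h2, h3⟩ := h
  refine ⟨fun x y hxy => ?_, fun x hx => h2 x hx, fun x hx => ?_⟩
  · by_cases hx : x ∈ U <;> by_cases hy : y ∈ U
    · rw [negOn_in hx, negOn_in hy]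
      rcases h1 x y hxy with h | h
      · exact Or.inl h
      · right
        simp only [h]
    · left
      rw [negOn_fst, negOn_fst, (hb x y hxy hx hy).1, (hb x y hxy hx hy).2]
    · left
      rw [negOn_fst, negOn_fst, (hb y x (Topo.adj_symm hxy) hy hx).1,
        (hb y x (Topo.adj_symm hxy) hy hx).2]
    · rw [negOn_out hx, negOn_out hy]
      exact h1 x y hxy
  · rw [negOn_out fun h => hx (hUD h)]
    exact h3 x hx

/-- **The flip preserves the law**, on events which are determined by `τ` and which make the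
boundary closed. -/
theorem flip_law {Q : Measure Om} (hQ : IsQ Q) (U B0 : Finset Pt) {E : Set Om}
    (hEm : MeasurableSet E) (hE : ∀ ω ω' : Om, (∀ x ∈ B0, (ω x).1 = (ω' x).1) → (ω ∈ E ↔ ω' ∈ E))
    (hb : ∀ ω ∈ E, ∀ x y, GFF.Adj x y → x ∈ U → y ∉ U → (ω x).1 = true ∧ (ω y).1 = true) :
    (Q.restrict E).map (negOn U) = Q.restrict E := by
  classical
  haveI := hQ.prob
  set Φ : Om → Om := fun ω => if ω ∈ E then negOn U ω else ω with hΦ
  have hneg : ∀ ω, negOn U ω ∈ E ↔ ω ∈ E := fun ω => hE _ _ fun x _ => rfl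
  have hΦE : ∀ ω, Φ ω ∈ E ↔ ω ∈ E := by
    intro ω
    simp only [hΦ]
    by_cases h : ω ∈ E
    · rw [if_pos h]; exact hneg ω
    · rw [if_neg h]
  have hΦΦ : ∀ ω, Φ (Φ ω) = ω := by
    intro ω
    by_cases h : ω ∈ E
    · have h1 : Φ ω = negOn U ω := if_pos h
      have h2 : Φ (Φ ω) = negOn U (Φ ω) := if_pos ((hΦE ω).2 h)
      rw [h2, h1, negOn_negOn]
    · have h1 : Φ ω = ω := if_neg h
      rw [h1, h1]
  have hΦm : Measurable Φ := Measurable.ite hEm (meas_negOn U) measurable_id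
  have hcf : ∀ D, U ⊆ D → Set.BijOn Φ (Cf D) (Cf D) := by
    intro D hD
    have hmaps : ∀ ω ∈ Cf D, Φ ω ∈ Cf D := by
      intro ω hω
      by_cases h : ω ∈ E
      · have h1 : Φ ω = negOn U ω := if_pos h
        rw [h1]
        exact negOn_cf hD hω (hb ω h)
      · have h1 : Φ ω = ω := if_neg h
        rwa [h1]
    exact ⟨hmaps, fun ω _ ω' _ h => by rw [← hΦΦ ω, h, hΦΦ], fun ω h => ⟨Φ ω, hmaps ω h, hΦΦ ω⟩⟩
  have hmap : Q.map Φ = Q := by
    haveI : IsProbabilityMeasure (Q.map Φ) := Measure.isProbabilityMeasure_map hΦm.aemeasurable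
    refine sym_ext fun B F hF hFm => ?_
    rw [integral_map hΦm.aemeasurable hFm.aestronglyMeasurable]
    have hl : A.Loc (B ∪ B0) (fun ω : Om => F (Φ ω)) := by
      intro ω ω' h
      refine hF _ _ fun x hx => ?_
      have h1 : ω ∈ E ↔ ω' ∈ E := hE _ _ fun y hy => by rw [h y (Finset.mem_union_right _ hy)]
      have h2 : ω x = ω' x := h x (Finset.mem_union_left _ hx)
      simp only [hΦ]
      by_cases h3 : ω ∈ E
      · rw [if_pos h3, if_pos (h1.1 h3)]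
        unfold negOn
        rw [h2]
      · rw [if_neg h3, if_neg fun h4 => h3 (h1.2 h4)]
        exact h2
    refine tendsto_nhds_unique (hQ.lim _ _ hl) ((hQ.lim _ _ hF).congr' ?_)
    filter_upwards [eventually_ge_atTop U] with D hD
    exact (sym_E2 (hcf D hD) F).symm
  ext S hS
  rw [Measure.map_apply (meas_negOn U) hS, Measure.restrict_apply (meas_negOn U hS),
    Measure.restrict_apply hS]
  have h1 : Q.map Φ (S ∩ E) = Q (S ∩ E) := by rw [hmap]
  rw [Measure.map_apply hΦm (hS.inter hEm)] at h1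
  rw [← h1]
  congr 1
  ext ω
  by_cases h : ω ∈ E
  · have h2 : Φ ω = negOn U ω := if_pos h
    simp only [Set.mem_inter_iff, Set.mem_preimage, h2, h, and_true, hneg]
  · have h2 : Φ ω = ω := if_neg h
    simp only [Set.mem_inter_iff, Set.mem_preimage, h2, h, and_false]

end Vale.Agent.P153.F.RSW
end

section

/-!
# P153, block F-B: the arm event has small probability
-/

namespace Vale.Agent.P153.F.RSW

open MeasureTheory Filter Topology Relation
open Vale.Agent.P153 Vale.Agent.P153.Topo Vale.Agent.P153.A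

/-- One cluster of `S` cuts the annuli around `(0, 0)` and around `(3R, 0)`. -/
def J2 (s R : ℤ) (S : Set (ℤ × ℤ)) : Prop :=
  ∃ o ∈ S ∩ bigB R, Cut (clu (S ∩ bigB R) o) 0 0 s ∧ Cut (clu (S ∩ bigB R) o) (3 * R) 0 R

theorem bigB_fin (R : ℤ) : (bigB R).Finite := by
  have h1 : bigB R ⊆ Set.Icc (2 * (-(4 * R))) (2 * (6 * R)) ×ˢ
      Set.Icc (2 * (-(8 * R))) (2 * (4 * R)) := by
    rintro z ⟨h1, h2, h3, h4⟩
    exact ⟨⟨h1, h2⟩, ⟨h3, h4⟩⟩
  exact ((Set.finite_Icc _ _).prod (Set.finite_Icc _ _)).subset h1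

open Classical in
/-- The possible values of `Wp (tau ω) ∩ bigB R`. -/
noncomputable def idx (s R : ℤ) : Finset (Finset (ℤ × ℤ)) :=
  (bigB_fin R).toFinset.powerset.filter fun T =>
    ∃ o ∈ T, Cut (clu (T : Set (ℤ × ℤ)) o) 0 0 s ∧ Cut (clu (T : Set (ℤ × ℤ)) o) (3 * R) 0 R

/-- The event that `Wp (tau ω) ∩ bigB R` is `T`. -/
def pc (R : ℤ) (T : Finset (ℤ × ℤ)) : Set Om := {ω | Wp (tau ω) ∩ bigB R = (T : Set (ℤ × ℤ))}

open Classical in
/-- The vertices on which the event `pc` depends. -/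
noncomputable def pcB (R : ℤ) : Finset Pt :=
  (bigB_fin R).toFinset.image v1 ∪ (bigB_fin R).toFinset.image v2

theorem pc_loc (R : ℤ) (T : Finset (ℤ × ℤ)) (ω ω' : Om)
    (h : ∀ x ∈ pcB R, (ω x).1 = (ω' x).1) : ω ∈ pc R T ↔ ω' ∈ pc R T := by
  classical
  have key : Wp (tau ω) ∩ bigB R = Wp (tau ω') ∩ bigB R := by
    ext z
    refine and_congr_left fun hz => ?_
    have hz' : z ∈ (bigB_fin R).toFinset := (Set.Finite.mem_toFinset _).2 hz
    have h1 : (ω (v1 z)).1 = (ω' (v1 z)).1 :=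
      h _ (Finset.mem_union_left _ (Finset.mem_image_of_mem _ hz'))
    have h2 : (ω (v2 z)).1 = (ω' (v2 z)).1 :=
      h _ (Finset.mem_union_right _ (Finset.mem_image_of_mem _ hz'))
    show (z ∈ Mid ∧ (ω (v1 z)).1 = true ∧ (ω (v2 z)).1 = true) ↔
      (z ∈ Mid ∧ (ω' (v1 z)).1 = true ∧ (ω' (v2 z)).1 = true)
    rw [h1, h2]
  show Wp (tau ω) ∩ bigB R = _ ↔ Wp (tau ω') ∩ bigB R = _
  rw [key]

/-- Events which depend on finitely many vertices are measurable. -/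
theorem meas_loc {E : Set Om} (B : Finset Pt)
    (h : ∀ ω ω' : Om, (∀ x ∈ B, (ω x).1 = (ω' x).1) → (ω ∈ E ↔ ω' ∈ E)) : MeasurableSet E := by
  have h1 : Measurable fun ω : Om => B.restrict ω := by
    refine measurable_pi_lambda _ fun x => measurable_pi_apply x.1
  have h2 : E = (fun ω : Om => B.restrict ω) ⁻¹' (B.restrict '' E) := by
    ext ω
    constructor
    · intro h3
      exact ⟨ω, h3, rfl⟩
    · rintro ⟨ω', h3, h4⟩
      refine (h ω ω' fun x hx => ?_).2 h3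
      have : B.restrict ω' ⟨x, hx⟩ = B.restrict ω ⟨x, hx⟩ := congrFun h4 _
      have h5 : ω' x = ω x := this
      rw [h5]
  rw [h2]
  exact h1 (Set.Finite.measurableSet (Set.toFinite _))

theorem meas_pc (R : ℤ) (T : Finset (ℤ × ℤ)) : MeasurableSet (pc R T) :=
  meas_loc (pcB R) (pc_loc R T)

theorem mem_idx {s R : ℤ} {ω : Om} (h : J2 s R (Wp (tau ω))) : ∃ T ∈ idx s R, ω ∈ pc R T := by
  classical
  have hfin : (Wp (tau ω) ∩ bigB R).Finite := (bigB_fin R).subset Set.inter_subset_right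
  refine ⟨hfin.toFinset, ?_, ?_⟩
  · rw [idx, Finset.mem_filter, Finset.mem_powerset]
    constructor
    · intro p hp
      rw [Set.Finite.mem_toFinset] at hp ⊢
      exact hp.2
    · obtain ⟨o, ho, h1, h2⟩ := h
      refine ⟨o, by rwa [Set.Finite.mem_toFinset], ?_, ?_⟩ <;> rw [Set.Finite.coe_toFinset]
      · exact h1
      · exact h2
  · show Wp (tau ω) ∩ bigB R = _
    rw [Set.Finite.coe_toFinset]

open Classical in
/-- A point of the cluster. -/
noncomputable def pick (s R : ℤ) (T : Finset (ℤ × ℤ)) : ℤ × ℤ :=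
  if h : ∃ o ∈ T, Cut (clu (T : Set (ℤ × ℤ)) o) 0 0 s ∧
    Cut (clu (T : Set (ℤ × ℤ)) o) (3 * R) 0 R then Classical.choose h else (0, 0)

theorem pick_spec {s R : ℤ} {T : Finset (ℤ × ℤ)} (h : T ∈ idx s R) : pick s R T ∈ T ∧
    Cut (clu (T : Set (ℤ × ℤ)) (pick s R T)) 0 0 s ∧
    Cut (clu (T : Set (ℤ × ℤ)) (pick s R T)) (3 * R) 0 R := by
  classical
  have h1 := (Finset.mem_filter.1 h).2
  unfold pick
  rw [dif_pos h1]
  exact Classical.choose_spec h1

theorem pc_sub {R : ℤ} {T : Finset (ℤ × ℤ)} {ω : Om} (h : ω ∈ pc R T) :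
    (T : Set (ℤ × ℤ)) ⊆ Wp (tau ω) := by
  have : Wp (tau ω) ∩ bigB R = (T : Set (ℤ × ℤ)) := h
  rw [← this]
  exact Set.inter_subset_left

/-- The flip preserves the law restricted to `pc R T`. -/
theorem pc_flip {Q : Measure Om} (hQ : IsQ Q) (s R : ℤ) (T : Finset (ℤ × ℤ)) (p q t : ℤ) :
    (Q.restrict (pc R T)).map (negOn (Uf (clu (T : Set (ℤ × ℤ)) (pick s R T)) p q t)) =
      Q.restrict (pc R T) := by
  refine flip_law hQ _ (pcB R) (meas_pc R T) (pc_loc R T) fun ω hω x y hxy hx hy => ?_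
  have h1 : Conn (T : Set (ℤ × ℤ)) (pick s R T) (x + y) := Uf_bd hxy hx hy
  have h2 := pc_sub hω h1.right_mem
  rcases (ends hxy).2 with ⟨h4, h5⟩ | ⟨h4, h5⟩
  · exact ⟨by have := h2.2.1; rwa [h4] at this, by have := h2.2.2; rwa [h5] at this⟩
  · exact ⟨by have := h2.2.2; rwa [h5] at this, by have := h2.2.1; rwa [h4] at this⟩

/-! ### Bounds -/

theorem inc_abs (p q : Bool × Bool) : |inc p q| ≤ 1 := by
  revert p q; decide

theorem sm_abs {f : ℤ → ℤ} (h : ∀ k, |f k| ≤ 1) (n : ℤ) : |Sm f n| ≤ |n| := by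
  unfold Sm
  have h1 : ∀ a b : ℤ, |∑ k ∈ Finset.Ico a b, f k| ≤ ((b - a).toNat : ℤ) := by
    intro a b
    refine (Finset.abs_sum_le_sum_abs _ _).trans ((Finset.sum_le_sum fun k _ => h k).trans ?_)
    rw [Finset.sum_const, Int.card_Ico]
    simp
  have h2 := h1 0 n
  have h3 := h1 n 0
  have h4 := abs_sub (∑ k ∈ Finset.Ico 0 n, f k) (∑ k ∈ Finset.Ico n 0, f k)
  rcases abs_cases n with h5 | h5 <;> omega

theorem rc_abs (ω : Om) (x : Pt) : |rc ω x| ≤ |x.1| + |x.2| := by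
  unfold rc
  exact (abs_add_le _ _).trans (add_le_add (sm_abs (fun _ => inc_abs _ _) _)
    (sm_abs (fun _ => inc_abs _ _) _))

/-- The bound of a height average. -/
noncomputable def bX (r : (ℤ × ℤ) →₀ ℝ) : ℝ :=
  ∑ q ∈ r.support, |r q| * ((|q.1| + |q.2| : ℤ) : ℝ)

theorem bd_nonneg (q : ℤ × ℤ) : (0 : ℝ) ≤ ((|q.1| + |q.2| : ℤ) : ℝ) := by
  have h1 := abs_nonneg q.1
  have h2 := abs_nonneg q.2
  have : (0 : ℤ) ≤ |q.1| + |q.2| := by omega
  exact_mod_cast this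

theorem bX_nonneg (r : (ℤ × ℤ) →₀ ℝ) : 0 ≤ bX r :=
  Finset.sum_nonneg fun q _ => mul_nonneg (abs_nonneg _) (bd_nonneg q)

theorem ev_le_bX (ω : Om) (r : (ℤ × ℤ) →₀ ℝ) : |evT r (rc ω)| ≤ bX r := by
  unfold evT Finsupp.sum bX
  refine (Finset.abs_sum_le_sum_abs _ _).trans (Finset.sum_le_sum fun q _ => ?_)
  rw [abs_mul]
  refine mul_le_mul_of_nonneg_left ?_ (abs_nonneg _)
  have := rc_abs ω q
  rw [← Int.cast_abs]
  exact_mod_cast this

theorem lv_abs (b : Pt) (ω : Om) : |lv b ω| ≤ ((|b.1| + |b.2| : ℤ) : ℝ) + 2 := by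
  have h1 := rc_abs ω b
  have h2 : |lev ω b| ≤ |b.1| + |b.2| + 1 := by
    unfold lev
    have h3 : |s1 (ω b).2| ≤ 1 := by
      generalize (ω b).2 = c
      revert c
      decide
    have := abs_sub (rc ω b) (s1 (ω b).2)
    omega
  have h4 : |(lev ω b : ℝ)| ≤ ((|b.1| + |b.2| : ℤ) : ℝ) + 1 := by
    rw [← Int.cast_abs]
    exact_mod_cast h2
  unfold lv
  have h5 := abs_add_le (lev ω b : ℝ) (1 / 2)
  have h6 : |(1 / 2 : ℝ)| = 1 / 2 := abs_of_pos (by norm_num)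
  rw [h6] at h5
  linarith

theorem meas_evT (r : (ℤ × ℤ) →₀ ℝ) : Measurable (evT r) := by
  unfold evT Finsupp.sum
  exact Finset.measurable_sum _ fun q _ => measurable_const.mul
    ((measurable_of_countable (fun n : ℤ => (n : ℝ))).comp (measurable_pi_apply q))

theorem meas_ev' (r : (ℤ × ℤ) →₀ ℝ) : Measurable fun ω : Om => evT r (rc ω) :=
  (meas_evT r).comp s_rc.2.2.2.2.2.1

theorem meas_lv (b : Pt) : Measurable (lv b) := by
  unfold lv lev
  have h1 : Measurable fun ω : Om => rc ω b := (measurable_pi_apply b).comp s_rc.2.2.2.2.2.1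
  have h2 : Measurable fun ω : Om => s1 (ω b).2 :=
    (measurable_of_countable fun p : Bool × Bool => s1 p.2).comp (measurable_pi_apply b)
  exact ((measurable_of_countable (fun n : ℤ => (n : ℝ))).comp (h1.sub h2)).add_const _

/-- One scale: the probability of the arm event is bounded by an anti-concentration probability. -/
theorem arm_one {Q : Measure Om} (hQ : IsQ Q) {s R : ℤ}
    {r1 o1 r2 o2 : (ℤ × ℤ) →₀ ℝ}
    (m1 : (r1.sum fun _ a => a) = 1) (m2 : (o1.sum fun _ a => a) = 1)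
    (m3 : (r2.sum fun _ a => a) = 1) (m4 : (o2.sum fun _ a => a) = 1)
    (s1 : ∀ q ∈ r1.support, |q.1 - 0| ≤ s ∧ |q.2 - 0| ≤ s)
    (s2 : ∀ q ∈ o1.support, ¬ inB 0 0 s q)
    (s3 : ∀ q ∈ r2.support, |q.1 - 3 * R| ≤ R ∧ |q.2 - 0| ≤ R)
    (s4 : ∀ q ∈ o2.support, ¬ inB (3 * R) 0 R q) {V : ℝ}
    (v1 : ∫ φ, (evT r1 φ - evT o1 φ) ^ 2 ∂(Q.map rc) ≤ V)
    (v2 : ∫ φ, (evT r2 φ - evT o2 φ) ^ 2 ∂(Q.map rc) ≤ V) {T : ℝ} (hT : 0 < T) :
    pW Q (J2 s R) ≤
      (Q.map rc).real {φ | |evT r1 φ - evT r2 φ| ≤ 2 * T} + 2 * V / T ^ 2 := by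
  classical
  have := hQ.prob
  have hrc : Measurable rc := s_rc.2.2.2.2.2.1
  have hsub : {ω | J2 s R (Wp (tau ω))} ⊆ ⋃ i ∈ idx s R, pc R i := by
    intro x hx
    obtain ⟨T, hT, hxT⟩ := mem_idx hx
    simp only [Set.mem_iUnion]
    exact ⟨T, hT, hxT⟩
  refine (measureReal_mono hsub (measure_ne_top _ _)).trans ?_
  have e1 : ∫ ω, (evT r1 (rc ω) - evT o1 (rc ω)) ^ 2 ∂Q ≤ V := by
    rw [← integral_map (φ := rc) (f := fun φ => (evT r1 φ - evT o1 φ) ^ 2) hrc.aemeasurable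
      (((meas_evT r1).sub (meas_evT o1)).pow_const 2).aestronglyMeasurable]
    exact v1
  have e2 : ∫ ω, (evT r2 (rc ω) - evT o2 (rc ω)) ^ 2 ∂Q ≤ V := by
    rw [← integral_map (φ := rc) (f := fun φ => (evT r2 φ - evT o2 φ) ^ 2) hrc.aemeasurable
      (((meas_evT r2).sub (meas_evT o2)).pow_const 2).aestronglyMeasurable]
    exact v2
  have e3 : (Q.map rc).real {φ | |evT r1 φ - evT r2 φ| ≤ 2 * T} =
      Q.real {ω | |evT r1 (rc ω) - evT r2 (rc ω)| ≤ 2 * T} := by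
    have hm : MeasurableSet {φ : ℤ × ℤ → ℤ | |evT r1 φ - evT r2 φ| ≤ 2 * T} :=
      measurableSet_le (continuous_abs.measurable.comp ((meas_evT r1).sub (meas_evT r2)))
        measurable_const
    rw [map_measureReal_apply hrc hm]
    rfl
  rw [e3]
  have hcomp : ∀ᵐ ω ∂Q, Comp ω := (s_sym Q hQ).2.2
  set b : Finset (ℤ × ℤ) → Pt := fun i => RSW.v1 (pick s R i) with hb
  set bd : Finset (ℤ × ℤ) → ℝ := fun i => ((|(b i).1| + |(b i).2| : ℤ) : ℝ) + 2 with hbd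
  have hbd0 : ∀ i, 0 ≤ bd i := fun i => by
    have := bd_nonneg (b i)
    simp only [hbd]
    linarith
  refine Vale.Agent.P145.FB.abs_arm Q (idx s R) (pc R) (fun i _ => meas_pc R i) ?_
    (fun ω => evT r1 (rc ω)) (fun ω => evT o1 (rc ω)) (fun ω => evT r2 (rc ω))
    (fun ω => evT o2 (rc ω)) (meas_ev' r1) (meas_ev' o1) (meas_ev' r2)
    (meas_ev' o2) (fun i => lv (b i)) (fun i _ => meas_lv _)
    (fun i => negOn (Uf (clu (i : Set (ℤ × ℤ)) (pick s R i)) 0 0 s))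
    (fun i => negOn (Uf (clu (i : Set (ℤ × ℤ)) (pick s R i)) (3 * R) 0 R))
    (fun i _ => meas_negOn _) (fun i _ => meas_negOn _)
    (bX r1 + bX o1 + bX r2 + bX o2 + ∑ i ∈ idx s R, bd i) ?_
    (fun i _ => pc_flip hQ _ _ _ _ _ _) (fun i _ => pc_flip hQ _ _ _ _ _ _)
    ?_ ?_ V e1 e2 T hT
  · intro i _ j _ hij
    rw [Function.onFun, Set.disjoint_left]
    intro x hx hx'
    apply hij
    have h1 : Wp (tau x) ∩ bigB R = (i : Set (ℤ × ℤ)) := hx
    have h2 : Wp (tau x) ∩ bigB R = (j : Set (ℤ × ℤ)) := hx'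
    exact Finset.coe_injective (h1.symm.trans h2)
  · refine Eventually.of_forall fun ω => ?_
    have hs0 : 0 ≤ ∑ i ∈ idx s R, bd i := Finset.sum_nonneg fun i _ => hbd0 i
    have b1 := bX_nonneg r1
    have b2 := bX_nonneg o1
    have b3 := bX_nonneg r2
    have b4 := bX_nonneg o2
    refine ⟨(ev_le_bX ω r1).trans (by linarith), (ev_le_bX ω o1).trans (by linarith),
      (ev_le_bX ω r2).trans (by linarith), (ev_le_bX ω o2).trans (by linarith), ?_⟩
    intro i hi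
    have h1 : |lv (b i) ω| ≤ bd i := lv_abs _ _
    have h2 : bd i ≤ ∑ i ∈ idx s R, bd i :=
      Finset.single_le_sum (f := bd) (fun j _ => hbd0 j) hi
    linarith
  · intro i hi
    rw [ae_restrict_iff' (meas_pc R i)]
    filter_upwards [hcomp] with ω hω hi'
    have hp := pick_spec hi
    have hB := bdC_clu hω (pc_sub hi') (pick s R i) 0 0 s
    exact ⟨ev_flip_in hω hB m1 fun q hq => Uf_in hp.2.1 (s1 q hq).1 (s1 q hq).2,
      ev_flip_out hω hB m2 fun q hq hq' => s2 q hq (Uf_inB hq')⟩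
  · intro i hi
    rw [ae_restrict_iff' (meas_pc R i)]
    filter_upwards [hcomp] with ω hω hi'
    have hp := pick_spec hi
    have hB := bdC_clu hω (pc_sub hi') (pick s R i) (3 * R) 0 R
    exact ⟨ev_flip_in hω hB m3 fun q hq => Uf_in hp.2.2 (s3 q hq).1 (s3 q hq).2,
      ev_flip_out hω hB m4 fun q hq hq' => s4 q hq (Uf_inB hq')⟩

/-- **The arm event has small probability.** -/
theorem arm_small {Q : Measure Om} (hQ : IsQ Q) (hac : AcT (Q.map rc)) :
    ∀ c > 0, ∀ M0 : ℤ, ∃ M : ℤ, M0 ≤ M ∧ ∃ s0 : ℤ, ∀ s : ℤ, s0 ≤ s →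
      pW Q (J2 s (2 * M * s)) < c := by
  intro c hc M0
  obtain ⟨C, hC⟩ := hac
  set V : ℝ := max C 1 with hV
  have hV1 : 1 ≤ V := le_max_right _ _
  set T : ℝ := 1 + 8 * V / c with hT
  have h8 : 0 < 8 * V / c := by positivity
  have hT0 : 0 < T := by linarith
  obtain ⟨M1, hM1, h1⟩ := hC (2 * T) (c / 4) (by positivity)
  set M : ℕ := max M1 M0.toNat with hM
  obtain ⟨s0, hs0, h2⟩ := h1 M (le_max_left _ _)
  have hMpos : 1 ≤ M := hM1.trans (le_max_left _ _)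
  refine ⟨M, ?_, s0, fun s hs => ?_⟩
  · have : M0.toNat ≤ M := le_max_right _ _
    omega
  obtain ⟨k, rfl⟩ : ∃ k : ℕ, s = k := ⟨s.toNat, by omega⟩
  have hk : s0 ≤ k := by exact_mod_cast hs
  obtain ⟨r1, o1, r2, o2, ⟨m1, m2, m3, m4⟩, s1, s2, s3, s4, v1, v2, hp⟩ := h2 k hk
  have key := arm_one hQ (s := (k : ℤ)) (R := 2 * M * k) m1 m2 m3 m4 (V := V) (T := T)
    (fun q hq => by
      have := s1 q hq
      rw [sub_zero, sub_zero]
      exact ⟨this.1.le, this.2.le⟩)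
    (fun q hq hin => by
      have := s2 q hq
      have h3 := hin.2.1
      linarith)
    (fun q hq => by
      have := s3 q hq
      rw [sub_zero]
      exact ⟨this.1.le, this.2.le⟩)
    (fun q hq hin => by
      have := s4 q hq
      have h3 := hin.2.1
      linarith)
    (v1.trans (le_max_left _ _)) (v2.trans (le_max_left _ _)) hT0
  have h4 : 2 * V / T ^ 2 ≤ c / 4 := by
    have hTT : T ≤ T ^ 2 := by nlinarith
    have h5 : 2 * V / T ^ 2 ≤ 2 * V / T := by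
      apply div_le_div_of_nonneg_left (by linarith) hT0 hTT
    have h6 : 2 * V / T ≤ c / 4 := by
      rw [div_le_iff₀ hT0, hT]
      have : c / 4 * (1 + 8 * V / c) = c / 4 + 2 * V := by field_simp; ring
      rw [this]; linarith
    linarith
  linarith

/-- The arm event of the crossing theorem. -/
theorem harm {Q : Measure Om} (hQ : IsQ Q) (hac : AcT (Q.map rc)) :
    ∀ c : ℝ, 0 < c → ∀ M0 : ℤ, ∃ M : ℤ, M0 ≤ M ∧ ∃ s0 : ℤ, ∀ s : ℤ, s0 ≤ s →
      pW Q (Arm s (2 * M * s)) < c := by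
  intro c hc M0
  obtain ⟨M, hM, s0, h⟩ := arm_small hQ hac c hc (max M0 1)
  refine ⟨M, (le_max_left _ _).trans hM, max s0 1, fun s hs => ?_⟩
  have hs1 : 1 ≤ s := (le_max_right _ _).trans hs
  have hM1 : 1 ≤ M := (le_max_right _ _).trans hM
  have := hQ.prob
  refine lt_of_le_of_lt (measureReal_mono ?_) (h s ((le_max_left _ _).trans hs))
  intro ω hω
  exact arm_cut (by omega) (by nlinarith) (Wp_sub _) hω

end Vale.Agent.P153.F.RSW
end
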