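import Mathlib
import Vale.Agent.P153.Bd5.B21
import Vale.Agent.P153.Bd5.B17
import Vale.Agent.P153.Bd5.B1
import Vale.Agent.P153.Bd5.B16
import Vale.Agent.P153.Bd5.B20
import Vale.Agent.P153.Bd5.B14
import Vale.Agent.P153.Bd5.B10
import Vale.Agent.P153.Bd5.B8
import Vale.Agent.P153.Bd5.B15
import Vale.Agent.P153.Bd5.B9
import Vale.Agent.P153.Bd5.B19

set_option linter.all false

section

/-!
# Harnack inequality and bounds of the spectral density
-/

open MeasureTheory Filter Topology Set UnitAddTorus ProbabilityTheory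
open scoped NNReal ENNReal Real unitInterval

namespace Vale.Agent.P153.RP

variable {V : (Fin 2 → ℤ) → ℝ}

theorem mU_supp (h : RPH V) : ∀ᵐ y : U, ∀ᵐ τ ∂(mU h y), 0 ≤ τ ∧ τ < 1 := by
  have hB : MeasurableSet {p : U × ℝ | ¬(0 ≤ p.2 ∧ p.2 < 1)} := by
    apply MeasurableSet.compl
    exact measurable_snd (measurableSet_Ico (a := (0 : ℝ)) (b := 1))
  have h1 := mU_lint h ({p : U × ℝ | ¬(0 ≤ p.2 ∧ p.2 < 1)}.indicator 1) (measurable_one.indicator hB)
  have h2 : ∫⁻ p, ({p : U × ℝ | ¬(0 ≤ p.2 ∧ p.2 < 1)}.indicator (1 : U × ℝ → ℝ≥0∞)) p *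
      ((Xe p.1)⁻¹ * ENNReal.ofReal (1 - p.2 ^ 2)) ∂(nu h) = 0 := by
    rw [lintegral_eq_zero_iff']
    · filter_upwards [nu_ae h] with p hp
      rw [indicator_of_notMem (show p ∉ {p : U × ℝ | ¬(0 ≤ p.2 ∧ p.2 < 1)} from fun hc => hc hp),
        zero_mul]
      rfl
    · apply Measurable.aemeasurable
      refine (measurable_one.indicator hB).mul (Measurable.mul ?_ ?_)
      · exact (Xe_measurable.comp measurable_fst).inv
      · exact (measurable_const.sub (measurable_snd.pow_const 2)).ennreal_ofReal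
  rw [h2] at h1
  have hm : Measurable fun y : U => ∫⁻ τ, ({p : U × ℝ | ¬(0 ≤ p.2 ∧ p.2 < 1)}.indicator 1) (y, τ)
      ∂(mU h y) := Measurable.lintegral_kernel_prod_right' (measurable_one.indicator hB)
  rw [lintegral_eq_zero_iff hm] at h1
  filter_upwards [h1] with y hy
  rw [ae_iff]
  have h3 : ∫⁻ τ, ({p : U × ℝ | ¬(0 ≤ p.2 ∧ p.2 < 1)}.indicator 1) (y, τ) ∂(mU h y) =
      mU h y {τ | ¬(0 ≤ τ ∧ τ < 1)} := by
    have hB' : MeasurableSet {τ : ℝ | ¬(0 ≤ τ ∧ τ < 1)} :=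
      (measurableSet_Ico (a := (0 : ℝ)) (b := 1)).compl
    rw [← lintegral_indicator_one hB']
    rfl
  rw [h3] at hy
  exact hy

/-- total mass of the row kernel -/
noncomputable def Ms (h : RPH V) (y : U) : ℝ≥0∞ := mU h y univ

theorem Ms_measurable (h : RPH V) : Measurable (Ms h) :=
  (mU h).measurable_coe MeasurableSet.univ

theorem idU_measurable' (ϑ : U) : Measurable fun τ : ℝ => ENNReal.ofReal (1 / dU τ ϑ) :=
  (measurable_const.div (dU_measurable.comp (measurable_id.prodMk measurable_const))).ennreal_ofReal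

theorem harnack_low (μ : Measure ℝ) (hμ : ∀ᵐ τ ∂μ, 0 ≤ τ ∧ τ < 1) (ϑ : U) :
    μ univ ≤ 4 * ∫⁻ τ, ENNReal.ofReal (1 / dU τ ϑ) ∂μ := by
  rw [← lintegral_const_mul _ (idU_measurable' ϑ), ← lintegral_one]
  apply lintegral_mono_ae
  filter_upwards [hμ] with τ hτ
  have h1 : (4 : ℝ≥0∞) = ENNReal.ofReal 4 := by simp
  rw [h1, ← ENNReal.ofReal_mul (by norm_num), ← ENNReal.ofReal_one]
  apply ENNReal.ofReal_le_ofReal
  rw [mul_one_div, one_le_div (dU_pos hτ.1 hτ.2 ϑ)]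
  exact dU_le hτ.1 hτ.2.le ϑ

theorem harnack_up (μ : Measure ℝ) (hμ : ∀ᵐ τ ∂μ, 0 ≤ τ ∧ τ < 1) (ϑ : U) :
    (∫⁻ τ, ENNReal.ofReal (1 / dU τ ϑ) ∂μ) * Xe ϑ ≤ 4 * μ univ := by
  rw [← lintegral_mul_const _ (idU_measurable' ϑ), ← lintegral_one, ← lintegral_const_mul _ measurable_const]
  apply lintegral_mono_ae
  filter_upwards [hμ] with τ hτ
  have h1 : (4 : ℝ≥0∞) = ENNReal.ofReal 4 := by simp
  have hd := dU_pos hτ.1 hτ.2 ϑ
  unfold Xe
  rw [h1, mul_one, ← ENNReal.ofReal_mul (one_div_pos.2 hd).le]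
  apply ENNReal.ofReal_le_ofReal
  rw [one_div_mul_eq_div, div_le_iff₀ hd]
  have := le_dU hτ.1 hτ.2.le ϑ
  linarith only [this]

/-- Harnack inequality, lower part -/
theorem Ms_le_PsU (h : RPH V) : ∀ᵐ y : U, ∀ ϑ, Ms h y ≤ 4 * PsU h (y, ϑ) := by
  filter_upwards [mU_supp h] with y hy ϑ
  exact harnack_low (mU h y) hy ϑ

/-- Harnack inequality, upper part -/
theorem PsU_Xe_le (h : RPH V) : ∀ᵐ y : U, ∀ ϑ, PsU h (y, ϑ) * Xe ϑ ≤ 4 * Ms h y := by
  filter_upwards [mU_supp h] with y hy ϑ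
  exact harnack_up (mU h y) hy ϑ

/-- direction 1 -/
theorem fD_le1 (h : RPH V) : ∀ᵐ p : U × U, fD h p * Xe (p.2 + p.2 - p.1) ≤ 8 * Ms h p.1 := by
  have h1 : ∀ᵐ p : U × U, ∀ ϑ, PsU h (p.1, ϑ) * Xe ϑ ≤ 4 * Ms h p.1 :=
    Measure.quasiMeasurePreserving_fst.ae (PsU_Xe_le h)
  filter_upwards [fold_fD h, h1] with p hp1 hp2
  have h3 : fD h p ≤ 2 * PsU h (tP p) := by rw [← hp1]; exact le_self_add
  calc fD h p * Xe (p.2 + p.2 - p.1) ≤ 2 * PsU h (tP p) * Xe (p.2 + p.2 - p.1) :=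
        mul_le_mul_left h3 _
    _ = 2 * (PsU h (p.1, p.2 + p.2 - p.1) * Xe (p.2 + p.2 - p.1)) := by
        rw [mul_assoc]; rfl
    _ ≤ 2 * (4 * Ms h p.1) := mul_le_mul_right (hp2 _) _
    _ = 8 * Ms h p.1 := by rw [← mul_assoc]; norm_num

/-- direction 2 -/
theorem fD_le2 (h : RPH V) : ∀ᵐ p : U × U, fD h p * Xe (p.2 - p.1 - p.1) ≤ 8 * Ms h p.2 := by
  filter_upwards [fD_rP h, rP_mp.quasiMeasurePreserving.ae (fD_le1 h)] with p hp1 hp2
  rw [hp1] at hp2
  have : (rP p).2 + (rP p).2 - (rP p).1 = p.2 - p.1 - p.1 := by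
    show p.2 - p.1 + (p.2 - p.1) - p.2 = _
    abel
  rw [this] at hp2
  exact hp2

/-- direction 3 -/
theorem fD_le3 (h : RPH V) : ∀ᵐ p : U × U, fD h p * Xe (p.1 + p.2) ≤ 8 * Ms h (p.2 - p.1) := by
  filter_upwards [fD_rP h, rP_mp.quasiMeasurePreserving.ae (fD_le2 h)] with p hp1 hp2
  rw [hp1] at hp2
  have h2 : (rP p).2 - (rP p).1 - (rP p).1 = -(p.1 + p.2) := by
    show p.2 - p.1 - p.2 - p.2 = _
    abel
  rw [h2] at hp2
  have h3 : Xe (-(p.1 + p.2)) = Xe (p.1 + p.2) := by unfold Xe; rw [Xu_neg]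
  rw [h3] at hp2
  exact hp2

theorem mass_pt (h : RPH V) : ∀ᵐ p : U × U, Ms h p.1 * (Xe p.2 * Xe (p.2 + hf) * Xe (p.2 - p.1 - p.1) *
    Xe (p.2 + hf - p.1 - p.1)) ≤ 256 * (Ms h p.2 * Xe p.2 + Ms h (p.2 + hf) * Xe (p.2 + hf)) := by
  have h1 : ∀ᵐ p : U × U, ∀ ϑ, Ms h p.1 ≤ 4 * PsU h (p.1, ϑ) :=
    Measure.quasiMeasurePreserving_fst.ae (Ms_le_PsU h)
  filter_upwards [h1, fold_fD h, fD_le2 h, mp_Qp.quasiMeasurePreserving.ae (fD_le2 h)] with p hp1 hp2 hp3 hp4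
  have h2 : Ms h p.1 ≤ 2 * (fD h p + fD h (p + Qp)) := by
    refine (hp1 (tP p).2).trans ?_
    have : (p.1, (tP p).2) = tP p := rfl
    rw [this, hp2, ← mul_assoc]
    norm_num
  have e1 : (p + Qp).2 = p.2 + hf := rfl
  have e2 : (p + Qp).1 = p.1 := add_zero _
  rw [e1, e2] at hp4
  set A := Xe p.2
  set B := Xe (p.2 + hf)
  set C := Xe (p.2 - p.1 - p.1)
  set D := Xe (p.2 + hf - p.1 - p.1)
  have hA : A ≤ 4 := Xe_le _
  have hB : B ≤ 4 := Xe_le _
  have hC : C ≤ 4 := Xe_le _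
  have hD : D ≤ 4 := Xe_le _
  calc Ms h p.1 * (A * B * C * D) ≤ 2 * (fD h p + fD h (p + Qp)) * (A * B * C * D) :=
        mul_le_mul_left h2 _
    _ = 2 * ((fD h p * C) * (A * (B * D)) + (fD h (p + Qp) * D) * (B * (A * C))) := by ring
    _ ≤ 2 * ((8 * Ms h p.2) * (A * (4 * 4)) + (8 * Ms h (p.2 + hf)) * (B * (4 * 4))) := by
        (clear * - h hp3 hB hD hp4 hA hC; gcongr)
    _ = 256 * (Ms h p.2 * A + Ms h (p.2 + hf) * B) := by ring

theorem integral_fourier_ne {n : ℤ} (hn : n ≠ 0) : ∫ ϑ : U, (fourier n ϑ : ℂ) = 0 := by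
  have h := poisson_U (le_refl (0 : ℝ)) one_pos n
  have h1 : ∀ ϑ : U, (fourier n ϑ : ℂ) / (dU 0 ϑ : ℂ) = fourier n ϑ := by
    intro ϑ
    have : dU 0 ϑ = 1 := by unfold dU; ring
    rw [this]; simp only [fourier_apply, Complex.ofReal_one, div_one]
  simp_rw [h1] at h
  rw [h, zero_pow (Int.natAbs_ne_zero.2 hn)]
  simp

theorem fourier_re_sq (n : ℤ) (t : U) : (fourier n t : ℂ).re ^ 2 + (fourier n t : ℂ).im ^ 2 = 1 := by
  have h2 : ‖fourier n t‖ = 1 := by rw [fourier_apply]; exact Circle.norm_coe _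
  have := Complex.sq_norm (fourier n t)
  rw [h2, Complex.normSq_apply] at this
  linarith only [this]

theorem fourier_one_hf : (fourier 1 hf : ℂ) = -1 := by
  have h1 : hf = pm π := by
    unfold hf pm
    congr 1
    have := Real.pi_ne_zero
    field_simp
  rw [h1, fourier_pm, mul_comm Complex.I]
  push_cast
  rw [mul_one, Complex.exp_pi_mul_I]

theorem Xu_mul_hf (t : U) : Xu t * Xu (t + hf) = 2 - 2 * (fourier 2 t : ℂ).re := by
  unfold Xu
  rw [fourier_add_arg, fourier_one_hf, show (2 : ℤ) = 1 + 1 by norm_num, fourier_add_idx]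
  have := fourier_re_sq 1 t
  simp only [Complex.mul_re, Complex.neg_re, Complex.one_re, Complex.neg_im, Complex.one_im]
  linear_combination (-2) * this

theorem w_integral (s : U) : 2 ≤ ∫ t : U, (2 - 2 * (fourier 2 t : ℂ).re) * (2 - 2 * (fourier 2 (t - s) : ℂ).re) := by
  have hre : ∀ n : ℤ, n ≠ 0 → ∀ a : ℂ, ∫ t : U, ((fourier n t : ℂ) * a).re = 0 := by
    intro n hn a
    have hi : Integrable (fun t : U => (fourier n t : ℂ) * a) volume :=
      integrable_U ((fourier n).continuous.mul continuous_const)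
    have h1 := integral_re (𝕜 := ℂ) hi
    have h2 : ∫ t : U, (fourier n t : ℂ) * a = 0 := by
      rw [integral_mul_const, integral_fourier_ne hn, zero_mul]
    rw [h2] at h1
    exact h1
  have hci : ∀ (n : ℤ) (a : ℂ), Integrable (fun t : U => ((fourier n t : ℂ) * a).re) volume :=
    fun n a => integrable_U (Complex.continuous_re.comp ((fourier n).continuous.mul continuous_const))
  have e : ∀ t : U, (2 - 2 * (fourier 2 t : ℂ).re) * (2 - 2 * (fourier 2 (t - s) : ℂ).re) =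
      (4 + 2 * (fourier 2 s : ℂ).re) + (-4 * ((fourier 2 t : ℂ) * 1).re) +
        (-4 * ((fourier 2 t : ℂ) * (starRingEnd ℂ) (fourier 2 s)).re) +
        2 * ((fourier 4 t : ℂ) * (starRingEnd ℂ) (fourier 2 s)).re := by
    intro t
    have h1 : (fourier 2 (t - s) : ℂ) = fourier 2 t * (starRingEnd ℂ) (fourier 2 s) := by
      rw [sub_eq_add_neg, fourier_add_arg, fourier_neg_arg]
    have h2 : (fourier 4 t : ℂ) = fourier 2 t * fourier 2 t := by
      rw [show (4 : ℤ) = 2 + 2 by norm_num, fourier_add_idx]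
    rw [h1, h2]
    have h3 := fourier_re_sq 2 t
    rw [mul_one]
    simp only [Complex.mul_re, Complex.mul_im, Complex.conj_re, Complex.conj_im]
    linear_combination (2 * (fourier 2 s : ℂ).re) * h3
  simp_rw [e]
  rw [integral_add, integral_add, integral_add, integral_const_mul, integral_const_mul,
    integral_const_mul, hre 2 (by norm_num), hre 2 (by norm_num), hre 4 (by norm_num),
    integral_const]
  · have := neg_le_fourier_re 2 s
    have h1 : (volume : Measure U).real univ = 1 := by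
      rw [Measure.real, UnitAddCircle.measure_univ, ENNReal.toReal_one]
    rw [h1, one_smul]
    linarith
  · exact integrable_const _
  · exact (hci _ _).const_mul _
  · exact (integrable_const _).add ((hci _ _).const_mul _)
  · exact (hci _ _).const_mul _
  · exact ((integrable_const _).add ((hci _ _).const_mul _)).add ((hci _ _).const_mul _)
  · exact (hci _ _).const_mul _

theorem w_lint (y : U) : 2 ≤ ∫⁻ t : U, Xe t * Xe (t + hf) * Xe (t - y - y) * Xe (t + hf - y - y) := by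
  have e : ∀ t : U, Xe t * Xe (t + hf) * Xe (t - y - y) * Xe (t + hf - y - y) =
      ENNReal.ofReal ((2 - 2 * (fourier 2 t : ℂ).re) * (2 - 2 * (fourier 2 (t - (y + y)) : ℂ).re)) := by
    intro t
    rw [← Xu_mul_hf, ← Xu_mul_hf]
    unfold Xe
    rw [← ENNReal.ofReal_mul (Xu_nonneg _), ← ENNReal.ofReal_mul (mul_nonneg (Xu_nonneg _) (Xu_nonneg _)),
      ← ENNReal.ofReal_mul (mul_nonneg (mul_nonneg (Xu_nonneg _) (Xu_nonneg _)) (Xu_nonneg _))]
    congr 1
    rw [show t - (y + y) = t - y - y by abel, show t - y - y + hf = t + hf - y - y by abel]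
    ring
  simp_rw [e]
  have hc : Continuous fun t : U => (2 - 2 * (fourier 2 t : ℂ).re) * (2 - 2 * (fourier 2 (t - (y + y)) : ℂ).re) := by
    refine Continuous.mul ?_ ?_
    · exact continuous_const.sub (continuous_const.mul (Complex.continuous_re.comp (fourier 2).continuous))
    · exact continuous_const.sub (continuous_const.mul (Complex.continuous_re.comp
        ((fourier 2).continuous.comp (continuous_id.sub continuous_const))))
  rw [← ofReal_integral_eq_lintegral_ofReal (integrable_U hc)]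
  · have := w_integral (y + y)
    have h2 : (2 : ℝ≥0∞) = ENNReal.ofReal 2 := by simp
    rw [h2]
    exact ENNReal.ofReal_le_ofReal this
  · refine Eventually.of_forall fun t => ?_
    have h1 := fourier_re_le 2 t
    have h2 := fourier_re_le 2 (t - (y + y))
    show 0 ≤ _
    apply mul_nonneg <;> linarith only [h1, h2]

theorem Ms_Xe_int (h : RPH V) : ∫⁻ t : U, Ms h t * Xe t ≤ ENNReal.ofReal (V E1) := by
  have h1 := mU_lint h (fun p => Xe p.1) (Xe_measurable.comp measurable_fst)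
  have h2 : ∫⁻ t : U, Ms h t * Xe t = ∫⁻ y : U, ∫⁻ τ, Xe y ∂(mU h y) := by
    apply lintegral_congr
    intro t
    rw [lintegral_const, mul_comm]
    rfl
  rw [h2]
  refine (le_of_eq h1).trans ?_
  rw [← nu_univ h]
  refine (lintegral_mono_ae (g := fun _ => 1) ?_).trans (le_of_eq ?_)
  · filter_upwards [nu_ae h] with p hp
    calc Xe p.1 * ((Xe p.1)⁻¹ * ENNReal.ofReal (1 - p.2 ^ 2)) =
        (Xe p.1 * (Xe p.1)⁻¹) * ENNReal.ofReal (1 - p.2 ^ 2) := by ring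
      _ ≤ 1 * 1 := by
        refine mul_le_mul' (ENNReal.mul_inv_le_one _) ?_
        rw [← ENNReal.ofReal_one]
        apply ENNReal.ofReal_le_ofReal
        nlinarith only []
      _ = 1 := one_mul 1
  · simp only [lintegral_const, one_mul]

/-- **uniform bound of the mass** -/
theorem Ms_le (h : RPH V) : ∀ᵐ y : U, Ms h y ≤ ENNReal.ofReal (256 * V E1) := by
  have h1 : ∀ᵐ y : U, ∀ᵐ t : U, Ms h y * (Xe t * Xe (t + hf) * Xe (t - y - y) *
    Xe (t + hf - y - y)) ≤ 256 * (Ms h t * Xe t + Ms h (t + hf) * Xe (t + hf)) :=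
    Measure.ae_ae_of_ae_prod (mass_pt h)
  have hmX : Measurable fun t : U => Ms h t * Xe t := (Ms_measurable h).mul Xe_measurable
  have hmX2 : Measurable fun t : U => Ms h (t + hf) * Xe (t + hf) := hmX.comp (measurable_add_const hf)
  have hmX3 : Measurable fun t : U => Ms h t * Xe t + Ms h (t + hf) * Xe (t + hf) := hmX.add hmX2
  filter_upwards [h1] with y hy
  have hw1 : Measurable fun t : U => Xe (t + hf) := Xe_measurable.comp (measurable_id.add_const _)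
  have hw2 : Measurable fun t : U => Xe (t - y - y) :=
    Xe_measurable.comp ((measurable_id.sub_const _).sub_const _)
  have hw3 : Measurable fun t : U => Xe (t + hf - y - y) :=
    Xe_measurable.comp (((measurable_id.add_const _).sub_const _).sub_const _)
  have hmw : Measurable fun t : U => Xe t * Xe (t + hf) * Xe (t - y - y) * Xe (t + hf - y - y) :=
    ((Xe_measurable.mul hw1).mul hw2).mul hw3
  have h2 := lintegral_mono_ae hy
  rw [lintegral_const_mul _ hmw, lintegral_const_mul _ hmX3, lintegral_add_left hmX] at h2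
  have h3 : ∫⁻ t : U, Ms h (t + hf) * Xe (t + hf) = ∫⁻ t : U, Ms h t * Xe t :=
    (measurePreserving_add_right (volume : Measure U) hf).lintegral_comp hmX
  rw [h3] at h2
  have h4 := Ms_Xe_int h
  have h5 : Ms h y * 2 ≤ 256 * (ENNReal.ofReal (V E1) + ENNReal.ofReal (V E1)) :=
    (mul_le_mul_right (w_lint y) _).trans (h2.trans (mul_le_mul_right (add_le_add h4 h4) _))
  have h6 : 256 * (ENNReal.ofReal (V E1) + ENNReal.ofReal (V E1)) = ENNReal.ofReal (256 * V E1) * 2 := by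
    rw [ENNReal.ofReal_mul (by norm_num)]
    have : ENNReal.ofReal 256 = 256 := by simp
    rw [this]
    ring
  rw [h6] at h5
  exact (ENNReal.mul_le_mul_iff_left (by norm_num) (by norm_num)).1 h5

end Vale.Agent.P153.RP
end

section

/-!
# P153, block B: the density of the spectral measure satisfies `Iso.DensHyp`
-/

open MeasureTheory ProbabilityTheory Filter Topology Set
open scoped ENNReal Real

namespace Vale.Agent.P153.RP

/-- The coordinates `(a, b) = (k_x, k_x / 2 + √3 / 2 k_y)`. -/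
noncomputable def shearL : (ℝ × ℝ) ≃ₗ[ℝ] (ℝ × ℝ) where
  toFun p := (p.1, p.1 / 2 + √3 / 2 * p.2)
  invFun p := (p.1, (p.2 - p.1 / 2) * (2 / √3))
  map_add' p q := by
    apply Prod.ext
    · rfl
    · simp only [Prod.fst_add, Prod.snd_add]; ring
  map_smul' c p := by
    apply Prod.ext
    · rfl
    · simp only [Prod.smul_fst, Prod.smul_snd, smul_eq_mul, RingHom.id_apply]; ring
  left_inv p := by
    have h3 : √(3:ℝ) ≠ 0 := by positivity
    apply Prod.ext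
    · rfl
    · simp only; field_simp; ring
  right_inv p := by
    have h3 : √(3:ℝ) ≠ 0 := by positivity
    apply Prod.ext
    · rfl
    · simp only; field_simp; ring

/-- `ℂ → ℝ × ℝ`. -/
noncomputable def LC : ℂ ≃L[ℝ] (ℝ × ℝ) := Complex.equivRealProdCLM.trans shearL.toContinuousLinearEquiv

theorem qmp_LC : Measure.QuasiMeasurePreserving LC (volume : Measure ℂ) (volume : Measure (ℝ × ℝ)) := by
  refine ⟨LC.continuous.measurable, ?_⟩
  have h1 : Measure.IsAddHaarMeasure (Measure.map LC (volume : Measure ℂ)) :=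
    LC.isAddHaarMeasure_map volume
  rw [Measure.isAddLeftInvariant_eq_smul (Measure.map LC (volume : Measure ℂ)) (volume : Measure (ℝ × ℝ))]
  exact Measure.smul_absolutelyContinuous

/-- The torus point of a complex momentum. -/
noncomputable def PC (z : ℂ) : U × U := (pm z.re, pm (z.re / 2 + √3 / 2 * z.im))

theorem ae_PC {Q : U × U → Prop} (h : ∀ᵐ p, Q p) : ∀ᵐ z : ℂ, Q (PC z) := by
  have := qmp_LC.ae (ae_pm2 h)
  exact this

theorem PC_measurable : Measurable PC := by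
  unfold PC
  apply Measurable.prodMk
  · exact pm_measurable.comp Complex.measurable_re
  · exact pm_measurable.comp ((Complex.measurable_re.div_const 2).add
      (Complex.measurable_im.const_mul _))

theorem s3sq : √(3:ℝ) * √3 = 3 := Real.mul_self_sqrt (by norm_num)

theorem PC_om (z : ℂ) : rP (PC (Iso.om * z)) = PC z := by
  have h3 := s3sq
  unfold PC rP
  rw [Iso.om_mul_re, Iso.om_mul_im]
  have e1 : (z.re / 2 - √3 / 2 * z.im) / 2 + √3 / 2 * (√3 / 2 * z.re + z.im / 2) = z.re := by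
    linear_combination (z.re / 4) * h3
  rw [e1]
  apply Prod.ext
  · rfl
  · simp only
    rw [← pm_sub]
    congr 1
    ring

theorem PC_conj (z : ℂ) : PC ((starRingEnd ℂ) z) = fP (PC z) := by
  unfold PC fP
  rw [Complex.conj_re, Complex.conj_im]
  apply Prod.ext
  · rfl
  · simp only
    rw [← pm_sub]
    congr 1
    ring

theorem PC_1 (z : ℂ) : (PC z).2 + (PC z).2 - (PC z).1 = pm (√3 * z.im) := by
  unfold PC
  simp only
  rw [← pm_add, ← pm_sub]
  congr 1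
  ring

theorem PC_2 (z : ℂ) : (PC z).2 - (PC z).1 - (PC z).1 = pm (√3 / 2 * z.im - 3 / 2 * z.re) := by
  unfold PC
  simp only
  rw [← pm_sub, ← pm_sub]
  congr 1
  ring

theorem PC_3 (z : ℂ) : (PC z).1 + (PC z).2 = pm (√3 / 2 * z.im + 3 / 2 * z.re) := by
  unfold PC
  simp only
  rw [← pm_add]
  congr 1
  ring

theorem tP_PC (z : ℂ) : tP (PC z) = (pm z.re, pm (√3 * z.im)) := by
  have := PC_1 z
  unfold tP
  rw [this]
  rfl

theorem Xe_toReal (y : U) : (Xe y).toReal = Xu y := ENNReal.toReal_ofReal (Xu_nonneg y)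

theorem Xu_hf (y : U) : Xu (y + hf) = 4 - Xu y := by
  unfold Xu
  rw [fourier_add_arg, fourier_one_hf]
  simp only [mul_neg, mul_one, Complex.neg_re]
  ring

/-- Lower bound for `X`. -/
theorem X_low {θ : ℝ} (h : |θ| ≤ 1) : θ ^ 2 / 2 ≤ Xu (pm θ) := by
  rw [Xu_pm]
  have h1 := Iso.X_ge h
  have h2 : θ ^ 2 ≤ 1 := by
    rw [← sq_abs]; exact pow_le_one₀ (abs_nonneg _) h
  have h3 : 0 ≤ θ ^ 2 := by positivity
  nlinarith

theorem X_up (θ : ℝ) : Xu (pm θ) ≤ θ ^ 2 := by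
  rw [Xu_pm]; exact Iso.X_le θ

variable {V : (Fin 2 → ℤ) → ℝ}

/-- The mass bound on the torus. -/
theorem bounds (h : RPH V) : ∀ᵐ p : U × U,
    (fD h p * Xe (p.2 + p.2 - p.1) ≤ ENNReal.ofReal (2048 * V E1)) ∧
    (fD h p * Xe (p.2 - p.1 - p.1) ≤ ENNReal.ofReal (2048 * V E1)) ∧
    (fD h p * Xe (p.1 + p.2) ≤ ENNReal.ofReal (2048 * V E1)) := by
  have e : ENNReal.ofReal (2048 * V E1) = 8 * ENNReal.ofReal (256 * V E1) := by
    have : (8 : ℝ≥0∞) = ENNReal.ofReal 8 := by simp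
    rw [this, ← ENNReal.ofReal_mul (by norm_num)]
    congr 1; ring
  have m1 : ∀ᵐ p : U × U, Ms h p.1 ≤ ENNReal.ofReal (256 * V E1) :=
    Measure.quasiMeasurePreserving_fst.ae (Ms_le h)
  have m2 : ∀ᵐ p : U × U, Ms h p.2 ≤ ENNReal.ofReal (256 * V E1) :=
    Measure.quasiMeasurePreserving_snd.ae (Ms_le h)
  have m3 : ∀ᵐ p : U × U, Ms h (p.2 - p.1) ≤ ENNReal.ofReal (256 * V E1) :=
    rP_mp.quasiMeasurePreserving.ae m2
  filter_upwards [fD_le1 h, fD_le2 h, fD_le3 h, m1, m2, m3] with p h1 h2 h3 m1 m2 m3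
  rw [e]
  exact ⟨h1.trans (mul_le_mul_right m1 _), h2.trans (mul_le_mul_right m2 _),
    h3.trans (mul_le_mul_right m3 _)⟩

theorem toReal_bound {a : ℝ≥0∞} {y : U} {B : ℝ} (hB : 0 ≤ B) (h : a * Xe y ≤ ENNReal.ofReal B) :
    a.toReal * Xu y ≤ B := by
  have := ENNReal.toReal_mono ENNReal.ofReal_ne_top h
  rwa [ENNReal.toReal_mul, Xe_toReal, ENNReal.toReal_ofReal hB] at this

theorem ne_top_bound {a : ℝ≥0∞} {y : U} {B : ℝ} (hy : 0 < Xu y) (h : a * Xe y ≤ ENNReal.ofReal B) :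
    a ≠ ⊤ := by
  rintro rfl
  have : Xe y ≠ 0 := by
    unfold Xe
    rw [Ne, ENNReal.ofReal_eq_zero, not_le]; exact hy
  rw [ENNReal.top_mul this] at h
  exact ENNReal.ofReal_ne_top (top_le_iff.1 h)

theorem VE1_nonneg (h : RPH V) : 0 ≤ V E1 := h.toVH.toVH0.nonneg _


theorem sum_X_low {z : ℂ} (hz : ‖z‖ < 1 / 4) :
    9 / 4 * ‖z‖ ^ 2 ≤ Xu (pm (√3 * z.im)) + Xu (pm (√3 / 2 * z.im - 3 / 2 * z.re)) +
      Xu (pm (√3 / 2 * z.im + 3 / 2 * z.re)) := by
  have h3 := s3sq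
  have hs := Iso.sqrt3_lt
  have hs0 : 0 < √(3:ℝ) := by positivity
  have hre := (Complex.abs_re_le_norm z)
  have him := (Complex.abs_im_le_norm z)
  have n : ‖z‖ ^ 2 = z.re ^ 2 + z.im ^ 2 := by
    rw [← Complex.normSq_eq_norm_sq, Complex.normSq_apply]; ring
  have r1 := abs_le.1 (hre.trans hz.le)
  have r2 := abs_le.1 (him.trans hz.le)
  have a1 := X_low (θ := √3 * z.im) (by rw [abs_le]; constructor <;> nlinarith)
  have a2 := X_low (θ := √3 / 2 * z.im - 3 / 2 * z.re) (by rw [abs_le]; constructor <;> nlinarith)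
  have a3 := X_low (θ := √3 / 2 * z.im + 3 / 2 * z.re) (by rw [abs_le]; constructor <;> nlinarith)
  have e : (√3 * z.im) ^ 2 / 2 + (√3 / 2 * z.im - 3 / 2 * z.re) ^ 2 / 2 +
      (√3 / 2 * z.im + 3 / 2 * z.re) ^ 2 / 2 = 9 / 4 * ‖z‖ ^ 2 := by
    rw [n]
    linear_combination (z.im ^ 2 * (3 / 4)) * h3
  linarith

theorem psi_toReal (h : RPH V) (x y : ℝ) (hs : ∀ᵐ τ ∂(mR h x), 0 ≤ τ ∧ τ < 1) :
    (PsU h (pm x, pm (√3 * y))).toReal = Iso.Psi (fun x => mR h x) x y := by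
  unfold Iso.Psi PsU
  rw [integral_eq_lintegral_of_nonneg_ae]
  · congr 1
    apply lintegral_congr
    intro τ
    simp only
    rw [dU_pm]
    rfl
  · filter_upwards [hs] with τ hτ
    exact one_div_nonneg.2 (Iso.den_pos' hτ.1 hτ.2).le
  · apply Measurable.aestronglyMeasurable
    unfold Iso.den
    fun_prop

theorem densHyp (h : RPH V) : ∃ C ρ, Iso.DensHyp (phiR h) (fun x => mR h x) C ρ := by
  have hV := VE1_nonneg h
  have hfmeas : Measurable (phiR h) := ((fD_measurable h).comp PC_measurable).ennreal_toReal.div_const 2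
  refine ⟨2048 * V E1, 1 / 4, ⟨by norm_num, hfmeas, ?_, ?_, ?_, ?_, ?_, ?_, ?_⟩⟩
  · intro z
    unfold phiR
    positivity
  · filter_upwards [ae_PC (bounds h)] with z hz hz1
    obtain ⟨b1, b2, b3⟩ := hz
    rw [PC_1] at b1
    rw [PC_2] at b2
    rw [PC_3] at b3
    have c1 := toReal_bound (by positivity) b1
    have c2 := toReal_bound (by positivity) b2
    have c3 := toReal_bound (by positivity) b3
    have hx := sum_X_low hz1
    have hF : 0 ≤ (fD h (PC z)).toReal := ENNReal.toReal_nonneg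
    have hφ : phiR h z = (fD h (PC z)).toReal / 2 := rfl
    rw [hφ]
    have := mul_le_mul_of_nonneg_left hx hF
    nlinarith
  · have h1 : ∀ᵐ z : ℂ, fD h (rP (PC z)) = fD h (PC z) := ae_PC (fD_rP h)
    have hc : Iso.om ∈ Submonoid.unitSphere ℂ := by
      rw [Submonoid.unitSphere]
      simp [Iso.norm_om]
    set c : Circle := ⟨Iso.om, hc⟩ with hcdef
    have h2 : ∀ᵐ z : ℂ, fD h (rP (PC (Iso.om * z))) = fD h (PC (Iso.om * z)) :=
      (rotation c).measurePreserving.quasiMeasurePreserving.ae h1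
    filter_upwards [h2] with z hz
    rw [PC_om] at hz
    show (fD h (PC (Iso.om * z))).toReal / 2 = (fD h (PC z)).toReal / 2
    rw [hz]
  · have h1 : ∀ᵐ z : ℂ, fD h (fP (PC z)) = fD h (PC z) := ae_PC (fD_fP h)
    filter_upwards [h1] with z hz
    show (fD h (PC ((starRingEnd ℂ) z))).toReal / 2 = (fD h (PC z)).toReal / 2
    rw [PC_conj, hz]
  · exact ae_pm (mU_supp h)
  · filter_upwards [ae_pm (Ms_le h)] with x hx _
    exact ne_top_of_le_ne_top ENNReal.ofReal_ne_top hx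
  · have hbQ : ∀ᵐ z : ℂ, fD h (PC z + Qp) * Xe ((PC z + Qp).2 - (PC z + Qp).1 - (PC z + Qp).1) ≤
        ENNReal.ofReal (2048 * V E1) := by
      have := mp_Qp.quasiMeasurePreserving.ae (bounds h)
      filter_upwards [ae_PC this] with z hz
      exact hz.2.1
    have h0 : ∀ᵐ z : ℂ, z ≠ 0 := by
      have : (volume : Measure ℂ) {0} = 0 := measure_singleton 0
      exact measure_eq_zero_iff_ae_notMem.1 this
    filter_upwards [ae_PC (bounds h), ae_PC (fold_fD h), hbQ, h0, Iso.ae_re (ae_pm (mU_supp h))] with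
      z hb hfold hq hz0 hs hz1
    obtain ⟨b1, b2, b3⟩ := hb
    rw [PC_1] at b1
    rw [PC_2] at b2
    rw [PC_3] at b3
    have hx := sum_X_low hz1
    have hn : 0 < ‖z‖ := norm_pos_iff.2 hz0
    have hpos : 0 < 9 / 4 * ‖z‖ ^ 2 := by positivity
    have n1 := Xu_nonneg (pm (√3 * z.im))
    have n2 := Xu_nonneg (pm (√3 / 2 * z.im - 3 / 2 * z.re))
    have n3 := Xu_nonneg (pm (√3 / 2 * z.im + 3 / 2 * z.re))
    have htop : fD h (PC z) ≠ ⊤ := by
      rcases lt_or_ge 0 (Xu (pm (√3 * z.im))) with k1 | k1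
      · exact ne_top_bound k1 b1
      · rcases lt_or_ge 0 (Xu (pm (√3 / 2 * z.im - 3 / 2 * z.re))) with k2 | k2
        · exact ne_top_bound k2 b2
        · exact ne_top_bound (by linarith) b3
    -- the point near `Q`
    have eQ : (PC z + Qp).2 - (PC z + Qp).1 - (PC z + Qp).1 =
        pm (√3 / 2 * z.im - 3 / 2 * z.re) + hf := by
      rw [← PC_2]
      show (PC z).2 + hf - ((PC z).1 + 0) - ((PC z).1 + 0) = _
      rw [add_zero]
      abel
    rw [eQ] at hq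
    have hs3 := Iso.sqrt3_lt
    have hs0 : 0 < √(3:ℝ) := by positivity
    have r1 := abs_le.1 ((Complex.abs_re_le_norm z).trans hz1.le)
    have r2 := abs_le.1 ((Complex.abs_im_le_norm z).trans hz1.le)
    have hXQ : 2 ≤ Xu (pm (√3 / 2 * z.im - 3 / 2 * z.re) + hf) := by
      rw [Xu_hf]
      have u1 := X_up (√3 / 2 * z.im - 3 / 2 * z.re)
      have u2 : (√3 / 2 * z.im - 3 / 2 * z.re) ^ 2 ≤ 1 := by
        rw [← sq_abs]
        apply pow_le_one₀ (abs_nonneg _)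
        rw [abs_le]; constructor <;> nlinarith
      linarith
    have htopQ : fD h (PC z + Qp) ≠ ⊤ := ne_top_bound (by linarith) hq
    have hqr := toReal_bound (by positivity) hq
    rw [tP_PC] at hfold
    have hre := congrArg ENNReal.toReal hfold
    rw [ENNReal.toReal_add htop htopQ, ENNReal.toReal_mul, psi_toReal h _ _ hs] at hre
    have hφ : phiR h z = (fD h (PC z)).toReal / 2 := rfl
    have h2 : (2 : ℝ≥0∞).toReal = 2 := by simp
    rw [h2] at hre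
    have hF : 0 ≤ (fD h (PC z + Qp)).toReal := ENNReal.toReal_nonneg
    have e : phiR h z - Iso.Psi (fun x => mR h x) z.re z.im = -((fD h (PC z + Qp)).toReal / 2) := by
      rw [hφ]; linarith
    rw [e, abs_neg, abs_of_nonneg (by positivity)]
    nlinarith

end Vale.Agent.P153.RP
end

section

/-!
# The row spectral data of the variogram
-/

open MeasureTheory Filter Topology Set UnitAddTorus ProbabilityTheory
open scoped NNReal ENNReal Real unitInterval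

namespace Vale.Agent.P153.RP

variable {V : (Fin 2 → ℤ) → ℝ}

theorem mR_supp (h : RPH V) : ∀ᵐ k : ℝ, ∀ᵐ τ ∂(mR h k), 0 ≤ τ ∧ τ < 1 := ae_pm (mU_supp h)

theorem mR_mass (h : RPH V) : ∀ᵐ k : ℝ, mR h k univ ≤ ENNReal.ofReal (256 * V E1) := ae_pm (Ms_le h)

theorem one_sub_cos_eq (k : ℝ) : ENNReal.ofReal (1 - Real.cos k) ≤ Xe (pm k) := by
  unfold Xe
  rw [Xu_pm]
  apply ENNReal.ofReal_le_ofReal
  have := Real.cos_le_one k
  linarith

theorem mR_fin (h : RPH V) : ∫⁻ k in Icc (-π) π, ENNReal.ofReal (1 - Real.cos k) *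
    ∫⁻ τ, ENNReal.ofReal (1 / (1 - τ ^ 2)) ∂(mR h k) ≠ ⊤ := by
  have hg : Measurable fun τ : ℝ => ENNReal.ofReal (1 / (1 - τ ^ 2)) :=
    (measurable_const.div (measurable_const.sub (measurable_id.pow_const 2))).ennreal_ofReal
  have hgm : Measurable fun y : U => ∫⁻ τ, ENNReal.ofReal (1 / (1 - τ ^ 2)) ∂(mU h y) :=
    Measurable.lintegral_kernel_prod_right' (hg.comp measurable_snd)
  have hF : Measurable fun p : U × ℝ => Xe p.1 * ENNReal.ofReal (1 / (1 - p.2 ^ 2)) :=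
    (Xe_measurable.comp measurable_fst).mul (hg.comp measurable_snd)
  have h1 : ∫⁻ y : U, Xe y * ∫⁻ τ, ENNReal.ofReal (1 / (1 - τ ^ 2)) ∂(mU h y) ≤ nu h univ := by
    have h2 := mU_lint h _ hF
    have h3 : ∫⁻ y : U, Xe y * ∫⁻ τ, ENNReal.ofReal (1 / (1 - τ ^ 2)) ∂(mU h y) =
        ∫⁻ y : U, ∫⁻ τ, Xe y * ENNReal.ofReal (1 / (1 - τ ^ 2)) ∂(mU h y) := by
      apply lintegral_congr
      intro y
      rw [lintegral_const_mul _ hg]
    rw [h3]
    refine (le_of_eq h2).trans ?_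
    refine (lintegral_mono_ae (g := fun _ => 1) ?_).trans (le_of_eq ?_)
    · filter_upwards [nu_ae h] with p hp
      have h4 := one_sub_sq_pos hp.1 hp.2
      calc Xe p.1 * ENNReal.ofReal (1 / (1 - p.2 ^ 2)) * ((Xe p.1)⁻¹ * ENNReal.ofReal (1 - p.2 ^ 2)) =
          (Xe p.1 * (Xe p.1)⁻¹) * (ENNReal.ofReal (1 / (1 - p.2 ^ 2)) * ENNReal.ofReal (1 - p.2 ^ 2)) := by
            ring
        _ ≤ 1 * 1 := by
          refine mul_le_mul' (ENNReal.mul_inv_le_one _) ?_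
          rw [← ENNReal.ofReal_mul (one_div_pos.2 h4).le, one_div_mul_cancel h4.ne', ENNReal.ofReal_one]
        _ = 1 := one_mul 1
    · simp only [lintegral_const, one_mul]
  have h5 : ∫⁻ k in Icc (-π) π, ENNReal.ofReal (1 - Real.cos k) *
      ∫⁻ τ, ENNReal.ofReal (1 / (1 - τ ^ 2)) ∂(mR h k) ≤ ENNReal.ofReal (2 * π) * nu h univ := by
    have h6 := lintegral_U (fun y => Xe y * ∫⁻ τ, ENNReal.ofReal (1 / (1 - τ ^ 2)) ∂(mU h y))
      (Xe_measurable.mul hgm)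
    refine le_trans ?_ (mul_le_mul_right h1 _)
    rw [← h6]
    apply lintegral_mono
    intro k
    exact mul_le_mul_left (one_sub_cos_eq k) _
  refine ne_of_lt (lt_of_le_of_lt h5 ?_)
  exact ENNReal.mul_lt_top ENNReal.ofReal_lt_top (measure_lt_top _ _)

/-! ### the Poisson representation of the variogram -/

theorem integral_cu_dU {τ : ℝ} (h0 : 0 ≤ τ) (h1 : τ < 1) (n m : ℤ) (y : U) :
    ∫ ϑ : U, (2 - 2 * cu n m (y, ϑ)) * (1 / dU τ ϑ) =
      2 * ((1 - (fourier n y : ℂ).re * τ ^ m.natAbs) / (1 - τ ^ 2)) := by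
  have hi1 : Integrable (fun ϑ : U => 1 / dU τ ϑ) volume :=
    integrable_U (continuous_const.div (dU_continuous τ) fun ϑ => (dU_pos h0 h1 ϑ).ne')
  have hc : Continuous fun ϑ : U => (fourier n y : ℂ) * (fourier m ϑ / (dU τ ϑ : ℂ)) :=
    continuous_const.mul (cont_dU_inv h0 h1 (fourier m))
  have hi2 := integrable_U hc
  have h2 := integral_re (𝕜 := ℂ) hi2
  rw [integral_const_mul, poisson_U h0 h1] at h2
  have e1 : ∀ ϑ : U, (2 - 2 * cu n m (y, ϑ)) * (1 / dU τ ϑ) =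
      2 * (1 / dU τ ϑ) - 2 * RCLike.re ((fourier n y : ℂ) * (fourier m ϑ / (dU τ ϑ : ℂ))) := by
    intro ϑ
    have e2 : RCLike.re ((fourier n y : ℂ) * (fourier m ϑ / (dU τ ϑ : ℂ))) = cu n m (y, ϑ) * (1 / dU τ ϑ) := by
      show ((fourier n y : ℂ) * (fourier m ϑ / (dU τ ϑ : ℂ))).re = _
      rw [← mul_div_assoc, Complex.div_ofReal_re, mul_one_div]
      rfl
    rw [e2]; ring
  simp_rw [e1]
  rw [integral_sub (hi1.const_mul 2) (hi2.re.const_mul 2), integral_const_mul, integral_const_mul,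
    integral_inv_dU h0 h1, h2]
  have e3 : RCLike.re ((fourier n y : ℂ) * ((τ ^ m.natAbs / (1 - τ ^ 2) : ℝ) : ℂ)) =
      (fourier n y : ℂ).re * (τ ^ m.natAbs / (1 - τ ^ 2)) := by
    show ((fourier n y : ℂ) * ((τ ^ m.natAbs / (1 - τ ^ 2) : ℝ) : ℂ)).re = _
    rw [Complex.re_mul_ofReal]
  rw [e3]
  ring

theorem lintegral_cu_dU {τ : ℝ} (h0 : 0 ≤ τ) (h1 : τ < 1) (n m : ℤ) (y : U) :
    ∫⁻ ϑ : U, ENNReal.ofReal (2 - 2 * cu n m (y, ϑ)) * ENNReal.ofReal (1 / dU τ ϑ) =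
      ENNReal.ofReal (2 * ((1 - (fourier n y : ℂ).re * τ ^ m.natAbs) / (1 - τ ^ 2))) := by
  rw [← integral_cu_dU h0 h1, ofReal_integral_eq_lintegral_ofReal]
  · apply lintegral_congr
    intro ϑ
    rw [ENNReal.ofReal_mul]
    have := (abs_le.1 (abs_cu_le n m (y, ϑ))).2
    linarith
  · apply integrable_U
    refine Continuous.mul ?_ ?_
    · exact continuous_const.sub (continuous_const.mul ((cu_continuous n m).comp (by fun_prop)))
    · exact continuous_const.div (dU_continuous τ) fun ϑ => (dU_pos h0 h1 ϑ).ne'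
  · refine Eventually.of_forall fun ϑ => ?_
    have := (abs_le.1 (abs_cu_le n m (y, ϑ))).2
    exact mul_nonneg (by linarith) (one_div_pos.2 (dU_pos h0 h1 ϑ)).le

theorem V_lint (h : RPH V) (j z : ℤ) : ENNReal.ofReal (Vr V j z) =
    ∫⁻ y : U, ∫⁻ τ, ENNReal.ofReal (2 * ((1 - (fourier z y : ℂ).re * τ ^ j.natAbs) / (1 - τ ^ 2)))
      ∂(mU h y) := by
  set G : U × U → ℝ≥0∞ := fun q => ENNReal.ofReal (2 - 2 * cu z j q) with hG
  have hGm : Measurable G :=
    (continuous_const.sub (continuous_const.mul (cu_continuous z j))).measurable.ennreal_ofReal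
  have h1 : ENNReal.ofReal (Vr V j z) = ∫⁻ p, G (tP p) ∂(PhiP h.toVH) := by
    have hGt : Measurable fun p : U × U => G (tP p) := hGm.comp tP_continuous.measurable
    unfold Vr PhiP
    rw [← lintegral_xe_Phi h.toVH, lintegral_map hGt toP_measurable]
    apply lintegral_congr
    intro θ
    rw [xe_toP]
    simp only [hG, Matrix.cons_val_zero, Matrix.cons_val_one]
    rw [cu_tP]
  rw [h1, ← lintegral_map hGm tP_continuous.measurable, tP_PhiP h,
    lintegral_withDensity_eq_lintegral_mul _ (PsU_measurable h) hGm, Measure.volume_eq_prod,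
    lintegral_prod _ ((PsU_measurable h).mul hGm).aemeasurable]
  apply lintegral_congr_ae
  filter_upwards [mU_supp h] with y hy
  have h2 := swap_aux h G hGm y
  refine h2.symm.trans ?_
  apply lintegral_congr_ae
  filter_upwards [hy] with τ hτ
  exact lintegral_cu_dU hτ.1 hτ.2 z j y

theorem fourier_pm_re (z : ℤ) (k : ℝ) : (fourier z (pm k) : ℂ).re = Real.cos (k * z) := by
  rw [fourier_pm, mul_comm Complex.I, Complex.exp_ofReal_mul_I_re]

theorem kern_nonneg {τ : ℝ} (h0 : 0 ≤ τ) (h1 : τ < 1) (c : ℝ) (hc : c ≤ 1) (n : ℕ) :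
    0 ≤ (1 - c * τ ^ n) / (1 - τ ^ 2) := by
  apply div_nonneg _ (one_sub_sq_pos h0 h1).le
  have h2 : τ ^ n ≤ 1 := pow_le_one₀ h0 h1.le
  have h3 : 0 ≤ τ ^ n := pow_nonneg h0 n
  nlinarith

theorem V_rep (h : RPH V) (j z : ℤ) : Vr V j z = (1 / π) * ∫ k in Icc (-π) π, ∫ τ,
    (1 - Real.cos (k * z) * τ ^ j.natAbs) / (1 - τ ^ 2) ∂(mR h k) := by
  have hpi := Real.pi_pos
  have hV0 : 0 ≤ Vr V j z := h.toVH.nonneg _
  -- the inner function on the circle
  have hm2 : Measurable fun p : U × ℝ => (1 - (fourier z p.1 : ℂ).re * p.2 ^ j.natAbs) / (1 - p.2 ^ 2) := by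
    refine Measurable.div ?_ ?_
    · refine measurable_const.sub (Measurable.mul ?_ (measurable_snd.pow_const _))
      exact Complex.measurable_re.comp ((fourier z).continuous.measurable.comp measurable_fst)
    · exact measurable_const.sub (measurable_snd.pow_const 2)
  set J : U → ℝ≥0∞ := fun y => ∫⁻ τ, ENNReal.ofReal ((1 - (fourier z y : ℂ).re * τ ^ j.natAbs) / (1 - τ ^ 2))
    ∂(mU h y) with hJ
  have hJm : Measurable J := Measurable.lintegral_kernel_prod_right' hm2.ennreal_ofReal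
  have h1 : ENNReal.ofReal (Vr V j z) = 2 * ∫⁻ y : U, J y := by
    rw [V_lint h, ← lintegral_const_mul _ hJm]
    apply lintegral_congr
    intro y
    simp only [hJ]
    rw [← lintegral_const_mul]
    · apply lintegral_congr
      intro τ
      rw [ENNReal.ofReal_mul (by norm_num)]
      simp
    · exact (hm2.comp measurable_prodMk_left).ennreal_ofReal
  have h2 := lintegral_U J hJm
  have h3 : ∫⁻ s in Icc (-π) π, J (pm s) = ENNReal.ofReal (π * Vr V j z) := by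
    rw [h2, ENNReal.ofReal_mul hpi.le, h1, ENNReal.ofReal_mul (by norm_num)]
    have : ENNReal.ofReal 2 = 2 := by simp
    rw [this]
    ring
  have hJpm : Measurable fun s : ℝ => J (pm s) := hJm.comp pm_measurable
  have hfin : ∀ᵐ s ∂(volume.restrict (Icc (-π) π)), J (pm s) < ⊤ := by
    apply ae_lt_top hJpm
    rw [h3]; exact ENNReal.ofReal_ne_top
  have h4 : ∫ k in Icc (-π) π, ∫ τ, (1 - Real.cos (k * z) * τ ^ j.natAbs) / (1 - τ ^ 2) ∂(mR h k) =
      ∫ k in Icc (-π) π, (J (pm k)).toReal := by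
    apply integral_congr_ae
    filter_upwards [ae_restrict_of_ae (mR_supp h)] with k hk
    rw [integral_eq_lintegral_of_nonneg_ae]
    · simp only [hJ]
      congr 1
      rw [mR_apply]
      apply lintegral_congr
      intro τ
      rw [fourier_pm_re]
    · filter_upwards [hk] with τ hτ
      exact kern_nonneg hτ.1 hτ.2 _ (Real.cos_le_one _) _
    · apply Measurable.aestronglyMeasurable
      refine Measurable.div ?_ ?_
      · exact measurable_const.sub (measurable_const.mul (measurable_id.pow_const _))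
      · exact measurable_const.sub (measurable_id.pow_const 2)
  rw [h4, integral_toReal hJpm.aemeasurable hfin, h3, ENNReal.toReal_ofReal (by (clear * - hV0; positivity))]
  field_simp

/-! ### the bound of `∫ 1/(1-τ)²` -/

theorem hf_eq : hf = pm π := by
  unfold hf pm
  congr 1
  have := Real.pi_ne_zero
  field_simp

theorem pt_bound (h : RPH V) : ∀ᵐ k : ℝ, ∀ᵐ s : ℝ,
    ENNReal.ofReal (2 - 2 * Real.cos (s - 2 * k)) ≠ 0 → ENNReal.ofReal (2 + 2 * Real.cos (s - 2 * k)) ≠ 0 →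
    2 * PsU h (pm k, pm (2 * s - k)) ≤ 8 * ENNReal.ofReal (256 * V E1) /
        ENNReal.ofReal (2 - 2 * Real.cos (s - 2 * k)) +
      8 * ENNReal.ofReal (256 * V E1) / ENNReal.ofReal (2 + 2 * Real.cos (s - 2 * k)) := by
  have hM : ∀ᵐ p : U × U, Ms h p.2 ≤ ENNReal.ofReal (256 * V E1) :=
    Measure.quasiMeasurePreserving_snd.ae (Ms_le h)
  have h0 : ∀ᵐ p : U × U, (fD h p + fD h (p + Qp) = 2 * PsU h (tP p)) ∧
      (fD h p * Xe (p.2 - p.1 - p.1) ≤ 8 * ENNReal.ofReal (256 * V E1)) ∧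
      (fD h (p + Qp) * Xe ((p + Qp).2 - (p + Qp).1 - (p + Qp).1) ≤ 8 * ENNReal.ofReal (256 * V E1)) := by
    filter_upwards [fold_fD h, fD_le2 h, mp_Qp.quasiMeasurePreserving.ae (fD_le2 h), hM,
      mp_Qp.quasiMeasurePreserving.ae hM] with p h1 h2 h3 h4 h5
    exact ⟨h1, h2.trans (mul_le_mul_right h4 _), h3.trans (mul_le_mul_right h5 _)⟩
  have h1 := ae_pm2 h0
  have h2 : ∀ᵐ k : ℝ, ∀ᵐ s : ℝ, _ := Measure.ae_ae_of_ae_prod h1
  filter_upwards [h2] with k hk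
  filter_upwards [hk] with s hs hne1 hne2
  obtain ⟨e1, e2, e3⟩ := hs
  have t1 : tP (pm k, pm s) = (pm k, pm (2 * s - k)) := by
    show (pm k, pm s + pm s - pm k) = _
    rw [← pm_add, ← pm_sub, two_mul]
  have x1 : Xe (pm s - pm k - pm k) = ENNReal.ofReal (2 - 2 * Real.cos (s - 2 * k)) := by
    unfold Xe
    rw [← pm_sub, ← pm_sub, Xu_pm]
    congr 4
    ring
  have x2 : Xe (((pm k, pm s) + Qp).2 - ((pm k, pm s) + Qp).1 - ((pm k, pm s) + Qp).1) =
      ENNReal.ofReal (2 + 2 * Real.cos (s - 2 * k)) := by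
    have : ((pm k, pm s) + Qp).2 - ((pm k, pm s) + Qp).1 - ((pm k, pm s) + Qp).1 =
        pm (s - 2 * k + π) := by
      show pm s + hf - (pm k + 0) - (pm k + 0) = _
      rw [add_zero, hf_eq, ← pm_add, ← pm_sub, ← pm_sub]
      congr 1
      ring
    rw [this]
    unfold Xe
    rw [Xu_pm, Real.cos_add_pi]
    congr 1
    ring
  rw [t1] at e1
  rw [← e1]
  refine add_le_add ?_ ?_
  · rw [ENNReal.le_div_iff_mul_le (Or.inl hne1) (Or.inl ENNReal.ofReal_ne_top), ← x1]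
    exact e2
  · rw [ENNReal.le_div_iff_mul_le (Or.inl hne2) (Or.inl ENNReal.ofReal_ne_top), ← x2]
    exact e3

theorem cos_low {k s : ℝ} (hk : |k| < 1 / 10) (hs : |s - k / 2| ≤ |k| / 4) :
    k ^ 2 / 4 ≤ 2 - 2 * Real.cos (s - 2 * k) ∧ 1 ≤ 2 + 2 * Real.cos (s - 2 * k) := by
  set x := s - 2 * k with hx
  have h1 : |x| ≤ 2 * |k| := by
    have : x = (s - k / 2) + (-(3 / 2)) * k := by rw [hx]; ring
    rw [this]
    refine (abs_add_le _ _).trans ?_
    rw [abs_mul, abs_neg]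
    have : |(3 / 2 : ℝ)| = 3 / 2 := abs_of_pos (by norm_num)
    rw [this]
    have := abs_nonneg k
    linarith only [hs, this]
  have h2 : |k| ≤ |x| := by
    have : (3 / 2) * k = (s - k / 2) - x := by rw [hx]; ring
    have h3 : |(3 / 2) * k| ≤ |s - k / 2| + |x| := by
      rw [this]; exact abs_sub _ _
    rw [abs_mul] at h3
    have h4 : |(3 / 2 : ℝ)| = 3 / 2 := abs_of_pos (by norm_num)
    rw [h4] at h3
    have := abs_nonneg k
    linarith only [hs, h1, h3]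
  have hpi := Real.pi_gt_three
  have hpi2 := Real.pi_lt_four
  constructor
  · have h5 := Real.cos_le_one_sub_mul_cos_sq (x := x) (by linarith only [hk, h1, hpi])
    have h6 : k ^ 2 ≤ x ^ 2 := by
      rw [← sq_abs k, ← sq_abs x]
      exact pow_le_pow_left₀ (abs_nonneg _) h2 2
    have h7 : 1 / 8 ≤ 2 / π ^ 2 := by
      rw [div_le_div_iff₀ (by norm_num) (by positivity)]
      nlinarith only [hpi2, hpi]
    nlinarith only [h5, h6, h7]
  · have h5 := Real.one_sub_sq_div_two_le_cos (x := x)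
    have h6 : x ^ 2 ≤ 1 := by
      rw [← sq_abs x]
      have : |x| ≤ 1 := by linarith only [hk, h1]
      exact pow_le_one₀ (abs_nonneg _) this
    linarith only [h5, h6]

theorem exists_seq (k : ℝ) (hk : k ≠ 0) {P : ℝ → Prop} (hP : ∀ᵐ s : ℝ, P s) :
    ∃ s : ℕ → ℝ, (∀ n, P (s n)) ∧ (∀ n, |s n - k / 2| ≤ |k| / 4) ∧ Tendsto s atTop (𝓝 (k / 2)) := by
  have hk' : 0 < |k| := abs_pos.2 hk
  have h1 : ∀ n : ℕ, ∃ s, P s ∧ s ∈ Ioo (k / 2) (k / 2 + |k| / 4 / (n + 1)) := by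
    intro n
    have hpos : 0 < |k| / 4 / ((n : ℝ) + 1) := by positivity
    by_contra hc
    push Not at hc
    have h2 : volume (Ioo (k / 2) (k / 2 + |k| / 4 / ((n : ℝ) + 1))) = 0 := by
      refine measure_mono_null ?_ (ae_iff.1 hP)
      intro s hs hPs
      exact hc s hPs hs
    rw [Real.volume_Ioo, ENNReal.ofReal_eq_zero] at h2
    linarith
  choose s hs1 hs2 using h1
  refine ⟨s, hs1, ?_, ?_⟩
  · intro n
    have h2 := hs2 n
    rw [abs_of_pos (by linarith only [h2.1])]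
    have h3 : |k| / 4 / ((n : ℝ) + 1) ≤ |k| / 4 := by
      apply div_le_self (by positivity)
      have : (0 : ℝ) ≤ n := Nat.cast_nonneg n
      linarith
    linarith [h2.2]
  · refine tendsto_of_tendsto_of_tendsto_of_le_of_le (g := fun _ => k / 2)
      (h := fun n : ℕ => k / 2 + |k| / 4 / ((n : ℝ) + 1)) tendsto_const_nhds ?_
      (fun n => (hs2 n).1.le) (fun n => (hs2 n).2.le)
    have h3 : Tendsto (fun n : ℕ => |k| / 4 * (1 / ((n : ℝ) + 1))) atTop (𝓝 (|k| / 4 * 0)) :=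
      tendsto_one_div_add_atTop_nhds_zero_nat.const_mul _
    have h4 := h3.const_add (k / 2)
    rw [mul_zero, add_zero] at h4
    refine h4.congr fun n => ?_
    rw [mul_one_div]

theorem mR_inv (h : RPH V) : ∀ᵐ k : ℝ, |k| < 1 / 10 → k ≠ 0 →
    ∫⁻ τ, ENNReal.ofReal (1 / (1 - τ) ^ 2) ∂(mR h k) ≤
      ENNReal.ofReal (20 * (256 * V E1) / k ^ 2) := by
  have hA : 0 ≤ 256 * V E1 := mul_nonneg (by norm_num) (h.toVH.nonneg _)
  set A : ℝ := 256 * V E1 with hAd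
  filter_upwards [pt_bound h, mR_supp h] with k hk hsupp hk0 hkne
  obtain ⟨s, hs1, hs2, hs3⟩ := exists_seq k hkne hk
  have hk2 : 0 < k ^ 2 := by positivity
  have hb : ∀ n, PsU h (pm k, pm (2 * s n - k)) ≤ ENNReal.ofReal (20 * A / k ^ 2) := by
    intro n
    obtain ⟨c1, c2⟩ := cos_low hk0 (hs2 n)
    have p1 : 0 < 2 - 2 * Real.cos (s n - 2 * k) := by linarith only [hk2, c1]
    have p2 : 0 < 2 + 2 * Real.cos (s n - 2 * k) := by linarith only [c2]
    have h1 := hs1 n (by simpa only [ne_eq, ENNReal.ofReal_eq_zero, tsub_le_iff_right, zero_add, Nat.ofNat_pos,     le_mul_iff_one_le_right, not_le, sub_pos, mul_lt_iff_lt_one_right] using p1) (by simpa only [ne_eq, ENNReal.ofReal_eq_zero, not_le] using p2)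
    have e8 : (8 : ℝ≥0∞) = ENNReal.ofReal 8 := by simp
    rw [e8, ← ENNReal.ofReal_mul (by norm_num), ← ENNReal.ofReal_div_of_pos p1,
      ← ENNReal.ofReal_div_of_pos p2, ← ENNReal.ofReal_add (by (clear * - hA p1; positivity)) (by (clear * - hA c2; positivity))] at h1
    have h2 : 8 * A / (2 - 2 * Real.cos (s n - 2 * k)) + 8 * A / (2 + 2 * Real.cos (s n - 2 * k)) ≤
        2 * (20 * A / k ^ 2) := by
      have i1 : 8 * A / (2 - 2 * Real.cos (s n - 2 * k)) ≤ 8 * A / (k ^ 2 / 4) :=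
        div_le_div_of_nonneg_left (by (clear * - hA; positivity)) (by positivity) c1
      have i2 : 8 * A / (2 + 2 * Real.cos (s n - 2 * k)) ≤ 8 * A / 1 :=
        div_le_div_of_nonneg_left (by (clear * - hA; positivity)) (by positivity) c2
      have i3 : 8 * A / 1 ≤ 8 * A / k ^ 2 := by
        apply div_le_div_of_nonneg_left (by (clear * - hA; positivity)) hk2
        rw [← sq_abs]
        exact pow_le_one₀ (abs_nonneg _) (by linarith only [hk0])
      have i4 : 8 * A / (k ^ 2 / 4) = 32 * A / k ^ 2 := by field_simp; ring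
      have i5 : 2 * (20 * A / k ^ 2) = 32 * A / k ^ 2 + 8 * A / k ^ 2 := by ring
      linarith
    have h3 : 2 * PsU h (pm k, pm (2 * s n - k)) ≤ 2 * ENNReal.ofReal (20 * A / k ^ 2) := by
      refine h1.trans ((ENNReal.ofReal_le_ofReal h2).trans (le_of_eq ?_))
      rw [ENNReal.ofReal_mul (by norm_num)]
      simp
    exact (ENNReal.mul_le_mul_iff_right (by norm_num) (by norm_num)).1 h3
  -- Fatou
  have hmeas : ∀ n, Measurable fun τ : ℝ => ENNReal.ofReal (1 / dU τ (pm (2 * s n - k))) :=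
    fun n => idU_measurable' _
  have hF := lintegral_liminf_le (u := atTop) (μ := mR h k) (fun n => hmeas n)
  have h4 : ∫⁻ τ, ENNReal.ofReal (1 / (1 - τ) ^ 2) ∂(mR h k) =
      ∫⁻ τ, liminf (fun n => ENNReal.ofReal (1 / dU τ (pm (2 * s n - k)))) atTop ∂(mR h k) := by
    apply lintegral_congr_ae
    filter_upwards [hsupp] with τ hτ
    have h5 : Tendsto (fun n => ENNReal.ofReal (1 / dU τ (pm (2 * s n - k)))) atTop
        (𝓝 (ENNReal.ofReal (1 / (1 - τ) ^ 2))) := by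
      apply ENNReal.tendsto_ofReal
      have h6 : Tendsto (fun n => dU τ (pm (2 * s n - k))) atTop (𝓝 ((1 - τ) ^ 2)) := by
        simp_rw [dU_pm]
        have h7 : Tendsto (fun n => 2 * s n - k) atTop (𝓝 0) := by
          have := (hs3.const_mul 2).sub_const k
          have e : 2 * (k / 2) - k = 0 := by ring
          rwa [e] at this
        have h8 : Continuous (TwoPt.den τ) := by
          unfold TwoPt.den
          exact continuous_const.add (continuous_const.mul (continuous_const.sub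
            (continuous_const.mul Real.continuous_cos)))
        have h9 := (h8.tendsto 0).comp h7
        have e : TwoPt.den τ 0 = (1 - τ) ^ 2 := by
          unfold TwoPt.den; simp
        rw [e] at h9
        exact h9
      have h10 : (1 - τ) ^ 2 ≠ 0 := by
        have : 0 < 1 - τ := by linarith only [hτ]
        (clear * - this; positivity)
      exact (tendsto_const_nhds (x := (1 : ℝ))).div h6 h10
    exact h5.liminf_eq.symm
  rw [h4]
  refine hF.trans ?_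
  refine liminf_le_of_le (by isBoundedDefault) ?_
  intro b hb'
  obtain ⟨n, hn⟩ := hb'.exists
  exact hn.trans (hb n)

/-- **row spectral data of the variogram**, everything but the limit -/
theorem spec_of_lim (h : RPH V) {κ : ℝ} (hκ : 0 ≤ κ)
    (hlim : ∀ ε > 0, ∃ η > 0, ∀ᵐ k : ℝ, |k| < η → k ≠ 0 → ∀ θ : ℝ, |θ| < η →
      |(√3 ^ 2 * k ^ 2 + θ ^ 2) * (∫ τ, 1 / TwoPt.den τ θ ∂(mR h k)) - κ| ≤ ε) :
    TwoPt.Spec (Vr V) (mR h) (√3) κ (20 * (256 * V E1) + 1) (1 / 10) where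
  sfin := inferInstance
  c_pos := by positivity
  κ_nonneg := hκ
  C_pos := by
    have : 0 ≤ V E1 := h.toVH.nonneg _
    positivity
  k0_pos := by norm_num
  k0_le := by norm_num
  supp := mR_supp h
  mass := by
    filter_upwards [mR_mass h] with k hk _
    refine hk.trans (ENNReal.ofReal_le_ofReal ?_)
    have : 0 ≤ V E1 := h.toVH.nonneg _
    linarith
  inv := by
    filter_upwards [mR_inv h] with k hk h1 h2
    refine (hk h1 h2).trans (ENNReal.ofReal_le_ofReal ?_)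
    apply div_le_div_of_nonneg_right _ (sq_nonneg k)
    linarith only []
  fin := mR_fin h
  rep := V_rep h
  lim := hlim

end Vale.Agent.P153.RP
end

section

/-!
P145, block F-A: the lattice functionals `Wd δ f a`, `∑ 2 δ² h(q) f(δ (q + a))` over the even
faces `q`; normalised functionals of mass one and of mass zero.
-/

namespace Vale.Agent.P145.FA

open Finset Filter Topology MeasureTheory
open Vale.Agent.P152
open Vale.Agent.P152.GFF.S (hcell hbox hint Test gffCov)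
open Vale.Agent.P145.PT (Sm TestOn lap)

/-- Value of the lattice functional. -/
noncomputable def wd (δ : ℝ) (f : ℝ × ℝ → ℝ) (a q : ℤ × ℤ) : ℝ :=
  2 * δ ^ 2 * (FP.ev q * f (δ * ((q.1 + a.1 : ℤ) : ℝ), δ * ((q.2 + a.2 : ℤ) : ℝ)))

open Classical in
/-- The lattice functional `2 δ² ∑ h(q) f(δ (q + a))` over the even faces. -/
noncomputable def Wd (δ : ℝ) (f : ℝ × ℝ → ℝ) (a : ℤ × ℤ) : (ℤ × ℤ) →₀ ℝ :=
  if h : {q | wd δ f a q ≠ 0}.Finite then
    Finsupp.onFinset h.toFinset (wd δ f a) (fun q hq => by simpa using hq)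
  else 0

/-! ### Translations -/

/-! ### The mass -/

/-! ### Normalised functionals -/

/-- The hypotheses on the mesh and the translations. -/
structure Near (δ : ℕ → ℝ) (a : ℕ → ℤ × ℤ) (x0 : ℝ × ℝ) : Prop where
  pos : ∀ n, 0 < δ n
  par : ∀ n, (2 : ℤ) ∣ (a n).1 + (a n).2
  near : ∀ n, |δ n * ((a n).1 : ℝ) - x0.1| ≤ 2 * δ n ∧ |δ n * ((a n).2 : ℝ) - x0.2| ≤ 2 * δ n

end Vale.Agent.P145.FA
end

section

/-!
P145, block F-A: the Schwinger-Dyson equations for the moments under a product of four local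
functionals (pinwheel).
-/

namespace Vale.Agent.P145.FA.Use

open Finset Filter Topology MeasureTheory
open Vale.Agent.P152
open Vale.Agent.P152.GFF.S (Test gffCov)
open Vale.Agent.P145.PT (Sm TestOn lap)

/-! ### A bump function away from `ψ` -/

/-! ### Restriction of a functional to a set of faces -/

lemma lap_smul (ψ : ℝ × ℝ → ℝ) (hψ : Sm ψ) (s : ℝ) (z : ℝ × ℝ) :
    lap (fun x => s * ψ x) z = s * lap ψ z := by
  have e1 : PT.dx (fun x => s * ψ x) = fun x => s * PT.dx ψ x := by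
    funext w
    unfold PT.dx
    rw [fderiv_const_mul (hψ.diff w)]
    rfl
  have e2 : PT.dy (fun x => s * ψ x) = fun x => s * PT.dy ψ x := by
    funext w
    unfold PT.dy
    rw [fderiv_const_mul (hψ.diff w)]
    rfl
  unfold lap
  rw [e1, e2, mul_add]
  congr 1
  · show fderiv ℝ (fun x => s * PT.dx ψ x) z (1, 0) = s * fderiv ℝ (PT.dx ψ) z (1, 0)
    rw [fderiv_const_mul (hψ.dx.diff z)]
    rfl
  · show fderiv ℝ (fun x => s * PT.dy ψ x) z (0, 1) = s * fderiv ℝ (PT.dy ψ) z (0, 1)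
    rw [fderiv_const_mul (hψ.dy.diff z)]
    rfl

/-! ### The data -/

/-- The functional of a test function. -/
noncomputable def Lf (δ : ℝ) (f : ℝ × ℝ → ℝ) (h : Hgt) : ℝ := ev (Wd δ f 0) h

/-- Hypotheses on the four factors and on the moments. -/
structure Dat (P : Measure (Ori (ℤ × ℤ))) (δ : ℕ → ℝ) (b : PW) (D : Set (ℝ × ℝ))
    (X1 X2 X3 X4 X : ℕ → Hgt → ℝ) : Prop where
  hx : b.x1 < b.x2
  hy : b.y1 < b.y2
  he : 0 < b.e
  hbD : b.box ⊆ D
  l1 : ∀ n, Loc (lat (δ n) b.K1) (X1 n)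
  l2 : ∀ n, Loc (lat (δ n) b.K2) (X2 n)
  l3 : ∀ n, Loc (lat (δ n) b.K3) (X3 n)
  l4 : ∀ n, Loc (lat (δ n) b.K4) (X4 n)
  n1 : ∀ n h, 0 ≤ X1 n h ∧ X1 n h ≤ 1
  n2 : ∀ n h, 0 ≤ X2 n h ∧ X2 n h ≤ 1
  n3 : ∀ n h, 0 ≤ X3 n h ∧ X3 n h ≤ 1
  n4 : ∀ n h, 0 ≤ X4 n h ∧ X4 n h ≤ 1
  hX : ∀ n h, X n h = X1 n h * X2 n h * X3 n h * X4 n h
  int : ∀ᶠ n in atTop, Integrable (X n) (mu0 P)
  pos : ∃ c0 : ℝ, 0 < c0 ∧ ∀ᶠ n in atTop, c0 ≤ ∫ h, X n h ∂(mu0 P)
  mom : ∀ f, TestOn D f → ∀ k : ℕ, ∃ C : ℝ, 0 ≤ C ∧ ∀ᶠ n in atTop,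
    Integrable (fun h => |Lf (δ n) f h| ^ k * X n h) (mu0 P) ∧
    ∫ h, |Lf (δ n) f h| ^ k * X n h ∂(mu0 P) ≤ C * ∫ h, X n h ∂(mu0 P)
  r1 : ∃ ρ : ℝ × ℝ → ℝ, TestOn b.K1 ρ ∧ TestOn D ρ ∧ ∫ x, ρ x = 1
  r4 : ∃ ρ : ℝ × ℝ → ℝ, TestOn b.K4 ρ ∧ TestOn D ρ ∧ ∫ x, ρ x = 1

variable {P : Measure (Ori (ℤ × ℤ))} {δ : ℕ → ℝ} {b : PW} {D : Set (ℝ × ℝ)}
  {X1 X2 X3 X4 X : ℕ → Hgt → ℝ}

/-- Comparison of the integrands. -/
lemma pt_bound {a E E' : ℂ} {α p : ℝ} (ha : ‖a‖ = 1) (hE : ‖E‖ = 1) (hp0 : 0 ≤ p) (hp1 : p ≤ 1) :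
    ‖a * (E - α) - p * (a * (E' - α))‖ ≤ ‖E - E'‖ + (1 + |α|) * (1 - p) := by
  have e : a * (E - α) - p * (a * (E' - α)) = a * (p * (E - E') + (1 - p : ℝ) * (E - α)) := by
    push_cast
    ring
  rw [e, norm_mul, ha, one_mul]
  refine (norm_add_le _ _).trans (add_le_add ?_ ?_)
  · rw [norm_mul, Complex.norm_real, Real.norm_eq_abs, abs_of_nonneg hp0]
    have := norm_nonneg (E - E')
    nlinarith
  · rw [norm_mul, Complex.norm_real, Real.norm_eq_abs, abs_of_nonneg (by linarith), mul_comm]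
    refine mul_le_mul_of_nonneg_right ?_ (by linarith)
    refine (norm_sub_le _ _).trans ?_
    rw [hE, Complex.norm_real, Real.norm_eq_abs]

lemma expI_sub (x y : ℝ) :
    ‖Complex.exp (Complex.I * (x : ℂ)) - Complex.exp (Complex.I * (y : ℂ))‖ ≤ |x - y| := by
  have e : Complex.exp (Complex.I * (x : ℂ)) - Complex.exp (Complex.I * (y : ℂ)) =
      Complex.exp (Complex.I * (y : ℂ)) * (Complex.exp (Complex.I * ((x - y : ℝ) : ℂ)) - 1) := by
    rw [mul_sub, ← Complex.exp_add, mul_one]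
    congr 2
    push_cast; ring
  rw [e, norm_mul, norm_expI, one_mul]
  exact expI_sub_one _

/-- Removal of the localisers, for one mesh. -/
lemma est {Ω : Type*} [MeasurableSpace Ω] {μ : Measure Ω} {Y U V Φ pp r1 r4 rχ : Ω → ℝ}
    {s t m α η Cχ C1 C4 I0 : ℝ} (mU : Measurable U) (mV : Measurable V) (mΦ : Measurable Φ)
    (mpp : Measurable pp) (hX0 : ∀ h, 0 ≤ Y h) (hXi : Integrable Y μ)
    (hpp01 : ∀ h, 0 ≤ pp h ∧ pp h ≤ 1) (hη : 0 ≤ η) (hΦ : ∀ h, |Φ h| ≤ 2 * |rχ h|)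
    (hpp : ∀ h, 1 - pp h ≤ 4 * η * |r1 h| ^ 2 + 4 * η * |r4 h| ^ 2)
    (wχ : Integrable (fun h => |rχ h| ^ 1 * Y h) μ ∧ ∫ h, |rχ h| ^ 1 * Y h ∂μ ≤ Cχ * I0)
    (w1 : Integrable (fun h => |r1 h| ^ 2 * Y h) μ ∧ ∫ h, |r1 h| ^ 2 * Y h ∂μ ≤ C1 * I0)
    (w4 : Integrable (fun h => |r4 h| ^ 2 * Y h) μ ∧ ∫ h, |r4 h| ^ 2 * Y h ∂μ ≤ C4 * I0) :
    ‖∫ h, (Y h : ℂ) * (Complex.exp (Complex.I * ((t * V h : ℝ) : ℂ)) *
      (Complex.exp (Complex.I * ((s * U h : ℝ) : ℂ)) - (α : ℂ))) ∂μ‖ ≤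
    ‖∫ h, (Y h : ℂ) * (((pp h : ℝ) : ℂ) * (Complex.exp (Complex.I * ((t * V h : ℝ) : ℂ)) *
        (Complex.exp (Complex.I * ((s * U h - s * m * Φ h : ℝ) : ℂ)) - (α : ℂ)))) ∂μ‖ +
      (|s| * |m| * (2 * Cχ) + (1 + |α|) * (4 * (C1 + C4)) * η) * I0 := by
  set F : Ω → ℂ := fun h => (Y h : ℂ) * (Complex.exp (Complex.I * ((t * V h : ℝ) : ℂ)) *
    (Complex.exp (Complex.I * ((s * U h : ℝ) : ℂ)) - (α : ℂ))) with hF
  set F' : Ω → ℂ := fun h => (Y h : ℂ) * (((pp h : ℝ) : ℂ) *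
    (Complex.exp (Complex.I * ((t * V h : ℝ) : ℂ)) *
      (Complex.exp (Complex.I * ((s * U h - s * m * Φ h : ℝ) : ℂ)) - (α : ℂ)))) with hF'
  have hXC : Integrable (fun h => (Y h : ℂ)) μ := hXi.ofReal
  have hFi : Integrable F μ := by
    refine hXC.mul_bdd (c := 1 + |α|) ?_ (Eventually.of_forall fun h => ?_)
    · have : Measurable fun h => Complex.exp (Complex.I * ((t * V h : ℝ) : ℂ)) *
        (Complex.exp (Complex.I * ((s * U h : ℝ) : ℂ)) - (α : ℂ)) := by fun_prop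
      exact this.aestronglyMeasurable
    · rw [norm_mul, norm_expI, one_mul]
      refine (norm_sub_le _ _).trans ?_
      rw [norm_expI, Complex.norm_real, Real.norm_eq_abs]
  have hFi' : Integrable F' μ := by
    refine hXC.mul_bdd (c := 1 + |α|) ?_ (Eventually.of_forall fun h => ?_)
    · have : Measurable fun h => ((pp h : ℝ) : ℂ) *
        (Complex.exp (Complex.I * ((t * V h : ℝ) : ℂ)) *
        (Complex.exp (Complex.I * ((s * U h - s * m * Φ h : ℝ) : ℂ)) - (α : ℂ))) := by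
        fun_prop
      exact this.aestronglyMeasurable
    · rw [norm_mul, norm_mul, norm_expI, one_mul, Complex.norm_real, Real.norm_eq_abs,
        abs_of_nonneg (hpp01 h).1]
      have h1 : ‖Complex.exp (Complex.I * ((s * U h - s * m * Φ h : ℝ) : ℂ)) - (α : ℂ)‖ ≤
          1 + |α| := by
        refine (norm_sub_le _ _).trans ?_
        rw [norm_expI, Complex.norm_real, Real.norm_eq_abs]
      exact (mul_le_mul (hpp01 h).2 h1 (norm_nonneg _) zero_le_one).trans (le_of_eq (one_mul _))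
  set B : Ω → ℝ := fun h => |s| * |m| * (2 * (|rχ h| ^ 1 * Y h)) +
    (1 + |α|) * (4 * η) * (|r1 h| ^ 2 * Y h) + (1 + |α|) * (4 * η) * (|r4 h| ^ 2 * Y h) with hB
  have hBd : ∀ h, ‖F h - F' h‖ ≤ B h := by
    intro h
    have e1 : F h - F' h = (Y h : ℂ) * (Complex.exp (Complex.I * ((t * V h : ℝ) : ℂ)) *
        (Complex.exp (Complex.I * ((s * U h : ℝ) : ℂ)) - (α : ℂ)) - ((pp h : ℝ) : ℂ) *
        (Complex.exp (Complex.I * ((t * V h : ℝ) : ℂ)) *
      (Complex.exp (Complex.I * ((s * U h - s * m * Φ h : ℝ) : ℂ)) - (α : ℂ)))) := by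
      simp only [hF, hF']
      ring
    rw [e1, norm_mul, Complex.norm_real, Real.norm_eq_abs, abs_of_nonneg (hX0 h)]
    have h1 := pt_bound (a := Complex.exp (Complex.I * ((t * V h : ℝ) : ℂ)))
      (E := Complex.exp (Complex.I * ((s * U h : ℝ) : ℂ)))
      (E' := Complex.exp (Complex.I * ((s * U h - s * m * Φ h : ℝ) : ℂ))) (α := α)
      (p := pp h) (norm_expI _) (norm_expI _) (hpp01 h).1 (hpp01 h).2
    have h2 := expI_sub (s * U h) (s * U h - s * m * Φ h)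
    have h3 : |s * U h - (s * U h - s * m * Φ h)| ≤ |s| * |m| * (2 * |rχ h|) := by
      rw [show s * U h - (s * U h - s * m * Φ h) = s * m * Φ h by ring, abs_mul, abs_mul]
      exact mul_le_mul_of_nonneg_left (hΦ h) (by positivity)
    have h5 := h1.trans (add_le_add (h2.trans h3)
      (mul_le_mul_of_nonneg_left (hpp h) (by positivity : 0 ≤ 1 + |α|)))
    refine (mul_le_mul_of_nonneg_left h5 (hX0 h)).trans (le_of_eq ?_)
    simp only [hB]
    ring
  have iB1 : Integrable (fun h => |s| * |m| * (2 * (|rχ h| ^ 1 * Y h))) μ :=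
    (wχ.1.const_mul 2).const_mul _
  have iB2 : Integrable (fun h => (1 + |α|) * (4 * η) * (|r1 h| ^ 2 * Y h)) μ :=
    w1.1.const_mul _
  have iB3 : Integrable (fun h => (1 + |α|) * (4 * η) * (|r4 h| ^ 2 * Y h)) μ :=
    w4.1.const_mul _
  have iB12 : Integrable (fun h => |s| * |m| * (2 * (|rχ h| ^ 1 * Y h)) +
      (1 + |α|) * (4 * η) * (|r1 h| ^ 2 * Y h)) μ := iB1.add iB2
  have hBint : ∫ h, B h ∂μ ≤ (|s| * |m| * (2 * Cχ) +
      (1 + |α|) * (4 * (C1 + C4)) * η) * I0 := by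
    rw [hB, integral_add iB12 iB3, integral_add iB1 iB2, integral_const_mul, integral_const_mul,
      integral_const_mul, integral_const_mul]
    have a1 : |s| * |m| * (2 * ∫ h, |rχ h| ^ 1 * Y h ∂μ) ≤ |s| * |m| * (2 * (Cχ * I0)) :=
      mul_le_mul_of_nonneg_left (mul_le_mul_of_nonneg_left wχ.2 (by norm_num)) (by positivity)
    have a2 : (1 + |α|) * (4 * η) * ∫ h, |r1 h| ^ 2 * Y h ∂μ ≤
        (1 + |α|) * (4 * η) * (C1 * I0) := mul_le_mul_of_nonneg_left w1.2 (by positivity)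
    have a3 : (1 + |α|) * (4 * η) * ∫ h, |r4 h| ^ 2 * Y h ∂μ ≤
        (1 + |α|) * (4 * η) * (C4 * I0) := mul_le_mul_of_nonneg_left w4.2 (by positivity)
    refine (add_le_add (add_le_add a1 a2) a3).trans (le_of_eq ?_)
    ring
  have e1 : ∫ h, F h ∂μ - ∫ h, F' h ∂μ = ∫ h, (F h - F' h) ∂μ := by
    rw [integral_sub hFi hFi']
  have hdiff : ‖∫ h, F h ∂μ - ∫ h, F' h ∂μ‖ ≤ (|s| * |m| * (2 * Cχ) +
      (1 + |α|) * (4 * (C1 + C4)) * η) * I0 := by
    rw [e1]
    exact (norm_integral_le_of_norm_le (iB12.add iB3) (Eventually.of_forall hBd)).trans hBint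
  have e2 : ∫ h, F h ∂μ = ∫ h, F' h ∂μ + (∫ h, F h ∂μ - ∫ h, F' h ∂μ) := by ring
  rw [e2]
  exact (norm_add_le _ _).trans (add_le_add le_rfl hdiff)

end Vale.Agent.P145.FA.Use
end

section

/-!
P145: the shell lemma for circuits around the points of a grid.
-/

namespace Vale.Agent.P145.X

open Relation Metric

/-- The face of the point `w y` of the grid of mesh `w`. -/
noncomputable def cen (w δ : ℝ) (y : ℤ × ℤ) : ℤ × ℤ := (⌊w * y.1 / δ⌋, ⌊w * y.2 / δ⌋)

theorem abs_infDist_sub_le (D : Set (ℝ × ℝ)) (z z' : ℝ × ℝ) :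
    |infDist z D - infDist z' D| ≤ dist z z' := by
  rw [abs_le]
  constructor
  · have := infDist_le_infDist_add_dist (s := D) (x := z') (y := z)
    rw [dist_comm] at this
    linarith
  · have := infDist_le_infDist_add_dist (s := D) (x := z) (y := z')
    linarith

/-- Every point has a grid point at distance at most `w / 2`. -/
theorem exists_grid {w : ℝ} (hw : 0 < w) (z : ℝ × ℝ) : ∃ y : ℤ × ℤ, dist z (fpt w y) ≤ w / 2 := by
  have key : ∀ x : ℝ, dist x (w * (round (x / w) : ℤ)) ≤ w / 2 := by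
    intro x
    have h := abs_sub_round (x / w)
    rw [Real.dist_eq]
    have h2 : x - w * (round (x / w) : ℤ) = w * (x / w - (round (x / w) : ℤ)) := by
      field_simp
    rw [h2, abs_mul, abs_of_pos hw]
    nlinarith only [hw, h]
  refine ⟨(round (z.1 / w), round (z.2 / w)), ?_⟩
  rw [Prod.dist_eq]
  exact max_le (key z.1) (key z.2)

theorem cen_near {w δ ρ : ℝ} (hδ : 0 < δ) {f y : ℤ × ℤ} {R : ℤ}
    (h : dist (fpt δ f) (fpt w y) ≤ ρ) (hR : ρ + δ ≤ δ * R) :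
    |f.1 - (cen w δ y).1| ≤ R ∧ |f.2 - (cen w δ y).2| ≤ R := by
  have key : ∀ x v : ℤ, dist (δ * (x : ℝ)) (w * (v : ℝ)) ≤ ρ → |x - ⌊w * v / δ⌋| ≤ R := by
    intro x v hxv
    rw [Real.dist_eq] at hxv
    have h1 := abs_le.1 hxv
    have h2 := Int.floor_le (w * v / δ)
    have h3 := Int.lt_floor_add_one (w * v / δ)
    rw [le_div_iff₀ hδ] at h2
    rw [div_lt_iff₀ hδ] at h3
    have h4 : ((x : ℝ) - ⌊w * v / δ⌋) ≤ R := by
      by_contra hc
      push Not at hc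
      nlinarith only [hR, h1, h3, hδ, hc]
    have h5 : -(R : ℝ) ≤ ((x : ℝ) - ⌊w * v / δ⌋) := by
      by_contra hc
      push Not at hc
      nlinarith only [hδ, hR, h1, h2, hc]
    rw [abs_le]
    constructor
    · exact_mod_cast h5
    · exact_mod_cast h4
  rw [Prod.dist_eq] at h
  exact ⟨key _ _ ((le_max_left _ _).trans h), key _ _ ((le_max_right _ _).trans h)⟩

theorem shell_bdd {D : Set (ℝ × ℝ)} (hD : Bornology.IsBounded D) (hD0 : D.Nonempty) (b : ℝ) :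
    ∃ M : ℝ, ∀ z, infDist z D ≤ b → |z.1| ≤ M ∧ |z.2| ≤ M := by
  obtain ⟨M, hM⟩ := hD.subset_closedBall (0 : ℝ × ℝ)
  refine ⟨b + 1 + M, fun z hz => ?_⟩
  obtain ⟨p, hp, hpz⟩ := (infDist_lt_iff hD0).1 (show infDist z D < b + 1 by linarith only [hz])
  have h1 : dist p 0 ≤ M := hM hp
  have h2 := dist_triangle z p 0
  have h3 : dist z 0 ≤ b + 1 + M := by linarith
  rw [Prod.dist_eq] at h3
  have h4 := (le_max_left _ _).trans h3
  have h5 := (le_max_right _ _).trans h3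
  simp only [Prod.fst_zero, Prod.snd_zero, dist_zero_right, Real.norm_eq_abs] at h4 h5
  exact ⟨h4, h5⟩

theorem int_finite {w M : ℝ} (hw : 0 < w) : {k : ℤ | |w * k| ≤ M}.Finite := by
  refine (Set.finite_Icc ⌊-(M / w)⌋ ⌈M / w⌉).subset ?_
  intro k hk
  have h1 : |w * (k : ℝ)| ≤ M := hk
  rw [abs_mul, abs_of_pos hw, ← le_div_iff₀' hw, abs_le] at h1
  constructor
  · exact_mod_cast (Int.floor_le _).trans h1.1
  · exact_mod_cast h1.2.trans (Int.le_ceil _)

end Vale.Agent.P145.X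
end

section

/-!
P153-F, block X: the shell lemma for the pinwheel of a triangle (lattice coordinates).
-/

namespace Vale.Agent.P153.F.X

open Relation Metric
open Vale.Agent.P145.X (CBox fpt cen shell_abs dist_fpt_le abs_infDist_sub_le exists_grid cen_near
  shell_bdd int_finite)

/-- The corridors: neighbourhoods of the line `z.1 = a₁` and of the half line `z.1 + z.2 = c₁`,
`a₁ ≤ z.1`. -/
def cor (a₁ c₁ W : ℝ) (i : Fin 2) : Set (ℝ × ℝ) :=
  match i with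
  | 0 => {z | |z.1 - a₁| ≤ W}
  | 1 => {z | |z.1 + z.2 - c₁| ≤ W ∧ a₁ - W ≤ z.1}

/-- The coordinate along the corridor. -/
def tc (i : Fin 2) : ℝ × ℝ → ℝ :=
  match i with
  | 0 => Prod.snd
  | 1 => Prod.fst

theorem abs_fst_le (z z' : ℝ × ℝ) : |z.1 - z'.1| ≤ dist z z' := by
  rw [Prod.dist_eq, Real.dist_eq, Real.dist_eq]
  exact le_max_left _ _

theorem abs_snd_le (z z' : ℝ × ℝ) : |z.2 - z'.2| ≤ dist z z' := by
  rw [Prod.dist_eq, Real.dist_eq, Real.dist_eq]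
  exact le_max_right _ _

theorem dist_le_of {z z' : ℝ × ℝ} {e : ℝ} (h1 : |z.1 - z'.1| ≤ e) (h2 : |z.2 - z'.2| ≤ e) :
    dist z z' ≤ e := by
  rw [Prod.dist_eq, Real.dist_eq, Real.dist_eq]
  exact max_le h1 h2

theorem tc_lip (i : Fin 2) (z z' : ℝ × ℝ) : |tc i z - tc i z'| ≤ dist z z' := by
  fin_cases i
  · exact abs_snd_le z z'
  · exact abs_fst_le z z'

theorem cor_dist {a₁ c₁ W : ℝ} (hW : 0 ≤ W) (i : Fin 2) {z z' : ℝ × ℝ} (hz : z ∈ cor a₁ c₁ W i)
    (hz' : z' ∈ cor a₁ c₁ W i) : dist z z' ≤ |tc i z - tc i z'| + 2 * W := by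
  fin_cases i
  · have h1 := abs_le.1 (show |z.1 - a₁| ≤ W from hz)
    have h2 := abs_le.1 (show |z'.1 - a₁| ≤ W from hz')
    show dist z z' ≤ |z.2 - z'.2| + 2 * W
    have h3 := abs_nonneg (z.2 - z'.2)
    exact dist_le_of (abs_le.2 (by constructor <;> linarith [h1.1, h1.2, h2.1, h2.2]))
      (by linarith)
  · have h1 := abs_le.1 (show |z.1 + z.2 - c₁| ≤ W from hz.1)
    have h2 := abs_le.1 (show |z'.1 + z'.2 - c₁| ≤ W from hz'.1)
    show dist z z' ≤ |z.1 - z'.1| + 2 * W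
    have h3 := neg_abs_le (z.1 - z'.1)
    have h4 := le_abs_self (z.1 - z'.1)
    exact dist_le_of (by linarith)
      (abs_le.2 (by constructor <;> linarith [h1.1, h1.2, h2.1, h2.2]))

theorem cor_of_dist {a₁ c₁ W W' : ℝ} {i : Fin 2} {z z' : ℝ × ℝ} (hz : z ∈ cor a₁ c₁ W i)
    (h : W + 2 * dist z z' ≤ W') : z' ∈ cor a₁ c₁ W' i := by
  have h1 := abs_le.1 (abs_fst_le z z')
  have h2 := abs_le.1 (abs_snd_le z z')
  have h0 : 0 ≤ dist z z' := dist_nonneg
  fin_cases i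
  · have h3 := abs_le.1 (show |z.1 - a₁| ≤ W from hz)
    show |z'.1 - a₁| ≤ W'
    exact abs_le.2 (by constructor <;> linarith [h1.1, h1.2, h3.1, h3.2])
  · have h3 := abs_le.1 (show |z.1 + z.2 - c₁| ≤ W from hz.1)
    have h4 : a₁ - W ≤ z.1 := hz.2
    exact ⟨abs_le.2 (by constructor <;> linarith [h1.1, h1.2, h2.1, h2.2, h3.1, h3.2]), by
      linarith [h1.1, h1.2]⟩

/-- **Shell lemma** for two corridors. -/
theorem shell_geo {E : ℤ × ℤ → ℤ × ℤ → Prop} (hs : ∀ u v, E u v → E v u)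
    (hE : ∀ u v, E u v → |u.1 - v.1| ≤ 1 ∧ |u.2 - v.2| ≤ 1) {D : Set (ℝ × ℝ)} {a₁ c₁ : ℝ}
    (hp₀ : (a₁, c₁ - a₁) ∈ D) {δ W l h a b : ℝ} (hδ : 0 ≤ δ) (hW : 0 ≤ W) (hl : 0 < l)
    (hh : 0 < h) (hWa : 2 * W + δ < a) (hab : a + 2 * δ + l + 2 * W ≤ b)
    (h1 : ∀ f : ℤ × ℤ, a ≤ infDist (fpt δ f) D → infDist (fpt δ f) D ≤ b →
      (∀ i, fpt δ f ∉ cor a₁ c₁ W i) → ∃ (x : ℤ × ℤ) (R : ℤ), |f.1 - x.1| ≤ R ∧
        |f.2 - x.2| ≤ R ∧ CBox E x R (3 * R) ∧ 4 * δ * R < h)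
    (h2 : ∀ (i : Fin 2) (f : ℤ × ℤ), fpt δ f ∈ cor a₁ c₁ W i →
      a ≤ infDist (fpt δ f) D → infDist (fpt δ f) D ≤ b →
      (∃ k : ℤ, |tc i (fpt δ f) - k * l| ≤ δ) →
      ∃ (x : ℤ × ℤ) (R : ℤ), |f.1 - x.1| ≤ R ∧ |f.2 - x.2| ≤ R ∧ CBox E x R (3 * R) ∧
        4 * δ * R < h)
    {u v : ℤ × ℤ} (hu : infDist (fpt δ u) D ≤ a - h) (hv : b ≤ infDist (fpt δ v) D) :
    ¬ ReflTransGen E u v := by
  have hρ := abs_infDist_sub_le D
  have hstep : ∀ u v, E u v → dist (fpt δ u) (fpt δ v) ≤ δ := by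
    intro u v huv
    have := dist_fpt_le hδ (R := 1) (hE u v huv).1 (hE u v huv).2
    simpa using this
  have hcl : ∀ f : ℤ × ℤ, (∃ (x : ℤ × ℤ) (R : ℤ), |f.1 - x.1| ≤ R ∧ |f.2 - x.2| ≤ R ∧
      CBox E x R (3 * R) ∧ 4 * δ * R < h) → ∀ w, ReflTransGen E f w →
      |infDist (fpt δ f) D - infDist (fpt δ w) D| < h := by
    rintro f ⟨x, R, hx1, hx2, hC, hR⟩ w hw
    obtain ⟨h3, h4⟩ := hC f w hx1 hx2 hw
    have h5 : dist (fpt δ f) (fpt δ w) ≤ δ * (4 * R : ℤ) := by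
      refine dist_fpt_le hδ ?_ ?_ <;> rw [abs_le] at * <;> constructor <;> linarith [hx1.1, hx1.2,
        hx2.1, hx2.2, h3.1, h3.2, h4.1, h4.2]
    push_cast at h5
    have := hρ (fpt δ f) (fpt δ w)
    nlinarith
  -- close to the corner
  have hc : ∀ z : ℝ × ℝ, |z.1 - a₁| ≤ W + δ → |z.1 + z.2 - c₁| ≤ W → infDist z D < a := by
    intro z h3 h4
    have h6 := infDist_le_dist_of_mem (x := z) hp₀
    have h5 : dist z (a₁, c₁ - a₁) ≤ 2 * W + δ := by
      rw [abs_le] at h3 h4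
      refine dist_le_of ?_ ?_ <;> simp only <;> rw [abs_le] <;> constructor <;>
        linarith [h3.1, h3.2, h4.1, h4.2]
    linarith
  refine shell_abs (V := ℤ × ℤ) (I := Fin 2) hs (ρ := fun f => infDist (fpt δ f) D)
    (K := fun i => {f | fpt δ f ∈ cor a₁ c₁ W i}) (t := fun i f => tc i (fpt δ f))
    (a := a) (b := b) (d := δ) (τ := δ) (l := l) (W := 2 * W) (h := h) hl hh hδ (by linarith) hab
    (fun u v huv => (hρ _ _).trans (hstep u v huv))
    (fun i u v huv => (tc_lip i _ _).trans (hstep u v huv)) ?_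
    (fun i u v hu hv => (hρ _ _).trans (cor_dist hW i hu hv))
    (fun f hfa hfb hf => hcl f (h1 f hfa hfb hf))
    (fun i f hf hfa hfb hk => hcl f (h2 i f hf hfa hfb hk)) hu hv
  intro i j u v huv hi hj hau hav
  have hd := abs_le.1 ((abs_fst_le (fpt δ u) (fpt δ v)).trans (hstep u v huv))
  fin_cases i <;> fin_cases j
  · rfl
  · have h3 := abs_le.1 (show |(fpt δ u).1 - a₁| ≤ W from hi)
    exact absurd hav (not_le.2 (hc _ (abs_le.2 (by
      constructor <;> linarith [hd.1, hd.2, h3.1, h3.2])) hj.1))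
  · have h3 := abs_le.1 (show |(fpt δ v).1 - a₁| ≤ W from hj)
    exact absurd hau (not_le.2 (hc _ (abs_le.2 (by
      constructor <;> linarith [hd.1, hd.2, h3.1, h3.2])) hi.1))
  · rfl

/-- The centres: points `w y` at distance between `a / 4` and `4 b` of `D` such that the ball
of radius `3 w` avoids the corridors of half width `W₀`. -/
def Good (D : Set (ℝ × ℝ)) (a₁ c₁ W₀ w a b : ℝ) (y : ℤ × ℤ) : Prop :=
  a / 4 ≤ infDist (fpt w y) D ∧ infDist (fpt w y) D ≤ 4 * b ∧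
    ∀ z, dist z (fpt w y) ≤ 3 * w → ∀ i, z ∉ cor a₁ c₁ W₀ i

theorem exists_good {D : Set (ℝ × ℝ)} {a₁ c₁ W₀ w a b : ℝ} (hw : 0 < w) {z : ℝ × ℝ}
    (ha : a / 4 + w / 2 ≤ infDist z D) (hb : infDist z D ≤ 4 * b - w / 2)
    (hz : ∀ i, z ∉ cor a₁ c₁ (W₀ + 7 * w) i) :
    ∃ y, Good D a₁ c₁ W₀ w a b y ∧ dist z (fpt w y) ≤ w / 2 := by
  obtain ⟨y, hy⟩ := exists_grid hw z
  have h1 := abs_le.1 (abs_infDist_sub_le D z (fpt w y))
  refine ⟨y, ⟨by linarith [h1.1, h1.2], by linarith [h1.1, h1.2], fun z' hz' i hi => ?_⟩, hy⟩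
  refine hz i (cor_of_dist hi ?_)
  have h2 := dist_triangle z' (fpt w y) z
  rw [dist_comm (fpt w y) z] at h2
  linarith

theorem good_finite {D : Set (ℝ × ℝ)} (hD : Bornology.IsBounded D)
    (hD0 : D.Nonempty) {a₁ c₁ W₀ w a b : ℝ} (hw : 0 < w) :
    {y : ℤ × ℤ | Good D a₁ c₁ W₀ w a b y}.Finite := by
  obtain ⟨M, hM⟩ := shell_bdd hD hD0 (4 * b)
  refine ((int_finite (M := M) hw).prod (int_finite (M := M) hw)).subset ?_
  intro y hy
  exact hM _ hy.2.1

/-- The point `k` of the corridor `i`. -/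
noncomputable def sp (a₁ c₁ l : ℝ) (i : Fin 2) (k : ℤ) : ℝ × ℝ :=
  match i with
  | 0 => (a₁, k * l)
  | 1 => (k * l, c₁ - k * l)

/-- The sparse points. -/
def Sp (D : Set (ℝ × ℝ)) (a₁ c₁ l a b : ℝ) (i : Fin 2) (k : ℤ) : Prop :=
  a / 2 ≤ infDist (sp a₁ c₁ l i k) D ∧ infDist (sp a₁ c₁ l i k) D ≤ 2 * b

theorem sp_le {D : Set (ℝ × ℝ)} {M a₁ c₁ l a b : ℝ}
    (hM : ∀ z, infDist z D ≤ 2 * b → |z.1| ≤ M ∧ |z.2| ≤ M) {i : Fin 2} {k : ℤ}
    (h : Sp D a₁ c₁ l a b i k) : |l * (k : ℝ)| ≤ M := by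
  have h1 := hM _ h.2
  rw [mul_comm]
  fin_cases i
  · exact h1.2
  · exact h1.1

/-- Every sparse point has a centre at distance at most `W₀ + 17 w / 2`. -/
theorem exists_xc {D : Set (ℝ × ℝ)} {a₁ c₁ : ℝ} (hp₀ : (a₁, c₁ - a₁) ∈ D) {W₀ w l a b : ℝ}
    (hw : 0 < w) (hW₀ : 0 ≤ W₀) (ha : 6 * W₀ + 46 * w < a) (hab : a ≤ b) {i : Fin 2} {k : ℤ}
    (hk : Sp D a₁ c₁ l a b i k) : ∃ y, Good D a₁ c₁ W₀ w a b y ∧
      dist (sp a₁ c₁ l i k) (fpt w y) ≤ W₀ + 17 / 2 * w := by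
  -- the shifted point
  have key : ∀ z, dist (sp a₁ c₁ l i k) z ≤ W₀ + 8 * w →
      (∀ j, z ∉ cor a₁ c₁ (W₀ + 7 * w) j) → ∃ y, Good D a₁ c₁ W₀ w a b y ∧
      dist (sp a₁ c₁ l i k) (fpt w y) ≤ W₀ + 17 / 2 * w := by
    intro z hz hcz
    have h1 := abs_le.1 (abs_infDist_sub_le D (sp a₁ c₁ l i k) z)
    obtain ⟨y, hy, hyz⟩ := exists_good (D := D) (W₀ := W₀) (a := a) (b := b) hw (z := z)
      (by linarith [h1.1, h1.2, hk.1]) (by linarith [h1.1, h1.2, hk.2]) hcz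
    refine ⟨y, hy, ?_⟩
    have := dist_triangle (sp a₁ c₁ l i k) z (fpt w y)
    linarith
  have hfar : ∀ z, dist (sp a₁ c₁ l i k) z ≤ W₀ + 8 * w → ∀ q ∈ D,
      2 * W₀ + 15 * w < dist z q := by
    intro z hz q hq
    have h1 := abs_le.1 (abs_infDist_sub_le D (sp a₁ c₁ l i k) z)
    have h2 := infDist_le_dist_of_mem (x := z) hq
    have h3 := hk.1
    linarith [h1.1, h1.2]
  have h0 : 0 < W₀ + 8 * w := by linarith
  fin_cases i
  · -- corridor 0
    have hd : dist ((a₁, k * l) : ℝ × ℝ) (a₁ - (W₀ + 8 * w), k * l) ≤ W₀ + 8 * w := by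
      refine dist_le_of ?_ ?_ <;> simp only <;> rw [abs_le] <;> constructor <;> linarith
    refine key (a₁ - (W₀ + 8 * w), k * l) hd fun j hj => ?_
    fin_cases j
    · have hj' := (abs_le.1 (show |a₁ - (W₀ + 8 * w) - a₁| ≤ W₀ + 7 * w from hj)).1
      linarith
    · have hj' : a₁ - (W₀ + 7 * w) ≤ a₁ - (W₀ + 8 * w) := hj.2
      linarith
  · -- corridor 1
    have hd : dist ((k * l, c₁ - k * l) : ℝ × ℝ) (k * l, c₁ - k * l + (W₀ + 8 * w)) ≤
        W₀ + 8 * w := by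
      refine dist_le_of ?_ ?_ <;> simp only <;> rw [abs_le] <;> constructor <;> linarith
    refine key (k * l, c₁ - k * l + (W₀ + 8 * w)) hd fun j hj => ?_
    fin_cases j
    · have hj' := abs_le.1 (show |k * l - a₁| ≤ W₀ + 7 * w from hj)
      have h4 := hfar _ hd _ hp₀
      have h5 : dist ((k * l, c₁ - k * l + (W₀ + 8 * w)) : ℝ × ℝ) (a₁, c₁ - a₁) ≤
          2 * W₀ + 15 * w := by
        refine dist_le_of ?_ ?_ <;> simp only <;> rw [abs_le] <;> constructor <;>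
          linarith [hj'.1, hj'.2]
      linarith
    · have hj' := (abs_le.1 (show |k * l + (c₁ - k * l + (W₀ + 8 * w)) - c₁| ≤ W₀ + 7 * w from
        hj.1)).2
      linarith

/-- **Shell lemma, for the circuits of a grid.** -/
theorem shell_grid {E : ℤ × ℤ → ℤ × ℤ → Prop} (hs : ∀ u v, E u v → E v u)
    (hE : ∀ u v, E u v → |u.1 - v.1| ≤ 1 ∧ |u.2 - v.2| ≤ 1) {D : Set (ℝ × ℝ)} {a₁ c₁ : ℝ}
    (hp₀ : (a₁, c₁ - a₁) ∈ D) {δ W₀ w l h a b : ℝ} (hδ : 0 < δ) (hw : 0 < w) (hW₀ : 0 ≤ W₀)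
    (hl : 0 < l) (hh : 0 < h) (hδw : 4 * δ ≤ w) (ha : 6 * W₀ + 46 * w < a)
    (hab : a + l + 2 * W₀ + 15 * w ≤ b) {r : ℤ} (hr : w / 2 + δ ≤ δ * r) (hrh : 4 * δ * r < h)
    (hX : ∀ y, Good D a₁ c₁ W₀ w a b y → CBox E (cen w δ y) r (3 * r))
    (hZ : ∀ i k, Sp D a₁ c₁ l a b i k → ∃ (y : ℤ × ℤ) (R : ℤ),
      dist (sp a₁ c₁ l i k) (fpt w y) ≤ W₀ + 17 / 2 * w ∧
      2 * W₀ + 31 / 2 * w + 2 * δ ≤ δ * R ∧ 4 * δ * R < h ∧ CBox E (cen w δ y) R (3 * R))
    {u v : ℤ × ℤ} (hu : infDist (fpt δ u) D ≤ a - h) (hv : b ≤ infDist (fpt δ v) D) :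
    ¬ ReflTransGen E u v := by
  refine shell_geo hs hE hp₀ (W := W₀ + 7 * w) (l := l) (h := h) hδ.le (by linarith) hl hh
    (by linarith) (by linarith) ?_ ?_ hu hv
  · intro f hfa hfb hf
    obtain ⟨y, hy, hyf⟩ := exists_good (D := D) (W₀ := W₀) (a := a) (b := b) hw (z := fpt δ f)
      (by linarith) (by linarith) hf
    obtain ⟨h3, h4⟩ := cen_near hδ hyf hr
    exact ⟨cen w δ y, r, h3, h4, hX y hy, hrh⟩
  · rintro i f hf hfa hfb ⟨k, hk⟩
    -- the distance from `f` to the sparse point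
    have hdist : dist (fpt δ f) (sp a₁ c₁ l i k) ≤ W₀ + 7 * w + δ := by
      fin_cases i
      · have h4 := abs_le.1 (show |(fpt δ f).1 - a₁| ≤ W₀ + 7 * w from hf)
        have h5 := abs_le.1 (show |(fpt δ f).2 - k * l| ≤ δ from hk)
        show dist (fpt δ f) (a₁, k * l) ≤ _
        refine dist_le_of ?_ ?_ <;> simp only <;> rw [abs_le] <;> constructor <;>
          linarith [h4.1, h4.2, h5.1, h5.2]
      · have h4 := abs_le.1 (show |(fpt δ f).1 + (fpt δ f).2 - c₁| ≤ W₀ + 7 * w from hf.1)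
        have h5 := abs_le.1 (show |(fpt δ f).1 - k * l| ≤ δ from hk)
        show dist (fpt δ f) (k * l, c₁ - k * l) ≤ _
        refine dist_le_of ?_ ?_ <;> simp only <;> rw [abs_le] <;> constructor <;>
          linarith [h4.1, h4.2, h5.1, h5.2]
    have hinf := abs_le.1 (abs_infDist_sub_le D (fpt δ f) (sp a₁ c₁ l i k))
    have hSp : Sp D a₁ c₁ l a b i k := ⟨by linarith [hinf.1, hinf.2], by linarith [hinf.1, hinf.2]⟩
    obtain ⟨y, R, hy, hR, hRh, hC⟩ := hZ i k hSp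
    have h8 := dist_triangle (fpt δ f) (sp a₁ c₁ l i k) (fpt w y)
    obtain ⟨h3, h4⟩ := cen_near (ρ := 2 * W₀ + 31 / 2 * w + δ) (R := R) hδ
      (show dist (fpt δ f) (fpt w y) ≤ 2 * W₀ + 31 / 2 * w + δ by linarith) (by linarith)
    exact ⟨cen w δ y, R, h3, h4, hC, hRh⟩

/-! ### The regions -/

theorem dich {S : Set (ℝ × ℝ)} (hS : IsPreconnected S) {f : ℝ × ℝ → ℝ} (hf : Continuous f)
    {α β : ℝ} (hαβ : α ≤ β) (h : ∀ z ∈ S, f z < α ∨ β < f z) :
    (∀ z ∈ S, f z < α) ∨ (∀ z ∈ S, β < f z) := by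
  by_contra hcon
  push Not at hcon
  obtain ⟨⟨x, hx, hxa⟩, y, hy, hyb⟩ := hcon
  have hx' : β < f x := by
    rcases h x hx with h1 | h1
    · linarith
    · exact h1
  have hy' : f y < α := by
    rcases h y hy with h1 | h1
    · exact h1
    · linarith
  obtain ⟨z, hz, hzf⟩ := hS.intermediate_value hy hx hf.continuousOn
    (show α ∈ Set.Icc (f y) (f x) from ⟨hy'.le, by linarith⟩)
  rcases h z hz with h1 | h1
  · rw [hzf] at h1
    exact lt_irrefl _ h1
  · rw [hzf] at h1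
    linarith

/-- A ball which avoids the corridors and `D` is in one of the three regions. -/
theorem arms {a b c e ρ : ℝ} {p : ℝ × ℝ} {D : Set (ℝ × ℝ)} (habc : a + b < c) (he : 0 < e)
    (hD : {z : ℝ × ℝ | a ≤ z.1 ∧ b ≤ z.2 ∧ z.1 + z.2 ≤ c} ⊆ D) (hinf : ρ + e ≤ infDist p D)
    (hball : ∀ z, dist z p ≤ ρ → ∀ i, z ∉ cor (a - e / 2) (c + e / 2) (e / 2) i) :
    (∀ z : ℝ × ℝ, dist z p ≤ ρ → z.1 ≤ a - e) ∨
    (∀ z : ℝ × ℝ, dist z p ≤ ρ → a ≤ z.1 ∧ c + e ≤ z.1 + z.2) ∨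
    (∀ z : ℝ × ℝ, dist z p ≤ ρ → a ≤ z.1 ∧ z.1 + z.2 ≤ c ∧ z.2 ≤ b - e) := by
  have hS : IsPreconnected (closedBall p ρ) := (convex_closedBall p ρ).isPreconnected
  have h1 : ∀ z ∈ closedBall p ρ, z.1 < a - e ∨ a < z.1 := by
    intro z hz
    by_contra hc
    push Not at hc
    refine hball z hz 0 ?_
    show |z.1 - (a - e / 2)| ≤ e / 2
    rw [abs_le]
    constructor <;> linarith [hc.1, hc.2]
  rcases dich hS continuous_fst (by linarith) h1 with h1 | h1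
  · exact Or.inl fun z hz => (h1 z hz).le
  · right
    have h2 : ∀ z ∈ closedBall p ρ, z.1 + z.2 < c ∨ c + e < z.1 + z.2 := by
      intro z hz
      by_contra hc
      push Not at hc
      refine hball z hz 1 ⟨?_, by linarith [h1 z hz]⟩
      show |z.1 + z.2 - (c + e / 2)| ≤ e / 2
      rw [abs_le]
      constructor <;> linarith [hc.1, hc.2]
    rcases dich hS (continuous_fst.add continuous_snd) (by linarith) h2 with h2 | h2
    · right
      intro z hz
      refine ⟨(h1 z hz).le, (h2 z hz).le, ?_⟩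
      by_contra hc
      push Not at hc
      have h3 := h1 z hz
      have h4 : z.1 + z.2 < c := h2 z hz
      have hmem : (min z.1 (c - max b z.2), max b z.2) ∈ D := by
        refine hD ⟨?_, le_max_left _ _, ?_⟩
        · refine le_min h3.le ?_
          rcases max_cases b z.2 with h | h <;> rw [h.1] <;> linarith
        · have := min_le_right z.1 (c - max b z.2)
          simp only
          linarith
      have h5 := infDist_le_dist_of_mem (x := z) hmem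
      have h6 : dist z (min z.1 (c - max b z.2), max b z.2) < e := by
        rw [Prod.dist_eq, Real.dist_eq, Real.dist_eq]
        refine max_lt ?_ ?_
        · simp only
          rw [abs_lt]
          rcases min_cases z.1 (c - max b z.2) with h | h
          · rw [h.1]
            constructor <;> linarith
          · rw [h.1]
            rcases max_cases b z.2 with h' | h' <;> rw [h'.1] at h ⊢ <;> constructor <;> linarith
        · simp only
          rw [abs_lt]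
          rcases max_cases b z.2 with h | h <;> rw [h.1] <;> constructor <;> linarith
      have h7 := abs_le.1 (abs_infDist_sub_le D z p)
      have h8 : dist z p ≤ ρ := hz
      linarith [h7.1, h7.2]
    · left
      intro z hz
      exact ⟨(h1 z hz).le, (h2 z hz).le⟩

end Vale.Agent.P153.F.X
end

section

/-!
P153-F, block X: SHELL, the net of circuits and the closing circuits.
-/

namespace Vale.Agent.P153.F.X

open Filter Topology Set Relation Metric
open Vale.Agent.P153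
open Vale.Agent.P153.F.Top (dp c1 c2 Vs mem_Vs)
open Vale.Agent.P145.X (CBox fpt cen shell_symm dist_fpt_le abs_infDist_sub_le shell_bdd)

/-! ### Steps -/

theorem adj_le {x y : Pt} (h : Adj x y) : |x.1 - y.1| ≤ 1 ∧ |x.2 - y.2| ≤ 1 := by
  unfold Adj at h
  simp only [mem_insert_iff, mem_singleton_iff, Prod.mk.injEq] at h
  rw [abs_le, abs_le]
  omega

theorem adj_symm' {x y : Pt} (h : Adj x y) : Adj y x := by
  unfold Adj at h ⊢
  simp only [mem_insert_iff, mem_singleton_iff, Prod.mk.injEq] at h ⊢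
  rcases h with h | h | h | h | h | h <;> omega

theorem stp_symm (B : Set Pt) (x y : Pt) (h : stp B x y) : stp B y x :=
  ⟨adj_symm' h.1, by rw [add_comm]; exact h.2⟩

theorem stp_le (B : Set Pt) (x y : Pt) (h : stp B x y) : |x.1 - y.1| ≤ 1 ∧ |x.2 - y.2| ≤ 1 :=
  adj_le h.1

theorem iE_near {F : Set Pt} {w x y : Pt} (hw : w ∈ iE F) (hxy : Adj x y) (e : w = x + y) :
    ∃ x' ∈ F, |x.1 - x'.1| ≤ 1 ∧ |x.2 - x'.2| ≤ 1 := by
  obtain ⟨x', hx', y', -, hxy', e'⟩ := hw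
  refine ⟨x', hx', ?_⟩
  have h1 := adj_le hxy
  have h2 := adj_le hxy'
  rw [abs_le, abs_le] at h1 h2 ⊢
  rw [e] at e'
  have h3 := congrArg Prod.fst e'
  have h4 := congrArg Prod.snd e'
  simp only [Prod.fst_add, Prod.snd_add] at h3 h4
  omega

/-! ### Lattice coordinates -/

/-- The point with lattice coordinates `q`. -/
noncomputable def LL (q : ℝ × ℝ) : ℝ × ℝ := (q.1 + q.2 / 2, √3 / 2 * q.2)

theorem dp_eq (δ : ℝ) (v : Pt) : dp δ v = LL (fpt δ v) := by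
  unfold dp LL fpt
  exact Prod.ext (by simp only; ring) (by simp only; ring)

theorem c1_LL (q : ℝ × ℝ) : c1 (LL q) = q.1 := by
  have h3 : √3 ≠ 0 := by positivity
  simp only [c1, LL]
  field_simp
  ring

theorem c2_LL (q : ℝ × ℝ) : c2 (LL q) = q.2 := by
  have h3 : √3 ≠ 0 := by positivity
  simp only [c2, LL]
  field_simp

theorem LL_c (z : ℝ × ℝ) : LL (c1 z, c2 z) = z := by
  have h3 : √3 ≠ 0 := by positivity
  unfold LL c1 c2
  refine Prod.ext ?_ ?_
  · simp only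
    field_simp
    ring
  · simp only
    field_simp

theorem LL_cont : Continuous LL := by
  unfold LL
  fun_prop

theorem c_dist (z z' : ℝ × ℝ) : dist (c1 z, c2 z) (c1 z', c2 z') ≤ 2 * dist z z' := by
  have hs : (1 : ℝ) < √3 := by
    rw [Real.lt_sqrt (by norm_num)]; norm_num
  have h1 := abs_fst_le z z'
  have h2 := abs_snd_le z z'
  have hd : 0 ≤ dist z z' := dist_nonneg
  have h4 : |(z.2 - z'.2) / √3| ≤ |z.2 - z'.2| := by
    rw [abs_div, abs_of_pos (by linarith : (0 : ℝ) < √3)]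
    exact div_le_self (abs_nonneg _) hs.le
  refine dist_le_of ?_ ?_
  · simp only [c1]
    rw [show z.1 - z.2 / √3 - (z'.1 - z'.2 / √3) = (z.1 - z'.1) - (z.2 - z'.2) / √3 by ring]
    exact (abs_sub _ _).trans (by linarith)
  · simp only [c2]
    rw [show 2 * z.2 / √3 - 2 * z'.2 / √3 = 2 * ((z.2 - z'.2) / √3) by ring, abs_mul, abs_two]
    linarith

theorem LL_bdd {D : Set (ℝ × ℝ)} (hD : Bornology.IsBounded D) :
    Bornology.IsBounded (LL ⁻¹' D) := by
  obtain ⟨R, hR⟩ := hD.subset_closedBall (0 : ℝ × ℝ)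
  refine (Metric.isBounded_closedBall (x := (0 : ℝ × ℝ)) (r := 2 * R)).subset fun q hq => ?_
  have h1 : dist (LL q) 0 ≤ R := hR hq
  have h2 := c_dist (LL q) 0
  rw [c1_LL, c2_LL] at h2
  have e : ((c1 (0 : ℝ × ℝ), c2 (0 : ℝ × ℝ)) : ℝ × ℝ) = 0 := by
    simp [c1, c2]
  rw [e] at h2
  show dist q 0 ≤ 2 * R
  exact h2.trans (by linarith)

theorem LL_closure {D₁ D₂ : Set (ℝ × ℝ)} (h : closure D₁ ⊆ D₂) :
    closure (LL ⁻¹' D₁) ⊆ LL ⁻¹' D₂ := by
  have h1 : closure (LL ⁻¹' D₁) ⊆ LL ⁻¹' closure D₁ :=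
    closure_minimal (preimage_mono subset_closure) (isClosed_closure.preimage LL_cont)
  exact h1.trans (preimage_mono h)

/-! ### Domains -/

theorem of_mem_Vs {δ : ℝ} (hδ : 0 < δ) {D : Set (ℝ × ℝ)} (hD : Bornology.IsBounded D) {v : Pt}
    (h : v ∈ Vs δ D) : fpt δ v ∈ LL ⁻¹' D := by
  rw [mem_Vs hδ hD] at h
  show LL (fpt δ v) ∈ D
  rw [← dp_eq]
  exact h (mem_closedBall_self (by positivity))

theorem le_infDist_of_notMem {δ r : ℝ} (hδ : 0 < δ) {D₂ D' : Set (ℝ × ℝ)}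
    (hD₂ : Bornology.IsBounded D₂) (h : ∀ z, infDist z D' < r → z ∈ LL ⁻¹' D₂)
    {v : Pt} (hv : v ∉ Vs δ D₂) : r - 4 * δ ≤ infDist (fpt δ v) D' := by
  rw [mem_Vs hδ hD₂] at hv
  obtain ⟨z, hz, hzD⟩ := Set.not_subset.1 hv
  have h1 : r ≤ infDist (c1 z, c2 z) D' := by
    by_contra hc
    have h2 := h _ (not_le.1 hc)
    rw [mem_preimage, LL_c] at h2
    exact hzD h2
  have h2 := abs_le.1 (abs_infDist_sub_le D' (c1 z, c2 z) (fpt δ v))
  have h3 := c_dist z (dp δ v)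
  rw [dp_eq, c1_LL, c2_LL, ← dp_eq] at h3
  have h4 : dist z (dp δ v) ≤ 2 * δ := hz
  have h5 : dist ((c1 z, c2 z) : ℝ × ℝ) (fpt δ v) ≤ 4 * δ := h3.trans (by linarith)
  linarith [h2.1, h2.2]

theorem exists_thick {D₁ D₂ : Set (ℝ × ℝ)} (h0 : D₁.Nonempty) (h2 : IsOpen D₂)
    (hb : Bornology.IsBounded D₂) (h : closure D₁ ⊆ D₂) :
    ∃ r : ℝ, 0 < r ∧ ∀ z, infDist z D₁ < r → z ∈ D₂ := by
  have hc : IsCompact (closure D₁) :=
    Metric.isCompact_of_isClosed_isBounded isClosed_closure (hb.subset h)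
  obtain ⟨r, hr, hr'⟩ := hc.exists_thickening_subset_open h2 h
  refine ⟨r, hr, fun z hz => hr' ?_⟩
  rw [Metric.mem_thickening_iff]
  obtain ⟨p, hp, hpz⟩ := (infDist_lt_iff h0).1 hz
  exact ⟨p, subset_closure hp, hpz⟩

theorem dist_near {δ : ℝ} (hδ : 0 ≤ δ) {p x x' : Pt} {r : ℤ} (hx' : x' ∈ bx p r)
    (h1 : |x.1 - x'.1| ≤ 1) (h2 : |x.2 - x'.2| ≤ 1) :
    dist (fpt δ x) (fpt δ p) ≤ δ * (r + 1) := by
  obtain ⟨h3, h4⟩ := hx'
  have h5 : dist (fpt δ x) (fpt δ p) ≤ δ * ((r + 1 : ℤ) : ℝ) := by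
    refine dist_fpt_le hδ ?_ ?_ <;> rw [abs_le] at * <;> omega
  push_cast at h5
  exact h5

theorem iE_bx_sub {δ : ℝ} (hδ : 0 < δ) {D₁ : Set (ℝ × ℝ)} (hb : Bornology.IsBounded D₁)
    {p : Pt} {r : ℤ} (h : δ * (r + 1) < infDist (fpt δ p) (LL ⁻¹' D₁)) :
    iE (bx p r) ⊆ (tE (Vs δ D₁ : Set Pt))ᶜ := by
  rintro w hw ⟨x, hx, y, hxy, e⟩
  obtain ⟨x', hx', h1, h2⟩ := iE_near hw hxy e
  have h3 := dist_near hδ.le hx' h1 h2
  have h4 := infDist_le_dist_of_mem (x := fpt δ p) (of_mem_Vs hδ hb hx)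
  rw [dist_comm] at h4
  linarith

/-! ### Scales -/

theorem cen_ce {δ : ℝ} (hδ : 0 < δ) (w : ℤ) (y : Pt) : cen (δ * w) δ y = ce w y := by
  have key : ∀ x : ℤ, ⌊δ * (w : ℝ) * (x : ℝ) / δ⌋ = w * x := by
    intro x
    have : δ * (w : ℝ) * (x : ℝ) / δ = ((w * x : ℤ) : ℝ) := by
      push_cast
      field_simp
    rw [this, Int.floor_intCast]
  exact Prod.ext (key y.1) (key y.2)

theorem fpt_ce (δ : ℝ) (w : ℤ) (y : Pt) : fpt (δ * w) y = fpt δ (ce w y) := by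
  refine Prod.ext ?_ ?_ <;> simp only [fpt, ce] <;> push_cast <;> ring

theorem sc_le {ε δ : ℝ} (hδ : 0 < δ) (i : ℕ) : δ * (sc ε δ i : ℝ) ≤ 4 ^ i * ε := by
  have h := Int.floor_le (ε / δ)
  rw [le_div_iff₀ hδ] at h
  have h2 : δ * (sc ε δ i : ℝ) = 4 ^ i * ((⌊ε / δ⌋ : ℝ) * δ) := by
    unfold sc
    push_cast
    ring
  rw [h2]
  exact mul_le_mul_of_nonneg_left h (by positivity)

theorem le_sc {ε δ : ℝ} (hδ : 0 < δ) (hε : 2 * δ ≤ ε) (i : ℕ) :
    4 ^ i * (ε / 2) ≤ δ * (sc ε δ i : ℝ) := by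
  have h := Int.lt_floor_add_one (ε / δ)
  rw [div_lt_iff₀ hδ] at h
  have h2 : δ * (sc ε δ i : ℝ) = 4 ^ i * ((⌊ε / δ⌋ : ℝ) * δ) := by
    unfold sc
    push_cast
    ring
  rw [h2]
  exact mul_le_mul_of_nonneg_left (by linarith) (by positivity)

theorem sc_add (ε δ : ℝ) (i k : ℕ) : sc ε δ (i + k) = 4 ^ k * sc ε δ i := by
  unfold sc
  rw [pow_add]
  ring

theorem abs_le_of_sc {ε δ M : ℝ} (hδ : 0 < δ) (hε : 2 * δ ≤ ε) (i : ℕ) {x : ℤ}
    (h : |δ * ((sc ε δ i * x : ℤ) : ℝ)| ≤ M) : |x| ≤ (⌈2 * M / ε⌉₊ : ℤ) := by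
  have hε0 : 0 < ε := by linarith
  have h1 := le_sc hδ hε i
  have h2 : (1 : ℝ) ≤ 4 ^ i := one_le_pow₀ (by norm_num)
  have h3 : ε / 2 ≤ δ * (sc ε δ i : ℝ) := by nlinarith
  have h4 : |δ * ((sc ε δ i * x : ℤ) : ℝ)| = δ * (sc ε δ i : ℝ) * |(x : ℝ)| := by
    push_cast
    rw [← mul_assoc, abs_mul, abs_of_nonneg (by linarith : (0 : ℝ) ≤ δ * (sc ε δ i : ℝ))]
  rw [h4] at h
  have h5 : |(x : ℝ)| ≤ 2 * M / ε := by
    rw [le_div_iff₀ hε0]
    nlinarith [abs_nonneg (x : ℝ)]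
  have h6 := h5.trans (Nat.le_ceil _)
  exact_mod_cast h6

/-! ### The theorem -/

theorem geo_cbox {B : Set Pt} {p : Pt} {r : ℤ} (hr : 0 ≤ r)
    (h : Conf B (bx p r) (bx p (2 * r))) : CBox (stp B) p r (3 * r) := by
  intro u v h1 h2 huv
  obtain ⟨h3, h4⟩ := h u ⟨h1, h2⟩ v huv
  exact ⟨h3.trans (by omega), h4.trans (by omega)⟩

/-- The circuits at the centres and the closing circuits confine the clusters. -/
theorem geo_path (hC : S_conf) {D' D₂ : Set (ℝ × ℝ)} (hb : Bornology.IsBounded D₂)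
    {g : ℝ} (hgD : ∀ z, infDist z D' < g → z ∈ LL ⁻¹' D₂) {a c ε δ w : ℝ} (hδ : 0 < δ)
    (hε : 0 < ε) (hδε : 100 * δ ≤ ε) {n : ℤ} {j m : ℕ} (hn : n = sc ε δ (j + 1))
    (hw : w = δ * (n : ℝ)) (hεw : ε ≤ w) (hwg : 1000 * w ≤ g)
    (hTε : 1000 * (4 ^ m * ε) ≤ g) (hq₀ : (a - ε / 2, c + ε / 2 - (a - ε / 2)) ∈ D') {B : Set Pt}
    (hY : ∀ y, Good D' (a - ε / 2) (c + ε / 2) (ε / 2) w (g / 4) (g / 2) y → Zr (ce n y) n B)
    (hQ : ∀ i k, Sp D' (a - ε / 2) (c + ε / 2) (g / 16) (g / 4) (g / 2) i k →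
      ∃ y i', dist (sp (a - ε / 2) (c + ε / 2) (g / 16) i k) (fpt w y) ≤
        ε / 2 + 17 / 2 * w ∧ j + 4 ≤ i' ∧ i' ≤ m ∧ Zr (ce n y) (sc ε δ i') B)
    {f f' : Pt} (hf : f ∉ Vs δ D₂) (hf' : fpt δ f' ∈ D') : ¬ ReflTransGen (stp B) f f' := by
  intro hff'
  have hw0 : 0 < w := by linarith
  have hn1 : 1 ≤ n := by
    have h1 : δ * 0 < δ * (n : ℝ) := by rw [← hw]; linarith
    have h2 : (0 : ℝ) < n := lt_of_mul_lt_mul_left h1 hδ.le
    have h3 : 0 < n := by exact_mod_cast h2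
    omega
  have hf1 := le_infDist_of_notMem hδ hb hgD hf
  have hf2 : infDist (fpt δ f') D' = 0 := infDist_zero_of_mem hf'
  have hrev : ReflTransGen (stp B) f' f := shell_symm (stp_symm B) hff'
  have hXB : ∀ y, Good D' (a - ε / 2) (c + ε / 2) (ε / 2) w (g / 4) (g / 2) y →
      CBox (stp B) (cen w δ y) n (3 * n) := by
    intro y hy
    rw [hw, cen_ce hδ]
    exact geo_cbox (by omega) (hC _ _ _ hn1 (hY y hy))
  have hZB : ∀ i k, Sp D' (a - ε / 2) (c + ε / 2) (g / 16) (g / 4) (g / 2) i k →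
      ∃ (y : ℤ × ℤ) (R : ℤ),
      dist (sp (a - ε / 2) (c + ε / 2) (g / 16) i k) (fpt w y) ≤ ε / 2 + 17 / 2 * w ∧
      2 * (ε / 2) + 31 / 2 * w + 2 * δ ≤ δ * R ∧ 4 * δ * R < g / 8 ∧
      CBox (stp B) (cen w δ y) R (3 * R) := by
    intro i k hik
    obtain ⟨y, i', hd, hi1, hi2, hZ⟩ := hQ i k hik
    obtain ⟨k', rfl⟩ : ∃ k', i' = j + 1 + (3 + k') := ⟨i' - (j + 4), by omega⟩
    have h1 := sc_add ε δ (j + 1) (3 + k')
    have h2 : (64 : ℤ) ≤ 4 ^ (3 + k') := by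
      rw [pow_add]
      have : (1 : ℤ) ≤ 4 ^ k' := one_le_pow₀ (by norm_num)
      linarith
    rw [← hn] at h1
    obtain ⟨S, hS⟩ : ∃ S : ℤ, S = sc ε δ (j + 1 + (3 + k')) := ⟨_, rfl⟩
    have h4 : δ * (S : ℝ) ≤ 4 ^ m * ε := by
      rw [hS]
      refine (sc_le hδ _).trans (mul_le_mul_of_nonneg_right ?_ hε.le)
      exact pow_le_pow_right₀ (by norm_num) hi2
    rw [← hS] at h1 hZ
    have h3 : 64 * n ≤ S := by
      rw [h1]
      exact mul_le_mul_of_nonneg_right h2 (by omega)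
    have h5 : 64 * w ≤ δ * (S : ℝ) := by
      have h6 : (64 : ℝ) * n ≤ (S : ℝ) := by exact_mod_cast h3
      have h7 := mul_le_mul_of_nonneg_left h6 hδ.le
      rw [hw]
      linarith
    refine ⟨y, S, hd, by linarith, by linarith, ?_⟩
    rw [hw, cen_ce hδ]
    exact geo_cbox (by omega) (hC _ _ _ (by omega) hZ)
  refine shell_grid (E := stp B) (stp_symm B) (stp_le B) hq₀ (δ := δ) (W₀ := ε / 2) (w := w)
    (l := g / 16) (h := g / 8) (a := g / 4) (b := g / 2) hδ hw0 (by linarith) (by linarith)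
    (by linarith) (by linarith) (by linarith) (by linarith) (r := n) ?_ ?_ hXB hZB
    (u := f') (v := f) (by linarith) (by linarith) hrev
  · rw [← hw]
    linarith
  · rw [mul_assoc, ← hw]
    linarith

/-- The finite sets of centres. -/
theorem geo_sets {D' : Set (ℝ × ℝ)} (hb₁ : Bornology.IsBounded D') (hne : D'.Nonempty)
    {g M : ℝ} (hM : ∀ z, infDist z D' ≤ 2 * g → |z.1| ≤ M ∧ |z.2| ≤ M) {a c ε w : ℝ}
    (hε : 0 < ε) (hw0 : 0 < w) (hεw : ε ≤ w) (hwg : 1000 * w ≤ g)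
    (hq₀ : (a - ε / 2, c + ε / 2 - (a - ε / 2)) ∈ D') :
    ∃ Y Q : Finset Pt, Q ⊆ Y ∧
      Q.card ≤ ((Finset.univ : Finset (Fin 2)) ×ˢ
        Finset.Icc (-⌈M / (g / 16)⌉) ⌈M / (g / 16)⌉).card ∧
      (∀ y, y ∈ Y ↔ Good D' (a - ε / 2) (c + ε / 2) (ε / 2) w (g / 4) (g / 2) y) ∧
      ∀ i k, Sp D' (a - ε / 2) (c + ε / 2) (g / 16) (g / 4) (g / 2) i k →
        ∃ y ∈ Q, dist (sp (a - ε / 2) (c + ε / 2) (g / 16) i k) (fpt w y) ≤
          ε / 2 + 17 / 2 * w := by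
  classical
  have hfin := good_finite hb₁ hne (a₁ := a - ε / 2) (c₁ := c + ε / 2) (W₀ := ε / 2)
    (a := g / 4) (b := g / 2) hw0
  have hxc : ∀ q : Fin 2 × ℤ, ∃ y, Sp D' (a - ε / 2) (c + ε / 2) (g / 16) (g / 4) (g / 2) q.1
      q.2 → Good D' (a - ε / 2) (c + ε / 2) (ε / 2) w (g / 4) (g / 2) y ∧
      dist (sp (a - ε / 2) (c + ε / 2) (g / 16) q.1 q.2) (fpt w y) ≤ ε / 2 + 17 / 2 * w := by
    intro q
    by_cases h : Sp D' (a - ε / 2) (c + ε / 2) (g / 16) (g / 4) (g / 2) q.1 q.2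
    · obtain ⟨y, hy⟩ := exists_xc hq₀ hw0 (by linarith : 0 ≤ ε / 2) (by linarith) (by linarith) h
      exact ⟨y, fun _ => hy⟩
    · exact ⟨0, fun h' => absurd h' h⟩
  choose xc hxc using hxc
  refine ⟨hfin.toFinset, ((Finset.univ ×ˢ Finset.Icc (-⌈M / (g / 16)⌉)
    ⌈M / (g / 16)⌉).filter fun q => Sp D' (a - ε / 2) (c + ε / 2) (g / 16)
    (g / 4) (g / 2) q.1 q.2).image xc, ?_, ?_, ?_, ?_⟩
  · intro y hy
    obtain ⟨q, hq, rfl⟩ := Finset.mem_image.1 hy
    rw [Set.Finite.mem_toFinset]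
    rw [Finset.mem_filter] at hq
    exact (hxc q hq.2).1
  · exact Finset.card_image_le.trans (Finset.card_filter_le _ _)
  · intro y
    rw [Set.Finite.mem_toFinset]
    rfl
  · intro i k hik
    refine ⟨xc (i, k), Finset.mem_image_of_mem _ ?_, (hxc (i, k) hik).2⟩
    rw [Finset.mem_filter, Finset.mem_product]
    refine ⟨⟨Finset.mem_univ _, ?_⟩, hik⟩
    have h1 := sp_le (M := M) (fun z hz => hM z (by linarith)) hik
    rw [abs_mul, abs_of_pos (by linarith : 0 < g / 16), mul_comm, ← le_div_iff₀ (by linarith)]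
      at h1
    have h2 := h1.trans (Int.le_ceil _)
    rw [Finset.mem_Icc]
    exact abs_le.1 (by exact_mod_cast h2)

/-- SHELL. -/
theorem s_geom (hC : S_conf) : S_geom := by
  intro D₁ D₂ hD₁ hD₂ hb hcl a b c habc hcc
  have hb₁ : Bornology.IsBounded D₁ := hb.subset (subset_closure.trans hcl)
  obtain ⟨D', hD'⟩ : ∃ D' : Set (ℝ × ℝ), D' = LL ⁻¹' D₁ := ⟨_, rfl⟩
  have hcc' : {z : ℝ × ℝ | a ≤ z.1 ∧ b ≤ z.2 ∧ z.1 + z.2 ≤ c} ⊆ D' := by
    rintro z ⟨h1, h2, h3⟩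
    rw [hD']
    refine hcc ⟨?_, ?_, ?_⟩
    · rw [c1_LL]; exact h1
    · rw [c2_LL]; exact h2
    · rw [c1_LL, c2_LL]; exact h3
  have hc₀ : (a, c - a) ∈ D' := hcc' ⟨le_rfl, by simp only; linarith, by simp only; linarith⟩
  have hne : D'.Nonempty := ⟨_, hc₀⟩
  have hbD : Bornology.IsBounded D' := by rw [hD']; exact LL_bdd hb₁
  have hopen : IsOpen D' := by rw [hD']; exact hD₁.preimage LL_cont
  obtain ⟨g, hg, hgD⟩ := exists_thick hne (hD₂.preimage LL_cont) (LL_bdd hb)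
    (by rw [hD']; exact LL_closure hcl)
  obtain ⟨r₀, hr₀, hr₀D⟩ := Metric.isOpen_iff.1 hopen _ hc₀
  obtain ⟨M, hM⟩ := shell_bdd hbD hne (2 * g)
  refine ⟨((Finset.univ : Finset (Fin 2)) ×ˢ
        Finset.Icc (-⌈M / (g / 16)⌉) ⌈M / (g / 16)⌉).card, fun m => ?_⟩
  obtain ⟨G, hG⟩ : ∃ G : ℝ, G = min g r₀ := ⟨_, rfl⟩
  have hG0 : 0 < G := by
    rw [hG]
    exact lt_min hg hr₀
  have hGg : G ≤ g := by rw [hG]; exact min_le_left _ _
  have hG₀ : G ≤ r₀ := by rw [hG]; exact min_le_right _ _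
  have hT : (1 : ℝ) ≤ 4 ^ m := one_le_pow₀ (by norm_num)
  refine ⟨G / (1000 * 4 ^ m), by positivity, fun ε hε hε₀ => ?_⟩
  have hTε : 1000 * (4 ^ m * ε) ≤ G := by
    rw [le_div_iff₀ (by positivity)] at hε₀
    linarith
  have hεG : 1000 * ε ≤ G := by nlinarith
  refine ⟨⌈2 * M / ε⌉₊, ε, hε, fun j hj => ?_⟩
  filter_upwards [Ioo_mem_nhdsGT (show (0 : ℝ) < ε / 1000 by positivity)] with δ hδ'
  obtain ⟨hδ, hδε⟩ := hδ'
  -- the spacing
  obtain ⟨n, hn⟩ : ∃ n : ℤ, n = sc ε δ (j + 1) := ⟨_, rfl⟩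
  obtain ⟨w, hw⟩ : ∃ w : ℝ, w = δ * (n : ℝ) := ⟨_, rfl⟩
  have hp1 : (4 : ℝ) ≤ 4 ^ (j + 1) := by
    rw [pow_succ]
    have : (1 : ℝ) ≤ 4 ^ j := one_le_pow₀ (by norm_num)
    linarith
  have hp2 : (4 : ℝ) ^ (j + 1) * 64 ≤ 4 ^ m := by
    have h1 : (4 : ℝ) ^ (j + 1) * 64 = 4 ^ (j + 4) := by
      rw [pow_add, pow_add]
      norm_num
      ring
    rw [h1]
    exact pow_le_pow_right₀ (by norm_num) hj
  have hw1 : w ≤ 4 ^ (j + 1) * ε := by rw [hw, hn]; exact sc_le hδ _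
  have hw2 : 4 ^ (j + 1) * (ε / 2) ≤ w := by rw [hw, hn]; exact le_sc hδ (by linarith) _
  have hw3 : 2 * ε ≤ w := by nlinarith
  have hw4 : 64000 * w ≤ G := by nlinarith
  have hw0 : 0 < w := by linarith
  have hq₀ : (a - ε / 2, c + ε / 2 - (a - ε / 2)) ∈ D' := by
    refine hr₀D (lt_of_le_of_lt (dist_le_of (e := ε) ?_ ?_) (by linarith)) <;> simp only <;>
      rw [abs_le] <;> constructor <;> linarith
  obtain ⟨Y, Q, hQY, hQc, hY, hQ⟩ := geo_sets hbD hne hM (a := a) (c := c) hε hw0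
    (by linarith) (by linarith) hq₀
  rw [← hn]
  have hinf : ∀ y ∈ Y, g / 4 / 4 ≤ infDist (fpt δ (ce n y)) D' := by
    intro y hy
    rw [← fpt_ce, ← hw]
    exact ((hY y).1 hy).1
  refine ⟨Y, Q, hQY, hQc, ?_, ?_, ?_, ?_⟩
  · intro y hy
    have h1 := hM _ (((hY y).1 hy).2.1.trans (by linarith))
    rw [hw, fpt_ce, hn] at h1
    exact ⟨abs_le_of_sc hδ (by linarith) (j + 1) h1.1, abs_le_of_sc hδ (by linarith) (j + 1) h1.2⟩
  · intro y hy
    have h1 := hinf y hy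
    refine ⟨iE_bx_sub hδ hb₁ ?_, ?_⟩
    · rw [← hD']
      push_cast
      linarith
    · have h2 := arms (ρ := 3 * w) (p := fpt w y) habc hε hcc'
        (by rw [hw, fpt_ce]; linarith) ((hY y).1 hy).2.2
      have h3 : ∀ (ω x x' : Pt), ω ∈ iE (bx (ce n y) (2 * n)) → Adj x x' → ω = x + x' →
          dist (fpt δ x) (fpt w y) ≤ 3 * w := by
        intro ω x x' hω hxx' e
        obtain ⟨x₁, hx₁, h4, h5⟩ := iE_near hω hxx' e
        have h6 := dist_near hδ.le hx₁ h4 h5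
        rw [hw, fpt_ce, ← hw]
        push_cast at h6
        linarith
      rcases h2 with h2 | h2 | h2
      · refine ⟨0, fun ω hω x x' hxx' e => Or.inl ⟨rfl, ?_⟩⟩
        rw [dp_eq, c1_LL]
        exact h2 _ (h3 ω x x' hω hxx' e)
      · refine ⟨1, fun ω hω x x' hxx' e => Or.inr (Or.inl ⟨rfl, ?_⟩)⟩
        rw [dp_eq, c1_LL, c2_LL]
        exact h2 _ (h3 ω x x' hω hxx' e)
      · refine ⟨2, fun ω hω x x' hxx' e => Or.inr (Or.inr ⟨rfl, ?_⟩)⟩
        rw [dp_eq, c1_LL, c2_LL]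
        exact h2 _ (h3 ω x x' hω hxx' e)
  · intro y hy
    have h1 := hinf y (hQY hy)
    refine iE_bx_sub hδ hb₁ ?_
    rw [← hD']
    have h2 := sc_le (ε := ε) hδ m
    push_cast
    linarith
  · intro B hYB hQB f hf f' hff' hf'
    have hf'' : fpt δ f' ∈ D' := by rw [hD']; exact of_mem_Vs hδ hb₁ hf'
    refine geo_path hC hb hgD (a := a) (c := c) (j := j) (m := m) hδ hε (by linarith)
      hn hw (by linarith) (by linarith) (by linarith) hq₀
      (fun y hy => hYB y ((hY y).2 hy)) (fun i k hik => ?_) (f := f) (f' := f') hf hf'' hff'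
    obtain ⟨y, hyQ, hd⟩ := hQ i k hik
    obtain ⟨i', hi1, hi2, hZ⟩ := hQB y hyQ
    exact ⟨y, i', hd, hi1, hi2, hZ⟩

end Vale.Agent.P153.F.X
end

section

/-!
# P153-F, block X: all moments of the smeared field against neutral test functions
-/

namespace Vale.Agent.P153.F.X.MN

open MeasureTheory Filter Topology
open Vale.Agent.P153.GFF
open Vale.Agent.P153.F.RSW.AC (seq_lim row_var)

variable {P : Measure (ℤ × ℤ → ℤ)} {κ : ℝ}

/-- Second moments: the limit, up to a factor `2`. -/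
theorem second_le (hP : Plane P) (hS : SpecOut P κ) {f : ℝ × ℝ → ℝ} (hf : Test f) {ε : ℝ}
    (hε : 0 < ε) : ∀ᶠ δ : ℝ in 𝓝[>] 0,
      ∫ φ, (smear φ δ f) ^ 2 ∂P ≤ 2 * (κ / √3 * gffCov f f) + ε := by
  obtain ⟨K, hK⟩ := hf.csts
  obtain ⟨A, hA0, hA⟩ := growth (grow_row hS)
  obtain ⟨m, C, k0, hspec⟩ := hS
  set E1 : ℝ → ℝ := fun δ => ∫ φ, (smear φ δ f - rowS δ f φ) ^ 2 ∂P with hE1
  set E2 : ℝ → ℝ := fun δ => ∫ φ, (rowS δ f φ) ^ 2 ∂P with hE2
  have l1 : Tendsto E1 (𝓝[>] 0) (𝓝 0) := seq_lim fun δ h1 h2 h3 =>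
    (close hP (dec hspec) hA0 hA hK δ h1 h2 h3).1
  have l2 : Tendsto E2 (𝓝[>] 0) (𝓝 (TwoPt.sig (√3) κ (ft f))) := seq_lim fun δ h1 h2 h3 => by
    have hD := disc hK hf.2.2 δ h1 h2 h3
    have h4 := TwoPt.p1 _ _ _ _ _ _ hspec _ _ _ _ hD
    refine h4.congr fun n => ?_
    exact (row_var hP hD n).1.symm
  rw [sig_ft hf] at l2
  have l3 : Tendsto (fun δ => 2 * E1 δ + 2 * E2 δ) (𝓝[>] 0)
      (𝓝 (2 * 0 + 2 * (κ / √3 * gffCov f f))) := (l1.const_mul 2).add (l2.const_mul 2)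
  have h5 := l3.eventually_le_const (u := 2 * (κ / √3 * gffCov f f) + ε) (by linarith)
  have h6 : ∀ᶠ δ : ℝ in 𝓝[>] 0, 0 < δ ∧ δ ≤ 1 := by
    filter_upwards [Ioc_mem_nhdsGT (zero_lt_one' ℝ)] with x hx
    exact hx
  filter_upwards [h5, h6] with δ hδ hδ'
  refine le_trans ?_ hδ
  have h1 : ∀ n : ℕ, 0 < δ / ((n : ℝ) + 1) := fun n => div_pos hδ'.1 (by positivity)
  have h2 : ∀ n : ℕ, δ / ((n : ℝ) + 1) ≤ 1 := fun n => by
    rw [div_le_one (by positivity)]
    have : (0 : ℝ) ≤ n := by positivity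
    linarith [hδ'.2]
  have h3 : Tendsto (fun n : ℕ => δ / ((n : ℝ) + 1)) atTop (𝓝 0) := by
    have := (tendsto_one_div_add_atTop_nhds_zero_nat (𝕜 := ℝ)).const_mul δ
    rw [mul_zero] at this
    refine this.congr fun n => ?_
    ring
  have i1 : Integrable (fun φ => (smear φ δ f - rowS δ f φ) ^ 2) P := by
    have h4 := (close hP (dec hspec) hA0 hA hK _ h1 h2 h3).2 0
    simpa using h4
  have i2 : Integrable (fun φ => (rowS δ f φ) ^ 2) P := by
    have h4 := (row_var hP (disc hK hf.2.2 _ h1 h2 h3) 0).2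
    simpa [rowS] using h4
  calc ∫ φ, (smear φ δ f) ^ 2 ∂P
      ≤ ∫ φ, (2 * (smear φ δ f - rowS δ f φ) ^ 2 + 2 * (rowS δ f φ) ^ 2) ∂P := by
        refine integral_mono_of_nonneg (Eventually.of_forall fun φ => sq_nonneg _)
          ((i1.const_mul 2).add (i2.const_mul 2)) (Eventually.of_forall fun φ => ?_)
        simp only
        nlinarith [sq_nonneg (smear φ δ f - 2 * rowS δ f φ)]
    _ = 2 * E1 δ + 2 * E2 δ := by
        rw [integral_add (i1.const_mul 2) (i2.const_mul 2), integral_const_mul, integral_const_mul]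

lemma g3phi_nonneg (M : ℝ) (z : ℝ × ℝ) : 0 ≤ g3phi M z := by
  unfold g3phi
  split_ifs
  · exact abs_nonneg _
  · exact le_rfl

lemma sq_int {f : ℝ × ℝ → ℝ} (hf : Continuous f) (cf : HasCompactSupport f) :
    Integrable fun x => f x ^ 2 := by
  refine (hf.pow 2).integrable_of_hasCompactSupport ?_
  refine HasCompactSupport.intro cf.isCompact fun x hx => ?_
  show f x ^ 2 = 0
  rw [image_eq_zero_of_notMem_tsupport hx]
  ring

/-- Schur test for the Green function. -/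
theorem gff_le {M : ℝ} (hM : 1 ≤ M) {f : ℝ × ℝ → ℝ} (hf : Continuous f)
    (cf : HasCompactSupport f) (hs : ∀ z, f z ≠ 0 → |z.1| ≤ M / 2 ∧ |z.2| ≤ M / 2) :
    gffCov f f ≤ (2 * Real.pi)⁻¹ * (∫ z, g3phi M z) * ∫ z, f z ^ 2 := by
  have hH : (volume : Measure (ℝ × ℝ)).IsAddHaarMeasure :=
    Measure.prod.instIsAddHaarMeasure volume volume
  have hgi := sq_int hf cf
  have hpi : 0 ≤ (2 * Real.pi)⁻¹ := by positivity
  have i2 : Integrable (fun p : (ℝ × ℝ) × (ℝ × ℝ) => f p.2 ^ 2 * g3phi M (p.1 - p.2))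
      (volume.prod volume) :=
    hgi.convolution_integrand (ContinuousLinearMap.mul ℝ ℝ) (g3phi_integrable hM)
  have hsym : ∀ z : ℝ × ℝ, g3phi M (-z) = g3phi M z := by
    intro z
    unfold g3phi
    simp only [Prod.fst_neg, Prod.snd_neg, abs_neg, neg_sq]
  have i1 : Integrable (fun p : (ℝ × ℝ) × (ℝ × ℝ) => f p.1 ^ 2 * g3phi M (p.1 - p.2))
      (volume.prod volume) := by
    have := i2.swap
    refine this.congr (Eventually.of_forall fun p => ?_)
    simp only [Function.comp, Prod.fst_swap, Prod.snd_swap]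
    rw [← hsym, neg_sub]
  have e2 : ∫ p : (ℝ × ℝ) × (ℝ × ℝ), f p.2 ^ 2 * g3phi M (p.1 - p.2) ∂(volume.prod volume) =
      (∫ z, g3phi M z) * ∫ z, f z ^ 2 := by
    rw [integral_prod_symm _ i2]
    have : ∀ y : ℝ × ℝ, ∫ x : ℝ × ℝ, f y ^ 2 * g3phi M (x - y) = f y ^ 2 * ∫ z, g3phi M z := by
      intro y
      rw [integral_const_mul]
      congr 1
      exact integral_sub_right_eq_self (fun z => g3phi M z) y
    simp only [this]
    rw [integral_mul_const, mul_comm]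
  have e1 : ∫ p : (ℝ × ℝ) × (ℝ × ℝ), f p.1 ^ 2 * g3phi M (p.1 - p.2) ∂(volume.prod volume) =
      (∫ z, g3phi M z) * ∫ z, f z ^ 2 := by
    rw [integral_prod _ i1]
    have : ∀ x : ℝ × ℝ, ∫ y : ℝ × ℝ, f x ^ 2 * g3phi M (x - y) = f x ^ 2 * ∫ z, g3phi M z := by
      intro x
      rw [integral_const_mul]
      congr 1
      exact integral_sub_left_eq_self (fun z => g3phi M z) volume x
    simp only [this]
    rw [integral_mul_const, mul_comm]
  rw [g3cov_eq_prod hf hf cf cf]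
  have hgr := g3green_integrable hf hf cf cf
  rw [Measure.volume_eq_prod] at hgr ⊢
  have hle : ∀ p : (ℝ × ℝ) × (ℝ × ℝ), green p.1 p.2 * f p.1 * f p.2 ≤
      (2 * Real.pi)⁻¹ * ((1 / 2) * (f p.1 ^ 2 * g3phi M (p.1 - p.2)) +
        (1 / 2) * (f p.2 ^ 2 * g3phi M (p.1 - p.2))) := by
    intro p
    have h0 := g3phi_nonneg M (p.1 - p.2)
    have hR : 0 ≤ (2 * Real.pi)⁻¹ * ((1 / 2) * (f p.1 ^ 2 * g3phi M (p.1 - p.2)) +
        (1 / 2) * (f p.2 ^ 2 * g3phi M (p.1 - p.2))) := by positivity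
    by_cases h1 : f p.1 = 0
    · rw [h1, mul_zero, zero_mul]
      rw [h1] at hR
      exact hR
    by_cases h2 : f p.2 = 0
    · rw [h2, mul_zero]
      rw [h2] at hR
      exact hR
    obtain ⟨a1, a2⟩ := hs _ h1
    obtain ⟨b1, b2⟩ := hs _ h2
    have hd1 : |(p.1 - p.2).1| ≤ M := by
      rw [Prod.fst_sub]
      exact (abs_sub _ _).trans (by linarith)
    have hd2 : |(p.1 - p.2).2| ≤ M := by
      rw [Prod.snd_sub]
      exact (abs_sub _ _).trans (by linarith)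
    have e3 : g3phi M (p.1 - p.2) =
        |Real.log (Real.sqrt ((p.1.1 - p.2.1) ^ 2 + (p.1.2 - p.2.2) ^ 2))| := by
      unfold g3phi
      rw [if_pos ⟨hd1, hd2⟩]
      rfl
    have e4 : |green p.1 p.2| = (2 * Real.pi)⁻¹ * g3phi M (p.1 - p.2) := by
      rw [e3]
      unfold green
      rw [abs_mul, abs_neg, abs_of_nonneg hpi]
    calc green p.1 p.2 * f p.1 * f p.2 ≤ |green p.1 p.2 * f p.1 * f p.2| := le_abs_self _
      _ = (2 * Real.pi)⁻¹ * (g3phi M (p.1 - p.2) * (|f p.1| * |f p.2|)) := by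
          rw [abs_mul, abs_mul, e4]
          ring
      _ ≤ (2 * Real.pi)⁻¹ * (g3phi M (p.1 - p.2) * ((1 / 2) * f p.1 ^ 2 + (1 / 2) * f p.2 ^ 2)) := by
          refine mul_le_mul_of_nonneg_left (mul_le_mul_of_nonneg_left ?_ h0) hpi
          nlinarith [sq_nonneg (|f p.1| - |f p.2|), sq_abs (f p.1), sq_abs (f p.2)]
      _ = _ := by ring
  refine (integral_mono hgr (((i1.const_mul _).add (i2.const_mul _)).const_mul _) hle).trans ?_
  rw [integral_const_mul, integral_add' (i1.const_mul _) (i2.const_mul _), integral_const_mul,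
    integral_const_mul, e1, e2]
  exact le_of_eq (by ring)

/-- Cauchy–Schwarz on a box. -/
theorem cs_box {R : ℝ} (hR : 0 < R) {f : ℝ × ℝ → ℝ} (hf : Continuous f)
    (cf : HasCompactSupport f) (hs : ∀ z, f z ≠ 0 → |z.1| ≤ R ∧ |z.2| ≤ R) :
    (∫ z, |f z|) ^ 2 ≤ (2 * R) ^ 2 * ∫ z, f z ^ 2 := by
  set I := ∫ z, |f z| with hI
  set B : Set (ℝ × ℝ) := Set.Icc (-R) R ×ˢ Set.Icc (-R) R with hB
  have hBm : MeasurableSet B := measurableSet_Icc.prod measurableSet_Icc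
  have hvol : volume B = ENNReal.ofReal ((2 * R) ^ 2) := by
    rw [hB, Measure.volume_eq_prod, Measure.prod_prod, Real.volume_Icc,
      ← ENNReal.ofReal_mul (by linarith)]
    congr 1
    ring
  have hreal : volume.real B = (2 * R) ^ 2 := by
    rw [measureReal_def, hvol, ENNReal.toReal_ofReal (by positivity)]
  have hfin : volume B ≠ ⊤ := by rw [hvol]; exact ENNReal.ofReal_ne_top
  have hV : 0 < (2 * R) ^ 2 := by positivity
  set c := I / (2 * R) ^ 2 with hc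
  have h1 : ∀ z, 2 * c * |f z| ≤ f z ^ 2 + B.indicator (fun _ => c ^ 2) z := by
    intro z
    by_cases hz : f z = 0
    · rw [hz]
      have : 0 ≤ B.indicator (fun _ => c ^ 2) z := Set.indicator_nonneg (fun _ _ => sq_nonneg _) z
      simp only [abs_zero, mul_zero]
      linarith
    · obtain ⟨h2, h3⟩ := hs z hz
      rw [Set.indicator_of_mem (show z ∈ B from ⟨abs_le.1 h2, abs_le.1 h3⟩)]
      nlinarith [sq_nonneg (|f z| - c), sq_abs (f z)]
  have hfi : Integrable fun z => |f z| := (hf.integrable_of_hasCompactSupport cf).abs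
  have hci : Integrable (B.indicator fun _ => c ^ 2) :=
    (integrableOn_const hfin).integrable_indicator hBm
  have h2 := integral_mono (hfi.const_mul (2 * c)) ((sq_int hf cf).add hci) h1
  rw [integral_const_mul] at h2
  have h3 : ∫ z, ((fun x => f x ^ 2) + B.indicator fun _ => c ^ 2) z =
      (∫ z, f z ^ 2) + (2 * R) ^ 2 * c ^ 2 := by
    have h4 : ∫ z, ((fun x => f x ^ 2) + B.indicator fun _ => c ^ 2) z =
        (∫ z, f z ^ 2) + ∫ z, B.indicator (fun _ => c ^ 2) z :=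
      integral_add (sq_int hf cf) hci
    rw [h4, integral_indicator_const _ hBm, hreal, smul_eq_mul]
  have h5 : 2 * c * I ≤ (∫ z, f z ^ 2) + (2 * R) ^ 2 * c ^ 2 := by
    rw [← h3]
    exact h2
  have h6 : I = c * (2 * R) ^ 2 := by
    rw [hc]
    field_simp
  have h7 : (2 * R) ^ 2 * c ^ 2 ≤ ∫ z, f z ^ 2 := by
    rw [h6] at h5
    nlinarith
  calc I ^ 2 = (2 * R) ^ 2 * ((2 * R) ^ 2 * c ^ 2) := by rw [h6]; ring
    _ ≤ (2 * R) ^ 2 * ∫ z, f z ^ 2 := mul_le_mul_of_nonneg_left h7 hV.le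

lemma abs_compact {f : ℝ × ℝ → ℝ} (cf : HasCompactSupport f) :
    HasCompactSupport fun z => |f z| :=
  cf.comp_left (g := fun x : ℝ => |x|) abs_zero

/-- The total mass of the weights. -/
theorem sum_abs_wt {δ R : ℝ} (hδ : 0 < δ) (hR : 0 ≤ R) {f : ℝ × ℝ → ℝ} (hc : Continuous f)
    (hs : HasCompactSupport f) (hf : ∀ z : ℝ × ℝ, (R < |z.1| ∨ R < |z.2|) → f z = 0) :
    ∑ v ∈ box δ R, |wt δ f v| ≤ ∫ z, |f z| := by
  have h1 := sum_wt hδ hR hc.abs (abs_compact hs) (fun z hz => by rw [hf z hz, abs_zero])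
  rw [← h1]
  refine Finset.sum_le_sum fun v _ => ?_
  rw [wt_eq, wt_eq, abs_mul, abs_of_pos (by positivity : (0 : ℝ) < δ ^ 2)]
  refine mul_le_mul_of_nonneg_left ?_ (by positivity)
  refine (abs_integral_le_integral_abs).trans (le_of_eq ?_)
  congr 1
  funext u
  rw [abs_mul, abs_of_nonneg (ker_nonneg _)]

/-- **All moments of the smeared field against a neutral test function.** -/
theorem neutral (hP : Plane P) (hS : SpecOut P κ) {R : ℝ} (hR : 1 ≤ R) (k : ℕ) :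
    ∃ C : ℝ, 0 ≤ C ∧ ∀ f : ℝ × ℝ → ℝ, Test f → (∀ z, f z ≠ 0 → |z.1| ≤ R ∧ |z.2| ≤ R) →
      ∀ ε : ℝ, 0 < ε → ∀ᶠ δ : ℝ in 𝓝[>] 0,
        ∫ φ, smear φ δ f ^ (2 * k) ∂P ≤ C * ((∫ z, f z ^ 2) + ε) ^ k := by
  have := hP.prob
  have hκ : 0 ≤ κ := by
    obtain ⟨m, C, k0, h⟩ := hS
    exact h.κ_nonneg
  set Φ : ℝ := (2 * Real.pi)⁻¹ * ∫ z, g3phi (2 * R) z with hΦ
  have hΦ0 : 0 ≤ Φ := mul_nonneg (by positivity) (integral_nonneg fun z => g3phi_nonneg _ _)
  set C1 : ℝ := 2 * (κ / √3 * Φ) + (2 * R) ^ 2 + 1 with hC1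
  have hC10 : 0 ≤ C1 := by positivity
  refine ⟨81 ^ k * PL.Ck k * C1 ^ k, by have := PL.ck_nonneg k; positivity,
    fun f hf hsf ε hε => ?_⟩
  have hc : Continuous f := hf.1.continuous
  have hz : ∀ z : ℝ × ℝ, (R < |z.1| ∨ R < |z.2|) → f z = 0 := by
    intro z hz
    by_contra hne
    obtain ⟨h1, h2⟩ := hsf z hne
    rcases hz with h | h <;> linarith
  have hg := gff_le (M := 2 * R) (by linarith) hc hf.2.1 (fun z hz => by
    obtain ⟨h1, h2⟩ := hsf z hz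
    constructor <;> linarith)
  have hcs := cs_box (by linarith) hc hf.2.1 hsf
  have h6 : ∀ᶠ δ : ℝ in 𝓝[>] 0, 0 < δ := by
    filter_upwards [self_mem_nhdsWithin] with x hx
    exact hx
  filter_upwards [second_le hP hS hf hε, h6] with δ h2 hδ
  have hlin : ∀ φ : ℤ × ℤ → ℤ, PL.lin (box δ R) (wt δ f) φ = smear φ δ f := by
    intro φ
    rw [smear_eq_sum hδ (by linarith) hc hf.2.1 hz]
    unfold PL.lin
    exact Finset.sum_congr rfl fun v _ => mul_comm _ _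
  have h0 : ∑ v ∈ box δ R, wt δ f v = 0 := by
    rw [sum_wt hδ (by linarith) hc hf.2.1 hz, hf.2.2]
  have hm := PL.moment k hP.lip hP.lim h0
  simp only [hlin] at hm
  refine hm.trans ?_
  rw [mul_assoc _ (C1 ^ k), ← mul_pow]
  refine mul_le_mul_of_nonneg_left ?_ (by have := PL.ck_nonneg k; positivity)
  have hI0 : 0 ≤ ∫ z, f z ^ 2 := integral_nonneg fun z => sq_nonneg _
  have hA0 : 0 ≤ ∑ v ∈ box δ R, |wt δ f v| := Finset.sum_nonneg fun _ _ => abs_nonneg _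
  have h7 := sum_abs_wt hδ (by linarith) hc hf.2.1 hz
  have h8 : (∑ v ∈ box δ R, |wt δ f v|) ^ 2 ≤ (2 * R) ^ 2 * ∫ z, f z ^ 2 :=
    (pow_le_pow_left₀ hA0 h7 2).trans hcs
  refine pow_le_pow_left₀ (add_nonneg (integral_nonneg fun _ => sq_nonneg _) (sq_nonneg _)) ?_ k
  have h9 : κ / √3 * gffCov f f ≤ κ / √3 * (Φ * ∫ z, f z ^ 2) :=
    mul_le_mul_of_nonneg_left hg (by positivity)
  have h10 : 0 ≤ κ / √3 * Φ := by positivity
  rw [hC1]
  nlinarith [mul_nonneg h10 hε.le, mul_nonneg (sq_nonneg (2 * R)) hε.le]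

end Vale.Agent.P153.F.X.MN
end

section

/-!
# P153-F, block X: the weights of the smeared field, translations, moments near a circuit
-/

namespace Vale.Agent.P153.F.X

open Filter Topology Set MeasureTheory
open Vale.Agent.P153
open Vale.Agent.P153.F.Top (Om Cone Pol Alg ze)
open Vale.Agent.P153.GFF (smear wt box pos ker Test Plane SpecOut smear_eq_sum sum_wt
  wt_zero_of_box ker_eq_zero ker_nonneg integral_ker integrable_ker g3radius g3wt_int)

/-- Smooth with compact support. -/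
def Smo (f : ℝ × ℝ → ℝ) : Prop :=
  ContDiff ℝ ((⊤ : ℕ∞) : WithTop ℕ∞) f ∧ HasCompactSupport f

lemma Smo.cont {f : ℝ × ℝ → ℝ} (h : Smo f) : Continuous f := h.1.continuous

lemma Smo.sub {f g : ℝ × ℝ → ℝ} (hf : Smo f) (hg : Smo g) : Smo fun x => f x - g x :=
  ⟨hf.1.sub hg.1, hf.2.sub hg.2⟩

lemma Smo.mul {f : ℝ × ℝ → ℝ} (hf : Smo f) (c : ℝ) : Smo fun x => c * f x :=
  ⟨contDiff_const.mul hf.1, hf.2.mul_left⟩

lemma Smo.int {f : ℝ × ℝ → ℝ} (hf : Smo f) : Integrable f :=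
  hf.cont.integrable_of_hasCompactSupport hf.2

/-- Smooth bumps of integral one. -/
theorem exists_bump (z : ℝ × ℝ) {ρ : ℝ} (hρ : 0 < ρ) : ∃ i : ℝ × ℝ → ℝ, Smo i ∧
    ∫ x, i x = 1 ∧ ∀ x, i x ≠ 0 → |x.1 - z.1| ≤ ρ ∧ |x.2 - z.2| ≤ ρ := by
  let b : ContDiffBump z := ⟨ρ / 2, ρ, by positivity, by linarith⟩
  have h0 : 0 < ∫ x, b x := b.integral_pos
  refine ⟨fun x => (∫ y, b y)⁻¹ * b x, ⟨contDiff_const.mul b.contDiff, ?_⟩, ?_, fun x hx => ?_⟩
  · exact b.hasCompactSupport.mul_left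
  · rw [integral_const_mul, inv_mul_cancel₀ h0.ne']
  · have h1 : b x ≠ 0 := right_ne_zero_of_mul hx
    have h2 : x ∈ Function.support b := h1
    rw [b.support_eq, Metric.mem_ball, dist_eq_norm, Prod.norm_def, max_lt_iff] at h2
    exact ⟨h2.1.le, h2.2.le⟩

/-! ### Weights -/

lemma wt_fin {f : ℝ × ℝ → ℝ} (cf : HasCompactSupport f) {δ : ℝ} (hδ : 0 < δ) :
    (Function.support (GFF.wt δ f)).Finite := by
  obtain ⟨R, hR, h⟩ := g3radius cf
  refine (box δ R).finite_toSet.subset fun v hv => ?_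
  by_contra hv'
  exact hv (wt_zero_of_box hδ hR h hv')

open Classical in
/-- The weights of the smeared field. -/
noncomputable def WT (δ : ℝ) (f : ℝ × ℝ → ℝ) : Pt →₀ ℝ :=
  if h : (Function.support (GFF.wt δ f)).Finite then Finsupp.ofSupportFinite _ h else 0

lemma WT_apply {f : ℝ × ℝ → ℝ} (cf : HasCompactSupport f) {δ : ℝ} (hδ : 0 < δ) (v : Pt) :
    WT δ f v = GFF.wt δ f v := by
  unfold WT
  rw [dif_pos (wt_fin cf hδ)]
  rfl

lemma WT_sum {f : ℝ × ℝ → ℝ} (cf : HasCompactSupport f) {δ R : ℝ} (hδ : 0 < δ) (hR : 0 ≤ R)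
    (h : ∀ z : ℝ × ℝ, (R < |z.1| ∨ R < |z.2|) → f z = 0) (g : Pt → ℝ → ℝ) (hg : ∀ v, g v 0 = 0) :
    (WT δ f).sum g = ∑ v ∈ box δ R, g v (GFF.wt δ f v) := by
  rw [Finsupp.sum_of_support_subset (WT δ f) (s := box δ R) ?_ g fun v _ => hg v]
  · exact Finset.sum_congr rfl fun v _ => by rw [WT_apply cf hδ]
  · intro v hv
    by_contra hv'
    rw [Finsupp.mem_support_iff, WT_apply cf hδ] at hv
    exact hv (wt_zero_of_box hδ hR h hv')

lemma evT_WT {f : ℝ × ℝ → ℝ} (hf : Smo f) {δ : ℝ} (hδ : 0 < δ) (h : Hg) :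
    evT (WT δ f) h = smear h δ f := by
  obtain ⟨R, hR, hz⟩ := g3radius hf.2
  unfold evT
  rw [WT_sum hf.2 hδ hR hz _ fun v => by simp, smear_eq_sum hδ hR hf.cont hf.2 hz]
  exact Finset.sum_congr rfl fun v _ => mul_comm _ _

lemma mass_WT {f : ℝ × ℝ → ℝ} (hf : Smo f) {δ : ℝ} (hδ : 0 < δ) : massT (WT δ f) = ∫ z, f z := by
  obtain ⟨R, hR, hz⟩ := g3radius hf.2
  unfold massT
  rw [WT_sum hf.2 hδ hR hz _ fun v => rfl, sum_wt hδ hR hf.cont hf.2 hz]

lemma WT_sub {f g : ℝ × ℝ → ℝ} (hf : Smo f) (hg : Smo g) {δ : ℝ} (hδ : 0 < δ) :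
    WT δ (fun x => f x - g x) = WT δ f - WT δ g := by
  ext v
  rw [Finsupp.sub_apply, WT_apply (hf.sub hg).2 hδ, WT_apply hf.2 hδ, WT_apply hg.2 hδ]
  unfold GFF.wt
  rw [← mul_sub, ← integral_sub (g3wt_int hδ hf.cont hf.2 v) (g3wt_int hδ hg.cont hg.2 v)]
  congr 2
  funext u
  ring

lemma WT_ne {f : ℝ × ℝ → ℝ} (cf : HasCompactSupport f) {δ : ℝ} (hδ : 0 < δ) {v : Pt}
    (hv : WT δ f v ≠ 0) : ∃ u : ℝ × ℝ, |u.1| ≤ 2 ∧ |u.2| ≤ 1 ∧ f (δ • (u + pos v)) ≠ 0 := by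
  rw [WT_apply cf hδ] at hv
  by_contra hno
  push Not at hno
  apply hv
  unfold GFF.wt
  have h0 : ∀ u : ℝ × ℝ, ker u * f (δ • (u + pos v)) = 0 := by
    intro u
    by_cases hk : ker u = 0
    · rw [hk, zero_mul]
    · have h1 : ¬(2 < |u.1| ∨ 1 < |u.2|) := fun h => hk (ker_eq_zero h)
      rw [not_or, not_lt, not_lt] at h1
      rw [hno u h1.1 h1.2, mul_zero]
  simp_rw [h0]
  simp

/-! ### Linearity -/

lemma evT_smul (c : ℝ) (a : Pt →₀ ℝ) (h : Hg) : evT (c • a) h = c * evT a h := by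
  unfold evT
  rw [Finsupp.sum_smul_index' (fun _ => by simp), Finsupp.mul_sum]
  exact Finsupp.sum_congr fun v _ => by rw [smul_eq_mul]; ring

lemma evT_sub_bd911 (a b : Pt →₀ ℝ) (h : Hg) : evT (a - b) h = evT a h - evT b h := by
  have h1 : a - b = a + (-1 : ℝ) • b := by
    rw [neg_one_smul, sub_eq_add_neg]
  rw [h1, evT_add, evT_smul]
  ring

lemma massT_sub_bd910 (a b : Pt →₀ ℝ) : massT (a - b) = massT a - massT b := by
  have h1 : a - b = a + (-1 : ℝ) • b := by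
    rw [neg_one_smul, sub_eq_add_neg]
  rw [h1, massT_add]
  have h2 : massT ((-1 : ℝ) • b) = -massT b := by
    unfold massT
    rw [Finsupp.sum_smul_index' (fun _ => rfl)]
    simp only [smul_eq_mul, neg_mul, one_mul, Finsupp.sum_neg]
  rw [h2]
  ring

/-! ### Translations -/

/-- Translated weights. -/
noncomputable def mv (p : Pt) (w : Pt →₀ ℝ) : Pt →₀ ℝ := w.mapDomain fun v => v + p

lemma mv_apply (p : Pt) (w : Pt →₀ ℝ) (v : Pt) : mv p w v = w (v - p) := by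
  unfold mv
  have hinj : Function.Injective fun v : Pt => v + p := fun a b h => add_right_cancel h
  conv_lhs => rw [← sub_add_cancel v p]
  exact Finsupp.mapDomain_apply hinj w (v - p)

lemma mv_sub (p : Pt) (a b : Pt →₀ ℝ) : mv p (a - b) = mv p a - mv p b := by
  ext v
  rw [Finsupp.sub_apply, mv_apply, mv_apply, mv_apply, Finsupp.sub_apply]

lemma evT_mv (p : Pt) (w : Pt →₀ ℝ) (h : Hg) : evT (mv p w) h = evT w (trT p h) := by
  unfold evT mv
  rw [Finsupp.sum_mapDomain_index (fun _ => by simp) (fun _ _ _ => by ring)]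
  rfl

lemma massT_mv (p : Pt) (w : Pt →₀ ℝ) : massT (mv p w) = massT w := by
  unfold massT mv
  rw [Finsupp.sum_mapDomain_index (fun _ => rfl) (fun _ _ _ => rfl)]

lemma lintegral_mv {P : Measure (Pt → ℤ)} (hP : ∀ t, P.map (GFF.shift t) = P) {w : Pt →₀ ℝ}
    (hw : massT w = 0) (p : Pt) (n : ℕ) :
    ∫⁻ φ, ENNReal.ofReal ((2 * evT (mv p w) φ) ^ (2 * n)) ∂P =
      ∫⁻ φ, ENNReal.ofReal ((2 * evT w φ) ^ (2 * n)) ∂P := by
  have hm : Measurable (GFF.shift p) := measurable_pi_lambda _ fun x =>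
    (measurable_pi_apply (x + p)).sub (measurable_pi_apply p)
  have mp : Measurable fun φ : Pt → ℤ => ENNReal.ofReal ((2 * evT w φ) ^ (2 * n)) :=
    (((measurable_evT w).const_mul 2).pow_const _).ennreal_ofReal
  conv_rhs => rw [← hP p]
  rw [lintegral_map mp hm]
  refine lintegral_congr fun φ => ?_
  have e : evT w (GFF.shift p φ) = evT (mv p w) φ := by
    rw [evT_mv]
    have h1 : evT w (GFF.shift p φ) = evT w (trT p φ) - massT w * ((φ p : ℤ) : ℝ) := by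
      unfold evT massT Finsupp.sum
      rw [Finset.sum_mul, ← Finset.sum_sub_distrib]
      refine Finset.sum_congr rfl fun v _ => ?_
      unfold GFF.shift trT
      push_cast
      ring
    rw [h1, hw, zero_mul, sub_zero]
  rw [e]

/-- Moments of neutral smooth weights, uniformly in the position. -/
theorem neutral_mv {P : Measure (Pt → ℤ)} {κ : ℝ} (hP : Plane P) (hS : SpecOut P κ) {R : ℝ}
    (hR : 1 ≤ R) (n : ℕ) : ∃ C : ℝ, 0 ≤ C ∧ ∀ f : ℝ × ℝ → ℝ, Smo f → ∫ z, f z = 0 →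
      (∀ z, f z ≠ 0 → |z.1| ≤ R ∧ |z.2| ≤ R) → ∀ ε : ℝ, 0 < ε → ∀ᶠ δ : ℝ in 𝓝[>] 0, ∀ p : Pt,
        ∫⁻ φ, ENNReal.ofReal ((2 * evT (mv p (WT δ f)) φ) ^ (2 * n)) ∂P ≤
          ENNReal.ofReal (C * ((∫ z, f z ^ 2) + ε) ^ n) := by
  have := hP.prob
  obtain ⟨C, hC, h⟩ := MN.neutral hP hS hR n
  refine ⟨4 ^ n * C, by positivity, fun f hf h0 hs ε hε => ?_⟩
  have h6 : ∀ᶠ δ : ℝ in 𝓝[>] 0, 0 < δ := by
    filter_upwards [self_mem_nhdsWithin] with x hx
    exact hx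
  filter_upwards [h f ⟨hf.1, hf.2, h0⟩ hs ε hε, h6] with δ h1 hδ p
  rw [lintegral_mv hP.shift (by rw [mass_WT hf hδ, h0]) p n]
  have hl : ∀ φ : Pt → ℤ, PL.lin (WT δ f).support (WT δ f) φ = evT (WT δ f) φ := fun φ => rfl
  have hw' : ∑ v ∈ (WT δ f).support, WT δ f v = 0 := by
    have := mass_WT hf hδ
    rw [h0] at this
    exact this
  obtain ⟨M, hM⟩ := PL.lin_bdd hP.lip hw'
  simp only [hl] at hM
  have hXi : Integrable (fun φ => (2 * evT (WT δ f) φ) ^ (2 * n)) P := by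
    refine Integrable.mono' (integrable_const ((2 * M) ^ (2 * n)))
      (((measurable_evT _).const_mul 2).pow_const _).aestronglyMeasurable ?_
    filter_upwards [hM] with φ hφ
    rw [norm_pow, Real.norm_eq_abs, abs_mul, abs_two]
    exact pow_le_pow_left₀ (by positivity) (by linarith) _
  rw [← ofReal_integral_eq_lintegral_ofReal hXi
    (Filter.Eventually.of_forall fun φ => Even.pow_nonneg (even_two_mul n) _)]
  refine ENNReal.ofReal_le_ofReal ?_
  have e : ∀ φ : Pt → ℤ, (2 * evT (WT δ f) φ) ^ (2 * n) = 4 ^ n * smear φ δ f ^ (2 * n) := by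
    intro φ
    rw [mul_pow, evT_WT hf hδ, pow_mul (2 : ℝ) 2 n]
    norm_num
  simp only [e]
  rw [integral_const_mul, mul_assoc]
  exact mul_le_mul_of_nonneg_left h1 (by positivity)

lemma pow_add_two (x y : ℝ) (k : ℕ) :
    (x + y) ^ (2 * k) ≤ 2 ^ (2 * k) * (x ^ (2 * k) + y ^ (2 * k)) := by
  have h1 : |x + y| ≤ 2 * max |x| |y| := by
    have := abs_add_le x y
    have h2 := le_max_left |x| |y|
    have h3 := le_max_right |x| |y|
    linarith
  have h4 : (x + y) ^ (2 * k) = |x + y| ^ (2 * k) := ((even_two_mul k).pow_abs _).symm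
  have h5 : max |x| |y| ^ (2 * k) ≤ x ^ (2 * k) + y ^ (2 * k) := by
    rcases max_choice |x| |y| with h | h
    · rw [h, (even_two_mul k).pow_abs]
      have := Even.pow_nonneg (even_two_mul k) y
      linarith
    · rw [h, (even_two_mul k).pow_abs]
      have := Even.pow_nonneg (even_two_mul k) x
      linarith
  rw [h4]
  calc |x + y| ^ (2 * k) ≤ (2 * max |x| |y|) ^ (2 * k) := pow_le_pow_left₀ (abs_nonneg _) h1 _
    _ = 2 ^ (2 * k) * max |x| |y| ^ (2 * k) := mul_pow _ _ _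
    _ ≤ _ := mul_le_mul_of_nonneg_left h5 (by positivity)

/-- The estimate for fixed weights: `a` smooth inside, `b` outside. -/
theorem core {P : Measure (Pt → ℤ)} (hmu : Gb (muT P)) {p : Pt} {s : ℤ} (hs : 1 ≤ s)
    {w a b : Pt →₀ ℝ} {m : ℝ} (ha : ∀ v ∈ a.support, v ∈ bx p s)
    (hb : ∀ v ∈ b.support, v ∉ bx p (2 * s)) (hwa : massT (w - m • a) = 0)
    (hab : massT (a - b) = 0) (k : ℕ) {b1 b2 : ℝ} (hb1 : 0 ≤ b1) (hb2 : 0 ≤ b2)
    (h1 : ∫⁻ φ, ENNReal.ofReal ((2 * evT (w - m • a) φ) ^ (2 * k)) ∂P ≤ ENNReal.ofReal b1)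
    (h2 : ∫⁻ φ, ENNReal.ofReal ((2 * evT (a - b) φ) ^ (2 * k)) ∂P ≤ ENNReal.ofReal b2) :
    ∫⁻ h in ZE p s, ENNReal.ofReal (evT w h ^ (2 * k)) ∂(muT P) ≤
      ENNReal.ofReal (2 ^ (2 * k) * (3 * b1 + m ^ (2 * k) * (3 * b2))) := by
  have hm0 : 0 ≤ m ^ (2 * k) := Even.pow_nonneg (even_two_mul k) _
  have h3 : (3 : ENNReal) = ENNReal.ofReal 3 := by
    rw [ENNReal.ofReal_ofNat]
  have q1 : ∫⁻ h in ZE p s, ENNReal.ofReal (evT (w - m • a) h ^ (2 * k)) ∂(muT P) ≤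
      ENNReal.ofReal (3 * b1) := by
    refine (annT_le hs hwa k).trans ?_
    rw [ENNReal.ofReal_mul (by norm_num), ← h3]
    gcongr
  have q2 : ∫⁻ h in ZE p s, ENNReal.ofReal (evT a h ^ (2 * k)) ∂(muT P) ≤
      ENNReal.ofReal (3 * b2) := by
    have hb' : ∀ v ∈ (-b).support, v ∉ bx p (2 * s) := by
      intro v hv
      rw [Finsupp.support_neg] at hv
      exact hb v hv
    have e : a + -b = a - b := (sub_eq_add_neg _ _).symm
    refine (momT hmu hs ha hb' (by rw [e]; exact hab) k).1.trans ?_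
    rw [e, ENNReal.ofReal_mul (by norm_num), ← h3]
    gcongr
  have e3 : ∀ h : Hg, evT w h = evT (w - m • a) h + m * evT a h := by
    intro h
    rw [evT_sub_bd911, evT_smul]
    ring
  have mA : Measurable fun h : Hg => ENNReal.ofReal (evT (w - m • a) h ^ (2 * k)) :=
    ((measurable_evT _).pow_const _).ennreal_ofReal
  calc ∫⁻ h in ZE p s, ENNReal.ofReal (evT w h ^ (2 * k)) ∂(muT P)
      ≤ ∫⁻ h in ZE p s, ENNReal.ofReal (2 ^ (2 * k)) *
        (ENNReal.ofReal (evT (w - m • a) h ^ (2 * k)) +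
          ENNReal.ofReal (m ^ (2 * k)) * ENNReal.ofReal (evT a h ^ (2 * k))) ∂(muT P) := by
        refine lintegral_mono fun h => ?_
        rw [← ENNReal.ofReal_mul hm0, ← ENNReal.ofReal_add
          (Even.pow_nonneg (even_two_mul k) _)
          (mul_nonneg hm0 (Even.pow_nonneg (even_two_mul k) _)),
          ← ENNReal.ofReal_mul (by positivity)]
        refine ENNReal.ofReal_le_ofReal ?_
        rw [e3 h, ← mul_pow]
        exact pow_add_two _ _ k
    _ = ENNReal.ofReal (2 ^ (2 * k)) *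
        (∫⁻ h in ZE p s, ENNReal.ofReal (evT (w - m • a) h ^ (2 * k)) ∂(muT P) +
          ENNReal.ofReal (m ^ (2 * k)) *
            ∫⁻ h in ZE p s, ENNReal.ofReal (evT a h ^ (2 * k)) ∂(muT P)) := by
        rw [lintegral_const_mul' _ _ ENNReal.ofReal_ne_top, lintegral_add_left mA,
          lintegral_const_mul' _ _ ENNReal.ofReal_ne_top]
    _ ≤ ENNReal.ofReal (2 ^ (2 * k)) *
        (ENNReal.ofReal (3 * b1) + ENNReal.ofReal (m ^ (2 * k)) * ENNReal.ofReal (3 * b2)) := by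
        gcongr
    _ = ENNReal.ofReal (2 ^ (2 * k) * (3 * b1 + m ^ (2 * k) * (3 * b2))) := by
        rw [← ENNReal.ofReal_mul hm0, ← ENNReal.ofReal_add (by positivity) (by positivity),
          ← ENNReal.ofReal_mul (by positivity)]

/-- From the lower integral to the functional `II`. -/
lemma II_le {P : Measure (Pt → ℤ)} {p : Pt} {s : ℤ} (hs : 1 ≤ s) {A : Om → ℝ}
    (hA : ∀ ω, 0 ≤ A ω) {B : ℝ} (hB : 0 ≤ B)
    (h : ∫⁻ x in ZE p s, ENNReal.ofReal (A (vm x)) ∂(muT P) ≤ ENNReal.ofReal B) :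
    II P (ind (Zr p s)) A ≤ B := by
  classical
  have hZ := meas_ZE p hs
  unfold II
  by_cases hm : AEStronglyMeasurable (fun h : Hg => ind (Zr p s) (bl h) * A (vm h)) (muT P)
  · rw [integral_eq_lintegral_of_nonneg_ae (Eventually.of_forall fun x => ?_) hm]
    · refine ENNReal.toReal_le_of_le_ofReal hB (le_trans (le_of_eq ?_) h)
      rw [← lintegral_indicator hZ]
      refine lintegral_congr fun x => ?_
      by_cases hx : x ∈ ZE p s
      · rw [Set.indicator_of_mem hx]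
        have : ind (Zr p s) (bl x) = 1 := by unfold ind; exact if_pos hx
        rw [this, one_mul]
      · rw [Set.indicator_of_notMem hx]
        have : ind (Zr p s) (bl x) = 0 := by unfold ind; exact if_neg hx
        rw [this, zero_mul, ENNReal.ofReal_zero]
    · refine mul_nonneg ?_ (hA _)
      unfold ind
      split_ifs <;> norm_num
  · rw [integral_non_aestronglyMeasurable hm]
    exact hB

end Vale.Agent.P153.F.X
end

section

/-!
# P153-F, block X: the moments near a circuit at level `0`, uniformly in the scale (`S_mom`)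
-/

namespace Vale.Agent.P153.F.X

open Filter Topology Set MeasureTheory
open Vale.Agent.P153
open Vale.Agent.P153.F.Top (Om Cone Pol Alg ze cone_ze_nonneg s_mono)
open Vale.Agent.P153.GFF (smear box pos ker Test Plane SpecOut ker_eq_zero ker_nonneg integral_ker
  integrable_ker g3wt_int)

/-! ### Linear functionals -/

/-- `∑ u(v) ω(v)`. -/
noncomputable def LU (u : Pt →₀ ℝ) (ω : Om) : ℝ := u.sum fun v a => a * ω v

lemma LU_add (u d : Pt →₀ ℝ) (ω : Om) : LU (u + d) ω = LU u ω + LU d ω := by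
  unfold LU
  rw [Finsupp.sum_add_index' (fun _ => by simp) (fun _ _ _ => by ring)]

lemma LU_vm (u : Pt →₀ ℝ) (h : Hg) : LU u (vm h) = evT u h := rfl

lemma pol_LU_mul {Q : ℝ → Prop} {u : Pt →₀ ℝ} (hu : ∀ v, Q (u v)) {g : Om → ℝ}
    (hg : Pol Q g) : Pol Q (fun ω => LU u ω * g ω) := by
  refine (Pol.sum u.support (fun v ω => u v * (ω v * g ω))
    fun v _ => (hg.cons v).smul _ (hu v)).of_eq fun ω => ?_
  unfold LU Finsupp.sum
  rw [Finset.sum_mul]
  exact Finset.sum_congr rfl fun v _ => by ring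

lemma pol_LU_pow {Q : ℝ → Prop} {u : Pt →₀ ℝ} (hu : ∀ v, Q (u v)) (n : ℕ) :
    Pol Q (fun ω => LU u ω ^ n) := by
  induction n with
  | zero => exact Pol.one.of_eq fun ω => by simp
  | succ n ih => exact (pol_LU_mul hu ih).of_eq fun ω => by ring

lemma cone_diff {u d : Pt →₀ ℝ} (hu : ∀ v, 0 ≤ u v) (hd : ∀ v, 0 ≤ d v) (n : ℕ) :
    Cone (fun ω => LU (u + d) ω ^ n - LU u ω ^ n) := by
  induction n with
  | zero => exact Pol.zero.of_eq fun ω => by simp
  | succ n ih =>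
    refine ((pol_LU_mul (u := u + d) (fun v => add_nonneg (hu v) (hd v)) ih).add
      (pol_LU_mul hd (pol_LU_pow hu n))).of_eq fun ω => ?_
    rw [LU_add]
    ring

/-- Positivity. -/
lemma II_nonneg {P : Measure (Pt → ℤ)} (hlow : S_low P)
    {Θ : Set Pt → ℝ} (hΘ : Fn Set.univ Θ) {A : Om → ℝ} (hA : Cone A) : 0 ≤ II P Θ A := by
  have hF : (tE (((∅ : Finset Pt) : Set Pt)))ᶜ = Set.univ := by
    ext w
    simp [tE]
  have h1 := hlow ∅ Θ A (by rw [hF]; exact hΘ) hA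
  refine le_trans (mul_nonneg ?_ ?_) h1
  · exact cone_ze_nonneg s_mono ∅ hA
  · unfold II
    refine integral_nonneg fun x => ?_
    simp only [mul_one]
    exact hΘ.nonneg _

/-- Monotonicity in the weights. -/
lemma II_mono {P : Measure (Pt → ℤ)} (hlow : S_low P)
    (hint : S_int P) {Θ : Set Pt → ℝ} (hΘ : Fn Set.univ Θ) {u u' : Pt →₀ ℝ}
    (hu : ∀ v, 0 ≤ u v) (huu : ∀ v, u v ≤ u' v) (n : ℕ) :
    II P Θ (fun ω => LU u ω ^ n) ≤ II P Θ (fun ω => LU u' ω ^ n) := by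
  have e : u' = u + (u' - u) := by abel
  have hd : ∀ v, 0 ≤ (u' - u) v := fun v => by
    rw [Finsupp.sub_apply]; linarith [huu v]
  have h1 := II_nonneg hlow hΘ (cone_diff hu hd n)
  rw [← e] at h1
  have i1 := hint Θ _ hΘ.loc hΘ.pin (pol_LU_pow (Q := fun _ => True) (u := u) (fun _ => trivial) n)
  have i2 := hint Θ _ hΘ.loc hΘ.pin (pol_LU_pow (Q := fun _ => True) (u := u') (fun _ => trivial) n)
  have e2 : II P Θ (fun ω => LU u' ω ^ n - LU u ω ^ n) =
      II P Θ (fun ω => LU u' ω ^ n) - II P Θ (fun ω => LU u ω ^ n) := by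
    unfold II
    rw [← integral_sub i2 i1]
    congr 1
    funext x
    ring
  rw [e2] at h1
  linarith

lemma WT_smul {f : ℝ × ℝ → ℝ} (cf : HasCompactSupport f) {δ : ℝ} (hδ : 0 < δ) (c : ℝ) :
    WT δ (fun x => c * f x) = c • WT δ f := by
  have cf' : HasCompactSupport fun x => c * f x := cf.mul_left
  ext v
  rw [Finsupp.smul_apply, WT_apply cf' hδ, WT_apply cf hδ, smul_eq_mul]
  unfold GFF.wt
  have h1 : ∫ u : ℝ × ℝ, ker u * (c * f (δ • (u + pos v))) =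
      c * ∫ u : ℝ × ℝ, ker u * f (δ • (u + pos v)) := by
    rw [← integral_const_mul]
    congr 1
    funext w
    ring
  rw [h1]
  ring

lemma mv_smul (p : Pt) (c : ℝ) (w : Pt →₀ ℝ) : mv p (c • w) = c • mv p w := by
  ext v
  rw [Finsupp.smul_apply, mv_apply, mv_apply, Finsupp.smul_apply]

/-- The weights where the function is constant. -/
lemma WT_const {f : ℝ × ℝ → ℝ} (cf : HasCompactSupport f) {δ c : ℝ} (hδ : 0 < δ) {v : Pt}
    (h : ∀ u : ℝ × ℝ, |u.1| ≤ 2 → |u.2| ≤ 1 → f (δ • (u + pos v)) = c) :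
    WT δ f v = δ ^ 2 * (c * (√3 / 2)) := by
  rw [WT_apply cf hδ]
  unfold GFF.wt
  congr 1
  rw [← integral_ker, ← integral_const_mul]
  congr 1
  funext u
  by_cases hk : ker u = 0
  · rw [hk, zero_mul, mul_zero]
  · have h1 : ¬(2 < |u.1| ∨ 1 < |u.2|) := fun h => hk (ker_eq_zero h)
    rw [not_or, not_lt, not_lt] at h1
    rw [h u h1.1 h1.2, mul_comm]

lemma WT_nonneg {f : ℝ × ℝ → ℝ} (cf : HasCompactSupport f) {δ : ℝ} (hδ : 0 < δ)
    (h : ∀ z, 0 ≤ f z) (v : Pt) : 0 ≤ WT δ f v := by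
  rw [WT_apply cf hδ]
  unfold GFF.wt
  exact mul_nonneg (sq_nonneg _) (integral_nonneg fun u => mul_nonneg (ker_nonneg _) (h _))

lemma sq3 : (1 : ℝ) ≤ √3 ∧ √3 ≤ 2 := by
  constructor
  · rw [Real.one_le_sqrt]
    norm_num
  · rw [Real.sqrt_le_left (by norm_num)]
    norm_num

/-- Inner weights are in the box. -/
lemma WT_in {f : ℝ × ℝ → ℝ} (cf : HasCompactSupport f) {s : ℤ} (hs : 20 ≤ s)
    (hf : ∀ x, f x ≠ 0 → |x.1 - 0| ≤ 1 / 4 ∧ |x.2 - 0| ≤ 1 / 4) {v : Pt}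
    (hv : WT (1 / (s : ℝ)) f v ≠ 0) : v ∈ bx 0 s := by
  have hsR : (20 : ℝ) ≤ s := by exact_mod_cast hs
  have hs0 : (0 : ℝ) < s := by linarith
  obtain ⟨u, h1, h2, h3⟩ := WT_ne cf (by positivity) hv
  obtain ⟨h4, h5⟩ := hf _ h3
  simp only [Prod.smul_fst, Prod.smul_snd, Prod.fst_add, Prod.snd_add, pos, smul_eq_mul,
    sub_zero] at h4 h5
  have h6 : |(v.2 : ℝ) * (√3 / 2)| ≤ s / 4 + 1 := by
    have e : |(1 / (s : ℝ)) * (u.2 + v.2 * (√3 / 2))| * s = |u.2 + v.2 * (√3 / 2)| := by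
      rw [abs_mul, abs_of_pos (by positivity : (0 : ℝ) < 1 / s)]
      field_simp
    have h7 : |u.2 + v.2 * (√3 / 2)| ≤ s / 4 := by
      rw [← e]
      nlinarith
    have h8 := abs_sub (u.2 + v.2 * (√3 / 2)) u.2
    rw [add_sub_cancel_left] at h8
    linarith
  have h7 : |(v.2 : ℝ)| ≤ s / 2 + 2 := by
    rw [abs_mul, abs_of_pos (by positivity : (0 : ℝ) < √3 / 2)] at h6
    nlinarith [sq3.1, abs_nonneg (v.2 : ℝ)]
  have h8 : |(v.1 : ℝ) + v.2 / 2| ≤ s / 4 + 2 := by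
    have e : |(1 / (s : ℝ)) * (u.1 + (v.1 + v.2 / 2))| * s = |u.1 + (v.1 + v.2 / 2)| := by
      rw [abs_mul, abs_of_pos (by positivity : (0 : ℝ) < 1 / s)]
      field_simp
    have h9 : |u.1 + ((v.1 : ℝ) + v.2 / 2)| ≤ s / 4 := by
      rw [← e]
      nlinarith
    have h10 := abs_sub (u.1 + ((v.1 : ℝ) + v.2 / 2)) u.1
    rw [add_sub_cancel_left] at h10
    linarith
  have h9 : |(v.1 : ℝ)| ≤ s := by
    have h10 := abs_sub ((v.1 : ℝ) + v.2 / 2) (v.2 / 2)
    rw [add_sub_cancel_right, abs_div, abs_two] at h10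
    linarith
  have h10 : |(v.2 : ℝ)| ≤ s := by linarith
  have h11 : |v.1| ≤ s := by exact_mod_cast h9
  have h12 : |v.2| ≤ s := by exact_mod_cast h10
  exact ⟨by simpa using h11, by simpa using h12⟩

/-- Outer weights are outside of the double box. -/
lemma WT_out {f : ℝ × ℝ → ℝ} (cf : HasCompactSupport f) {s : ℤ} (hs : 20 ≤ s)
    (hf : ∀ x, f x ≠ 0 → |x.1 - 4| ≤ 1 / 4 ∧ |x.2 - 0| ≤ 1 / 4) {v : Pt}
    (hv : WT (1 / (s : ℝ)) f v ≠ 0) : v ∉ bx 0 (2 * s) := by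
  have hsR : (20 : ℝ) ≤ s := by exact_mod_cast hs
  have hs0 : (0 : ℝ) < s := by linarith
  obtain ⟨u, h1, h2, h3⟩ := WT_ne cf (by positivity) hv
  obtain ⟨h4, h5⟩ := hf _ h3
  simp only [Prod.smul_fst, Prod.smul_snd, Prod.fst_add, Prod.snd_add, pos, smul_eq_mul,
    sub_zero] at h4 h5
  have h6 : |(v.2 : ℝ) * (√3 / 2)| ≤ s / 4 + 1 := by
    have e : |(1 / (s : ℝ)) * (u.2 + v.2 * (√3 / 2))| * s = |u.2 + v.2 * (√3 / 2)| := by
      rw [abs_mul, abs_of_pos (by positivity : (0 : ℝ) < 1 / s)]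
      field_simp
    have h7 : |u.2 + v.2 * (√3 / 2)| ≤ s / 4 := by
      rw [← e]
      nlinarith
    have h8 := abs_sub (u.2 + v.2 * (√3 / 2)) u.2
    rw [add_sub_cancel_left] at h8
    linarith
  have h7 : |(v.2 : ℝ)| ≤ s / 2 + 2 := by
    rw [abs_mul, abs_of_pos (by positivity : (0 : ℝ) < √3 / 2)] at h6
    nlinarith [sq3.1, abs_nonneg (v.2 : ℝ)]
  have h8 : 4 * (s : ℝ) - s / 4 - 2 ≤ (v.1 : ℝ) + v.2 / 2 := by
    have h9 := (abs_le.1 h4).1
    have h10 : (4 - 1 / 4 : ℝ) ≤ (1 / (s : ℝ)) * (u.1 + (v.1 + v.2 / 2)) := by linarith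
    have h11 : (4 - 1 / 4 : ℝ) * s ≤ u.1 + (v.1 + v.2 / 2) := by
      have := mul_le_mul_of_nonneg_right h10 hs0.le
      have e : (1 / (s : ℝ)) * (u.1 + (v.1 + v.2 / 2)) * s = u.1 + (v.1 + v.2 / 2) := by
        field_simp
      rw [e] at this
      exact this
    have h12 := (abs_le.1 h1).2
    linarith
  intro hmem
  have h9 : |v.1 - 0| ≤ 2 * s := hmem.1
  rw [sub_zero] at h9
  have h10 : ((v.1 : ℤ) : ℝ) ≤ 2 * s := by
    have := (abs_le.1 h9).2
    exact_mod_cast this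
  have h11 := (abs_le.1 h7).2
  linarith

/-- **MOM**, the statement of `X/Stmt.lean`. -/
theorem s_mom {P : Measure (Pt → ℤ)} {κ : ℝ} (hP : Plane P) (hS : SpecOut P κ)
    (hlow : S_low P) (hint : S_int P) : S_mom P := by
  intro K k hK
  have := hP.prob
  -- the bumps
  obtain ⟨β, hβ⟩ : ∃ β : ContDiffBump (0 : ℝ × ℝ), β.rIn = 2 * K + 2 ∧ β.rOut = 2 * K + 3 :=
    ⟨⟨2 * K + 2, 2 * K + 3, by linarith, by linarith⟩, rfl, rfl⟩
  obtain ⟨i, hi, hi1, his⟩ := exists_bump (0 : ℝ × ℝ) (ρ := 1 / 4) (by norm_num)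
  obtain ⟨o, ho, ho1, hos⟩ := exists_bump ((4, 0) : ℝ × ℝ) (ρ := 1 / 4) (by norm_num)
  set φ : ℝ × ℝ → ℝ := fun x => 2 * K * β x with hφ
  have hφS : Smo φ := ⟨contDiff_const.mul β.contDiff, β.hasCompactSupport.mul_left⟩
  set I : ℝ := ∫ x, φ x with hI
  have hf1 : Smo fun x => φ x - I * i x := hφS.sub (hi.mul I)
  have hf2 : Smo fun x => i x - o x := hi.sub ho
  have z1 : ∫ x, (φ x - I * i x) = 0 := by
    have hIi : ∫ x, I * i x = I := by rw [integral_const_mul, hi1, mul_one]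
    rw [integral_sub hφS.int (hi.mul I).int, hIi, hI, sub_self]
  have z2 : ∫ x, (i x - o x) = 0 := by
    rw [integral_sub hi.int ho.int, hi1, ho1, sub_self]
  set R : ℝ := 2 * K + 10 with hR
  have iR : ∀ x, i x ≠ 0 → |x.1| ≤ 1 ∧ |x.2| ≤ 1 := by
    intro x hx
    obtain ⟨h1, h2⟩ := his x hx
    simp only [Prod.fst_zero, Prod.snd_zero, sub_zero] at h1 h2
    constructor <;> linarith
  have oR : ∀ x, o x ≠ 0 → |x.1| ≤ 5 ∧ |x.2| ≤ 1 := by
    intro x hx
    obtain ⟨h1, h2⟩ := hos x hx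
    simp only [sub_zero] at h1 h2
    have h3 := abs_sub_abs_le_abs_sub x.1 4
    rw [abs_of_pos (by norm_num : (0 : ℝ) < 4)] at h3
    constructor <;> linarith
  have s1 : ∀ x, φ x - I * i x ≠ 0 → |x.1| ≤ R ∧ |x.2| ≤ R := by
    intro x hx
    by_cases h1 : φ x = 0
    · have h2 : i x ≠ 0 := by
        intro h
        apply hx
        rw [h1, h, mul_zero, sub_zero]
      obtain ⟨h3, h4⟩ := iR x h2
      constructor <;> linarith
    · have h2 : β x ≠ 0 := right_ne_zero_of_mul h1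
      have h3 : x ∈ Function.support β := h2
      rw [β.support_eq, hβ.2, mem_ball_zero_iff, Prod.norm_def, max_lt_iff, Real.norm_eq_abs,
        Real.norm_eq_abs] at h3
      constructor <;> linarith [h3.1, h3.2]
  have s2 : ∀ x, i x - o x ≠ 0 → |x.1| ≤ R ∧ |x.2| ≤ R := by
    intro x hx
    by_cases h1 : i x = 0
    · have h2 : o x ≠ 0 := by
        intro h
        apply hx
        rw [h1, h, sub_zero]
      obtain ⟨h3, h4⟩ := oR x h2
      constructor <;> linarith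
    · obtain ⟨h3, h4⟩ := iR x h1
      constructor <;> linarith
  obtain ⟨C, hC, hneu⟩ := neutral_mv hP hS (R := R) (by linarith) k
  have e1 := hneu _ hf1 z1 s1 1 one_pos
  have e2 := hneu _ hf2 z2 s2 1 one_pos
  set B1 : ℝ := C * ((∫ z, (φ z - I * i z) ^ 2) + 1) ^ k with hB1
  set B2 : ℝ := C * ((∫ z, (i z - o z) ^ 2) + 1) ^ k with hB2
  have hB10 : 0 ≤ B1 := by
    have : 0 ≤ ∫ z, (φ z - I * i z) ^ 2 := integral_nonneg fun z => sq_nonneg _
    positivity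
  have hB20 : 0 ≤ B2 := by
    have : 0 ≤ ∫ z, (i z - o z) ^ 2 := integral_nonneg fun z => sq_nonneg _
    positivity
  have hlim : Tendsto (fun s : ℤ => 1 / (s : ℝ)) atTop (𝓝[>] 0) := by
    rw [tendsto_nhdsWithin_iff]
    constructor
    · exact tendsto_const_nhds.div_atTop tendsto_intCast_atTop_atTop
    · filter_upwards [eventually_gt_atTop 0] with s hs
      have : (0 : ℝ) < s := by exact_mod_cast hs
      exact Set.mem_Ioi.2 (by positivity)
  obtain ⟨s₀, hs₀⟩ := eventually_atTop.1 ((hlim.eventually e1).and (hlim.eventually e2))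
  have hI2 : 0 ≤ I ^ (2 * k) := Even.pow_nonneg (even_two_mul k) _
  refine ⟨2 ^ (2 * k) * (3 * B1 + I ^ (2 * k) * (3 * B2)), max s₀ 20,
    le_trans (by norm_num) (le_max_right _ _), fun s hs p u hu1 hu2 => ?_⟩
  obtain ⟨a1, a2⟩ := hs₀ s ((le_max_left _ _).trans hs)
  have hs20 : 20 ≤ s := (le_max_right _ _).trans hs
  have hs1 : 1 ≤ s := by omega
  have hsR : (20 : ℝ) ≤ s := by exact_mod_cast hs20
  have hδ0 : (0 : ℝ) < 1 / s := by positivity
  have hΘ : Fn Set.univ (ind (Zr p s)) := by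
    have h1 := (s_loc p s hs1).2
    exact ⟨h1.nonneg, by
      obtain ⟨Λ, h2, h3⟩ := h1.loc
      exact ⟨Λ, fun w _ => Set.mem_univ _, h3⟩, h1.pin⟩
  have hβ0 : ∀ x, 0 ≤ φ x := fun x => by
    rw [hφ]
    have := β.nonneg (x := x)
    positivity
  have hdom : ∀ v, u v ≤ mv p (WT (1 / (s : ℝ)) φ) v := by
    intro v
    rw [mv_apply]
    by_cases hv : u v = 0
    · rw [hv]
      exact WT_nonneg hφS.2 hδ0 hβ0 _
    · obtain ⟨k1, k2⟩ := hu2 v hv
      rw [WT_const hφS.2 hδ0 (c := 2 * K) (fun w hw1 hw2 => ?_)]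
      · refine (hu1 v).2.trans ?_
        have e : (1 / (s : ℝ)) ^ 2 * (2 * K * (√3 / 2)) = √3 * (K / (s : ℝ) ^ 2) := by
          field_simp
        rw [e]
        have : 0 ≤ K / (s : ℝ) ^ 2 := by positivity
        nlinarith [sq3.1]
      · have h1 : β ((1 / (s : ℝ)) • (w + pos (v - p))) = 1 := by
          apply β.one_of_mem_closedBall
          rw [mem_closedBall_zero_iff, hβ.1, norm_smul, Real.norm_eq_abs, abs_of_pos hδ0,
            one_div, inv_mul_le_iff₀ (by linarith)]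
          refine (norm_add_le _ _).trans ?_
          have n1 : ‖w‖ ≤ 2 := by
            rw [Prod.norm_def, max_le_iff, Real.norm_eq_abs, Real.norm_eq_abs]
            exact ⟨hw1, by linarith⟩
          have n2 : ‖pos (v - p)‖ ≤ 3 / 2 * (K * s) := by
            rw [Prod.norm_def, max_le_iff, Real.norm_eq_abs, Real.norm_eq_abs]
            unfold pos
            simp only [Prod.fst_sub, Prod.snd_sub]
            constructor
            · refine (abs_add_le _ _).trans ?_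
              rw [abs_div, abs_two]
              linarith
            · rw [abs_mul, abs_of_pos (by positivity : (0 : ℝ) < √3 / 2)]
              nlinarith [sq3.2, abs_nonneg ((v.2 - p.2 : ℤ) : ℝ)]
          nlinarith
        rw [hφ]
        simp only
        rw [h1, mul_one]
  refine (II_mono hlow hint hΘ (fun v => (hu1 v).1) hdom (2 * k)).trans ?_
  refine II_le hs1 (fun ω => Even.pow_nonneg (even_two_mul k) _) (by positivity) ?_
  simp only [LU_vm]
  have q1 : mv p (WT (1 / (s : ℝ)) fun x => φ x - I * i x) =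
      mv p (WT (1 / (s : ℝ)) φ) - I • mv p (WT (1 / (s : ℝ)) i) := by
    rw [WT_sub hφS (hi.mul I) hδ0, mv_sub, WT_smul hi.2 hδ0, mv_smul]
  have q2 : mv p (WT (1 / (s : ℝ)) fun x => i x - o x) =
      mv p (WT (1 / (s : ℝ)) i) - mv p (WT (1 / (s : ℝ)) o) := by
    rw [WT_sub hi ho hδ0, mv_sub]
  refine core (Vale.Agent.P153.F.gb_of_plane hP) hs1 (a := mv p (WT (1 / (s : ℝ)) i))
    (b := mv p (WT (1 / (s : ℝ)) o)) (m := I) ?_ ?_ ?_ ?_ k hB10 hB20 ?_ ?_
  · intro v hv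
    rw [Finsupp.mem_support_iff, mv_apply] at hv
    have h1 := WT_in hi.2 hs20 his hv
    have h2 : |(v - p).1 - 0| ≤ s := h1.1
    have h3 : |(v - p).2 - 0| ≤ s := h1.2
    rw [sub_zero] at h2 h3
    exact ⟨h2, h3⟩
  · intro v hv hmem
    rw [Finsupp.mem_support_iff, mv_apply] at hv
    refine WT_out ho.2 hs20 hos hv ?_
    have h2 : |v.1 - p.1| ≤ 2 * s := hmem.1
    have h3 : |v.2 - p.2| ≤ 2 * s := hmem.2
    refine ⟨?_, ?_⟩
    · simpa using h2
    · simpa using h3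
  · rw [← q1, massT_mv, mass_WT hf1 hδ0, z1]
  · rw [← q2, massT_mv, mass_WT hf2 hδ0, z2]
  · rw [← q1]
    exact a1 p
  · rw [← q2]
    exact a2 p

end Vale.Agent.P153.F.X
end
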