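import Mathlib
import Vale.Agent.P153.Bd5.B15
import Vale.Agent.P153.Bd5.B17
import Vale.Agent.P153.Bd5.B18
import Vale.Agent.P153.Bd5.B9
import Vale.Agent.P153.Bd5.B21
import Vale.Agent.P153.Bd5.B19
import Vale.Agent.P153.Bd5.B11
import Vale.Agent.P153.Bd5.B12

set_option linter.all false

section

/-!
# B5, part 8: the Stieltjes property
-/

open MeasureTheory Filter Topology Set Metric
open scoped ENNReal BigOperators

namespace Vale.Agent.P153.Iso

theorem exists_lower (X : Finset ℝ) (hX : ∀ x ∈ X, 0 < x) :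
    ∃ c, 0 < c ∧ c ≤ 1 ∧ ∀ x ∈ X, c ≤ √x := by
  classical
  induction X using Finset.induction_on with
  | empty => exact ⟨1, one_pos, le_rfl, by simp only [Finset.notMem_empty, Real.one_le_sqrt, IsEmpty.forall_iff, implies_true]⟩
  | insert a X ha ih =>
    obtain ⟨c, hc, hc1, h⟩ := ih (fun x hx => hX x (Finset.mem_insert_of_mem hx))
    have ha0 : 0 < √a := Real.sqrt_pos.2 (hX a (Finset.mem_insert_self a X))
    refine ⟨min c (√a), lt_min hc ha0, (min_le_left _ _).trans hc1, fun x hx => ?_⟩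
    rcases Finset.mem_insert.1 hx with rfl | hx'
    · exact min_le_right _ _
    · exact (min_le_left _ _).trans (h x hx')

theorem exists_upper (X : Finset ℝ) : ∃ M, 1 ≤ M ∧ ∀ x ∈ X, 1 + x ≤ M := by
  classical
  induction X using Finset.induction_on with
  | empty => exact ⟨1, le_rfl, by simp only [Finset.notMem_empty, add_le_iff_nonpos_right, IsEmpty.forall_iff, implies_true]⟩
  | insert a X ha ih =>
    obtain ⟨M, hM, h⟩ := ih
    refine ⟨max M (1 + a), hM.trans (le_max_left _ _), fun x hx => ?_⟩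
    rcases Finset.mem_insert.1 hx with rfl | hx'
    · exact le_max_right _ _
    · exact (h x hx').trans (le_max_left _ _)

/-- Comparison of the Stieltjes kernels at `Y = X(θ)` and `3 r² x`. -/
theorem kernel_cmp {t r x Y q : ℝ} (ht0 : 0 < t) (ht1 : t < 1) (hr : 0 < r) (hx : 0 < x)
    (hq0 : 0 ≤ q) (hY1 : Y ≤ 3 * (r ^ 2 * x)) (hY2 : 3 * (r ^ 2 * x) * (1 - q) ≤ Y)
    (hY0 : 0 ≤ Y) :
    0 ≤ r ^ 2 * ((1 / t) / ((1 - t) ^ 2 / t + Y)) -
        (1 / (3 * t)) / ((1 - t) ^ 2 / (3 * r ^ 2 * t) + x) ∧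
    r ^ 2 * ((1 / t) / ((1 - t) ^ 2 / t + Y)) -
        (1 / (3 * t)) / ((1 - t) ^ 2 / (3 * r ^ 2 * t) + x) ≤
      q * (r ^ 2 * ((1 / t) / ((1 - t) ^ 2 / t + Y))) := by
  have h1t : 0 < 1 - t := by linarith only [ht1]
  set Z : ℝ := (1 - t) ^ 2 / t with hZ
  have hZ0 : 0 < Z := by positivity
  have hr2 : 0 < r ^ 2 := by positivity
  have e1 : (1 / (3 * t)) / ((1 - t) ^ 2 / (3 * r ^ 2 * t) + x) =
      r ^ 2 * ((1 / t) / (Z + 3 * (r ^ 2 * x))) := by
    rw [hZ]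
    have h1 : 0 < (1 - t) ^ 2 / (3 * r ^ 2 * t) + x := by positivity
    have h2 : 0 < (1 - t) ^ 2 / t + 3 * (r ^ 2 * x) := by positivity
    (clear * - hr ht0 h1t hx; field_simp)
  rw [e1]
  have hA : 0 < Z + Y := by linarith only [hY0, hZ0]
  have hB : 0 < Z + 3 * (r ^ 2 * x) := by positivity
  constructor
  · rw [← mul_sub]
    apply mul_nonneg hr2.le
    rw [sub_nonneg]
    exact div_le_div_of_nonneg_left (by positivity) hA (by linarith only [hY1])
  · have h3 : (1 - q) * ((1 / t) / (Z + Y)) ≤ (1 / t) / (Z + 3 * (r ^ 2 * x)) := by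
      rw [mul_div_assoc', div_le_div_iff₀ hA hB]
      have : (1 - q) * (Z + 3 * (r ^ 2 * x)) ≤ Z + Y := by nlinarith only [hY2, hq0, hZ0]
      calc (1 - q) * (1 / t) * (Z + 3 * (r ^ 2 * x)) = (1 / t) * ((1 - q) * (Z + 3 * (r ^ 2 * x))) := by
            ring
        _ ≤ (1 / t) * (Z + Y) := mul_le_mul_of_nonneg_left this (by positivity)
    have h4 := mul_le_mul_of_nonneg_left h3 hr2.le
    linarith only [h4]

/-- Final estimate. -/
theorem st_alg {C s N M r2 x F P S St e ε : ℝ} (hC : 0 ≤ C) (hx : 0 < x)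
    (hr2 : 0 ≤ r2) (hN : N = r2 * (1 + x)) (hNM : N ≤ r2 * M)
    (h1 : |F - N * P| ≤ 4000 * C * (s + N))
    (hP0 : 0 ≤ P) (hF : F ≤ 4 * C) (hsN : s + N ≤ 2)
    (h2 : |r2 * P - St| ≤ e) (he : e ≤ 1)
    (h3 : 0 ≤ St - S) (h4 : St - S ≤ (r2 * M) * St)
    (hM : 0 ≤ M)
    (hfin : 4000 * C * (s + r2 * M) + e + r2 * M * (8004 * C + 1) ≤ ε) :
    |F / (1 + x) - S| ≤ ε := by
  have hx1 : 0 < 1 + x := by linarith
  have h5 : |F / (1 + x) - r2 * P| ≤ 4000 * C * (s + N) := by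
    have e1 : F / (1 + x) - r2 * P = (F - N * P) / (1 + x) := by
      rw [hN]; field_simp
    rw [e1, abs_div, abs_of_pos hx1, div_le_iff₀ hx1]
    have h0 : 0 ≤ 4000 * C * (s + N) := (abs_nonneg _).trans h1
    nlinarith only [h1, hx, h0]
  have h6 : r2 * P ≤ N * P := by
    apply mul_le_mul_of_nonneg_right _ hP0
    rw [hN]; nlinarith only [hx, hr2]
  have h7 : 4000 * C * (s + N) ≤ 4000 * C * 2 := mul_le_mul_of_nonneg_left hsN (by (clear * - hC; positivity))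
  have h8 : 4000 * C * (s + N) ≤ 4000 * C * (s + r2 * M) :=
    mul_le_mul_of_nonneg_left (by linarith only [hNM]) (by (clear * - hC; positivity))
  rw [abs_le] at h1 h2 h5 ⊢
  have h9 : St ≤ 8004 * C + 1 := by linarith only [h1, hF, h2, he, h6, h7]
  have h10 : (r2 * M) * St ≤ r2 * M * (8004 * C + 1) :=
    mul_le_mul_of_nonneg_left h9 (by (clear * - hr2 hM; positivity))
  have h11 : 0 ≤ r2 * M * (8004 * C + 1) := by (clear * - hr2 hM hC; positivity)
  constructor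
  · linarith only [h2, h3, h4, hfin, h5, h8, h10]
  · linarith [h5.2, h2.2]

theorem st_row {μ : Measure ℝ} {C r x s M ε e F : ℝ} {n : ℕ} {w t : Fin n → ℝ}
    (hsupp : ∀ᵐ τ ∂μ, 0 ≤ τ ∧ τ < 1)
    (hC : 0 ≤ C) (hx0 : 0 < x) (hr : 0 < r) (hs0 : 0 < s) (hs1 : s ≤ 1 / 128)
    (hMx : 1 + x ≤ M) (hrM : 16 * (r * M) < 1) (g2 : r * √x ≤ r * M) (hε : 0 < ε)
    (he1 : e ≤ 1) (he2 : e ≤ ε / 4) (hs2 : s * (4 * 4000 * (C + 1)) ≤ ε)
    (hr3 : r * (4 * M * (20000 * (C + 1))) ≤ ε)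
    (hw : ∀ i, 0 ≤ w i) (ht : ∀ i, 0 < t i ∧ t i < 1)
    (hap : |(∫ τ, 1 / den τ (√3 * (r * √x)) ∂μ) -
      ∑ i, w i * (1 / den (t i) (√3 * (r * √x)))| ≤ e / r ^ 2)
    (t1 : |F - r ^ 2 * (1 + x) * (∫ τ, 1 / den τ (√3 * (r * √x)) ∂μ)| ≤
      4000 * C * (s + r ^ 2 * (1 + x)))
    (hfb : F ≤ 4 * C) :
    |F / (1 + x) - ∑ i, w i * (1 / (3 * t i)) / ((1 - t i) ^ 2 / (3 * r ^ 2 * t i) + x)| ≤ ε := by
  have hM0 : 0 < M := by linarith only [hx0, hMx]
  have g1 : 0 < r * √x := mul_pos hr (Real.sqrt_pos.2 hx0)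
  have hr1 : r ≤ 1 := by
    have : r * 1 ≤ r * M := mul_le_mul_of_nonneg_left (by linarith only [hx0, hMx]) hr.le
    linarith only [hrM, this]
  have hr21 : r ^ 2 ≤ r := by nlinarith only [hMx, hx0, hr, hrM]
  have hr2M : r ^ 2 * M ≤ r * M := mul_le_mul_of_nonneg_right hr21 hM0.le
  have hNM : r ^ 2 * (1 + x) ≤ r ^ 2 * M := mul_le_mul_of_nonneg_left hMx (by positivity)
  have hq1 : (r * √x) ^ 2 = r ^ 2 * x := by rw [mul_pow, Real.sq_sqrt hx0.le]
  have hrsx : r * √x ≤ 1 / 2 := by linarith only [hrM, g2]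
  have hY1 : 2 - 2 * Real.cos (√3 * (r * √x)) ≤ 3 * (r ^ 2 * x) := by
    have := X_le3 (r * √x)
    rwa [hq1] at this
  have hY2 : 3 * (r ^ 2 * x) * (1 - r ^ 2 * M) ≤ 2 - 2 * Real.cos (√3 * (r * √x)) := by
    have := X_ge3 g1.le hrsx
    rw [hq1] at this
    have h5 : r ^ 2 * x ≤ r ^ 2 * M := mul_le_mul_of_nonneg_left (by linarith only [hMx]) (by positivity)
    have h6 : 0 ≤ 3 * (r ^ 2 * x) := by positivity
    have h7 : 3 * (r ^ 2 * x) * (r ^ 2 * x) ≤ 3 * (r ^ 2 * x) * (r ^ 2 * M) :=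
      mul_le_mul_of_nonneg_left h5 h6
    linarith only [this, h7]
  have hY0 : 0 ≤ 2 - 2 * Real.cos (√3 * (r * √x)) := by
    linarith only [Real.cos_le_one (√3 * (r * √x))]
  have hker := fun i => kernel_cmp (ht i).1 (ht i).2 hr hx0 (q := r ^ 2 * M) (by positivity)
    hY1 hY2 hY0
  have hden : ∀ i, 1 / den (t i) (√3 * (r * √x)) =
      (1 / t i) / ((1 - t i) ^ 2 / t i + (2 - 2 * Real.cos (√3 * (r * √x)))) :=
    fun i => inv_den_eq (ht i).1 (ht i).2
  refine st_alg (s := s) (N := r ^ 2 * (1 + x)) (M := M) (r2 := r ^ 2) (x := x)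
    (P := ∫ τ, 1 / den τ (√3 * (r * √x)) ∂μ)
    (St := ∑ i, w i * (r ^ 2 * (1 / den (t i) (√3 * (r * √x))))) (e := e)
    hC hx0 (by positivity) rfl hNM t1 (psi_nonneg hsupp) hfb (by linarith only [hs1, hrM, hr2M, hNM]) ?_ he1 ?_ ?_
    hM0.le ?_
  · have e1 : r ^ 2 * (∫ τ, 1 / den τ (√3 * (r * √x)) ∂μ) -
          ∑ i, w i * (r ^ 2 * (1 / den (t i) (√3 * (r * √x)))) =
        r ^ 2 * ((∫ τ, 1 / den τ (√3 * (r * √x)) ∂μ) -
          ∑ i, w i * (1 / den (t i) (√3 * (r * √x)))) := by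
      rw [mul_sub, Finset.mul_sum]
      congr 1
      refine Finset.sum_congr rfl fun i _ => ?_
      ring
    rw [e1, abs_mul, abs_of_pos (by positivity : 0 < r ^ 2)]
    have := mul_le_mul_of_nonneg_left hap (by positivity : 0 ≤ r ^ 2)
    refine this.trans (le_of_eq ?_)
    (clear * - hr; field_simp)
  · rw [← Finset.sum_sub_distrib]
    refine Finset.sum_nonneg fun i _ => ?_
    rw [hden i, mul_div_assoc, ← mul_sub]
    exact mul_nonneg (hw i) (hker i).1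
  · rw [← Finset.sum_sub_distrib, Finset.mul_sum]
    refine Finset.sum_le_sum fun i _ => ?_
    rw [hden i, mul_div_assoc, ← mul_sub]
    have := mul_le_mul_of_nonneg_left (hker i).2 (hw i)
    refine this.trans (le_of_eq ?_)
    ring
  · have f1 : 4000 * C * s ≤ ε / 4 := by
      have : 0 ≤ s := hs0.le
      linarith only [hs0, hs2]
    have f2 : r ^ 2 * M * (12004 * C + 1) ≤ ε / 4 := by
      calc r ^ 2 * M * (12004 * C + 1) ≤ (r * M) * (12004 * C + 1) :=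
            mul_le_mul_of_nonneg_right hr2M (by (clear * - hC; positivity))
        _ ≤ (r * M) * (20000 * (C + 1)) :=
            mul_le_mul_of_nonneg_left (by linarith only [hC]) (by positivity)
        _ ≤ ε / 4 := by linarith only [hr3]
    have f3 : 4000 * C * (s + r ^ 2 * M) + e + r ^ 2 * M * (8004 * C + 1) =
      4000 * C * s + e + r ^ 2 * M * (12004 * C + 1) := by ring
    rw [f3]; linarith only [hs0, hε, he2, hs2, f2]

namespace DensHyp

variable {φ : ℂ → ℝ} {m : ℝ → Measure ℝ} {C ρ : ℝ}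

theorem transfer_all (h : DensHyp φ m C ρ) {r s : ℝ} (X : Finset ℝ) (hX : ∀ x ∈ X, 0 < x)
    (hr : 0 < r) (hs0 : 0 < s) (hs : s ≤ 1 / 128)
    (hb : ∀ x ∈ X, 8 * ‖(⟨r, r * √x⟩ : ℂ)‖ < ρ ∧ 8 * ‖(⟨r, r * √x⟩ : ℂ)‖ ≤ 1) :
    ∀ᵐ x' : ℝ, ∀ x ∈ X, |x' - r| < s * (r * √x) →
      |Fz φ ⟨r, r * √x⟩ - ‖(⟨r, r * √x⟩ : ℂ)‖ ^ 2 * Psi m x' (r * √x)| ≤
        4000 * C * (s + ‖(⟨r, r * √x⟩ : ℂ)‖ ^ 2) := by
  rw [Filter.eventually_all_finset]
  intro x hx
  have hx0 := hX x hx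
  have : 0 < √x := Real.sqrt_pos.2 hx0
  exact h.transfer (z := ⟨r, r * √x⟩) (t := s) (by simp only; positivity) hs0 hs
    (hb x hx).1 (hb x hx).2

theorem st (h : DensHyp φ m C ρ) (X : Finset ℝ) (hX : ∀ x ∈ X, 0 < x) (ε : ℝ) (hε : 0 < ε) :
    ∃ r0, 0 < r0 ∧ ∀ r, 0 < r → r < r0 →
    ∃ (n : ℕ) (nu z : Fin n → ℝ), (∀ i, 0 ≤ nu i) ∧ (∀ i, 0 ≤ z i) ∧
      ∀ x ∈ X, |Fz φ ⟨r, r * √x⟩ / (1 + x) - ∑ i, nu i / (z i + x)| ≤ ε := by
  classical
  have hC := h.C_nonneg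
  have hρ := h.rho_pos
  obtain ⟨c, hc, hc1, hcX⟩ := exists_lower X hX
  obtain ⟨M, hM, hMX⟩ := exists_upper X
  set s : ℝ := min (1 / 128) (ε / (4 * 4000 * (C + 1))) with hs
  have hs0 : 0 < s := lt_min (by norm_num) (by positivity)
  have hs1 : s ≤ 1 / 128 := min_le_left _ _
  have hs2 : s ≤ ε / (4 * 4000 * (C + 1)) := min_le_right _ _
  rw [le_div_iff₀ (by positivity)] at hs2
  set r0 : ℝ := min (min (1 / (16 * M)) (ρ / (16 * M))) (ε / (4 * M * (20000 * (C + 1)))) with hr0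
  have hM0 : 0 < M := by linarith only [hM]
  have hr0p : 0 < r0 := lt_min (lt_min (by (clear * - hM; positivity)) (by positivity)) (by positivity)
  refine ⟨r0, hr0p, fun r hr hrr => ?_⟩
  have hr1 : r < 1 / (16 * M) := lt_of_lt_of_le hrr ((min_le_left _ _).trans (min_le_left _ _))
  have hr2 : r < ρ / (16 * M) := lt_of_lt_of_le hrr ((min_le_left _ _).trans (min_le_right _ _))
  have hr3 : r < ε / (4 * M * (20000 * (C + 1))) := lt_of_lt_of_le hrr (min_le_right _ _)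
  rw [lt_div_iff₀ (by positivity)] at hr1 hr2 hr3
  have hrM : 16 * (r * M) < 1 := by linarith only [hr1]
  have hrMρ : 16 * (r * M) < ρ := by linarith only [hr2]
  have hr16 : 16 * r < 1 := by nlinarith only [hr1, hM]
  have hnorm : ∀ x ∈ X, ‖(⟨r, r * √x⟩ : ℂ)‖ ^ 2 = r ^ 2 * (1 + x) := by
    intro x hx
    rw [norm_mk, mul_pow, Real.sq_sqrt (hX x hx).le]; ring
  have hnormM : ∀ x ∈ X, ‖(⟨r, r * √x⟩ : ℂ)‖ ≤ r * M := by
    intro x hx
    apply le_of_sq_le_sq _ (by (clear * - hr hM; positivity))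
    rw [hnorm x hx, mul_pow]
    apply mul_le_mul_of_nonneg_left _ (by positivity)
    have := hMX x hx
    nlinarith only [hM, this]
  have hb : ∀ x ∈ X, 8 * ‖(⟨r, r * √x⟩ : ℂ)‖ < ρ ∧ 8 * ‖(⟨r, r * √x⟩ : ℂ)‖ ≤ 1 := by
    intro x hx
    have := hnormM x hx
    constructor
    · have h0 : 0 < r * M := by positivity
      linarith only [hρ, hr2, this]
    · linarith only [hr1, this]
  obtain ⟨x', hx1, hx2, h1, h2⟩ := exists_Ioo ((h.transfer_all X hX hr hs0 hs1 hb).and h.row_good)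
    (show r < r + s * (r * c) by
      have : 0 < s * (r * c) := by (clear * - hε hC hr hc; positivity)
      linarith only [this])
  -- the point `x'` lies in `(r, 2 r)`
  have hsc : s * (r * c) ≤ r := by
    have a1 : r * c ≤ r := by nlinarith only [hc1, hr]
    have a2 : 0 < r * c := by (clear * - hr hc; positivity)
    nlinarith only [hr, hs0, a1, hs1]
  have hrρ : 16 * r < ρ := by nlinarith only [hr2, hM, hr]
  obtain ⟨hsupp, hfin⟩ := h2 (by rw [abs_of_pos (by linarith only [hx1, hx2, hsc])]; linarith only [hx1, hx2, hsc, hrρ])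
  have s3 := sqrt3_lt
  have s3p : 0 < √(3:ℝ) := by positivity
  have hpi := Real.pi_gt_d2
  have hsx : ∀ x ∈ X, 0 < r * √x ∧ r * √x ≤ r * M := by
    intro x hx
    have h0 : 0 < √x := Real.sqrt_pos.2 (hX x hx)
    refine ⟨by (clear * - hr h0; positivity), ?_⟩
    have := Complex.abs_im_le_norm (⟨r, r * √x⟩ : ℂ)
    simp only at this
    exact (le_abs_self _).trans (this.trans (hnormM x hx))
  have hT : ∀ θ ∈ X.image (fun x => √3 * (r * √x)), Real.sin θ ≠ 0 := by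
    intro θ hθ
    rw [Finset.mem_image] at hθ
    obtain ⟨x, hx, rfl⟩ := hθ
    obtain ⟨g1, g2⟩ := hsx x hx
    apply ne_of_gt
    apply Real.sin_pos_of_pos_of_lt_pi (by (clear * - g1; positivity))
    nlinarith only [g2, hr1, hpi, s3, g1]
  set e : ℝ := min 1 (ε / 4) with he
  have he0 : 0 < e := lt_min one_pos (by positivity)
  have he1 : e ≤ 1 := min_le_left _ _
  have he2 : e ≤ ε / 4 := min_le_right _ _
  obtain ⟨n, w, t, hw, ht, happ⟩ := riemann hsupp (X.image (fun x => √3 * (r * √x))) hT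
    (ε := e / r ^ 2) (by positivity)
  refine ⟨n, fun i => w i * (1 / (3 * t i)), fun i => (1 - t i) ^ 2 / (3 * r ^ 2 * t i), ?_, ?_, ?_⟩
  · intro i
    have := (ht i).1
    have := hw i
    positivity
  · intro i
    have := (ht i).1
    (clear * - hr this; positivity)
  · intro x hx
    have hx0 := hX x hx
    have hn := hnorm x hx
    have t1 := h1 x hx (by
      rw [abs_of_pos (by linarith only [hx1])]
      have : s * (r * c) ≤ s * (r * √x) :=
        mul_le_mul_of_nonneg_left (mul_le_mul_of_nonneg_left (hcX x hx) hr.le) hs0.le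
      linarith only [hx2, this])
    rw [hn] at t1
    have hz0 : (⟨r, r * √x⟩ : ℂ) ≠ 0 := by
      intro h0
      have := congrArg Complex.re h0
      simp only [Complex.zero_re] at this
      linarith only [hx1, hx2, hsc, this]
    exact st_row hsupp hC hx0 hr hs0 hs1 (hMX x hx) hrM (hsx x hx).2 hε he1 he2 hs2 hr3.le
      hw ht (happ _ (Finset.mem_image_of_mem _ hx)) t1
      (h.Fz_bdd hz0 (by linarith only [hρ, (hb x hx).1]))

end DensHyp

end Vale.Agent.P153.Iso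
end

section

/-!
# B5, part 9: the theorem
-/

open MeasureTheory Filter Topology Set Metric
open scoped ENNReal BigOperators

namespace Vale.Agent.P153.Iso

namespace DensHyp

variable {φ : ℂ → ℝ} {m : ℝ → Measure ℝ} {C ρ : ℝ}

theorem ahyp (h : DensHyp φ m C ρ) : ∃ κ, AHyp (fun x y => Fz φ ⟨x, y⟩) κ (4 * C)
    (min (ρ / 16) (1 / 16)) := by
  have hC := h.C_nonneg
  have hρ := h.rho_pos
  obtain ⟨κ, -, hκ⟩ := h.axis_lim
  set r1 : ℝ := min (ρ / 16) (1 / 16) with hr1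
  have hr1p : 0 < r1 := lt_min (by positivity) (by norm_num)
  have hr1a : r1 ≤ ρ / 16 := min_le_left _ _
  have hr1b : r1 ≤ 1 / 16 := min_le_right _ _
  have hne : ∀ x y : ℝ, 0 < x ^ 2 + y ^ 2 → (⟨x, y⟩ : ℂ) ≠ 0 := by
    intro x y h0 h1
    have := norm_mk x y
    rw [h1] at this
    simp at this
    linarith only [h0, this]
  refine ⟨κ, hr1p, fun x y _ _ => Fz_nonneg _ _, ?_, ⟨?_, ?_⟩, ?_, hκ, ?_⟩
  · intro x y h0 h1
    have := (norm_mk_lt hr1p).2 h1
    exact h.Fz_bdd (hne x y h0) (by linarith only [hr1p, hr1a, this])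
  · intro x y _ _
    have e : (⟨x / 2 - √3 / 2 * y, √3 / 2 * x + y / 2⟩ : ℂ) = om * ⟨x, y⟩ := by
      apply Complex.ext
      · rw [om_mul_re]
      · rw [om_mul_im]
    rw [e]; unfold Fz
    rw [h.U_om, norm_om_mul]
  · intro x y _ _
    have e : (⟨x, -y⟩ : ℂ) = (starRingEnd ℂ) ⟨x, y⟩ := by
      apply Complex.ext <;> simp
    rw [e]; unfold Fz
    rw [h.U_conj, Complex.norm_conj]
  · intro ε hε
    set δ : ℝ := min (1 / 64) (ε / (4000 * (C + 1))) with hδ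
    have hδ0 : 0 < δ := lt_min (by norm_num) (by positivity)
    have hδ1 : δ ≤ 1 / 64 := min_le_left _ _
    have hδ2 : δ ≤ ε / (4000 * (C + 1)) := min_le_right _ _
    rw [le_div_iff₀ (by positivity)] at hδ2
    set r0 : ℝ := min r1 (ε / (4000 * (C + 1))) with hr0
    have hr00 : 0 < r0 := lt_min hr1p (by positivity)
    have hr01 : r0 ≤ r1 := min_le_left _ _
    have hr02 : r0 ≤ ε / (4000 * (C + 1)) := min_le_right _ _
    rw [le_div_iff₀ (by positivity)] at hr02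
    refine ⟨δ, hδ0, r0, hr00, fun x y x' y' h0 h1 h2 => ?_⟩
    set z : ℂ := ⟨x, y⟩ with hz
    set w : ℂ := ⟨x', y'⟩ with hw
    have hz0 := hne x y h0
    have hn : 0 < ‖z‖ := norm_pos_iff.2 hz0
    have hzr : ‖z‖ < r0 := (norm_mk_lt hr00).2 h1
    have hwz : ‖w - z‖ ≤ δ * ‖z‖ := by
      apply le_of_sq_le_sq _ (by positivity)
      have e : w - z = ⟨x' - x, y' - y⟩ := by
        apply Complex.ext <;> simp [hz, hw]
      rw [mul_pow, e, norm_mk, hz, norm_mk]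
      linarith only [h2]
    have hδn : δ * ‖z‖ ≤ 1 / 64 * ‖z‖ := mul_le_mul_of_nonneg_right hδ1 hn.le
    have hw1 : ‖w‖ ≤ 65 / 64 * ‖z‖ := by
      calc ‖w‖ = ‖z + (w - z)‖ := by congr 1; ring
        _ ≤ ‖z‖ + ‖w - z‖ := norm_add_le _ _
        _ ≤ _ := by linarith only [hwz, hδn]
    have hw2 : 63 / 64 * ‖z‖ ≤ ‖w‖ := by
      have : ‖z‖ ≤ ‖w‖ + ‖w - z‖ := by
        calc ‖z‖ = ‖w - (w - z)‖ := by congr 1; ring
          _ ≤ _ := norm_sub_le _ _
      linarith only [hwz, hδn, this]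
    have hwp : 0 < ‖w‖ := lt_of_lt_of_le (by positivity) hw2
    have k1 := h.Fz_le (z := z) (w := w) hz0 (by linarith only [hr1p, hr1a, hr01, hzr]) (by linarith only [hr1b, hr01, hzr]) (by linarith only [hn, hwz, hδn])
    have k2 := h.Fz_le (z := w) (w := z) (norm_pos_iff.1 hwp) (by linarith only [hr1p, hr1a, hr01, hzr, hw1]) (by linarith only [hr1b, hr01, hzr, hw1])
      (by rw [norm_sub_rev]; linarith only [hn, hwz, hδn, hw2])
    have q1 : ‖w - z‖ / ‖z‖ ≤ δ := by rw [div_le_iff₀ hn]; exact hwz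
    have q2 : ‖z - w‖ / ‖w‖ ≤ 2 * δ := by
      rw [norm_sub_rev, div_le_iff₀ hwp]
      have := mul_le_mul_of_nonneg_left hw2 hδ0.le
      have h6 : 0 ≤ δ * ‖z‖ := by positivity
      linarith only [hwz, this, h6]
    have q3 : ‖z‖ ^ 2 ≤ r0 := by
      have : ‖z‖ ^ 2 ≤ ‖z‖ := by nlinarith only [hr1b, hr01, hn, hr00, hzr]
      linarith only [hzr, this]
    have q4 : ‖w‖ ^ 2 ≤ 2 * r0 := by
      have := pow_le_pow_left₀ hwp.le hw1 2
      rw [mul_pow] at this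
      have h5 : 0 ≤ ‖z‖ ^ 2 := by positivity
      linarith only [hn, hzr, q3, this]
    have p1 : 1000 * C * (‖w - z‖ / ‖z‖ + ‖z‖ ^ 2) ≤ 1000 * C * (2 * δ + 2 * r0) :=
      mul_le_mul_of_nonneg_left (by linarith only [hδ0, hn, hzr, q1, q3]) (by (clear * - hC; positivity))
    have p2 : 1000 * C * (‖z - w‖ / ‖w‖ + ‖w‖ ^ 2) ≤ 1000 * C * (2 * δ + 2 * r0) :=
      mul_le_mul_of_nonneg_left (by linarith only [q2, q4]) (by (clear * - hC; positivity))
    have p3 : 1000 * C * (2 * δ + 2 * r0) ≤ ε := by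
      have : 0 ≤ C * δ := by (clear * - hC hε; positivity)
      have : 0 ≤ C * r0 := by (clear * - hC hρ hε; positivity)
      linarith only [hδ0, hδ2, hr02, hn, hzr]
    rw [abs_le]
    constructor <;> linarith only [hδ0, hδ2, hr02, hn, hzr, k1, p1, k2, p2]
  · intro X hX ε hε
    exact h.st X hX ε hε

/-- Isotropy of the upper density. -/
theorem iso_U (h : DensHyp φ m C ρ) : ∃ κ, 0 ≤ κ ∧ ∀ ε, 0 < ε → ∃ r0, 0 < r0 ∧ ∀ z : ℂ, z ≠ 0 →
    ‖z‖ < r0 → |Fz φ z - κ| ≤ ε := by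
  obtain ⟨κ, hκ⟩ := h.ahyp
  refine ⟨κ, hκ.kappa_nonneg, fun ε hε => ?_⟩
  obtain ⟨r0, hr0, hr⟩ := hκ.isotropy ε hε
  refine ⟨r0, hr0, fun z hz hzr => ?_⟩
  have h1 := hr z.re z.im (by
    have := norm_mk z.re z.im
    have hn : 0 < ‖z‖ := norm_pos_iff.2 hz
    rw [← this]
    positivity) ((norm_mk_lt hr0).1 hzr)
  exact h1

theorem isoOut (h : DensHyp φ m C ρ) {κ : ℝ} (hκ : ∀ ε, 0 < ε → ∃ r0, 0 < r0 ∧ ∀ z : ℂ, z ≠ 0 →
    ‖z‖ < r0 → |Fz φ z - κ| ≤ ε) : IsoOut φ κ := by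
  intro ε hε
  obtain ⟨r0, hr0, hr⟩ := hκ ε hε
  refine ⟨min r0 ρ, lt_min hr0 h.rho_pos, ?_⟩
  have hloc : ∀ η, 0 < η → ∃ M : ℝ, ∀ᵐ w : ℂ, η < ‖w‖ → ‖w‖ < ρ → φ w ≤ M := by
    intro η hη
    refine ⟨C / η ^ 2, ?_⟩
    filter_upwards [h.bdd] with w hw h1 h2
    rw [le_div_iff₀ (by positivity)]
    have := hw h2
    have h3 : η ^ 2 ≤ ‖w‖ ^ 2 := pow_le_pow_left₀ hη.le h1.le 2
    nlinarith only [this, h3, h.nonneg w]
  filter_upwards [ub_eq_ae h.meas h.nonneg hloc] with z hz hz0 hzr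
  have h1 := hr z hz0 (lt_of_lt_of_le hzr (min_le_left _ _))
  have h2 := hz (norm_pos_iff.2 hz0) (lt_of_lt_of_le hzr (min_le_right _ _))
  unfold Fz U at h1
  rwa [h2, ENNReal.toReal_ofReal (h.nonneg z)] at h1

end DensHyp

theorem den_neg (τ θ : ℝ) : den τ (-θ) = den τ θ := by
  unfold den; rw [Real.cos_neg]

theorem psi_tendsto_zero {μ : Measure ℝ} [IsFiniteMeasure μ] (hs : ∀ᵐ τ ∂μ, 0 ≤ τ ∧ τ < 1)
    {θ : ℕ → ℝ} (hθ0 : ∀ n, 0 < θ n) (hθ1 : ∀ n, θ n < Real.pi) (hanti : Antitone θ)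
    (hlim : Tendsto θ atTop (𝓝 0)) {B : ℝ} (hB : ∀ n, ∫ τ, 1 / den τ (θ n) ∂μ ≤ B) :
    Tendsto (fun n => ∫ τ, 1 / den τ (θ n) ∂μ) atTop (𝓝 (∫ τ, 1 / den τ 0 ∂μ)) := by
  have hm : ∀ t : ℝ, Measurable fun τ => 1 / den τ t := by
    intro t; unfold den; fun_prop
  have hnn : ∀ t : ℝ, 0 ≤ᵐ[μ] fun τ => 1 / den τ t := by
    intro t
    filter_upwards [hs] with τ hτ
    exact one_div_nonneg.2 (den_pos' hτ.1 hτ.2).le
  have hsin : ∀ n, Real.sin (θ n) ≠ 0 := fun n =>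
    (Real.sin_pos_of_pos_of_lt_pi (hθ0 n) (hθ1 n)).ne'
  have h1 : Tendsto (fun n => ∫⁻ τ, ENNReal.ofReal (1 / den τ (θ n)) ∂μ) atTop
      (𝓝 (∫⁻ τ, ENNReal.ofReal (1 / den τ 0) ∂μ)) := by
    refine lintegral_tendsto_of_tendsto_of_monotone
      (fun n => (ENNReal.measurable_ofReal.comp (hm _)).aemeasurable) ?_ ?_
    · filter_upwards [hs] with τ hτ i j hij
      apply ENNReal.ofReal_le_ofReal
      exact one_div_le_one_div_of_le (den_pos' hτ.1 hτ.2)
        (den_mono hτ.1 (hθ0 j).le (hanti hij) (hθ1 i).le)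
    · filter_upwards [hs] with τ hτ
      refine (ENNReal.continuous_ofReal.tendsto _).comp ?_
      have hc : Continuous fun t => den τ t := by unfold den; fun_prop
      have h2 := (hc.tendsto 0).comp hlim
      exact tendsto_const_nhds.div h2 (den_pos' hτ.1 hτ.2).ne'
  have h2 : ∀ n, ∫⁻ τ, ENNReal.ofReal (1 / den τ (θ n)) ∂μ ≤ ENNReal.ofReal B := by
    intro n
    rw [← ofReal_integral_eq_lintegral_ofReal (integrable_den (hsin n)) (hnn _)]
    exact ENNReal.ofReal_le_ofReal (hB n)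
  have h3 : ∫⁻ τ, ENNReal.ofReal (1 / den τ 0) ∂μ ≤ ENNReal.ofReal B := le_of_tendsto' h1 h2
  have h4 := (ENNReal.tendsto_toReal (ne_top_of_le_ne_top ENNReal.ofReal_ne_top h3)).comp h1
  have e : ∀ t : ℝ, ∫ τ, 1 / den τ t ∂μ = (∫⁻ τ, ENNReal.ofReal (1 / den τ t) ∂μ).toReal :=
    fun t => integral_eq_lintegral_of_nonneg_ae (hnn t) (hm t).aestronglyMeasurable
  rw [e 0]
  refine h4.congr fun n => ?_
  rw [e (θ n)]; rfl

/-- Sandwich algebra. -/
theorem sandwich {V V' κ ε s : ℝ} (_hV : 0 ≤ V) (hV' : 0 ≤ V') (hs0 : 0 ≤ s) (hs1 : s ≤ 1)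
    (h1 : V ≤ (1 + s) ^ 2 * V') (h2 : V' ≤ (1 + s) ^ 2 * V) (h3 : |V' - κ| ≤ 2 * ε)
    (h4 : 12 * s * (κ + 2 * ε) ≤ ε) : |V - κ| ≤ 3 * ε := by
  rw [abs_le] at h3 ⊢
  have a1 : (1 + s) ^ 2 ≤ 1 + 3 * s := by nlinarith only [hs0, hs1]
  have b1 : V ≤ (1 + 3 * s) * V' := h1.trans (mul_le_mul_of_nonneg_right a1 hV')
  have b2 : V' ≤ (1 + 3 * s) * V := h2.trans (mul_le_mul_of_nonneg_right a1 _hV)
  have b3 : V' ≤ κ + 2 * ε := by linarith only [h3]
  have b4 : s * V' ≤ s * (κ + 2 * ε) := mul_le_mul_of_nonneg_left b3 hs0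
  have b5 : V ≤ 4 * V' := by nlinarith only [b1, hV', hs1]
  have b6 : s * V ≤ s * (4 * V') := mul_le_mul_of_nonneg_left b5 hs0
  have b7 : 0 ≤ s * V' := mul_nonneg hs0 hV'
  constructor <;> linarith [h3.1, h3.2]

namespace DensHyp

variable {φ : ℂ → ℝ} {m : ℝ → Measure ℝ} {C ρ : ℝ}

/-- For a.e. row the limit holds for every `y > 0`. -/
theorem row_lim (h : DensHyp φ m C ρ) {κ : ℝ} (hκ0 : 0 ≤ κ) (hiso : IsoOut φ κ) {ε : ℝ}
    (hε : 0 < ε) : ∃ η, 0 < η ∧ η ≤ 1 / 4 ∧ η ≤ ρ / 4 ∧ ∀ᵐ k : ℝ, |k| < η → ∀ y, 0 < y → y < η →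
      |(k ^ 2 + y ^ 2) * Psi m k y - κ| ≤ 3 * ε := by
  have hC := h.C_nonneg
  have hρ := h.rho_pos
  obtain ⟨r0, hr0, hr⟩ := hiso ε hε
  set η : ℝ := min (min (1 / 4) (ρ / 4)) (min (r0 / 4) (ε / (9 * (C + 1)))) with hη
  have hη0 : 0 < η := lt_min (lt_min (by norm_num) (by positivity))
    (lt_min (by positivity) (by positivity))
  have hη1 : η ≤ 1 / 4 := (min_le_left _ _).trans (min_le_left _ _)
  have hη2 : η ≤ ρ / 4 := (min_le_left _ _).trans (min_le_right _ _)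
  have hη3 : η ≤ r0 / 4 := (min_le_right _ _).trans (min_le_left _ _)
  have hη4 : η ≤ ε / (9 * (C + 1)) := (min_le_right _ _).trans (min_le_right _ _)
  rw [le_div_iff₀ (by positivity)] at hη4
  refine ⟨η, hη0, hη1, hη2, ?_⟩
  filter_upwards [h.row_good, ae_ae h.rep, ae_ae hr] with k g1 g2 g3 hk y hy hyη
  obtain ⟨hsupp, hfin⟩ := g1 (by linarith only [hη2, hk, hy, hyη])
  set s : ℝ := min 1 (ε / (12 * (κ + 2 * ε))) with hs
  have hs0 : 0 < s := lt_min one_pos (by (clear * - hε hκ0; positivity))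
  have hs1 : s ≤ 1 := min_le_left _ _
  have hs2 : s ≤ ε / (12 * (κ + 2 * ε)) := min_le_right _ _
  rw [le_div_iff₀ (by positivity)] at hs2
  obtain ⟨y', hy1, hy2, g4, g5⟩ := exists_Ioo (g2.and g3)
    (show y < y + s * y by
      have : 0 < s * y := by positivity
      linarith only [this])
  have hsy : s * y ≤ 1 * y := mul_le_mul_of_nonneg_right hs1 hy.le
  have hy' : 0 < y' := by linarith only [hy1, hy2, hsy]
  have hz0 : (⟨k, y'⟩ : ℂ) ≠ 0 := by
    intro h0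
    have := congrArg Complex.im h0
    simp only [Complex.zero_im] at this
    linarith only [hy1, hy2, hsy, this]
  have hn : ‖(⟨k, y'⟩ : ℂ)‖ < 3 * η := by
    have := Complex.norm_le_abs_re_add_abs_im (⟨k, y'⟩ : ℂ)
    simp only at this
    rw [abs_of_pos hy'] at this
    linarith only [hk, hyη, hy2, hsy, this]
  have hrep := g4 (by linarith only [hη2, hyη, hy1, hy2, hsy, hn])
  have hφ := g5 hz0 (by linarith only [hη3, hyη, hy1, hy2, hsy, hn])
  rw [norm_mk] at hφ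
  have hn2 : k ^ 2 + y' ^ 2 ≤ 9 * η := by
    rw [← norm_mk]
    have := pow_le_pow_left₀ (norm_nonneg _) hn.le 2
    nlinarith only [this, hη0, hη1]
  have hP : 0 ≤ Psi m k y := psi_nonneg hsupp
  have hP' : 0 ≤ Psi m k y' := psi_nonneg hsupp
  have hpi := Real.pi_gt_d2
  have s3 := sqrt3_lt
  have s3p : 0 < √(3:ℝ) := by positivity
  have hlt : √3 * y' < Real.pi := by nlinarith only [hη1, hyη, hsy, hy2, hpi, s3, hy1]
  have p1 : Psi m k y' ≤ Psi m k y := by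
    unfold Psi
    exact psi_anti hsupp (by positivity) (mul_le_mul_of_nonneg_left hy1.le s3p.le) hlt
  have p2 : Psi m k y ≤ (y' / y) ^ 2 * Psi m k y' := by
    unfold Psi
    have := psi_le (μ := m k) (θ := √3 * y) (θ' := √3 * y') hsupp (by (clear * - hy; positivity))
      (mul_le_mul_of_nonneg_left hy1.le s3p.le) hlt
    have e : (√3 * y') / (√3 * y) = y' / y := by (clear * - hy hy'; field_simp)
    rwa [e] at this
  have hq : (y' / y) ^ 2 ≤ (1 + s) ^ 2 := by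
    apply pow_le_pow_left₀ (by (clear * - hy' hy; positivity))
    rw [div_le_iff₀ hy]; linarith only [hy2]
  have hyy : y' ^ 2 ≤ (1 + s) ^ 2 * y ^ 2 := by
    rw [← mul_pow]; exact pow_le_pow_left₀ hy'.le (by linarith only [hy2]) 2
  have hs21 : 1 ≤ (1 + s) ^ 2 := by nlinarith only [hs0]
  have hy2' : y ^ 2 ≤ y' ^ 2 := pow_le_pow_left₀ hy.le hy1.le 2
  refine sandwich (V' := (k ^ 2 + y' ^ 2) * Psi m k y') (s := s) (by (clear * - hy hP; positivity)) (by (clear * - hy' hP'; positivity))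
    hs0.le hs1 ?_ ?_ ?_ (by linarith only [hs2])
  · calc (k ^ 2 + y ^ 2) * Psi m k y ≤ (k ^ 2 + y' ^ 2) * ((1 + s) ^ 2 * Psi m k y') := by
          apply mul_le_mul (by linarith only [hy2']) _ hP (by (clear * - hy'; positivity))
          exact p2.trans (mul_le_mul_of_nonneg_right hq hP')
      _ = _ := by ring
  · calc (k ^ 2 + y' ^ 2) * Psi m k y' ≤ ((1 + s) ^ 2 * (k ^ 2 + y ^ 2)) * Psi m k y := by
          apply mul_le_mul _ p1 hP' (by (clear * - hε hκ0 hy; positivity))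
          have : 1 * k ^ 2 ≤ (1 + s) ^ 2 * k ^ 2 := mul_le_mul_of_nonneg_right hs21 (by (clear * -; positivity))
          linarith only [hyy, this]
      _ = _ := by ring
  · have e : (k ^ 2 + y' ^ 2) * Psi m k y' - κ = ((k ^ 2 + y' ^ 2) * φ ⟨k, y'⟩ - κ) -
        (k ^ 2 + y' ^ 2) * (φ ⟨k, y'⟩ - Psi m k y') := by ring
    rw [e]
    refine (abs_sub _ _).trans ?_
    have : |(k ^ 2 + y' ^ 2) * (φ ⟨k, y'⟩ - Psi m k y')| ≤ 9 * η * C := by
      rw [abs_mul, abs_of_nonneg (by (clear * - hy'; positivity) : 0 ≤ k ^ 2 + y' ^ 2)]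
      exact mul_le_mul hn2 hrep (abs_nonneg _) (by (clear * - hρ hr0 hε hC; positivity))
    linarith only [hη4, hyη, hy1, hy2, hsy, hφ, this]

theorem spec_lim (h : DensHyp φ m C ρ) {κ : ℝ} (hκ0 : 0 ≤ κ) (hiso : IsoOut φ κ) {ε : ℝ}
    (hε : 0 < ε) : ∃ η, 0 < η ∧ ∀ᵐ k : ℝ, |k| < η → k ≠ 0 → ∀ θ : ℝ, |θ| < η →
      |(3 * k ^ 2 + θ ^ 2) * (∫ τ, 1 / den τ θ ∂(m k)) - 3 * κ| ≤ ε := by
  have s3 := sqrt3_gt
  have s3p : 0 < √(3:ℝ) := by positivity
  have hpi := Real.pi_gt_d2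
  obtain ⟨η, hη0, hη1, hη2, hη⟩ := h.row_lim hκ0 hiso (ε := ε / 9) (by positivity)
  refine ⟨η, hη0, ?_⟩
  filter_upwards [hη, h.row_good] with k hk hg hkη hk0
  obtain ⟨hsupp, hfin⟩ := hg (by have := h.rho_pos; linarith only [hη0, hη2, hkη])
  have key : ∀ θ, 0 < θ → θ < η →
      |(3 * k ^ 2 + θ ^ 2) * (∫ τ, 1 / den τ θ ∂(m k)) - 3 * κ| ≤ ε := by
    intro θ hθ0 hθ
    have h1 := hk hkη (θ / √3) (by positivity) (by
      rw [div_lt_iff₀ s3p]; nlinarith only [hθ, s3, hη0])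
    have e1 : √3 * (θ / √3) = θ := by field_simp
    have e2 : (θ / √3) ^ 2 = θ ^ 2 / 3 := by rw [div_pow, sqrt3_sq]
    unfold Psi at h1
    rw [e1, e2] at h1
    have e3 : (3 * k ^ 2 + θ ^ 2) * (∫ τ, 1 / den τ θ ∂(m k)) - 3 * κ =
        3 * ((k ^ 2 + θ ^ 2 / 3) * (∫ τ, 1 / den τ θ ∂(m k)) - κ) := by ring
    rw [e3, abs_mul, abs_of_pos (by norm_num : (0:ℝ) < 3)]
    linarith only [h1]
  intro θ hθ
  rcases lt_trichotomy θ 0 with hneg | rfl | hpos
  · have := key (-θ) (by linarith only [hneg]) (by rw [abs_of_neg hneg] at hθ; exact hθ)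
    simp only [den_neg, neg_sq] at this
    exact this
  · set t : ℕ → ℝ := fun n => η / (n + 2) with ht
    have ht0 : ∀ n, 0 < t n := fun n => by simp only [ht]; (clear * - hη0; positivity)
    have htη : ∀ n, t n < η := by
      intro n
      simp only [ht]
      rw [div_lt_iff₀ (by (clear * -; positivity))]
      have : (0:ℝ) ≤ n := Nat.cast_nonneg n
      nlinarith only [hη0]
    have htanti : Antitone t := by
      intro i j hij
      simp only [ht]
      apply div_le_div_of_nonneg_left hη0.le (by positivity)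
      have : (i:ℝ) ≤ j := by exact_mod_cast hij
      linarith only [this]
    have htlim : Tendsto t atTop (𝓝 0) := by
      apply Tendsto.div_atTop tendsto_const_nhds
      exact tendsto_atTop_add_const_right _ _ tendsto_natCast_atTop_atTop
    have hB : ∀ n, ∫ τ, 1 / den τ (t n) ∂(m k) ≤ (3 * κ + ε) / (3 * k ^ 2) := by
      intro n
      have h1 := key (t n) (ht0 n) (htη n)
      rw [abs_le] at h1
      have hk2 : 0 < k ^ 2 := by positivity
      rw [le_div_iff₀ (by positivity)]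
      have h2 : 0 ≤ ∫ τ, 1 / den τ (t n) ∂(m k) := psi_nonneg hsupp
      have h3 : 0 ≤ (t n) ^ 2 * ∫ τ, 1 / den τ (t n) ∂(m k) := by (clear * - hη0 h2; positivity)
      (clear * - h1 h3; linarith [h1.2])
    have hT := psi_tendsto_zero hsupp ht0 (fun n => by have := htη n; linarith only [hpi, hη1, this]) htanti htlim hB
    have hT2 : Tendsto (fun n => (3 * k ^ 2 + (t n) ^ 2) * (∫ τ, 1 / den τ (t n) ∂(m k)) - 3 * κ)
        atTop (𝓝 ((3 * k ^ 2 + 0 ^ 2) * (∫ τ, 1 / den τ 0 ∂(m k)) - 3 * κ)) :=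
      ((tendsto_const_nhds.add (htlim.pow 2)).mul hT).sub_const _
    exact le_of_tendsto' hT2.abs fun n => key (t n) (ht0 n) (htη n)
  · exact key θ hpos (by rwa [abs_of_pos hpos] at hθ)

end DensHyp

/-- **B5.** -/
theorem b5 : B5Statement := by
  intro φ m C ρ h
  obtain ⟨κ, hκ0, hκ⟩ := h.iso_U
  have hiso := h.isoOut hκ
  exact ⟨κ, hκ0, hiso, fun ε hε => h.spec_lim hκ0 hiso hε⟩

end Vale.Agent.P153.Iso
end

section

/-!
P153-F, X-level (mirror of `P145.X.Int`): integrability of local functionals of the blocked edges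
and of the heights with respect to `muT P` (the heights are Lipschitz and pinned at a blocked edge).
-/

namespace Vale.Agent.P153.F.X

open Filter Topology Set MeasureTheory
open Vale.Agent.P153
open Vale.Agent.P153.F.Top (Om Cone Pol Alg)

namespace In

open Up (nb mem_nb mem_nb' adj_symm)

/-- Measurability of a set of configurations depending on finitely many heights. -/
lemma meas_fin {B : Finset Pt} {F : Hg → ℝ} (hF : ∀ h h' : Hg, (∀ x ∈ B, h x = h' x) → F h = F h') :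
    Measurable F := by
  classical
  have e : F = (fun r : B → ℤ => F (fun x => if hx : x ∈ B then r ⟨x, hx⟩ else 0)) ∘
      fun h : Hg => fun x : B => h x.1 := by
    funext h
    refine hF _ _ fun x hx => ?_
    rw [dif_pos hx]
  rw [e]
  exact (measurable_of_countable _).comp (measurable_pi_lambda _ fun x => measurable_pi_apply x.1)

lemma bl_congr {h h' : Hg} {w : Pt} (H : ∀ x ∈ nb w, h x = h' x) : w ∈ bl h ↔ w ∈ bl h' := by
  constructor
  · rintro ⟨x, y, h1, rfl, h3, h4⟩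
    refine ⟨x, y, h1, rfl, ?_, ?_⟩
    · rw [← H x (mem_nb h1)]; exact h3
    · rw [← H y (mem_nb' h1)]; exact h4
  · rintro ⟨x, y, h1, rfl, h3, h4⟩
    refine ⟨x, y, h1, rfl, ?_, ?_⟩
    · rw [H x (mem_nb h1)]; exact h3
    · rw [H y (mem_nb' h1)]; exact h4

lemma loc_g {A : Set Pt} {g : Set Pt → ℝ} (hg : LocS A g) :
    ∃ B : Finset Pt, ∀ h h' : Hg, (∀ x ∈ B, h x = h' x) → g (bl h) = g (bl h') := by
  classical
  obtain ⟨Λ, -, hl⟩ := hg
  exact ⟨Λ.biUnion nb, fun h h' H => hl _ _ fun w hw => bl_congr fun x hx =>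
    H x (Finset.mem_biUnion.2 ⟨w, hw, hx⟩)⟩

/-- Measurability of local functions of the blocked edges. -/
lemma meas_g {A : Set Pt} {g : Set Pt → ℝ} (hg : LocS A g) : Measurable fun h : Hg => g (bl h) := by
  obtain ⟨B, hB⟩ := loc_g hg
  exact meas_fin hB

lemma bdd_g {A : Set Pt} {g : Set Pt → ℝ} (hg : LocS A g) :
    ∃ C : ℝ, 0 ≤ C ∧ ∀ B, |g B| ≤ C := by
  classical
  obtain ⟨Λ, -, hl⟩ := hg
  refine ⟨∑ T ∈ Λ.powerset, |g (T : Set Pt)|, Finset.sum_nonneg fun _ _ => abs_nonneg _,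
    fun B => ?_⟩
  have h1 : g B = g ((Λ.filter (fun w => w ∈ B) : Finset Pt) : Set Pt) :=
    hl _ _ fun w hw => by simp [hw]
  rw [h1]
  exact Finset.single_le_sum (f := fun T : Finset Pt => |g (T : Set Pt)|)
    (fun _ _ => abs_nonneg _) (Finset.mem_powerset.2 (Finset.filter_subset _ _))

lemma meas_vm : Measurable vm := measurable_pi_lambda _ fun v =>
  measurable_from_top.comp (measurable_pi_apply v)

lemma meas_alg {A : Om → ℝ} (hA : Alg A) : Measurable A := by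
  induction hA with
  | mon v =>
    induction v with
    | nil => simp
    | cons u v ih =>
      simp only [List.map_cons, List.prod_cons]
      exact (measurable_pi_apply u).mul ih
  | zero => exact measurable_const
  | add _ _ h1 h2 => exact h1.add h2
  | smul c _ _ h => exact h.const_mul c

/-- The heights along a horizontal path. -/
lemma lip_hor {h : Hg} (hh : Lip h) (x y : Pt) (e : x.2 = y.2) :
    |h x - h y| ≤ 2 * |x.1 - y.1| := by
  have key : ∀ (n : ℕ) (v : Pt), |h v - h (v.1 + (n : ℤ), v.2)| ≤ 2 * n := fun n v =>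
    lip_path hh v n
  rcases le_total x.1 y.1 with h1 | h1
  · obtain ⟨n, hn⟩ := Int.le.dest h1
    have h2 := key n x
    have h3 : ((x.1 + (n : ℤ), x.2) : Pt) = y := Prod.ext hn e
    rw [h3] at h2
    have h4 : |x.1 - y.1| = (n : ℤ) := by
      rw [← hn, sub_add_cancel_left, abs_neg, abs_of_nonneg (by positivity)]
    rw [h4]
    exact h2
  · obtain ⟨n, hn⟩ := Int.le.dest h1
    have h2 := key n y
    have h3 : ((y.1 + (n : ℤ), y.2) : Pt) = x := Prod.ext hn e.symm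
    rw [h3, abs_sub_comm] at h2
    have h4 : |x.1 - y.1| = (n : ℤ) := by
      rw [← hn, add_sub_cancel_left, abs_of_nonneg (by positivity)]
    rw [h4]
    exact h2

/-- The heights along a vertical path. -/
lemma lip_ver {h : Hg} (hh : Lip h) (v : Pt) (n : ℕ) :
    |h v - h (v.1, v.2 + (n : ℤ))| ≤ 2 * n := by
  induction n with
  | zero => simp
  | succ n ih =>
    have h0 : Adj (v.1, v.2 + (n : ℤ)) (v.1, v.2 + ((n + 1 : ℕ) : ℤ)) := by
      rw [Fv.adj_iff]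
      push_cast
      omega
    have h1 := hh.2 _ _ h0
    have h2 : |h v - h (v.1, v.2 + ((n + 1 : ℕ) : ℤ))| ≤
        |h v - h (v.1, v.2 + (n : ℤ))| +
          |h (v.1, v.2 + (n : ℤ)) - h (v.1, v.2 + ((n + 1 : ℕ) : ℤ))| := abs_sub_le _ _ _
    push_cast at h1 h2 ⊢
    linarith

lemma lip_ver' {h : Hg} (hh : Lip h) (x y : Pt) (e : x.1 = y.1) :
    |h x - h y| ≤ 2 * |x.2 - y.2| := by
  rcases le_total x.2 y.2 with h1 | h1
  · obtain ⟨n, hn⟩ := Int.le.dest h1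
    have h2 := lip_ver hh x n
    have h3 : ((x.1, x.2 + (n : ℤ)) : Pt) = y := Prod.ext e hn
    rw [h3] at h2
    have h4 : |x.2 - y.2| = (n : ℤ) := by
      rw [← hn, sub_add_cancel_left, abs_neg, abs_of_nonneg (by positivity)]
    rw [h4]
    exact h2
  · obtain ⟨n, hn⟩ := Int.le.dest h1
    have h2 := lip_ver hh y n
    have h3 : ((y.1, y.2 + (n : ℤ)) : Pt) = x := Prod.ext e.symm hn
    rw [h3, abs_sub_comm] at h2
    have h4 : |x.2 - y.2| = (n : ℤ) := by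
      rw [← hn, add_sub_cancel_left, abs_of_nonneg (by positivity)]
    rw [h4]
    exact h2

/-- The heights are Lipschitz. -/
lemma lip_dist {h : Hg} (hh : Lip h) (x y : Pt) :
    |h x - h y| ≤ 2 * (|x.1 - y.1| + |x.2 - y.2|) := by
  have h1 := lip_hor hh x (y.1, x.2) rfl
  have h2 := lip_ver' hh (y.1, x.2) y rfl
  have h3 := abs_sub_le (h x) (h (y.1, x.2)) (h y)
  simp only at h1 h2
  linarith

lemma bdd_alg {A : Om → ℝ} (hA : Alg A) (x : Pt) :
    ∃ C : ℝ, 0 ≤ C ∧ ∀ h : Hg, Lip h → |h x| ≤ 1 → |A (vm h)| ≤ C := by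
  induction hA with
  | mon v =>
    induction v with
    | nil => exact ⟨1, zero_le_one, fun h _ _ => by simp⟩
    | cons u v ih =>
      obtain ⟨C, hC, h1⟩ := ih
      refine ⟨(1 + 2 * (|u.1 - x.1| + |u.2 - x.2|) : ℤ) * C, ?_, fun h hh hx => ?_⟩
      · refine mul_nonneg ?_ hC
        have : (0 : ℤ) ≤ 1 + 2 * (|u.1 - x.1| + |u.2 - x.2|) := by positivity
        exact_mod_cast this
      · simp only [List.map_cons, List.prod_cons, abs_mul]
        refine mul_le_mul ?_ (h1 h hh hx) (abs_nonneg _) ?_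
        · have h2 := lip_dist hh u x
          have h3 : |h u| ≤ |h u - h x| + |h x| := by
            have := abs_add_le (h u - h x) (h x)
            simpa using this
          have h4 : |h u| ≤ 1 + 2 * (|u.1 - x.1| + |u.2 - x.2|) := by linarith
          have h5 : ((|h u| : ℤ) : ℝ) ≤ ((1 + 2 * (|u.1 - x.1| + |u.2 - x.2|) : ℤ) : ℝ) := by
            exact_mod_cast h4
          rwa [Int.cast_abs] at h5
        · have : (0 : ℤ) ≤ 1 + 2 * (|u.1 - x.1| + |u.2 - x.2|) := by positivity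
          exact_mod_cast this
  | zero => exact ⟨0, le_rfl, fun h _ _ => by simp⟩
  | add _ _ h1 h2 =>
    obtain ⟨C₁, hC₁, h1⟩ := h1
    obtain ⟨C₂, hC₂, h2⟩ := h2
    exact ⟨C₁ + C₂, add_nonneg hC₁ hC₂, fun h hh hx =>
      (abs_add_le _ _).trans (add_le_add (h1 h hh hx) (h2 h hh hx))⟩
  | smul c _ _ h1 =>
    obtain ⟨C, hC, h1⟩ := h1
    refine ⟨|c| * C, mul_nonneg (abs_nonneg _) hC, fun h hh hx => ?_⟩
    rw [abs_mul]
    exact mul_le_mul_of_nonneg_left (h1 h hh hx) (abs_nonneg _)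

/-- The height of `x` is `± 1`. -/
def P1 (x : Pt) : Set Hg := {h | |h x| = 1}

lemma meas_P1 (x : Pt) : MeasurableSet (P1 x) := by
  have h1 : Measurable fun h : Hg => |h x| :=
    (measurable_of_countable (fun z : ℤ => |z|)).comp (measurable_pi_apply x)
  exact h1 (measurableSet_singleton (1 : ℤ))

lemma fin_P1 {mu : Measure Hg} (hmu : Gb mu) (x : Pt) : mu (P1 x) ≠ ⊤ := by
  have h1 : P1 x ⊆ Cyl {x} (fun _ => 1) ∪ Cyl {x} (fun _ => -1) := by
    intro h hx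
    have hx' : |h x| = 1 := hx
    rcases (abs_eq (by norm_num : (0 : ℤ) ≤ 1)).1 hx' with e | e
    · left
      intro y hy
      rw [Finset.mem_singleton] at hy
      rw [hy]; exact e
    · right
      intro y hy
      rw [Finset.mem_singleton] at hy
      rw [hy]; exact e
  refine ne_top_of_le_ne_top ?_ ((measure_mono h1).trans (measure_union_le _ _))
  exact ENNReal.add_ne_top.2 ⟨hmu.fin _ _ (Finset.singleton_nonempty x),
    hmu.fin _ _ (Finset.singleton_nonempty x)⟩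

end In

open In in
/-- Integrability of local pinned functions. -/
theorem int_gb {mu : Measure Hg} (hmu : Gb mu) {g : Set Pt → ℝ} {A : Om → ℝ}
    (hg : LocS univ g) (h0 : g ∅ = 0) (hA : Alg A) :
    Integrable (fun h => g (bl h) * A (vm h)) mu := by
  classical
  have hmeas : Measurable fun h : Hg => g (bl h) * A (vm h) :=
    (meas_g hg).mul ((meas_alg hA).comp meas_vm)
  obtain ⟨Cg, hCg, hgb⟩ := bdd_g hg
  obtain ⟨Λ, -, hl⟩ := id hg
  set B : Finset Pt := Λ.biUnion Up.nb with hB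
  choose C hC hCA using fun x => bdd_alg hA x
  have hbound : Integrable (fun h : Hg => ∑ x ∈ B, (In.P1 x).indicator (fun _ => Cg * C x) h) mu :=
    integrable_finsetSum _ fun x _ =>
      (integrable_indicator_iff (meas_P1 x)).2 (integrableOn_const (fin_P1 hmu x))
  refine hbound.mono' hmeas.aestronglyMeasurable ?_
  filter_upwards [hmu.lip] with h hh
  have hnn : ∀ x ∈ B, 0 ≤ (In.P1 x).indicator (fun _ => Cg * C x) h := fun x _ =>
    Set.indicator_nonneg (fun _ _ => mul_nonneg hCg (hC x)) _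
  by_cases hne : g (bl h) = 0
  · rw [hne, zero_mul, norm_zero]
    exact Finset.sum_nonneg hnn
  · have h1 : ∃ w ∈ Λ, w ∈ bl h := by
      by_contra hcon
      push Not at hcon
      apply hne
      rw [← h0]
      exact hl _ _ fun w hw => by simp [hcon w hw]
    obtain ⟨w, hw, x, y, hxy, rfl, hx, hy⟩ := h1
    have hxB : x ∈ B := Finset.mem_biUnion.2 ⟨_, hw, Up.mem_nb hxy⟩
    refine le_trans ?_ (Finset.single_le_sum hnn hxB)
    rw [Set.indicator_of_mem (show h ∈ In.P1 x from hx), norm_mul, Real.norm_eq_abs,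
      Real.norm_eq_abs]
    exact mul_le_mul (hgb _) (hCA x h hh hx.le) (abs_nonneg _) hCg

/-- **S_int.** -/
theorem s_int {P : Measure (Pt → ℤ)} (hP : GFF.Plane P) : S_int P :=
  fun _ _ hg h0 hA => int_gb (gb_of_plane hP) hg h0 hA

end Vale.Agent.P153.F.X
end

section

/-!
P153-F, block X: FAR, a big circuit far away on the left, at a centre of the same net (mirror of
`P145/X/Far.lean`).
-/

namespace Vale.Agent.P153.F.X

open Filter Topology Set MeasureTheory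
open Vale.Agent.P153
open Vale.Agent.P153.F.Top (dp c1)

/-- The lattice coordinate of the end of an edge of a box. -/
theorem far_q {p : Pt} {r : ℤ} {w x y : Pt} (hw : w ∈ iE (bx p r)) (h : Adj x y) (hxy : w = x + y) :
    x.1 ≤ p.1 + r := by
  obtain ⟨x', hx', y', hy', -, rfl⟩ := hw
  have h1 := (abs_le.1 hx'.1).2
  have h2 := (abs_le.1 hy'.1).2
  have h3 := congrArg Prod.fst hxy
  simp only [Prod.fst_add] at h3
  have h4 : x.1 ≤ y.1 + 1 := by
    simp only [Adj, Set.mem_insert_iff, Set.mem_singleton_iff, Prod.mk.injEq] at h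
    omega
  omega

theorem far_c1 (δ : ℝ) (x : Pt) : c1 (dp δ x) = δ * x.1 := by
  unfold c1 dp
  have h3 : (√3 : ℝ) ≠ 0 := by positivity
  field_simp
  ring

/-- FAR. -/
theorem far : S_far := by
  intro D a hD
  obtain ⟨ρ, hρ⟩ := hD.subset_ball (0 : ℝ × ℝ)
  obtain ⟨K, hK⟩ : ∃ K : ℝ, K = |a| + 2 * |ρ| + 40 := ⟨_, rfl⟩
  have hx0 := abs_nonneg a
  have hx1 := neg_abs_le a
  have hr0 := abs_nonneg ρ
  have hr1 := le_abs_self ρ
  have hR1 : (1 : ℝ) ≤ 2 * K + 1 := by linarith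
  refine ⟨2 * K + 1, hR1, hρ.trans (Metric.ball_subset_ball (by linarith)), ?_⟩
  intro m ε hε hme
  refine ⟨(⌈2 * K / ε⌉ + 8 * ⌈1 / ε⌉).toNat, fun j hj => ?_⟩
  obtain ⟨σ, hσ⟩ : ∃ σ : ℝ, σ = 4 ^ (j + 1) * ε := ⟨_, rfl⟩
  have hσε : ε ≤ σ := by
    rw [hσ]
    have : (1 : ℝ) ≤ 4 ^ (j + 1) := one_le_pow₀ (by norm_num)
    nlinarith
  have hσ0 : 0 < σ := lt_of_lt_of_le hε hσε
  have hσ1 : σ ≤ 1 := by
    have h : (4 : ℝ) ^ (j + 1) ≤ 4 ^ (m + 2) := pow_le_pow_right₀ (by norm_num) (by omega)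
    rw [hσ]
    exact (mul_le_mul_of_nonneg_right h hε.le).trans hme
  have hev : ∀ᶠ δ in 𝓝[>] (0 : ℝ), δ ∈ Set.Ioo (0 : ℝ) (min 1 (ε / 2)) :=
    Ioo_mem_nhdsGT (lt_min one_pos (by positivity))
  filter_upwards [hev] with δ hδ
  obtain ⟨h0, h12⟩ := hδ
  have h1 : δ < 1 := h12.trans_le (min_le_left _ _)
  have h2 : δ < ε / 2 := h12.trans_le (min_le_right _ _)
  obtain ⟨s, hs⟩ : ∃ s : ℤ, s = sc ε δ (j + 1) := ⟨_, rfl⟩
  have hfl1 : δ * (⌊ε / δ⌋ : ℝ) ≤ ε := by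
    have := Int.floor_le (ε / δ)
    calc δ * (⌊ε / δ⌋ : ℝ) ≤ δ * (ε / δ) := mul_le_mul_of_nonneg_left this h0.le
      _ = ε := by field_simp
  have hfl2 : ε / 2 ≤ δ * (⌊ε / δ⌋ : ℝ) := by
    have := Int.lt_floor_add_one (ε / δ)
    have h3 : ε < δ * ((⌊ε / δ⌋ : ℝ) + 1) := by
      rw [div_lt_iff₀ h0] at this
      linarith
    linarith
  have hsr : δ * (s : ℝ) = 4 ^ (j + 1) * (δ * (⌊ε / δ⌋ : ℝ)) := by
    rw [hs, sc]; push_cast; ring
  have hp : (0 : ℝ) ≤ 4 ^ (j + 1) := by positivity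
  have hs1 : σ / 2 ≤ δ * (s : ℝ) := by
    rw [hsr, hσ]
    nlinarith [mul_le_mul_of_nonneg_left hfl2 hp]
  have hs2 : δ * (s : ℝ) ≤ σ := by
    rw [hsr, hσ]
    exact mul_le_mul_of_nonneg_left hfl1 hp
  rw [← hs]
  obtain ⟨M, hM⟩ : ∃ M : ℤ, M = ⌈2 * K / σ⌉ := ⟨_, rfl⟩
  obtain ⟨l, hl⟩ : ∃ l : ℤ, l = ⌈1 / σ⌉ := ⟨_, rfl⟩
  have hK0 : 0 < K := by linarith
  have hM1 : 2 * K / σ ≤ M := by rw [hM]; exact Int.le_ceil _
  have hM2 : (M : ℝ) < 2 * K / σ + 1 := by rw [hM]; exact Int.ceil_lt_add_one _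
  have hl1 : 1 / σ ≤ l := by rw [hl]; exact Int.le_ceil _
  have hl2 : (l : ℝ) < 1 / σ + 1 := by rw [hl]; exact Int.ceil_lt_add_one _
  rw [div_le_iff₀ hσ0] at hM1 hl1
  have hM3 : (M : ℝ) * σ ≤ 2 * K + σ := by
    have := mul_le_mul_of_nonneg_right hM2.le hσ0.le
    rwa [add_mul, one_mul, div_mul_cancel₀ _ hσ0.ne'] at this
  have hl3 : (l : ℝ) * σ ≤ 1 + σ := by
    have := mul_le_mul_of_nonneg_right hl2.le hσ0.le
    rwa [add_mul, one_mul, div_mul_cancel₀ _ hσ0.ne'] at this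
  have hlp : 0 < l := by rw [hl]; exact Int.ceil_pos.2 (by positivity)
  have hMp : 0 < M := by rw [hM]; exact Int.ceil_pos.2 (by positivity)
  have hlr : (0 : ℝ) < l := by exact_mod_cast hlp
  have hMr : (0 : ℝ) < M := by exact_mod_cast hMp
  have hMN : M ≤ ⌈2 * K / ε⌉ := by
    rw [hM]
    exact Int.ceil_le_ceil (div_le_div_of_nonneg_left (by positivity) hε hσε)
  have hlN : l ≤ ⌈1 / ε⌉ := by
    rw [hl]
    exact Int.ceil_le_ceil (div_le_div_of_nonneg_left (by positivity) hε hσε)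
  -- the scaled centre and radius
  have hc1 : K ≤ (M : ℝ) * (δ * s) := by
    have := mul_le_mul_of_nonneg_left hs1 hMr.le
    linarith
  have hc2 : (M : ℝ) * (δ * s) ≤ 2 * K + 1 := by
    have := mul_le_mul_of_nonneg_left hs2 hMr.le
    linarith
  have hd1 : 1 / 2 ≤ (l : ℝ) * (δ * s) := by
    have := mul_le_mul_of_nonneg_left hs1 hlr.le
    linarith
  have hd2 : (l : ℝ) * (δ * s) ≤ 2 := by
    have := mul_le_mul_of_nonneg_left hs2 hlr.le
    linarith
  refine ⟨(-M, 0), l, by omega, ?_, ?_, ?_, ?_, ?_, ?_, ?_, ?_⟩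
  · simp only [abs_neg, abs_of_pos hMp]
    rw [Int.toNat_of_nonneg (by omega)]
    omega
  · simp only [abs_zero]
    rw [Int.toNat_of_nonneg (by omega)]
    omega
  · have : δ * ((ce s (-M, 0)).1 : ℝ) = -((M : ℝ) * (δ * s)) := by
      simp only [ce]; push_cast; ring
    rw [this, abs_neg, abs_of_nonneg (by linarith)]
    exact hc2
  · have : δ * ((ce s (-M, 0)).2 : ℝ) = 0 := by
      simp only [ce]; push_cast; ring
    rw [this, abs_zero]
    linarith
  · have h5 : (2 * K + 1)⁻¹ ≤ 1 / 2 := by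
      rw [inv_eq_one_div]
      exact one_div_le_one_div_of_le two_pos (by linarith)
    push_cast
    nlinarith
  · push_cast
    nlinarith
  · intro w hw x y hxy hwxy
    have h6 := far_q hw hxy hwxy
    simp only [ce] at h6
    have h7 : (x.1 : ℝ) ≤ s * (-M) + 8 * (l * s) := by exact_mod_cast h6
    have h8 := mul_le_mul_of_nonneg_left h7 h0.le
    show c1 (dp δ x) ≤ a - 1
    rw [far_c1]
    have h9 : δ * ((s : ℝ) * (-M) + 8 * (l * s)) =
        -((M : ℝ) * (δ * s)) + 8 * ((l : ℝ) * (δ * s)) := by ring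
    rw [h9] at h8
    linarith
  · intro v hv hvb
    have hb := hρ hv
    rw [mem_ball_zero_iff, Prod.norm_def, max_lt_iff] at hb
    have hb1 := (abs_lt.1 hb.1).1
    have hb2 := (abs_lt.1 hb.2).2
    simp only [dp] at hb1 hb2
    have h3 : (1 : ℝ) ≤ √3 := by
      rw [Real.le_sqrt (by norm_num) (by norm_num)]
      norm_num
    have h10 : δ * (v.2 : ℝ) / 2 ≤ |ρ| := by
      by_cases hneg : δ * (v.2 : ℝ) ≤ 0
      · linarith
      · push Not at hneg
        nlinarith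
    obtain ⟨hv1, -⟩ := hvb
    have h6 := (abs_le.1 hv1).2
    simp only [ce] at h6
    have h7 : (v.1 : ℝ) ≤ s * (-M) + 8 * (l * s) := by
      have : v.1 ≤ s * (-M) + 8 * (l * s) := by linarith
      exact_mod_cast this
    have h8 := mul_le_mul_of_nonneg_left h7 h0.le
    have h9 : δ * ((s : ℝ) * (-M) + 8 * (l * s)) =
      -((M : ℝ) * (δ * s)) + 8 * ((l : ℝ) * (δ * s)) := by ring
    rw [h9] at h8
    linarith

end Vale.Agent.P153.F.X
end

section

/-!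
P153-F, X-level (mirror of `P145.X.SPos`, `P145.X.Rsw`): the statements `S_pos` and `S_rsw` on the
triangular lattice, from circuits of closed edges of `tau` at all scales.
-/

namespace Vale.Agent.P153.F.X.PosT

open MeasureTheory
open Vale.Agent.P153 Vale.Agent.P153.Topo
open Vale.Agent.P153.F.RSW
open Vale.Agent.P153.A (rc cd tau Comp)

/-! ### Edges and their midpoints -/

theorem mid_odd {z : ℤ × ℤ} (hz : z ∈ Mid) : z.1 % 2 = 1 ∨ z.2 % 2 = 1 := by
  rcases hz with h | h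
  · exact Or.inl (Int.odd_iff.1 h)
  · exact Or.inr (Int.odd_iff.1 h)

theorem mid_adj {z : ℤ × ℤ} (hz : z ∈ Mid) : Adj (v1 z) (v2 z) := by
  have := mid_odd hz
  rw [Topo.adj_iff]
  simp only [v1, v2]
  omega

theorem v_add (z : ℤ × ℤ) : z = v1 z + v2 z := by
  refine Prod.ext ?_ ?_
  · simp only [v1, v2, Prod.fst_add]; omega
  · simp only [v1, v2, Prod.snd_add]; omega

/-- Neighbouring midpoints belong to edges with a common end. -/
theorem share {u v : ℤ × ℤ} (hu : u ∈ Mid) (hv : v ∈ Mid) (h : Adj u v) :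
    v1 u = v1 v ∨ v1 u = v2 v ∨ v2 u = v1 v ∨ v2 u = v2 v := by
  have h1 := mid_odd hu
  have h2 := mid_odd hv
  rw [Topo.adj_iff] at h
  simp only [v1, v2, Prod.mk.injEq]
  rcases h with h | h | h | h | h | h <;> omega

/-! ### Levels -/

/-- The height with its value modulo four. -/
noncomputable def fh (ω : A.Om) (x : ℤ × ℤ) : ℤ := rc ω x + cd (ω 0)

theorem fh_mod {ω : A.Om} (h : Comp ω) {x : ℤ × ℤ} (hx : tau ω x = true) :
    fh ω x % 4 = 0 ∨ fh ω x % 4 = 1 := by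
  have h1 := A.s_rc.2.1 ω h x
  have h2 : cd (ω x) = 0 ∨ cd (ω x) = 1 := by
    have h3 : (ω x).1 = true := hx
    unfold cd
    rw [h3]
    cases (ω x).2 <;> simp
  unfold fh
  omega

theorem fh_adj {ω : A.Om} (h : Comp ω) {x y : ℤ × ℤ} (hxy : Adj x y) :
    |fh ω y - fh ω x| ≤ 1 := by
  have h1 := A.s_rc.1 ω h x y hxy
  unfold fh
  have h2 : rc ω y + cd (ω 0) - (rc ω x + cd (ω 0)) = A.inc (ω x) (ω y) := by linarith
  rw [h2]
  unfold A.inc
  split_ifs <;> norm_num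

/-- The level of a midpoint. -/
noncomputable def lv (ω : A.Om) (z : ℤ × ℤ) : ℤ := fh ω (v1 z) / 4

theorem lv_v2 {ω : A.Om} (h : Comp ω) {z : ℤ × ℤ} (hz : z ∈ Wp (tau ω)) :
    fh ω (v2 z) / 4 = lv ω z := by
  have h1 := fh_mod h hz.2.1
  have h2 := fh_mod h hz.2.2
  have h3 := abs_le.1 (fh_adj h (mid_adj hz.1))
  unfold lv
  omega

theorem lev_Wp {ω : A.Om} (h : Comp ω) : Lev (Wp (tau ω)) (lv ω) := by
  intro u v huv hu hv
  have e1 := lv_v2 h hu
  have e2 := lv_v2 h hv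
  rcases share hu.1 hv.1 huv with h1 | h1 | h1 | h1
  · unfold lv; rw [h1]
  · rw [← e2, ← h1]; rfl
  · rw [← e1, h1]; rfl
  · rw [← e1, ← e2, h1]

/-- The edges of one level are blocked for suitable absolute heights. -/
theorem sub_bl {ω : A.Om} (h : Comp ω) (m : ℤ) :
    Wp (tau ω) ∩ {z | lv ω z = m} ⊆ bl (odd (cd (ω 0) - 4 * m) (rc ω)) ∩ Mid := by
  rintro z ⟨hz, hm⟩
  have hm' : lv ω z = m := hm
  have h1 := fh_mod h hz.2.1
  have h2 := fh_mod h hz.2.2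
  have h3 := lv_v2 h hz
  refine ⟨⟨v1 z, v2 z, mid_adj hz.1, v_add z, ?_, ?_⟩, hz.1⟩
  · have e : odd (cd (ω 0) - 4 * m) (rc ω) (v1 z) = 2 * (fh ω (v1 z) - 4 * m) - 1 := by
      unfold odd fh; ring
    rw [e]
    unfold lv at hm'
    rcases (by omega : fh ω (v1 z) - 4 * m = 0 ∨ fh ω (v1 z) - 4 * m = 1) with h4 | h4 <;>
      rw [h4] <;> norm_num
  · have e : odd (cd (ω 0) - 4 * m) (rc ω) (v2 z) = 2 * (fh ω (v2 z) - 4 * m) - 1 := by
      unfold odd fh; ring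
    rw [e]
    rcases (by omega : fh ω (v2 z) - 4 * m = 0 ∨ fh ω (v2 z) - 4 * m = 1) with h4 | h4 <;>
      rw [h4] <;> norm_num

/-! ### Events -/

theorem loc_fin {E : Set (ℤ × ℤ) → Prop} (h : RSW.Loc E) :
    ∃ Λ : Finset Pt, ∀ B B' : Set Pt, (∀ w ∈ Λ, w ∈ B ↔ w ∈ B') → E (B ∩ Mid) → E (B' ∩ Mid) := by
  obtain ⟨N, hN⟩ := h
  refine ⟨Finset.Icc (-N) N ×ˢ Finset.Icc (-N) N, fun B B' hB hE => hN _ _ (fun z h1 h2 => ?_) hE⟩
  have := hB z (by
    rw [abs_le] at h1 h2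
    rw [Finset.mem_product, Finset.mem_Icc, Finset.mem_Icc]
    exact ⟨h1, h2⟩)
  exact and_congr_left fun _ => this

theorem meas_E {E : Set (ℤ × ℤ) → Prop} (h : RSW.Loc E) : MeasurableSet {h : Hg | E (bl h ∩ Mid)} := by
  obtain ⟨Λ, hΛ⟩ := loc_fin h
  exact meas_bl (Q := fun B => E (B ∩ Mid)) hΛ

theorem muT_apply (P : Measure (Pt → ℤ)) {M : Set Hg} (hM : MeasurableSet M) :
    muT P M = ∑' k : ℤ, P (odd k ⁻¹' M) := by
  rw [muT, Measure.sum_apply _ hM]
  exact tsum_congr fun k => Measure.map_apply (measurable_odd k) hM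

variable {Q : Measure A.Om}

/-- The measure of an event at level `0`. -/
theorem muT_ge (hQ : A.IsQ Q) {E : Set (ℤ × ℤ) → Prop} (hE : IL E)
    (hl : ∀ (S : Set (ℤ × ℤ)) (lev : ℤ × ℤ → ℤ), Lev S lev → E S → ∃ l, E (S ∩ {z | lev z = l})) :
    ENNReal.ofReal (pW Q E) ≤ muT (Q.map rc) {h | E (bl h ∩ Mid)} := by
  have := hQ.prob
  have hM := meas_E hE.2
  have hrc : Measurable rc := A.s_rc.2.2.2.2.2.1
  rw [muT_apply _ hM]
  have h1 : ∀ k : ℤ, (Q.map rc) (odd k ⁻¹' {h | E (bl h ∩ Mid)}) =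
      Q {ω | E (bl (odd k (rc ω)) ∩ Mid)} := fun k => by
    rw [Measure.map_apply hrc (measurable_odd k hM)]
    rfl
  simp only [h1]
  have h2 : ENNReal.ofReal (pW Q E) = Q {ω | E (Wp (tau ω))} := by
    unfold pW
    rw [ofReal_measureReal]
  rw [h2]
  refine le_trans ?_ (measure_iUnion_le _)
  refine measure_mono_ae ?_
  filter_upwards [(A.s_sym Q hQ).2.2] with ω hω hE'
  obtain ⟨m, hm⟩ := hl _ _ (lev_Wp hω) hE'
  exact Set.mem_iUnion.2 ⟨_, hE.1 _ _ (sub_bl hω m) hm⟩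

open Classical in
/-- Integrals of indicators of local events which need a blocked edge. -/
theorem II_E {P : Measure (Pt → ℤ)} (hint : S_int P) {E' : Set Pt → Prop}
    {E : Set (ℤ × ℤ) → Prop} (hE : RSW.Loc E) (he : ∀ B, E' B ↔ E (B ∩ Mid)) (h0 : ¬ E' ∅) :
    II P (ind E') (fun _ => 1) = (muT P {h | E (bl h ∩ Mid)}).toReal ∧
      muT P {h | E (bl h ∩ Mid)} ≠ ⊤ := by
  have hs : {h : Hg | E' (bl h)} = {h | E (bl h ∩ Mid)} := by
    ext h; exact he (bl h)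
  have hM : MeasurableSet {h : Hg | E' (bl h)} := by rw [hs]; exact meas_E hE
  obtain ⟨Λ, hΛ⟩ := loc_fin hE
  have h1 := hint (ind E') (fun _ => 1) ⟨Λ, fun w _ => Set.mem_univ w, fun B B' hB => by
      unfold ind
      have : E' B ↔ E' B' := by
        rw [he, he]
        exact ⟨hΛ _ _ hB, hΛ _ _ fun w hw => (hB w hw).symm⟩
      simp only [this]⟩
    (by unfold ind; exact if_neg h0) Top.Pol.one
  have h2 : (fun h : Hg => ind E' (bl h) * (fun _ : Top.Om => (1 : ℝ)) (vm h)) =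
      {h : Hg | E' (bl h)}.indicator (fun _ => (1 : ℝ)) := by
    funext h
    by_cases h1 : E' (bl h)
    · rw [Set.indicator_of_mem (show h ∈ {h : Hg | E' (bl h)} from h1)]
      simp [ind, h1]
    · rw [Set.indicator_of_notMem (show h ∉ {h : Hg | E' (bl h)} from h1)]
      simp [ind, h1]
  rw [h2, integrable_indicator_iff hM] at h1
  have h1' := integrableOn_const_iff (by simp) |>.1 h1
  refine ⟨?_, ?_⟩
  · rw [II_ind hM, hs]; rfl
  · rw [← hs]
    rcases h1' with h1 | h1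
    · exact absurd h1 (by simp)
    · exact h1.ne

theorem not_ann (p q r : ℤ) : ¬ Ann p q r (∅ ∩ Mid) := by
  rintro ⟨⟨x, y, h, -, -⟩, -⟩
  exact h.left_mem.1.1

/-- The box of centres. -/
noncomputable def bN (N : ℕ) : Finset Pt := Finset.Icc (-(N : ℤ)) N ×ˢ Finset.Icc (-(N : ℤ)) N

theorem mem_bN {N : ℕ} {y : Pt} : y ∈ bN N ↔ |y.1| ≤ N ∧ |y.2| ≤ N := by
  rw [bN, Finset.mem_product, Finset.mem_Icc, Finset.mem_Icc, abs_le, abs_le]

/-- **POS.** -/
theorem s_pos (hQ : A.IsQ Q) (hint : S_int (Q.map rc))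
    (hR : ∃ c : ℝ, 0 < c ∧ ∃ r0 : ℤ, ∀ r : ℤ, r0 ≤ r → ∀ p q : ℤ, c ≤ pW Q (Ann p q r)) :
    S_pos (Q.map rc) := by
  intro N
  obtain ⟨c, hc, r0, h⟩ := hR
  set K : ℕ := N + 1 with hK
  set M : ℕ := 18 * K + 2 with hM
  refine ⟨c ^ (ix M).card, by positivity, max (4 * r0) 4, by
    exact le_trans (by norm_num) (le_max_right _ _), fun s hs y₀ m hm h1 h2 => ?_⟩
  have hab1 := abs_nonneg y₀.1
  have hab2 := abs_nonneg y₀.2
  have hs4 : 4 ≤ s := (le_max_right _ _).trans hs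
  have hs0 : 4 * r0 ≤ s := (le_max_left _ _).trans hs
  set r : ℤ := s / 2 with hr
  have hr1 : 2 * r ≤ s := by omega
  have hr2 : s ≤ 3 * r := by omega
  have hr3 : 0 < r := by omega
  have hr4 : r0 ≤ r := by omega
  -- the event
  have hG : IL (fun S => (∀ y ∈ bN N, Ann (s * y.1) (s * y.2) s S) ∧
      Ann (s * y₀.1) (s * y₀.2) (m * s) S) :=
    (IL_ball _ _ fun _ _ => IL_Ann _ _ _).and (IL_Ann _ _ _)
  obtain ⟨e1, e2⟩ := II_E hint (E' := fun B =>
      (∀ y : Pt, |y.1| ≤ N → |y.2| ≤ N → Zr (s * y.1, s * y.2) s B) ∧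
      Zr (s * y₀.1, s * y₀.2) (m * s) B) hG.2 (fun B => by
    constructor
    · rintro ⟨h3, h4⟩
      exact ⟨fun y hy => h3 y (mem_bN.1 hy).1 (mem_bN.1 hy).2, h4⟩
    · rintro ⟨h3, h4⟩
      exact ⟨fun y hy1 hy2 => h3 y (mem_bN.2 ⟨hy1, hy2⟩), h4⟩) (by
    rintro ⟨-, h4⟩
    exact not_ann _ _ _ h4)
  rw [e1, ← ENNReal.ofReal_le_iff_le_toReal e2]
  refine le_trans (ENNReal.ofReal_le_ofReal (net_ge hQ hc.le (h r hr4) M
    (-((9 * K + 1) * r)) (-((9 * K + 1) * r)))) ((muT_ge hQ (IL_Net _ _ _ _) fun S lev hl hN =>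
      hN.level hl hr3).trans (measure_mono ?_))
  intro x hx
  have hx' : Net r M (-((9 * K + 1) * r)) (-((9 * K + 1) * r)) (bl x ∩ Mid) := hx
  have hKs : (K : ℤ) * s ≤ K * (3 * r) := mul_le_mul_of_nonneg_left hr2 (by positivity)
  have hK0 : (0 : ℤ) ≤ K * r := by positivity
  have hNr : -((9 * (K : ℤ) + 1) * r) + ((M : ℤ) + 2) * r = 9 * (K * r) + 3 * r := by
    rw [hM]; push_cast; ring
  have h9 : -((9 * (K : ℤ) + 1) * r) + r = -(9 * (K * r)) := by ring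
  have key : ∀ p q u : ℤ, s ≤ u → u ≤ K * s → |p| ≤ K * s → |q| ≤ K * s →
      Ann p q u (bl x ∩ Mid) := by
    intro p q u h1 h2 h3 h4
    obtain ⟨h5, h6⟩ := abs_le.1 h3
    obtain ⟨h7, h8⟩ := abs_le.1 h4
    refine hx'.ann hr3 (by omega) ?_ ?_ ?_ ?_
    · rw [h9]; linarith
    · rw [hNr]; linarith
    · rw [h9]; linarith
    · rw [hNr]; linarith
  have hb : ∀ z : ℤ, |z| ≤ N → |s * z| ≤ (K : ℤ) * s := by
    intro z hz
    rw [abs_mul, abs_of_pos (by omega : 0 < s), hK]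
    push_cast
    nlinarith
  have hs1 : s ≤ (K : ℤ) * s := by
    rw [hK]; push_cast
    have : (0 : ℤ) ≤ (N : ℤ) * s := by positivity
    linarith
  refine ⟨fun y hy => key _ _ _ le_rfl hs1 (hb _ (mem_bN.1 hy).1) (hb _ (mem_bN.1 hy).2),
    key _ _ _ ?_ ?_ (hb _ (by omega)) (hb _ (by omega))⟩
  · nlinarith
  · have h3 : m ≤ (K : ℤ) := by rw [hK]; push_cast; omega
    exact mul_le_mul_of_nonneg_right h3 (by omega)

/-! ### The upper bound -/

/-- A circuit at level `0` has measure at most `2`. -/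
theorem muT_le {P : Measure (Pt → ℤ)} [IsProbabilityMeasure P] {p q r : ℤ} (hr : 0 < r) :
    muT P {h | Ann p q r (bl h ∩ Mid)} ≤ 2 := by
  classical
  have hM := meas_E (IL_Ann p q r).2
  rw [← lintegral_indicator_one hM, lintegral_muT (measurable_one.indicator hM)]
  have hpt : ∀ φ : Pt → ℤ, ∑' k : ℤ, {h : Hg | Ann p q r (bl h ∩ Mid)}.indicator
      (1 : Hg → ENNReal) (odd k φ) ≤ 2 := by
    intro φ
    have huniq : ∀ k k' : ℤ, Ann p q r (bl (odd k φ) ∩ Mid) → Ann p q r (bl (odd k' φ) ∩ Mid) →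
        |k - k'| ≤ 1 := by
      rintro k k' ⟨⟨x, x', hx, hxa, hxb⟩, -⟩ ⟨-, -, ⟨y, y', hy, hyc, hyd⟩, -⟩
      obtain ⟨z, hz1, hz2⟩ := meetHV (by omega) (by omega) (by omega) (by omega) hx hxa hxb hy
        hyc hyd
      obtain ⟨⟨⟨a, b, hab, hz, ha, hb⟩, -⟩, -⟩ := hz1.right_mem
      obtain ⟨⟨⟨a', b', hab', hz', ha', hb'⟩, -⟩, -⟩ := hz2.right_mem
      have h1 : |odd k' φ a| = 1 := by
        rcases Up.adj_mid hab hab' (hz.symm.trans hz') with ⟨e1, e2⟩ | ⟨e1, e2⟩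
        · rw [← e1]; exact ha'
        · rw [← e2]; exact hb'
      rw [abs_eq (by norm_num)] at ha h1
      unfold odd at ha h1
      rw [abs_le]
      omega
    by_cases hne : ∃ k, Ann p q r (bl (odd k φ) ∩ Mid)
    · obtain ⟨k₁, hk₁⟩ := hne
      have hkey : ∃ k₀ : ℤ, ∀ k, Ann p q r (bl (odd k φ) ∩ Mid) → k = k₀ ∨ k = k₀ + 1 := by
        by_cases h2 : Ann p q r (bl (odd (k₁ - 1) φ) ∩ Mid)
        · refine ⟨k₁ - 1, fun k hk => ?_⟩
          have h3 := abs_le.1 (huniq _ _ hk hk₁)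
          have h4 := abs_le.1 (huniq _ _ hk h2)
          omega
        · refine ⟨k₁, fun k hk => ?_⟩
          have h3 := abs_le.1 (huniq _ _ hk hk₁)
          have h4 : k ≠ k₁ - 1 := fun e => h2 (e ▸ hk)
          omega
      obtain ⟨k₀, hk₀⟩ := hkey
      rw [tsum_eq_sum (s := {k₀, k₀ + 1}) fun k hk => ?_]
      · refine (Finset.sum_le_sum (g := fun _ => (1 : ENNReal)) fun k _ => ?_).trans ?_
        · exact Set.indicator_le_self' (fun _ _ => zero_le) _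
        · rw [Finset.sum_const, nsmul_eq_mul, mul_one]
          have := Finset.card_le_two (a := k₀) (b := k₀ + 1)
          exact_mod_cast this
      · refine Set.indicator_of_notMem (fun hk' => hk ?_) _
        rw [Finset.mem_insert, Finset.mem_singleton]
        exact hk₀ k hk'
    · push Not at hne
      have : ∑' k : ℤ, {h : Hg | Ann p q r (bl h ∩ Mid)}.indicator
          (1 : Hg → ENNReal) (odd k φ) = 0 := by
        rw [ENNReal.tsum_eq_zero]
        intro k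
        exact Set.indicator_of_notMem (s := {h : Hg | Ann p q r (bl h ∩ Mid)})
          (fun hk' => hne k hk') _
      rw [this]
      exact zero_le
  calc _ ≤ ∫⁻ _φ, (2 : ENNReal) ∂P := lintegral_mono hpt
    _ = 2 := by rw [lintegral_const, measure_univ, mul_one]

/-- **RSW.** -/
theorem s_rsw (hQ : A.IsQ Q) (hint : S_int (Q.map rc))
    (hR : ∃ c : ℝ, 0 < c ∧ ∃ r0 : ℤ, ∀ r : ℤ, r0 ≤ r → ∀ p q : ℤ, c ≤ pW Q (Ann p q r)) :
    S_rsw (Q.map rc) := by
  have := hQ.prob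
  have hrc : Measurable rc := A.s_rc.2.2.2.2.2.1
  have hp : IsProbabilityMeasure (Q.map rc) := Measure.isProbabilityMeasure_map hrc.aemeasurable
  obtain ⟨c, hc, r0, h⟩ := hR
  refine ⟨c, hc, max r0 1, le_max_right _ _, fun r hr p => ?_⟩
  have hr1 : 0 < r := lt_of_lt_of_le one_pos ((le_max_right _ _).trans hr)
  obtain ⟨e1, e2⟩ := II_E hint (E' := Zr p r) (IL_Ann p.1 p.2 r).2 (fun B => Iff.rfl)
    (not_ann _ _ _)
  rw [e1]
  refine ⟨?_, ?_⟩
  · rw [← ENNReal.ofReal_le_iff_le_toReal e2]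
    exact (ENNReal.ofReal_le_ofReal (h r ((le_max_left _ _).trans hr) p.1 p.2)).trans
      (muT_ge hQ (IL_Ann _ _ _) fun S lev hl hA => Ann.lev hl hr1 hA)
  · have := ENNReal.toReal_mono (by norm_num) (muT_le (P := Q.map rc) (p := p.1) (q := p.2) hr1)
    simpa using this

end Vale.Agent.P153.F.X.PosT
end

section

/-!
P153-F: the logarithmic lower bound for the variances in finite domains with boundary values `0`
(Glazman and Manolescu) implies `0 < κ`.
-/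

namespace Vale.Agent.P153.F.GM

open Finset Filter Topology MeasureTheory ProbabilityTheory
open Vale.Agent.P153
open Vale.Agent.P153.F.X
open Vale.Agent.P153.F.Top (Om Cone ze vh)
open scoped ENNReal

/-- The indicator of the edge `w`. -/
noncomputable def iw (w : Pt) : Set Pt → ℝ := ind fun B => w ∈ B

theorem mem_bl {h : Hg} {x y : Pt} (hxy : Adj x y) :
    x + y ∈ bl h ↔ |h x| = 1 ∧ |h y| = 1 := by
  constructor
  · rintro ⟨x', y', h1, h2, h3, h4⟩
    rcases LE.edge_eq hxy h1 h2 with ⟨rfl, rfl⟩ | ⟨rfl, rfl⟩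
    · exact ⟨h3, h4⟩
    · exact ⟨h4, h3⟩
  · rintro ⟨h1, h2⟩
    exact ⟨x, y, hxy, rfl, h1, h2⟩

theorem fn_iw {w : Pt} {A : Set Pt} (hw : w ∈ A) : Fn A (iw w) := by
  classical
  refine ⟨fun B => ?_, ⟨{w}, fun v hv => ?_, fun B B' h => ?_⟩, ?_⟩
  · unfold iw ind; split_ifs <;> norm_num
  · rw [Finset.mem_singleton] at hv; rw [hv]; exact hw
  · unfold iw ind
    have := h w (Finset.mem_singleton_self w)
    by_cases h1 : w ∈ B
    · rw [if_pos h1, if_pos (this.1 h1)]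
    · rw [if_neg h1, if_neg fun h2 => h1 (this.2 h2)]
  · unfold iw ind
    rw [if_neg (Set.notMem_empty w)]

theorem meas_blk (x y : Pt) : MeasurableSet {h : Hg | |h x| = 1 ∧ |h y| = 1} := by
  have h1 : ∀ z : Pt, MeasurableSet {h : Hg | |h z| = 1} := fun z =>
    (measurable_pi_apply (X := fun _ : Pt => ℤ) z) (t := {n : ℤ | |n| = 1})
      (MeasurableSet.of_discrete)
  exact (h1 x).inter (h1 y)

/-- Integral against the law of the absolute heights. -/
theorem lint {P : Measure (Pt → ℤ)} {f : Hg → ℝ≥0∞} (hf : Measurable f) :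
    ∫⁻ h, f h ∂(muT P) = ∫⁻ φ, ∑' k : ℤ, f (odd k φ) ∂P := by
  rw [muT, lintegral_sum_measure]
  refine Eq.trans ?_
    (lintegral_tsum fun k => (hf.comp (measurable_odd k)).aemeasurable).symm
  exact tsum_congr fun k => lintegral_map hf (measurable_odd k)

theorem blk_iff {φ : Pt → ℤ} {x y : Pt} {k : ℤ} (h : |odd k φ x| = 1 ∧ |odd k φ y| = 1) :
    k = 1 - φ x ∨ k = -φ x := by
  have h1 := h.1
  unfold odd at h1
  rcases abs_eq (by norm_num : (0 : ℤ) ≤ 1) |>.1 h1 with h2 | h2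
  · left; omega
  · right; omega

/-- The number of levels at which an edge is blocked is at least one. -/
theorem one_le {φ : Pt → ℤ} {x y : Pt} (hφ : |φ x - φ y| ≤ 1) :
    (1 : ℝ≥0∞) ≤ ∑' k : ℤ, {h : Hg | |h x| = 1 ∧ |h y| = 1}.indicator 1 (odd k φ) := by
  rw [abs_le] at hφ
  by_cases h1 : φ y = φ x + 1
  · refine le_trans ?_ (ENNReal.le_tsum (-φ x))
    rw [Set.indicator_of_mem]
    · rfl
    · show |odd _ φ x| = 1 ∧ |odd _ φ y| = 1
      unfold odd
      constructor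
      · rw [show 2 * φ x + 2 * -φ x - 1 = -1 by ring]; rfl
      · rw [h1, show 2 * (φ x + 1) + 2 * -φ x - 1 = 1 by ring]; rfl
  · refine le_trans ?_ (ENNReal.le_tsum (1 - φ x))
    rw [Set.indicator_of_mem]
    · rfl
    · show |odd _ φ x| = 1 ∧ |odd _ φ y| = 1
      unfold odd
      have h2 : φ y = φ x ∨ φ y = φ x - 1 := by omega
      constructor
      · rw [show 2 * φ x + 2 * (1 - φ x) - 1 = 1 by ring]; rfl
      · rcases h2 with h2 | h2
        · rw [h2, show 2 * φ x + 2 * (1 - φ x) - 1 = 1 by ring]; rfl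
        · rw [h2, show 2 * (φ x - 1) + 2 * (1 - φ x) - 1 = -1 by ring]; rfl

/-- The number of levels at which an edge is blocked is at most two, with a weight which does not
depend on the level. -/
theorem le_two {φ : Pt → ℤ} {x y : Pt} {f : Hg → ℝ≥0∞} {b : ℝ≥0∞}
    (hf : ∀ k, |odd k φ x| = 1 ∧ |odd k φ y| = 1 → f (odd k φ) ≤ b)
    (h0 : ∀ k, ¬ (|odd k φ x| = 1 ∧ |odd k φ y| = 1) → f (odd k φ) = 0) :
    ∑' k : ℤ, f (odd k φ) ≤ 2 * b := by
  classical
  have h1 : ∀ k : ℤ, k ∉ ({1 - φ x, -φ x} : Finset ℤ) → f (odd k φ) = 0 := by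
    intro k hk
    refine h0 k fun h => hk ?_
    rw [Finset.mem_insert, Finset.mem_singleton]
    exact blk_iff h
  rw [tsum_eq_sum h1]
  have h2 : (1 - φ x) ≠ -φ x := by omega
  rw [Finset.sum_pair h2, two_mul]
  have h3 : ∀ k, f (odd k φ) ≤ b := fun k => by
    by_cases h : |odd k φ x| = 1 ∧ |odd k φ y| = 1
    · exact hf k h
    · rw [h0 k h]; exact bot_le
  exact add_le_add (h3 _) (h3 _)

/-- The square of the height at `0`. -/
noncomputable def sq0 : Om → ℝ := fun ω => (([0, 0] : List Pt).map ω).prod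

theorem sq0_eq (ω : Om) : sq0 ω = ω 0 ^ 2 := by
  unfold sq0; simp; ring

theorem cone_sq0 : Cone sq0 := Top.Pol.mon _

/-- The upper bound for the second moment in a finite domain. -/
theorem ze_le {P : Measure (Pt → ℤ)} (hP : GFF.Plane P) {F : Finset Pt} {x y : Pt}
    (hx : x ∉ F) (hy : y ∉ F) (hxy : Adj x y)
    (hint : Integrable (fun φ : Pt → ℤ => (φ x : ℝ) ^ 2) P) :
    ze F sq0 ≤ 16 * (∫ φ, (φ x : ℝ) ^ 2 ∂P) + 4 := by
  have hpr := hP.prob
  have hI := s_int hP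
  set w : Pt := x + y with hw
  have hwF : w ∈ (tE (F : Set Pt))ᶜ := by
    rintro ⟨a, ha, b, hab, h1⟩
    rcases LE.edge_eq hxy hab h1 with ⟨rfl, rfl⟩ | ⟨rfl, rfl⟩
    · exact hx ha
    · exact hy ha
  have hlow := s_low hP hI F (iw w) sq0 (fn_iw hwF) cone_sq0
  have hiw : ∀ h : Hg, iw w (bl h) = {h : Hg | |h x| = 1 ∧ |h y| = 1}.indicator 1 h := by
    intro h
    unfold iw ind
    by_cases h1 : w ∈ bl h
    · rw [if_pos h1, Set.indicator_of_mem (show h ∈ {h : Hg | |h x| = 1 ∧ |h y| = 1} from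
        (mem_bl hxy).1 h1)]
      rfl
    · rw [if_neg h1, Set.indicator_of_notMem (show h ∉ {h : Hg | |h x| = 1 ∧ |h y| = 1} from
        fun h2 => h1 ((mem_bl hxy).2 h2))]
  have hms : Measurable fun h : Hg => ({h : Hg | |h x| = 1 ∧ |h y| = 1}.indicator 1 h : ℝ) :=
    measurable_one.indicator (meas_blk x y)
  have hm0 : Measurable fun h : Hg => ((h 0 : ℤ) : ℝ) :=
    (measurable_from_top (f := fun z : ℤ => (z : ℝ))).comp (measurable_pi_apply 0)
  -- the mass is at least one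
  have hone : 1 ≤ II P (iw w) (fun _ => 1) := by
    have hi := hI (iw w) (fun _ => 1) (fn_iw (Set.mem_univ w)).loc (fn_iw (Set.mem_univ w)).pin
      (Top.Pol.mon (P := fun _ => True) [])
    unfold II
    have h1 : ENNReal.ofReal (∫ h, iw w (bl h) * 1 ∂(muT P)) =
        ∫⁻ h, ENNReal.ofReal (iw w (bl h) * 1) ∂(muT P) :=
      ofReal_integral_eq_lintegral_ofReal hi (ae_of_all _ fun h => by
        simp only [mul_one]; exact (fn_iw (Set.mem_univ w)).nonneg _)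
    have h2 : ∫⁻ h, ENNReal.ofReal (iw w (bl h) * 1) ∂(muT P) =
        ∫⁻ h, {h : Hg | |h x| = 1 ∧ |h y| = 1}.indicator 1 h ∂(muT P) := by
      refine lintegral_congr fun h => ?_
      rw [mul_one, hiw]
      by_cases h3 : h ∈ {h : Hg | |h x| = 1 ∧ |h y| = 1}
      · rw [Set.indicator_of_mem h3, Set.indicator_of_mem h3]; simp
      · rw [Set.indicator_of_notMem h3, Set.indicator_of_notMem h3]; simp
    have h3 : (1 : ℝ≥0∞) ≤ ∫⁻ h, {h : Hg | |h x| = 1 ∧ |h y| = 1}.indicator 1 h ∂(muT P) := by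
      rw [lint (measurable_one.indicator (meas_blk x y))]
      calc (1 : ℝ≥0∞) = ∫⁻ _φ, 1 ∂P := by rw [lintegral_const, measure_univ, mul_one]
        _ ≤ _ := by
          refine lintegral_mono_ae ?_
          filter_upwards [hP.lip] with φ hφ
          exact one_le (hφ x y hxy)
    rw [← h2, ← h1, ENNReal.one_le_ofReal] at h3
    exact h3
  -- the weighted second moment
  have hup : II P (iw w) sq0 ≤ 16 * (∫ φ, (φ x : ℝ) ^ 2 ∂P) + 4 := by
    have hi := hI (iw w) sq0 (fn_iw (Set.mem_univ w)).loc (fn_iw (Set.mem_univ w)).pin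
      (Top.Pol.mon (P := fun _ => True) [0, 0])
    have e0 : ∀ h : Hg, iw w (bl h) * sq0 (vm h) =
        {h : Hg | |h x| = 1 ∧ |h y| = 1}.indicator 1 h * ((h 0 : ℤ) : ℝ) ^ 2 := fun h => by
      rw [hiw, sq0_eq]; rfl
    have hnn : ∀ h : Hg, 0 ≤ iw w (bl h) * sq0 (vm h) := fun h => by
      rw [sq0_eq]
      exact mul_nonneg ((fn_iw (Set.mem_univ w)).nonneg _) (sq_nonneg _)
    have h1 : ENNReal.ofReal (∫ h, iw w (bl h) * sq0 (vm h) ∂(muT P)) =
        ∫⁻ h, ENNReal.ofReal (iw w (bl h) * sq0 (vm h)) ∂(muT P) :=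
      ofReal_integral_eq_lintegral_ofReal hi (ae_of_all _ hnn)
    have h2 : ∫⁻ h, ENNReal.ofReal (iw w (bl h) * sq0 (vm h)) ∂(muT P) =
        ∫⁻ φ, ∑' k : ℤ, ENNReal.ofReal
          ({h : Hg | |h x| = 1 ∧ |h y| = 1}.indicator 1 (odd k φ) *
            ((odd k φ 0 : ℤ) : ℝ) ^ 2) ∂P := by
      rw [← lint (f := fun h => ENNReal.ofReal
        ({h : Hg | |h x| = 1 ∧ |h y| = 1}.indicator 1 h * ((h 0 : ℤ) : ℝ) ^ 2))
        (ENNReal.measurable_ofReal.comp (hms.mul (hm0.pow_const 2)))]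
      exact lintegral_congr fun h => by rw [e0]
    have h3 : ∫⁻ φ, ∑' k : ℤ, ENNReal.ofReal
          ({h : Hg | |h x| = 1 ∧ |h y| = 1}.indicator 1 (odd k φ) *
            ((odd k φ 0 : ℤ) : ℝ) ^ 2) ∂P ≤
        ∫⁻ φ, 2 * ENNReal.ofReal (8 * (φ x : ℝ) ^ 2 + 2) ∂P := by
      refine lintegral_mono_ae ?_
      filter_upwards [hP.zero] with φ h0
      refine le_two (x := x) (y := y) (f := fun h => ENNReal.ofReal
        ({h : Hg | |h x| = 1 ∧ |h y| = 1}.indicator 1 h * ((h 0 : ℤ) : ℝ) ^ 2)) ?_ ?_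
      · intro k hk
        refine ENNReal.ofReal_le_ofReal ?_
        rw [Set.indicator_of_mem (show odd k φ ∈ {h : Hg | |h x| = 1 ∧ |h y| = 1} from hk)]
        have h4 : odd k φ 0 = 2 * k - 1 := by unfold odd; rw [h0]; ring
        have h5 : ((odd k φ 0 : ℤ) : ℝ) = 2 * (k : ℝ) - 1 := by rw [h4]; push_cast; ring
        rw [Pi.one_apply, one_mul, h5]
        rcases blk_iff hk with h6 | h6
        · rw [h6]; push_cast; nlinarith [sq_nonneg ((φ x : ℝ) + 1 / 2), sq_nonneg ((φ x : ℝ) + 1)]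
        · rw [h6]; push_cast; nlinarith [sq_nonneg ((φ x : ℝ) - 1 / 2), sq_nonneg ((φ x : ℝ) - 1)]
      · intro k hk
        show ENNReal.ofReal _ = 0
        rw [Set.indicator_of_notMem (show odd k φ ∉ {h : Hg | |h x| = 1 ∧ |h y| = 1} from hk),
          zero_mul, ENNReal.ofReal_zero]
    have hi2 : Integrable (fun φ : Pt → ℤ => 8 * (φ x : ℝ) ^ 2 + 2) P :=
      (hint.const_mul 8).add (integrable_const 2)
    have h7 : ∫⁻ φ, 2 * ENNReal.ofReal (8 * (φ x : ℝ) ^ 2 + 2) ∂P =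
        ENNReal.ofReal (16 * (∫ φ, (φ x : ℝ) ^ 2 ∂P) + 4) := by
      rw [lintegral_const_mul' 2 _ (by norm_num), ← ofReal_integral_eq_lintegral_ofReal hi2
        (ae_of_all _ fun φ => by positivity), integral_add (hint.const_mul 8) (integrable_const 2),
        integral_const_mul, integral_const, probReal_univ, smul_eq_mul, one_mul]
      rw [show (2 : ℝ≥0∞) = ENNReal.ofReal 2 by norm_num, ← ENNReal.ofReal_mul (by norm_num)]
      congr 1; ring
    have h8 := h1.le.trans (h2.le.trans (h3.trans h7.le))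
    have h9 : (0 : ℝ) ≤ 16 * (∫ φ, (φ x : ℝ) ^ 2 ∂P) + 4 := by
      have : 0 ≤ ∫ φ, (φ x : ℝ) ^ 2 ∂P := integral_nonneg fun φ => sq_nonneg _
      linarith
    exact (ENNReal.ofReal_le_ofReal_iff h9).1 h8
  have hz : 0 ≤ ze F sq0 := by
    unfold ze ev
    refine div_nonneg (Finset.sum_nonneg fun h _ => ?_) (Nat.cast_nonneg _)
    rw [sq0_eq]; positivity
  nlinarith

/-- Integer Lipschitz functions with the value `0` off `D`. -/
def Lip0 (D : Finset (ℤ × ℤ)) : Set (ℤ × ℤ → ℤ) :=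
  {φ | (∀ x, x ∉ D → φ x = 0) ∧ ∀ x y, Adj x y → |φ x - φ y| ≤ 1}

theorem lip0_eq (D : Finset Pt) :
    Lip0 D = (fun (h : Pt → ℤ) x => (h x - 1) / 2) '' (Cplus D : Set (Pt → ℤ)) := by
  ext φ
  constructor
  · rintro ⟨h1, h2⟩
    refine ⟨fun x => 2 * φ x + 1, ?_, ?_⟩
    · rw [Finset.mem_coe, Cplus, mem_ConfF]
      refine ⟨⟨fun x => ⟨φ x, rfl⟩, fun x y hxy => ?_⟩, fun x hx => ?_⟩
      · show |(2 * φ x + 1) - (2 * φ y + 1)| ≤ 2
        have := h2 x y hxy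
        rw [abs_le] at this ⊢; omega
      · show 2 * φ x + 1 = 1
        rw [h1 x hx]; norm_num
    · funext x
      show (2 * φ x + 1 - 1) / 2 = φ x
      omega
  · rintro ⟨h, hh, rfl⟩
    rw [Finset.mem_coe, Cplus, mem_ConfF] at hh
    obtain ⟨⟨h1, h2⟩, h3⟩ := hh
    refine ⟨fun x hx => ?_, fun x y hxy => ?_⟩
    · show (h x - 1) / 2 = 0
      rw [h3 x hx]; norm_num
    · show |(h x - 1) / 2 - (h y - 1) / 2| ≤ 1
      obtain ⟨a, ha⟩ := h1 x
      obtain ⟨b, hb⟩ := h1 y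
      have := h2 x y hxy
      rw [ha, hb] at this ⊢
      rw [abs_le] at this ⊢; omega

/-- The second moment at `0` with the boundary values `0` is bounded by the second moments in the
plane. -/
theorem mom_le {P : Measure (Pt → ℤ)} (hP : GFF.Plane P) {D : Finset Pt} {x y : Pt}
    (h0 : (0 : Pt) ∈ D) (hx : x ∉ D) (hy : y ∉ D) (hxy : Adj x y) :
    ∫ h, ((h 0 : ℤ) : ℝ) ^ 2 ∂(uniformOn (Lip0 D)) ≤
      16 * (∫ φ, (φ x : ℝ) ^ 2 ∂P) + 9 := by
  classical
  have hint : Integrable (fun φ : Pt → ℤ => (φ x : ℝ) ^ 2) P := by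
    simpa only [sq] using CLT.integrable_mul_coord hP x x
  have hz := ze_le hP hx hy hxy hint
  have hz1 : ze D sq0 = ev (FreeF D (clo D)) (fun h => ((h 0 : ℤ) : ℝ) ^ 2) := by
    unfold ze
    congr 1
    funext h
    rw [sq0_eq]
    unfold vh
    rw [if_pos h0]
  rw [hz1] at hz
  have hlin : ∀ h : Pt → ℤ, lin {0} (fun _ => (1 : ℝ)) h = ((h 0 : ℤ) : ℝ) := fun h => by
    unfold lin; simp
  have hpn : (Cplus D).Nonempty := nonempty_ConfF _ _ _
  have hr := rms_between D {0} (Cplus D) (FreeF D (clo D)) hpn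
    (nonempty_free _ _) (between_conf _ _ _) (between_free D _ (sub_clo D)) (fun _ => 1)
    (fun _ _ => zero_le_one) 0
  simp only [hlin, sub_zero, Finset.sum_singleton, mul_one] at hr
  set A := ev (Cplus D) (fun h : Pt → ℤ => ((h 0 : ℤ) : ℝ) ^ 2) with hA
  set B := ev (FreeF D (clo D)) (fun h : Pt → ℤ => ((h 0 : ℤ) : ℝ) ^ 2) with hB
  have hA0 : 0 ≤ A := ev_nonneg _ _ fun _ _ => sq_nonneg _
  have hB0 : 0 ≤ B := ev_nonneg _ _ fun _ _ => sq_nonneg _
  have hAB : A ≤ 2 * B + 8 := by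
    have h1 := Real.sq_sqrt hA0
    have h2 := Real.sq_sqrt hB0
    have h3 := Real.sqrt_nonneg A
    have h4 := Real.sqrt_nonneg B
    nlinarith [sq_nonneg (√B - 2), mul_self_le_mul_self h3 hr]
  set L : Finset (Pt → ℤ) := (Cplus D).image fun (h : Pt → ℤ) x => (h x - 1) / 2 with hL
  have hLc : (L : Set (Pt → ℤ)) = Lip0 D := by
    rw [hL, Finset.coe_image, lip0_eq]
  have hinj : Set.InjOn (fun (h : Pt → ℤ) (x : Pt) => (h x - 1) / 2)
      (Cplus D : Set (Pt → ℤ)) := by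
    intro h hh g hg hhg
    rw [Finset.mem_coe, Cplus, mem_ConfF] at hh hg
    funext z
    have h1 := congrFun hhg z
    simp only at h1
    obtain ⟨a, ha⟩ := hh.1.1 z
    obtain ⟨b, hb⟩ := hg.1.1 z
    omega
  rw [← hLc]
  have e1 : ∫ h, ((h 0 : ℤ) : ℝ) ^ 2 ∂(uniformOn (L : Set (Pt → ℤ))) =
      ev (Cplus D) (fun h : Pt → ℤ => ((((h 0 - 1) / 2 : ℤ)) : ℝ) ^ 2) := by
    rw [integral_uniformOn]
    unfold ev
    rw [hL, Finset.sum_image hinj, Finset.card_image_of_injOn hinj]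
  rw [e1]
  have e2 : ev (Cplus D) (fun h : Pt → ℤ => ((((h 0 - 1) / 2 : ℤ)) : ℝ) ^ 2) ≤
      ev (Cplus D) (fun h : Pt → ℤ => (1 / 2) * ((h 0 : ℤ) : ℝ) ^ 2 + 1 / 2) := by
    refine ev_mono _ _ _ fun h hh => ?_
    rw [Cplus, mem_ConfF] at hh
    obtain ⟨a, ha⟩ := hh.1.1 0
    rw [ha]
    have h5 : (2 * a + 1 - 1) / 2 = a := by omega
    rw [h5]
    push_cast
    nlinarith [sq_nonneg ((a : ℝ) + 1)]
  refine e2.trans ?_
  rw [ev_add, ev_const_mul, ev_const _ hpn]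
  linarith

theorem finite_lip0 (D : Finset Pt) : (Lip0 D).Finite ∧ (Lip0 D).Nonempty := by
  rw [lip0_eq]
  exact ⟨(Finset.finite_toSet _).image _, (Finset.coe_nonempty.2 (nonempty_ConfF _ _ _)).image _⟩

theorem hexa_aux (n : ℕ) : (0 : Pt) ∈ GFF.hexa n ∧ (((n : ℤ) + 1, 0) : Pt) ∉ GFF.hexa n ∧
    (((n : ℤ) + 2, 0) : Pt) ∉ GFF.hexa n ∧ Adj (((n : ℤ) + 1, 0) : Pt) ((n : ℤ) + 2, 0) := by
  refine ⟨?_, ?_, ?_, ?_⟩
  · unfold GFF.hexa
    simp only [Finset.mem_filter, Finset.mem_product, Finset.mem_Icc, Prod.fst_zero,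
      Prod.snd_zero]
    refine ⟨⟨⟨by omega, by omega⟩, by omega, by omega⟩, by simp⟩
  · unfold GFF.hexa
    simp only [Finset.mem_filter, Finset.mem_product, Finset.mem_Icc]
    omega
  · unfold GFF.hexa
    simp only [Finset.mem_filter, Finset.mem_product, Finset.mem_Icc]
    omega
  · unfold Adj
    simp only [Set.mem_insert_iff, Set.mem_singleton_iff, Prod.mk.injEq]
    left; constructor <;> ring

/-- Logarithmic growth of the second moments in the plane implies `0 < κ`. -/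
theorem pos_core {P : Measure (Pt → ℤ)} {κ : ℝ} (hκ : 0 ≤ κ)
    (hlog : Tendsto (fun x : ℤ × ℤ => (∫ φ, ((φ x : ℤ) : ℝ) ^ 2 ∂(P.map GFF.dbl)) /
      Real.log (GFF.len x)) cofinite (𝓝 (κ / Real.pi))) {c : ℝ} (hc : 0 < c)
    (h : ∀ᶠ n : ℕ in atTop, c * Real.log n ≤
      16 * (∫ φ : Pt → ℤ, ((φ (((2 * n : ℕ) : ℤ) + 1, 0) : ℤ) : ℝ) ^ 2 ∂P) + 9) : 0 < κ := by
  refine lt_of_le_of_ne hκ fun h0 => ?_
  rw [← h0, zero_div] at hlog
  have hinj : Function.Injective fun n : ℕ => ((((2 * n : ℕ) : ℤ) + 1, 0) : ℤ × ℤ) := by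
    intro a b hab
    have := congrArg Prod.fst hab
    simp only at this
    omega
  have h1 := hlog.comp (hinj.tendsto_cofinite)
  rw [Nat.cofinite_eq_atTop] at h1
  have hev : ∀ x : Pt, ∫ φ, ((φ x : ℤ) : ℝ) ^ 2 ∂(P.map GFF.dbl) =
      4 * ∫ φ, ((φ x : ℤ) : ℝ) ^ 2 ∂P := by
    intro x
    have hmx : Measurable fun φ : Pt → ℤ => ((φ x : ℤ) : ℝ) ^ 2 :=
      ((measurable_from_top (f := fun z : ℤ => (z : ℝ))).comp (measurable_pi_apply x)).pow_const 2
    rw [integral_map GFF.measurable_dbl.aemeasurable hmx.aestronglyMeasurable,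
      ← integral_const_mul]
    refine integral_congr_ae (ae_of_all _ fun φ => ?_)
    show (((GFF.dbl φ x : ℤ)) : ℝ) ^ 2 = 4 * ((φ x : ℤ) : ℝ) ^ 2
    unfold GFF.dbl
    push_cast; ring
  have h2 : ∀ᶠ n : ℕ in atTop,
      (4 * ∫ φ : Pt → ℤ, ((φ (((2 * n : ℕ) : ℤ) + 1, 0) : ℤ) : ℝ) ^ 2 ∂P) /
      Real.log (GFF.len (((2 * n : ℕ) : ℤ) + 1, 0)) < c / 16 := by
    have := h1.eventually_lt_const (show (0 : ℝ) < c / 16 by positivity)
    refine this.mono fun n hn => ?_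
    simp only [Function.comp_def] at hn
    rwa [hev] at hn
  have h3 : Tendsto (fun n : ℕ => Real.log (n : ℝ)) atTop atTop :=
    Real.tendsto_log_atTop.comp tendsto_natCast_atTop_atTop
  have h4 : ∀ᶠ n : ℕ in atTop, 36 / c < Real.log (n : ℝ) := h3.eventually_gt_atTop _
  obtain ⟨n, hn2, hn4, hn1, hn3⟩ := (h2.and (h4.and (h.and (eventually_ge_atTop 3)))).exists
  have hlen : GFF.len (((2 * n : ℕ) : ℤ) + 1, 0) = 2 * (n : ℝ) + 1 := by
    unfold GFF.len
    have : (((((2 * n : ℕ) : ℤ) + 1 : ℤ)) : ℝ) = 2 * (n : ℝ) + 1 := by push_cast; ring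
    simp only [this, Int.cast_zero, mul_zero, add_zero, ne_eq, OfNat.ofNat_ne_zero,
      not_false_eq_true, zero_pow]
    exact Real.sqrt_sq (by positivity)
  rw [hlen] at hn2
  have hnr : (3 : ℝ) ≤ n := by exact_mod_cast hn3
  have hlp : 0 < Real.log (2 * (n : ℝ) + 1) := Real.log_pos (by linarith)
  have hl2 : Real.log (2 * (n : ℝ) + 1) ≤ 2 * Real.log n := by
    rw [← Real.log_rpow (by linarith), Real.rpow_two]
    exact Real.log_le_log (by linarith) (by nlinarith)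
  rw [div_lt_iff₀ hlp] at hn2
  rw [div_lt_iff₀ hc] at hn4
  nlinarith

/-- The theorem of Glazman and Manolescu at the centre of the hexagons: the variance of the
uniform Lipschitz function with boundary values `0` grows at least logarithmically. -/
def LogVar : Prop := ∃ c : ℝ, 0 < c ∧ ∃ n₀ : ℕ, ∀ n : ℕ, n₀ ≤ n →
  c * Real.log n ≤ variance (fun φ : ℤ × ℤ → ℤ => ((φ 0 : ℤ) : ℝ)) (uniformOn (Lip0 (GFF.hexa n)))

/-- The logarithmic growth of the variances implies `0 < κ`. -/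
theorem pos_of_logVar {P : Measure (Pt → ℤ)} {κ : ℝ} (hP : GFF.Plane P) (hκ : 0 ≤ κ)
    (hlog : Tendsto (fun x : ℤ × ℤ => (∫ φ, ((φ x : ℤ) : ℝ) ^ 2 ∂(P.map GFF.dbl)) /
      Real.log (GFF.len x)) cofinite (𝓝 (κ / Real.pi)))
    (hGM : LogVar) : 0 < κ := by
  obtain ⟨c, hc, n₀, hn₀⟩ := hGM
  refine pos_core hκ hlog hc ?_
  filter_upwards [eventually_ge_atTop n₀, eventually_ge_atTop 1] with n h1 h2
  obtain ⟨q1, q2, q3, q4⟩ := hexa_aux (2 * n)
  have hm0 : Measurable fun h : Pt → ℤ => ((h 0 : ℤ) : ℝ) :=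
    (measurable_from_top (f := fun z : ℤ => (z : ℝ))).comp (measurable_pi_apply 0)
  have : IsProbabilityMeasure (uniformOn (Lip0 (GFF.hexa (2 * n)))) :=
    isProbabilityMeasure_uniformOn (finite_lip0 _).1 (finite_lip0 _).2
  have h3 := hn₀ (2 * n) (by omega)
  have h4 : variance (fun φ : ℤ × ℤ → ℤ => ((φ 0 : ℤ) : ℝ))
      (uniformOn (Lip0 (GFF.hexa (2 * n)))) ≤
      ∫ h, ((h 0 : ℤ) : ℝ) ^ 2 ∂(uniformOn (Lip0 (GFF.hexa (2 * n)))) :=
    variance_le_expectation_sq hm0.aestronglyMeasurable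
  have h5 : Real.log (n : ℝ) ≤ Real.log ((2 * n : ℕ) : ℝ) := by
    have : (1 : ℝ) ≤ n := by exact_mod_cast h2
    refine Real.log_le_log (by linarith) ?_
    push_cast; linarith
  have h6 := mom_le hP q1 q2 q3 q4
  have h7 := mul_le_mul_of_nonneg_left h5 hc.le
  exact h7.trans (h3.trans (h4.trans h6))

/-- The theorem of Glazman and Manolescu: in every finite domain with connected complement, the
second moment at `0` of the uniform Lipschitz function with boundary values `0` grows at least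
logarithmically in the distance to the boundary. -/
theorem pos_of_gm {P : Measure (Pt → ℤ)} {κ : ℝ} (hP : GFF.Plane P) (hκ : 0 ≤ κ)
    (hlog : Tendsto (fun x : ℤ × ℤ => (∫ φ, ((φ x : ℤ) : ℝ) ^ 2 ∂(P.map GFF.dbl)) /
      Real.log (GFF.len x)) cofinite (𝓝 (κ / Real.pi)))
    (hGM : ∃ c > 0, ∀ (D : Finset (ℤ × ℤ)) (n : ℕ),
      (∀ x y, x ∉ D → y ∉ D → Relation.ReflTransGen (fun u v => GFF.Adj u v ∧ v ∉ D) x y) →
      (∀ x, GFF.len x ≤ n → x ∈ D) →
      c * Real.log n ≤ ∫ h, (h 0 : ℝ) ^ 2 ∂uniformOn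
        {h : ℤ × ℤ → ℤ | (∀ x, x ∉ D → h x = 0) ∧ ∀ x y, GFF.Adj x y → |h x - h y| ≤ 1}) :
    0 < κ := by
  obtain ⟨c, hc, h⟩ := hGM
  refine pos_core hκ hlog hc (Eventually.of_forall fun n => ?_)
  obtain ⟨q1, q2, q3, q4⟩ := hexa_aux (2 * n)
  refine (h (GFF.hexa (2 * n)) n (fun x y hx hy => (A.Cc22.cc_hexa _ x y hx hy).2)
    fun x hx => ?_).trans (mom_le hP q1 q2 q3 q4)
  rw [A.Cc22.mem_hexa]
  unfold GFF.len at hx
  rw [Real.sqrt_le_left (by positivity)] at hx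
  have e1 : (x.1 : ℝ) ^ 2 ≤ (2 * n) ^ 2 := by nlinarith [sq_nonneg ((x.1 : ℝ) + 2 * x.2)]
  have e2 : (x.2 : ℝ) ^ 2 ≤ (2 * n) ^ 2 := by nlinarith [sq_nonneg (2 * (x.1 : ℝ) + x.2)]
  have e3 : ((x.1 : ℝ) + x.2) ^ 2 ≤ (2 * n) ^ 2 := by nlinarith [sq_nonneg ((x.1 : ℝ) - x.2)]
  have f1 := abs_le_of_sq_le_sq' e1 (by positivity)
  have f2 := abs_le_of_sq_le_sq' e2 (by positivity)
  have f3 := abs_le_of_sq_le_sq' e3 (by positivity)
  rw [abs_le]
  push_cast
  exact ⟨⟨by exact_mod_cast f1.1, by exact_mod_cast f1.2⟩,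
    ⟨by exact_mod_cast f2.1, by exact_mod_cast f2.2⟩,
    by exact_mod_cast f3.1, by exact_mod_cast f3.2⟩

end Vale.Agent.P153.F.GM
end
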