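import Mathlib
import Vale.Agent.P153.Bd5.B11
import Vale.Agent.P153.Bd5.B8
import Vale.Agent.P153.Bd5.B15
import Vale.Agent.P153.Bd5.B16
import Vale.Agent.P153.Bd5.B19
import Vale.Agent.P153.Bd5.B13
import Vale.Agent.P153.Bd5.B12
import Vale.Agent.P153.Bd5.B1
import Vale.Agent.P153.Bd5.B4
import Vale.Agent.P153.Bd5.B9
import Vale.Agent.P153.Bd5.B20
import Vale.Agent.P153.Bd5.B21

set_option linter.all false

section

/-!
# The variogram of a plane measure satisfies the hypotheses of the reflection positivity part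
-/

open MeasureTheory Filter Topology

namespace Vale.Agent.P153.RP

open Vale.Agent.P153.CLT

/-- The variogram as a function on `Fin 2 → ℤ`. -/
noncomputable def Vf (P : Measure (ℤ × ℤ → ℤ)) (x : Fin 2 → ℤ) : ℝ := GFF.var2 P (x 0, x 1)

variable {P : Measure (ℤ × ℤ → ℤ)}

/-- Mean square differences. -/
theorem msd_gen (hP : GFF.Plane P) (u v : ℤ × ℤ) :
    ∫ φ, (((φ u : ℤ) : ℝ) - ((φ v : ℤ) : ℝ)) ^ 2 ∂P = GFF.var2 P (u - v) := by
  unfold GFF.var2
  have h1 := Plane.integral_shift hP v (fun φ => ((φ (u - v) : ℤ) : ℝ) ^ 2)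
    ((measurable_coord _).pow_const 2)
  rw [← h1]
  refine integral_congr_ae (Eventually.of_forall fun φ => ?_)
  unfold GFF.shift
  simp only [sub_add_cancel]
  push_cast
  ring

theorem integrable_msd (hP : GFF.Plane P) (u v : ℤ × ℤ) :
    Integrable (fun φ => (((φ u : ℤ) : ℝ) - ((φ v : ℤ) : ℝ)) ^ 2) P := by
  have e : (fun φ : ℤ × ℤ → ℤ => (((φ u : ℤ) : ℝ) - ((φ v : ℤ) : ℝ)) ^ 2) =
      fun φ => ((φ u : ℤ) : ℝ) * ((φ u : ℤ) : ℝ) - (((φ u : ℤ) : ℝ) * ((φ v : ℤ) : ℝ) +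
        ((φ u : ℤ) : ℝ) * ((φ v : ℤ) : ℝ)) + ((φ v : ℤ) : ℝ) * ((φ v : ℤ) : ℝ) := by
    funext φ; ring
  rw [e]
  exact ((integrable_mul_coord hP _ _).sub ((integrable_mul_coord hP _ _).add
    (integrable_mul_coord hP _ _))).add (integrable_mul_coord hP _ _)

/-- Neutral bilinear forms. -/
theorem bilin_gen (hP : GFF.Plane P) {κ κ' : Type*} [Fintype κ] [Fintype κ'] (f : κ → ℤ × ℤ)
    (g : κ' → ℤ × ℤ) (a : κ → ℝ) (b : κ' → ℝ) (ha : ∑ k, a k = 0) (hb : ∑ k, b k = 0) :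
    ∫ φ, (∑ k, a k * ((φ (f k) : ℤ) : ℝ)) * (∑ l, b l * ((φ (g l) : ℤ) : ℝ)) ∂P =
      -(1 / 2) * ∑ k, ∑ l, a k * b l * GFF.var2 P (f k - g l) := by
  have hpt : ∀ φ : ℤ × ℤ → ℤ, (∑ k, a k * ((φ (f k) : ℤ) : ℝ)) *
      (∑ l, b l * ((φ (g l) : ℤ) : ℝ)) =
      -(1 / 2) * ∑ k, ∑ l, a k * b l * (((φ (f k) : ℤ) : ℝ) - ((φ (g l) : ℤ) : ℝ)) ^ 2 := by
    intro φ
    have e1 : ∑ k, ∑ l, a k * b l * (((φ (f k) : ℤ) : ℝ) - ((φ (g l) : ℤ) : ℝ)) ^ 2 =
        (∑ k, a k * ((φ (f k) : ℤ) : ℝ) ^ 2) * (∑ l, b l) -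
        2 * ((∑ k, a k * ((φ (f k) : ℤ) : ℝ)) * (∑ l, b l * ((φ (g l) : ℤ) : ℝ))) +
        (∑ k, a k) * (∑ l, b l * ((φ (g l) : ℤ) : ℝ) ^ 2) := by
      rw [Finset.sum_mul_sum, Finset.sum_mul_sum, Finset.sum_mul_sum, Finset.mul_sum,
        ← Finset.sum_sub_distrib, ← Finset.sum_add_distrib]
      refine Finset.sum_congr rfl fun p _ => ?_
      rw [Finset.mul_sum, ← Finset.sum_sub_distrib, ← Finset.sum_add_distrib]
      refine Finset.sum_congr rfl fun q _ => ?_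
      ring
    rw [e1, ha, hb]
    ring
  simp_rw [hpt]
  rw [integral_const_mul, integral_finsetSum _ fun p _ => integrable_finsetSum _ fun q _ =>
    (integrable_msd hP _ _).const_mul _]
  congr 1
  refine Finset.sum_congr rfl fun p _ => ?_
  rw [integral_finsetSum _ fun q _ => (integrable_msd hP _ _).const_mul _]
  refine Finset.sum_congr rfl fun q _ => ?_
  rw [integral_const_mul, msd_gen hP]

theorem Vf_zero (hP : GFF.Plane P) : Vf P 0 = 0 := by
  unfold Vf GFF.var2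
  have h1 : ∀ᵐ φ ∂P, ((φ ((0 : Fin 2 → ℤ) 0, (0 : Fin 2 → ℤ) 1) : ℤ) : ℝ) ^ 2 = 0 := by
    filter_upwards [hP.zero] with φ hφ
    have : φ ((0 : Fin 2 → ℤ) 0, (0 : Fin 2 → ℤ) 1) = 0 := hφ
    rw [this]
    simp
  rw [integral_congr_ae h1]
  simp

theorem var2_neg (hP : GFF.Plane P) (v : ℤ × ℤ) : GFF.var2 P (-v) = GFF.var2 P v := by
  have h1 := msd_gen hP 0 v
  have h2 := msd_gen hP v 0
  rw [zero_sub] at h1
  rw [sub_zero] at h2
  rw [← h1, ← h2]
  refine integral_congr_ae (Eventually.of_forall fun φ => ?_)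
  simp only
  ring

theorem Vf_even (hP : GFF.Plane P) (x : Fin 2 → ℤ) : Vf P (-x) = Vf P x :=
  var2_neg hP (x 0, x 1)

theorem Vf_cnd (hP : GFF.Plane P) (n : ℕ) (f : Fin n → (Fin 2 → ℤ)) (a : Fin n → ℝ)
    (ha : ∑ k, a k = 0) : ∑ k, ∑ l, a k * a l * Vf P (f k - f l) ≤ 0 := by
  have h1 := bilin_gen hP (fun k => (f k 0, f k 1)) (fun k => (f k 0, f k 1)) a a ha ha
  have h2 : 0 ≤ ∫ φ : ℤ × ℤ → ℤ, (∑ k, a k * ((φ (f k 0, f k 1) : ℤ) : ℝ)) *
      (∑ l, a l * ((φ (f l 0, f l 1) : ℤ) : ℝ)) ∂P :=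
    integral_nonneg fun φ => mul_self_nonneg _
  rw [h1] at h2
  have h3 : ∑ k, ∑ l, a k * a l * Vf P (f k - f l) =
      ∑ k, ∑ l, a k * a l * GFF.var2 P ((f k 0, f k 1) - (f l 0, f l 1)) := rfl
  rw [h3]
  linarith

theorem Vf_rot (hP : GFF.Plane P) (x : Fin 2 → ℤ) : Vf P ![-x 1, x 0 + x 1] = Vf P x :=
  var2_rot hP (x 0, x 1)

theorem var2_th (hP : GFF.Plane P) (v : ℤ × ℤ) : GFF.var2 P (GFF.th v) = GFF.var2 P v := by
  have h1 := var2_swap hP (GFF.rot v)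
  rw [var2_rot hP] at h1
  rw [← h1]
  rfl

theorem Vf_refl (hP : GFF.Plane P) (x : Fin 2 → ℤ) : Vf P ![x 0 + x 1, -x 1] = Vf P x :=
  var2_th hP (x 0, x 1)

/-! ### reflection positivity -/

theorem map_th (hP : GFF.Plane P) : P.map (fun φ x => φ (GFF.th x)) = P := by
  have m1 : Measurable fun (φ : ℤ × ℤ → ℤ) (x : ℤ × ℤ) => φ (x.2, x.1) :=
    measurable_pi_iff.2 fun x => measurable_pi_apply _
  have m2 : Measurable fun (φ : ℤ × ℤ → ℤ) (x : ℤ × ℤ) => φ (GFF.rot x) :=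
    measurable_pi_iff.2 fun x => measurable_pi_apply _
  have h1 : (P.map (fun φ x => φ (x.2, x.1))).map (fun φ x => φ (GFF.rot x)) = P := by
    rw [hP.swap, hP.rot]
  rw [Measure.map_map m2 m1] at h1
  exact h1

theorem measurable_th : Measurable fun (φ : ℤ × ℤ → ℤ) (x : ℤ × ℤ) => φ (GFF.th x) :=
  measurable_pi_iff.2 fun x => measurable_pi_apply _

/-- Reflection positivity for linear functionals. -/
theorem rp_lin (hP : GFF.Plane P) {n : ℕ} (u : Fin n → ℤ × ℤ) (hu : ∀ k, 0 ≤ (u k).2)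
    (a : Fin n → ℝ) (ha : ∑ k, a k = 0) :
    ∑ k, ∑ l, a k * a l * GFF.var2 P (u k - GFF.th (u l)) ≤ 0 := by
  set M : ℝ := ∑ k, |a k| * (|((u k).1 : ℝ)| + |((u k).2 : ℝ)|) with hM
  have hM0 : 0 ≤ M := Finset.sum_nonneg fun k _ => by positivity
  set S : (ℤ × ℤ → ℤ) → ℝ := fun φ => ∑ k, a k * ((φ (u k) : ℤ) : ℝ) with hS
  have hSm : Measurable S := Finset.measurable_sum _ fun k _ => (measurable_coord _).const_mul _
  have hSb : ∀ᵐ φ ∂P, |S φ| ≤ M := by
    have h1 : ∀ᵐ φ ∂P, ∀ k, |((φ (u k) : ℤ) : ℝ)| ≤ |((u k).1 : ℝ)| + |((u k).2 : ℝ)| :=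
      ae_all_iff.2 fun k => coord_bdd hP (u k)
    filter_upwards [h1] with φ hφ
    refine (Finset.abs_sum_le_sum_abs _ _).trans ?_
    refine Finset.sum_le_sum fun k _ => ?_
    rw [abs_mul]
    exact mul_le_mul_of_nonneg_left (hφ k) (abs_nonneg _)
  have hSb2 : ∀ᵐ φ ∂P, |S (fun x => φ (GFF.th x))| ≤ M := by
    have h1 : ∀ᵐ φ ∂(P.map (fun φ x => φ (GFF.th x))), |S φ| ≤ M := by
      rw [map_th hP]
      exact hSb
    rw [ae_map_iff measurable_th.aemeasurable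
      (measurableSet_le hSm.abs measurable_const)] at h1
    exact h1
  have h1 := hP.rp (fun φ => clamp M (S φ)) ((measurable_clamp M).comp hSm)
    ⟨M, fun φ => clamp_abs hM0 _⟩ (fun φ ψ h => by
      simp only [hS]
      congr 1
      exact Finset.sum_congr rfl fun k _ => by rw [h (u k) (hu k)])
  have h2 : ∫ φ, clamp M (S φ) * clamp M (S (fun x => φ (GFF.th x))) ∂P =
      ∫ φ : ℤ × ℤ → ℤ, (∑ k, a k * ((φ (u k) : ℤ) : ℝ)) *
        (∑ l, a l * ((φ (GFF.th (u l)) : ℤ) : ℝ)) ∂P := by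
    refine integral_congr_ae ?_
    filter_upwards [hSb, hSb2] with φ e1 e2
    rw [clamp_eq e1, clamp_eq e2]
  rw [h2, bilin_gen hP u (fun l => GFF.th (u l)) a a ha ha] at h1
  linarith

theorem Vf_rp0 (hP : GFF.Plane P) (n : ℕ) (x : Fin n → ℤ) (i : Fin n → ℕ) (a : Fin n → ℝ)
    (ha : ∑ k, a k = 0) :
    ∑ k, ∑ l, a k * a l * Vf P ![x k - x l - (i k + i l), 2 * (i k + i l)] ≤ 0 := by
  refine le_trans (le_of_eq ?_) (rp_lin hP (fun k => (x k - i k, 2 * (i k : ℤ)))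
    (fun k => by simp) a ha)
  refine Finset.sum_congr rfl fun k _ => Finset.sum_congr rfl fun l _ => ?_
  congr 1
  unfold Vf GFF.th
  congr 1
  ext
  · simp; ring
  · simp; ring

theorem Vf_rp1 (hP : GFF.Plane P) (n : ℕ) (x : Fin n → ℤ) (i : Fin n → ℕ) (a : Fin n → ℝ)
    (ha : ∑ k, a k = 0) :
    ∑ k, ∑ l, a k * a l * Vf P ![x k - x l - (i k + i l + 1), 2 * (i k + i l + 1)] ≤ 0 := by
  refine le_trans (le_of_eq ?_) (rp_lin hP (fun k => (x k - i k, 2 * (i k : ℤ) + 1))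
    (fun k => by simp; positivity) a ha)
  refine Finset.sum_congr rfl fun k _ => Finset.sum_congr rfl fun l _ => ?_
  congr 1
  unfold Vf GFF.th
  congr 1
  ext
  · simp; ring
  · simp; ring

end Vale.Agent.P153.RP
end

section

/-!
# Null lines from mixing of even functionals: the probabilistic side
-/

open MeasureTheory Filter Topology UnitAddTorus
open scoped NNReal ENNReal

namespace Vale.Agent.P153.RP

open Vale.Agent.P153.GFF (Plane var2 shift Adj)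

/-- lattice point as a pair -/
def qq (x : Fin 2 → ℤ) : ℤ × ℤ := (x 0, x 1)

theorem qq_add (x y : Fin 2 → ℤ) : qq (x + y) = qq x + qq y := rfl

theorem qq_inj : Function.Injective qq := by
  intro x y h
  funext i
  fin_cases i
  · exact congrArg Prod.fst h
  · exact congrArg Prod.snd h

/-- the variogram of a plane measure -/
noncomputable def VP (P : Measure (ℤ × ℤ → ℤ)) (x : Fin 2 → ℤ) : ℝ := var2 P (qq x)

/-- gradient -/
noncomputable def gr (e x : Fin 2 → ℤ) (φ : ℤ × ℤ → ℤ) : ℝ := (φ (qq (x + e)) : ℝ) - φ (qq x)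

theorem meas_ev (x : ℤ × ℤ) : Measurable fun φ : ℤ × ℤ → ℤ => ((φ x : ℤ) : ℝ) :=
  (measurable_from_top (f := fun n : ℤ => (n : ℝ))).comp (measurable_pi_apply x)

theorem gr_measurable (e x : Fin 2 → ℤ) : Measurable (gr e x) := (meas_ev _).sub (meas_ev _)

theorem shift_measurable (t : ℤ × ℤ) : Measurable (shift t) := by
  refine measurable_pi_iff.2 fun x => ?_
  exact (measurable_pi_apply (x + t)).sub (measurable_pi_apply t)

theorem gr_shift (e x t : Fin 2 → ℤ) (φ : ℤ × ℤ → ℤ) : gr e x (shift (qq t) φ) = gr e (x + t) φ := by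
  unfold gr shift
  rw [← qq_add, ← qq_add]
  push_cast
  rw [show x + e + t = x + t + e by abel]
  ring

theorem lip_step (φ : ℤ × ℤ → ℤ) (h : ∀ x y, Adj x y → |φ x - φ y| ≤ 1) (x : ℤ × ℤ) (d : ℤ × ℤ)
    (hd : ∀ x, Adj x (x + d)) (n : ℕ) : |φ (x + (n : ℤ) • d) - φ x| ≤ n := by
  induction n with
  | zero => simp
  | succ n ih =>
    have h1 := h (x + (n : ℤ) • d) (x + (n : ℤ) • d + d) (hd _)
    have e1 : x + ((n + 1 : ℕ) : ℤ) • d = x + (n : ℤ) • d + d := by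
      push_cast
      rw [add_smul, one_smul, add_assoc]
    rw [e1]
    rw [abs_le] at h1 ih ⊢
    push_cast
    constructor <;> linarith only [ih, h1]

theorem lip_step' (φ : ℤ × ℤ → ℤ) (h : ∀ x y, Adj x y → |φ x - φ y| ≤ 1) (x : ℤ × ℤ) (d : ℤ × ℤ)
    (hd : ∀ x, Adj x (x + d)) (n : ℤ) : |φ (x + n • d) - φ x| ≤ |n| := by
  rcases Int.natAbs_eq n with hn | hn
  · have := lip_step φ h x d hd n.natAbs
    rw [← hn] at this
    exact this.trans (le_abs_self n)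
  · have := lip_step φ h (x + n • d) d hd n.natAbs
    have e : x + n • d + ((n.natAbs : ℕ) : ℤ) • d = x := by
      rw [add_assoc, ← add_smul]
      have : n + (n.natAbs : ℤ) = 0 := by omega
      rw [this, zero_smul, add_zero]
    rw [e, abs_sub_comm] at this
    exact this.trans (by rw [Int.natCast_natAbs])

theorem adj10 (x : ℤ × ℤ) : Adj x (x + (1, 0)) := by
  unfold Adj
  simp only [Int.reduceNeg, Prod.fst_add, add_sub_cancel_left, Prod.snd_add, add_zero, sub_self, Set.mem_insert_iff, Prod.mk.injEq, reduceCtorEq, and_true, one_ne_zero, zero_ne_one, and_self, zero_eq_neg, and_false, Set.mem_singleton_iff, or_self, or_false]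

theorem adj01 (x : ℤ × ℤ) : Adj x (x + (0, 1)) := by
  unfold Adj
  simp only [Int.reduceNeg, Prod.fst_add, add_zero, sub_self, Prod.snd_add, add_sub_cancel_left, Set.mem_insert_iff, Prod.mk.injEq, zero_ne_one, one_ne_zero, and_self, zero_eq_neg, reduceCtorEq, and_false, Set.mem_singleton_iff, and_true, or_self, or_false, or_true]

/-- bound of the gradient in direction `e` -/
noncomputable def Kb (e : Fin 2 → ℤ) : ℝ := |(e 0 : ℝ)| + |(e 1 : ℝ)|

theorem Kb_nonneg (e : Fin 2 → ℤ) : 0 ≤ Kb e := by unfold Kb; positivity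

theorem gr_bdd (φ : ℤ × ℤ → ℤ) (h : ∀ x y, Adj x y → |φ x - φ y| ≤ 1) (e x : Fin 2 → ℤ) :
    |gr e x φ| ≤ Kb e := by
  have h1 := lip_step' φ h (qq x) (1, 0) adj10 (e 0)
  have h2 := lip_step' φ h (qq x + (e 0) • ((1, 0) : ℤ × ℤ)) (0, 1) adj01 (e 1)
  have e1 : qq x + (e 0) • ((1, 0) : ℤ × ℤ) + (e 1) • ((0, 1) : ℤ × ℤ) = qq (x + e) := by
    unfold qq
    ext <;> simp
  rw [e1] at h2
  have h3 : |φ (qq (x + e)) - φ (qq x)| ≤ |e 0| + |e 1| := by
    have := abs_sub_le (φ (qq (x + e))) (φ (qq x + (e 0) • ((1, 0) : ℤ × ℤ))) (φ (qq x))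
    linarith
  unfold gr Kb
  exact_mod_cast h3

variable {P : Measure (ℤ × ℤ → ℤ)}

theorem gr_bdd_ae (h : Plane P) : ∀ᵐ φ ∂P, ∀ e x, |gr e x φ| ≤ Kb e := by
  filter_upwards [h.lip] with φ hφ e x
  exact gr_bdd φ hφ e x

theorem gr_mul_int (h : Plane P) (e x e' x' : Fin 2 → ℤ) :
    Integrable (fun φ => gr e x φ * gr e' x' φ) P := by
  have := h.prob
  refine Integrable.of_bound (C := Kb e * Kb e')
    ((gr_measurable e x).mul (gr_measurable e' x')).aestronglyMeasurable ?_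
  filter_upwards [gr_bdd_ae h] with φ hφ
  rw [norm_mul, Real.norm_eq_abs, Real.norm_eq_abs]
  exact mul_le_mul (hφ e x) (hφ e' x') (abs_nonneg _) (Kb_nonneg e)

theorem gr_sq (h : Plane P) (e x : Fin 2 → ℤ) : ∫ φ, gr e x φ ^ 2 ∂P = VP P e := by
  have h1 : ∫ φ, gr e 0 φ ^ 2 ∂(P.map (shift (qq x))) = ∫ φ, gr e x φ ^ 2 ∂P := by
    rw [integral_map (shift_measurable _).aemeasurable ((gr_measurable e 0).pow_const 2).aestronglyMeasurable]
    simp_rw [gr_shift, zero_add]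
  rw [← h1, h.shift]
  unfold VP var2
  apply integral_congr_ae
  filter_upwards [h.zero] with φ hφ
  have e0 : φ (qq 0) = 0 := hφ
  unfold gr
  rw [e0, zero_add]
  push_cast
  rw [sub_zero]

theorem gr_cov (h : Plane P) (e x y : Fin 2 → ℤ) :
    ∫ φ, gr e x φ * gr e y φ ∂P = CV (VP P) e (x - y) := by
  have e1 : ∀ φ, gr e x φ * gr e y φ = (gr (x - y + e) y φ ^ 2 + gr (x - y - e) (y + e) φ ^ 2 -
      gr (x - y) (y + e) φ ^ 2 - gr (x - y) y φ ^ 2) / 2 := by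
    intro φ
    unfold gr
    rw [show y + (x - y + e) = x + e by abel, show y + e + (x - y - e) = x by abel,
      show y + e + (x - y) = x + e by abel, show y + (x - y) = x by abel]
    ring
  simp_rw [e1]
  have hi : ∀ e x, Integrable (fun φ => gr e x φ ^ 2) P := by
    intro e x
    have := gr_mul_int h e x e x
    simpa only [sq] using this
  rw [integral_div, integral_sub, integral_sub, integral_add (hi _ _) (hi _ _), gr_sq h, gr_sq h,
    gr_sq h, gr_sq h, CV]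
  · ring
  · exact (hi _ _).add (hi _ _)
  · exact hi _ _
  · exact ((hi _ _).add (hi _ _)).sub (hi _ _)
  · exact hi _ _

/-- average of gradients -/
noncomputable def Xf (N : ℕ) (v e s : Fin 2 → ℤ) (φ : ℤ × ℤ → ℤ) : ℝ :=
  (N : ℝ)⁻¹ * ∑ a ∈ Finset.range N, gr e ((a : ℤ) • v + s) φ

theorem Xf_measurable (N : ℕ) (v e s : Fin 2 → ℤ) : Measurable (Xf N v e s) := by
  unfold Xf
  exact measurable_const.mul (Finset.measurable_sum _ fun a _ => gr_measurable _ _)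

theorem Xf_shift (N : ℕ) (v e s t : Fin 2 → ℤ) (φ : ℤ × ℤ → ℤ) :
    Xf N v e s (shift (qq t) φ) = Xf N v e (s + t) φ := by
  unfold Xf
  simp_rw [gr_shift, add_assoc]

theorem Xf_bdd (N : ℕ) (v e s : Fin 2 → ℤ) (φ : ℤ × ℤ → ℤ) (h : ∀ e x, |gr e x φ| ≤ Kb e) :
    |Xf N v e s φ| ≤ Kb e := by
  unfold Xf
  rw [abs_mul, abs_of_nonneg (by positivity : (0 : ℝ) ≤ (N : ℝ)⁻¹)]
  rcases Nat.eq_zero_or_pos N with rfl | hN
  · simp only [CharP.cast_eq_zero, inv_zero, Finset.range_zero, zsmul_eq_mul, Int.cast_natCast, Finset.sum_empty, abs_zero, mul_zero, Kb_nonneg]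
  · have hN' : (0 : ℝ) < N := by exact_mod_cast hN
    rw [inv_mul_le_iff₀ hN']
    refine (Finset.abs_sum_le_sum_abs _ _).trans ?_
    refine (Finset.sum_le_sum (g := fun _ => Kb e) fun a _ => h _ _).trans ?_
    simp

theorem Xf_neg (N : ℕ) (v e s : Fin 2 → ℤ) (φ : ℤ × ℤ → ℤ) : Xf N v e s (-φ) = -Xf N v e s φ := by
  unfold Xf
  rw [← mul_neg, ← Finset.sum_neg_distrib]
  congr 1
  apply Finset.sum_congr rfl
  intro a _
  unfold gr
  simp only [Pi.neg_apply]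
  push_cast
  ring

/-- covariance of averages -/
theorem Xf_cov (h : Plane P) (h0 : VH0 (VP P)) (N : ℕ) (v e s t : Fin 2 → ℤ) :
    ∫ φ, Xf N v e s φ * Xf N v e t φ ∂P = ∫ θ, FN N v θ * cs (s - t) θ ∂(PE h0 e) := by
  have e1 : ∀ φ, Xf N v e s φ * Xf N v e t φ = ((N : ℝ)⁻¹) ^ 2 * ∑ a ∈ Finset.range N,
      ∑ b ∈ Finset.range N, gr e ((a : ℤ) • v + s) φ * gr e ((b : ℤ) • v + t) φ := by
    intro φ
    unfold Xf
    rw [show ∀ A B : ℝ, (N : ℝ)⁻¹ * A * ((N : ℝ)⁻¹ * B) = ((N : ℝ)⁻¹) ^ 2 * (A * B) by intro A B; ring,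
      Finset.sum_mul_sum]
  simp_rw [e1, ← FN_sum]
  rw [integral_const_mul, integral_const_mul]
  congr 1
  rw [integral_finsetSum _ fun a _ => integrable_finsetSum _ fun b _ => gr_mul_int h _ _ _ _,
    integral_finsetSum _ fun a _ => integrable_finsetSum _ fun b _ => cs_integrable _ _]
  apply Finset.sum_congr rfl
  intro a _
  rw [integral_finsetSum _ fun b _ => gr_mul_int h _ _ _ _,
    integral_finsetSum _ fun b _ => cs_integrable _ _]
  apply Finset.sum_congr rfl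
  intro b _
  rw [gr_cov h, PE_cs]
  congr 1
  rw [sub_smul]
  abel

theorem Xf_mul_int (h : Plane P) (N : ℕ) (v e s v' e' s' : Fin 2 → ℤ) :
    Integrable (fun φ => Xf N v e s φ * Xf N v' e' s' φ) P := by
  have := h.prob
  refine Integrable.of_bound (C := Kb e * Kb e')
    ((Xf_measurable N v e s).mul (Xf_measurable N v' e' s')).aestronglyMeasurable ?_
  filter_upwards [gr_bdd_ae h] with φ hφ
  rw [norm_mul, Real.norm_eq_abs, Real.norm_eq_abs]
  exact mul_le_mul (Xf_bdd N v e s φ hφ) (Xf_bdd N v' e' s' φ hφ) (abs_nonneg _) (Kb_nonneg e)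

theorem Xf_diff (h : Plane P) (h0 : VH0 (VP P)) (N : ℕ) (v e s t : Fin 2 → ℤ) :
    ∫ φ, (Xf N v e s φ - Xf N v e t φ) ^ 2 ∂P = ∫ θ, FN N v θ * (2 - 2 * cs (s - t) θ) ∂(PE h0 e) := by
  have e1 : ∀ φ, (Xf N v e s φ - Xf N v e t φ) ^ 2 = Xf N v e s φ * Xf N v e s φ +
      Xf N v e t φ * Xf N v e t φ - 2 * (Xf N v e s φ * Xf N v e t φ) := by
    intro φ; ring
  have hi := Xf_mul_int h N
  have i1 : Integrable (fun φ => Xf N v e s φ * Xf N v e s φ + Xf N v e t φ * Xf N v e t φ) P :=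
    (hi _ _ _ _ _ _).add (hi _ _ _ _ _ _)
  simp_rw [e1]
  rw [integral_sub i1 ((hi _ _ _ _ _ _).const_mul 2), integral_add (hi _ _ _ _ _ _) (hi _ _ _ _ _ _),
    integral_const_mul, Xf_cov h h0, Xf_cov h h0, Xf_cov h h0]
  have j : ∀ u, Integrable (fun θ => FN N v θ * cs u θ) (PE h0 e) := fun u =>
    FN_int _ N v (cs_continuous u) (abs_cs_le u)
  have e2 : ∀ θ : UnitAddTorus (Fin 2), FN N v θ * (2 - 2 * cs (s - t) θ) =
      FN N v θ * cs (s - s) θ + FN N v θ * cs (t - t) θ - 2 * (FN N v θ * cs (s - t) θ) := by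
    intro θ
    rw [sub_self, sub_self, cs_zero]; ring
  simp_rw [e2]
  have j1 : Integrable (fun θ => FN N v θ * cs (s - s) θ + FN N v θ * cs (t - t) θ) (PE h0 e) :=
    (j _).add (j _)
  rw [integral_sub j1 ((j _).const_mul 2), integral_add (j _) (j _), integral_const_mul]

/-! ### clamping -/

/-- truncation -/
noncomputable def cl (K t : ℝ) : ℝ := max (-K) (min K t)

theorem cl_abs {K : ℝ} (hK : 0 ≤ K) (t : ℝ) : |cl K t| ≤ K := by
  unfold cl
  rw [abs_le]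
  exact ⟨le_max_left _ _, max_le (by linarith) (min_le_left _ _)⟩

theorem cl_of_le {K t : ℝ} (h : |t| ≤ K) : cl K t = t := by
  unfold cl
  rw [abs_le] at h
  rw [min_eq_right h.2, max_eq_right h.1]

theorem cl_neg {K : ℝ} (hK : 0 ≤ K) (t : ℝ) : cl K (-t) = -cl K t := by
  unfold cl
  rcases le_total t K with h1 | h1 <;> rcases le_total (-K) t with h2 | h2
  · rw [min_eq_right (by linarith : -t ≤ K), max_eq_right (by linarith : -K ≤ -t), min_eq_right h1,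
      max_eq_right h2]
  · rw [min_eq_left (by linarith : K ≤ -t), max_eq_right (by linarith : -K ≤ K), min_eq_right h1,
      max_eq_left h2, neg_neg]
  · rw [min_eq_right (by linarith : -t ≤ K), max_eq_left (by linarith : -t ≤ -K), min_eq_left h1,
      max_eq_right (by linarith : -K ≤ K)]
  · have : t = K ∧ K = 0 := by constructor <;> linarith
    rw [this.1, this.2]; simp

theorem cl_measurable (K : ℝ) : Measurable (cl K) := by
  unfold cl
  exact measurable_const.max (measurable_const.min measurable_id)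

/-- truncated average -/
noncomputable def Xc (K : ℝ) (N : ℕ) (v e s : Fin 2 → ℤ) (φ : ℤ × ℤ → ℤ) : ℝ := cl K (Xf N v e s φ)

theorem Xc_ae (h : Plane P) {K : ℝ} {e : Fin 2 → ℤ} (hK : Kb e ≤ K) (N : ℕ) (v : Fin 2 → ℤ) :
    ∀ᵐ φ ∂P, ∀ s, Xc K N v e s φ = Xf N v e s φ := by
  filter_upwards [gr_bdd_ae h] with φ hφ s
  exact cl_of_le ((Xf_bdd N v e s φ hφ).trans hK)

/-- the sites used by an average -/
def sites (N : ℕ) (v e s : Fin 2 → ℤ) : Finset (ℤ × ℤ) :=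
  (Finset.range N).image (fun a : ℕ => qq ((a : ℤ) • v + s + e)) ∪
    (Finset.range N).image (fun a : ℕ => qq ((a : ℤ) • v + s))

theorem Xc_loc (K : ℝ) (N : ℕ) (v e s : Fin 2 → ℤ) (φ ψ : ℤ × ℤ → ℤ)
    (h : ∀ x ∈ sites N v e s, φ x = ψ x) : Xc K N v e s φ = Xc K N v e s ψ := by
  unfold Xc Xf
  congr 2
  apply Finset.sum_congr rfl
  intro a ha
  unfold gr
  rw [h (qq ((a : ℤ) • v + s + e)), h (qq ((a : ℤ) • v + s))]
  · exact Finset.mem_union_right _ (Finset.mem_image_of_mem _ ha)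
  · exact Finset.mem_union_left _ (Finset.mem_image_of_mem _ ha)

theorem Xc_measurable (K : ℝ) (N : ℕ) (v e s : Fin 2 → ℤ) : Measurable (Xc K N v e s) :=
  (cl_measurable K).comp (Xf_measurable N v e s)

theorem Xc_mix (h : Plane P) {K : ℝ} (hK : 0 ≤ K) (N : ℕ) (v e s v' e' s' w : Fin 2 → ℤ) (hw : w ≠ 0) :
    Tendsto (fun n : ℕ => ∫ φ, (Xc K N v e s φ * Xc K N v' e' s' φ) *
      (Xc K N v e s (shift (qq ((n : ℤ) • w)) φ) * Xc K N v' e' s' (shift (qq ((n : ℤ) • w)) φ)) ∂P) atTop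
      (𝓝 ((∫ φ, Xc K N v e s φ * Xc K N v' e' s' φ ∂P) *
        ∫ φ, Xc K N v e s φ * Xc K N v' e' s' φ ∂P)) := by
  have hm : Measurable fun φ => Xc K N v e s φ * Xc K N v' e' s' φ :=
    (Xc_measurable K N v e s).mul (Xc_measurable K N v' e' s')
  have hb : ∃ M, ∀ φ, |Xc K N v e s φ * Xc K N v' e' s' φ| ≤ M := ⟨K * K, fun φ => by
    rw [abs_mul]
    exact mul_le_mul (cl_abs hK _) (cl_abs hK _) (abs_nonneg _) hK⟩
  have he : ∀ φ : ℤ × ℤ → ℤ, Xc K N v e s (-φ) * Xc K N v' e' s' (-φ) =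
      Xc K N v e s φ * Xc K N v' e' s' φ := by
    intro φ
    unfold Xc
    rw [Xf_neg, Xf_neg, cl_neg hK, cl_neg hK]
    ring
  have hl : ∀ φ ψ : ℤ × ℤ → ℤ, (∀ x ∈ sites N v e s ∪ sites N v' e' s', φ x = ψ x) →
      Xc K N v e s φ * Xc K N v' e' s' φ = Xc K N v e s ψ * Xc K N v' e' s' ψ := by
    intro φ ψ hφ
    rw [Xc_loc K N v e s φ ψ fun x hx => hφ x (Finset.mem_union_left _ hx),
      Xc_loc K N v' e' s' φ ψ fun x hx => hφ x (Finset.mem_union_right _ hx)]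
  have h1 := h.mix (sites N v e s ∪ sites N v' e' s') (fun φ => Xc K N v e s φ * Xc K N v' e' s' φ)
    (fun φ => Xc K N v e s φ * Xc K N v' e' s' φ) hm hm hb hb he he hl hl
  have h2 : Tendsto (fun n : ℕ => qq ((n : ℤ) • w)) atTop cofinite := by
    rw [← Nat.cofinite_eq_atTop]
    apply Function.Injective.tendsto_cofinite
    intro a b hab
    have h3 := qq_inj hab
    have : ∃ i, w i ≠ 0 := by
      by_contra hc
      push Not at hc
      exact hw (funext hc)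
    obtain ⟨i, hi⟩ := this
    have := congrFun h3 i
    simp only [Pi.smul_apply, smul_eq_mul] at this
    exact_mod_cast mul_right_cancel₀ hi this
  exact h1.comp h2

/-- **main inequality** -/
theorem main_ineq (h : Plane P) (h0 : VH0 (VP P)) (v e s v' e' s' w : Fin 2 → ℤ) (hw : w ≠ 0) {K : ℝ}
    (hK : Kb e ≤ K) (hK' : Kb e' ≤ K)
    (H1 : ∀ n : ℕ, ∀ᵐ θ ∂(PE h0 e), mFourier v θ = 1 → cs ((n : ℤ) • w) θ = 1)
    (H2 : ∀ n : ℕ, ∀ᵐ θ ∂(PE h0 e'), mFourier v' θ = 1 → cs ((n : ℤ) • w) θ = 1) (N : ℕ) :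
    (∫ φ, Xf N v e s φ * Xf N v e s φ ∂P) * (∫ φ, Xf N v' e' s' φ * Xf N v' e' s' φ ∂P) ≤
      (∫ φ, Xf N v e s φ * Xf N v' e' s' φ ∂P) ^ 2 +
        4 * K ^ 3 * √(4 * (eps h0 e v N + eps h0 e' v' N)) := by
  have := h.prob
  have hK0 : 0 ≤ K := (Kb_nonneg e).trans hK
  have a1 := Xc_ae h hK N v
  have a2 := Xc_ae h hK' N v'
  have hD : ∀ (v e s : Fin 2 → ℤ) (hK : Kb e ≤ K)
      (H : ∀ n : ℕ, ∀ᵐ θ ∂(PE h0 e), mFourier v θ = 1 → cs ((n : ℤ) • w) θ = 1) (n : ℕ),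
      ∫ φ, (Xc K N v e s (shift (qq ((n : ℤ) • w)) φ) - Xc K N v e s φ) ^ 2 ∂P ≤ 4 * eps h0 e v N := by
    intro v e s hK H n
    have h1 : ∫ φ, (Xc K N v e s (shift (qq ((n : ℤ) • w)) φ) - Xc K N v e s φ) ^ 2 ∂P =
        ∫ φ, (Xf N v e (s + (n : ℤ) • w) φ - Xf N v e s φ) ^ 2 ∂P := by
      apply integral_congr_ae
      filter_upwards [gr_bdd_ae h] with φ hφ
      unfold Xc
      rw [Xf_shift, cl_of_le ((Xf_bdd N v e _ φ hφ).trans hK), cl_of_le ((Xf_bdd N v e _ φ hφ).trans hK)]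
    rw [h1, Xf_diff h h0, add_sub_cancel_left]
    exact FN_diff_le h0 e v _ N (H n)
  have key := sq_ineq P (fun n : ℕ => shift (qq ((n : ℤ) • w))) (fun n => shift_measurable _)
    (Xc_measurable K N v e s) (Xc_measurable K N v' e' s') (M := K)
    (ε := 4 * (eps h0 e v N + eps h0 e' v' N)) hK0 (fun φ => cl_abs hK0 _) (fun φ => cl_abs hK0 _)
    (fun n => (hD v e s hK H1 n).trans (by have := eps_nonneg h0 e' v' N; linarith))
    (fun n => (hD v' e' s' hK' H2 n).trans (by have := eps_nonneg h0 e v N; linarith only [this]))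
    (Xc_mix h hK0 N v e s v' e' s' w hw) (Xc_mix h hK0 N v e s v e s w hw)
    (Xc_mix h hK0 N v' e' s' v' e' s' w hw)
  have c1 : ∫ φ, Xc K N v e s φ * Xc K N v e s φ ∂P = ∫ φ, Xf N v e s φ * Xf N v e s φ ∂P := by
    apply integral_congr_ae
    filter_upwards [a1] with φ hφ
    rw [hφ]
  have c2 : ∫ φ, Xc K N v' e' s' φ * Xc K N v' e' s' φ ∂P =
      ∫ φ, Xf N v' e' s' φ * Xf N v' e' s' φ ∂P := by
    apply integral_congr_ae
    filter_upwards [a2] with φ hφ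
    rw [hφ]
  have c3 : ∫ φ, Xc K N v e s φ * Xc K N v' e' s' φ ∂P =
      ∫ φ, Xf N v e s φ * Xf N v' e' s' φ ∂P := by
    apply integral_congr_ae
    filter_upwards [a1, a2] with φ hφ hφ'
    rw [hφ, hφ']
  rw [c1, c2, c3] at key
  exact key

/-! ### the two null lines -/

theorem Xf_cov_tendsto (h : Plane P) (h0 : VH0 (VP P)) (v e s t : Fin 2 → ℤ) :
    Tendsto (fun N => ∫ φ, Xf N v e s φ * Xf N v e t φ ∂P) atTop
      (𝓝 (∫ θ in {θ | mFourier v θ = 1}, cs (s - t) θ ∂(PE h0 e))) := by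
  simp_rw [Xf_cov h h0]
  exact FN_cs_tendsto h0 e v (s - t)

theorem line_mass (h0 : VH0 (VP P)) (v e s : Fin 2 → ℤ) :
    ∫ θ in {θ | mFourier v θ = 1}, cs (s - s) θ ∂(PE h0 e) = (PE h0 e).real {θ | mFourier v θ = 1} := by
  rw [sub_self]
  simp_rw [cs_zero]
  rw [setIntegral_const, smul_eq_mul, mul_one]

theorem err_tendsto (h0 : VH0 (VP P)) (v e v' e' : Fin 2 → ℤ) (K : ℝ) :
    Tendsto (fun N => 4 * K ^ 3 * √(4 * (eps h0 e v N + eps h0 e' v' N))) atTop (𝓝 0) := by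
  have h1 : Tendsto (fun N => 4 * (eps h0 e v N + eps h0 e' v' N)) atTop (𝓝 (4 * (0 + 0))) :=
    ((eps_tendsto h0 e v).add (eps_tendsto h0 e' v')).const_mul 4
  have h2 := (Real.continuous_sqrt.tendsto _).comp h1
  have h3 := h2.const_mul (4 * K ^ 3)
  simpa only [Nat.ofNat_nonneg, Real.sqrt_mul, Function.comp_apply, add_zero, mul_zero, Real.sqrt_zero] using h3

/-- telescoping -/
theorem Xf_tele (N : ℕ) (e : Fin 2 → ℤ) (φ : ℤ × ℤ → ℤ) :
    Xf N e e 0 φ = (N : ℝ)⁻¹ * gr ((N : ℤ) • e) 0 φ := by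
  unfold Xf
  congr 1
  have h1 : ∀ a : ℕ, gr e ((a : ℤ) • e + 0) φ =
      (φ (qq (((a + 1 : ℕ) : ℤ) • e)) : ℝ) - φ (qq ((a : ℤ) • e)) := by
    intro a
    unfold gr
    rw [add_zero]
    congr 4
    push_cast
    rw [add_smul, one_smul]
  simp_rw [h1]
  rw [Finset.sum_range_sub (fun a : ℕ => ((φ (qq ((a : ℤ) • e)) : ℤ) : ℝ))]
  unfold gr
  simp

theorem slope_null (h : Plane P) (h0 : VH0 (VP P))
    (hrot : ∀ x : Fin 2 → ℤ, VP P ![-x 1, x 0 + x 1] = VP P x) (e : Fin 2 → ℤ) :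
    PE h0 e {θ | mFourier e θ = 1} = 0 := by
  have hprob := h.prob
  set e' : Fin 2 → ℤ := ![-e 1, e 0 + e 1] with he'
  set K := Kb e + Kb e' with hK
  have hKe : Kb e ≤ K := by have := Kb_nonneg e'; linarith
  have hKe' : Kb e' ≤ K := by have := Kb_nonneg e; linarith
  have hsq : ∀ (N : ℕ) (e : Fin 2 → ℤ), ∫ φ, Xf N e e 0 φ * Xf N e e 0 φ ∂P =
      ((N : ℝ)⁻¹) ^ 2 * VP P ((N : ℤ) • e) := by
    intro N e
    simp_rw [Xf_tele]
    have : ∀ φ : ℤ × ℤ → ℤ, (N : ℝ)⁻¹ * gr ((N : ℤ) • e) 0 φ * ((N : ℝ)⁻¹ * gr ((N : ℤ) • e) 0 φ) =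
        ((N : ℝ)⁻¹) ^ 2 * gr ((N : ℤ) • e) 0 φ ^ 2 := by intro φ; ring
    simp_rw [this]
    rw [integral_const_mul, gr_sq h]
  have hrotN : ∀ N : ℕ, VP P ((N : ℤ) • e') = VP P ((N : ℤ) • e) := by
    intro N
    rw [← hrot ((N : ℤ) • e)]
    congr 1
    funext i
    fin_cases i
    · simp [he']
    · simp [he']; ring
  have hdiffN : ∀ N : ℕ, VP P ((N : ℤ) • e - (N : ℤ) • e') = VP P ((N : ℤ) • e) := by
    intro N
    have h1 : (N : ℤ) • e - (N : ℤ) • e' =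
        -(![-(![-((N : ℤ) • e) 1, ((N : ℤ) • e) 0 + ((N : ℤ) • e) 1] : Fin 2 → ℤ) 1,
          (![-((N : ℤ) • e) 1, ((N : ℤ) • e) 0 + ((N : ℤ) • e) 1] : Fin 2 → ℤ) 0 +
          (![-((N : ℤ) • e) 1, ((N : ℤ) • e) 0 + ((N : ℤ) • e) 1] : Fin 2 → ℤ) 1] : Fin 2 → ℤ) := by
      funext i
      fin_cases i
      · simp only [zsmul_eq_mul, Int.cast_natCast, he', Fin.isValue, Matrix.smul_cons, Int.zsmul_eq_mul, mul_neg, Matrix.smul_empty, Fin.zero_eta, Pi.sub_apply, Pi.mul_apply, Pi.natCast_apply, Matrix.cons_val_zero, sub_neg_eq_add, Nat.succ_eq_add_one, Nat.reduceAdd, Pi.smul_apply, Matrix.cons_val_one, Matrix.cons_val_fin_one, neg_add_rev, neg_add_cancel_comm_assoc, Pi.neg_apply, neg_neg]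
      · simp only [zsmul_eq_mul, Int.cast_natCast, he', Fin.isValue, Matrix.smul_cons, Int.zsmul_eq_mul, mul_neg, Matrix.smul_empty, Fin.mk_one, Pi.sub_apply, Pi.mul_apply, Pi.natCast_apply, Matrix.cons_val_one, Matrix.cons_val_fin_one, Nat.succ_eq_add_one, Nat.reduceAdd, Pi.smul_apply, neg_add_rev, Matrix.cons_val_zero, neg_add_cancel_comm_assoc, Pi.neg_apply]; ring
    rw [h1, h0.even, hrot, hrot]
  have hcross : ∀ N : ℕ, ∫ φ, Xf N e e 0 φ * Xf N e' e' 0 φ ∂P =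
      (∫ φ, Xf N e e 0 φ * Xf N e e 0 φ ∂P) / 2 := by
    intro N
    have e1 : ∀ φ : ℤ × ℤ → ℤ, Xf N e e 0 φ * Xf N e' e' 0 φ = (Xf N e e 0 φ * Xf N e e 0 φ +
        Xf N e' e' 0 φ * Xf N e' e' 0 φ - ((N : ℝ)⁻¹) ^ 2 *
          gr ((N : ℤ) • e - (N : ℤ) • e') ((N : ℤ) • e') φ ^ 2) / 2 := by
      intro φ
      rw [Xf_tele, Xf_tele]
      unfold gr
      rw [zero_add, zero_add, show (N : ℤ) • e' + ((N : ℤ) • e - (N : ℤ) • e') = (N : ℤ) • e by abel]
      ring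
    have hi := Xf_mul_int h N
    have hgi : Integrable (fun φ => gr ((N : ℤ) • e - (N : ℤ) • e') ((N : ℤ) • e') φ ^ 2) P := by
      have := gr_mul_int h ((N : ℤ) • e - (N : ℤ) • e') ((N : ℤ) • e') ((N : ℤ) • e - (N : ℤ) • e')
        ((N : ℤ) • e')
      simpa only [zsmul_eq_mul, Int.cast_natCast, sq] using this
    have i1 : Integrable (fun φ => Xf N e e 0 φ * Xf N e e 0 φ + Xf N e' e' 0 φ * Xf N e' e' 0 φ) P :=
      (hi _ _ _ _ _ _).add (hi _ _ _ _ _ _)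
    simp_rw [e1]
    rw [integral_div, integral_sub i1 (hgi.const_mul _), integral_add (hi _ _ _ _ _ _) (hi _ _ _ _ _ _),
      integral_const_mul, gr_sq h, hdiffN, hsq, hsq, hrotN]
    ring
  have hE1 : (E1 : Fin 2 → ℤ) ≠ 0 := E1_ne
  have key := fun N => main_ineq h h0 e e 0 e' e' 0 E1 hE1 hKe hKe'
    (fun n => PE_line_cs h0 e _) (fun n => PE_line_cs h0 e' _) N
  have hlim := Xf_cov_tendsto h h0 e e 0 0
  rw [line_mass] at hlim
  set l := (PE h0 e).real {θ | mFourier e θ = 1} with hl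
  have h2 : ∀ N, (∫ φ, Xf N e e 0 φ * Xf N e e 0 φ ∂P) * (∫ φ, Xf N e e 0 φ * Xf N e e 0 φ ∂P) ≤
      ((∫ φ, Xf N e e 0 φ * Xf N e e 0 φ ∂P) / 2) ^ 2 +
        4 * K ^ 3 * √(4 * (eps h0 e e N + eps h0 e' e' N)) := by
    intro N
    have h3 := key N
    rw [hcross N] at h3
    have h4 : ∫ φ, Xf N e' e' 0 φ * Xf N e' e' 0 φ ∂P = ∫ φ, Xf N e e 0 φ * Xf N e e 0 φ ∂P := by
      rw [hsq, hsq, hrotN]
    rw [h4] at h3
    exact h3
  have h3 : l * l ≤ (l / 2) ^ 2 + 0 :=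
    le_of_tendsto_of_tendsto' (hlim.mul hlim) (((hlim.div_const 2).pow 2).add (err_tendsto h0 e e e' e' K)) h2
  have h4 : l = 0 := by
    have : l ^ 2 ≤ 0 := by linarith
    exact pow_eq_zero_iff (two_ne_zero) |>.1 (le_antisymm this (sq_nonneg l))
  rw [hl, Measure.real, ENNReal.toReal_eq_zero_iff] at h4
  rcases h4 with h4 | h4
  · exact h4
  · exact absurd h4 (measure_ne_top _ _)

theorem row_null (h : Plane P) (h0 : VH0 (VP P))
    (hrot : ∀ x : Fin 2 → ℤ, VP P ![-x 1, x 0 + x 1] = VP P x) :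
    PE h0 E1 {θ | mFourier ![-1, 2] θ = 1} = 0 := by
  have hprob := h.prob
  set v : Fin 2 → ℤ := ![-1, 2] with hv
  set L : Set (UnitAddTorus (Fin 2)) := {θ | mFourier v θ = 1} with hL
  have hLm : MeasurableSet L := meas_line v
  have hv0 : v ≠ 0 := by
    intro hc
    have := congrFun hc 1
    simp [hv] at this
  have hcsn : ∀ n : ℕ, ∀ θ : UnitAddTorus (Fin 2), mFourier v θ = 1 → cs ((n : ℤ) • v) θ = 1 := by
    intro n θ hθ
    have : mFourier ((n : ℤ) • v) θ = 1 := by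
      induction n with
      | zero => simp [mFourier_zero]
      | succ n ih =>
        push_cast
        rw [add_smul, one_smul, mFourier_add, ih, hθ, one_mul]
    rw [cs, this]; rfl
  have key := fun N => main_ineq h h0 v E1 0 v E1 E2 v hv0 (le_refl (Kb E1)) (le_refl (Kb E1))
    (fun n => Eventually.of_forall (hcsn n)) (fun n => Eventually.of_forall (hcsn n)) N
  have l1 := Xf_cov_tendsto h h0 v E1 0 0
  have l2 := Xf_cov_tendsto h h0 v E1 E2 E2
  have l3 := Xf_cov_tendsto h h0 v E1 0 E2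
  rw [line_mass] at l1 l2
  set l := (PE h0 E1).real L with hl
  set r := ∫ θ in L, cs (0 - E2) θ ∂(PE h0 E1) with hr
  have h1 : l * l ≤ r ^ 2 + 0 :=
    le_of_tendsto_of_tendsto' (l1.mul l2) ((l3.pow 2).add (err_tendsto h0 v E1 v E1 (Kb E1))) key
  -- `|cs E2| = 1` on the line
  have hci : Integrable (fun θ => |cs (0 - E2) θ|) ((PE h0 E1).restrict L) := (cs_integrable _ _).abs
  have h2 : |r| ≤ ∫ θ in L, |cs (0 - E2) θ| ∂(PE h0 E1) := abs_integral_le_integral_abs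
  have h3 : ∫ θ in L, (1 - |cs (0 - E2) θ|) ∂(PE h0 E1) ≤ 0 := by
    rw [integral_sub (integrable_const _) hci, setIntegral_const, smul_eq_mul, mul_one, ← hl]
    have hl0 : 0 ≤ l := measureReal_nonneg
    have : l ≤ |r| := by
      rw [← abs_of_nonneg hl0]
      apply sq_le_sq.1
      linarith
    linarith
  have h4 : ∀ θ : UnitAddTorus (Fin 2), 0 ≤ 1 - |cs (0 - E2) θ| := fun θ => by
    have := abs_cs_le (0 - E2) θ
    linarith
  have h5 : ∫ θ in L, (1 - |cs (0 - E2) θ|) ∂(PE h0 E1) = 0 :=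
    le_antisymm h3 (integral_nonneg h4)
  rw [integral_eq_zero_iff_of_nonneg h4 ((integrable_const _).sub hci), EventuallyEq,
    ae_restrict_iff' hLm] at h5
  have h6 := slope_null h h0 hrot E1
  have h7 : PE h0 E1 {θ | ¬ (θ ∈ L → 1 - |cs (0 - E2) θ| = (0 : UnitAddTorus (Fin 2) → ℝ) θ)} = 0 := h5
  refine measure_mono_null (fun θ hθ => ?_) (measure_union_null h6 h7)
  by_cases hc : 1 - |cs (0 - E2) θ| = 0
  · left
    -- then `mFourier E2 θ = ± 1`
    have h8 : |(mFourier E2 θ).re| = 1 := by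
      have : cs (0 - E2) θ = (mFourier E2 θ).re := by rw [zero_sub, cs_neg, cs]
      rw [this] at hc
      linarith only [hc]
    have h9 : (mFourier E2 θ).re ^ 2 = 1 := by rw [← sq_abs, h8, one_pow]
    have h10 : (mFourier E2 θ).re ^ 2 + (mFourier E2 θ).im ^ 2 ≤ 1 := by
      have := Complex.sq_norm (mFourier E2 θ)
      rw [Complex.normSq_apply] at this
      nlinarith only [this, norm_nonneg (mFourier E2 θ), norm_mF E2 θ]
    have h11 : (mFourier E2 θ).im = 0 := by nlinarith only [h9, h10]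
    have h12 : mFourier E2 θ * mFourier E2 θ = 1 := by
      apply Complex.ext
      · rw [Complex.mul_re, h11, Complex.one_re]; nlinarith only [h9]
      · rw [Complex.mul_im, h11, Complex.one_im]; ring
    have h13 : mFourier v θ = 1 := hθ
    have h14 : v + E1 = E2 + E2 := by
      funext i
      fin_cases i
      · simp [hv, E1, E2]
      · simp [hv, E1, E2]
    have h15 : mFourier (v + E1) θ = mFourier (E2 + E2) θ := by rw [h14]
    rw [mFourier_add, mFourier_add, h13, h12, one_mul] at h15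
    exact h15
  · right
    intro hc2
    exact hc (hc2 hθ)

end Vale.Agent.P153.RP
end

section

/-!
P153, product Schwinger-Dyson: lattice approximations of linear functionals of the heights and
their characteristic functions in the plane.
-/

namespace Vale.Agent.P153.F.SD

open Finset Filter Topology MeasureTheory
open Vale.Agent.P153.GFF (Csts pos wt smear var2 Plane Test gffCov)
open Vale.Agent.P153.CLT (measurable_coord)

/-- Lattice functionals that approximate `∫ h f`. -/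
def App (δ : ℕ → ℝ) (f : ℝ × ℝ → ℝ) (w : ℕ → (ℤ × ℤ) →₀ ℝ) : Prop :=
  ∃ R C : ℝ, 0 < R ∧ 0 ≤ C ∧ ∀ n, (∀ q : ℤ × ℤ, w n q ≠ 0 → |δ n * q.1| ≤ R ∧ |δ n * q.2| ≤ R) ∧
    ∀ q : ℤ × ℤ, |w n q - √3 / 2 * δ n ^ 2 * f (δ n • pos q)| ≤ C * δ n ^ 3

section App

variable {δ : ℕ → ℝ} {f g : ℝ × ℝ → ℝ} {w v : ℕ → (ℤ × ℤ) →₀ ℝ}

lemma App.add (hw : App δ f w) (hv : App δ g v) :
    App δ (fun x => f x + g x) (fun n => w n + v n) := by
  obtain ⟨R, C, hR, hC, h⟩ := hw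
  obtain ⟨R', C', hR', hC', h'⟩ := hv
  refine ⟨max R R', C + C', lt_max_of_lt_left hR, by positivity, fun n => ⟨fun q hq => ?_, fun q => ?_⟩⟩
  · rw [Finsupp.add_apply] at hq
    by_cases h0 : w n q = 0
    · have h1 : v n q ≠ 0 := by
        intro h1
        rw [h0, h1, add_zero] at hq
        exact hq rfl
      have h2 := (h' n).1 q h1
      exact ⟨h2.1.trans (le_max_right _ _), h2.2.trans (le_max_right _ _)⟩
    · have h2 := (h n).1 q h0
      exact ⟨h2.1.trans (le_max_left _ _), h2.2.trans (le_max_left _ _)⟩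
  · have h1 := (h n).2 q
    have h2 := (h' n).2 q
    rw [Finsupp.add_apply]
    have e : w n q + v n q - √3 / 2 * δ n ^ 2 * (f (δ n • pos q) + g (δ n • pos q)) =
        (w n q - √3 / 2 * δ n ^ 2 * f (δ n • pos q)) +
        (v n q - √3 / 2 * δ n ^ 2 * g (δ n • pos q)) := by ring
    rw [e]
    refine (abs_add_le _ _).trans ?_
    rw [add_mul]
    exact add_le_add h1 h2

lemma App.smul (c : ℝ) (hw : App δ f w) : App δ (fun x => c * f x) (fun n => c • w n) := by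
  obtain ⟨R, C, hR, hC, h⟩ := hw
  refine ⟨R, |c| * C, hR, by positivity, fun n => ⟨fun q hq => (h n).1 q ?_, fun q => ?_⟩⟩
  · intro h0
    rw [Finsupp.smul_apply, h0, smul_zero] at hq
    exact hq rfl
  · rw [Finsupp.smul_apply, smul_eq_mul]
    have e : c * w n q - √3 / 2 * δ n ^ 2 * (c * f (δ n • pos q)) =
        c * (w n q - √3 / 2 * δ n ^ 2 * f (δ n • pos q)) := by ring
    rw [e, abs_mul, show |c| * C * δ n ^ 3 = |c| * (C * δ n ^ 3) by ring]
    exact mul_le_mul_of_nonneg_left ((h n).2 q) (abs_nonneg _)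

lemma App.sub (hw : App δ f w) (hv : App δ g v) :
    App δ (fun x => f x - g x) (fun n => w n - v n) := by
  have h := hw.add (hv.smul (-1))
  have e1 : (fun x => f x + -1 * g x) = fun x => f x - g x := by funext x; ring
  have e2 : (fun n => w n + (-1 : ℝ) • v n) = fun n => w n - v n := by
    funext n; ext q; simp only [neg_smul, one_smul, Finsupp.coe_add, Finsupp.coe_neg, Pi.add_apply, Pi.neg_apply, sub_eq_add_neg]
  rwa [e1, e2] at h

lemma rf_apply (w : (ℤ × ℤ) →₀ ℝ) (q : ℤ × ℤ) : rf w q = w (q.1 + q.2, -q.2) := by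
  unfold rf
  have hinj : Function.Injective (fun q : ℤ × ℤ => (q.1 + q.2, -q.2)) := by
    intro a b hab
    simp only [Prod.mk.injEq, neg_inj] at hab
    refine Prod.ext ?_ hab.2
    have := hab.1
    rw [hab.2] at this
    exact add_right_cancel this
  have h := Finsupp.mapDomain_apply hinj w (q.1 + q.2, -q.2)
  simpa using h

lemma pos_rf (q : ℤ × ℤ) (d : ℝ) : d • pos (q.1 + q.2, -q.2) = ((d • pos q).1, -(d • pos q).2) := by
  unfold GFF.pos
  ext
  · simp only [Prod.smul_fst, smul_eq_mul]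
    push_cast
    ring
  · simp only [Prod.smul_snd, smul_eq_mul]
    push_cast
    ring

lemma App.rf (hw : App δ f w) : App δ (fun x => f (x.1, -x.2)) (fun n => SD.rf (w n)) := by
  obtain ⟨R, C, hR, hC, h⟩ := hw
  refine ⟨2 * R, C, by positivity, hC, fun n => ⟨fun q hq => ?_, fun q => ?_⟩⟩
  · rw [rf_apply] at hq
    obtain ⟨h1, h2⟩ := (h n).1 _ hq
    simp only [Int.cast_neg, mul_neg, abs_neg] at h2
    refine ⟨?_, h2.trans (by linarith)⟩
    have e : δ n * (q.1 : ℝ) = δ n * ((q.1 + q.2 : ℤ) : ℝ) - δ n * q.2 := by push_cast; ring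
    rw [e]
    refine (abs_sub _ _).trans ?_
    linarith
  · rw [rf_apply]
    have h1 := (h n).2 (q.1 + q.2, -q.2)
    rw [pos_rf] at h1
    exact h1

end App

variable {P : Measure Fld}

/-- Linear growth of the variance. -/
theorem grow_all {c : ℝ} (h : Tendsto (fun x : ℤ × ℤ => var2 P x / Real.log (GFF.len x)) cofinite
    (𝓝 c)) : ∃ A, 0 ≤ A ∧ ∀ x : ℤ × ℤ, var2 P x ≤ A * (1 + |(x.1 : ℝ)| + |(x.2 : ℝ)|) := by
  have hV0 : ∀ p : ℤ × ℤ, 0 ≤ var2 P p := fun p => integral_nonneg fun φ => sq_nonneg _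
  have h1 := h.eventually (Metric.ball_mem_nhds c one_pos)
  rw [Filter.eventually_cofinite] at h1
  set T : Finset (ℤ × ℤ) := h1.toFinset ∪ (Finset.Icc (-1) 1 ×ˢ Finset.Icc (-1) 1) with hT
  refine ⟨2 * (|c| + 1) + ∑ p ∈ T, var2 P p,
    add_nonneg (by positivity) (Finset.sum_nonneg fun p _ => hV0 p), fun x => ?_⟩
  have hS : 0 ≤ ∑ p ∈ T, var2 P p := Finset.sum_nonneg fun p _ => hV0 p
  have hx : 0 ≤ |(x.1 : ℝ)| + |(x.2 : ℝ)| := by positivity
  by_cases hp : x ∈ T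
  · have h2 : var2 P x ≤ ∑ p ∈ T, var2 P p :=
      Finset.single_le_sum (f := fun p : ℤ × ℤ => var2 P p) (fun p _ => hV0 p) hp
    have h3 : 0 ≤ |c| := abs_nonneg c
    nlinarith only [hx, h2, h3, hS]
  · rw [hT, Finset.mem_union, not_or, Set.Finite.mem_toFinset, Set.mem_ofPred_eq, not_not,
      Real.dist_eq] at hp
    obtain ⟨h2, h3⟩ := hp
    have hjz : 1 < |x.1| ∨ 1 < |x.2| := by
      by_contra hcon
      rw [not_or, not_lt, not_lt, abs_le, abs_le] at hcon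
      apply h3
      rw [Finset.mem_product, Finset.mem_Icc, Finset.mem_Icc]
      exact hcon
    have h4 : (3 : ℝ) ≤ (x.1 : ℝ) ^ 2 + x.1 * x.2 + (x.2 : ℝ) ^ 2 := by
      rcases hjz with h | h
      · have h5 : (2 : ℝ) ≤ |(x.1 : ℝ)| := by exact_mod_cast h
        have h6 : (4 : ℝ) ≤ (x.1 : ℝ) ^ 2 := by
          rw [← sq_abs]
          nlinarith only [h5]
        nlinarith only [h6, sq_nonneg ((x.1 : ℝ) + 2 * x.2)]
      · have h5 : (2 : ℝ) ≤ |(x.2 : ℝ)| := by exact_mod_cast h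
        have h6 : (4 : ℝ) ≤ (x.2 : ℝ) ^ 2 := by
          rw [← sq_abs]
          nlinarith only [h5]
        nlinarith only [h6, sq_nonneg ((x.2 : ℝ) + 2 * x.1)]
    have h5 : 3 / 2 ≤ GFF.len x := by
      unfold GFF.len
      rw [Real.le_sqrt' (by norm_num)]
      linarith only [h4]
    have h6 : 0 < Real.log (GFF.len x) := Real.log_pos (by linarith only [h5])
    have h7 : var2 P x / Real.log (GFF.len x) ≤ |c| + 1 := by
      have := abs_lt.1 h2
      linarith only [this, le_abs_self c]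
    rw [div_le_iff₀ h6] at h7
    have h8 : Real.log (GFF.len x) ≤ GFF.len x :=
      (Real.log_le_sub_one_of_pos (by linarith)).trans (by linarith only [])
    have h9 : GFF.len x ≤ 2 * (|(x.1 : ℝ)| + |(x.2 : ℝ)|) := by
      unfold GFF.len
      rw [Real.sqrt_le_left (by (clear * -; positivity))]
      have := le_abs_self ((x.1 : ℝ) * x.2)
      rw [abs_mul] at this
      nlinarith only [sq_abs (x.1 : ℝ), sq_abs (x.2 : ℝ), mul_nonneg (abs_nonneg (x.1 : ℝ)) (abs_nonneg (x.2 : ℝ))]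
    have h10 : var2 P x ≤ (|c| + 1) * (2 * (|(x.1 : ℝ)| + |(x.2 : ℝ)|)) :=
      h7.trans (mul_le_mul_of_nonneg_left (h8.trans h9) (by positivity))
    nlinarith only [hS, h10, hx, abs_nonneg c]

/-- The lattice functional is close to the integral: one mesh. -/
theorem app_close1 (hP : Plane P) {A : ℝ} (hA0 : 0 ≤ A)
    (hA : ∀ x : ℤ × ℤ, var2 P x ≤ A * (1 + |(x.1 : ℝ)| + |(x.2 : ℝ)|)) {f : ℝ × ℝ → ℝ} {K : ℝ}
    (hf : Csts f K) {R C d : ℝ} (hR : 0 < R) (hC : 0 ≤ C) (hd : 0 < d) (hd1 : d ≤ 1)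
    {w : (ℤ × ℤ) →₀ ℝ} (h1 : ∀ q : ℤ × ℤ, w q ≠ 0 → |d * q.1| ≤ R ∧ |d * q.2| ≤ R)
    (h2 : ∀ q : ℤ × ℤ, |w q - √3 / 2 * d ^ 2 * f (d • pos q)| ≤ C * d ^ 3) :
    ∫ φ, (ev w (pth φ) - smear (pth φ) d f) ^ 2 ∂P ≤
      (2 * (C + 2 * K)) ^ 2 * ((2 * (R + 2 * K + 7) + 3) ^ 4 *
        (A * (2 * (R + 2 * K + 7) + 3))) * d ∧
    Integrable (fun φ => (ev w (pth φ) - smear (pth φ) d f) ^ 2) P ∧
    Measurable (fun φ => ev w (pth φ)) ∧ Measurable (fun φ => smear (pth φ) d f) := by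
  classical
  have hK := hf.pos
  set M : ℝ := R + 2 * K + 7 with hM
  have hMp : 0 < M := by positivity
  set U : Finset (ℤ × ℤ) := Finset.Icc (-⌈M / d⌉) ⌈M / d⌉ ×ˢ Finset.Icc (-⌈M / d⌉) ⌈M / d⌉ with hU
  have hi : 1 ≤ 1 / d := by
    rw [le_div_iff₀ hd]
    linarith
  have hmem : ∀ q : ℤ × ℤ, |(q.1 : ℝ)| ≤ M / d → |(q.2 : ℝ)| ≤ M / d → q ∈ U := by
    intro q ha hb
    have hc : M / d ≤ ⌈M / d⌉ := Int.le_ceil _
    rw [hU, Finset.mem_product, Finset.mem_Icc, Finset.mem_Icc]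
    rw [abs_le] at ha hb
    refine ⟨⟨?_, ?_⟩, ?_, ?_⟩
    · have : (-⌈M / d⌉ : ℝ) ≤ q.1 := by linarith only [ha, hc]
      exact_mod_cast this
    · have : (q.1 : ℝ) ≤ ⌈M / d⌉ := by linarith only [ha, hc]
      exact_mod_cast this
    · have : (-⌈M / d⌉ : ℝ) ≤ q.2 := by linarith only [hb, hc]
      exact_mod_cast this
    · have : (q.2 : ℝ) ≤ ⌈M / d⌉ := by linarith only [hb, hc]
      exact_mod_cast this
  have hMd : M / d = R * (1 / d) + 2 * (K / d) + 7 * (1 / d) := by rw [hM]; ring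
  have hKd : 0 ≤ K / d := by positivity
  have hRd : 0 ≤ R * (1 / d) := by positivity
  have hw : ∀ q, w q ≠ 0 → q ∈ U := by
    intro q hq
    have h := h1 q hq
    rw [abs_mul, abs_mul, abs_of_pos hd] at h
    have key : ∀ a : ℝ, d * a ≤ R → a ≤ M / d := by
      intro a ha
      have : a ≤ R / d := by rw [le_div_iff₀ hd]; linarith only [ha]
      have e : R / d = R * (1 / d) := by ring
      rw [hMd]
      linarith only [hi, hKd, this, e]
    exact hmem q (key _ h.1) (key _ h.2)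
  have hwt : ∀ q, wt d f q ≠ 0 → q ∈ U := by
    intro q hq
    obtain ⟨a, b⟩ := GFF.wt_supp hf hd q hq
    exact hmem q (a.trans (by rw [hMd]; (clear * - hi hRd; linarith))) (b.trans (by rw [hMd]; linarith only [hi, hRd]))
  have e1 : ∀ φ : Fld, ev w (pth φ) = ∑ q ∈ U, (2 * w q) * (φ q : ℝ) := by
    intro φ
    unfold ev
    rw [Finsupp.sum_of_support_subset w (s := U) (fun q hq => hw q (Finsupp.mem_support_iff.1 hq))
      _ (fun q _ => by simp)]
    refine Finset.sum_congr rfl fun q _ => ?_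
    unfold pth
    push_cast
    ring
  have e2 : ∀ φ : Fld, smear (pth φ) d f = ∑ q ∈ U, (2 * wt d f q) * (φ q : ℝ) := by
    intro φ
    rw [GFF.smear_finsum hf hd, finsum_eq_sum_of_support_subset (s := U)]
    · refine Finset.sum_congr rfl fun q _ => ?_
      unfold pth
      push_cast
      ring
    · intro q hq
      refine hwt q fun h0 => hq ?_
      show ((pth φ q : ℤ) : ℝ) * wt d f q = 0
      rw [h0, mul_zero]
  have e3 : ∀ φ : Fld, ev w (pth φ) - smear (pth φ) d f =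
      ∑ q ∈ U, (2 * (w q - wt d f q)) * (φ q : ℝ) := by
    intro φ
    rw [e1, e2, ← Finset.sum_sub_distrib]
    refine Finset.sum_congr rfl fun q _ => ?_
    ring
  refine ⟨?_, ?_, ?_, ?_⟩
  · simp_rw [e3]
    have h5 := GFF.sum_small hP U (fun q => q) (fun q => 2 * (w q - wt d f q))
      (m := 2 * (C + 2 * K) * d ^ 3) (v := A * (2 * M + 3) / d) (fun q _ => by
        have h6 := GFF.wt_close hf hd q (d • pos q) 0 (by simp)
        have h7 : |wt d f q - √3 / 2 * d ^ 2 * f (d • pos q)| ≤ 2 * K * d ^ 3 := by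
          have e : wt d f q - √3 / 2 * d ^ 2 * f (d • pos q) =
              d ^ 2 * (wt d f q / d ^ 2 - √3 / 2 * f (d • pos q)) := by
            (clear * - hd; field_simp)
          rw [e, abs_mul, abs_of_pos (by positivity : (0 : ℝ) < d ^ 2)]
          refine (mul_le_mul_of_nonneg_left h6 (by positivity)).trans (le_of_eq ?_)
          ring
        have e : 2 * (w q - wt d f q) = 2 * ((w q - √3 / 2 * d ^ 2 * f (d • pos q)) -
            (wt d f q - √3 / 2 * d ^ 2 * f (d • pos q))) := by ring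
        rw [e, abs_mul, abs_two]
        have := (abs_sub (w q - √3 / 2 * d ^ 2 * f (d • pos q))
          (wt d f q - √3 / 2 * d ^ 2 * f (d • pos q))).trans (add_le_add (h2 q) h7)
        refine (mul_le_mul_of_nonneg_left this zero_le_two).trans (le_of_eq ?_)
        ring) (fun q hq => by
        rw [hU, Finset.mem_product, Finset.mem_Icc, Finset.mem_Icc] at hq
        refine (hA q).trans ?_
        have hc : (⌈M / d⌉ : ℝ) < M / d + 1 := Int.ceil_lt_add_one _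
        have a1 : |(q.1 : ℝ)| ≤ ⌈M / d⌉ := by
          rw [abs_le]
          constructor
          · exact_mod_cast hq.1.1
          · exact_mod_cast hq.1.2
        have a2 : |(q.2 : ℝ)| ≤ ⌈M / d⌉ := by
          rw [abs_le]
          constructor
          · exact_mod_cast hq.2.1
          · exact_mod_cast hq.2.2
        have h6 : A * (2 * M + 3) / d = A * (2 * (M / d) + 3 * (1 / d)) := by ring
        rw [h6]
        apply mul_le_mul_of_nonneg_left _ hA0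
        linarith only [hi, hc, a1, a2])
    refine h5.trans ?_
    have hc0 : (0 : ℝ) ≤ U.card := by (clear * -; positivity)
    have hcard := GFF.card_box hMp hd hd1
    rw [← hU] at hcard
    have q4 : (U.card : ℝ) ^ 2 ≤ (((2 * M + 3) / d) ^ 2) ^ 2 := pow_le_pow_left₀ hc0 hcard 2
    have q5 : (U.card : ℝ) ^ 2 * (A * (2 * M + 3) / d) ≤
        (((2 * M + 3) / d) ^ 2) ^ 2 * (A * (2 * M + 3) / d) :=
      mul_le_mul_of_nonneg_right q4 (by (clear * - hA0 hR hK hd; positivity))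
    refine (mul_le_mul_of_nonneg_left q5 (by (clear * - hC hK hd; positivity))).trans (le_of_eq ?_)
    (clear * - hMp hd hC hK; field_simp)
  · simp_rw [e3]
    exact GFF.sq_int hP U (fun q => q) _
  · simp_rw [e1]
    exact Finset.measurable_sum _ fun q _ => (measurable_coord q).const_mul _
  · simp_rw [e2]
    exact Finset.measurable_sum _ fun q _ => (measurable_coord q).const_mul _

/-- Comparison of characteristic functions. -/
lemma char_close2 [IsProbabilityMeasure P] {X Y : Fld → ℝ} (hX : Measurable X) (hY : Measurable Y)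
    (hi : Integrable (fun φ => (X φ - Y φ) ^ 2) P) {ε : ℝ} (hε : 0 < ε) :
    ‖(∫ φ, Complex.exp (Complex.I * (X φ : ℂ)) ∂P) -
      ∫ φ, Complex.exp (Complex.I * (Y φ : ℂ)) ∂P‖ ≤ ε + ε⁻¹ * ∫ φ, (X φ - Y φ) ^ 2 ∂P := by
  rw [← integral_sub (GFF.int_exp hX) (GFF.int_exp hY)]
  have h3 : ∫ φ, (ε + ε⁻¹ * (X φ - Y φ) ^ 2) ∂P = ε + ε⁻¹ * ∫ φ, (X φ - Y φ) ^ 2 ∂P := by
    rw [integral_add (integrable_const _) (hi.const_mul _), integral_const_mul]
    simp
  rw [← h3]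
  apply norm_integral_le_of_norm_le ((integrable_const _).add (hi.const_mul _))
  refine ae_of_all _ fun φ => ?_
  refine (GFF.norm_exp_sub _ _).trans ?_
  show |X φ - Y φ| ≤ ε + ε⁻¹ * (X φ - Y φ) ^ 2
  rw [← sq_abs]
  set u := |X φ - Y φ| with hu
  have hu0 : 0 ≤ u := abs_nonneg _
  have h4 : ε * (ε + ε⁻¹ * u ^ 2) = ε ^ 2 + u ^ 2 := by
    field_simp
  have h5 : ε * u ≤ ε * (ε + ε⁻¹ * u ^ 2) := by
    rw [h4]
    nlinarith only []
  exact le_of_mul_le_mul_left h5 hε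

/-- The Gaussian limit in the plane, for the even heights. -/
def CLT (P : Measure Fld) (κ : ℝ) : Prop := ∀ F : ℝ × ℝ → ℝ, Test F →
  Tendsto (fun δ : ℝ => ∫ φ, Complex.exp (Complex.I * ((smear (pth φ) δ F : ℝ) : ℂ)) ∂P) (𝓝[>] 0)
    (𝓝 (Complex.exp (-((κ * gffCov F F / 2 : ℝ) : ℂ))))

/-- Characteristic functions of the lattice functionals. -/
theorem app_char (hP : Plane P) {A : ℝ} (hA0 : 0 ≤ A)
    (hA : ∀ x : ℤ × ℤ, var2 P x ≤ A * (1 + |(x.1 : ℝ)| + |(x.2 : ℝ)|)) {κ : ℝ} (hclt : CLT P κ)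
    {δ : ℕ → ℝ} (hδ : Tendsto δ atTop (𝓝[>] 0)) {g : ℝ × ℝ → ℝ} (hg : Test g)
    {v : ℕ → (ℤ × ℤ) →₀ ℝ} (hv : App δ g v) :
    Tendsto (fun n => ∫ φ, Complex.exp (Complex.I * ((ev (v n) (pth φ) : ℝ) : ℂ)) ∂P) atTop
      (𝓝 (Complex.exp (-((κ * gffCov g g / 2 : ℝ) : ℂ)))) := by
  have := hP.prob
  obtain ⟨K, hK⟩ := hg.csts
  obtain ⟨R, C, hR, hC, hv⟩ := hv
  have hpos : ∀ᶠ n in atTop, 0 < δ n := hδ.eventually self_mem_nhdsWithin
  have hle : ∀ᶠ n in atTop, δ n ≤ 1 :=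
    hδ.eventually (mem_nhdsWithin_of_mem_nhds (Iic_mem_nhds one_pos))
  have h2 := (hclt g hg).comp hδ
  set B : ℝ := (2 * (C + 2 * K)) ^ 2 * ((2 * (R + 2 * K + 7) + 3) ^ 4 *
    (A * (2 * (R + 2 * K + 7) + 3))) with hB
  have t1 : Tendsto (fun n => (1 + B) * √(δ n)) atTop (𝓝 0) := by
    have h0 : Tendsto δ atTop (𝓝 0) := tendsto_nhds_of_tendsto_nhdsWithin hδ
    have := (Real.continuous_sqrt.tendsto 0).comp h0
    rw [Real.sqrt_zero] at this
    simpa using this.const_mul (1 + B)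
  have h3 : Tendsto (fun n => ∫ φ, Complex.exp (Complex.I * ((ev (v n) (pth φ) : ℝ) : ℂ)) ∂P -
      ∫ φ, Complex.exp (Complex.I * ((smear (pth φ) (δ n) g : ℝ) : ℂ)) ∂P) atTop (𝓝 0) := by
    refine squeeze_zero_norm' ?_ t1
    filter_upwards [hpos, hle] with n hn hn1
    obtain ⟨c1, c2, c3, c4⟩ := app_close1 hP hA0 hA hK hR hC hn hn1 (hv n).1 (hv n).2
    have hs : 0 < √(δ n) := Real.sqrt_pos.2 hn
    refine (char_close2 c3 c4 c2 hs).trans ?_
    have h5 : (√(δ n))⁻¹ * ∫ φ, (ev (v n) (pth φ) - smear (pth φ) (δ n) g) ^ 2 ∂P ≤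
        (√(δ n))⁻¹ * (B * δ n) := mul_le_mul_of_nonneg_left c1 (by positivity)
    have h6 : (√(δ n))⁻¹ * (B * δ n) = B * √(δ n) := by
      have h7 : δ n = √(δ n) * √(δ n) := (Real.mul_self_sqrt hn.le).symm
      calc (√(δ n))⁻¹ * (B * δ n) = (√(δ n))⁻¹ * (B * (√(δ n) * √(δ n))) := by rw [← h7]
        _ = B * √(δ n) := by (clear * - hn; field_simp)
    linarith only [h5, h6]
  have h4 := h3.add h2
  rw [zero_add] at h4
  refine h4.congr fun n => ?_
  simp only [Function.comp_apply]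
  ring

/-- The plane theorem in the form used here. -/
theorem clt_of {κ' : ℝ} (hP : Plane P) (hS : GFF.SpecOut P κ') (hC : GFF.RowCLT P κ') :
    CLT P (4 * κ' / √3) ∧
      ∃ A, 0 ≤ A ∧ ∀ x : ℤ × ℤ, var2 P x ≤ A * (1 + |(x.1 : ℝ)| + |(x.2 : ℝ)|) := by
  refine ⟨fun F hF => ?_, grow_all (GFF.var_lim hP hS)⟩
  have h1 := GFF.char_fun hP hS hC (GFF.test_two hF)
  rw [GFF.gffCov_two] at h1
  have h2 : κ' / √3 * (4 * gffCov F F) / 2 = 4 * κ' / √3 * gffCov F F / 2 := by ring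
  rw [h2] at h1
  refine h1.congr fun δ => ?_
  congr 1
  ext φ
  rw [← GFF.smear_dbl]
  rfl

end Vale.Agent.P153.F.SD
end

section

/-!
P153, product Schwinger-Dyson: the macroscopic input `SDseq` from the Gaussian limit in the plane.
-/

namespace Vale.Agent.P153.F.SD

open Finset Filter Topology MeasureTheory
open Vale.Agent.P145.PT (Sm TestOn lap)
open Vale.Agent.P145.FA (gst SDdat gff_square gst_sm gst_cs gst_int rr int_a int_b int_rr lap_neg
  lap_rr rr_sm cs_rr)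
open Vale.Agent.P153.GFF (var2)

variable {P : Measure Fld} {f ψ χ : ℝ × ℝ → ℝ}

lemma gst_app {δ : ℕ → ℝ} {w u φ : ℕ → (ℤ × ℤ) →₀ ℝ} (hw : App δ f w)
    (hu : App δ (fun x => -lap ψ x) u) (hφ : App δ χ φ) (s t z : ℝ) :
    App δ (gst f ψ χ s t z) (fun n => w n - rf (w n) + s • u n - t • rf (u n)
      + z • (rf (φ n) - φ n)) :=
  ((((hw.sub hw.rf).add (hu.smul s)).sub (hu.rf.smul t)).add ((hφ.rf.sub hφ).smul z))

lemma gff_eq (f g : ℝ × ℝ → ℝ) : GFF.gffCov f g = P152.GFF.S.gffCov f g := rfl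

/-- The macroscopic input of the half-plane statement. -/
theorem sdseq (hP : GFF.Plane P) {A : ℝ} (hA0 : 0 ≤ A)
    (hA : ∀ x : ℤ × ℤ, var2 P x ≤ A * (1 + |(x.1 : ℝ)| + |(x.2 : ℝ)|)) {κ : ℝ} (hclt : CLT P κ)
    {δ : ℕ → ℝ} (hδ : Tendsto δ atTop (𝓝[>] 0)) (h : SDdat f ψ χ) {w u φ : ℕ → (ℤ × ℤ) →₀ ℝ}
    (hw : App δ f w) (hu : App δ (fun x => -lap ψ x) u) (hφ : App δ χ φ)
    (mu : ∀ n, mass (u n) = 0) (mφ : ∀ n, mass (φ n) = 1) :
    SDseq P w u φ (Real.exp (-(κ * ∫ x, ψ x * f x) - (κ / 2) * ∫ x, ψ x * (-lap ψ x))) := by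
  refine ⟨mu, mφ, fun s t z => Complex.exp (-((κ * GFF.gffCov (gst f ψ χ s t z)
    (gst f ψ χ s t z) / 2 : ℝ) : ℂ)), fun s t z _ _ => ?_, fun t z ht => ?_, fun s z hs => ?_⟩
  · exact app_char hP hA0 hA hclt hδ ⟨gst_sm h s t z, gst_cs h s t z, gst_int h s t z⟩
      (gst_app hw hu hφ s t z)
  · have e : gst f ψ χ 1 t z = fun x => gst f ψ χ 0 t z x + -lap ψ x := by
      funext x; unfold gst; ring
    have h1 := gff_square (gst_sm h 0 t z).continuous (gst_cs h 0 t z) h.p1 h.p2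
    beta_reduce
    rw [gff_eq, gff_eq, e, h1, int_a h t z, Complex.ofReal_exp, ← Complex.exp_add]
    congr 1
    push_cast
    ring
  · have hψ' : Sm (fun x => -ψ (rr x)) := (h.p1.comp rr_sm).neg
    have cψ' : HasCompactSupport (fun x => -ψ (rr x)) := (cs_rr h.p2).neg
    have elap : ∀ x, lap (fun x => -ψ (rr x)) x = - lap ψ (rr x) := fun x => by
      rw [lap_neg (f := fun x => ψ (rr x)), lap_rr h.p1]
    have e : gst f ψ χ s 1 z = fun x => gst f ψ χ s 0 z x + -lap (fun x => -ψ (rr x)) x := by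
      funext x; rw [elap]; unfold gst; ring
    have h1 := gff_square (gst_sm h s 0 z).continuous (gst_cs h s 0 z) hψ' cψ'
    have h2 : ∫ x, (-ψ (rr x)) * (-lap (fun x => -ψ (rr x)) x) = ∫ x, ψ x * (-lap ψ x) := by
      rw [← int_rr (fun x => ψ x * (-lap ψ x))]
      refine integral_congr_ae (Eventually.of_forall fun x => ?_)
      simp only
      rw [elap]
      ring
    beta_reduce
    rw [gff_eq, gff_eq, e, h1, int_b h s z, h2, Complex.ofReal_exp, ← Complex.exp_add]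
    congr 1
    push_cast
    ring

end Vale.Agent.P153.F.SD
end

section

/-!
P153, bounded domains: a smooth compactly supported function is approximated by finitely supported
weights on the triangular lattice of mesh `δ` with the exact total mass.
-/

open MeasureTheory Filter Topology Set

namespace Vale.Agent.P153.F.SD

open Vale.Agent.P153.GFF (pos wt box Csts ker)

/-- Constants of a smooth compactly supported function. -/
lemma exists_csts {f : ℝ × ℝ → ℝ} (h1 : ContDiff ℝ ((⊤ : ℕ∞) : WithTop ℕ∞) f)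
    (h2 : HasCompactSupport f) : ∃ K, Csts f K := by
  have hc : Continuous f := h1.continuous
  obtain ⟨B, hB⟩ := hc.bounded_above_of_compact_support h2
  obtain ⟨C, hC⟩ := h1.lipschitzWith_of_hasCompactSupport h2 (by simp)
  obtain ⟨M, hM0, hM⟩ := GFF.second_diff (by exact_mod_cast contDiff_infty.1 h1 2) h2
  obtain ⟨R, hR⟩ := h2.isCompact.isBounded.subset_closedBall (0 : ℝ × ℝ)
  have hBn : 0 ≤ B := (norm_nonneg _).trans (hB 0)
  have hCn : (0 : ℝ) ≤ C := C.2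
  refine ⟨1 + |R| + B + C + M, by positivity, hc, h2, ?_, ?_, ?_, ?_⟩
  · intro z hz
    by_contra hne
    have h4 : z ∈ tsupport f := subset_tsupport _ hne
    have h5 := hR h4
    rw [mem_closedBall_zero_iff, Prod.norm_def, sup_le_iff, Real.norm_eq_abs, Real.norm_eq_abs] at h5
    have := le_abs_self R
    rcases hz with h | h <;> linarith [h5.1, h5.2]
  · intro z
    have := hB z
    rw [Real.norm_eq_abs] at this
    have := abs_nonneg R
    linarith
  · intro x y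
    have h4 := hC.dist_le_mul x y
    rw [Real.dist_eq, dist_eq_norm] at h4
    refine h4.trans (mul_le_mul_of_nonneg_right ?_ (norm_nonneg _))
    have := abs_nonneg R
    linarith
  · intro x y
    refine (hM x y).trans (mul_le_mul_of_nonneg_right ?_ (by positivity))
    have := abs_nonneg R
    linarith

variable {g : ℝ × ℝ → ℝ} {K δ : ℝ}

/-- a value of the function against the weight -/
lemma val_sub_wt (hg : Csts g K) (hδ : 0 < δ) (q : ℤ × ℤ) :
    |√3 / 2 * δ ^ 2 * g (δ • pos q) - wt δ g q| ≤ 2 * K * δ ^ 3 := by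
  have h := GFF.wt_close hg hδ q (δ • pos q) 0 (by simp)
  have e : √3 / 2 * δ ^ 2 * g (δ • pos q) - wt δ g q =
      -(δ ^ 2 * (wt δ g q / δ ^ 2 - √3 / 2 * g (δ • pos q))) := by
    field_simp
    ring
  rw [e, abs_neg, abs_mul, abs_of_pos (by positivity : (0 : ℝ) < δ ^ 2)]
  calc δ ^ 2 * |wt δ g q / δ ^ 2 - √3 / 2 * g (δ • pos q)|
      ≤ δ ^ 2 * (K * (2 * δ + 0)) := mul_le_mul_of_nonneg_left h (by positivity)
    _ = 2 * K * δ ^ 3 := by ring

lemma val_zero (hg : Csts g K) (hδ : 0 < δ) {q : ℤ × ℤ} (hq : q ∉ box δ K) :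
    g (δ • pos q) = 0 := by
  by_contra hne
  have h2 : ¬(K < |(δ • pos q).1| ∨ K < |(δ • pos q).2|) := fun h => hne (hg.zero _ h)
  rw [not_or, not_lt, not_lt] at h2
  obtain ⟨h2a, h2b⟩ := h2
  rw [Prod.smul_fst, smul_eq_mul, abs_mul, abs_of_pos hδ] at h2a
  rw [Prod.smul_snd, smul_eq_mul, abs_mul, abs_of_pos hδ] at h2b
  have h3 : |(pos q).1| ≤ K / δ := by
    rw [le_div_iff₀ hδ]
    linarith
  have h4 : |(pos q).2| ≤ K / δ := by
    rw [le_div_iff₀ hδ]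
    linarith
  have hq0 : 0 ≤ K / δ := div_nonneg hg.pos.le hδ.le
  unfold pos at h3 h4
  simp only at h3 h4
  have h5 : (1 : ℝ) ≤ √3 := by
    rw [Real.one_le_sqrt]
    norm_num
  have h6 : |(q.2 : ℝ)| ≤ 2 * (K / δ) := by
    rw [abs_mul, abs_of_pos (by positivity : (0 : ℝ) < √3 / 2)] at h4
    nlinarith [abs_nonneg (q.2 : ℝ)]
  have h8 : |(q.1 : ℝ)| ≤ 2 * (K / δ) := by
    have h10 : |(q.1 : ℝ)| ≤ |(q.1 : ℝ) + q.2 / 2| + |(q.2 : ℝ) / 2| := by
      have := abs_sub ((q.1 : ℝ) + q.2 / 2) ((q.2 : ℝ) / 2)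
      rw [add_sub_cancel_right] at this
      exact this
    rw [abs_div, abs_of_pos (by norm_num : (0 : ℝ) < 2)] at h10
    linarith
  apply hq
  have hc := Int.le_ceil (2 * (K / δ) + 6)
  rw [box, Finset.mem_product, Finset.mem_Icc, Finset.mem_Icc]
  rw [abs_le] at h6 h8
  refine ⟨⟨?_, ?_⟩, ?_, ?_⟩
  · have : (-(⌈2 * (K / δ) + 6⌉ : ℝ)) ≤ q.1 := by linarith
    exact_mod_cast this
  · have : (q.1 : ℝ) ≤ ⌈2 * (K / δ) + 6⌉ := by linarith
    exact_mod_cast this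
  · have : (-(⌈2 * (K / δ) + 6⌉ : ℝ)) ≤ q.2 := by linarith
    exact_mod_cast this
  · have : (q.2 : ℝ) ≤ ⌈2 * (K / δ) + 6⌉ := by linarith
    exact_mod_cast this

lemma card_box_le (hK : 0 < K) (hδ : 0 < δ) (hδ1 : δ ≤ 1) :
    ((box δ K).card : ℝ) ≤ ((4 * K + 15) / δ) ^ 2 := by
  rw [box]
  set N : ℤ := ⌈2 * (K / δ) + 6⌉ with hN
  have hNpos : 0 < N := Int.ceil_pos.2 (by positivity)
  have hN2 : (N : ℝ) < 2 * (K / δ) + 6 + 1 := Int.ceil_lt_add_one _
  have e : ((Finset.Icc (-N) N ×ˢ Finset.Icc (-N) N : Finset (ℤ × ℤ)).card : ℝ) =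
      (2 * N + 1) ^ 2 := by
    rw [Finset.card_product, Int.card_Icc, sq]
    push_cast
    have : ((N + 1 - -N).toNat : ℝ) = 2 * N + 1 := by
      have h : ((N + 1 - -N).toNat : ℤ) = 2 * N + 1 := by
        rw [Int.toNat_of_nonneg (by omega)]
        ring
      exact_mod_cast h
    rw [this]
  rw [e]
  have hNr : (0 : ℝ) < N := by exact_mod_cast hNpos
  apply pow_le_pow_left₀ (by positivity)
  have h5 : 1 ≤ 1 / δ := by
    rw [le_div_iff₀ hδ]
    linarith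
  have h6 : (4 * K + 15) / δ = 4 * (K / δ) + 15 * (1 / δ) := by ring
  rw [h6]
  linarith

/-- Riemann sum -/
noncomputable def rs (δ K : ℝ) (g : ℝ × ℝ → ℝ) : ℝ :=
  ∑ q ∈ box δ K, √3 / 2 * δ ^ 2 * g (δ • pos q)

lemma rs_close (hg : Csts g K) (hδ : 0 < δ) (hδ1 : δ ≤ 1) :
    |rs δ K g - ∫ z, g z| ≤ 2 * K * (4 * K + 15) ^ 2 * δ := by
  rw [← GFF.sum_wt hδ hg.pos.le hg.cont hg.supp hg.zero, rs, ← Finset.sum_sub_distrib]
  refine (Finset.abs_sum_le_sum_abs _ _).trans ?_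
  refine (Finset.sum_le_card_nsmul _ _ _ fun q _ => val_sub_wt hg hδ q).trans ?_
  rw [nsmul_eq_mul]
  have hK := hg.pos
  refine (mul_le_mul_of_nonneg_right (card_box_le hK hδ hδ1) (by positivity)).trans (le_of_eq ?_)
  field_simp

end Vale.Agent.P153.F.SD
end

section

/-!
P153, product Schwinger-Dyson: the interpolated field `∫ h_δ f` as a lattice functional.
-/

namespace Vale.Agent.P153.F.SD

open MeasureTheory Filter Topology
open Vale.Agent.P153.GFF (Csts pos wt smear ker)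

variable {f : ℝ × ℝ → ℝ} {K d : ℝ}

open Classical in
/-- The weights of `h ↦ ∫ h_δ f`. -/
noncomputable def Lw (d : ℝ) (f : ℝ × ℝ → ℝ) : (ℤ × ℤ) →₀ ℝ :=
  if h : (Function.support (wt d f)).Finite then Finsupp.ofSupportFinite (wt d f) h else 0

theorem Lw_apply (hf : Csts f K) (hd : 0 < d) (q : ℤ × ℤ) : Lw d f q = wt d f q := by
  unfold Lw
  rw [dif_pos (GFF.wt_support_finite hf hd)]
  rfl

theorem wt_shift (a q : ℤ × ℤ) : wt d (fun x => f (x + d • pos a)) q = wt d f (q + a) := by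
  unfold GFF.wt
  congr 2
  ext u
  show ker u * f (d • (u + pos q) + d • pos a) = ker u * f (d • (u + pos (q + a)))
  rw [GFF.pos_add, ← smul_add, add_assoc]

theorem Csts.shift (hf : Csts f K) (x0 : ℝ × ℝ) :
    Csts (fun x => f (x + x0)) (K + ‖x0‖) where
  pos := add_pos_of_pos_of_nonneg hf.pos (norm_nonneg _)
  cont := hf.cont.comp (continuous_id.add continuous_const)
  supp := hf.supp.comp_homeomorph (Homeomorph.addRight x0)
  zero z hz := by
    have h1 : |x0.1| ≤ ‖x0‖ := by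
      rw [Prod.norm_def, ← Real.norm_eq_abs]; exact le_sup_left
    have h2 : |x0.2| ≤ ‖x0‖ := by
      rw [Prod.norm_def, ← Real.norm_eq_abs]; exact le_sup_right
    have key : ∀ a b : ℝ, |a| ≤ |a + b| + |b| := fun a b => by
      have := abs_sub (a + b) b
      rw [add_sub_cancel_right] at this
      exact this
    refine hf.zero _ (hz.imp (fun h => ?_) fun h => ?_)
    · rw [Prod.fst_add]
      linarith [key z.1 x0.1]
    · rw [Prod.snd_add]
      linarith [key z.2 x0.2]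
  bdd z := (hf.bdd _).trans (le_add_of_nonneg_right (norm_nonneg _))
  lip x y := by
    refine (hf.lip _ _).trans ?_
    rw [add_sub_add_right_eq_sub]
    exact mul_le_mul_of_nonneg_right (le_add_of_nonneg_right (norm_nonneg _)) (norm_nonneg _)
  sec x y := by
    have := hf.sec (x + x0) y
    have e1 : x + y + x0 = x + x0 + y := by abel
    have e2 : x - y + x0 = x + x0 - y := by abel
    rw [e1, e2]
    exact this.trans (mul_le_mul_of_nonneg_right (le_add_of_nonneg_right (norm_nonneg _))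
      (by positivity))

/-- The functionals of the shifted function approximate it. -/
theorem app_Lw {δ : ℕ → ℝ} {a : ℕ → ℤ × ℤ} {x0 : ℝ × ℝ} {B : ℝ} (hB : 0 ≤ B) (hf : Csts f K)
    (hδ : ∀ n, 0 < δ n) (hδ1 : ∀ n, δ n ≤ 1) (ha : ∀ n, ‖δ n • pos (a n) - x0‖ ≤ B * δ n) :
    App δ (fun x => f (x + x0)) (fun n => Lw (δ n) (fun x => f (x + δ n • pos (a n)))) := by
  have hK := hf.pos
  refine ⟨2 * K + 7 + 2 * (‖x0‖ + B), 2 * K + K * B, by positivity, by positivity,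
    fun n => ⟨fun q hq => ?_, fun q => ?_⟩⟩
  · rw [Lw_apply (Csts.shift hf _) (hδ n), wt_shift] at hq
    obtain ⟨h1, h2⟩ := GFF.wt_supp hf (hδ n) _ hq
    have hd := hδ n
    have h3 := ha n
    have h4 : B * δ n ≤ B := mul_le_of_le_one_right hB (hδ1 n)
    have h5 : ‖δ n • pos (a n)‖ ≤ ‖x0‖ + B := by
      have := norm_add_le (δ n • pos (a n) - x0) x0
      rw [sub_add_cancel] at this
      linarith
    rw [Prod.norm_def, sup_le_iff, Real.norm_eq_abs, Real.norm_eq_abs] at h5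
    unfold GFF.pos at h5
    simp only [Prod.smul_mk, smul_eq_mul] at h5
    obtain ⟨h6, h7⟩ := h5
    have hs3 : (1 : ℝ) ≤ √3 := by
      rw [Real.one_le_sqrt]
      norm_num
    have h8 : |δ n * ((a n).2 : ℝ)| ≤ 2 * (‖x0‖ + B) := by
      have e : δ n * ((a n).2 * (√3 / 2)) = (δ n * (a n).2) * (√3 / 2) := by ring
      rw [e, abs_mul, abs_of_pos (by positivity : (0 : ℝ) < √3 / 2)] at h7
      nlinarith [abs_nonneg (δ n * ((a n).2 : ℝ))]
    have h9 : |δ n * ((a n).1 : ℝ)| ≤ 2 * (‖x0‖ + B) := by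
      have e : δ n * ((a n).1 : ℝ) = δ n * ((a n).1 + (a n).2 / 2) - (δ n * (a n).2) / 2 := by ring
      rw [e]
      refine (abs_sub _ _).trans ?_
      rw [abs_div, abs_two]
      linarith
    have key : ∀ x y : ℝ, |x + y| ≤ 2 * (K / δ n) + 7 → |δ n * y| ≤ 2 * (‖x0‖ + B) →
        |δ n * x| ≤ 2 * K + 7 + 2 * (‖x0‖ + B) := by
      intro x y hx hy
      have e : δ n * x = δ n * (x + y) - δ n * y := by ring
      rw [e]
      refine (abs_sub _ _).trans ?_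
      have h10 : |δ n * (x + y)| ≤ 2 * K + 7 := by
        rw [abs_mul, abs_of_pos hd]
        have h11 := mul_le_mul_of_nonneg_left hx hd.le
        have e2 : δ n * (2 * (K / δ n) + 7) = 2 * K + 7 * δ n := by
          field_simp
        rw [e2] at h11
        linarith [hδ1 n]
      linarith
    simp only [Prod.fst_add, Prod.snd_add] at h1 h2
    push_cast at h1 h2
    exact ⟨key _ _ h1 h9, key _ _ h2 h8⟩
  · have hd := hδ n
    rw [Lw_apply (Csts.shift hf _) hd, wt_shift]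
    have h6 := GFF.wt_close hf hd (q + a n) (δ n • pos (q + a n)) 0 (by simp)
    have h7 : |wt (δ n) f (q + a n) - √3 / 2 * δ n ^ 2 * f (δ n • pos (q + a n))| ≤
        2 * K * δ n ^ 3 := by
      have e : wt (δ n) f (q + a n) - √3 / 2 * δ n ^ 2 * f (δ n • pos (q + a n)) =
          δ n ^ 2 * (wt (δ n) f (q + a n) / δ n ^ 2 - √3 / 2 * f (δ n • pos (q + a n))) := by
        field_simp
      rw [e, abs_mul, abs_of_pos (by positivity : (0 : ℝ) < δ n ^ 2)]
      refine (mul_le_mul_of_nonneg_left h6 (by positivity)).trans (le_of_eq ?_)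
      ring
    have h8 : |f (δ n • pos (q + a n)) - f (δ n • pos q + x0)| ≤ K * (B * δ n) := by
      refine (hf.lip _ _).trans (mul_le_mul_of_nonneg_left ?_ hK.le)
      rw [GFF.pos_add, smul_add, add_sub_add_left_eq_sub]
      exact ha n
    have e : wt (δ n) f (q + a n) - √3 / 2 * δ n ^ 2 * f (δ n • pos q + x0) =
        (wt (δ n) f (q + a n) - √3 / 2 * δ n ^ 2 * f (δ n • pos (q + a n))) +
        √3 / 2 * δ n ^ 2 * (f (δ n • pos (q + a n)) - f (δ n • pos q + x0)) := by ring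
    rw [e]
    refine (abs_add_le _ _).trans ?_
    have hs : √3 / 2 ≤ 1 := by linarith [GFF.sqrt3_le]
    have h9 : |√3 / 2 * δ n ^ 2 * (f (δ n • pos (q + a n)) - f (δ n • pos q + x0))| ≤
        K * B * δ n ^ 3 := by
      rw [abs_mul, abs_of_pos (by positivity : (0 : ℝ) < √3 / 2 * δ n ^ 2)]
      calc √3 / 2 * δ n ^ 2 * |f (δ n • pos (q + a n)) - f (δ n • pos q + x0)|
          ≤ 1 * δ n ^ 2 * (K * (B * δ n)) := by
            refine mul_le_mul (mul_le_mul_of_nonneg_right hs (by positivity)) h8 (abs_nonneg _)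
              (by positivity)
        _ = K * B * δ n ^ 3 := by ring
    linarith

end Vale.Agent.P153.F.SD
end

section

/-!
P153, product Schwinger-Dyson: the lattice functionals `Wd δ f a`, `√3/2 δ² ∑ h(q) f(δ (q + a))`;
normalised functionals of mass one and of mass zero.
-/

namespace Vale.Agent.P153.F.SD

open Finset Filter Topology MeasureTheory
open Vale.Agent.P153.GFF (Csts pos wt box)
open Vale.Agent.P145.PT (Sm TestOn lap)

open Classical in
/-- The lattice functional `√3/2 δ² ∑ h(q) f(δ (q + a))`. -/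
noncomputable def Wd (δ : ℝ) (f : ℝ × ℝ → ℝ) (a : ℤ × ℤ) : (ℤ × ℤ) →₀ ℝ :=
  if h : {q | √3 / 2 * δ ^ 2 * f (δ • pos (q + a)) ≠ 0}.Finite then
    Finsupp.onFinset h.toFinset (fun q => √3 / 2 * δ ^ 2 * f (δ • pos (q + a)))
      (fun q hq => by simpa using hq)
  else 0

variable {f g χ : ℝ × ℝ → ℝ} {K δ : ℝ}

lemma wd_fin (hf : Csts f K) (hδ : 0 < δ) (a : ℤ × ℤ) :
    {q | √3 / 2 * δ ^ 2 * f (δ • pos (q + a)) ≠ 0}.Finite := by
  refine ((box δ K).finite_toSet.image (fun q => q - a)).subset fun q hq => ?_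
  refine ⟨q + a, ?_, by simp⟩
  by_contra hb
  apply hq
  rw [val_zero hf hδ hb, mul_zero]

lemma Wd_apply (hf : Csts f K) (hδ : 0 < δ) (a q : ℤ × ℤ) :
    Wd δ f a q = √3 / 2 * δ ^ 2 * f (δ • pos (q + a)) := by
  unfold Wd
  rw [dif_pos (wd_fin hf hδ a), Finsupp.onFinset_apply]

lemma Wd_supp (hf : Csts f K) (hδ : 0 < δ) {a q : ℤ × ℤ} (hq : Wd δ f a q ≠ 0) :
    f (δ • pos (q + a)) ≠ 0 := by
  rw [Wd_apply hf hδ] at hq
  intro h
  apply hq
  rw [h, mul_zero]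

/-- The hypotheses on the mesh and the translations. -/
structure Near (δ : ℕ → ℝ) (a : ℕ → ℤ × ℤ) (x0 : ℝ × ℝ) : Prop where
  pos : ∀ n, 0 < δ n
  near : ∀ n, ‖δ n • GFF.pos (a n) - x0‖ ≤ 2 * δ n

theorem app_Wd {δ : ℕ → ℝ} {a : ℕ → ℤ × ℤ} {x0 : ℝ × ℝ} (hf : Csts f K) (hN : Near δ a x0)
    (hδ1 : ∀ n, δ n ≤ 1) : App δ (fun x => f (x + x0)) (fun n => Wd (δ n) f (a n)) := by
  have hK := hf.pos
  obtain ⟨R, C, hR, hC, h⟩ := app_Lw (a := a) (x0 := x0) zero_le_two hf hN.pos hδ1 hN.near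
  refine ⟨2 * (K + ‖x0‖ + 2), 2 * K, by positivity, by positivity, fun n => ⟨fun q hq => ?_,
    fun q => ?_⟩⟩
  · have h1 := Wd_supp hf (hN.pos n) hq
    have hd := hN.pos n
    have h2 : ‖δ n • pos (q + a n)‖ ≤ K := by
      rw [Prod.norm_def, sup_le_iff, Real.norm_eq_abs, Real.norm_eq_abs]
      constructor
      · by_contra hcon
        exact h1 (hf.zero _ (Or.inl (not_le.1 hcon)))
      · by_contra hcon
        exact h1 (hf.zero _ (Or.inr (not_le.1 hcon)))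
    have h3 := hN.near n
    have h4 : ‖δ n • pos q‖ ≤ K + ‖x0‖ + 2 := by
      have e : δ n • pos q = δ n • pos (q + a n) - (δ n • pos (a n) - x0) - x0 := by
        rw [GFF.pos_add, smul_add]
        abel
      rw [e]
      refine (norm_sub_le _ _).trans ?_
      have := norm_sub_le (δ n • pos (q + a n)) (δ n • pos (a n) - x0)
      linarith [hδ1 n]
    rw [Prod.norm_def, sup_le_iff, Real.norm_eq_abs, Real.norm_eq_abs] at h4
    unfold GFF.pos at h4
    simp only [Prod.smul_mk, smul_eq_mul] at h4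
    obtain ⟨h6, h7⟩ := h4
    have hs3 : (1 : ℝ) ≤ √3 := by
      rw [Real.one_le_sqrt]
      norm_num
    have h8 : |δ n * (q.2 : ℝ)| ≤ 2 * (K + ‖x0‖ + 2) := by
      have e : δ n * (q.2 * (√3 / 2)) = (δ n * q.2) * (√3 / 2) := by ring
      rw [e, abs_mul, abs_of_pos (by positivity : (0 : ℝ) < √3 / 2)] at h7
      nlinarith [abs_nonneg (δ n * (q.2 : ℝ))]
    refine ⟨?_, h8⟩
    have e : δ n * (q.1 : ℝ) = δ n * (q.1 + q.2 / 2) - (δ n * q.2) / 2 := by ring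
    rw [e]
    refine (abs_sub _ _).trans ?_
    rw [abs_div, abs_two]
    linarith
  · rw [Wd_apply hf (hN.pos n)]
    have hd := hN.pos n
    have h8 : |f (δ n • pos (q + a n)) - f (δ n • pos q + x0)| ≤ K * (2 * δ n) := by
      refine (hf.lip _ _).trans (mul_le_mul_of_nonneg_left ?_ hK.le)
      rw [GFF.pos_add, smul_add, add_sub_add_left_eq_sub]
      exact hN.near n
    have e : √3 / 2 * δ n ^ 2 * f (δ n • pos (q + a n)) -
        √3 / 2 * δ n ^ 2 * f (δ n • pos q + x0) =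
        √3 / 2 * δ n ^ 2 * (f (δ n • pos (q + a n)) - f (δ n • pos q + x0)) := by ring
    rw [e]
    have hs : √3 / 2 ≤ 1 := by linarith [GFF.sqrt3_le]
    rw [abs_mul, abs_of_pos (by positivity : (0 : ℝ) < √3 / 2 * δ n ^ 2)]
    calc √3 / 2 * δ n ^ 2 * |f (δ n • pos (q + a n)) - f (δ n • pos q + x0)|
        ≤ 1 * δ n ^ 2 * (K * (2 * δ n)) := by
          refine mul_le_mul (mul_le_mul_of_nonneg_right hs (by positivity)) h8 (abs_nonneg _)
            (by positivity)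
      _ = 2 * K * δ n ^ 3 := by ring

/-! ### Translations -/

lemma ev_tsum (w : (ℤ × ℤ) →₀ ℝ) (h : Hgt) : ev w h = ∑' q, w q * (h q : ℝ) := by
  unfold ev Finsupp.sum
  symm
  refine tsum_eq_sum fun q hq => ?_
  rw [Finsupp.notMem_support_iff.1 hq, zero_mul]

lemma mass_tsum (w : (ℤ × ℤ) →₀ ℝ) : mass w = ∑' q, w q := by
  unfold mass Finsupp.sum
  symm
  exact tsum_eq_sum fun q hq => Finsupp.notMem_support_iff.1 hq

lemma Wd_shift0 (hf : Csts f K) (hδ : 0 < δ) (a q : ℤ × ℤ) : Wd δ f 0 (q + a) = Wd δ f a q := by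
  rw [Wd_apply hf hδ, Wd_apply hf hδ, add_zero]

/-- The functional `Wd δ f a` of the height function seen from `a`. -/
theorem ev_Wd_pb (hf : Csts f K) (hδ : 0 < δ) (a : ℤ × ℤ) (h : Hgt) :
    ev (Wd δ f a) (pb (fun q => q + a) h) = ev (Wd δ f 0) h := by
  rw [ev_tsum, ev_tsum, ← (Equiv.addRight a).tsum_eq (fun q => Wd δ f 0 q * (h q : ℝ))]
  refine tsum_congr fun q => ?_
  rw [Equiv.coe_addRight, Wd_shift0 hf hδ]
  rfl

theorem mass_Wd_shift (hf : Csts f K) (hδ : 0 < δ) (a : ℤ × ℤ) :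
    mass (Wd δ f a) = mass (Wd δ f 0) := by
  rw [mass_tsum, mass_tsum, ← (Equiv.addRight a).tsum_eq (fun q => Wd δ f 0 q)]
  refine tsum_congr fun q => ?_
  rw [Equiv.coe_addRight, Wd_shift0 hf hδ]

/-- Linearity in the test function. -/
lemma Wd_add (hf : Csts f K) {K' K'' : ℝ} (hg : Csts g K') (hfg : Csts (fun x => f x + g x) K'')
    (hδ : 0 < δ) (a : ℤ × ℤ) : Wd δ (fun x => f x + g x) a = Wd δ f a + Wd δ g a := by
  ext q
  rw [Finsupp.add_apply, Wd_apply hf hδ, Wd_apply hg hδ, Wd_apply hfg hδ]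
  ring

lemma Wd_smul (hf : Csts f K) {r K'' : ℝ} (hrf : Csts (fun x => r * f x) K'')
    (hδ : 0 < δ) (a : ℤ × ℤ) : Wd δ (fun x => r * f x) a = r • Wd δ f a := by
  ext q
  rw [Finsupp.smul_apply, smul_eq_mul, Wd_apply hf hδ, Wd_apply hrf hδ]
  ring

/-! ### The mass -/

theorem mass_Wd (hf : Csts f K) (hδ : 0 < δ) (hδ1 : δ ≤ 1) (a : ℤ × ℤ) :
    |mass (Wd δ f a) - ∫ x, f x| ≤ 2 * K * (4 * K + 15) ^ 2 * δ := by
  have h := rs_close hf hδ hδ1
  have e : mass (Wd δ f a) = rs δ K f := by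
    rw [mass_Wd_shift hf hδ a, mass_tsum, rs]
    have h6 : ∀ q, Wd δ f 0 q = √3 / 2 * δ ^ 2 * f (δ • pos q) := by
      intro q
      rw [Wd_apply hf hδ, add_zero]
    simp only [h6]
    refine tsum_eq_sum fun q hq => ?_
    rw [val_zero hf hδ hq, mul_zero]
  rw [e]
  exact h

/-! ### Normalised functionals -/

lemma mass_smul' (r : ℝ) (w : (ℤ × ℤ) →₀ ℝ) : mass (r • w) = r * mass w := by
  rw [mass_tsum, mass_tsum, ← tsum_mul_left]
  rfl

lemma mass_sub' (w v : (ℤ × ℤ) →₀ ℝ) : mass (w - v) = mass w - mass v := by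
  have key : ∀ w : (ℤ × ℤ) →₀ ℝ, Summable fun q => w q := fun w =>
    summable_of_ne_finset_zero (s := w.support) fun q hq => Finsupp.notMem_support_iff.1 hq
  rw [mass_tsum, mass_tsum, mass_tsum, ← (key w).tsum_sub (key v)]
  rfl

/-- Normalised functional of mass one. -/
noncomputable def nW (δ : ℝ) (χ : ℝ × ℝ → ℝ) (a : ℤ × ℤ) : (ℤ × ℤ) →₀ ℝ :=
  (mass (Wd δ χ a))⁻¹ • Wd δ χ a

/-- Corrected functional of mass zero. -/
noncomputable def zW (δ : ℝ) (g χ : ℝ × ℝ → ℝ) (a : ℤ × ℤ) : (ℤ × ℤ) →₀ ℝ :=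
  Wd δ g a - mass (Wd δ g a) • nW δ χ a

lemma nW_supp {a q : ℤ × ℤ} (hq : nW δ χ a q ≠ 0) : Wd δ χ a q ≠ 0 := by
  intro h
  apply hq
  unfold nW
  rw [Finsupp.smul_apply, h, smul_zero]

lemma zW_supp {a q : ℤ × ℤ} (hq : zW δ g χ a q ≠ 0) : Wd δ g a q ≠ 0 ∨ Wd δ χ a q ≠ 0 := by
  by_contra h
  push Not at h
  apply hq
  unfold zW nW
  rw [Finsupp.sub_apply, Finsupp.smul_apply, Finsupp.smul_apply, h.1, h.2]
  simp

/-- The normalised functionals are admissible for small `δ`. -/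
theorem exists_nW (hχ : Csts χ K) (h1 : ∫ x, χ x = 1) :
    ∃ δ0 C : ℝ, 0 < δ0 ∧ δ0 ≤ 1 ∧ 0 ≤ C ∧ ∀ δ : ℝ, 0 < δ → δ ≤ δ0 → ∀ a : ℤ × ℤ,
      mass (nW δ χ a) = 1 ∧
        (∀ q, |nW δ χ a q - Wd δ χ a q| ≤ C * δ ^ 3) ∧ ∀ q, |nW δ χ a q| ≤ C * δ ^ 2 := by
  have hK := hχ.pos
  set C : ℝ := 2 * K * (4 * K + 15) ^ 2 with hC'
  have hC : 0 ≤ C := by positivity
  refine ⟨min 1 (1 / (2 * (C + 1))), max (2 * C * K) (2 * K), by positivity, min_le_left _ _,
    by positivity, fun δ hδ hδ0 a => ?_⟩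
  have hd1 : δ ≤ 1 := hδ0.trans (min_le_left _ _)
  have hd2 : δ ≤ 1 / (2 * (C + 1)) := hδ0.trans (min_le_right _ _)
  have h2 := mass_Wd hχ hδ hd1 a
  rw [h1, ← hC'] at h2
  have h3 : C * δ ≤ 1 / 2 := by
    rw [le_div_iff₀ (by positivity)] at hd2
    nlinarith
  set m := mass (Wd δ χ a) with hmd
  have h4 : 1 / 2 ≤ m := by
    have := (abs_le.1 h2).1
    linarith
  have hmpos : 0 < m := by linarith
  have h5 : |m⁻¹ - 1| ≤ 2 * (C * δ) := by
    have e : m⁻¹ - 1 = -(m - 1) * m⁻¹ := by field_simp; ring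
    have h6 : m⁻¹ ≤ 2 := by
      rw [inv_le_comm₀ hmpos (by norm_num)]
      linarith
    rw [e, abs_mul, abs_neg, abs_of_pos (inv_pos.2 hmpos)]
    have := mul_le_mul h2 h6 (inv_pos.2 hmpos).le (by positivity)
    linarith
  have hs : √3 / 2 ≤ 1 := by linarith [GFF.sqrt3_le]
  have hW : ∀ q, |Wd δ χ a q| ≤ δ ^ 2 * K := by
    intro q
    rw [Wd_apply hχ hδ, abs_mul, abs_of_pos (by positivity : (0 : ℝ) < √3 / 2 * δ ^ 2)]
    refine mul_le_mul ?_ (hχ.bdd _) (abs_nonneg _) (by positivity)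
    nlinarith [sq_nonneg δ]
  have hdiff : ∀ q, |nW δ χ a q - Wd δ χ a q| ≤ 2 * C * K * δ ^ 3 := by
    intro q
    unfold nW
    rw [Finsupp.smul_apply, smul_eq_mul, ← hmd,
      show m⁻¹ * Wd δ χ a q - Wd δ χ a q = (m⁻¹ - 1) * Wd δ χ a q by ring, abs_mul]
    calc |m⁻¹ - 1| * |Wd δ χ a q| ≤ (2 * (C * δ)) * (δ ^ 2 * K) :=
          mul_le_mul h5 (hW q) (abs_nonneg _) (by positivity)
      _ = 2 * C * K * δ ^ 3 := by ring
  refine ⟨?_, fun q => (hdiff q).trans ?_, fun q => ?_⟩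
  · unfold nW
    rw [mass_smul', ← hmd]
    exact inv_mul_cancel₀ hmpos.ne'
  · exact mul_le_mul_of_nonneg_right (le_max_left _ _) (by positivity)
  · have h6 : m⁻¹ ≤ 2 := by
      rw [inv_le_comm₀ hmpos (by norm_num)]
      linarith
    unfold nW
    rw [Finsupp.smul_apply, smul_eq_mul, ← hmd, abs_mul, abs_of_pos (inv_pos.2 hmpos)]
    calc m⁻¹ * |Wd δ χ a q| ≤ 2 * (δ ^ 2 * K) :=
          mul_le_mul h6 (hW q) (abs_nonneg _) (by norm_num)
      _ = 2 * K * δ ^ 2 := by ring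
      _ ≤ _ := mul_le_mul_of_nonneg_right (le_max_right _ _) (by positivity)

lemma App.of_close {δ : ℕ → ℝ} {w v : ℕ → (ℤ × ℤ) →₀ ℝ} (hw : App δ f w)
    {R' C' : ℝ} (hR' : 0 < R') (hC' : 0 ≤ C')
    (hs : ∀ n q, v n q ≠ 0 → |δ n * (q.1 : ℝ)| ≤ R' ∧ |δ n * (q.2 : ℝ)| ≤ R')
    (hc : ∀ n q, |v n q - w n q| ≤ C' * δ n ^ 3) : App δ f v := by
  obtain ⟨R, C, hR, hC, h⟩ := hw
  refine ⟨R', C + C', hR', by positivity, fun n => ⟨hs n, fun q => ?_⟩⟩
  have h1 := (h n).2 q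
  have h2 := hc n q
  have e : v n q - √3 / 2 * δ n ^ 2 * f (δ n • pos q) = (v n q - w n q) +
      (w n q - √3 / 2 * δ n ^ 2 * f (δ n • pos q)) := by ring
  rw [e]
  refine (abs_add_le _ _).trans ?_
  rw [add_mul]
  linarith

/-- The functional of mass one. -/
theorem app_nW (hχ : Csts χ K) (h1 : ∫ x, χ x = 1) :
    ∃ δ0 : ℝ, 0 < δ0 ∧ δ0 ≤ 1 ∧ ∀ (δ : ℕ → ℝ) (a : ℕ → ℤ × ℤ) (x0 : ℝ × ℝ), Near δ a x0 →
      (∀ n, δ n ≤ δ0) → App δ (fun x => χ (x + x0)) (fun n => nW (δ n) χ (a n)) ∧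
        ∀ n, mass (nW (δ n) χ (a n)) = 1 := by
  obtain ⟨δ0, C, hδ0, hδ1, hC, h⟩ := exists_nW hχ h1
  refine ⟨δ0, hδ0, hδ1, fun δ a x0 hN hle => ⟨?_, fun n => (h _ (hN.pos n) (hle n) _).1⟩⟩
  have hA := app_Wd hχ hN (fun n => (hle n).trans hδ1)
  obtain ⟨R', C', hR', _, hs⟩ := id hA
  refine hA.of_close hR' hC (fun n q hq => (hs n).1 q (nW_supp hq)) fun n q => ?_
  exact (h _ (hN.pos n) (hle n) _).2.1 q

/-- The functional of mass zero. -/
theorem app_zW (hχ : Csts χ K) (h1 : ∫ x, χ x = 1) {K' : ℝ} (hg : Csts g K')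
    (h0 : ∫ x, g x = 0) :
    ∃ δ0 : ℝ, 0 < δ0 ∧ δ0 ≤ 1 ∧ ∀ (δ : ℕ → ℝ) (a : ℕ → ℤ × ℤ) (x0 : ℝ × ℝ), Near δ a x0 →
      (∀ n, δ n ≤ δ0) → App δ (fun x => g (x + x0)) (fun n => zW (δ n) g χ (a n)) ∧
        ∀ n, mass (zW (δ n) g χ (a n)) = 0 := by
  have hK' := hg.pos
  obtain ⟨δ0, C, hδ0, hδ1, hC, h⟩ := exists_nW hχ h1
  refine ⟨δ0, hδ0, hδ1, fun δ a x0 hN hle => ⟨?_, fun n => ?_⟩⟩
  · have hA := app_Wd hχ hN (fun n => (hle n).trans hδ1)
    have hB := app_Wd hg hN (fun n => (hle n).trans hδ1)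
    obtain ⟨R1, C1, hR1, _, hs1⟩ := hA
    obtain ⟨R2, C3, hR2, _, hs2⟩ := id hB
    refine hB.of_close (R' := max R1 R2) (C' := 2 * K' * (4 * K' + 15) ^ 2 * C)
      (lt_max_of_lt_left hR1) (by positivity) (fun n q hq => ?_) fun n q => ?_
    · rcases zW_supp hq with h3 | h3
      · have := (hs2 n).1 q h3
        exact ⟨this.1.trans (le_max_right _ _), this.2.trans (le_max_right _ _)⟩
      · have := (hs1 n).1 q h3
        exact ⟨this.1.trans (le_max_left _ _), this.2.trans (le_max_left _ _)⟩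
    · unfold zW
      rw [Finsupp.sub_apply, Finsupp.smul_apply, smul_eq_mul,
        show Wd (δ n) g (a n) q - mass (Wd (δ n) g (a n)) * nW (δ n) χ (a n) q -
          Wd (δ n) g (a n) q = -(mass (Wd (δ n) g (a n)) * nW (δ n) χ (a n) q) by ring, abs_neg,
        abs_mul]
      have h3 := mass_Wd hg (hN.pos n) ((hle n).trans hδ1) (a n)
      rw [h0, sub_zero] at h3
      have h4 := (h _ (hN.pos n) (hle n) (a n)).2.2 q
      have hp := hN.pos n
      calc |mass (Wd (δ n) g (a n))| * |nW (δ n) χ (a n) q|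
          ≤ (2 * K' * (4 * K' + 15) ^ 2 * δ n) * (C * δ n ^ 2) :=
            mul_le_mul h3 h4 (abs_nonneg _) (by positivity)
        _ = 2 * K' * (4 * K' + 15) ^ 2 * C * δ n ^ 3 := by ring
  · unfold zW
    rw [mass_sub', mass_smul', (h _ (hN.pos n) (hle n) _).1, mul_one, sub_self]

end Vale.Agent.P153.F.SD
end

section

/-!
P153-F, X-level (mirror of `P145.X.Mb`): the bounds `S_mb` and `S_l2` for the moments in bounded
domains, by comparison with the plane given a circuit outside of the domain.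
-/

namespace Vale.Agent.P153.F.X

open Filter Topology Set MeasureTheory
open Vale.Agent.P153
open Vale.Agent.P153.F.Top (Om Cone Pol EE hv hvl ze dp Vs exists_meas mem_Vs hv_eq_hB)
open Vale.Agent.P145.PT (TestOn)

private lemma mb_adj {x y x' y' : Pt} (h : Adj x y) (h' : Adj x' y') (e : x + y = x' + y') :
    x' = x ∨ x' = y := by
  obtain ⟨a, b⟩ := x
  obtain ⟨c, d⟩ := y
  obtain ⟨a', b'⟩ := x'
  obtain ⟨c', d'⟩ := y'
  simp only [Adj, Set.mem_insert_iff, Set.mem_singleton_iff, Prod.mk_add_mk, Prod.mk.injEq] at *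
  rcases h with h | h | h | h | h | h <;> rcases h' with h' | h' | h' | h' | h' | h' <;> omega

private lemma mb_cone {δ : ℝ} (hδ : 0 < δ) {R : ℝ} {f : ℝ × ℝ → ℝ}
    (hf : TestOn (Metric.ball 0 R) f) (hf0 : ∀ z, 0 ≤ f z) (k : ℕ) :
    Cone (fun ω => hv δ f ω ^ k) := by
  obtain ⟨B, hB⟩ := hv_eq_hB (R := R) hδ
  refine (Top.cone_pow (B := B) (δ := δ) hf0 k).of_eq fun ω => ?_
  rw [hB f (fun z hz => hf.2.2 (subset_tsupport _ hz)) ω]

/-- The box around `p` does not meet the domain. -/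
private lemma mb_off {δ R : ℝ} (hδ : 0 < δ) {D : Set (ℝ × ℝ)} (hD : D ⊆ Metric.ball 0 R) {p : Pt}
    {r : ℤ} (hp : R ≤ δ * ((p.1 : ℝ) + p.2 / 2 - 3 / 2 * r)) :
    iE (bx p r) ⊆ (tE (Vs δ D : Set Pt))ᶜ := by
  rintro w ⟨x, hx, y, hy, hxy, rfl⟩ ⟨x', hx', y', hxy', e⟩
  have hb : Bornology.IsBounded D := Metric.isBounded_ball.subset hD
  have h1 : x' ∈ bx p r := by
    rcases mb_adj hxy hxy' e with h | h
    · rw [h]; exact hx
    · rw [h]; exact hy
  have h2 : dp δ x' ∈ D := (mem_Vs hδ hb).1 hx' (Metric.mem_closedBall_self (by positivity))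
  have h3 := hD h2
  rw [mem_ball_zero_iff, dp, Prod.norm_mk, Real.norm_eq_abs, Real.norm_eq_abs] at h3
  have h4 : δ * ((x'.1 : ℝ) + x'.2 / 2) < R :=
    lt_of_le_of_lt (le_abs_self _) (lt_of_le_of_lt (le_max_left _ _) h3)
  have h5 : (p.1 : ℝ) - r ≤ x'.1 := by
    have := (abs_le.1 h1.1).1
    have h6 : p.1 - r ≤ x'.1 := by linarith
    exact_mod_cast h6
  have h7 : (p.2 : ℝ) - r ≤ x'.2 := by
    have := (abs_le.1 h1.2).1
    have h6 : p.2 - r ≤ x'.2 := by linarith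
    exact_mod_cast h6
  have h8 : δ * ((p.1 : ℝ) + p.2 / 2 - 3 / 2 * r) ≤ δ * ((x'.1 : ℝ) + x'.2 / 2) :=
    mul_le_mul_of_nonneg_left (by linarith) hδ.le
  linarith

/-- The moments in a bounded domain. -/
theorem mb_core {P : Measure (Pt → ℤ)} {δ : ℕ → ℝ}
    (hδ : ∀ n, 0 < δ n) (hlim : Tendsto δ atTop (𝓝 0)) (hlow : S_low P) (hmm : S_mm P δ)
    (hrsw : S_rsw P) (hloc : S_loc) {R : ℝ} (hR : 0 < R) (k : ℕ) :
    ∃ C : ℝ, 0 ≤ C ∧ ∀ D : Set (ℝ × ℝ), D ⊆ Metric.ball 0 R →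
      ∀ f : ℝ × ℝ → ℝ, TestOn (Metric.ball 0 R) f → (∀ z, 0 ≤ f z) → ∀ ε : ℝ, 0 < ε →
        ∀ᶠ n in atTop, EE (δ n) D (fun ω => hv (δ n) f ω ^ (2 * k)) ≤
          C * ((∫ z, f z ^ 2) + ε) ^ k := by
  set R' : ℝ := 2 * R + 10 with hR'
  obtain ⟨C, hC0, hC⟩ := hmm R' (by linarith) k
  obtain ⟨c₁, hc₁, r₀, hr₀, hr⟩ := hrsw
  refine ⟨C / c₁, div_nonneg hC0 hc₁.le, fun D hD f hf hf0 ε hε => ?_⟩
  have hf' : TestOn (Metric.ball 0 R') f :=
    ⟨hf.1, hf.2.1, hf.2.2.trans (Metric.ball_subset_ball (by linarith))⟩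
  have hsmall : ∀ᶠ n in atTop, δ n < min (1 / 2) (1 / ((r₀ : ℝ) + 2)) :=
    hlim.eventually_lt_const (by positivity)
  filter_upwards [hC f hf' ε hε, hsmall] with n hn hδn
  have hδ0 := hδ n
  have hd1 : δ n < 1 / 2 := lt_of_lt_of_le hδn (min_le_left _ _)
  have hr₀' : (0 : ℝ) < (r₀ : ℝ) + 2 := by
    have : (1 : ℝ) ≤ (r₀ : ℝ) := by exact_mod_cast hr₀
    linarith
  have hd2 : δ n * ((r₀ : ℝ) + 2) < 1 := by
    have := lt_of_lt_of_le hδn (min_le_right _ _)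
    rwa [lt_div_iff₀ hr₀'] at this
  set s : ℤ := ⌊1 / δ n⌋ with hs
  set p : Pt := (⌈(R + 4) / δ n⌉, 0) with hp
  have s1 : δ n * s ≤ 1 := by
    have := Int.floor_le (1 / δ n)
    rw [le_div_iff₀ hδ0] at this
    linarith
  have s2 : 1 - δ n < δ n * s := by
    have := Int.lt_floor_add_one (1 / δ n)
    rw [div_lt_iff₀ hδ0] at this
    linarith
  have hsr : r₀ ≤ s := by
    have h1 : (r₀ : ℝ) < s + 1 := by
      have h4 : δ n * ((r₀ : ℝ) + 2) < δ n * ((s : ℝ) + 1) := by linarith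
      have := lt_of_mul_lt_mul_left h4 hδ0.le
      linarith
    have h2 : r₀ < s + 1 := by exact_mod_cast h1
    omega
  have hs1 : 1 ≤ s := hr₀.trans hsr
  have p1 : R + 4 ≤ δ n * (p.1 : ℝ) := by
    have := Int.le_ceil ((R + 4) / δ n)
    rw [div_le_iff₀ hδ0] at this
    simp only [hp]
    linarith
  have p2 : δ n * (p.1 : ℝ) < R + 5 := by
    have := Int.ceil_lt_add_one ((R + 4) / δ n)
    have h1 : δ n * (⌈(R + 4) / δ n⌉ : ℝ) < δ n * ((R + 4) / δ n + 1) :=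
      mul_lt_mul_of_pos_left this hδ0
    have h2 : δ n * ((R + 4) / δ n + 1) = R + 4 + δ n := by field_simp
    simp only [hp]
    linarith
  have hoff : iE (bx p (2 * s)) ⊆ (tE (Vs (δ n) D : Set Pt))ᶜ := by
    refine mb_off hδ0 hD ?_
    have e2 : (p.2 : ℝ) = 0 := by simp [hp]
    rw [e2]
    push_cast
    nlinarith
  obtain ⟨-, hFn⟩ := hloc p s hs1
  have hFn' : Fn (tE (Vs (δ n) D : Set Pt))ᶜ (ind (Zr p s)) := by
    refine ⟨hFn.nonneg, ?_, hFn.pin⟩
    obtain ⟨Λ, h1, h2⟩ := hFn.loc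
    exact ⟨Λ, fun w hw => hoff (h1 w hw).1, h2⟩
  have hcone := mb_cone hδ0 hf hf0 (2 * k)
  have h1 := hlow _ _ _ hFn' hcone
  have h2 := (hr s hsr p).1
  have h3 : 0 ≤ ze (Vs (δ n) D) (fun ω => hv (δ n) f ω ^ (2 * k)) := by
    obtain ⟨μ, hμ, hμi⟩ := exists_meas (Vs (δ n) D)
    rw [← hμi (fun ω => hv (δ n) f ω ^ (2 * k))]
    exact integral_nonneg fun ω => by
      simp only [Pi.zero_apply]
      exact (even_two_mul k).pow_nonneg _
  have h4 := hn p s (by rw [abs_le]; constructor <;> linarith)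
    (by simp only [hp]; push_cast; rw [mul_zero, abs_zero]; linarith) (by
      have : R'⁻¹ ≤ 1 / 2 := by
        rw [inv_le_comm₀ (by linarith) (by norm_num)]
        norm_num
        linarith
      linarith) (by linarith)
  show ze (Vs (δ n) D) (fun ω => hv (δ n) f ω ^ (2 * k)) ≤ _
  rw [div_mul_eq_mul_div, le_div_iff₀ hc₁]
  calc ze (Vs (δ n) D) (fun ω => hv (δ n) f ω ^ (2 * k)) * c₁
      ≤ ze (Vs (δ n) D) (fun ω => hv (δ n) f ω ^ (2 * k)) *
        II P (ind (Zr p s)) (fun _ => 1) := mul_le_mul_of_nonneg_left h2 h3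
    _ ≤ II P (ind (Zr p s)) (fun ω => hv (δ n) f ω ^ (2 * k)) := h1
    _ ≤ _ := h4

/-- L2B. -/
theorem s_l2 {P : Measure (Pt → ℤ)} {δ : ℕ → ℝ}
    (hδ : ∀ n, 0 < δ n) (hlim : Tendsto δ atTop (𝓝 0)) (hlow : S_low P) (hmm : S_mm P δ)
    (hrsw : S_rsw P) (hloc : S_loc) : Top.S_l2 δ := by
  intro R hR
  obtain ⟨C, hC0, hC⟩ := mb_core hδ hlim hlow hmm hrsw hloc hR 1
  refine ⟨C, hC0, fun D _ hD f hf hf0 ε hε => ?_⟩
  have h1 : 0 < ε / (C + 1) := by positivity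
  filter_upwards [hC D hD f hf hf0 _ h1] with n hn
  rw [mul_one, pow_one] at hn
  refine hn.trans ?_
  have h2 : C * (ε / (C + 1)) ≤ ε := by
    rw [← mul_div_assoc, div_le_iff₀ (by linarith)]
    nlinarith
  linarith

/-- MB. -/
theorem s_mb {P : Measure (Pt → ℤ)} {δ : ℕ → ℝ}
    (hδ : ∀ n, 0 < δ n) (hlim : Tendsto δ atTop (𝓝 0)) (hlow : S_low P) (hmm : S_mm P δ)
    (hrsw : S_rsw P) (hloc : S_loc) : Top.S_mb δ := by
  intro D _ hD f hf hf0 k
  obtain ⟨R, hR⟩ := (hD.union hf.2.1.isBounded).subset_ball (0 : ℝ × ℝ)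
  have hR1 : Metric.ball (0 : ℝ × ℝ) R ⊆ Metric.ball 0 (max R 1) :=
    Metric.ball_subset_ball (le_max_left _ _)
  have hR0 : 0 < max R 1 := lt_of_lt_of_le one_pos (le_max_right _ _)
  have hf' : TestOn (Metric.ball 0 (max R 1)) f :=
    ⟨hf.1, hf.2.1, fun z hz => hR1 (hR (Or.inr hz))⟩
  have hD' : D ⊆ Metric.ball 0 (max R 1) := fun z hz => hR1 (hR (Or.inl hz))
  obtain ⟨C, hC0, hC⟩ := mb_core hδ hlim hlow hmm hrsw hloc hR0 k
  refine ⟨1 + C * ((∫ z, f z ^ 2) + 1) ^ k, ?_⟩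
  filter_upwards [hC D hD' f hf' hf0 1 one_pos] with n hn
  obtain ⟨μ, hμ, hμi⟩ := exists_meas (Vs (δ n) D)
  have e1 : EE (δ n) D (fun ω => hv (δ n) f ω ^ k) = ∫ ω, hv (δ n) f ω ^ k ∂μ :=
    (hμi (fun ω => hv (δ n) f ω ^ k)).symm
  have e2 : EE (δ n) D (fun ω => hv (δ n) f ω ^ (2 * k)) = ∫ ω, hv (δ n) f ω ^ (2 * k) ∂μ :=
    (hμi (fun ω => hv (δ n) f ω ^ (2 * k))).symm
  rw [e2] at hn
  rw [e1]
  have i1 := hμ.integrable (mb_cone (hδ n) hf' hf0 k)
  have i2 := hμ.integrable (mb_cone (hδ n) hf' hf0 (2 * k))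
  have := hμ.prob
  have h1 : ∫ ω, hv (δ n) f ω ^ k ∂μ ≤ ∫ ω, (1 + hv (δ n) f ω ^ (2 * k)) ∂μ := by
    refine integral_mono i1 ((integrable_const 1).add i2) fun ω => ?_
    simp only
    have h2 : hv (δ n) f ω ^ (2 * k) = (hv (δ n) f ω ^ k) ^ 2 := by rw [mul_comm, pow_mul]
    rw [h2]
    nlinarith [sq_nonneg (hv (δ n) f ω ^ k - 1 / 2)]
  rw [integral_add (integrable_const 1) i2, integral_const, probReal_univ, one_smul] at h1
  linarith

end Vale.Agent.P153.F.X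
end

section

/-!
# P153-F, block X: gaps between the circuits and moments given a circuit

`s_gap` and `s_emom`: consequences of the exploration from inside `S_ext`.
-/

namespace Vale.Agent.P153.F.X

open Filter Topology Set MeasureTheory
open Vale.Agent.P153
open Vale.Agent.P153.F.Top (Om Cone)

namespace Gap

/-! ### Geometry -/

lemma bx_mono (p : Pt) {r r' : ℤ} (h : r ≤ r') : bx p r ⊆ bx p r' := by
  rintro f ⟨h1, h2⟩
  exact ⟨h1.trans h, h2.trans h⟩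

lemma iE_mono {F F' : Set Pt} (h : F ⊆ F') : iE F ⊆ iE F' := by
  rintro w ⟨x, hx, y, hy, hw⟩
  exact ⟨x, h hx, y, h hy, hw⟩

/-- The other end of an edge is a neighbour. -/
lemma tE_sub_iE (p : Pt) (r : ℤ) : tE (bx p r) ⊆ iE (bx p (r + 1)) := by
  rintro w ⟨x, hx, y, hxy, hw⟩
  refine ⟨x, bx_mono p (by omega) hx, y, ?_, hxy, hw⟩
  obtain ⟨h1, h2⟩ := hx
  unfold Adj at hxy
  simp only [mem_insert_iff, mem_singleton_iff, Prod.mk.injEq] at hxy
  rw [abs_le] at h1 h2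
  refine ⟨?_, ?_⟩ <;> rw [abs_le] <;> omega

/-! ### Locality -/

lemma LocS.mono {A A' : Set Pt} (h : A ⊆ A') {g : Set Pt → ℝ} (hg : LocS A g) : LocS A' g := by
  obtain ⟨Λ, h1, h2⟩ := hg
  exact ⟨Λ, fun w hw => h (h1 w hw), h2⟩

lemma Fn.mono {A A' : Set Pt} (h : A ⊆ A') {g : Set Pt → ℝ} (hg : Fn A g) : Fn A' g :=
  ⟨hg.nonneg, LocS.mono h hg.loc, hg.pin⟩

lemma ind_nonneg (Q : Set Pt → Prop) (B : Set Pt) : 0 ≤ ind Q B := by
  unfold ind
  split_ifs <;> norm_num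

lemma ind_eq_iff {Q : Set Pt → Prop} {B B' : Set Pt} (h : ind Q B = ind Q B') : Q B ↔ Q B' := by
  unfold ind at h
  by_cases h1 : Q B <;> by_cases h2 : Q B' <;> simp_all

lemma ind_le {Q : Set Pt → Prop} {B B' : Set Pt} (h : ind Q B ≤ ind Q B') (hB : Q B) : Q B' := by
  unfold ind at h
  by_contra h2
  rw [if_pos hB, if_neg h2] at h
  norm_num at h

/-- The absence of circuits at finitely many scales is local. -/
lemma loc_no {A : Set Pt} (Q : ℕ → Set Pt → Prop) (m n : ℕ)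
    (h : ∀ i, m ≤ i → i ≤ n → LocS A (ind (Q i))) :
    LocS A (ind fun B => ∀ i, m ≤ i → i ≤ n → ¬ Q i B) := by
  classical
  choose! Λ h1 h2 using h
  refine ⟨(Finset.Icc m n).biUnion Λ, fun w hw => ?_, fun B B' hBB => ?_⟩
  · rw [Finset.mem_biUnion] at hw
    obtain ⟨i, hi, hw⟩ := hw
    rw [Finset.mem_Icc] at hi
    exact h1 i hi.1 hi.2 w hw
  · have h3 : ∀ i, m ≤ i → i ≤ n → (Q i B ↔ Q i B') := fun i hi hi' =>
      ind_eq_iff (h2 i hi hi' B B' fun w hw =>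
        hBB w (Finset.mem_biUnion.2 ⟨i, Finset.mem_Icc.2 ⟨hi, hi'⟩, hw⟩))
    have h4 : (∀ i, m ≤ i → i ≤ n → ¬ Q i B) ↔ ∀ i, m ≤ i → i ≤ n → ¬ Q i B' :=
      forall_congr' fun i => forall_congr' fun hi => forall_congr' fun hi' =>
        not_congr (h3 i hi hi')
    unfold ind
    by_cases h5 : ∀ i, m ≤ i → i ≤ n → ¬ Q i B
    · rw [if_pos h5, if_pos (h4.1 h5)]
    · rw [if_neg h5, if_neg fun h6 => h5 (h4.2 h6)]

lemma anti_no (Q : ℕ → Set Pt → Prop) (m n : ℕ) (h : ∀ i, m ≤ i → i ≤ n → Monotone (ind (Q i))) :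
    Antitone (ind fun B => ∀ i, m ≤ i → i ≤ n → ¬ Q i B) := by
  intro B B' hBB
  unfold ind
  by_cases h1 : ∀ i, m ≤ i → i ≤ n → ¬ Q i B'
  · have h2 : ∀ i, m ≤ i → i ≤ n → ¬ Q i B := fun i hi hi' h3 =>
      h1 i hi hi' (ind_le (h i hi hi' hBB) h3)
    rw [if_pos h1, if_pos h2]
  · rw [if_neg h1]
    split_ifs <;> norm_num

end Gap

open Gap

/-- GAP. -/
theorem s_gap {P : Measure (Pt → ℤ)} (hE : S_ext P) (hC : S_cnt P)
    (hF : S_conf) (hL : S_loc) (_hI : S_int P) (hR : S_rsw P) : S_gap P := by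
  intro η hη N
  obtain ⟨n, hn, s₀, hs₀, hs⟩ := hC η hη N
  obtain ⟨c₁, hc₁, r₀, hr₀, hr⟩ := hR
  refine ⟨n, hn, max s₀ r₀, le_max_of_le_left hs₀, fun s h1 => ?_⟩
  have hs1 : s₀ ≤ s := (le_max_left _ _).trans h1
  have hs2 : r₀ ≤ s := (le_max_right _ _).trans h1
  have hs3 : 1 ≤ s := hs₀.trans hs1
  obtain ⟨j, hj, h2⟩ := hs s hs1
  refine ⟨j, hj, fun p X hX hXm hXZ => ?_⟩
  have h3 := h2 p
  have hpow : ∀ i : ℕ, 1 ≤ (4 : ℤ) ^ i := fun i => one_le_pow₀ (by norm_num)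
  have hps : ∀ i : ℕ, 1 ≤ 4 ^ i * s := fun i => by nlinarith [hpow i]
  have hps' : ∀ i : ℕ, s ≤ 4 ^ i * s := fun i => by nlinarith [hpow i]
  have e4 : (4 : ℤ) ^ (j + 1) * s = 4 * (4 ^ j * s) := by rw [pow_succ]; ring
  -- the mass of the circuit is positive
  have hpos : 0 < II P (ind (Zr p (4 ^ j * s))) (fun _ => 1) :=
    hc₁.trans_le (hr (4 ^ j * s) (hs2.trans (hps' j)) p).1
  have hΘ : Fn (iE (bx p (4 ^ (j + 1) * s))) (ind (Zr p (4 ^ j * s))) := by
    refine Fn.mono (fun w hw => ?_) (hL p (4 ^ j * s) (hps j)).2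
    exact Gap.iE_mono (Gap.bx_mono p (by rw [e4]; linarith [hps j])) hw.1
  have ha : LocS (tE (bx p (3 * (4 ^ (j + 1) * s))))ᶜ
      (ind fun B => ∀ i, j + 4 ≤ i → i ≤ 2 * n → ¬ Zr p (4 ^ i * s) B) := by
    refine loc_no (fun i => Zr p (4 ^ i * s)) (j + 4) (2 * n) fun i hi _ => ?_
    have e0 : {w | w ∈ iE (bx p (2 * (4 ^ i * s))) ∧ w ∉ iE (bx p (4 ^ i * s - 1))} ⊆
        (tE (bx p (3 * (4 ^ (j + 1) * s))))ᶜ := fun w hw hw' =>
      hw.2 (Gap.iE_mono (Gap.bx_mono p ?_) (tE_sub_iE p _ hw'))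
    · exact LocS.mono e0 (hL p (4 ^ i * s) (hps i)).2.loc
    have e5 : (4 : ℤ) ^ (j + 4) * s ≤ 4 ^ i * s :=
      mul_le_mul_of_nonneg_right (pow_le_pow_right₀ (by norm_num) hi) (by linarith)
    have e6 : (4 : ℤ) ^ (j + 4) * s = 256 * (4 ^ j * s) := by rw [pow_add]; ring
    rw [e4]
    linarith [hps j]
  have hE' := hE p (4 ^ (j + 1) * s) X (ind (Zr p (4 ^ j * s)))
    (ind fun B => ∀ i, j + 4 ≤ i → i ≤ 2 * n → ¬ Zr p (4 ^ i * s) B) (fun _ => 1) (hps _) hX hXm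
    (fun B hB => hF p _ B (hps _) (hXZ B hB)) hΘ (fun B => Gap.ind_nonneg _ B) ha
    (anti_no (fun i => Zr p (4 ^ i * s)) (j + 4) (2 * n) fun i _ _ => (hL p (4 ^ i * s) (hps i)).1)
    Top.Pol.one (fun _ _ _ => rfl)
  have e7 : (fun B => ind (Zr p (4 ^ j * s)) B *
      ind (fun B => ∀ i, j + 4 ≤ i → i ≤ 2 * n → ¬ Zr p (4 ^ i * s) B) B) =
      ind fun B => Zr p (4 ^ j * s) B ∧ ∀ i, j + 4 ≤ i → i ≤ 2 * n → ¬ Zr p (4 ^ i * s) B := by
    funext B
    by_cases q1 : Zr p (4 ^ j * s) B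
    · by_cases q2 : ∀ i, j + 4 ≤ i → i ≤ 2 * n → ¬ Zr p (4 ^ i * s) B
      · have q3 : Zr p (4 ^ j * s) B ∧ ∀ i, j + 4 ≤ i → i ≤ 2 * n → ¬ Zr p (4 ^ i * s) B :=
          ⟨q1, q2⟩
        simp only [ind]
        rw [if_pos q1, if_pos q2, if_pos q3, one_mul]
      · have q3 : ¬ (Zr p (4 ^ j * s) B ∧ ∀ i, j + 4 ≤ i → i ≤ 2 * n →
            ¬ Zr p (4 ^ i * s) B) := fun h => q2 h.2
        simp only [ind]
        rw [if_neg q2, if_neg q3, mul_zero]
    · have q3 : ¬ (Zr p (4 ^ j * s) B ∧ ∀ i, j + 4 ≤ i → i ≤ 2 * n →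
            ¬ Zr p (4 ^ i * s) B) := fun h => q1 h.1
      simp only [ind]
      rw [if_neg q1, if_neg q3, zero_mul]
  rw [e7] at hE'
  have hX0 : 0 ≤ II P X (fun _ => 1) := by
    unfold II
    exact integral_nonneg fun x => mul_nonneg (hX.nonneg _) zero_le_one
  have h4 := hE'.trans (mul_le_mul_of_nonneg_left h3 hX0)
  refine le_of_mul_le_mul_right (h4.trans_eq ?_) hpos
  ring

/-- Moments given a monotone event which contains a circuit. -/
theorem s_emom {P : Measure (Pt → ℤ)} (hE : S_ext P) (hF : S_conf) (hL : S_loc) :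
    S_emom P := by
  intro p s X A hs hX hXm hXZ hA hAon
  have e1 : (2 : ℤ) * (4 * s) = 8 * s := by ring
  have hΘ : Fn (iE (bx p (4 * s))) (ind (Zr p s)) := by
    refine Fn.mono (fun w hw => ?_) (hL p s hs).2
    exact Gap.iE_mono (Gap.bx_mono p (by linarith)) hw.1
  have h1 := hE p (4 * s) X (ind (Zr p s)) (fun _ => 1) A (by linarith) hX hXm
    (fun B hB => hF p _ B (by linarith) (hXZ B hB)) hΘ (fun _ => zero_le_one)
    ⟨∅, fun w hw => absurd hw (Finset.notMem_empty w), fun _ _ _ => rfl⟩ (fun _ _ _ => le_rfl)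
    hA (by rw [e1]; exact hAon)
  simpa only [mul_one] using h1

end Vale.Agent.P153.F.X
end

section

/-!
# P153, block F-B: the input of Tassion's argument, rhombi and hexagons

`base`: under the plane measure `Q` all rhombi and all hexagons are crossed by closed edges with
probability at least `c₀ > 0`.
-/

namespace Vale.Agent.P153.F.RSW

open MeasureTheory Filter Topology Vale.Agent.P153.Topo
open Vale.Agent.P153.A hiding Loc

/-! ### Probabilities of increasing local events -/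

open Classical in
/-- The indicator of the event `E` for the closed edges. -/
noncomputable def iw (E : Set (ℤ × ℤ) → Prop) (t : Sp) : ℝ := if E (Wp t) then 1 else 0

theorem iw_mono {E : Set (ℤ × ℤ) → Prop} (hE : Inc E) : Monotone (iw E) := by
  classical
  intro a b hab
  unfold iw
  by_cases h : E (Wp a)
  · rw [if_pos h, if_pos (hE _ _ (Wp_mono hab) h)]
  · rw [if_neg h]
    split_ifs <;> norm_num

theorem iw_loc {E : Set (ℤ × ℤ) → Prop} (hE : RSW.Loc E) : ∃ B : Finset Pt, A.Loc B (iw E) := by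
  classical
  obtain ⟨N, hN⟩ := hE
  refine ⟨bx (N.toNat + 1), fun t t' h => ?_⟩
  have hz : ∀ z : ℤ × ℤ, |z.1| ≤ N → |z.2| ≤ N → (z ∈ Wp t ↔ z ∈ Wp t') := by
    intro z h1 h2
    rw [abs_le] at h1 h2
    have e1 : t (v1 z) = t' (v1 z) := h _ (by
      rw [mem_bx, abs_le, abs_le]
      simp only [v1]
      push_cast
      omega)
    have e2 : t (v2 z) = t' (v2 z) := h _ (by
      rw [mem_bx, abs_le, abs_le]
      simp only [v2]
      push_cast
      omega)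
    simp only [Wp, Set.mem_ofPred_eq, e1, e2]
  unfold iw
  by_cases h1 : E (Wp t)
  · rw [if_pos h1, if_pos (hN _ _ hz h1)]
  · rw [if_neg h1, if_neg fun h2 => h1 (hN _ _ (fun z a b => (hz z a b).symm) h2)]

/-- Probabilities as integrals. -/
theorem real_eq {Q : Measure Om} {E : Set (ℤ × ℤ) → Prop} (hE : RSW.Loc E) (u : Om → Sp)
    (hu : ∀ B : Finset Pt, ∀ ω ω' : Om, (∀ x ∈ B, ω x = ω' x) → ∀ x ∈ B, u ω x = u ω' x) :
    Q.real {ω | E (Wp (u ω))} = ∫ ω, iw E (u ω) ∂Q := by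
  classical
  obtain ⟨B, hB⟩ := iw_loc hE
  have hl : A.Loc B (fun ω => iw E (u ω)) := fun ω ω' h => hB _ _ (hu B ω ω' h)
  have hm := loc_meas' hl
  have hS : MeasurableSet {ω | E (Wp (u ω))} := by
    have : {ω | E (Wp (u ω))} = (fun ω => iw E (u ω)) ⁻¹' {1} := by
      ext ω
      simp only [Set.mem_ofPred_eq, Set.mem_preimage, Set.mem_singleton_iff, iw]
      by_cases h : E (Wp (u ω)) <;> simp [h]
    rw [this]
    exact hm (measurableSet_singleton 1)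
  have e : (fun ω => iw E (u ω)) = {ω | E (Wp (u ω))}.indicator (fun _ => (1 : ℝ)) := by
    funext ω
    by_cases h : E (Wp (u ω))
    · rw [Set.indicator_of_mem (show ω ∈ {ω | E (Wp (u ω))} from h)]
      exact if_pos h
    · rw [Set.indicator_of_notMem (show ω ∉ {ω | E (Wp (u ω))} from h)]
      exact if_neg h
  rw [e, integral_indicator hS, setIntegral_const, smul_eq_mul, mul_one]

variable {Q : Measure Om}

/-- The four laws of the closed edges. -/
theorem dom4 (hsym : S_sym) (hQ : IsQ Q) {E : Set (ℤ × ℤ) → Prop} (hE : IL E) :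
    Q.real {ω | E (Wp fun x => !(tau ω x))} ≤ pW Q E ∧
    Q.real {ω | E (Wp fun x => (ω x).2)} ≤ pW Q E ∧
    Q.real {ω | E (Wp fun x => !(ω x).2)} ≤ pW Q E := by
  obtain ⟨B, hB⟩ := iw_loc hE.2
  have hm := iw_mono hE.1
  have e0 : pW Q E = ∫ ω, iw E (tau ω) ∂Q := real_eq hE.2 tau (fun B ω ω' h x hx => by
    unfold tau; rw [h x hx])
  refine ⟨?_, ?_, ?_⟩
  · rw [e0, real_eq hE.2 (fun ω x => !(tau ω x)) (fun B ω ω' h x hx => by
      unfold tau; rw [h x hx])]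
    exact dom_neg hsym hQ hm hB
  · rw [e0, real_eq hE.2 (fun ω x => (ω x).2) (fun B ω ω' h x hx => by
      rw [h x hx])]
    exact dom_sigma hQ hm hB
  · rw [e0, real_eq hE.2 (fun ω x => !(ω x).2) (fun B ω ω' h x hx => by
      rw [h x hx])]
    refine le_trans (le_of_eq ?_) (dom_sigma hQ hm hB)
    conv_rhs => rw [← (hsym Q hQ).2.1]
    rw [integral_map]
    · rfl
    · exact measurable_neg'.aemeasurable
    · exact (loc_meas hB).aestronglyMeasurable

/-- A dichotomy for compatible spins gives a lower bound. -/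
theorem dich_prob (hsym : S_sym) (hQ : IsQ Q) {E F : Set (ℤ × ℤ) → Prop} (hE : IL E) (hF : IL F)
    (h : ∀ t s : Sp, Cmp t s → E (Wp t) ∨ E (Wp fun x => !t x) ∨ F (Wp s) ∨ F (Wp fun x => !s x)) :
    1 ≤ 2 * pW Q E + 2 * pW Q F := by
  have := hQ.prob
  obtain ⟨a1, -, -⟩ := dom4 hsym hQ hE
  obtain ⟨-, b1, b2⟩ := dom4 hsym hQ hF
  have hae : ∀ᵐ ω ∂Q, ω ∈ (({ω : Om | E (Wp (tau ω))} ∪ {ω | E (Wp fun x => !(tau ω x))}) ∪
      ({ω : Om | F (Wp fun x => (ω x).2)} ∪ {ω | F (Wp fun x => !(ω x).2)})) := by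
    filter_upwards [(hsym Q hQ).2.2] with ω hω
    have hc : Cmp (tau ω) (fun x => (ω x).2) := fun x y hxy => hω x y hxy
    rcases h _ _ hc with h1 | h1 | h1 | h1
    · exact Or.inl (Or.inl h1)
    · exact Or.inl (Or.inr h1)
    · exact Or.inr (Or.inl h1)
    · exact Or.inr (Or.inr h1)
  have h1 : Q.real (({ω : Om | E (Wp (tau ω))} ∪ {ω | E (Wp fun x => !(tau ω x))}) ∪
      ({ω : Om | F (Wp fun x => (ω x).2)} ∪ {ω | F (Wp fun x => !(ω x).2)})) = 1 := by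
    refine (measureReal_congr (eventuallyEq_univ.2 hae)).trans ?_
    exact probReal_univ
  have h2 := measureReal_union_le (μ := Q) ({ω : Om | E (Wp (tau ω))} ∪
    {ω | E (Wp fun x => !(tau ω x))}) ({ω : Om | F (Wp fun x => (ω x).2)} ∪
    {ω | F (Wp fun x => !(ω x).2)})
  have h3 := measureReal_union_le (μ := Q) {ω : Om | E (Wp (tau ω))}
    {ω | E (Wp fun x => !(tau ω x))}
  have h4 := measureReal_union_le (μ := Q) {ω : Om | F (Wp fun x => (ω x).2)}
    {ω | F (Wp fun x => !(ω x).2)}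
  unfold pW at *
  linarith

/-- Positive association of `τ` in the plane. -/
theorem assoc_tau (hQ : IsQ Q) {B : Finset Pt} {f g : Sp → ℝ} (hf : Monotone f) (hg : Monotone g)
    (hfB : A.Loc B f) (hgB : A.Loc B g) :
    (∫ ω, f (tau ω) ∂Q) * ∫ ω, g (tau ω) ∂Q ≤ ∫ ω, f (tau ω) * g (tau ω) ∂Q := by
  have l : ∀ u : Sp → ℝ, A.Loc B u → A.Loc B (fun ω : Om => u (tau ω)) := fun u hu ω ω' h =>
    hu _ _ fun x hx => by unfold tau; rw [h x hx]
  have h1 := hQ.lim _ _ (l f hfB)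
  have h2 := hQ.lim _ _ (l g hgB)
  have h3 := hQ.lim B (fun ω : Om => f (tau ω) * g (tau ω))
    (l (fun t => f t * g t) fun t t' h => by
      show f t * g t = f t' * g t'
      rw [hfB t t' h, hgB t t' h])
  exact le_of_tendsto_of_tendsto (h1.mul h2) h3
    (Eventually.of_forall fun D => s_fkg s_super s_e1 D f g hf hg)

open Classical in
/-- The indicator of `t x = +`. -/
noncomputable def i1 (x : Pt) (t : Sp) : ℝ := if t x = true then 1 else 0

theorem i1_mono (x : Pt) : Monotone (i1 x) := by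
  classical
  intro a b hab
  unfold i1
  by_cases h : a x = true
  · have h1 : b x = true := Bool.eq_true_of_true_le (by rw [← h]; exact hab x)
    rw [if_pos h, if_pos h1]
  · rw [if_neg h]
    split_ifs <;> norm_num

theorem i1_loc (x : Pt) {B : Finset Pt} (hx : x ∈ B) : A.Loc B (i1 x) := fun t t' h => by
  unfold i1; rw [h x hx]

theorem half_prob (hsym : S_sym) (hQ : IsQ Q) (x : Pt) : 1 / 2 ≤ ∫ ω, i1 x (tau ω) ∂Q := by
  classical
  have := hQ.prob
  have hl := i1_loc x (Finset.mem_singleton_self x)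
  have h1 := dom_neg hsym hQ (i1_mono x) hl
  have m1 : Measurable fun ω : Om => i1 x (tau ω) :=
    loc_meas' (B := {x}) fun ω ω' h => hl _ _ fun y hy => by unfold tau; rw [h y hy]
  have b1 : ∀ t : Sp, |i1 x t| ≤ 1 := fun t => by unfold i1; split_ifs <;> norm_num
  have n1 : Integrable (fun ω : Om => i1 x (tau ω)) Q :=
    Integrable.of_bound m1.aestronglyMeasurable 1 (Eventually.of_forall fun ω => by
      rw [Real.norm_eq_abs]; exact b1 _)
  have h2 : ∫ ω, i1 x (fun y => !(tau ω y)) ∂Q = 1 - ∫ ω, i1 x (tau ω) ∂Q := by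
    have h3 : (fun ω : Om => i1 x (fun y => !(tau ω y))) = fun ω => 1 - i1 x (tau ω) := by
      funext ω
      unfold i1
      rcases h : tau ω x with _ | _ <;> simp [h]
    rw [h3, integral_sub (integrable_const _) n1]
    simp
  rw [h2] at h1
  linarith

/-- An edge is closed with probability at least `1 / 4`. -/
theorem edge_prob (hsym : S_sym) (hQ : IsQ Q) (P : PT) (hP : P.p = pW Q) (z : ℤ × ℤ)
    (hz : z ∈ Mid) : 1 / 4 ≤ P.p (fun S => z ∈ S) := by
  classical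
  have hE : RSW.Loc (fun S : Set (ℤ × ℤ) => z ∈ S) :=
    ⟨max |z.1| |z.2|, fun _ _ h hS => (h z (le_max_left _ _) (le_max_right _ _)).1 hS⟩
  have e0 : pW Q (fun S => z ∈ S) = ∫ ω, iw (fun S => z ∈ S) (tau ω) ∂Q :=
    real_eq hE tau (fun B ω ω' h x hx => by unfold tau; rw [h x hx])
  have e1 : ∀ t : Sp, iw (fun S => z ∈ S) t = i1 (v1 z) t * i1 (v2 z) t := by
    intro t
    unfold iw i1
    by_cases h1 : t (v1 z) = true <;> by_cases h2 : t (v2 z) = true <;>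
      simp [Wp, h1, h2, hz]
  have h1 := half_prob hsym hQ (v1 z)
  have h2 := half_prob hsym hQ (v2 z)
  have h3 := assoc_tau hQ (B := {v1 z, v2 z}) (i1_mono (v1 z)) (i1_mono (v2 z))
    (i1_loc _ (by simp)) (i1_loc _ (by simp))
  rw [hP, e0]
  simp only [e1]
  nlinarith

theorem IL_mem (z : ℤ × ℤ) : IL (fun S : Set (ℤ × ℤ) => z ∈ S) :=
  ⟨fun _ _ h hS => h hS,
    ⟨max |z.1| |z.2|, fun S T h hS => (h z (le_max_left _ _) (le_max_right _ _)).1 hS⟩⟩

theorem IL_BX (n : ℤ) : IL (BX n) :=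
  IL_ex _ (pr_bdd 0 n 0 n) (fun m m' => (m.2 = 0 ∨ m = (2 * n, 1)) ∧
    (m'.2 = 2 * n ∨ m' = (0, 2 * n - 1)))

theorem IL_HX (n : ℤ) : IL (HX n) :=
  IL_ex _ (hex_bdd 0 0 n) (fun m m' =>
    (m.2 = -(4 * n) ∨ m = (4 * n, -(4 * n) + 1) ∨ m = (-1, -(4 * n) + 1)) ∧
    (m'.2 = 4 * n ∨ m' = (-(4 * n), 4 * n - 1) ∨ m' = (1, 4 * n - 1)))

theorem IL_LU (n : ℤ) : IL (LU n) :=
  IL_ex _ (hex_bdd 0 0 n) (fun x y => (x.1 = -(4 * n) ∨ x.1 + x.2 = -(4 * n)) ∧
    (y.1 = 4 * n ∨ y.1 + y.2 = 4 * n))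

theorem IL_C2 (n : ℤ) : IL (C2 n) :=
  IL_ex _ (hex_bdd 0 0 n) (fun x y => x.1 = -(4 * n) ∧ y.1 + y.2 = 4 * n)

theorem IL_C4 (n : ℤ) : IL (C4 n) :=
  IL_ex _ (hex_bdd 0 0 n) (fun x y => x.1 + x.2 = -(4 * n) ∧ y.1 + y.2 = 4 * n)

theorem IL_C5 (n : ℤ) : IL (C5 n) :=
  IL_ex _ (hex_bdd 0 0 n) (fun x y => x.2 = 4 * n ∧ y.1 + y.2 = -(4 * n))

/-- FKG for lower bounds. -/
theorem PT.two (P : PT) {E F : Set (ℤ × ℤ) → Prop} (hE : IL E) (hF : IL F) {a b : ℝ} (ha : 0 ≤ a)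
    (hb : 0 ≤ b) (h1 : a ≤ P.p E) (h2 : b ≤ P.p F) : a * b ≤ P.p (fun S => E S ∧ F S) :=
  (mul_le_mul h1 h2 hb (ha.trans h1)).trans (P.fkg E F hE hF)

/-- **Rhombi and hexagons.** -/
theorem base (hsym : S_sym) (hQ : IsQ Q) (P : PT) (hP : P.p = pW Q) :
    ∃ c₀ : ℝ, 0 < c₀ ∧ (∀ n : ℤ, 1 ≤ n → c₀ ≤ P.p (LRp 0 n 0 n)) ∧
      ∀ n : ℤ, 1 ≤ n → c₀ ≤ P.p (HT 0 0 n (-n) n) := by
  have hm : ∀ z : ℤ × ℤ, z ∈ Mid → 1 / 4 ≤ P.p (fun S => z ∈ S) := edge_prob hsym hQ P hP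
  have q0 : (0 : ℝ) ≤ 1 / 4 := by norm_num
  refine ⟨(1 / 4) ^ 9, by norm_num, fun n hn => ?_, fun n hn => ?_⟩
  · have h1 := dich_prob hsym hQ (IL_LRp 0 n 0 n) (IL_BX n) fun t s hc => rh_dich hc (by omega)
    rw [← hP] at h1
    by_cases h2 : 1 / 4 ≤ P.p (LRp 0 n 0 n)
    · refine le_trans (by norm_num) h2
    · have h3 : 1 / 4 ≤ P.p (BX n) := by linarith
      have g1 := P.two (IL_mem (2 * n - 1, 1)) (IL_mem (2 * n - 1, 0)) q0 q0
        (hm _ (by left; dsimp only; rw [Int.odd_iff]; omega))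
        (hm _ (by left; dsimp only; rw [Int.odd_iff]; omega))
      have g2 := P.two (IL_mem (1, 2 * n - 1)) (IL_mem (1, 2 * n)) q0 q0
        (hm _ (by left; dsimp only; rw [Int.odd_iff]; omega))
        (hm _ (by left; dsimp only; rw [Int.odd_iff]; omega))
      have g3 := P.two ((IL_mem (2 * n - 1, 1)).and (IL_mem (2 * n - 1, 0)))
        ((IL_mem (1, 2 * n - 1)).and (IL_mem (1, 2 * n))) (by norm_num) (by norm_num) g1 g2
      have g4 := P.two (IL_BX n) (((IL_mem (2 * n - 1, 1)).and (IL_mem (2 * n - 1, 0))).and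
        ((IL_mem (1, 2 * n - 1)).and (IL_mem (1, 2 * n)))) q0 (by norm_num) h3 g3
      have g5 : P.p (BTp 0 n 0 n) = P.p (LRp 0 n 0 n) := P.p_BTp 0 n 0 n
      rw [← g5]
      refine le_trans (by norm_num) (g4.trans (P.mono _ _ fun S _ hS => ?_))
      exact rh_corner (by omega) hS.1 hS.2
  · have hCT : P.p (HT 0 0 n (-n) n) = P.p (CT 0 0 n) := by
      rw [← P.swap _ (IL_CT 0 0 n)]
      congr 1
      funext S
      exact propext (CT_swap S n).symm
    have hC4 : P.p (C4 n) = P.p (CT 0 0 n) := by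
      rw [← P.refly _ (IL_C4 n)]
      congr 1
      funext S
      exact propext C4_refl
    have IL3 : IL (C3 n) := IL_ex _ (hex_bdd 0 0 n) (fun x y => x.1 + x.2 = -(4 * n) ∧ y.1 = 4 * n)
    have hneg : ∀ E : Set (ℤ × ℤ) → Prop, IL E → IL (fun S => E {z | (-z.1 - z.2, z.2) ∈ S}) := by
      intro E hE
      refine ⟨fun S T h hS => hE.1 _ _ (fun z hz => h hz) hS, ?_⟩
      obtain ⟨N, hN⟩ := hE.2
      refine ⟨2 * |N|, fun S T h hS => hN _ _ (fun z h1 h2 => ?_) hS⟩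
      have h3 := le_abs_self N
      rw [abs_le] at h1 h2
      exact h (-z.1 - z.2, z.2) (by rw [abs_le]; dsimp only; omega)
        (by rw [abs_le]; dsimp only; omega)
    have hsw : ∀ E : Set (ℤ × ℤ) → Prop, IL E → IL (fun S => E {z | (z.2, z.1) ∈ S}) := by
      intro E hE
      refine ⟨fun S T h hS => hE.1 _ _ (fun z hz => h hz) hS, ?_⟩
      obtain ⟨N, hN⟩ := hE.2
      exact ⟨N, fun S T h hS => hN _ _ (fun z h1 h2 => h (z.2, z.1) h2 h1) hS⟩
    have hC3 : P.p (C3 n) = P.p (C2 n) := by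
      rw [← P.reflx _ (IL_C2 n), ← P.refly _ (hneg _ (IL_C2 n))]
      congr 1
      funext S
      rw [← C2_refl]
      congr 1
      ext z
      simp only [Set.mem_ofPred_eq]
      rw [show (-z.1 - z.2 + z.2 : ℤ) = -z.1 by ring]
    have hC5 : P.p (C5 n) = P.p (C2 n) := by
      have hIL2 : IL (fun S => (fun S : Set (ℤ × ℤ) => C2 n {z | (-z.1 - z.2, z.2) ∈ S})
          {z | (z.1 + z.2, -z.2) ∈ S}) := by
        refine ⟨fun S T h hS => (IL_C2 n).1 _ _ (fun z hz => h hz) hS, ?_⟩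
        obtain ⟨N, hN⟩ := (hneg _ (IL_C2 n)).2
        refine ⟨2 * |N|, fun S T h hS => hN _ _ (fun z h1 h2 => ?_) hS⟩
        have h3 := le_abs_self N
        rw [abs_le] at h1 h2
        exact h (z.1 + z.2, -z.2) (by rw [abs_le]; dsimp only; omega)
          (by rw [abs_le]; dsimp only; omega)
      have s1 := P.reflx _ (IL_C2 n)
      have s2 := P.refly _ (hneg _ (IL_C2 n))
      have s3 := P.swap _ hIL2
      rw [← s1, ← s2, ← s3]
      congr 1
      funext S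
      rw [← C2_refl']
      congr 1
      ext z
      simp only [Set.mem_ofPred_eq]
      rw [show (-z.1 - z.2 + z.2 : ℤ) = -z.1 by ring]
    have h1 := dich_prob hsym hQ (IL_LU n) (IL_HX n) fun t s hc => hx_dich hc (by omega)
    rw [← hP] at h1
    by_cases h2 : 1 / 4 ≤ P.p (HX n)
    · have g : ∀ z : ℤ × ℤ, ∀ w : ℤ × ℤ, z ∈ Mid → w ∈ Mid →
          1 / 4 * (1 / 4) ≤ P.p (fun S => z ∈ S ∧ w ∈ S) := fun z w hz hw =>
        P.two (IL_mem z) (IL_mem w) q0 q0 (hm z hz) (hm w hw)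
      have k1 := P.two ((IL_mem (4 * n - 1, -(4 * n) + 1)).and (IL_mem (4 * n - 1, -(4 * n))))
        ((IL_mem (0, -(4 * n) + 1)).and (IL_mem (1, -(4 * n)))) (by norm_num) (by norm_num)
        (g _ _ (by left; dsimp only; rw [Int.odd_iff]; omega)
          (by left; dsimp only; rw [Int.odd_iff]; omega))
        (g _ _ (by right; dsimp only; rw [Int.odd_iff]; omega)
          (by left; dsimp only; rw [Int.odd_iff]; omega))
      have k2 := P.two ((IL_mem (-(4 * n) + 1, 4 * n - 1)).and (IL_mem (-(4 * n) + 1, 4 * n)))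
        ((IL_mem (0, 4 * n - 1)).and (IL_mem (-1, 4 * n))) (by norm_num) (by norm_num)
        (g _ _ (by left; dsimp only; rw [Int.odd_iff]; omega)
          (by left; dsimp only; rw [Int.odd_iff]; omega))
        (g _ _ (by right; dsimp only; rw [Int.odd_iff]; omega)
          (by left; dsimp only; rw [Int.odd_iff]; omega))
      have k3 := P.two (((IL_mem (4 * n - 1, -(4 * n) + 1)).and
        (IL_mem (4 * n - 1, -(4 * n)))).and ((IL_mem (0, -(4 * n) + 1)).and (IL_mem (1, -(4 * n)))))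
        (((IL_mem (-(4 * n) + 1, 4 * n - 1)).and (IL_mem (-(4 * n) + 1, 4 * n))).and
        ((IL_mem (0, 4 * n - 1)).and (IL_mem (-1, 4 * n)))) (by norm_num) (by norm_num) k1 k2
      have k4 := P.two (IL_HX n) ((((IL_mem (4 * n - 1, -(4 * n) + 1)).and
        (IL_mem (4 * n - 1, -(4 * n)))).and
        ((IL_mem (0, -(4 * n) + 1)).and (IL_mem (1, -(4 * n))))).and
        (((IL_mem (-(4 * n) + 1, 4 * n - 1)).and (IL_mem (-(4 * n) + 1, 4 * n))).and
        ((IL_mem (0, 4 * n - 1)).and (IL_mem (-1, 4 * n))))) q0 (by norm_num) h2 k3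
      refine le_trans (by norm_num) (k4.trans (P.mono _ _ fun S _ hS => ?_))
      exact hx_corner (by omega) hS.1 hS.2
    · have h3 : 1 / 4 ≤ P.p (LU n) := by linarith
      have h4 : P.p (LU n) ≤ (P.p (CT 0 0 n) + P.p (C2 n)) + (P.p (C3 n) + P.p (C4 n)) := by
        refine le_trans (P.mono _ (fun S => (CT 0 0 n S ∨ C2 n S) ∨ (C3 n S ∨ C4 n S))
          fun S _ hS => LU_cases hS) ?_
        refine (P.or_le _ _).trans (add_le_add (P.or_le _ _) (P.or_le _ _))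
      rw [hC3, hC4] at h4
      rw [hCT]
      by_cases h5 : 1 / 16 ≤ P.p (CT 0 0 n)
      · exact le_trans (by norm_num) h5
      · have h6 : 1 / 16 ≤ P.p (C2 n) := by linarith
        have h7 := P.two (IL_C2 n) (IL_C5 n) (by norm_num) (by norm_num) h6 (hC5 ▸ h6)
        have h8 := P.mono _ (C4 n) fun S _ (hS : C2 n S ∧ C5 n S) => C25 hS.1 hS.2
        rw [hC4] at h8
        exact le_trans (by norm_num) (h7.trans h8)

end Vale.Agent.P153.F.RSW
end
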