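import Mathlib
import Vale.Agent.P153.Bd5.B19
import Vale.Agent.P153.Bd5.B23
import Vale.Agent.P153.Bd5.B28
import Vale.Agent.P153.Bd5.B27
import Vale.Agent.P153.Bd5.B26
import Vale.Agent.P153.Bd5.B22
import Vale.Agent.P153.Bd5.B24
import Vale.Agent.P153.Bd5.B20
import Vale.Agent.P153.Bd5.B9
import Vale.Agent.P153.Bd5.B25
import Vale.Agent.P153.Bd5.B8
import Vale.Agent.P153.Bd5.B16
import Vale.Agent.P153.Bd5.B18
import Vale.Agent.P153.Bd5.B21

set_option linter.all false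

section

/-!
# P153 GFF: convergence in law for finite domains which grow fast enough
-/

open MeasureTheory ProbabilityTheory Filter Topology Set

namespace Vale.Agent.P153.GFF

variable {P : Measure (ℤ × ℤ → ℤ)} {κ : ℝ}

/-- The scaling limit for the uniform odd heights of the finite domains `D δ`. -/
def FinLim (κ : ℝ) (C : Finset (ℤ × ℤ) → Prop) : Prop :=
  ∃ _ : ∀ D : Finset (ℤ × ℤ), IsProbabilityMeasure (uniformOn (Odd2 D)),
    ∃ R : ℝ → Finset (ℤ × ℤ), ∀ D : ℝ → Finset (ℤ × ℤ), (∀ δ, R δ ⊆ D δ) → (∀ δ, C (D δ)) →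
      ∀ (m : ℕ) (f : Fin m → ℝ × ℝ → ℝ), (∀ j, Test (f j)) →
        TendstoInDistribution (fun (δ : ℝ) (h : ℤ × ℤ → ℤ) =>
          (WithLp.toLp 2 (fun j => smear h δ (f j)) : EuclideanSpace ℝ (Fin m))) (𝓝[>] 0)
          (id : EuclideanSpace ℝ (Fin m) → EuclideanSpace ℝ (Fin m))
          (fun δ => uniformOn (Odd2 (D δ)))
          (multivariateGaussian 0 (Matrix.of (fun i j => κ * gffCov (f i) (f j))))

theorem fin_lim (hP : Plane P) (hS : SpecOut P κ) (hC : RowCLT P κ)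
    (hloc : ∀ (B : Finset (ℤ × ℤ)) (a : ℤ × ℤ → ℤ), Tendsto (fun D : Finset (ℤ × ℤ) =>
      ((Ht D ∩ Pat B a).ncard : ℝ) / (Ht D).ncard) (atTop ⊓ 𝓟 {D | A.Cc D})
        (𝓝 (P.real (Pat B a)))) {C : Finset (ℤ × ℤ) → Prop} (hCc : ∀ D, C D → A.Cc D) :
    FinLim (4 * κ / √3) C := by
  refine ⟨unif_prob, ?_⟩
  obtain ⟨R, hR⟩ := fin_dom hP hS hC hloc
  refine ⟨R, fun D hD hc m f hf => ?_⟩
  have := unif_prob
  exact (g3v (fun δ => uniformOn (Odd2 (D δ))) (4 * κ / √3)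
    (hR D hD fun δ => hCc _ (hc δ)) m f hf).2

end Vale.Agent.P153.GFF
end

section

/-!
# Block B: the spectral data of a plane measure
-/

open MeasureTheory ProbabilityTheory Filter Topology UnitAddTorus
open scoped NNReal ENNReal

namespace Vale.Agent.P153.RP

open Vale.Agent.P153.GFF (Plane var2 SpecOut Vrow ev)

variable {P : Measure (ℤ × ℤ → ℤ)}

/-- the basic hypotheses on the variogram -/
theorem vh0_plane (hP : Plane P) : VH0 (VP P) where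
  zero := Vf_zero hP
  even := Vf_even hP
  cnd := Vf_cnd hP

theorem vh_plane (hP : Plane P) : VH (VP P) where
  toVH0 := vh0_plane hP
  null := slope_null hP (vh0_plane hP) (Vf_rot hP)

/-- all hypotheses of block B hold for the variogram of a plane measure -/
theorem rph_plane (hP : Plane P) : RPH (VP P) where
  toVH := vh_plane hP
  rot := Vf_rot hP
  refl := Vf_refl hP
  rp0 := Vf_rp0 hP
  rp1 := Vf_rp1 hP
  line := row_null hP (vh0_plane hP) (Vf_rot hP)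

/-- **Output of blocks B, C.** -/
theorem specOut (hP : Plane P) : ∃ κ, 0 ≤ κ ∧ SpecOut P κ := by
  obtain ⟨C, ρ, hD⟩ := densHyp (rph_plane hP)
  obtain ⟨κ, hκ, -, hlim⟩ := Iso.b5 _ _ C ρ hD
  have h := spec_of_lim (rph_plane hP) (κ := 3 * κ) (by positivity) (by
    intro ε hε
    obtain ⟨η, hη, h1⟩ := hlim ε hε
    refine ⟨η, hη, ?_⟩
    filter_upwards [h1] with k hk hk1 hk0 θ hθ
    have h2 := hk hk1 hk0 θ hθ
    rw [Real.sq_sqrt (by norm_num : (0 : ℝ) ≤ 3)]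
    exact h2)
  exact ⟨3 * κ, by positivity, mR (rph_plane hP), _, _, h⟩

end Vale.Agent.P153.RP
end

section

/-!
# P153: the plane theorem, strong form
-/

open MeasureTheory ProbabilityTheory Filter Topology Set

namespace Vale.Agent.P153.GFF

open Vale.Agent.P153.CLT (measurable_coord)

/-- The scaling limit part of the main theorem for a given measure and a given constant. -/
def ScalLim (P : Measure (ℤ × ℤ → ℤ)) (_ : IsProbabilityMeasure P) (κ : ℝ) : Prop :=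
    Tendsto (fun x : ℤ × ℤ => (∫ φ, ((φ x : ℤ) : ℝ) ^ 2 ∂P) / Real.log (len x)) cofinite
      (𝓝 (κ / Real.pi)) ∧
    ∀ (m : ℕ) (f : Fin m → ℝ × ℝ → ℝ), (∀ j, Test (f j)) →
      (Matrix.of (fun i j => κ * gffCov (f i) (f j))).PosSemidef ∧
      TendstoInDistribution (fun (δ : ℝ) (φ : ℤ × ℤ → ℤ) =>
        (WithLp.toLp 2 (fun j => smear φ δ (f j)) : EuclideanSpace ℝ (Fin m))) (𝓝[>] 0)
        (id : EuclideanSpace ℝ (Fin m) → EuclideanSpace ℝ (Fin m)) (fun _ => P)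
        (multivariateGaussian 0 (Matrix.of (fun i j => κ * gffCov (f i) (f j))))

variable {P : Measure (ℤ × ℤ → ℤ)} {κ : ℝ}

theorem scal_lim (hP : Plane P) (hS : SpecOut P κ) (hC : RowCLT P κ) (hκ : 0 ≤ κ) :
    ScalLim (P.map dbl) (odd_out hP).1 (4 * κ / √3) := by
  have h3 : (0 : ℝ) < √3 := by positivity
  have hpi := Real.pi_pos
  have hk : 0 ≤ 4 * κ / √3 := by positivity
  refine ⟨?_, ?_⟩
  · have h1 := (var_lim hP hS).const_mul 4
    have h2 : 4 * (κ / (√3 * Real.pi)) = 4 * κ / √3 / Real.pi := by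
      field_simp
    rw [h2] at h1
    refine h1.congr fun x => ?_
    have h4 : ∫ φ : ℤ × ℤ → ℤ, ((φ x : ℤ) : ℝ) ^ 2 ∂(P.map dbl) = 4 * var2 P x := by
      rw [integral_map measurable_dbl.aemeasurable
        ((measurable_coord x).pow_const 2).aestronglyMeasurable]
      unfold var2
      rw [← integral_const_mul]
      congr 1
      ext φ
      unfold dbl
      push_cast
      ring
    rw [h4]
    ring
  · refine g3 (P.map dbl) (odd_out hP).1 (4 * κ / √3) hk fun F hF => ?_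
    have h1 := char_fun hP hS hC (test_two hF)
    rw [gffCov_two] at h1
    have h2 : κ / √3 * (4 * gffCov F F) / 2 = 4 * κ / √3 * gffCov F F / 2 := by ring
    rw [h2] at h1
    refine h1.congr' ?_
    filter_upwards [self_mem_nhdsWithin] with δ hδ
    obtain ⟨K, hK⟩ := hF.csts
    have hm : Measurable fun φ : ℤ × ℤ → ℤ =>
        Complex.exp (Complex.I * ((smear φ δ F : ℝ) : ℂ)) :=
      Complex.measurable_exp.comp
        ((Complex.measurable_ofReal.comp (measurable_smear hK hδ)).const_mul _)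
    rw [integral_map measurable_dbl.aemeasurable hm.aestronglyMeasurable]
    congr 1
    ext φ
    rw [smear_dbl]

/-- The strong form of the final theorem. -/
def MainPlus : Prop := ∃ P : Measure (ℤ × ℤ → ℤ), ∃ _ : IsProbabilityMeasure P,
  (∀ᵐ φ ∂P, φ 0 = 0) ∧
  (∀ D : ℕ → Finset (ℤ × ℤ), (∀ n, CoConn (D n)) → (∀ x, ∀ᶠ n in atTop, x ∈ D n) → OddLim P D) ∧
  OddGibbs P ∧
  (∀ t, P.map (shift t) = P) ∧ P.map (fun φ x => φ (rot x)) = P ∧
  P.map (fun φ x => φ (x.2, x.1)) = P ∧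
  (∀ (B : Finset (ℤ × ℤ)) (W W' : (ℤ × ℤ → ℤ) → ℝ), Measurable W → Measurable W' →
    (∃ M, ∀ φ, |W φ| ≤ M) → (∃ M, ∀ φ, |W' φ| ≤ M) →
    (∀ φ, W (-φ) = W φ) → (∀ φ, W' (-φ) = W' φ) →
    (∀ φ ψ, (∀ x ∈ B, φ x = ψ x) → W φ = W ψ) → (∀ φ ψ, (∀ x ∈ B, φ x = ψ x) → W' φ = W' ψ) →
    Tendsto (fun t => ∫ φ, W φ * W' (shift t φ) ∂P) cofinite
      (𝓝 ((∫ φ, W φ ∂P) * ∫ φ, W' φ ∂P))) ∧
  ∃ κ : ℝ, 0 ≤ κ ∧
    Tendsto (fun x : ℤ × ℤ => (∫ φ, ((φ x : ℤ) : ℝ) ^ 2 ∂P) / Real.log (len x)) cofinite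
      (𝓝 (κ / Real.pi)) ∧
    (∀ (m : ℕ) (f : Fin m → ℝ × ℝ → ℝ), (∀ j, Test (f j)) →
      (Matrix.of (fun i j => κ * gffCov (f i) (f j))).PosSemidef ∧
      TendstoInDistribution (fun (δ : ℝ) (φ : ℤ × ℤ → ℤ) =>
        (WithLp.toLp 2 (fun j => smear φ δ (f j)) : EuclideanSpace ℝ (Fin m))) (𝓝[>] 0)
        (id : EuclideanSpace ℝ (Fin m) → EuclideanSpace ℝ (Fin m)) (fun _ => P)
        (multivariateGaussian 0 (Matrix.of (fun i j => κ * gffCov (f i) (f j))))) ∧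
    ∃ _ : ∀ D : Finset (ℤ × ℤ), IsProbabilityMeasure (uniformOn (Odd2 D)),
    ∃ R : ℝ → Finset (ℤ × ℤ), ∀ D : ℝ → Finset (ℤ × ℤ), (∀ δ, R δ ⊆ D δ) → (∀ δ, CoConn (D δ)) →
      ∀ (m : ℕ) (f : Fin m → ℝ × ℝ → ℝ), (∀ j, Test (f j)) →
        TendstoInDistribution (fun (δ : ℝ) (h : ℤ × ℤ → ℤ) =>
          (WithLp.toLp 2 (fun j => smear h δ (f j)) : EuclideanSpace ℝ (Fin m))) (𝓝[>] 0)
          (id : EuclideanSpace ℝ (Fin m) → EuclideanSpace ℝ (Fin m))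
          (fun δ => uniformOn (Odd2 (D δ)))
          (multivariateGaussian 0 (Matrix.of (fun i j => κ * gffCov (f i) (f j))))

theorem main_plus : MainPlus := by
  obtain ⟨P, hP, hE, hloc⟩ := exists_plane_loc
  obtain ⟨κ, hκ, hS⟩ := RP.specOut hP
  have hS' := hS
  obtain ⟨m, C, k0, hSp⟩ := hS'
  have hC := Asm.rowCLT hP (Strip.rowLim hE) hSp
  obtain ⟨o1, o2, o3, o4, o5, o6, o7⟩ := odd_out hP
  have h3 : (0 : ℝ) < √3 := by positivity
  obtain ⟨s1, s2⟩ := scal_lim hP hS hC hκ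
  exact ⟨P.map dbl, o1, o2, fun D hD hx => oddLim_all hloc hD hx, o4, o5, o6, o7,
    fun B W W' a1 a2 a3 a4 a5 a6 a7 a8 => mix_map hP B W W' a1 a2 a3 a4 a5 a6 a7 a8,
    4 * κ / √3, by positivity, s1, s2, fin_lim hP hS hC hloc fun D => cc_of_coConn⟩

end Vale.Agent.P153.GFF
end

section

/-!
P153-F: the plane measure with its spin representation.
-/

set_option autoImplicit false

namespace Vale.Agent.P153.F

open Filter Topology MeasureTheory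
open Vale.Agent.P153.GFF

/-- The plane limit, as the law of the heights of the spin measure `Q`. -/
theorem exists_q : ∃ Q : Measure A.Om, A.IsQ Q ∧ Plane (Q.map A.rc) ∧ Strip.EvLim (Q.map A.rc) ∧
    ∀ (B : Finset (ℤ × ℤ)) (a : ℤ × ℤ → ℤ), Tendsto
      (fun D : Finset (ℤ × ℤ) => ((Ht D ∩ Pat B a).ncard : ℝ) / (Ht D).ncard)
      (atTop ⊓ 𝓟 {D | A.Cc D}) (𝓝 ((Q.map A.rc).real (Pat B a))) := by
  have h3 : A.S_fkg := A.s_fkg A.s_super A.s_e1
  have h4 : A.S_dom := A.s_dom A.s_e1 h3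
  have h9 : A.S_muMix := A.s_muMix h3 h4 A.s_prod
  have h7 : A.S_mu := A.s_mu A.s_e1 h4 A.s_comp
  have h21 : A.S_loc := A.s_loc A.s_rc A.s_bij
  obtain ⟨μ, hμ⟩ := h7
  have h1 := A.s_bk μ hμ.prob (A.s_muInv μ hμ) (h9 μ hμ) (A.s_muFlip μ hμ)
  obtain ⟨Q, hQ, hF⟩ := A.s_q A.s_e1 A.s_comp A.s_coin A.s_coin2
    ⟨μ, hμ, A.s_far μ hμ.prob h1⟩
  exact ⟨Q, hQ, A.plane_of A.s_rc A.s_sym h21 A.s_cc
    (A.s_rp A.s_rc A.s_bij A.s_cc A.s_rp0) A.s_gibbs
    (A.s_mixP A.s_rc A.s_sym (A.s_mixQ A.s_e1 A.s_coin A.s_coin2 A.s_coin3 h9)) hQ hF,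
    A.evLim_of A.s_rc A.s_sym h21 A.s_cc hQ, h21 Q hQ⟩

/-- The conclusion of the plane theorem, for the measure `P'` of the odd heights. -/
def PlanePart (P' : Measure (ℤ × ℤ → ℤ)) (κ : ℝ) : Prop :=
  (∀ᵐ φ ∂P', φ 0 = 0) ∧
  (∀ D : ℕ → Finset (ℤ × ℤ), (∀ n, CoConn (D n)) → (∀ x, ∀ᶠ n in atTop, x ∈ D n) →
    OddLim P' D) ∧
  OddGibbs P' ∧
  (∀ t, P'.map (shift t) = P') ∧ P'.map (fun φ x => φ (rot x)) = P' ∧
  P'.map (fun φ x => φ (x.2, x.1)) = P' ∧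
  (∀ (B : Finset (ℤ × ℤ)) (W W' : (ℤ × ℤ → ℤ) → ℝ), Measurable W → Measurable W' →
    (∃ M, ∀ φ, |W φ| ≤ M) → (∃ M, ∀ φ, |W' φ| ≤ M) →
    (∀ φ, W (-φ) = W φ) → (∀ φ, W' (-φ) = W' φ) →
    (∀ φ ψ, (∀ x ∈ B, φ x = ψ x) → W φ = W ψ) → (∀ φ ψ, (∀ x ∈ B, φ x = ψ x) → W' φ = W' ψ) →
    Tendsto (fun t => ∫ φ, W φ * W' (shift t φ) ∂P') cofinite
      (𝓝 ((∫ φ, W φ ∂P') * ∫ φ, W' φ ∂P'))) ∧
  0 ≤ κ ∧
  Tendsto (fun x : ℤ × ℤ => (∫ φ, ((φ x : ℤ) : ℝ) ^ 2 ∂P') / Real.log (len x)) cofinite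
    (𝓝 (κ / Real.pi))

/-- The parameters of the final theorem: everything for one measure and one constant. -/
theorem exists_all : ∃ (Q : Measure A.Om) (κ' : ℝ) (_ : A.IsQ Q) (_ : Plane (Q.map A.rc))
    (_ : SpecOut (Q.map A.rc) κ') (_ : RowCLT (Q.map A.rc) κ') (_ : 0 ≤ κ')
    (_ : IsProbabilityMeasure ((Q.map A.rc).map dbl)),
    PlanePart ((Q.map A.rc).map dbl) (4 * κ' / √3) ∧
    (∀ (m : ℕ) (f : Fin m → ℝ × ℝ → ℝ), (∀ j, Test (f j)) →
      (Matrix.of (fun i j => (4 * κ' / √3) * gffCov (f i) (f j))).PosSemidef ∧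
      MeasureTheory.TendstoInDistribution (fun (δ : ℝ) (φ : ℤ × ℤ → ℤ) =>
        (WithLp.toLp 2 (fun j => smear φ δ (f j)) : EuclideanSpace ℝ (Fin m))) (𝓝[>] 0)
        (id : EuclideanSpace ℝ (Fin m) → EuclideanSpace ℝ (Fin m))
        (fun _ => (Q.map A.rc).map dbl)
        (ProbabilityTheory.multivariateGaussian 0
          (Matrix.of (fun i j => (4 * κ' / √3) * gffCov (f i) (f j))))) ∧
    ∃ _ : ∀ D : Finset (ℤ × ℤ), IsProbabilityMeasure (ProbabilityTheory.uniformOn (Odd2 D)),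
    ∃ R : ℝ → Finset (ℤ × ℤ), ∀ D : ℝ → Finset (ℤ × ℤ), (∀ δ, R δ ⊆ D δ) → (∀ δ, CoConn (D δ)) →
      ∀ (m : ℕ) (f : Fin m → ℝ × ℝ → ℝ), (∀ j, Test (f j)) →
        MeasureTheory.TendstoInDistribution (fun (δ : ℝ) (h : ℤ × ℤ → ℤ) =>
          (WithLp.toLp 2 (fun j => smear h δ (f j)) : EuclideanSpace ℝ (Fin m))) (𝓝[>] 0)
          (id : EuclideanSpace ℝ (Fin m) → EuclideanSpace ℝ (Fin m))
          (fun δ => ProbabilityTheory.uniformOn (Odd2 (D δ)))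
          (ProbabilityTheory.multivariateGaussian 0
            (Matrix.of (fun i j => (4 * κ' / √3) * gffCov (f i) (f j)))) := by
  obtain ⟨Q, hQ, hP, hE, hloc⟩ := exists_q
  obtain ⟨κ, hκ, hS⟩ := RP.specOut hP
  have hS' := hS
  obtain ⟨m, C, k0, hSp⟩ := hS'
  have hC := Asm.rowCLT hP (Strip.rowLim hE) hSp
  obtain ⟨o1, o2, o3, o4, o5, o6, o7⟩ := odd_out hP
  have h3 : (0 : ℝ) < √3 := by positivity
  obtain ⟨s1, s2⟩ := scal_lim hP hS hC hκ
  exact ⟨Q, κ, hQ, hP, hS, hC, hκ, o1,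
    ⟨o2, fun D hD hx => oddLim_all hloc hD hx, o4, o5, o6, o7,
      fun B W W' a1 a2 a3 a4 a5 a6 a7 a8 => mix_map hP B W W' a1 a2 a3 a4 a5 a6 a7 a8,
      by positivity, s1⟩, s2, fin_lim hP hS hC hloc fun D => cc_of_coConn⟩

end Vale.Agent.P153.F
end

section

/-!
# P153-F: the final theorem (plane and Jordan domains) in the shape used by the hand-in
-/

set_option autoImplicit false

open MeasureTheory ProbabilityTheory Filter Topology

namespace Vale.Agent.P153.JG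

open Vale.Agent.P153.GFF
open Vale.Agent.P145.PT (V TestOn)

/-- Convergence in law to a centred Gaussian variable of variance `v`. -/
def ToG {ι : Type} (l : Filter ι) (μ : ι → Measure (ℤ × ℤ → ℤ))
    (_ : ∀ i, IsProbabilityMeasure (μ i)) (X : ι → (ℤ × ℤ → ℤ) → ℝ) (v : ℝ) : Prop :=
  0 ≤ v ∧ TendstoInDistribution X l id μ (gaussianReal 0 v.toNNReal)

theorem toG_of_vec {ι : Type} {l : Filter ι} {μ : ι → Measure (ℤ × ℤ → ℤ)}
    {hμ : ∀ i, IsProbabilityMeasure (μ i)} {X : ι → (ℤ × ℤ → ℤ) → ℝ} {v : ℝ}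
    (h1 : (Matrix.of (fun _ _ : Fin 1 => v)).PosSemidef)
    (h2 : TendstoInDistribution (fun (i : ι) (h : ℤ × ℤ → ℤ) =>
      (WithLp.toLp 2 (fun _ => X i h) : EuclideanSpace ℝ (Fin 1))) l
      (id : EuclideanSpace ℝ (Fin 1) → EuclideanSpace ℝ (Fin 1)) μ
      (multivariateGaussian 0 (Matrix.of (fun _ _ : Fin 1 => v)))) : ToG l μ hμ X v := by
  have hv : 0 ≤ v := by
    have := h1.diag_nonneg (i := (0 : Fin 1))
    simpa using this
  refine ⟨hv, ?_⟩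
  have hc : Continuous fun x : EuclideanSpace ℝ (Fin 1) => x 0 := by fun_prop
  have h3 := h2.continuous_comp hc
  have h4 := measurePreserving_eval_multivariateGaussian (μ := (0 : EuclideanSpace ℝ (Fin 1))) h1
    (i := (0 : Fin 1))
  have e0 : gaussianReal ((0 : EuclideanSpace ℝ (Fin 1)) 0)
      ((Matrix.of (fun _ _ : Fin 1 => v)) 0 0).toNNReal = gaussianReal 0 v.toNNReal := by
    simp
  rw [e0] at h4
  refine ⟨fun i => h3.forall_aemeasurable i, aemeasurable_id, ?_⟩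
  have h5 := h3.tendsto
  have e1 : (⟨(gaussianReal 0 v.toNNReal).map id, Measure.isProbabilityMeasure_map aemeasurable_id⟩ :
      ProbabilityMeasure ℝ) = ⟨(multivariateGaussian 0 (Matrix.of (fun _ _ : Fin 1 => v))).map
        ((fun x : EuclideanSpace ℝ (Fin 1) => x 0) ∘ id),
        Measure.isProbabilityMeasure_map h3.aemeasurable_limit⟩ := by
    apply Subtype.ext
    change (gaussianReal 0 v.toNNReal).map id = _
    rw [Measure.map_id, ← h4.map_eq]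
    rfl
  rw [e1]
  exact h5

theorem sum_dirac_unif {s : Set (ℤ × ℤ → ℤ)} (hf : s.Finite) :
    ((s.ncard : ENNReal)⁻¹ • ∑ᶠ h ∈ s, Measure.dirac h) = uniformOn s := by
  classical
  have hms : MeasurableSet s := hf.measurableSet
  refine Measure.ext fun t ht => ?_
  unfold uniformOn
  rw [cond_apply hms, finsum_mem_eq_finite_toFinset_sum _ hf, Measure.smul_apply,
    Measure.finsetSum_apply, Measure.count_apply_finite s hf,
    Measure.count_apply_finite (s ∩ t) (hf.inter_of_left t), smul_eq_mul]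
  congr 1
  · rw [Set.ncard_eq_toFinset_card s hf]
  · have h1 : ∀ h ∈ hf.toFinset, (Measure.dirac h) t = if h ∈ t then 1 else 0 := by
      intro h _
      rw [Measure.dirac_apply' h ht, Set.indicator_apply]
      rfl
    rw [Finset.sum_congr rfl h1, Finset.sum_boole]
    congr 2
    ext h
    simp

/-- The uniform distribution on the heights of the domain enclosed by `p`. -/
noncomputable def law {n : ℕ} (p : ZMod n → ℤ × ℤ) (S : Finset ((ℤ × ℤ) × Bool)) :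
    Measure (ℤ × ℤ → ℤ) := uniformOn (F.Dom.Heights p S)

theorem law_eq {n : ℕ} {p : ZMod n → ℤ × ℤ} {S : Finset ((ℤ × ℤ) × Bool)}
    (hp : F.Dom.IsPolygon p) (hS : F.Dom.Encloses p S) : F.Dom.law p S = law p S :=
  sum_dirac_unif (F.Dom.s_law p S hp hS).1

/-- Lattice polygons approximating the domain `D`. -/
def Approx (D : Set (ℝ × ℝ)) (δ : ℕ → ℝ) (N : ℕ → ℕ) (p : ∀ n, ZMod (N n) → ℤ × ℤ)
    (S : ℕ → Finset ((ℤ × ℤ) × Bool)) : Prop :=
  (∀ n, 0 < δ n ∧ F.Dom.IsPolygon (p n) ∧ F.Dom.Encloses (p n) (S n)) ∧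
  Tendsto δ atTop (𝓝 0) ∧
  (∀ ε > 0, ∀ᶠ n in atTop, ∀ i, ∃ z ∈ D, dist (δ n • F.Dom.pt (p n i)) z < ε) ∧
  ∀ K ⊆ D, IsCompact K → ∀ᶠ n in atTop, K ⊆ F.Dom.region (δ n) (S n)

/-- The Jordan domain part. -/
def JordanPart (κ : ℝ) : Prop :=
  ∀ D, F.Dom.JordanDomain D → ∀ δ N p S, Approx D δ N p S →
    ∃ hL : ∀ n, IsProbabilityMeasure (law (p n) (S n)), ∀ φ, TestOn D φ →
      ToG atTop (fun n => law (p n) (S n)) hL (fun n => F.Dom.fld (S n) (δ n) φ) (κ * V D φ)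

/-- The covariance of a test function with itself. -/
theorem dirCov_self {D : Set (ℝ × ℝ)} (hD : Bornology.IsBounded D) {φ : ℝ × ℝ → ℝ}
    (hφ : TestOn D φ) : F.Dom.dirCov D φ φ = V D φ := by
  have h1 : (fun z => φ z + φ z) = fun z => 2 * φ z := by
    funext z; ring
  have h2 : (fun z => φ z - φ z) = fun z => 0 * φ z := by
    funext z; ring
  unfold F.Dom.dirCov
  rw [h1, h2, Vale.Agent.P145.Dom.V_smul hD hφ, Vale.Agent.P145.Dom.V_smul hD hφ]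
  ring

theorem jordanPart_of {κ : ℝ} (h : ∀ D, F.Dom.JordanDomain D → F.Dom.Conv κ D) :
    JordanPart κ := by
  intro D hD δ N p S hA
  have hb : Bornology.IsBounded D :=
    Vale.Agent.P145.Dom.JordanDomain.isBounded (D := D) hD
  obtain ⟨hP, h1⟩ := h D hD δ N p S ⟨fun n => (hA.1 n).1, hA.2.1, fun n => (hA.1 n).2.1,
    fun n => (hA.1 n).2.2, hA.2.2.1, hA.2.2.2⟩
  have e : ∀ n, F.Dom.law (p n) (S n) = law (p n) (S n) := fun n =>
    law_eq (hA.1 n).2.1 (hA.1 n).2.2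
  have e' : (fun n => F.Dom.law (p n) (S n)) = fun n => law (p n) (S n) := funext e
  have hL : ∀ n, IsProbabilityMeasure (law (p n) (S n)) := fun n => e n ▸ hP n
  refine ⟨hL, fun φ hφ => ?_⟩
  obtain ⟨h2, h3⟩ := h1 1 (fun _ => φ) fun _ => hφ
  have key : ∀ (μ : ℕ → Measure (ℤ × ℤ → ℤ)) (hμ : ∀ n, IsProbabilityMeasure (μ n)),
      (fun n => F.Dom.law (p n) (S n)) = μ →
      ToG atTop μ hμ (fun n => F.Dom.fld (S n) (δ n) φ) (κ * V D φ) := by
    intro μ hμ he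
    subst he
    have e2 : κ * V D φ = κ * F.Dom.dirCov D φ φ := by rw [dirCov_self hb hφ]
    rw [e2]
    exact toG_of_vec h2 h3
  exact key _ hL e'

/-- Variance of the Gaussian free field on the plane modulo constants. -/
noncomputable def gffVar (f : ℝ × ℝ → ℝ) : ℝ := ∫ x, ∫ y, green x y * f x * f y

/-- The final theorem. -/
def JordanShape : Prop := ∃ P : Measure (ℤ × ℤ → ℤ), ∃ hP : IsProbabilityMeasure P,
    (∀ᵐ h ∂P, h 0 = 0) ∧
    (∀ D : ℕ → Finset (ℤ × ℤ), (∀ n, CoConn (D n)) → (∀ x, ∀ᶠ n in atTop, x ∈ D n) →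
      OddLim P D) ∧
    ∃ κ : ℝ, 0 ≤ κ ∧
      Tendsto (fun x : ℤ × ℤ => (∫ h, (h x : ℝ) ^ 2 ∂P) / Real.log (len x)) cofinite
        (𝓝 (κ / Real.pi)) ∧
      (∀ f : ℝ × ℝ → ℝ, TestOn Set.univ f → ∫ x, f x = 0 →
        ToG (𝓝[>] 0) (fun _ => P) (fun _ => hP) (fun δ h => smear h δ f) (κ * gffVar f)) ∧
      (0 < κ → JordanPart κ)

theorem shape_of (hJ : ∀ (Q : Measure A.Om) (κ' : ℝ), A.IsQ Q → Plane (Q.map A.rc) →
    SpecOut (Q.map A.rc) κ' → RowCLT (Q.map A.rc) κ' → 0 < κ' → ∀ D, F.Dom.JordanDomain D →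
      F.Dom.Conv (4 * κ' / √3) D) : JordanShape := by
  obtain ⟨Q, κ', hQ, hP, hS, hC, hκ, hpr, ⟨h1, h2, _, _, _, _, _, h4, h5⟩, h6, _⟩ :=
    F.exists_all
  have h30 : (0 : ℝ) < √3 := by positivity
  refine ⟨(Q.map A.rc).map dbl, hpr, h1, h2, 4 * κ' / √3, h4, h5, fun f hf h0 => ?_,
    fun hk => jordanPart_of (hJ Q κ' hQ hP hS hC ?_)⟩
  · obtain ⟨a1, a2⟩ := h6 1 (fun _ => f) fun _ => ⟨hf.1, hf.2.1, h0⟩
    exact toG_of_vec a1 a2
  · by_contra hn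
    have h0 : κ' = 0 := le_antisymm (not_lt.1 hn) hκ
    rw [h0] at hk
    simp at hk

end Vale.Agent.P153.JG
end

section

/-!
P153-F, X-level (mirror of `P145.X.XstA`): reduction of `S_xst` to test functions which vanish on the corridors.
-/

set_option autoImplicit false

namespace Vale.Agent.P153.F.X

open Filter Topology Set MeasureTheory
open Vale.Agent.P145.PT Vale.Agent.P153.F.Top

/-- `S_xst` for test functions vanishing on the corridors of a given width `e`. -/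
def S_xst0 (κ : ℝ) (δ : ℕ → ℝ) : Prop := ∀ D₁ D₂ : Set (ℝ × ℝ), IsOpen D₁ → IsOpen D₂ →
  Bornology.IsBounded D₂ → closure D₁ ⊆ D₂ → ∀ a b c : ℝ, a + b < c →
  ccell a b c ⊆ D₁ → ∀ e : ℝ, 0 < e → ∀ (ψ f0 g : ℝ × ℝ → ℝ) (k : ℕ),
  TestOn (cell a b c) ψ → TestOn (cell a b c) f0 → TestOn D₁ g → (∀ z, 0 ≤ f0 z) →
  (∀ z, 0 ≤ g z) → (∀ z, g z ≠ 0 → z ∈ Pin a b c e) → ∀ L : List (List (ℝ × ℝ → ℝ)),
  (∀ l ∈ L, ∀ g ∈ l, TestOn D₁ g ∧ ∀ z, 0 ≤ g z) → ∀ η : ℝ, 0 < η →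
    ∃ ν : ℕ → Measure Om, (∀ᶠ n in atTop, Mom (ν n)) ∧
    (∀ l ∈ L, ∀ᶠ n in atTop,
      EE (δ n) D₁ (hvl (δ n) l) ≤ (∫ ω, hvl (δ n) l ω ∂(ν n)) + η ∧
      ∫ ω, hvl (δ n) l ω ∂(ν n) ≤ EE (δ n) D₂ (hvl (δ n) l) + η) ∧
    ∀ᶠ n in atTop, |(∫ ω, hv (δ n) (lap ψ) ω * hv (δ n) (fun z => f0 z + g z) ω ^ (k + 1) ∂(ν n)) +
        κ * (k + 1) * (∫ z, ψ z * (f0 z + g z)) *
          ∫ ω, hv (δ n) (fun z => f0 z + g z) ω ^ k ∂(ν n)| ≤ η

/-- the lists of the expansion -/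
def lq (q r f f' : ℝ × ℝ → ℝ) (k i : ℕ) : List (ℝ × ℝ → ℝ) :=
  q :: r :: (List.replicate i f ++ List.replicate (k - i) f')
def lr (r f f' : ℝ × ℝ → ℝ) (k i : ℕ) : List (ℝ × ℝ → ℝ) :=
  r :: (List.replicate i f ++ List.replicate (k - 1 - i) f')

section

variable {B : Finset (ℤ × ℤ)} {δ : ℝ}

theorem hl_lq (q r f f' : ℝ × ℝ → ℝ) (k i : ℕ) (ω : Om) : hl B δ (lq q r f f' k i) ω =
    hB B δ q ω * (hB B δ r ω * (hB B δ f ω ^ i * hB B δ f' ω ^ (k - i))) := by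
  unfold lq hl
  simp

theorem hl_lr (r f f' : ℝ × ℝ → ℝ) (k i : ℕ) (ω : Om) : hl B δ (lr r f f' k i) ω =
    hB B δ r ω * (hB B δ f ω ^ i * hB B δ f' ω ^ (k - 1 - i)) := by
  unfold lr hl
  simp

theorem expand1 {μ : Measure Om} (hμ : Mom μ) {p m f f' : ℝ × ℝ → ℝ} (k : ℕ) :
    (∫ ω, hB B δ (fun z => p z - m z) ω * hB B δ f ω ^ (k + 1) ∂μ) -
      ∫ ω, hB B δ (fun z => p z - m z) ω * hB B δ f' ω ^ (k + 1) ∂μ =
    ∑ i ∈ Finset.range (k + 1), ((∫ ω, hl B δ (lq p (fun z => f z - f' z) f f' k i) ω ∂μ) -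
      ∫ ω, hl B δ (lq m (fun z => f z - f' z) f f' k i) ω ∂μ) := by
  have i1 : ∀ q : ℝ × ℝ → ℝ, Integrable (fun ω => hB B δ (fun z => p z - m z) ω *
      hB B δ q ω ^ (k + 1)) μ := fun q => hμ.integrable (alg_hB.mul (alg_hB.pow _))
  rw [← integral_sub (i1 f) (i1 f')]
  have i2 : ∀ q : ℝ × ℝ → ℝ, ∀ i, Integrable (hl B δ (lq q (fun z => f z - f' z) f f' k i)) μ :=
    fun q i => hμ.integrable (alg_hl _)
  simp_rw [← fun i => integral_sub (i2 p i) (i2 m i)]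
  have i3 : ∀ i, Integrable (fun ω => hl B δ (lq p (fun z => f z - f' z) f f' k i) ω -
    hl B δ (lq m (fun z => f z - f' z) f f' k i) ω) μ := fun i => (i2 p i).sub (i2 m i)
  rw [← integral_finsetSum _ fun i _ => i3 i]
  congr 1
  funext ω
  simp only [hl_lq]
  rw [hB_sub, hB_sub]
  set x := hB B δ f ω
  set y := hB B δ f' ω
  have h := geom_sum₂_mul x y (k + 1)
  rw [← mul_sub, ← h, Finset.sum_mul, Finset.mul_sum]
  refine Finset.sum_congr rfl fun i _ => ?_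
  rw [Nat.add_sub_cancel]
  ring

theorem expand2 {μ : Measure Om} (hμ : Mom μ) {f f' : ℝ × ℝ → ℝ} (k : ℕ) :
    (∫ ω, hB B δ f ω ^ k ∂μ) - ∫ ω, hB B δ f' ω ^ k ∂μ =
    ∑ i ∈ Finset.range k, ∫ ω, hl B δ (lr (fun z => f z - f' z) f f' k i) ω ∂μ := by
  have i1 : ∀ q : ℝ × ℝ → ℝ, Integrable (fun ω => hB B δ q ω ^ k) μ :=
    fun q => hμ.integrable (alg_hB.pow _)
  rw [← integral_sub (i1 f) (i1 f')]
  have i2 : ∀ i, Integrable (hl B δ (lr (fun z => f z - f' z) f f' k i)) μ :=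
    fun i => hμ.integrable (alg_hl _)
  rw [← integral_finsetSum _ fun i _ => i2 i]
  congr 1
  funext ω
  simp only [hl_lr]
  rw [hB_sub]
  set x := hB B δ f ω
  set y := hB B δ f' ω
  have h := geom_sum₂_mul x y k
  rw [← h, Finset.sum_mul]
  exact Finset.sum_congr rfl fun i _ => by ring

/-- A product containing the small function `r`. -/
theorem small_list {μ : Measure Om} (h : Pos μ) {r g0 : ℝ × ℝ → ℝ} (hr : ∀ z, 0 ≤ r z)
    (hg0 : ∀ z, 0 ≤ g0 z) {l : List (ℝ × ℝ → ℝ)} (hl' : ∀ f ∈ l, ∀ z, 0 ≤ f z ∧ f z ≤ g0 z)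
    {X M θ : ℝ} (hX : ∫ ω, hB B δ r ω ^ 2 ∂μ ≤ X)
    (hM : ∫ ω, hB B δ g0 ω ^ (2 * l.length) ∂μ ≤ M) (_hM0 : 0 ≤ M) (hθ : 0 ≤ θ)
    (hXM : X * M ≤ θ ^ 2) : ∫ ω, hB B δ r ω * hl B δ l ω ∂μ ≤ θ := by
  have h1 := cone_dom (B := B) (δ := δ) hg0 (zero_le_one (α := ℝ)) l
    (fun f hf z => ⟨(hl' f hf z).1, by rw [one_mul]; exact (hl' f hf z).2⟩)
  have h2 := h.mom.nonneg h.pos (Cone.hB (B := B) (δ := δ) h1 hr)
  have e : ∀ ω, hB B δ r ω * (1 ^ l.length * hB B δ g0 ω ^ l.length - hl B δ l ω) =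
      hB B δ r ω * hB B δ g0 ω ^ l.length - hB B δ r ω * hl B δ l ω := fun ω => by ring
  simp_rw [e] at h2
  rw [integral_sub (h.mom.integrable (alg_hB.mul (alg_hB.pow _)))
    (h.mom.integrable (alg_hB.mul (alg_hl _)))] at h2
  have h3 := h.mixed_sq_le (B := B) (δ := δ) r g0 l.length
  have h4 : (∫ ω, hB B δ r ω * hB B δ g0 ω ^ l.length ∂μ) ^ 2 ≤ θ ^ 2 := by
    refine h3.trans (le_trans ?_ hXM)
    refine mul_le_mul hX hM ?_ ?_
    · exact integral_nonneg fun ω => by rw [pow_mul]; positivity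
    · exact (integral_nonneg fun ω => sq_nonneg _).trans hX
  have h5 : ∫ ω, hB B δ r ω * hB B δ g0 ω ^ l.length ∂μ ≤ θ := by
    exact (abs_le_of_sq_le_sq' h4 hθ).2
  linarith

end

/-- arithmetic of the comparison -/
theorem final_arith {S S' E E' I I' κ M θ ε' η : ℝ} {k : ℕ} (h1 : |S - S'| ≤ 4 * (k + 1) * θ)
    (h2 : |E - E'| ≤ 2 * k * θ) (h3 : |E'| ≤ M) (h4 : |I - I'| ≤ ε')
    (h5 : |S' + κ * (k + 1) * I' * E'| ≤ η / 3)
    (h6 : θ * (4 * (k + 1) + 2 * |κ| * (k + 1) * k * |I|) ≤ η / 3)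
    (h7 : |κ| * (k + 1) * (ε' * M) ≤ η / 3) : |S + κ * (k + 1) * I * E| ≤ η := by
  have e : S + κ * (k + 1) * I * E = (S - S') + (S' + κ * (k + 1) * I' * E') +
      (κ * (k + 1) * (I * (E - E')) + κ * (k + 1) * ((I - I') * E')) := by ring
  have hk : (0 : ℝ) ≤ (k : ℝ) + 1 := by positivity
  have a1 : |κ * (k + 1) * (I * (E - E'))| ≤ |κ| * (k + 1) * (|I| * (2 * k * θ)) := by
    rw [abs_mul, abs_mul κ, abs_of_nonneg hk, abs_mul]
    refine mul_le_mul_of_nonneg_left ?_ (by positivity)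
    exact mul_le_mul_of_nonneg_left h2 (abs_nonneg _)
  have a2 : |κ * (k + 1) * ((I - I') * E')| ≤ |κ| * (k + 1) * (ε' * M) := by
    rw [abs_mul, abs_mul κ, abs_of_nonneg hk, abs_mul]
    refine mul_le_mul_of_nonneg_left ?_ (by positivity)
    exact mul_le_mul h4 h3 (abs_nonneg _) ((abs_nonneg _).trans h4)
  rw [e]
  have b1 := abs_add_le ((S - S') + (S' + κ * (k + 1) * I' * E'))
    (κ * (k + 1) * (I * (E - E')) + κ * (k + 1) * ((I - I') * E'))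
  have b2 := abs_add_le (S - S') (S' + κ * (k + 1) * I' * E')
  have b3 := abs_add_le (κ * (k + 1) * (I * (E - E'))) (κ * (k + 1) * ((I - I') * E'))
  have e2 : θ * (4 * (k + 1) + 2 * |κ| * (k + 1) * k * |I|) =
      4 * (k + 1) * θ + |κ| * (k + 1) * (|I| * (2 * k * θ)) := by ring
  rw [e2] at h6
  linarith

theorem sum_abs_le {ι : Type*} (s : Finset ι) (x : ι → ℝ) {t : ℝ} (h : ∀ i ∈ s, |x i| ≤ t) :
    |∑ i ∈ s, x i| ≤ s.card * t := by
  refine (Finset.abs_sum_le_sum_abs _ _).trans ?_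
  have := Finset.sum_le_card_nsmul s (fun i => |x i|) t h
  rwa [nsmul_eq_mul] at this

/-- **`S_xst` from its version with corridors** -/
theorem xst_of_xst0 {κ : ℝ} {δ : ℕ → ℝ} (hδ : ∀ n, 0 < δ n) (hm : S_mono)
    (hmb : S_mb δ) (hl2 : S_l2 δ) (h0 : S_xst0 κ δ) : S_xst κ δ := by
  classical
  intro D₁ D₂ hD1 hD2 hb hcl a b c hab hcc ψ f k hψ hf hf0 L hL η hη
  -- radius
  obtain ⟨R0, hR0⟩ := hb.subset_ball (0 : ℝ × ℝ)
  obtain ⟨R, hR, hD2R⟩ : ∃ R : ℝ, 0 < R ∧ D₂ ⊆ Metric.ball (0 : ℝ × ℝ) R :=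
    ⟨max R0 1, lt_max_of_lt_right one_pos, hR0.trans (Metric.ball_subset_ball (le_max_left _ _))⟩
  have hD12 : D₁ ⊆ D₂ := subset_closure.trans hcl
  have hD1R : D₁ ⊆ Metric.ball (0 : ℝ × ℝ) R := hD12.trans hD2R
  have hb1 : Bornology.IsBounded D₁ := hb.subset hD12
  have hcell : cell a b c ⊆ D₁ := fun z hz => hcc ⟨hz.1.le, hz.2.1.le, hz.2.2.le⟩
  have hψ1 : TestOn D₁ ψ := hψ.mono hcell
  obtain ⟨p, m, hp, hmt, hp0, hm0, hpm⟩ := exists_decomp hD1 hb1 hψ1.lap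
  have hpm' : lap ψ = fun z => p z - m z := funext hpm
  set g0 : ℝ × ℝ → ℝ := fun z => p z + m z + f z with hg0
  have hg0t : TestOn D₁ g0 := (hp.add hmt).add hf
  have hg00 : ∀ z, 0 ≤ g0 z := fun z => add_nonneg (add_nonneg (hp0 z) (hm0 z)) (hf0 z)
  -- measures
  choose B hB' using fun n => hv_eq_hB (R := R) (hδ n)
  choose μ hμ hμE using fun n => exists_meas (Vs (δ n) D₂)
  choose μ' hμ' hμE' using fun n => exists_meas (Vs (δ n) D₁)
  have hPos : ∀ n, Pos (μ n) := fun n => ⟨hμ n, fun v => by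
    rw [hμE n]; exact (hm _ _ (Finset.Subset.refl (Vs (δ n) D₂)) v).1⟩
  have hPos' : ∀ n, Pos (μ' n) := fun n => ⟨hμ' n, fun v => by
    rw [hμE' n]; exact (hm _ _ (Finset.Subset.refl (Vs (δ n) D₁)) v).1⟩
  have hvB : ∀ n q, TestOn D₁ q → ∀ ω, hv (δ n) q ω = hB (B n) (δ n) q ω := fun n q hq ω =>
    hB' n q (fun z hz => hD1R (hq.2.2 (subset_tsupport _ hz))) ω
  have hvlB : ∀ n (l : List (ℝ × ℝ → ℝ)), (∀ q ∈ l, TestOn D₁ q) → ∀ ω,
      hvl (δ n) l ω = hl (B n) (δ n) l ω := by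
    intro n l hl' ω
    unfold hvl hl
    congr 1
    exact List.map_congr_left fun q hq => hvB n q (hl' q hq) ω
  -- moments of `g0`
  have hmom : ∀ j : ℕ, ∃ C : ℝ, ∀ᶠ n in atTop, ∫ ω, hB (B n) (δ n) g0 ω ^ j ∂(μ n) ≤ C := by
    intro j
    obtain ⟨C, hC⟩ := hmb D₂ hD2 hb g0 (hg0t.mono (subset_univ _)) hg00 j
    refine ⟨C, ?_⟩
    filter_upwards [hC] with n hn
    have e1 := hμE n (fun ω => hv (δ n) g0 ω ^ j)
    have e2 : EE (δ n) D₂ (fun ω => hv (δ n) g0 ω ^ j) = ∫ ω, hv (δ n) g0 ω ^ j ∂(μ n) := e1.symm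
    rw [e2] at hn
    refine le_trans (le_of_eq ?_) hn
    congr 1
    funext ω
    rw [hvB n g0 hg0t]
  choose C hC using hmom
  set M : ℝ := 1 + ∑ j ∈ Finset.range (2 * k + 5), |C j| with hMd
  have hM1 : 1 ≤ M := by
    have : 0 ≤ ∑ j ∈ Finset.range (2 * k + 5), |C j| := Finset.sum_nonneg fun _ _ => abs_nonneg _
    linarith
  have hM : ∀ᶠ n in atTop, ∀ j ∈ Finset.range (2 * k + 5),
      ∫ ω, hB (B n) (δ n) g0 ω ^ j ∂(μ n) ≤ M := by
    rw [Filter.eventually_all_finset]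
    intro j hj
    filter_upwards [hC j] with n hn
    have h1 : |C j| ≤ ∑ j ∈ Finset.range (2 * k + 5), |C j| :=
      Finset.single_le_sum (f := fun j => |C j|) (fun _ _ => abs_nonneg _) hj
    have h2 := le_abs_self (C j)
    linarith
  -- constants
  obtain ⟨C2, hC20, hC2⟩ := hl2 R hR
  obtain ⟨Bψ, hBψ⟩ := hψ.cs.exists_bound_of_continuous hψ.cont
  have hBψ0 : 0 ≤ Bψ := (norm_nonneg _).trans (hBψ 0)
  set I : ℝ := ∫ z, ψ z * f z with hI
  set A : ℝ := 4 * (k + 1) + 2 * |κ| * (k + 1) * k * |I| with hA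
  have hA0 : 0 ≤ A := by positivity
  set θ : ℝ := min 1 (η / (3 * (A + 1))) with hθ
  have hθ0 : 0 < θ := lt_min one_pos (by positivity)
  have hθ1 : θ ≤ 1 := min_le_left _ _
  have hθA : θ * A ≤ η / 3 := by
    have h1 : θ ≤ η / (3 * (A + 1)) := min_le_right _ _
    have h2 : θ * A ≤ η / (3 * (A + 1)) * (A + 1) :=
      mul_le_mul h1 (by linarith) hA0 (by positivity)
    have h3 : η / (3 * (A + 1)) * (A + 1) = η / 3 := by field_simp
    linarith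
  obtain ⟨ρ, hρ0, hρ1, hρ2⟩ : ∃ ρ : ℝ, 0 < ρ ∧ (C2 * ρ + θ ^ 2 / (2 * M)) * M ≤ θ ^ 2 ∧
      |κ| * (k + 1) * ((Bψ * ρ) * (M + 1)) ≤ η / 3 := by
    refine ⟨min (θ ^ 2 / (2 * M * (C2 + 1))) (η / (3 * (|κ| * (k + 1) * (Bψ * (M + 1)) + 1))),
      lt_min (by positivity) (by positivity), ?_, ?_⟩
    · have h1 := min_le_left (θ ^ 2 / (2 * M * (C2 + 1)))
        (η / (3 * (|κ| * (k + 1) * (Bψ * (M + 1)) + 1)))
      have h2 : C2 * min (θ ^ 2 / (2 * M * (C2 + 1)))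
          (η / (3 * (|κ| * (k + 1) * (Bψ * (M + 1)) + 1))) ≤
          (C2 + 1) * (θ ^ 2 / (2 * M * (C2 + 1))) :=
        mul_le_mul (by linarith) h1 (le_of_lt (lt_min (by positivity) (by positivity)))
          (by linarith)
      have h3 : (C2 + 1) * (θ ^ 2 / (2 * M * (C2 + 1))) = θ ^ 2 / (2 * M) := by field_simp
      have h4 : (θ ^ 2 / (2 * M) + θ ^ 2 / (2 * M)) * M = θ ^ 2 := by field_simp; ring
      refine le_trans ?_ h4.le
      refine mul_le_mul_of_nonneg_right ?_ (by linarith)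
      linarith
    · set Q : ℝ := |κ| * (k + 1) * (Bψ * (M + 1)) with hQ
      have hQ0 : 0 ≤ Q := by positivity
      have h1 := min_le_right (θ ^ 2 / (2 * M * (C2 + 1))) (η / (3 * (Q + 1)))
      set ρ' : ℝ := min (θ ^ 2 / (2 * M * (C2 + 1))) (η / (3 * (Q + 1))) with hρ'
      have hρ'0 : 0 ≤ ρ' := le_of_lt (lt_min (by positivity) (by positivity))
      have h2 : |κ| * (k + 1) * ((Bψ * ρ') * (M + 1)) = Q * ρ' := by rw [hQ]; ring
      rw [h2]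
      have h3 : Q * ρ' ≤ (Q + 1) * (η / (3 * (Q + 1))) :=
        mul_le_mul (by linarith) h1 hρ'0 (by linarith)
      have h4 : (Q + 1) * (η / (3 * (Q + 1))) = η / 3 := by field_simp
      linarith
  -- partition
  obtain ⟨e, he, f0, g, hf0c, hf0t, hgt, hf00, hg0', hgPin, hle, hr2, hr1⟩ :=
    exists_pin hf hf0 a b c hρ0
  set f' : ℝ × ℝ → ℝ := fun z => f0 z + g z with hf'
  have hf't : TestOn D₁ f' := hf0t.add hgt
  have hf'0 : ∀ z, 0 ≤ f' z := fun z => add_nonneg (hf00 z) (hg0' z)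
  set r : ℝ × ℝ → ℝ := fun z => f z - f' z with hr
  have hrt : TestOn D₁ r := hf.sub hf't
  have hr0 : ∀ z, 0 ≤ r z := fun z => sub_nonneg.2 (hle z)
  -- the lists
  set LL : List (List (ℝ × ℝ → ℝ)) := L ++ ((List.range (k + 1)).map (lq p r f f' k) ++
    ((List.range (k + 1)).map (lq m r f f' k) ++ ((List.range k).map (lr r f f' k) ++
      [List.replicate k f']))) with hLL
  have good : ∀ q ∈ [p, m, r, f, f'], TestOn D₁ q ∧ ∀ z, 0 ≤ q z := by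
    intro q hq
    simp only [List.mem_cons, List.not_mem_nil, or_false] at hq
    rcases hq with rfl | rfl | rfl | rfl | rfl
    exacts [⟨hp, hp0⟩, ⟨hmt, hm0⟩, ⟨hrt, hr0⟩, ⟨hf, hf0⟩, ⟨hf't, hf'0⟩]
  have memlq : ∀ q ∈ [p, m], ∀ i, ∀ t ∈ lq q r f f' k i, t ∈ [p, m, r, f, f'] := by
    intro q hq i t ht
    simp only [lq, List.mem_cons, List.mem_append, List.mem_replicate] at ht
    simp only [List.mem_cons, List.not_mem_nil, or_false] at hq ⊢
    rcases ht with rfl | rfl | ⟨-, rfl⟩ | ⟨-, rfl⟩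
    · rcases hq with rfl | rfl <;> simp
    · simp
    · simp
    · simp
  have memlr : ∀ i, ∀ t ∈ lr r f f' k i, t ∈ [p, m, r, f, f'] := by
    intro i t ht
    simp only [lr, List.mem_cons, List.mem_append, List.mem_replicate] at ht
    simp only [List.mem_cons, List.not_mem_nil, or_false]
    rcases ht with rfl | ⟨-, rfl⟩ | ⟨-, rfl⟩ <;> simp
  have hLLg : ∀ l ∈ LL, ∀ q ∈ l, TestOn D₁ q ∧ ∀ z, 0 ≤ q z := by
    intro l hl' q hq
    simp only [hLL, List.mem_append, List.mem_map, List.mem_range, List.mem_cons,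
      List.not_mem_nil, or_false] at hl'
    rcases hl' with h1 | ⟨i, -, rfl⟩ | ⟨i, -, rfl⟩ | ⟨i, -, rfl⟩ | rfl
    · exact hL l h1 q hq
    · exact good q (memlq p (by simp) i q hq)
    · exact good q (memlq m (by simp) i q hq)
    · exact good q (memlr i q hq)
    · rw [List.mem_replicate] at hq
      rw [hq.2]
      exact ⟨hf't, hf'0⟩
  have hθη : θ ≤ η := by
    have h1 : θ ≤ η / (3 * (A + 1)) := min_le_right _ _
    have h2 : η / (3 * (A + 1)) ≤ η := div_le_self hη.le (by linarith)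
    linarith
  obtain ⟨ν, hνm, hνs, hνsd⟩ := h0 D₁ D₂ hD1 hD2 hb hcl a b c hab hcc e he ψ f0 g k hψ
    hf0c hgt hf00 hg0' hgPin LL hLLg (min θ (η / 3)) (lt_min hθ0 (by positivity))
  have hmin1 : min θ (η / 3) ≤ θ := min_le_left _ _
  have hmin2 : min θ (η / 3) ≤ η / 3 := min_le_right _ _
  refine ⟨ν, hνm, ?_, ?_⟩
  · intro l hl'
    filter_upwards [hνs l (by rw [hLL]; exact List.mem_append_left _ hl')] with n hn
    exact ⟨by linarith [hn.1], by linarith [hn.2]⟩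
  -- the sandwich for all lists of `LL`
  have hνall : ∀ᶠ n in atTop, ∀ l ∈ LL, EE (δ n) D₁ (hvl (δ n) l) ≤
      (∫ ω, hvl (δ n) l ω ∂(ν n)) + θ ∧
      ∫ ω, hvl (δ n) l ω ∂(ν n) ≤ EE (δ n) D₂ (hvl (δ n) l) + θ := by
    have h1 : ∀ l ∈ LL.toFinset, ∀ᶠ n in atTop, EE (δ n) D₁ (hvl (δ n) l) ≤
        (∫ ω, hvl (δ n) l ω ∂(ν n)) + θ ∧
        ∫ ω, hvl (δ n) l ω ∂(ν n) ≤ EE (δ n) D₂ (hvl (δ n) l) + θ := by
      intro l hl'
      filter_upwards [hνs l (List.mem_toFinset.1 hl')] with n hn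
      exact ⟨by linarith [hn.1], by linarith [hn.2]⟩
    have h2 := (Filter.eventually_all_finset LL.toFinset).2 h1
    filter_upwards [h2] with n hn l hl'
    exact hn l (List.mem_toFinset.2 hl')
  filter_upwards [hνm, hνall, hνsd, hM, hC2 D₂ hD2 hD2R r (hrt.mono hD1R) hr0
    (θ ^ 2 / (2 * M)) (by positivity)] with n n1 n2 n3 n4 n5
  -- second moment of `r`
  have hX : ∫ ω, hB (B n) (δ n) r ω ^ 2 ∂(μ n) ≤ C2 * ρ + θ ^ 2 / (2 * M) := by
    have e1 := hμE n (fun ω => hv (δ n) r ω ^ 2)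
    have e2 : EE (δ n) D₂ (fun ω => hv (δ n) r ω ^ 2) = ∫ ω, hv (δ n) r ω ^ 2 ∂(μ n) := e1.symm
    rw [e2] at n5
    have e3 : ∫ ω, hv (δ n) r ω ^ 2 ∂(μ n) = ∫ ω, hB (B n) (δ n) r ω ^ 2 ∂(μ n) := by
      congr 1; funext ω; rw [hvB n r hrt]
    rw [e3] at n5
    have h1 : C2 * (∫ z, r z ^ 2) ≤ C2 * ρ := mul_le_mul_of_nonneg_left hr2 hC20
    linarith
  -- the lists with a factor `r` are small
  have small : ∀ l : List (ℝ × ℝ → ℝ), (∀ q ∈ l, q ∈ [p, m, r, f, f'] ∧ ∀ z, q z ≤ g0 z) →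
      l.length ≤ k + 1 → ∫ ω, hB (B n) (δ n) r ω * hl (B n) (δ n) l ω ∂(μ n) ≤ θ := by
    intro l hl' hlen
    refine small_list (hPos n) hr0 hg00 (fun q hq z => ⟨(good q (hl' q hq).1).2 z, (hl' q hq).2 z⟩)
      hX (n4 _ (Finset.mem_range.2 (by omega))) (by linarith) hθ0.le hρ1
  have le1 : ∀ z, p z ≤ g0 z := fun z => by simp only [hg0]; linarith [hm0 z, hf0 z]
  have le2 : ∀ z, m z ≤ g0 z := fun z => by simp only [hg0]; linarith [hp0 z, hf0 z]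
  have le3 : ∀ z, f z ≤ g0 z := fun z => by simp only [hg0]; linarith [hp0 z, hm0 z]
  have le4 : ∀ z, f' z ≤ g0 z := fun z => (hle z).trans (le3 z)
  have hEE2 : ∀ l ∈ LL, EE (δ n) D₂ (hvl (δ n) l) = ∫ ω, hl (B n) (δ n) l ω ∂(μ n) := by
    intro l hl'
    have e1 := hμE n (hvl (δ n) l)
    have e2 : EE (δ n) D₂ (hvl (δ n) l) = ∫ ω, hvl (δ n) l ω ∂(μ n) := e1.symm
    rw [e2]
    congr 1
    funext ω
    exact hvlB n l (fun q hq => (hLLg l hl' q hq).1) ω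
  have hEE1 : ∀ l ∈ LL, 0 ≤ EE (δ n) D₁ (hvl (δ n) l) := by
    intro l hl'
    have e1 := hμE' n (hvl (δ n) l)
    have e2 : EE (δ n) D₁ (hvl (δ n) l) = ∫ ω, hvl (δ n) l ω ∂(μ' n) := e1.symm
    have e3 : ∫ ω, hvl (δ n) l ω ∂(μ' n) = ∫ ω, hl (B n) (δ n) l ω ∂(μ' n) := by
      congr 1
      funext ω
      exact hvlB n l (fun q hq => (hLLg l hl' q hq).1) ω
    rw [e2, e3]
    exact (hPos' n).hl_nonneg fun q hq => (hLLg l hl' q hq).2
  have hνl : ∀ l ∈ LL, ∀ x : ℝ, ∫ ω, hl (B n) (δ n) l ω ∂(μ n) ≤ x → 0 ≤ x →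
      |∫ ω, hl (B n) (δ n) l ω ∂(ν n)| ≤ x + θ := by
    intro l hl' x hx hx0
    obtain ⟨q1, q2⟩ := n2 l hl'
    have e3 : ∫ ω, hvl (δ n) l ω ∂(ν n) = ∫ ω, hl (B n) (δ n) l ω ∂(ν n) := by
      congr 1
      funext ω
      exact hvlB n l (fun q hq => (hLLg l hl' q hq).1) ω
    rw [e3] at q1 q2
    rw [hEE2 l hl'] at q2
    have q3 := hEE1 l hl'
    rw [abs_le]
    constructor <;> linarith
  have tail_small : ∀ i, i ≤ k → ∀ q ∈ [p, m], (∀ z, q z ≤ g0 z) →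
      ∫ ω, hl (B n) (δ n) (lq q r f f' k i) ω ∂(μ n) ≤ θ := by
    intro i hi q hq hqg
    have h1 := small (q :: (List.replicate i f ++ List.replicate (k - i) f')) ?_ ?_
    · refine le_trans (le_of_eq ?_) h1
      congr 1
      funext ω
      rw [hl_lq]
      simp [hl]
      ring
    · intro t ht
      simp only [List.mem_cons, List.mem_append, List.mem_replicate] at ht
      rcases ht with rfl | ⟨-, rfl⟩ | ⟨-, rfl⟩
      · refine ⟨?_, hqg⟩
        simp only [List.mem_cons, List.not_mem_nil, or_false] at hq ⊢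
        rcases hq with h | h
        · left; exact h
        · right; left; exact h
      · exact ⟨by simp, le3⟩
      · exact ⟨by simp, le4⟩
    · simp only [List.length_cons, List.length_append, List.length_replicate]
      omega
  have tail_small' : ∀ i, i < k → ∫ ω, hl (B n) (δ n) (lr r f f' k i) ω ∂(μ n) ≤ θ := by
    intro i hi
    have h1 := small (List.replicate i f ++ List.replicate (k - 1 - i) f') ?_ ?_
    · refine le_trans (le_of_eq ?_) h1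
      congr 1
    · intro t ht
      simp only [List.mem_append, List.mem_replicate] at ht
      rcases ht with ⟨-, rfl⟩ | ⟨-, rfl⟩
      · exact ⟨by simp, le3⟩
      · exact ⟨by simp, le4⟩
    · simp only [List.length_append, List.length_replicate]
      omega
  -- members of `LL`
  have mem1 : ∀ i, i < k + 1 → lq p r f f' k i ∈ LL := fun i hi => by
    rw [hLL]
    refine List.mem_append_right _ (List.mem_append_left _ ?_)
    exact List.mem_map.2 ⟨i, List.mem_range.2 hi, rfl⟩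
  have mem2 : ∀ i, i < k + 1 → lq m r f f' k i ∈ LL := fun i hi => by
    rw [hLL]
    refine List.mem_append_right _ (List.mem_append_right _ (List.mem_append_left _ ?_))
    exact List.mem_map.2 ⟨i, List.mem_range.2 hi, rfl⟩
  have mem3 : ∀ i, i < k → lr r f f' k i ∈ LL := fun i hi => by
    rw [hLL]
    refine List.mem_append_right _ (List.mem_append_right _ (List.mem_append_right _
      (List.mem_append_left _ ?_)))
    exact List.mem_map.2 ⟨i, List.mem_range.2 hi, rfl⟩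
  have mem4 : List.replicate k f' ∈ LL := by
    rw [hLL]
    refine List.mem_append_right _ (List.mem_append_right _ (List.mem_append_right _
      (List.mem_append_right _ ?_)))
    simp
  -- conversions
  have cU : ∀ (t : ℝ × ℝ → ℝ), TestOn D₁ t → ∀ j : ℕ,
      ∫ ω, hv (δ n) (lap ψ) ω * hv (δ n) t ω ^ j ∂(ν n) =
      ∫ ω, hB (B n) (δ n) (fun z => p z - m z) ω * hB (B n) (δ n) t ω ^ j ∂(ν n) := by
    intro t ht j
    congr 1
    funext ω
    rw [hvB n _ hψ1.lap, hvB n t ht, hpm']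
  have cV : ∀ (t : ℝ × ℝ → ℝ), TestOn D₁ t → ∀ j : ℕ,
      ∫ ω, hv (δ n) t ω ^ j ∂(ν n) = ∫ ω, hB (B n) (δ n) t ω ^ j ∂(ν n) := by
    intro t ht j
    congr 1
    funext ω
    rw [hvB n t ht]
  rw [cU f' hf't, cV f' hf't] at n3
  rw [cU f hf, cV f hf]
  refine final_arith (M := M + 1) (θ := θ) (ε' := Bψ * ρ) ?_ ?_ ?_ ?_ (n3.trans hmin2) hθA hρ2
  · rw [expand1 n1]
    refine (sum_abs_le _ _ (t := 4 * θ) fun i hi => ?_).trans ?_
    · have hi' := Finset.mem_range.1 hi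
      have q1 := hνl _ (mem1 i hi') θ (tail_small i (by omega) p (by simp) le1) hθ0.le
      have q2 := hνl _ (mem2 i hi') θ (tail_small i (by omega) m (by simp) le2) hθ0.le
      refine (abs_sub _ _).trans ?_
      linarith
    · rw [Finset.card_range]
      push_cast
      linarith
  · rw [expand2 n1]
    refine (sum_abs_le _ _ (t := 2 * θ) fun i hi => ?_).trans ?_
    · have hi' := Finset.mem_range.1 hi
      have q1 := hνl _ (mem3 i hi') θ (tail_small' i hi') hθ0.le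
      linarith
    · rw [Finset.card_range]
      linarith
  · have q1 := hνl _ mem4 M ?_ (by linarith)
    · have e1 : ∫ ω, hl (B n) (δ n) (List.replicate k f') ω ∂(ν n) =
          ∫ ω, hB (B n) (δ n) f' ω ^ k ∂(ν n) := by
        congr 1; funext ω; exact hl_replicate f' k ω
      rw [e1] at q1
      linarith
    · have h1 := (hPos n).hl_le (B := B n) (δ := δ n) hg00 (zero_le_one (α := ℝ))
        (List.replicate k f') (fun q hq z => by
          rw [List.mem_replicate] at hq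
          rw [hq.2, one_mul]
          exact ⟨hf'0 z, le4 z⟩)
      rw [List.length_replicate, one_pow, one_mul] at h1
      exact h1.trans (n4 k (Finset.mem_range.2 (by omega)))
  · have e1 : I - ∫ z, ψ z * (f0 z + g z) = ∫ z, ψ z * r z := by
      rw [hI, ← integral_sub]
      · congr 1
        funext z
        simp only [hr, hf']
        ring
      · exact (hψ.cont.mul hf.cont).integrable_of_hasCompactSupport hψ.cs.mul_right
      · exact (hψ.cont.mul hf't.cont).integrable_of_hasCompactSupport hψ.cs.mul_right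
    rw [e1]
    have h2 : ‖∫ z, ψ z * r z‖ ≤ ∫ z, Bψ * r z := by
      refine norm_integral_le_of_norm_le (hrt.int.const_mul _) (Eventually.of_forall fun z => ?_)
      rw [norm_mul, Real.norm_eq_abs (r z), abs_of_nonneg (hr0 z)]
      exact mul_le_mul_of_nonneg_right (hBψ z) (hr0 z)
    rw [integral_const_mul, Real.norm_eq_abs] at h2
    exact h2.trans (mul_le_mul_of_nonneg_left hr1 hBψ0)

end Vale.Agent.P153.F.X
end

section

/-!
P153-F, X-level (mirror of `P145.X.Frame`): `S_xst0` from the percolation statements of `X/Stmt.lean`; the choice of the scales.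
-/

set_option autoImplicit false

namespace Vale.Agent.P153.F.X

open Filter Topology Set MeasureTheory
open Vale.Agent.P153
open Vale.Agent.P145.PT Vale.Agent.P153.F.Top

/-- The integrals of the conditioned measure. -/
def NuInt (P : Measure (Pt → ℤ)) (ν : (Set Pt → Prop) → Measure Om) : Prop :=
  ∀ Q : Set Pt → Prop, LocS univ (ind Q) → ind Q ∅ = 0 → 0 < II P (ind Q) (fun _ => 1) →
    ∀ A : Om → ℝ, Alg A → ∫ ω, A ω ∂(ν Q) = II P (ind Q) A / II P (ind Q) (fun _ => 1)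

/-- The sandwich half (helper956). -/
def SandH (P : Measure (Pt → ℤ)) (δ : ℕ → ℝ)
    (ν : (Set Pt → Prop) → Measure Om) : Prop :=
  ∀ D₁ D₂ : Set (ℝ × ℝ), IsOpen D₁ → IsOpen D₂ → Bornology.IsBounded D₂ → closure D₁ ⊆ D₂ →
  ∀ R : ℝ, 1 ≤ R → D₁ ⊆ Metric.ball 0 R → ∀ L : List (List (ℝ × ℝ → ℝ)),
  (∀ l ∈ L, ∀ g ∈ l, TestOn D₁ g ∧ ∀ z, 0 ≤ g z) → ∃ C : ℝ, 0 ≤ C ∧ ∀ η : ℝ, 0 ≤ η →
  ∀ᶠ n in atTop, ∀ (Q : Set Pt → Prop) (p : ℤ × ℤ) (s : ℤ),
    Fn (tE (Vs (δ n) D₁ : Set (ℤ × ℤ)))ᶜ (ind Q) → Monotone (ind Q) → (∀ B, Q B → Zr p (4 * s) B) →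
    |δ n * (p.1 : ℝ)| ≤ R → |δ n * (p.2 : ℝ)| ≤ R → R⁻¹ ≤ δ n * (s : ℝ) → δ n * (s : ℝ) ≤ R →
    (∀ v : ℤ × ℤ, dp (δ n) v ∈ D₁ → v ∈ (bx p (8 * s))ᶜ) →
    0 < II P (ind Q) (fun _ => 1) →
    II P (ind fun B => Q B ∧ ¬ Conf (B \ tE (Vs (δ n) D₁ : Set (ℤ × ℤ)))
      (Vs (δ n) D₂ : Set (ℤ × ℤ))ᶜ (Vs (δ n) D₁ : Set (ℤ × ℤ))ᶜ) (fun _ => 1) ≤
        η ^ 2 * II P (ind Q) (fun _ => 1) →
    Mom (ν Q) ∧ ∀ l ∈ L, EE (δ n) D₁ (hvl (δ n) l) ≤ ∫ ω, hvl (δ n) l ω ∂(ν Q) ∧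
      ∫ ω, hvl (δ n) l ω ∂(ν Q) ≤ EE (δ n) D₂ (hvl (δ n) l) + η * C

namespace Fr

/-! ### Elementary facts -/

section elem
variable {P : Measure (Pt → ℤ)} {Q Q' : Set Pt → Prop}

theorem fin_of (hint : S_int P) (hQ : LocP univ Q) (h0 : ¬ Q ∅) :
    muT P {x | Q (bl x)} ≠ ⊤ := by
  have h1 := hint (ind Q) (fun _ => 1) (locP_iff.1 hQ) (ind_not h0) Pol.one
  have e : (fun x : Hg => ind Q (bl x) * 1) =
      indicator {x | Q (bl x)} (fun _ => (1 : ℝ)) := by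
    funext x
    by_cases hx : Q (bl x)
    · rw [ind_of hx, indicator_of_mem (show x ∈ {x | Q (bl x)} from hx), mul_one]
    · rw [ind_not hx, indicator_of_notMem (show x ∉ {x | Q (bl x)} from hx), zero_mul]
  rw [e, integrable_indicator_iff hQ.meas] at h1
  rw [integrableOn_const_iff] at h1
  rcases h1 with h1 | h1
  · simp at h1
  · exact h1.ne

theorem ind_mono_of (h : ∀ B, Q B → Q' B) (B : Set Pt) : ind Q B ≤ ind Q' B := by
  by_cases hQ : Q B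
  · rw [ind_of hQ, ind_of (h B hQ)]
  · rw [ind_not hQ]; exact ind_nonneg _ _

theorem II_mono_ind (hint : S_int P) (hQ' : LocP univ Q') (h0' : ¬ Q' ∅)
    (h : ∀ B, Q B → Q' B) : II P (ind Q) (fun _ => 1) ≤ II P (ind Q') (fun _ => 1) := by
  unfold II
  refine integral_mono_of_nonneg (ae_of_all _ fun x => ?_)
    (hint (ind Q') (fun _ => 1) (locP_iff.1 hQ') (ind_not h0') Pol.one) (ae_of_all _ fun x => ?_)
  · simpa using ind_nonneg Q (bl x)
  · simpa using ind_mono_of h (bl x)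

theorem II_even_nonneg (Q : Set Pt → Prop) (f : ℝ × ℝ → ℝ) (d : ℝ) (k : ℕ) :
    0 ≤ II P (ind Q) (fun ω => hv d f ω ^ (2 * k)) :=
  integral_nonneg fun x => mul_nonneg (ind_nonneg _ _) (by
    show 0 ≤ hv d f (vm x) ^ (2 * k)
    rw [pow_mul]; exact pow_nonneg (sq_nonneg _) _)

end elem

/-- Functionals of the heights at the vertices in the support. -/
theorem on_hv {δ : ℝ} {f : ℝ × ℝ → ℝ} {D : Set (ℝ × ℝ)} (hf : TestOn D f) {V : Set (ℤ × ℤ)}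
    (hV : ∀ v : ℤ × ℤ, dp δ v ∈ D → v ∈ V) (k : ℕ) :
    On V (fun ω => hv δ f ω ^ k) := by
  intro ω ω' h
  have e : hv δ f ω = hv δ f ω' := by
    unfold hv
    congr 1
    refine finsum_congr fun v => ?_
    rw [tl_eq]
    by_cases h0 : f (dp δ v) = 0
    · rw [h0, mul_zero, mul_zero, mul_zero]
    · rw [h v (hV v (hf.2.2 (subset_tsupport _ h0)))]
  simp only [e]

/-- The moments of a family which contains a macroscopic circuit. -/
theorem mom_fam {P : Measure (Pt → ℤ)} {δ : ℕ → ℝ} (hδ : ∀ n, 0 < δ n)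
    (hlim : Tendsto δ atTop (𝓝 0)) (hrsw : S_rsw P) (hemom : S_emom P) (hmm : S_mm P δ)
    {D₁ : Set (ℝ × ℝ)} {R : ℝ} (hR : 1 ≤ R) (hDR : D₁ ⊆ Metric.ball 0 R) {f : ℝ × ℝ → ℝ}
    (hf : TestOn D₁ f) (hf0 : ∀ z, 0 ≤ f z) (k : ℕ) :
    ∃ C : ℝ, ∀ᶠ n in atTop, ∀ (Q : Set Pt → Prop) (p : ℤ × ℤ) (s : ℤ),
      Fn univ (ind Q) → Monotone (ind Q) → (∀ B, Q B → Zr p (4 * s) B) →
      |δ n * (p.1 : ℝ)| ≤ R → |δ n * (p.2 : ℝ)| ≤ R → R⁻¹ ≤ δ n * (s : ℝ) → δ n * (s : ℝ) ≤ R →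
      (∀ v : ℤ × ℤ, dp (δ n) v ∈ D₁ → v ∈ (bx p (8 * s))ᶜ) →
      II P (ind Q) (fun ω => hv (δ n) f ω ^ (2 * k)) ≤ C * II P (ind Q) (fun _ => 1) := by
  obtain ⟨c₁, hc₁, r₀, hr₀, hr⟩ := hrsw
  obtain ⟨C, hC0, hC⟩ := hmm R hR k
  refine ⟨C * ((∫ z, f z ^ 2) + 1) ^ k / c₁, ?_⟩
  have hsmall : ∀ᶠ n in atTop, δ n * (r₀ : ℝ) < R⁻¹ := by
    have h1 : Tendsto (fun n => δ n * (r₀ : ℝ)) atTop (𝓝 (0 * (r₀ : ℝ))) := hlim.mul_const _
    rw [zero_mul] at h1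
    exact h1.eventually (gt_mem_nhds (by positivity))
  filter_upwards [hC f (hf.mono hDR) 1 one_pos, hsmall] with n hn hn2 Q p s hQ hQm hQZ p1 p2 s1 s2 hv0
  have hs : r₀ ≤ s := by
    by_contra hlt
    push Not at hlt
    have h1 : (s : ℝ) ≤ r₀ := by exact_mod_cast hlt.le
    have h2 := mul_le_mul_of_nonneg_left h1 (hδ n).le
    linarith
  have h1 := hn p s p1 p2 s1 s2
  obtain ⟨B, hBB⟩ := hv_eq_hB (R := R) (hδ n)
  have hfB : ∀ ω, hv (δ n) f ω = hB B (δ n) f ω := fun ω =>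
    hBB f (fun z hz => hDR (hf.2.2 (subset_tsupport _ hz))) ω
  have h2 := hemom p s (ind Q) (fun ω => hv (δ n) f ω ^ (2 * k)) (by omega) hQ hQm
    (fun B hB' => hQZ B (ind_ne hB')) (by
      have e : (fun ω => hv (δ n) f ω ^ (2 * k)) = fun ω => hB B (δ n) f ω ^ (2 * k) := by
        funext ω; rw [hfB]
      rw [e]
      exact cone_pow hf0 _) (on_hv hf hv0 _)
  have h3 := (hr s hs p).1
  have h4 : 0 ≤ II P (ind Q) (fun ω => hv (δ n) f ω ^ (2 * k)) := II_even_nonneg _ _ _ _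
  have h5 : 0 ≤ II P (ind Q) (fun _ => 1) := by
    have := II_even_nonneg (P := P) Q f (δ n) 0
    simpa using this
  rw [div_mul_eq_mul_div, le_div_iff₀ hc₁]
  calc II P (ind Q) (fun ω => hv (δ n) f ω ^ (2 * k)) * c₁
      ≤ II P (ind Q) (fun ω => hv (δ n) f ω ^ (2 * k)) *
          II P (ind (Zr p s)) (fun _ => 1) := mul_le_mul_of_nonneg_left h3 h4
    _ ≤ II P (ind Q) (fun _ => 1) *
          II P (ind (Zr p s)) (fun ω => hv (δ n) f ω ^ (2 * k)) := h2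
    _ ≤ II P (ind Q) (fun _ => 1) * (C * ((∫ z, f z ^ 2) + 1) ^ k) :=
        mul_le_mul_of_nonneg_left h1 h5
    _ = C * ((∫ z, f z ^ 2) + 1) ^ k * II P (ind Q) (fun _ => 1) := by ring

/-! ### The data of one scale -/

/-- The output of `S_geom` and `S_far` at one scale. -/
structure Sc (δ ε e₁ R a b c : ℝ) (D₁ D₂ : Set (ℝ × ℝ)) (N₀ m N j : ℕ)
    (Y Q : Finset (ℤ × ℤ)) (y0 : ℤ × ℤ) (l : ℤ) : Prop where
  sub : Q ⊆ Y
  card : Q.card ≤ N₀
  bd : ∀ y ∈ Y, |y.1| ≤ N ∧ |y.2| ≤ N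
  off : ∀ y ∈ Y, iE (bx (ce (sc ε δ (j + 1)) y) (2 * sc ε δ (j + 1))) ⊆
    (tE (Vs δ D₁ : Set (ℤ × ℤ)))ᶜ
  offQ : ∀ y ∈ Q, iE (bx (ce (sc ε δ (j + 1)) y) (2 * sc ε δ m)) ⊆ (tE (Vs δ D₁ : Set (ℤ × ℤ)))ᶜ
  kq : ∀ y ∈ Y, ∃ i, FinT δ (iE (bx (ce (sc ε δ (j + 1)) y) (2 * sc ε δ (j + 1))))
    (Kq a b c e₁ i)
  conf : ∀ B : Set Pt, (∀ y ∈ Y, Zr (ce (sc ε δ (j + 1)) y) (sc ε δ (j + 1)) B) →
    (∀ y ∈ Q, ∃ i, j + 4 ≤ i ∧ i ≤ m ∧ Zr (ce (sc ε δ (j + 1)) y) (sc ε δ i) B) →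
    Conf B (Vs δ D₂ : Set (ℤ × ℤ))ᶜ (Vs δ D₁ : Set (ℤ × ℤ))ᶜ
  l1 : 1 ≤ l
  y1 : |y0.1| + 8 * l ≤ N
  y2 : |y0.2| + 8 * l ≤ N
  p1 : |δ * ((ce (sc ε δ (j + 1)) y0).1 : ℝ)| ≤ R
  p2 : |δ * ((ce (sc ε δ (j + 1)) y0).2 : ℝ)| ≤ R
  s1 : R⁻¹ ≤ δ * ((l * sc ε δ (j + 1) : ℤ) : ℝ)
  s2 : δ * ((l * sc ε δ (j + 1) : ℤ) : ℝ) ≤ R
  far : FinT δ (iE (bx (ce (sc ε δ (j + 1)) y0) (8 * (l * sc ε δ (j + 1))))) {z | c1 z ≤ a - 1}
  inv : ∀ v : ℤ × ℤ, dp δ v ∈ D₁ →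
    v ∈ (bx (ce (sc ε δ (j + 1)) y0) (8 * (l * sc ε δ (j + 1))))ᶜ

theorem exists_sc (hgeom : S_geom) (hfar : S_far) {D₁ D₂ : Set (ℝ × ℝ)} (hD1 : IsOpen D₁)
    (hD2 : IsOpen D₂) (hb : Bornology.IsBounded D₂) (hcl : closure D₁ ⊆ D₂) {a b c : ℝ}
    (hab : a + b < c) (hcc : ccell a b c ⊆ D₁) :
    ∃ R : ℝ, 1 ≤ R ∧ D₁ ⊆ Metric.ball 0 R ∧ ∃ N₀ : ℕ, ∀ m : ℕ, ∃ ε : ℝ, 0 < ε ∧ ∃ (N : ℕ) (e₁ : ℝ),
      0 < e₁ ∧ ∀ j : ℕ, j + 4 ≤ m → ∀ᶠ δ in 𝓝[>] (0 : ℝ), ∃ (Y Q : Finset (ℤ × ℤ)) (y0 : ℤ × ℤ)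
        (l : ℤ), Sc δ ε e₁ R a b c D₁ D₂ N₀ m N j Y Q y0 l := by
  have hb1 : Bornology.IsBounded D₁ := hb.subset (subset_closure.trans hcl)
  obtain ⟨R, hR1, hDR, hf⟩ := hfar D₁ a hb1
  obtain ⟨N₀, hN₀⟩ := hgeom D₁ D₂ hD1 hD2 hb hcl a b c hab hcc
  refine ⟨R, hR1, hDR, N₀, fun m => ?_⟩
  obtain ⟨ε₀, hε₀, hg⟩ := hN₀ m
  obtain ⟨ε, hε, hle, hle2⟩ : ∃ ε : ℝ, 0 < ε ∧ ε ≤ ε₀ ∧ 4 ^ (m + 2) * ε ≤ 1 := by
    refine ⟨min ε₀ (1 / 4 ^ (m + 2)), lt_min hε₀ (by positivity), min_le_left _ _, ?_⟩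
    have h1 : min ε₀ (1 / (4 : ℝ) ^ (m + 2)) ≤ 1 / 4 ^ (m + 2) := min_le_right _ _
    have h2 : (0 : ℝ) < 4 ^ (m + 2) := by positivity
    calc (4 : ℝ) ^ (m + 2) * min ε₀ (1 / 4 ^ (m + 2)) ≤ 4 ^ (m + 2) * (1 / 4 ^ (m + 2)) :=
          mul_le_mul_of_nonneg_left h1 h2.le
      _ = 1 := by field_simp
  obtain ⟨Ng, e₁, he₁, hg'⟩ := hg ε hε hle
  obtain ⟨Nf, hf'⟩ := hf m ε hε hle2
  refine ⟨ε, hε, max Ng Nf, e₁, he₁, fun j hj => ?_⟩
  filter_upwards [hg' j hj, hf' j (by omega)] with δ h1 h2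
  obtain ⟨Y, Q, g1, g2, g3, g4, g5, g6⟩ := h1
  obtain ⟨y0, l, k1, k2, k3, k4, k5, k6, k7, k8, k9⟩ := h2
  have m1 : (Ng : ℤ) ≤ (max Ng Nf : ℕ) := by exact_mod_cast le_max_left _ _
  have m2 : (Nf : ℤ) ≤ (max Ng Nf : ℕ) := by exact_mod_cast le_max_right _ _
  exact ⟨Y, Q, y0, l, g1, g2, fun y hy => ⟨(g3 y hy).1.trans m1, (g3 y hy).2.trans m1⟩,
    fun y hy => (g4 y hy).1, g5, fun y hy => (g4 y hy).2, g6, k1, k2.trans m2, k3.trans m2, k4, k5, k6,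
    k7, k8, k9⟩

theorem adj_end {x y x' y' : Pt} (h : Adj x y) (h' : Adj x' y') (e : x + y = x' + y') :
    x' = x ∨ x' = y := by
  obtain ⟨a, b⟩ := x
  obtain ⟨c, d⟩ := y
  obtain ⟨a', b'⟩ := x'
  obtain ⟨c', d'⟩ := y'
  simp only [Adj, Set.mem_insert_iff, Set.mem_singleton_iff, Prod.mk_add_mk, Prod.mk.injEq] at *
  rcases h with h | h | h | h | h | h <;> rcases h' with h' | h' | h' | h' | h' | h' <;> omega

/-- The far circuit does not use the edges of the domain. -/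
theorem far_off {δ : ℝ} (hδ : 0 < δ) {D : Set (ℝ × ℝ)} (hb : Bornology.IsBounded D)
    {p : ℤ × ℤ} {r : ℤ} (h : ∀ v : ℤ × ℤ, dp δ v ∈ D → v ∈ (bx p r)ᶜ) :
    iE (bx p r) ⊆ (tE (Vs δ D : Set (ℤ × ℤ)))ᶜ := by
  rintro w ⟨x, hx, y, hy, hxy, rfl⟩ ⟨x', hx', y', hxy', e⟩
  have h1 : x' ∈ bx p r := by
    rcases adj_end hxy hxy' e with h | h
    · rw [h]; exact hx
    · rw [h]; exact hy
  exact h x' ((mem_Vs hδ hb).1 hx' (Metric.mem_closedBall_self (by positivity))) h1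

/-- Local events do not see the other edges. -/
theorem _root_.Vale.Agent.P153.F.X.LocP.sdiff {S : Set Pt} {Q : Set Pt → Prop} (h : LocP Sᶜ Q)
    {B : Set Pt} : Q B ↔ Q (B \ S) := by
  obtain ⟨Λ, h1, h2⟩ := h
  exact h2 B (B \ S) fun w hw => ⟨fun h => ⟨h, h1 w hw⟩, fun h => h.1⟩

/-- The scale `⌊ε / δ⌋` is large. -/
theorem floor_large {δ : ℕ → ℝ} (hδ : ∀ n, 0 < δ n) (hlim : Tendsto δ atTop (𝓝 0)) {ε : ℝ}
    (hε : 0 < ε) (K : ℤ) : ∀ᶠ n in atTop, K ≤ ⌊ε / δ n⌋ := by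
  have h1 : ∀ᶠ n in atTop, δ n * (|(K : ℝ)| + 1) < ε := by
    have h2 : Tendsto (fun n => δ n * (|(K : ℝ)| + 1)) atTop (𝓝 (0 * (|(K : ℝ)| + 1))) :=
      hlim.mul_const _
    rw [zero_mul] at h2
    exact h2.eventually (gt_mem_nhds hε)
  filter_upwards [h1] with n hn
  rw [Int.le_floor, le_div_iff₀ (hδ n)]
  have h3 := le_abs_self (K : ℝ)
  have h4 := hδ n
  nlinarith

end Fr

open Fr in
/-- **The frame**: `S_xst0` from the statements of the X-level. -/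
theorem xst0_of {κ : ℝ} {P : Measure (Pt → ℤ)} {δ : ℕ → ℝ} (hδ : ∀ n, 0 < δ n)
    (hlim : Tendsto δ atTop (𝓝 0)) {ν : (Set Pt → Prop) → Measure Om} (hint : S_int P)
    (hL : S_loc) (hrsw : S_rsw P) (hgap : S_gap P) (hpos : S_pos P) (hemom : S_emom P)
    (hmm : S_mm P δ) (hgeom : S_geom) (hfar : S_far) (hν : NuInt P ν)
    (hsand : SandH P δ ν) (hsd : SdH κ P δ) : S_xst0 κ δ := by
  classical
  intro D₁ D₂ hD1 hD2 hb hcl a b c hab hcc e he ψ f0 g k hψ hf0 hg _ _ hgP L hLL η hη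
  have hb1 : Bornology.IsBounded D₁ := hb.subset (subset_closure.trans hcl)
  obtain ⟨R, hR1, hDR, N₀, hN₀⟩ := exists_sc hgeom hfar hD1 hD2 hb hcl hab hcc
  obtain ⟨C, hC0, hC⟩ := hsand D₁ D₂ hD1 hD2 hb hcl R hR1 hDR L hLL
  -- the errors
  obtain ⟨η', hη', hη'C⟩ : ∃ η' : ℝ, 0 < η' ∧ η' * C ≤ η := by
    refine ⟨η / (C + 1), by positivity, ?_⟩
    rw [div_mul_eq_mul_div, div_le_iff₀ (by positivity)]
    nlinarith
  obtain ⟨η₀, hη₀, hη₀N⟩ : ∃ η₀ : ℝ, 0 < η₀ ∧ (N₀ : ℝ) * η₀ ≤ η' ^ 2 := by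
    refine ⟨η' ^ 2 / (N₀ + 1), by positivity, ?_⟩
    rw [mul_div_assoc', div_le_iff₀ (by positivity)]
    nlinarith [sq_nonneg η', Nat.cast_nonneg (α := ℝ) N₀]
  obtain ⟨J, hJ4, s₀, hs₀, hgp⟩ := hgap η₀ hη₀ 4
  obtain ⟨ε, hε, N, e₁, he₁, hsc⟩ := hN₀ (2 * J)
  -- the sequences
  have hδ' : Tendsto δ atTop (𝓝[>] 0) :=
    tendsto_nhdsWithin_iff.2 ⟨hlim, Eventually.of_forall fun n => hδ n⟩
  have hch : ∀ j : ℕ, ∃ G : ℕ → Finset (ℤ × ℤ) × Finset (ℤ × ℤ) × (ℤ × ℤ) × ℤ, j < J →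
      ∀ᶠ n in atTop, Sc (δ n) ε e₁ R a b c D₁ D₂ N₀ (2 * J) N j (G n).1 (G n).2.1 (G n).2.2.1
        (G n).2.2.2 := by
    intro j
    by_cases hj : j < J
    · have h1 := hδ'.eventually (hsc j (by omega))
      have h2 : ∀ᶠ n in atTop, ∃ G : Finset (ℤ × ℤ) × Finset (ℤ × ℤ) × (ℤ × ℤ) × ℤ,
          Sc (δ n) ε e₁ R a b c D₁ D₂ N₀ (2 * J) N j G.1 G.2.1 G.2.2.1 G.2.2.2 := by
        filter_upwards [h1] with n hn
        obtain ⟨Y, Q, y0, l, h⟩ := hn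
        exact ⟨(Y, Q, y0, l), h⟩
      obtain ⟨G, hG⟩ := h2.choice
      exact ⟨G, fun _ => hG⟩
    · exact ⟨fun _ => (∅, ∅, (0, 0), 0), fun h => absurd h hj⟩
  choose G hG using hch
  set Y : ℕ → ℕ → Finset (ℤ × ℤ) := fun j n => (G j n).1 with hY
  set QQ0 : ℕ → ℕ → Finset (ℤ × ℤ) := fun j n => (G j n).2.1 with hQQ0
  set y0 : ℕ → ℕ → ℤ × ℤ := fun j n => (G j n).2.2.1 with hy0
  set l : ℕ → ℕ → ℤ := fun j n => (G j n).2.2.2 with hl
  set w : ℕ → ℕ → ℤ := fun j n => sc ε (δ n) (j + 1) with hw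
  set X : ℕ → ℕ → Set Pt → Prop := fun j n => QQ (w j n) (Y j n) (y0 j n) (l j n) with hX
  -- the lower bound
  obtain ⟨c₀, hc₀, s₁, hs₁, hps⟩ := hpos N
  have hfl : ∀ K : ℤ, ∀ᶠ n in atTop, K ≤ ⌊ε / δ n⌋ := floor_large hδ hlim hε
  have hwl : ∀ j n, 1 ≤ ⌊ε / δ n⌋ → ⌊ε / δ n⌋ ≤ w j n := by
    intro j n h1
    have h2 : (1 : ℤ) ≤ 4 ^ (j + 1) := one_le_pow₀ (by norm_num)
    show ⌊ε / δ n⌋ ≤ 4 ^ (j + 1) * ⌊ε / δ n⌋
    nlinarith
  have hbig : ∀ᶠ n in atTop, s₀ ≤ ⌊ε / δ n⌋ ∧ s₁ ≤ ⌊ε / δ n⌋ ∧ 1 ≤ ⌊ε / δ n⌋ := by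
    filter_upwards [hfl s₀, hfl s₁, hfl 1] with n h1 h2 h3
    exact ⟨h1, h2, h3⟩
  have hall : ∀ᶠ n in atTop, ∀ j < J, Sc (δ n) ε e₁ R a b c D₁ D₂ N₀ (2 * J) N j (Y j n)
      (QQ0 j n) (y0 j n) (l j n) := by
    have h1 : ∀ᶠ n in atTop, ∀ j ∈ Finset.range J, Sc (δ n) ε e₁ R a b c D₁ D₂ N₀ (2 * J) N j
        (Y j n) (QQ0 j n) (y0 j n) (l j n) := by
      rw [Filter.eventually_all_finset]
      intro j hj
      exact hG j (Finset.mem_range.1 hj)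
    filter_upwards [h1] with n hn j hj
    exact hn j (Finset.mem_range.2 hj)
  -- locality of the family
  have hXloc : ∀ j n, 1 ≤ ⌊ε / δ n⌋ → 1 ≤ l j n → LocP univ (X j n) ∧ IncP (X j n) ∧ ¬ X j n ∅ := by
    intro j n h1 h2
    have h3 := hwl j n h1
    have h4 : 1 ≤ w j n := h1.trans h3
    have h5 : 1 ≤ l j n * w j n := by nlinarith
    exact ⟨fy_loc hL h4 (by omega) (fun _ _ => subset_univ _) (subset_univ _),
      fy_inc hL h4 (by omega), fy_empty hL (by omega)⟩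
  have hXpos : ∀ᶠ n in atTop, ∀ j < J, c₀ ≤ II P (ind (X j n)) (fun _ => 1) := by
    filter_upwards [hbig, hall] with n ⟨_, h2, h3⟩ h4 j hj
    have h5 := h4 j hj
    obtain ⟨h6, _, h8⟩ := hXloc j n h3 h5.l1
    refine le_trans (hps (w j n) (h2.trans (hwl j n h3)) (y0 j n) (4 * l j n) (by have := h5.l1; omega)
      (by have := h5.y1; omega) (by have := h5.y2; omega)) ?_
    refine II_mono_ind hint h6 h8 ?_
    rintro B ⟨g1, g2⟩
    refine ⟨fun y hy => g1 y (h5.bd y hy).1 (h5.bd y hy).2, ?_⟩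
    have e1 : (w j n * (y0 j n).1, w j n * (y0 j n).2) = ce (w j n) (y0 j n) := rfl
    have e2 : 4 * l j n * w j n = 4 * (l j n * w j n) := by ring
    rw [e1, e2] at g2
    exact g2
  have hZ : ∀ j n, ∀ B, X j n B → Zr (ce (w j n) (y0 j n)) (4 * (l j n * w j n)) B :=
    fun j n B h => h.2
  -- the Schwinger-Dyson half, at all the scales
  have hSD : ∀ j < J, Tendsto (fun n =>
      (II P (ind (X j n))
        (fun ω => hv (δ n) (lap ψ) ω * hv (δ n) (fun z => f0 z + g z) ω ^ (k + 1)) +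
      κ * (k + 1) * (∫ z, ψ z * (f0 z + g z)) *
        II P (ind (X j n)) (fun ω => hv (δ n) (fun z => f0 z + g z) ω ^ k)) /
      II P (ind (X j n)) (fun _ => 1)) atTop (𝓝 0) := by
    intro j hj
    refine hsd D₁ hD1 hb1 a b c hab hcc e he ψ f0 g k hψ hf0 hg hgP ε hε j N e₁ he₁ (Y j)
      (y0 j) (l j) ?_ c₀ hc₀ ?_ ?_
    · filter_upwards [hall] with n hn
      have h5 := hn j hj
      exact ⟨fun y hy => ⟨(h5.bd y hy).1, (h5.bd y hy).2, h5.kq y hy⟩, h5.l1, h5.y1, h5.y2, h5.far⟩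
    · filter_upwards [hXpos] with n hn
      exact hn j hj
    · intro f hf hf0' k'
      obtain ⟨C', hC'⟩ := mom_fam hδ hlim hrsw hemom hmm hR1 hDR hf hf0' k'
      refine ⟨C', ?_⟩
      filter_upwards [hC', hall, hbig] with n hn h4 ⟨_, _, h3⟩
      have h5 := h4 j hj
      obtain ⟨h6, h7, h8⟩ := hXloc j n h3 h5.l1
      exact hn (X j n) (ce (w j n) (y0 j n)) (l j n * w j n) (fn_ind h6 h8) (incP_iff.1 h7)
        (hZ j n) h5.p1 h5.p2 h5.s1 h5.s2 h5.inv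
  -- the choice of the scale
  have hsel : ∀ n, ∃ j < J, s₀ ≤ ⌊ε / δ n⌋ → ∀ (p : ℤ × ℤ) (X : Set Pt → ℝ), Fn univ X →
      Monotone X → (∀ B, X B ≠ 0 → Zr p (4 ^ (j + 1) * ⌊ε / δ n⌋) B) →
      II P (fun B => X B * ind (fun B => ∀ i, j + 4 ≤ i → i ≤ 2 * J →
        ¬ Zr p (4 ^ i * ⌊ε / δ n⌋) B) B) (fun _ => 1) ≤ η₀ * II P X (fun _ => 1) := by
    intro n
    by_cases hn : s₀ ≤ ⌊ε / δ n⌋
    · obtain ⟨j, hj, h⟩ := hgp _ hn
      exact ⟨j, hj, fun _ => h⟩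
    · exact ⟨0, by omega, fun h => absurd h hn⟩
  choose jj hjj hjs using hsel
  -- the sandwich half
  have hkey : ∀ᶠ n in atTop, Mom (ν (X (jj n) n)) ∧ ∀ q ∈ L,
      EE (δ n) D₁ (hvl (δ n) q) ≤ ∫ ω, hvl (δ n) q ω ∂(ν (X (jj n) n)) ∧
      ∫ ω, hvl (δ n) q ω ∂(ν (X (jj n) n)) ≤ EE (δ n) D₂ (hvl (δ n) q) + η' * C := by
    filter_upwards [hC η' hη'.le, hbig, hall, hXpos] with n hn ⟨g1, _, g3⟩ g4 g5
    have hsc' := g4 (jj n) (hjj n)
    have hp := g5 (jj n) (hjj n)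
    obtain ⟨h6, h7, h8⟩ := hXloc (jj n) n g3 hsc'.l1
    have hw1 : 1 ≤ w (jj n) n := g3.trans (hwl (jj n) n g3)
    have hlw : 1 ≤ l (jj n) n * w (jj n) n := by
      have := hsc'.l1
      nlinarith
    have hoff : iE (bx (ce (w (jj n) n) (y0 (jj n) n)) (2 * (4 * (l (jj n) n * w (jj n) n)))) ⊆
        (tE (Vs (δ n) D₁ : Set (ℤ × ℤ)))ᶜ := by
      have e : 2 * (4 * (l (jj n) n * w (jj n) n)) = 8 * (l (jj n) n * w (jj n) n) := by ring
      rw [e]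
      exact far_off (hδ n) hb1 hsc'.inv
    refine hn (X (jj n) n) (ce (w (jj n) n) (y0 (jj n) n)) (l (jj n) n * w (jj n) n)
      (fn_ind (fy_loc hL hw1 (by omega) hsc'.off hoff) h8) (incP_iff.1 h7) (hZ (jj n) n) hsc'.p1
      hsc'.p2 hsc'.s1 hsc'.s2 hsc'.inv (hc₀.trans_le hp) ?_
    -- the closing event
    have hZl : LocP univ (Zy (w (jj n) n) ⌊ε / δ n⌋ (jj n + 4) (2 * J) (QQ0 (jj n) n)) :=
      zy_loc hL g3 fun _ _ => subset_univ _
    have hXZ : LocP univ fun B => X (jj n) n B ∧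
        ¬ Zy (w (jj n) n) ⌊ε / δ n⌋ (jj n + 4) (2 * J) (QQ0 (jj n) n) B := h6.and hZl.not
    have hXo : LocP (tE (Vs (δ n) D₁ : Set (ℤ × ℤ)))ᶜ (X (jj n) n) :=
      fy_loc hL hw1 (by omega) hsc'.off hoff
    have hZo : LocP (tE (Vs (δ n) D₁ : Set (ℤ × ℤ)))ᶜ
        (Zy (w (jj n) n) ⌊ε / δ n⌋ (jj n + 4) (2 * J) (QQ0 (jj n) n)) :=
      zy_loc hL g3 hsc'.offQ
    have s1 := II_mono_ind (Q := fun B => X (jj n) n B ∧
      ¬ Conf (B \ tE (Vs (δ n) D₁ : Set (ℤ × ℤ))) (Vs (δ n) D₂ : Set (ℤ × ℤ))ᶜ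
        (Vs (δ n) D₁ : Set (ℤ × ℤ))ᶜ) hint hXZ
      (fun h => h8 h.1) (fun B h => ⟨h.1, fun hz => h.2 (hsc'.conf _ (hXo.sdiff.1 h.1).1
        (hZo.sdiff.1 hz))⟩)
    refine s1.trans ?_
    rw [II_one hXZ, II_one h6]
    have s2 := gap_fam (P := P) hL (w := w (jj n) n) (r := 4 * (l (jj n) n * w (jj n) n))
      (p := ce (w (jj n) n) (y0 (jj n) n)) (s := ⌊ε / δ n⌋) (Y := Y (jj n) n)
      (Q := QQ0 (jj n) n) (lo := jj n + 4) (hi := 2 * J) hw1 (by omega) g3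
      (fin_of hint h6 h8) (η := η₀) (fun y hy => hjs n g1 (ce (w (jj n) n) y) (ind (X (jj n) n))
        (fn_ind h6 h8) (incP_iff.1 h7) (fun B hB => (ind_ne hB).1 y (hsc'.sub hy)))
    refine le_trans ?_ (s2.trans ?_)
    · exact le_of_eq rfl
    · refine mul_le_mul_of_nonneg_right (le_trans ?_ hη₀N) measureReal_nonneg
      refine mul_le_mul_of_nonneg_right ?_ hη₀.le
      exact_mod_cast hsc'.card
  refine ⟨fun n => ν (X (jj n) n), ?_, ?_, ?_⟩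
  · filter_upwards [hkey] with n hn
    exact hn.1
  · intro q hq
    filter_upwards [hkey, hall] with n hn h4
    obtain ⟨h1, h2⟩ := hn.2 q hq
    exact ⟨by linarith, by linarith⟩
  · have hSDall : ∀ᶠ n in atTop, ∀ j ∈ Finset.range J, |(II P (ind (X j n))
        (fun ω => hv (δ n) (lap ψ) ω * hv (δ n) (fun z => f0 z + g z) ω ^ (k + 1)) +
      κ * (k + 1) * (∫ z, ψ z * (f0 z + g z)) *
        II P (ind (X j n)) (fun ω => hv (δ n) (fun z => f0 z + g z) ω ^ k)) /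
      II P (ind (X j n)) (fun _ => 1)| < η := by
      rw [Filter.eventually_all_finset]
      intro j hj
      have h1 := (hSD j (Finset.mem_range.1 hj)).abs
      rw [abs_zero] at h1
      exact h1.eventually (gt_mem_nhds hη)
    filter_upwards [hSDall, hbig, hall, hXpos] with n hn ⟨_, _, g3⟩ g4 g5
    have hsc' := g4 (jj n) (hjj n)
    have hp := g5 (jj n) (hjj n)
    obtain ⟨h6, h7, h8⟩ := hXloc (jj n) n g3 hsc'.l1
    have hpos' : 0 < II P (ind (X (jj n) n)) (fun _ => 1) := hc₀.trans_le hp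
    obtain ⟨B, hBB⟩ := hv_eq_hB (R := R) (hδ n)
    have hal : ∀ f : ℝ × ℝ → ℝ, TestOn D₁ f → Alg (hv (δ n) f) := fun f hf => by
      have e : hv (δ n) f = hB B (δ n) f := funext fun ω =>
        hBB f (fun z hz => hDR (hf.2.2 (subset_tsupport _ hz))) ω
      rw [e]
      exact alg_hB
    have hcell : cell a b c ⊆ D₁ := fun z hz => hcc ⟨hz.1.le, hz.2.1.le, hz.2.2.le⟩
    have hψ1 : TestOn D₁ (lap ψ) := (hψ.mono hcell).lap
    have hfg : TestOn D₁ (fun z => f0 z + g z) := (hf0.mono hcell).add hg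
    have e1 := hν (X (jj n) n) (locP_iff.1 h6) (ind_not h8) hpos'
      (fun ω => hv (δ n) (lap ψ) ω * hv (δ n) (fun z => f0 z + g z) ω ^ (k + 1))
      ((hal _ hψ1).mul ((hal _ hfg).pow _))
    have e2 := hν (X (jj n) n) (locP_iff.1 h6) (ind_not h8) hpos'
      (fun ω => hv (δ n) (fun z => f0 z + g z) ω ^ k) ((hal _ hfg).pow _)
    rw [e1, e2]
    have h9 := (hn (jj n) (Finset.mem_range.2 (hjj n))).le
    refine le_trans (le_of_eq ?_) h9
    congr 1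
    rw [add_div, mul_div_assoc]

end Vale.Agent.P153.F.X
end

section

/-!
P153-F, X-level (mirror of `P145.X.SandT`): the sandwich for the measures `nuX P Q`.
-/

namespace Vale.Agent.P153.F.X.Sb

open Filter Topology Set MeasureTheory
open Vale.Agent.P153
open Vale.Agent.P153.F.Top (Om Cone Alg Pol Mom EE hv hvl Vs S_mono ze dp tl)
open Vale.Agent.P145.PT (TestOn)

/-! ### Test functions on the lattice -/

theorem vert_in {D : Set (ℝ × ℝ)} (hD : IsOpen D) (hb : Bornology.IsBounded D)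
    {g : ℝ × ℝ → ℝ} (hg : TestOn D g) {δ : ℕ → ℝ} (hδ : ∀ n, 0 < δ n)
    (hlim : Tendsto δ atTop (𝓝 0)) : ∀ᶠ n in atTop, ∀ v : Pt,
      g (dp (δ n) v) ≠ 0 → v ∈ (Vs (δ n) D : Set Pt) := by
  have hK : IsCompact (tsupport g) := hg.2.1
  obtain ⟨r, hr, hsub⟩ := hK.exists_cthickening_subset_open hD hg.2.2
  filter_upwards [hlim.eventually (gt_mem_nhds (half_pos hr))] with n hn v hv
  have hz : dp (δ n) v ∈ tsupport g := subset_tsupport _ hv
  rw [Finset.mem_coe, Top.mem_Vs (hδ n) hb]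
  intro w hw
  refine hsub (Metric.mem_cthickening_of_dist_le w _ r _ hz ?_)
  have := Metric.mem_closedBall.1 hw
  linarith

theorem on_hv {V : Set Pt} {δ : ℝ} {g : ℝ × ℝ → ℝ}
    (h : ∀ v : Pt, g (dp δ v) ≠ 0 → v ∈ V) : On V (hv δ g) := by
  intro ω ω' hω
  unfold hv
  congr 1
  refine finsum_congr fun v => ?_
  rw [Top.tl_eq]
  by_cases h0 : g (dp δ v) = 0
  · rw [h0, mul_zero, mul_zero, mul_zero]
  · rw [hω v (h v h0)]

theorem on_hvl {V : Set Pt} {δ : ℝ} {l : List (ℝ × ℝ → ℝ)}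
    (h : ∀ g ∈ l, ∀ v : Pt, g (dp δ v) ≠ 0 → v ∈ V) : On V (hvl δ l) := by
  intro ω ω' hω
  unfold hvl
  congr 1
  exact List.map_congr_left fun g hg => on_hv (h g hg) ω ω' hω

/-- The square of a product is at most the sum of the powers. -/
theorem sq_prod_le (l : List ℝ) (hl : l ≠ []) :
    l.prod ^ 2 ≤ (l.map fun a => a ^ (2 * l.length)).sum := by
  classical
  have hne : l.toFinset.Nonempty := by
    rw [List.toFinset_nonempty_iff]
    exact hl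
  obtain ⟨a, ha, hmax⟩ := l.toFinset.exists_max_image (fun a => |a|) hne
  rw [List.mem_toFinset] at ha
  have h1 : ∀ m : List ℝ, (∀ b ∈ m, |b| ≤ |a|) → |m.prod| ≤ |a| ^ m.length := by
    intro m
    induction m with
    | nil => intro _; simp
    | cons b m ih =>
      intro hm
      rw [List.prod_cons, List.length_cons, abs_mul, pow_succ, mul_comm (|a| ^ m.length)]
      exact mul_le_mul (hm b List.mem_cons_self)
        (ih fun b' hb' => hm b' (List.mem_cons_of_mem _ hb')) (abs_nonneg _) (abs_nonneg _)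
  have h2 := h1 l fun b hb => hmax b (List.mem_toFinset.2 hb)
  have h3 : l.prod ^ 2 ≤ a ^ (2 * l.length) := by
    calc l.prod ^ 2 = |l.prod| ^ 2 := (sq_abs _).symm
      _ ≤ (|a| ^ l.length) ^ 2 := pow_le_pow_left₀ (abs_nonneg _) h2 2
      _ = a ^ (2 * l.length) := by rw [← pow_mul, mul_comm, pow_mul, sq_abs, ← pow_mul]
  refine h3.trans ?_
  exact List.single_le_sum (l := l.map fun a => a ^ (2 * l.length)) (by
    intro x hx
    obtain ⟨b, -, rfl⟩ := List.mem_map.1 hx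
    exact (even_two_mul _).pow_nonneg b) _ (List.mem_map.2 ⟨a, ha, rfl⟩)

theorem hvl_sq_le (δ : ℝ) (l : List (ℝ × ℝ → ℝ)) (hl : l ≠ []) (ω : Om) :
    hvl δ (l ++ l) ω ≤ (l.map fun g => hv δ g ω ^ (2 * l.length)).sum := by
  rw [hvl_append, ← _root_.sq]
  have h := sq_prod_le (l.map fun g => hv δ g ω) (by simpa using hl)
  rw [List.map_map, List.length_map] at h
  exact h

/-! ### Moments -/

variable {P : Measure (Pt → ℤ)} {Q : Set Pt → Prop}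

theorem alg_hv {δ : ℝ} (hδ : 0 < δ) {D : Set (ℝ × ℝ)} (hb : Bornology.IsBounded D)
    {g : ℝ × ℝ → ℝ} (hg : TestOn D g) : Alg (hv δ g) := by
  obtain ⟨R, hR⟩ := hb.subset_ball (0 : ℝ × ℝ)
  obtain ⟨B, hB⟩ := Top.hv_eq_hB (R := R) hδ
  exact (Top.alg_hB (B := B) (δ := δ) (f := g)).of_eq fun ω =>
    (hB g (fun z hz => hR (hg.2.2 (subset_tsupport _ hz))) ω).symm

/-- Sums of powers. -/
theorem II_list (hint : S_int P) (hQ : LocS univ (ind Q)) (h0 : ind Q ∅ = 0)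
    (l : List (Om → ℝ)) (hl : ∀ A ∈ l, Alg A) :
    (Integrable (fun x => ind Q (bl x) * (l.map fun A => A (vm x)).sum) (muT P)) ∧
    II P (ind Q) (fun ω => (l.map fun A => A ω).sum) = (l.map fun A => II P (ind Q) A).sum := by
  induction l with
  | nil => simp [II]
  | cons A l ih =>
    obtain ⟨i1, i2⟩ := ih fun B hB => hl B (List.mem_cons_of_mem _ hB)
    have i3 := hint (ind Q) A hQ h0 (hl A List.mem_cons_self)
    simp only [List.map_cons, List.sum_cons, mul_add]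
    refine ⟨i3.add i1, ?_⟩
    unfold II at i2 ⊢
    simp only [mul_add]
    rw [integral_add i3 i1, i2]

/-- **Moments** of products given a macroscopic circuit. -/
theorem mom_one (hint : S_int P) (hloc : S_loc) {δ : ℕ → ℝ} (hδ : ∀ n, 0 < δ n)
    (hlim : Tendsto δ atTop (𝓝 0)) (hmm : S_mm P δ) (hrsw : S_rsw P) {R : ℝ} (hR : 1 ≤ R)
    (l : List (ℝ × ℝ → ℝ)) (hl : ∀ g ∈ l, TestOn (Metric.ball (0 : ℝ × ℝ) R) g) :
    ∃ C : ℝ, 0 ≤ C ∧ ∀ᶠ n in atTop, ∀ (p : Pt) (s : ℤ), |δ n * p.1| ≤ R → |δ n * p.2| ≤ R →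
      R⁻¹ ≤ δ n * s → δ n * s ≤ R → 1 ≤ s ∧ 0 < II P (ind (Zr p s)) (fun _ => 1) ∧
        II P (ind (Zr p s)) (hvl (δ n) (l ++ l)) ≤ C * II P (ind (Zr p s)) (fun _ => 1) := by
  have hR0 : 0 < R := by linarith
  obtain ⟨c₁, hc₁, r₀, hr₀, hcirc⟩ := hrsw
  -- `s` is large
  have hs : ∀ᶠ n in atTop, ∀ s : ℤ, R⁻¹ ≤ δ n * s → r₀ ≤ s ∧ 1 ≤ s := by
    have h1 : 0 < R⁻¹ / (|(r₀ : ℝ)| + 1) := by positivity
    filter_upwards [hlim.eventually (gt_mem_nhds h1)] with n hn s hs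
    have hpos := hδ n
    have h2 : δ n * (|(r₀ : ℝ)| + 1) < R⁻¹ := by
      rwa [lt_div_iff₀ (by positivity)] at hn
    have h3 : |(r₀ : ℝ)| + 1 < (s : ℝ) := by
      by_contra h4
      push Not at h4
      nlinarith
    have h5 : (r₀ : ℝ) < s := by linarith [le_abs_self (r₀ : ℝ)]
    have h6 : (1 : ℝ) < s := by linarith [abs_nonneg (r₀ : ℝ)]
    exact ⟨by exact_mod_cast h5.le, by exact_mod_cast h6.le⟩
  obtain ⟨C, hC0, hC⟩ := hmm R hR l.length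
  -- the bound for each factor
  have hone : ∀ g ∈ l, ∀ᶠ n in atTop, ∀ (p : Pt) (s : ℤ), |δ n * p.1| ≤ R →
      |δ n * p.2| ≤ R → R⁻¹ ≤ δ n * s → δ n * s ≤ R →
        II P (ind (Zr p s)) (fun ω => hv (δ n) g ω ^ (2 * l.length)) ≤
          C * ((∫ z, g z ^ 2) + 1) ^ l.length := fun g hg =>
    hC g (hl g hg) 1 one_pos
  have hall : ∀ᶠ n in atTop, ∀ g ∈ {g | g ∈ l}, ∀ (p : Pt) (s : ℤ), |δ n * p.1| ≤ R →
      |δ n * p.2| ≤ R → R⁻¹ ≤ δ n * s → δ n * s ≤ R →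
        II P (ind (Zr p s)) (fun ω => hv (δ n) g ω ^ (2 * l.length)) ≤
          C * ((∫ z, g z ^ 2) + 1) ^ l.length :=
    (Filter.eventually_all_finite (List.finite_toSet l)).2 fun g hg => hone g hg
  set K : ℝ := (l.map fun g => C * ((∫ z, g z ^ 2) + 1) ^ l.length).sum with hK
  have hK0 : 0 ≤ K := by
    refine List.sum_nonneg fun x hx => ?_
    obtain ⟨g, -, rfl⟩ := List.mem_map.1 hx
    have : 0 ≤ ∫ z, g z ^ 2 := integral_nonneg fun z => sq_nonneg _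
    positivity
  refine ⟨K / c₁ + 1, by positivity, ?_⟩
  filter_upwards [hs, hall] with n h1 h2 p s a1 a2 a3 a4
  obtain ⟨b1, b2⟩ := h1 s a3
  obtain ⟨d1, d2⟩ := hcirc s b1 p
  have hd : 0 < II P (ind (Zr p s)) (fun _ => 1) := hc₁.trans_le d1
  refine ⟨b2, hd, ?_⟩
  obtain ⟨-, hFn⟩ := hloc p s b2
  have hL : LocS univ (ind (Zr p s)) := locS_mono hFn.loc (subset_univ _)
  by_cases hnil : l = []
  · have e : II P (ind (Zr p s)) (hvl (δ n) (l ++ l)) = II P (ind (Zr p s)) (fun _ => 1) := by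
      rw [hnil]
      rfl
    rw [e]
    have : 0 ≤ K / c₁ := by positivity
    nlinarith
  · have hb : Bornology.IsBounded (Metric.ball (0 : ℝ × ℝ) R) := Metric.isBounded_ball
    obtain ⟨i1, i2⟩ := II_list hint hL hFn.pin
      (l.map fun g ω => hv (δ n) g ω ^ (2 * l.length)) (by
        intro A hA
        obtain ⟨g, hg, rfl⟩ := List.mem_map.1 hA
        exact (alg_hv (hδ n) hb (hl g hg)).pow _)
    simp only [List.map_map, Function.comp_def] at i1 i2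
    have i3 : Integrable (fun x => ind (Zr p s) (bl x) * hvl (δ n) (l ++ l) (vm x))
        (muT P) := by
      refine hint _ _ hL hFn.pin ?_
      obtain ⟨B, hB⟩ := Top.hv_eq_hB (R := R) (hδ n)
      refine (Top.alg_hl (B := B) (δ := δ n) (l ++ l)).of_eq fun ω => ?_
      unfold hvl Top.hl
      congr 1
      refine List.map_congr_left fun g hg => (hB g (fun z hz => ?_) ω).symm
      have hg' : g ∈ l := by
        rcases List.mem_append.1 hg with h | h <;> exact h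
      exact (hl g hg').2.2 (subset_tsupport _ hz)
    have e1 : II P (ind (Zr p s)) (hvl (δ n) (l ++ l)) ≤
        II P (ind (Zr p s)) (fun ω => (l.map fun g => hv (δ n) g ω ^ (2 * l.length)).sum) := by
      refine integral_mono i3 i1 fun x => ?_
      exact mul_le_mul_of_nonneg_left (hvl_sq_le (δ n) l hnil (vm x)) (ind_nonneg _)
    have e2 : (l.map fun g => II P (ind (Zr p s)) (fun ω => hv (δ n) g ω ^ (2 * l.length))).sum ≤
        K := by
      rw [hK]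
      exact List.sum_le_sum fun g hg => h2 g hg p s a1 a2 a3 a4
    have e3 : K ≤ (K / c₁ + 1) * II P (ind (Zr p s)) (fun _ => 1) := by
      have h5 : K / c₁ * c₁ = K := div_mul_cancel₀ K hc₁.ne'
      have h6 : 0 ≤ K / c₁ := by positivity
      nlinarith
    rw [i2] at e1
    linarith

theorem support_in {δ : ℝ} {D : Set (ℝ × ℝ)} {V : Set Pt}
    (hV : ∀ v : Pt, dp δ v ∈ D → v ∈ V)
    {g : ℝ × ℝ → ℝ} (hg : TestOn D g) (v : Pt)
    (hv : g (dp δ v) ≠ 0) : v ∈ V :=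
  hV v (hg.2.2 (subset_tsupport _ hv))

/-- **Moments** of products given a monotone event which contains a macroscopic circuit. -/
theorem mom_Q (hint : S_int P) (hemom : S_emom P) (hloc : S_loc) (hrsw : S_rsw P)
    {δ : ℕ → ℝ} (hδ : ∀ n, 0 < δ n) (hlim : Tendsto δ atTop (𝓝 0)) (hmm : S_mm P δ)
    {D : Set (ℝ × ℝ)} {R : ℝ} (hR : 1 ≤ R) (hDR : D ⊆ Metric.ball 0 R)
    (l : List (ℝ × ℝ → ℝ)) (hl : ∀ g ∈ l, TestOn D g ∧ ∀ z, 0 ≤ g z) :
    ∃ C : ℝ, 0 ≤ C ∧ ∀ᶠ n in atTop, ∀ (Q : Set Pt → Prop) (p : Pt) (s : ℤ),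
      LocS univ (ind Q) → Monotone (ind Q) → (∀ B, Q B → Zr p (4 * s) B) →
      |δ n * p.1| ≤ R → |δ n * p.2| ≤ R → R⁻¹ ≤ δ n * s → δ n * s ≤ R →
      (∀ v : Pt, dp (δ n) v ∈ D → v ∈ (bx p (8 * s))ᶜ) →
      ind Q ∅ = 0 ∧
      II P (ind Q) (hvl (δ n) (l ++ l)) ≤ C * II P (ind Q) (fun _ => 1) := by
  have hb : Bornology.IsBounded D := Metric.isBounded_ball.subset hDR
  obtain ⟨C, hC0, hC⟩ := mom_one hint hloc hδ hlim hmm hrsw hR l fun g hg =>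
    ⟨(hl g hg).1.1, (hl g hg).1.2.1, (hl g hg).1.2.2.trans hDR⟩
  refine ⟨C, hC0, ?_⟩
  filter_upwards [hC] with n hn Q p s hQ hQm hQZ a1 a2 a3 a4 hV
  obtain ⟨b1, b2, b3⟩ := hn p s a1 a2 a3 a4
  have h4 : 1 ≤ 4 * s := by linarith
  have h0 : ind Q ∅ = 0 := by
    refine ind_zero fun h => ?_
    have h1 := hQZ ∅ h
    have h2 := (hloc p (4 * s) h4).2.pin
    rw [ind_one h1] at h2
    norm_num at h2
  refine ⟨h0, ?_⟩
  have hl2 : ∀ g ∈ l ++ l, TestOn D g ∧ ∀ z, 0 ≤ g z := by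
    intro g hg
    rcases List.mem_append.1 hg with hg | hg <;> exact hl g hg
  have key := hemom p s (ind Q) (hvl (δ n) (l ++ l)) b1 ⟨ind_nonneg, hQ, h0⟩ hQm
    (fun B hB => hQZ B (ind_ne.1 hB)) (cone_hvl (hδ n) hb hl2)
    (on_hvl fun g hg v hv => support_in hV (hl2 g hg).1 v hv)
  have hpos : 0 ≤ II P (ind Q) (fun _ => 1) :=
    integral_nonneg fun x => by
      simp only [mul_one]
      exact ind_nonneg _
  have h5 : II P (ind Q) (hvl (δ n) (l ++ l)) * II P (ind (Zr p s)) (fun _ => 1) ≤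
      (C * II P (ind Q) (fun _ => 1)) * II P (ind (Zr p s)) (fun _ => 1) := by
    refine key.trans ((mul_le_mul_of_nonneg_left b3 hpos).trans (le_of_eq ?_))
    ring
  exact le_of_mul_le_mul_right h5 b2

/-- **The sandwich** for the measures `nuX P Q`; the confinement with the edges which have no end in
the smaller domain. -/
theorem sand_n (hm : S_mono) (hint : S_int P) (hlow : S_low P)
    (hup : S_up P) (hemom : S_emom P) (hloc : S_loc) (hrsw : S_rsw P)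
    {δ : ℕ → ℝ} (hδ : ∀ n, 0 < δ n) (hlim : Tendsto δ atTop (𝓝 0)) (hmm : S_mm P δ)
    {D₁ D₂ : Set (ℝ × ℝ)} (hD₁ : IsOpen D₁) (hb₂ : Bornology.IsBounded D₂) (hsub : D₁ ⊆ D₂)
    {R : ℝ} (hR : 1 ≤ R) (hDR : D₁ ⊆ Metric.ball 0 R)
    (L : List (List (ℝ × ℝ → ℝ))) (hL : ∀ l ∈ L, ∀ g ∈ l, TestOn D₁ g ∧ ∀ z, 0 ≤ g z) :
    ∃ C : ℝ, 0 ≤ C ∧ ∀ᶠ n in atTop, ∀ (η : ℝ) (Q : Set Pt → Prop) (p : Pt) (s : ℤ), 0 ≤ η →
      Fn (tE (Vs (δ n) D₁ : Set Pt))ᶜ (ind Q) → Monotone (ind Q) →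
      (∀ B, Q B → Zr p (4 * s) B) →
      |δ n * p.1| ≤ R → |δ n * p.2| ≤ R → R⁻¹ ≤ δ n * s → δ n * s ≤ R →
      (∀ v : Pt, dp (δ n) v ∈ D₁ → v ∈ (bx p (8 * s))ᶜ) →
      0 < II P (ind Q) (fun _ => 1) →
      II P (ind fun B => Q B ∧ ¬ Conf (B \ tE (Vs (δ n) D₁ : Set Pt)) (Vs (δ n) D₂ : Set Pt)ᶜ
        (Vs (δ n) D₁ : Set Pt)ᶜ) (fun _ => 1) ≤ η ^ 2 * II P (ind Q) (fun _ => 1) →
      Mom (nuX P Q) ∧ ∀ l ∈ L,
        EE (δ n) D₁ (hvl (δ n) l) ≤ ∫ ω, hvl (δ n) l ω ∂(nuX P Q) ∧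
        ∫ ω, hvl (δ n) l ω ∂(nuX P Q) ≤ EE (δ n) D₂ (hvl (δ n) l) + η * C := by
  have hb₁ : Bornology.IsBounded D₁ := hb₂.subset hsub
  -- the constants
  have hmomL : ∃ C : ℝ, 0 ≤ C ∧ ∀ᶠ n in atTop, ∀ l ∈ L, ∀ (Q : Set Pt → Prop) (p : Pt) (s : ℤ),
      LocS univ (ind Q) → Monotone (ind Q) → (∀ B, Q B → Zr p (4 * s) B) →
      |δ n * p.1| ≤ R → |δ n * p.2| ≤ R → R⁻¹ ≤ δ n * s → δ n * s ≤ R →
      (∀ v : Pt, dp (δ n) v ∈ D₁ → v ∈ (bx p (8 * s))ᶜ) →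
      II P (ind Q) (hvl (δ n) (l ++ l)) ≤ C ^ 2 * II P (ind Q) (fun _ => 1) := by
    clear hup hlow
    induction L with
    | nil =>
      refine ⟨0, le_rfl, Eventually.of_forall fun n l hl => ?_⟩
      exact absurd hl List.not_mem_nil
    | cons l L ih =>
      obtain ⟨C, hC0, hC⟩ := ih fun l' hl' => hL l' (List.mem_cons_of_mem _ hl')
      obtain ⟨C', hC'0, hC'⟩ := mom_Q hint hemom hloc hrsw hδ hlim hmm hR hDR l
        (hL l List.mem_cons_self)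
      refine ⟨C + C' + 1, by positivity, ?_⟩
      filter_upwards [hC, hC'] with n h1 h2 l' hl' Q p s hQ hQm hQZ a1 a2 a3 a4 hV
      have hpos : 0 ≤ II P (ind Q) (fun _ => 1) :=
        integral_nonneg fun x => by
          simp only [mul_one]
          exact ind_nonneg _
      rcases List.mem_cons.1 hl' with rfl | hl'
      · refine (h2 Q p s hQ hQm hQZ a1 a2 a3 a4 hV).2.trans
          (mul_le_mul_of_nonneg_right ?_ hpos)
        nlinarith
      · refine (h1 l' hl' Q p s hQ hQm hQZ a1 a2 a3 a4 hV).trans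
          (mul_le_mul_of_nonneg_right ?_ hpos)
        exact pow_le_pow_left₀ hC0 (by linarith) 2
  obtain ⟨C, hC0, hC⟩ := hmomL
  refine ⟨C, hC0, ?_⟩
  -- the test functions live on the interior vertices
  have hsupp : ∀ᶠ n in atTop, ∀ l ∈ L, ∀ g ∈ l, ∀ v : Pt, g (dp (δ n) v) ≠ 0 →
      v ∈ (Vs (δ n) D₁ : Set Pt) := by
    have h1 : ∀ᶠ n in atTop, ∀ l ∈ {l | l ∈ L}, ∀ g ∈ {g | g ∈ l}, ∀ v : Pt,
        g (dp (δ n) v) ≠ 0 → v ∈ (Vs (δ n) D₁ : Set Pt) :=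
      (Filter.eventually_all_finite (List.finite_toSet L)).2 fun l hl =>
        (Filter.eventually_all_finite (List.finite_toSet l)).2 fun g hg =>
          vert_in hD₁ hb₁ (hL l hl g hg).1 hδ hlim
    exact h1
  filter_upwards [hC, hsupp] with n hn1 hn2 η Q p s hη hQ hQm hQZ a1 a2 a3 a4 hV hpos hgap
  have hQu : LocS univ (ind Q) := locS_mono hQ.loc (subset_univ _)
  have hx := xevQ hint hQu hQ.pin hpos
  refine ⟨nuX_mom hint hQu hQ.pin hpos, fun l hl => ?_⟩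
  have hA := cone_hvl (hδ n) hb₁ (hL l hl)
  have hOn : On ((Vs (δ n) D₁ : Set Pt)) (hvl (δ n) l) :=
    on_hvl fun g hg v hv => hn2 l hl g hg v hv
  set F := Vs (δ n) D₁ with hF
  set F' := Vs (δ n) D₂ with hF'
  have hFF : F ⊆ F' := Top.Vs_mono (hδ n) hsub hb₂
  -- the confinement
  have hcl := conf_loc F F'
  have hQC := locS_and hQ.loc hcl
  have hQCm : Monotone (ind fun B => Q B ∧ Conf (B \ tE (F : Set Pt)) (F' : Set Pt)ᶜ (F : Set Pt)ᶜ) :=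
    mono_ind fun B B' hBB h => ⟨of_mono_ind hQm hBB h.1,
      conf_mono (sdiff_subset_sdiff_left hBB) h.2⟩
  have hQCu := locS_mono hQC (subset_univ _)
  have hQN := locS_and hQu (locS_not (locS_mono hcl (subset_univ _)))
  have h0 : ind (fun B => Q B ∧ Conf (B \ tE (F : Set Pt)) (F' : Set Pt)ᶜ (F : Set Pt)ᶜ) ∅ = 0 := by
    refine ind_zero fun h => ?_
    have := hQ.pin
    rw [ind_one h.1] at this
    norm_num at this
  have f1 := hlow F (ind Q) (hvl (δ n) l) hQ hA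
  have f2 := hup F F' (ind fun B => Q B ∧ Conf (B \ tE (F : Set Pt)) (F' : Set Pt)ᶜ (F : Set Pt)ᶜ)
    (hvl (δ n) l) hFF ⟨ind_nonneg, hQC, h0⟩ hQCm (fun B hB =>
      conf_mono sdiff_subset (ind_ne.1 hB).2) hA hOn
  rw [II_ind_one hQu, II_ind hQu] at f1
  rw [II_ind_one hQCu, II_ind hQCu] at f2
  rw [II_ind_one hQN, II_ind_one hQu] at hgap
  have f3 : 0 ≤ EE (δ n) D₂ (hvl (δ n) l) := by
    obtain ⟨ρ, hρ, e⟩ := Top.exists_meas (Vs (δ n) D₂)
    have h1 : 0 ≤ ∫ ω, hvl (δ n) l ω ∂ρ :=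
      hρ.nonneg (fun v => by rw [e]; exact (hm _ _ subset_rfl v).1) hA
    rw [e] at h1
    exact h1
  have f4 := hn1 l hl Q p s hQu hQm hQZ a1 a2 a3 a4 hV
  rw [II_ind_one hQu, II_ind hQu] at f4
  have hZ : MeasurableSet {x : Hg | Conf (bl x \ tE (F : Set Pt)) (F' : Set Pt)ᶜ (F : Set Pt)ᶜ} :=
    measQ (locS_mono hcl (subset_univ _))
  refine hx.sand (Z := {x : Hg | Conf (bl x \ tE (F : Set Pt)) (F' : Set Pt)ᶜ (F : Set Pt)ᶜ}) hZ
    hA f3 hη hC0 f1 f2 hgap ?_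
  refine le_trans (le_of_eq ?_) f4
  refine integral_congr_ae (ae_of_all _ fun x => ?_)
  simp only []
  rw [hvl_append, _root_.sq]

end Vale.Agent.P153.F.X.Sb
end

section

/-!
P153-F, X-level (mirror of `P145.X.FrB`): the sandwich half of the frame from `Sb.sand_n`.
-/

set_option autoImplicit false

namespace Vale.Agent.P153.F.X

open Filter Topology Set MeasureTheory
open Vale.Agent.P153
open Vale.Agent.P145.PT Vale.Agent.P153.F.Top

theorem nuInt_of {P : Measure (Pt → ℤ)} (hint : S_int P) : NuInt P (Sb.nuX P) :=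
  fun _ h h0 hpos _ hA => Sb.nuX_int hint h h0 hpos hA

theorem sandH_of {P : Measure (Pt → ℤ)} {δ : ℕ → ℝ} (hm : S_mono)
    (hint : S_int P) (hlow : S_low P) (hup : S_up P) (hemom : S_emom P)
    (hloc : S_loc) (hrsw : S_rsw P) (hδ : ∀ n, 0 < δ n) (hlim : Tendsto δ atTop (𝓝 0))
    (hmm : S_mm P δ) : SandH P δ (Sb.nuX P) := by
  intro D₁ D₂ hD1 _ hb hcl R hR hDR L hL
  obtain ⟨C, hC0, hC⟩ := Sb.sand_n hm hint hlow hup hemom hloc hrsw hδ hlim hmm hD1 hb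
    (subset_closure.trans hcl) hR hDR L hL
  refine ⟨C, hC0, fun η hη => ?_⟩
  filter_upwards [hC] with n hn Q p s
  exact hn η Q p s hη

/-- `S_xst0` from the X-level statements and the Schwinger-Dyson half. -/
theorem xst0_of' {κ : ℝ} {P : Measure (Pt → ℤ)} {δ : ℕ → ℝ}
    (hδ : ∀ n, 0 < δ n) (hlim : Tendsto δ atTop (𝓝 0)) (hm : S_mono) (hint : S_int P)
    (hlow : S_low P) (hup : S_up P) (hL : S_loc) (hrsw : S_rsw P) (hgap : S_gap P)
    (hpos : S_pos P) (hemom : S_emom P) (hmm : S_mm P δ) (hgeom : S_geom) (hfar : S_far)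
    (hsd : SdH κ P δ) : S_xst0 κ δ :=
  xst0_of hδ hlim hint hL hrsw hgap hpos hemom hmm hgeom hfar (nuInt_of hint)
    (sandH_of hm hint hlow hup hemom hL hrsw hδ hlim hmm) hsd

end Vale.Agent.P153.F.X
end

section

/-!
P153, product Schwinger-Dyson: the statement for a triangular pinwheel in real coordinates.
-/

namespace Vale.Agent.P153.F.SD

open Finset Filter Topology MeasureTheory
open Vale.Agent.P145.PT (Sm TestOn lap)
open Vale.Agent.P145.FA (SDdat int_lap)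
open Vale.Agent.P145.FA.Use (zle zabs lap_add sm_add cs_addr int_addr)
open Vale.Agent.P153.GFF (Csts pos var2)
open Vale.Agent.P153.F.Top (c1 c2 cell)

/-- The central triangle, the width of the corridors and the radius of a pinwheel. -/
structure PW where
  x0 : ℝ
  y0 : ℝ
  s0 : ℝ
  e : ℝ
  R : ℝ

/-- The open triangle. -/
def PW.box (b : PW) : Set (ℝ × ℝ) := cell b.x0 b.y0 b.s0

/-- The three arms. -/
def PW.K1 (b : PW) : Set (ℝ × ℝ) := {z | c1 z ≤ b.x0 - b.e ∧ |c1 z| ≤ b.R ∧ |c2 z| ≤ b.R}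
def PW.K2 (b : PW) : Set (ℝ × ℝ) :=
  {z | b.s0 + b.e ≤ c1 z + c2 z ∧ b.x0 ≤ c1 z ∧ |c1 z| ≤ b.R ∧ |c2 z| ≤ b.R}
def PW.K3 (b : PW) : Set (ℝ × ℝ) :=
  {z | c2 z ≤ b.y0 - b.e ∧ b.x0 ≤ c1 z ∧ c1 z + c2 z ≤ b.s0 ∧ |c1 z| ≤ b.R ∧ |c2 z| ≤ b.R}

/-- Lattice points of a set. -/
def lat (δ : ℝ) (K : Set (ℝ × ℝ)) : Set (ℤ × ℤ) := {q | δ • pos q ∈ K}

lemma c1_pos (δ : ℝ) (q : ℤ × ℤ) : c1 (δ • pos q) = δ * q.1 := by
  have h3 : (0 : ℝ) < √3 := by positivity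
  unfold Top.c1 GFF.pos
  simp only [Prod.smul_mk, smul_eq_mul]
  field_simp
  ring

lemma c2_pos (δ : ℝ) (q : ℤ × ℤ) : c2 (δ • pos q) = δ * q.2 := by
  have h3 : (0 : ℝ) < √3 := by positivity
  unfold Top.c2 GFF.pos
  simp only [Prod.smul_mk, smul_eq_mul]
  field_simp

/-- Integer geometry of the pinwheel. -/
theorem geo (b : PW) (he : 0 < b.e) : ∃ ρ : ℕ, ∀ δ : ℝ,
    0 < δ → δ ≤ 1 → 8 * δ ≤ b.e → ∃ (a : ℤ × ℤ) (N : ℕ) (xl sr : ℤ),
    (‖δ • pos a - (b.y0 / 2, b.y0 * (√3 / 2))‖ ≤ 2 * δ) ∧ 1 ≤ N ∧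
    (|xl| ≤ ρ * N ∧ |sr| ≤ ρ * N) ∧
    (∀ q, q + a ∈ lat δ b.box →
      0 ≤ q.2 ∧ xl ≤ q.1 ∧ q.1 + q.2 ≤ sr ∧ |q.1| ≤ ρ * N ∧ |q.2| ≤ ρ * N) ∧
    (∀ q, q + a ∈ lat δ b.K1 → q.1 ≤ xl - 2 * N ∧ |q.1| ≤ ρ * N ∧ |q.2| ≤ ρ * N) ∧
    (∀ q, q + a ∈ lat δ b.K2 →
      sr + 2 * N ≤ q.1 + q.2 ∧ xl ≤ q.1 ∧ |q.1| ≤ ρ * N ∧ |q.2| ≤ ρ * N) ∧
    (∀ q, q + a ∈ lat δ b.K3 →
      q.2 ≤ 0 ∧ xl ≤ q.1 ∧ q.1 + q.2 ≤ sr ∧ |q.1| ≤ ρ * N ∧ |q.2| ≤ ρ * N) := by
  set R' : ℝ := |b.x0| + |b.y0| + |b.s0| + |b.R| with hR'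
  have r1 : |b.x0| ≤ R' := by
    rw [hR']; linarith [abs_nonneg b.y0, abs_nonneg b.s0, abs_nonneg b.R]
  have r2 : |b.y0| ≤ R' := by
    rw [hR']; linarith [abs_nonneg b.x0, abs_nonneg b.s0, abs_nonneg b.R]
  have r3 : |b.s0| ≤ R' := by
    rw [hR']; linarith [abs_nonneg b.y0, abs_nonneg b.x0, abs_nonneg b.R]
  have r5 : b.R ≤ R' := by
    rw [hR']; linarith [abs_nonneg b.y0, abs_nonneg b.s0, abs_nonneg b.x0, le_abs_self b.R]
  rw [abs_le] at r1 r2 r3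
  have hR0 : 0 ≤ R' := by rw [hR']; positivity
  obtain ⟨ρ, hρ⟩ := exists_nat_ge (24 * (R' + 1) / b.e)
  refine ⟨ρ, fun δ hδ hδ1 hδe => ?_⟩
  set A2 : ℤ := ⌊b.y0 / δ⌋ with hA2
  set F1 : ℤ := ⌊b.x0 / δ⌋ with hF1
  set F3 : ℤ := ⌈b.s0 / δ⌉ with hF3
  set N : ℕ := ⌊b.e / (4 * δ)⌋₊ with hN
  have cancel : ∀ x : ℝ, δ * (x / δ) = x := fun x => by field_simp
  have a1 : δ * (A2 : ℝ) ≤ b.y0 := by
    have := mul_le_mul_of_nonneg_left (Int.floor_le (b.y0 / δ)) hδ.le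
    rwa [cancel] at this
  have a2 : b.y0 < δ * (A2 : ℝ) + δ := by
    have := mul_lt_mul_of_pos_left (Int.lt_floor_add_one (b.y0 / δ)) hδ
    rw [cancel] at this
    linarith
  have b1 : δ * (F1 : ℝ) ≤ b.x0 := by
    have := mul_le_mul_of_nonneg_left (Int.floor_le (b.x0 / δ)) hδ.le
    rwa [cancel] at this
  have b2 : b.x0 < δ * (F1 : ℝ) + δ := by
    have := mul_lt_mul_of_pos_left (Int.lt_floor_add_one (b.x0 / δ)) hδ
    rw [cancel] at this
    linarith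
  have d1 : b.s0 ≤ δ * (F3 : ℝ) := by
    have := mul_le_mul_of_nonneg_left (Int.le_ceil (b.s0 / δ)) hδ.le
    rwa [cancel] at this
  have d2 : δ * (F3 : ℝ) < b.s0 + δ := by
    have := mul_lt_mul_of_pos_left (Int.ceil_lt_add_one (b.s0 / δ)) hδ
    rw [mul_add, cancel] at this
    linarith
  have n1 : δ * (N : ℝ) ≤ b.e / 4 := by
    have := mul_le_mul_of_nonneg_left (Nat.floor_le (by positivity : 0 ≤ b.e / (4 * δ))) hδ.le
    have e : δ * (b.e / (4 * δ)) = b.e / 4 := by field_simp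
    rwa [e] at this
  have n2 : b.e / 8 ≤ δ * (N : ℝ) := by
    have := mul_lt_mul_of_pos_left (Nat.lt_floor_add_one (b.e / (4 * δ))) hδ
    have e : δ * (b.e / (4 * δ)) = b.e / 4 := by field_simp
    rw [e] at this
    linarith
  have n3 : 1 ≤ N := by
    rw [hN, Nat.one_le_floor_iff, le_div_iff₀ (by positivity)]
    linarith
  have hρN : 3 * (R' + 1) ≤ δ * ((ρ : ℝ) * N) := by
    rw [div_le_iff₀ he] at hρ
    have h1 : (ρ : ℝ) * (b.e / 8) ≤ ρ * (δ * N) := mul_le_mul_of_nonneg_left n2 (by positivity)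
    nlinarith
  refine ⟨(0, A2), N, F1, F3 - A2, ?_, n3, ⟨?_, ?_⟩, ?_, ?_, ?_, ?_⟩
  · have hs := GFF.sqrt3_le
    have hs0 : (0 : ℝ) ≤ √3 := by positivity
    unfold GFF.pos
    rw [Prod.norm_def, sup_le_iff, Real.norm_eq_abs, Real.norm_eq_abs]
    simp only [Prod.smul_mk, Prod.mk_sub_mk, smul_eq_mul, Int.cast_zero, zero_add]
    have e1 : δ * ((A2 : ℝ) / 2) - b.y0 / 2 = -((b.y0 - δ * A2) * (1 / 2)) := by ring
    have e2 : δ * ((A2 : ℝ) * (√3 / 2)) - b.y0 * (√3 / 2) = -((b.y0 - δ * A2) * (√3 / 2)) := by ring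
    have h0 : 0 ≤ b.y0 - δ * A2 := by linarith
    rw [e1, e2, abs_neg, abs_neg, abs_of_nonneg (by positivity), abs_of_nonneg (by positivity)]
    constructor
    · nlinarith
    · nlinarith
  · refine zabs hδ (le_trans ?_ hρN)
    rw [abs_le]
    constructor <;> linarith
  · refine zabs hδ (le_trans ?_ hρN)
    push_cast
    rw [abs_le, mul_sub]
    constructor <;> linarith
  · rintro ⟨q1, q2⟩ hq
    have hq' : _ ∈ cell b.x0 b.y0 b.s0 := hq
    unfold Top.cell at hq'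
    rw [Set.mem_ofPred_eq, c1_pos, c2_pos] at hq'
    simp only [Prod.mk_add_mk, Int.cast_add, mul_add, Int.cast_zero, mul_zero, add_zero] at hq'
    obtain ⟨h1, h2, h3⟩ := hq'
    refine ⟨zle hδ ?_, zle hδ ?_, zle hδ ?_, zabs hδ (le_trans ?_ hρN),
      zabs hδ (le_trans ?_ hρN)⟩ <;> push_cast <;>
      first | (rw [abs_le]; constructor <;> linarith) | linarith
  · rintro ⟨q1, q2⟩ hq
    have hq' : _ ∈ b.K1 := hq
    unfold PW.K1 at hq'
    rw [Set.mem_ofPred_eq, c1_pos, c2_pos] at hq'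
    simp only [Prod.mk_add_mk, Int.cast_add, mul_add, Int.cast_zero, mul_zero, add_zero,
      abs_le] at hq'
    obtain ⟨h1, ⟨h2, h3⟩, h4, h5⟩ := hq'
    refine ⟨zle hδ ?_, zabs hδ (le_trans ?_ hρN), zabs hδ (le_trans ?_ hρN)⟩ <;> push_cast <;>
      first | (rw [abs_le]; constructor <;> linarith) | linarith
  · rintro ⟨q1, q2⟩ hq
    have hq' : _ ∈ b.K2 := hq
    unfold PW.K2 at hq'
    rw [Set.mem_ofPred_eq, c1_pos, c2_pos] at hq'
    simp only [Prod.mk_add_mk, Int.cast_add, mul_add, Int.cast_zero, mul_zero, add_zero,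
      abs_le] at hq'
    obtain ⟨h1, h0, ⟨h2, h3⟩, h4, h5⟩ := hq'
    refine ⟨zle hδ ?_, zle hδ ?_, zabs hδ (le_trans ?_ hρN), zabs hδ (le_trans ?_ hρN)⟩ <;>
      push_cast <;> first | (rw [abs_le]; constructor <;> linarith) | linarith
  · rintro ⟨q1, q2⟩ hq
    have hq' : _ ∈ b.K3 := hq
    unfold PW.K3 at hq'
    rw [Set.mem_ofPred_eq, c1_pos, c2_pos] at hq'
    simp only [Prod.mk_add_mk, Int.cast_add, mul_add, Int.cast_zero, mul_zero, add_zero,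
      abs_le] at hq'
    obtain ⟨h1, h0, h0', ⟨h2, h3⟩, h4, h5⟩ := hq'
    refine ⟨zle hδ ?_, zle hδ ?_, zle hδ ?_, zabs hδ (le_trans ?_ hρN),
      zabs hδ (le_trans ?_ hρN)⟩ <;> push_cast <;>
      first | (rw [abs_le]; constructor <;> linarith) | linarith

/-! ### Translations -/

lemma pb_back (a : ℤ × ℤ) (h : Hgt) : pb (fun q => q + a) (pb (fun q => q - a) h) = h := by
  funext q
  simp [pb]

variable {f g χ : ℝ × ℝ → ℝ} {K δ : ℝ}

lemma ev_Wd_back (hf : Csts f K) (hδ : 0 < δ) (a : ℤ × ℤ) (h : Hgt) :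
    ev (Wd δ f 0) (pb (fun q => q - a) h) = ev (Wd δ f a) h := by
  rw [← ev_Wd_pb hf hδ a, pb_back]

lemma ev_nW_back (hf : Csts f K) (hδ : 0 < δ) (a : ℤ × ℤ) (h : Hgt) :
    ev (nW δ f 0) (pb (fun q => q - a) h) = ev (nW δ f a) h := by
  unfold nW
  rw [ev_smul, ev_smul, ev_Wd_back hf hδ, mass_Wd_shift hf hδ a]

lemma ev_zW_back (hg : Csts g K) {K' : ℝ} (hf : Csts f K') (hδ : 0 < δ) (a : ℤ × ℤ) (h : Hgt) :
    ev (zW δ g f 0) (pb (fun q => q - a) h) = ev (zW δ g f a) h := by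
  unfold zW
  rw [ev_sub, ev_sub, ev_smul, ev_smul, ev_Wd_back hg hδ, ev_nW_back hf hδ,
    mass_Wd_shift hg hδ a]

lemma gffCov_smul (g : ℝ × ℝ → ℝ) (z : ℝ) :
    GFF.gffCov (fun x => z * g x) (fun x => z * g x) = z ^ 2 * GFF.gffCov g g :=
  P145.FA.Use.gffCov_smul g z

lemma lat_of_ne {b : Set (ℝ × ℝ)} (hf : TestOn b f) (hK : Csts f K) (hδ : 0 < δ)
    {a q : ℤ × ℤ} (h : Wd δ f a q ≠ 0) : q + a ∈ lat δ b :=
  hf.2.2 (subset_tsupport _ (Wd_supp hK hδ h))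

/-- The functional `Wd` is local. -/
lemma loc_Wd {A : Set (ℝ × ℝ)} (hK : Csts f K) (hf : ∀ x, f x ≠ 0 → x ∈ A) (hδ : 0 < δ) :
    Loc (lat δ A) (ev (Wd δ f 0)) := by
  refine ev_loc _ fun q hq => ?_
  rw [Finsupp.mem_support_iff] at hq
  have h1 := hf _ (Wd_supp hK hδ hq)
  rw [add_zero] at h1
  exact h1

/-- Gaussian localiser. -/
noncomputable def gl (φ : (ℤ × ℤ) →₀ ℝ) (A : ℝ) (h : Hgt) : ℝ :=
  Real.exp (-((ev φ h) ^ 2 / (2 * A ^ 2)))

lemma gl_pos (φ : (ℤ × ℤ) →₀ ℝ) (A : ℝ) (h : Hgt) : 0 < gl φ A h := Real.exp_pos _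

lemma gl_le_one (φ : (ℤ × ℤ) →₀ ℝ) (A : ℝ) (h : Hgt) : gl φ A h ≤ 1 := by
  unfold gl
  rw [Real.exp_le_one_iff]
  have : 0 ≤ (ev φ h) ^ 2 / (2 * A ^ 2) := by positivity
  linarith

lemma measurable_gl (φ : (ℤ × ℤ) →₀ ℝ) (A : ℝ) : Measurable (gl φ A) :=
  Real.measurable_exp.comp (((measurable_ev φ).pow_const 2).div_const _).neg

lemma one_sub_gl (φ : (ℤ × ℤ) →₀ ℝ) (A : ℝ) (h : Hgt) :
    1 - gl φ A h ≤ (ev φ h) ^ 2 / (2 * A ^ 2) := by
  unfold gl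
  have := Real.add_one_le_exp (-((ev φ h) ^ 2 / (2 * A ^ 2)))
  linarith

/-- **Product Schwinger-Dyson statement in a triangular pinwheel.** -/
theorem fa_box {P : Measure Fld} (hP : GFF.Plane P) {A0 : ℝ} (hA0 : 0 ≤ A0)
    (hA : ∀ x : ℤ × ℤ, var2 P x ≤ A0 * (1 + |(x.1 : ℝ)| + |(x.2 : ℝ)|)) {κ : ℝ}
    (hclt : CLT P κ) {δ : ℕ → ℝ} (hδ : Tendsto δ atTop (𝓝[>] 0)) (b : PW) (he : 0 < b.e)
    {f0 ψ χ ρ1 ρ3 : ℝ × ℝ → ℝ} (hf0 : TestOn b.box f0)
    (hψ : TestOn b.box ψ) (hχ : TestOn b.box χ) (iχ : ∫ x, χ x = 1) (hψχ : ∀ x, ψ x * χ x = 0)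
    (hρ1 : TestOn b.K1 ρ1) (iρ1 : ∫ x, ρ1 x = 1) (hρ3 : TestOn b.K3 ρ3) (iρ3 : ∫ x, ρ3 x = 1)
    {L : ℝ} (hL : 0 < L) (G1 G2 G3 : ℕ → Hgt → ℂ)
    (l1 : ∀ n, Loc (lat (δ n) b.K1) (G1 n)) (l2 : ∀ n, Loc (lat (δ n) b.K2) (G2 n))
    (l3 : ∀ n, Loc (lat (δ n) b.K3) (G3 n)) (b2 : ∀ n h, ‖G2 n h‖ ≤ 1)
    (b1 : ∀ n h, ‖G1 n h‖ ≤ gl (nW (δ n) ρ1 0) L h)
    (b3 : ∀ n h, ‖G3 n h‖ ≤ gl (nW (δ n) ρ3 0) L h) :
    Tendsto (fun n => ∫ h, Yf (Wd (δ n) f0 0) (zW (δ n) (fun x => -lap ψ x) χ 0)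
      (Real.exp (-(κ * ∫ x, ψ x * f0 x) - (κ / 2) * ∫ x, ψ x * (-lap ψ x))) h *
        G1 n h * G2 n h * G3 n h ∂(mu0 P)) atTop (𝓝 0) := by
  have := hP.prob
  obtain ⟨ρ, hgeo⟩ := geo b he
  have hgb : TestOn b.box (fun x => -lap ψ x) := hψ.lap.neg
  obtain ⟨k0, kf0⟩ := exists_csts hf0.1 hf0.2.1
  obtain ⟨k1, kψ⟩ := exists_csts hψ.1 hψ.2.1
  obtain ⟨k2, kχ⟩ := exists_csts hχ.1 hχ.2.1
  obtain ⟨k3, kρ1⟩ := exists_csts hρ1.1 hρ1.2.1
  obtain ⟨k4, kρ3⟩ := exists_csts hρ3.1 hρ3.2.1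
  obtain ⟨k5, kg⟩ := exists_csts hgb.1 hgb.2.1
  have hg0 : ∫ x, -lap ψ x = 0 := by rw [integral_neg, int_lap hψ.1 hψ.2.1, neg_zero]
  obtain ⟨d1, hd1, -, happ1⟩ := app_nW kχ iχ
  obtain ⟨d2, hd2, -, happ2⟩ := app_zW kχ iχ kg hg0
  obtain ⟨d3, hd3, -, happ3⟩ := app_nW kρ1 iρ1
  obtain ⟨d4, hd4, -, happ4⟩ := app_nW kρ3 iρ3
  have hsmall : ∀ᶠ n in atTop, 0 < δ n ∧ δ n ≤ 1 ∧ 8 * δ n ≤ b.e ∧ δ n ≤ d1 ∧ δ n ≤ d2 ∧
      δ n ≤ d3 ∧ δ n ≤ d4 := by
    have h0 : Tendsto δ atTop (𝓝 0) := hδ.mono_right nhdsWithin_le_nhds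
    have hpos : ∀ᶠ n in atTop, 0 < δ n := hδ.eventually self_mem_nhdsWithin
    filter_upwards [hpos, h0.eventually (ge_mem_nhds one_pos),
      h0.eventually (ge_mem_nhds (show 0 < b.e / 8 by positivity)), h0.eventually (ge_mem_nhds hd1),
      h0.eventually (ge_mem_nhds hd2), h0.eventually (ge_mem_nhds hd3),
      h0.eventually (ge_mem_nhds hd4)] with n a1 a2 a3 a4 a5 a6 a7
    exact ⟨a1, a2, by linarith, a4, a5, a6, a7⟩
  obtain ⟨n0, hn0⟩ := eventually_atTop.1 hsmall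
  rw [← tendsto_add_atTop_iff_nat n0]
  set d : ℕ → ℝ := fun n => δ (n + n0) with hd
  have hdt : Tendsto d atTop (𝓝[>] 0) := hδ.comp (tendsto_add_atTop_nat n0)
  have hdn : ∀ n, 0 < d n ∧ d n ≤ 1 ∧ 8 * d n ≤ b.e ∧ d n ≤ d1 ∧ d n ≤ d2 ∧ d n ≤ d3 ∧
      d n ≤ d4 := fun n => hn0 (n + n0) (by omega)
  choose a N xl sr hnear hN1 hbox hB hK1 hK2 hK3 using
    fun n => hgeo (d n) (hdn n).1 (hdn n).2.1 (hdn n).2.2.1
  set x0 : ℝ × ℝ := (b.y0 / 2, b.y0 * (√3 / 2)) with hx0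
  have hNear : Near d a x0 := ⟨fun n => (hdn n).1, hnear⟩
  obtain ⟨A1, M1⟩ := happ1 d a x0 hNear (fun n => (hdn n).2.2.2.1)
  obtain ⟨A2, M2⟩ := happ2 d a x0 hNear (fun n => (hdn n).2.2.2.2.1)
  obtain ⟨A3, M3⟩ := happ3 d a x0 hNear (fun n => (hdn n).2.2.2.2.2.1)
  obtain ⟨A4, M4⟩ := happ4 d a x0 hNear (fun n => (hdn n).2.2.2.2.2.2)
  have A0' := app_Wd kf0 hNear (fun n => (hdn n).2.1)
  -- the data of the half plane statement
  have vanish : ∀ {f : ℝ × ℝ → ℝ}, TestOn b.box f → ∀ x : ℝ × ℝ, x.2 ≤ 0 → f (x + x0) = 0 := by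
    intro f hf x hxx
    by_contra h0
    have h1 : x + x0 ∈ b.box := hf.2.2 (subset_tsupport _ h0)
    have h2 : b.y0 < c2 (x + x0) := h1.2.1
    have h3 : (0 : ℝ) < √3 := by positivity
    have e : c2 (x + x0) = 2 * x.2 / √3 + b.y0 := by
      unfold Top.c2
      rw [hx0, Prod.snd_add]
      field_simp
    rw [e] at h2
    have h4 : 2 * x.2 / √3 ≤ 0 := div_nonpos_of_nonpos_of_nonneg (by linarith) h3.le
    linarith
  have hdat : SDdat (fun x => f0 (x + x0)) (fun x => ψ (x + x0)) (fun x => χ (x + x0)) :=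
    ⟨sm_add hf0.1 x0, cs_addr hf0.2.1 x0, vanish hf0, sm_add hψ.1 x0, cs_addr hψ.2.1 x0,
      vanish hψ, sm_add hχ.1 x0, cs_addr hχ.2.1 x0, vanish hχ, by
        have : ∀ x, ψ (x + x0) * χ (x + x0) = 0 := fun x => hψχ _
        simp [this]⟩
  have A2' : App d (fun x => -lap (fun x => ψ (x + x0)) x)
      (fun n => zW (d n) (fun x => -lap ψ x) χ (a n)) := by
    have e : (fun x => -lap (fun x => ψ (x + x0)) x) = fun x => -lap ψ (x + x0) := by
      funext x; rw [lap_add]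
    rw [e]
    exact A2
  have hSD := sdseq hP hA0 hA hclt hdt hdat A0' A2' A1 M2 M1
  have e1 : ∫ x, ψ (x + x0) * f0 (x + x0) = ∫ x, ψ x * f0 x :=
    int_addr (fun x => ψ x * f0 x) x0
  have e2 : ∫ x, ψ (x + x0) * (-lap (fun x => ψ (x + x0)) x) = ∫ x, ψ x * (-lap ψ x) := by
    have : ∀ x, ψ (x + x0) * (-lap (fun x => ψ (x + x0)) x) =
        (fun x => ψ x * (-lap ψ x)) (x + x0) := fun x => by rw [lap_add]
    simp only [this]
    exact int_addr (fun x => ψ x * (-lap ψ x)) x0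
  rw [e1, e2] at hSD
  set α : ℝ := Real.exp (-(κ * ∫ x, ψ x * f0 x) - (κ / 2) * ∫ x, ψ x * (-lap ψ x)) with hα
  obtain ⟨hinv, -, -, -⟩ := legs_T hP
  -- the translated functionals
  set T : ℕ → Hgt → Hgt := fun n => pb (fun q => q - a n) with hT
  have hTm : ∀ n, (mu0 P).map (T n) = mu0 P := by
    intro n
    have h1 := hinv (-a n)
    have e : T n = pb (fun q => q + -a n) := by
      rw [hT]
      simp only [sub_eq_add_neg]
    rw [e]
    exact h1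
  have hmT : ∀ n, Measurable (T n) := fun n => measurable_pbS _
  have hLoc : ∀ {K : Set (ℝ × ℝ)} {A : Set (ℤ × ℤ)} {G : Hgt → ℂ} {n : ℕ},
      Loc (lat (d n) K) G → (∀ q, q + a n ∈ lat (d n) K → q ∈ A) → Loc A (fun h => G (T n h)) := by
    intro K A G n hl hA
    refine hl.pull (r := fun q => q - a n) fun q hq => hA _ ?_
    rw [sub_add_cancel]
    exact hq
  have hgl1 : ∀ n h, gl (nW (d n) ρ1 0) L (T n h) = gl (nW (d n) ρ1 (a n)) L h := by
    intro n h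
    unfold gl
    rw [hT]
    simp only
    rw [ev_nW_back kρ1 (hdn n).1]
  have hgl3 : ∀ n h, gl (nW (d n) ρ3 0) L (T n h) = gl (nW (d n) ρ3 (a n)) L h := by
    intro n h
    unfold gl
    rw [hT]
    simp only
    rw [ev_nW_back kρ3 (hdn n).1]
  obtain ⟨C, hC, hgint⟩ := loc_int L hL
  have hAdm : ∀ {A : Set (ℤ × ℤ)} {G : Hgt → ℂ} {φ : (ℤ × ℤ) →₀ ℝ}, mass φ = 1 → Loc A G →
      (∀ h, ‖G h‖ ≤ gl φ L h) → Adm P A G ∧ ∫ h, ‖G h‖ ∂(mu0 P) ≤ C := by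
    intro A G φ hm hl hb
    obtain ⟨i1, i2⟩ := hgint P φ hm
    have hi : Integrable G (mu0 P) :=
      Integrable.mono' (g := gl φ L) i1 hl.measurableC.aestronglyMeasurable
        (Eventually.of_forall hb)
    exact ⟨⟨hl, ⟨1, fun h => (hb h).trans (gl_le_one _ _ _)⟩, hi⟩,
      (integral_mono hi.norm i1 hb).trans i2⟩
  have adm1 : ∀ n, Adm P {q | q.1 ≤ xl n - 2 * N n ∧ |q.1| ≤ ρ * N n ∧ |q.2| ≤ ρ * N n}
      (fun h => G1 (n + n0) (T n h)) ∧ ∫ h, ‖G1 (n + n0) (T n h)‖ ∂(mu0 P) ≤ C := fun n =>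
    hAdm (M3 n) (hLoc (l1 (n + n0)) (fun q hq => hK1 n q hq)) fun h => by
      rw [← hgl1]; exact b1 (n + n0) _
  have adm3 : ∀ n, Adm P {q | q.2 ≤ 0 ∧ xl n ≤ q.1 ∧ q.1 + q.2 ≤ sr n ∧ |q.1| ≤ ρ * N n ∧
      |q.2| ≤ ρ * N n} (fun h => G3 (n + n0) (T n h)) ∧
      ∫ h, ‖G3 (n + n0) (T n h)‖ ∂(mu0 P) ≤ C := fun n =>
    hAdm (M4 n) (hLoc (l3 (n + n0)) (fun q hq => hK3 n q hq)) fun h => by
      rw [← hgl3]; exact b3 (n + n0) _
  -- tightness
  have hTight : Tight P (fun n => nW (d n) χ (a n)) (fun n h => G3 (n + n0) (T n h)) := by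
    refine tight_of (φ' := fun n => nW (d n) ρ3 (a n)) (c := κ / 2 *
      GFF.gffCov (fun x => χ (x + x0) - ρ3 (x + x0)) (fun x => χ (x + x0) - ρ3 (x + x0))) M1 M4
      (fun z => ?_) hL (fun n => (adm3 n).1.loc.measurableC) fun n h => ?_
    · have hAz := (A1.sub A4).smul z
      have hcs : HasCompactSupport (fun x => χ (x + x0) - ρ3 (x + x0)) :=
        P145.FA.cs_sub (cs_addr hχ.2.1 x0) (cs_addr hρ3.2.1 x0)
      have hTest : GFF.Test (fun x => z * (χ (x + x0) - ρ3 (x + x0))) := by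
        refine ⟨contDiff_const.mul ((sm_add hχ.1 x0).sub (sm_add hρ3.1 x0)), hcs.mul_left, ?_⟩
        have i1 : Integrable (fun x => χ (x + x0)) :=
          (sm_add hχ.1 x0).continuous.integrable_of_hasCompactSupport (cs_addr hχ.2.1 x0)
        have i2 : Integrable (fun x => ρ3 (x + x0)) :=
          (sm_add hρ3.1 x0).continuous.integrable_of_hasCompactSupport (cs_addr hρ3.2.1 x0)
        rw [integral_const_mul, integral_sub i1 i2, int_addr χ x0, int_addr ρ3 x0, iχ, iρ3,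
          sub_self, mul_zero]
      have h1 := app_char hP hA0 hA hclt hdt hTest hAz
      rw [gffCov_smul (fun x => χ (x + x0) - ρ3 (x + x0)) z] at h1
      have e3 : κ * (z ^ 2 * GFF.gffCov (fun x => χ (x + x0) - ρ3 (x + x0))
          (fun x => χ (x + x0) - ρ3 (x + x0))) / 2 =
          (κ / 2 * GFF.gffCov (fun x => χ (x + x0) - ρ3 (x + x0))
          (fun x => χ (x + x0) - ρ3 (x + x0))) * z ^ 2 := by ring
      rw [e3] at h1
      refine h1.congr fun n => ?_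
      simp only [ev_smul, ev_sub]
    · show ‖G3 (n + n0) (T n h)‖ ≤ gl (nW (d n) ρ3 (a n)) L h
      rw [← hgl3]; exact b3 (n + n0) _
  have hres := fa_T hP hSD ρ N xl sr hN1 hbox ?_
    (fun n h => G1 (n + n0) (T n h)) (fun n h => G2 (n + n0) (T n h))
    (fun n h => G3 (n + n0) (T n h)) C
    (fun n => (adm1 n).1) (fun n => hLoc (l2 (n + n0)) (fun q hq => hK2 n q hq))
    (fun n => (adm3 n).1)
    (fun n h => (b1 _ _).trans (gl_le_one _ _ _)) (fun n h => b2 _ _)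
    (fun n h => (b3 _ _).trans (gl_le_one _ _ _)) (fun n => (adm1 n).2) (fun n => (adm3 n).2)
    hTight
  · refine hres.congr fun n => ?_
    have hFm : Measurable fun h => Yf (Wd (d n) f0 0) (zW (d n) (fun x => -lap ψ x) χ 0) α h *
        G1 (n + n0) h * G2 (n + n0) h * G3 (n + n0) h :=
      (((measurable_Yf _ _ _).mul (l1 _).measurableC).mul (l2 _).measurableC).mul
        (l3 _).measurableC
    have h1 := integral_map (μ := mu0 P) (hmT n).aemeasurable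
      (f := fun h => Yf (Wd (d n) f0 0) (zW (d n) (fun x => -lap ψ x) χ 0) α h *
        G1 (n + n0) h * G2 (n + n0) h * G3 (n + n0) h)
      hFm.aestronglyMeasurable
    rw [hTm n] at h1
    rw [h1]
    refine integral_congr_ae (Eventually.of_forall fun h => ?_)
    simp only
    have e4 : Yf (Wd (d n) f0 0) (zW (d n) (fun x => -lap ψ x) χ 0) α (T n h) =
        Yf (Wd (d n) f0 (a n)) (zW (d n) (fun x => -lap ψ x) χ (a n)) α h := by
      unfold Yf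
      rw [hT]
      simp only
      rw [ev_Wd_back kf0 (hdn n).1, ev_zW_back kg kχ (hdn n).1]
    rw [e4]
  · intro n q hq
    refine hB n q ?_
    rcases hq with hq | hq | hq
    · exact lat_of_ne hf0 kf0 (hdn n).1 (Finsupp.mem_support_iff.1 hq)
    · rcases zW_supp (Finsupp.mem_support_iff.1 hq) with h | h
      · exact lat_of_ne hgb kg (hdn n).1 h
      · exact lat_of_ne hχ kχ (hdn n).1 h
    · exact lat_of_ne hχ kχ (hdn n).1 (nW_supp (Finsupp.mem_support_iff.1 hq))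

end Vale.Agent.P153.F.SD
end

section

/-!
P153, block F-SD: the Schwinger-Dyson equations for the moments under a product of three local
functionals (triangular pinwheel).
-/

namespace Vale.Agent.P153.F.SD

open Finset Filter Topology MeasureTheory
open Vale.Agent.P145.PT (Sm TestOn lap)
open Vale.Agent.P145.FA (SDdat int_lap)
open Vale.Agent.P145.FA.Use (pt_bound expI_sub expI_sub_one norm_expI lap_smul est tendsto_of_param
  BM moments)
open Vale.Agent.P153.GFF (Csts pos var2)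
open Vale.Agent.P153.F.Top (c1 c2 cell)

/-! ### A bump function away from `ψ` -/

lemma cell_open (x y s : ℝ) : IsOpen (cell x y s) := by
  have hc1 : Continuous c1 := by unfold Top.c1; fun_prop
  have hc2 : Continuous c2 := by unfold Top.c2; fun_prop
  have h1 : IsOpen {z : ℝ × ℝ | x < c1 z} := isOpen_lt continuous_const hc1
  have h2 : IsOpen {z : ℝ × ℝ | y < c2 z} := isOpen_lt continuous_const hc2
  have h3 : IsOpen {z : ℝ × ℝ | c1 z + c2 z < s} := isOpen_lt (hc1.add hc2) continuous_const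
  exact h1.inter (h2.inter h3)

lemma exists_chi {b : PW} (hb : b.x0 + b.y0 < b.s0) {ψ : ℝ × ℝ → ℝ}
    (hψ : TestOn b.box ψ) : ∃ χ : ℝ × ℝ → ℝ, TestOn b.box χ ∧ (∫ x, χ x = 1) ∧
      ∀ x, ψ x * χ x = 0 := by
  have hbo : IsOpen b.box := cell_open _ _ _
  set O : Set (ℝ × ℝ) := b.box ∩ (tsupport ψ)ᶜ with hO
  have hOo : IsOpen O := hbo.inter (isClosed_tsupport ψ).isOpen_compl
  have h3 : (0 : ℝ) < √3 := by positivity
  have hne : O.Nonempty := by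
    set m : ℝ := (b.y0 + b.s0 - b.x0) / 2 with hm
    have e1 : ∀ t : ℝ, c1 (b.x0 + m / 2 + t, m * (√3 / 2)) = b.x0 + t := by
      intro t
      unfold Top.c1
      simp only
      field_simp
      ring
    have e2 : ∀ t : ℝ, c2 (b.x0 + m / 2 + t, m * (√3 / 2)) = m := by
      intro t
      unfold Top.c2
      simp only
      field_simp
    have hpn : (b.x0 + m / 2 + 0, m * (√3 / 2)) ∈ (tsupport ψ)ᶜ := by
      intro h
      have h1 := (hψ.2.2 h).1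
      rw [e1, add_zero] at h1
      exact lt_irrefl _ h1
    obtain ⟨r, hr, hball⟩ := Metric.isOpen_iff.1 (isClosed_tsupport ψ).isOpen_compl _ hpn
    set t : ℝ := min (r / 2) ((b.s0 - b.x0 - b.y0) / 4) with ht
    have ht0 : 0 < t := lt_min (by linarith) (by linarith)
    refine ⟨(b.x0 + m / 2 + t, m * (√3 / 2)), ⟨?_, ?_, ?_⟩, hball ?_⟩
    · rw [e1]; linarith
    · rw [e2]; linarith
    · rw [e1, e2]
      have := min_le_right (r / 2) ((b.s0 - b.x0 - b.y0) / 4)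
      linarith
    · rw [Metric.mem_ball, Prod.dist_eq, max_lt_iff]
      simp only [dist_self, Real.dist_eq]
      refine ⟨?_, hr⟩
      rw [add_sub_add_left_eq_sub, sub_zero, abs_of_pos ht0]
      have := min_le_left (r / 2) ((b.s0 - b.x0 - b.y0) / 4)
      linarith
  obtain ⟨p, hp⟩ := hne
  obtain ⟨r, hr, hball⟩ := Metric.isOpen_iff.1 hOo p hp
  have hs : 0 < r / 2 := by linarith
  have hsub : Metric.closedBall p (r / 2) ⊆ O :=
    (Metric.closedBall_subset_ball (by linarith)).trans hball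
  have hT : TestOn O (P145.PT.bump (r / 2) p) := P145.PT.bump_test hs hsub
  refine ⟨P145.PT.bump (r / 2) p, hT.mono Set.inter_subset_left, P145.PT.bump_int hs p,
    fun x => ?_⟩
  by_cases h : ψ x = 0
  · rw [h, zero_mul]
  · have h1 : x ∈ tsupport ψ := subset_tsupport _ h
    have h2 : P145.PT.bump (r / 2) p x = 0 := by
      by_contra h3
      exact (hT.2.2 (subset_tsupport _ h3)).2 h1
    rw [h2, mul_zero]

/-! ### Restriction of a functional to a set of vertices -/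

open Classical in
/-- The part of `ev w` in `A`. -/
noncomputable def evK (w : (ℤ × ℤ) →₀ ℝ) (A : Set (ℤ × ℤ)) (h : Hgt) : ℝ :=
  ∑ q ∈ w.support, if q ∈ A then w q * (h q : ℝ) else 0

open Classical in
lemma loc_evK (w : (ℤ × ℤ) →₀ ℝ) (A : Set (ℤ × ℤ)) : Loc A (evK w A) := by
  refine ⟨w.support.filter (· ∈ A), fun q hq => (Finset.mem_filter.1 hq).2, fun h h' hh => ?_⟩
  unfold evK
  refine Finset.sum_congr rfl fun q hq => ?_
  split_ifs with hA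
  · rw [hh q (Finset.mem_filter.2 ⟨hq, hA⟩)]
  · rfl

open Classical in
lemma evK_sum (w : (ℤ × ℤ) →₀ ℝ) {A1 A2 A3 : Set (ℤ × ℤ)}
    (hsub : ∀ q, w q ≠ 0 → q ∈ A1 ∨ q ∈ A2 ∨ q ∈ A3)
    (h12 : ∀ q ∈ A1, q ∉ A2) (h13 : ∀ q ∈ A1, q ∉ A3)
    (h23 : ∀ q ∈ A2, q ∉ A3) (h : Hgt) :
    ev w h = evK w A1 h + evK w A2 h + evK w A3 h := by
  unfold ev Finsupp.sum evK
  rw [← Finset.sum_add_distrib, ← Finset.sum_add_distrib]
  refine Finset.sum_congr rfl fun q hq => ?_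
  rcases hsub q (Finsupp.mem_support_iff.1 hq) with h1 | h1 | h1
  · rw [if_pos h1, if_neg (h12 q h1), if_neg (h13 q h1)]; ring
  · rw [if_pos h1, if_neg (fun h => h12 q h h1), if_neg (h23 q h1)]; ring
  · rw [if_pos h1, if_neg (fun h => h13 q h h1), if_neg (fun h => h23 q h h1)]; ring

lemma ev_arms {b : PW} (he : 0 < b.e) {g : ℝ × ℝ → ℝ} {K : ℝ}
    (cg : Csts g K) (hg : ∀ x, g x ≠ 0 → x ∈ b.K1 ∨ x ∈ b.K2 ∨ x ∈ b.K3)
    {δ : ℝ} (hδ : 0 < δ) (h : Hgt) :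
    ev (Wd δ g 0) h = evK (Wd δ g 0) (lat δ b.K1) h + evK (Wd δ g 0) (lat δ b.K2) h +
      evK (Wd δ g 0) (lat δ b.K3) h := by
  refine evK_sum _ (fun q hq => ?_) ?_ ?_ ?_ h
  · have h1 := Wd_supp cg hδ hq
    have h2 := hg _ h1
    rw [add_zero] at h2
    exact h2
  all_goals
    intro q h1 h2
    simp only [lat, PW.K1, PW.K2, PW.K3, Set.mem_ofPred_eq] at h1 h2
    linarith

/-! ### The data -/

/-- The functional of a test function. -/
noncomputable def Lf (δ : ℝ) (f : ℝ × ℝ → ℝ) (h : Hgt) : ℝ := ev (Wd δ f 0) h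

/-- Hypotheses on the three factors and on the moments. -/
structure Dat (P : Measure Fld) (δ : ℕ → ℝ) (b : PW) (D : Set (ℝ × ℝ))
    (X1 X2 X3 X : ℕ → Hgt → ℝ) : Prop where
  hb : b.x0 + b.y0 < b.s0
  he : 0 < b.e
  hbD : b.box ⊆ D
  l1 : ∀ n, Loc (lat (δ n) b.K1) (X1 n)
  l2 : ∀ n, Loc (lat (δ n) b.K2) (X2 n)
  l3 : ∀ n, Loc (lat (δ n) b.K3) (X3 n)
  n1 : ∀ n h, 0 ≤ X1 n h ∧ X1 n h ≤ 1
  n2 : ∀ n h, 0 ≤ X2 n h ∧ X2 n h ≤ 1
  n3 : ∀ n h, 0 ≤ X3 n h ∧ X3 n h ≤ 1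
  hX : ∀ n h, X n h = X1 n h * X2 n h * X3 n h
  int : ∀ᶠ n in atTop, Integrable (X n) (mu0 P)
  pos : ∃ c0 : ℝ, 0 < c0 ∧ ∀ᶠ n in atTop, c0 ≤ ∫ h, X n h ∂(mu0 P)
  mom : ∀ f, TestOn D f → ∀ k : ℕ, ∃ C : ℝ, 0 ≤ C ∧ ∀ᶠ n in atTop,
    Integrable (fun h => |Lf (δ n) f h| ^ k * X n h) (mu0 P) ∧
    ∫ h, |Lf (δ n) f h| ^ k * X n h ∂(mu0 P) ≤ C * ∫ h, X n h ∂(mu0 P)
  r1 : ∃ ρ : ℝ × ℝ → ℝ, TestOn b.K1 ρ ∧ TestOn D ρ ∧ ∫ x, ρ x = 1
  r3 : ∃ ρ : ℝ × ℝ → ℝ, TestOn b.K3 ρ ∧ TestOn D ρ ∧ ∫ x, ρ x = 1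

variable {P : Measure Fld} {δ : ℕ → ℝ} {b : PW} {D : Set (ℝ × ℝ)}
  {X1 X2 X3 X : ℕ → Hgt → ℝ}

lemma Dat.X_nonneg (d : Dat P δ b D X1 X2 X3 X) (n : ℕ) (h : Hgt) : 0 ≤ X n h := by
  rw [d.hX]
  exact mul_nonneg (mul_nonneg (d.n1 n h).1 (d.n2 n h).1) (d.n3 n h).1

lemma Dat.X_meas (d : Dat P δ b D X1 X2 X3 X) (n : ℕ) : Measurable (X n) := by
  have e : X n = fun h => X1 n h * X2 n h * X3 n h := funext fun h => d.hX n h
  rw [e]
  exact ((d.l1 n).measS.mul (d.l2 n).measS).mul (d.l3 n).measS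

lemma measurable_Lf (δ : ℝ) (f : ℝ × ℝ → ℝ) : Measurable (Lf δ f) := measurable_ev _

/-- Normalised functionals. -/
lemma nW_bound {f : ℝ × ℝ → ℝ} {A δ : ℝ} (hf1 : ∫ x, f x = 1)
    (h1 : |mass (Wd δ f 0) - ∫ x, f x| ≤ A * δ) (h2 : A * δ ≤ 1 / 2) (h : Hgt) :
    |ev (nW δ f 0) h| ≤ 2 * |Lf δ f h| := by
  rw [hf1] at h1
  have h3 : 1 / 2 ≤ mass (Wd δ f 0) := by
    have := (abs_le.1 h1).1
    linarith
  have h4 : 0 < mass (Wd δ f 0) := by linarith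
  unfold nW
  rw [ev_smul, abs_mul, abs_of_pos (inv_pos.2 h4)]
  refine mul_le_mul_of_nonneg_right ?_ (abs_nonneg _)
  rw [inv_le_comm₀ h4 (by norm_num)]
  linarith

lemma pp_bound {φ1 φ4 : (ℤ × ℤ) →₀ ℝ} {L η : ℝ} (hL2 : (L ^ 2)⁻¹ = η) (hη : 0 ≤ η) {h : Hgt}
    {r1 r4 : ℝ} (v1 : |ev φ1 h| ≤ 2 * |r1|) (v4 : |ev φ4 h| ≤ 2 * |r4|) :
    1 - gl φ1 L h * gl φ4 L h ≤ 4 * η * |r1| ^ 2 + 4 * η * |r4| ^ 2 := by
  have a1 := one_sub_gl φ1 L h
  have a2 := one_sub_gl φ4 L h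
  have a3 := gl_le_one φ1 L h
  have a4 := gl_le_one φ4 L h
  have key : ∀ {φ : (ℤ × ℤ) →₀ ℝ} {r : ℝ}, |ev φ h| ≤ 2 * |r| →
      (ev φ h) ^ 2 / (2 * L ^ 2) ≤ 4 * η * |r| ^ 2 := by
    intro φ r v
    have e : (ev φ h) ^ 2 / (2 * L ^ 2) = |ev φ h| ^ 2 * η / 2 := by
      rw [sq_abs, ← hL2]
      field_simp
    rw [e]
    have h1 := pow_le_pow_left₀ (abs_nonneg _) v 2
    have h2 := mul_le_mul_of_nonneg_right h1 hη
    have h3 : (2 * |r|) ^ 2 * η = 4 * η * |r| ^ 2 := by ring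
    have h4 : 0 ≤ |ev φ h| ^ 2 * η := by positivity
    linarith
  have a7 := key v1
  have a8 := key v4
  have a9 : 1 - gl φ1 L h * gl φ4 L h ≤ (1 - gl φ1 L h) + (1 - gl φ4 L h) := by
    have : 0 ≤ (1 - gl φ1 L h) * (1 - gl φ4 L h) :=
      mul_nonneg (by linarith) (by linarith)
    linarith
  linarith

/-- The exponential form of the Schwinger-Dyson equation. -/
theorem char_lim (hP : GFF.Plane P) {A0 : ℝ} (hA0 : 0 ≤ A0)
    (hA : ∀ x : ℤ × ℤ, var2 P x ≤ A0 * (1 + |(x.1 : ℝ)| + |(x.2 : ℝ)|)) {κ : ℝ}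
    (hclt : CLT P κ) (hδp : ∀ n, 0 < δ n) (hδ : Tendsto δ atTop (𝓝[>] 0))
    (d : Dat P δ b D X1 X2 X3 X) {ψ f0 g : ℝ × ℝ → ℝ} (hψ : TestOn b.box ψ) (hf0 : TestOn b.box f0) (hg : TestOn D g)
    (hgK : ∀ x, g x ≠ 0 → x ∈ b.K1 ∨ x ∈ b.K2 ∨ x ∈ b.K3) (s t : ℝ) :
    Tendsto (fun n => (∫ h, (X n h : ℂ) * (Complex.exp (Complex.I *
      ((t * Lf (δ n) (fun x => f0 x + g x) h : ℝ) : ℂ)) *
      (Complex.exp (Complex.I * ((s * Lf (δ n) (fun x => -lap ψ x) h : ℝ) : ℂ)) -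
        ((Real.exp (-(κ * (s * t * ∫ x, ψ x * f0 x)) -
          κ / 2 * (s ^ 2 * ∫ x, ψ x * (-lap ψ x))) : ℝ) : ℂ))) ∂(mu0 P)) /
      ((∫ h, X n h ∂(mu0 P) : ℝ) : ℂ)) atTop (𝓝 0) := by
  obtain ⟨χ, hχ, iχ, hψχ⟩ := exists_chi d.hb hψ
  obtain ⟨ρ1, hρ1, hρ1D, iρ1⟩ := d.r1
  obtain ⟨ρ4, hρ4, hρ4D, iρ4⟩ := d.r3
  have hV : TestOn D (fun x => -lap ψ x) := (hψ.lap.neg).mono d.hbD
  obtain ⟨C1, hC1, m1⟩ := d.mom ρ1 hρ1D 2
  obtain ⟨C4, hC4, m4⟩ := d.mom ρ4 hρ4D 2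
  obtain ⟨Cχ, hCχ, mχ⟩ := d.mom χ (hχ.mono d.hbD) 1
  obtain ⟨c0, hc0, hpos⟩ := d.pos
  -- masses
  have hmass : ∀ {f : ℝ × ℝ → ℝ}, Sm f → HasCompactSupport f → ∃ C : ℝ, 0 ≤ C ∧ ∀ δ : ℝ, 0 < δ →
      δ ≤ 1 → |mass (Wd δ f 0) - ∫ x, f x| ≤ C * δ := by
    intro f hf cf
    obtain ⟨K, hK⟩ := exists_csts hf cf
    have := hK.pos
    exact ⟨2 * K * (4 * K + 15) ^ 2, by positivity, fun δ h1 h2 => mass_Wd hK h1 h2 0⟩
  obtain ⟨A1, hA1, ma1⟩ := hmass hρ1.1 hρ1.2.1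
  obtain ⟨A4, hA4, ma4⟩ := hmass hρ4.1 hρ4.2.1
  obtain ⟨Aχ, hAχ, maχ⟩ := hmass hχ.1 hχ.2.1
  obtain ⟨AV, hAV, maV⟩ := hmass hV.1 hV.2.1
  have hV0 : ∫ x, -lap ψ x = 0 := by rw [integral_neg, int_lap hψ.1 hψ.2.1, neg_zero]
  set p : ℝ := ∫ x, ψ x * f0 x with hp
  set q : ℝ := ∫ x, ψ x * (-lap ψ x) with hq
  set α : ℝ := Real.exp (-(κ * (s * t * p)) - κ / 2 * (s ^ 2 * q)) with hα
  have h0 : Tendsto δ atTop (𝓝 0) := hδ.mono_right nhdsWithin_le_nhds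
  set ψ' : ℝ × ℝ → ℝ := fun x => s * ψ x with hψ'd
  set f0' : ℝ × ℝ → ℝ := fun x => t * f0 x with hf0'd
  set g' : ℝ × ℝ → ℝ := fun x => t * g x with hg'd
  have hψ' : TestOn b.box ψ' := hψ.smul s
  have hf0' : TestOn b.box f0' := hf0.smul t
  obtain ⟨_, kf0⟩ := exists_csts hf0.1 hf0.2.1
  obtain ⟨_, kf0'⟩ := exists_csts hf0'.1 hf0'.2.1
  obtain ⟨_, kg⟩ := exists_csts hg.1 hg.2.1
  obtain ⟨_, kg'⟩ := exists_csts (hg.smul t).1 (hg.smul t).2.1
  obtain ⟨_, kfg⟩ := exists_csts ((hf0.mono d.hbD).add hg).1 ((hf0.mono d.hbD).add hg).2.1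
  obtain ⟨_, kV⟩ := exists_csts hV.1 hV.2.1
  obtain ⟨_, kV'⟩ := exists_csts (hV.smul s).1 (hV.smul s).2.1
  have hg'K : ∀ x, g' x ≠ 0 → x ∈ b.K1 ∨ x ∈ b.K2 ∨ x ∈ b.K3 := by
    intro x hx
    refine hgK x fun h => hx ?_
    simp only [hg'd, h, mul_zero]
  have eα : Real.exp (-(κ * ∫ x, ψ' x * f0' x) - (κ / 2) * ∫ x, ψ' x * (-lap ψ' x)) = α := by
    rw [hα]
    have e1 : ∫ x, ψ' x * f0' x = s * t * p := by
      rw [hp, ← integral_const_mul]
      refine integral_congr_ae (Eventually.of_forall fun x => ?_)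
      simp only [hψ'd, hf0'd]
      ring
    have e2 : ∫ x, ψ' x * (-lap ψ' x) = s ^ 2 * q := by
      rw [hq, ← integral_const_mul]
      refine integral_congr_ae (Eventually.of_forall fun x => ?_)
      simp only [hψ'd]
      rw [lap_smul ψ hψ.1]
      ring
    rw [e1, e2]
  have hψχ' : ∀ x, ψ' x * χ x = 0 := fun x => by
    simp only [hψ'd]; rw [mul_assoc, hψχ, mul_zero]
  refine tendsto_of_param (C := (1 + |α|) * (4 * (C1 + C4))) (h0 := 1) one_pos fun η hη hη1 => ?_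
  set L : ℝ := (√η)⁻¹ with hL
  have hsη : 0 < √η := Real.sqrt_pos.2 hη
  have hL1 : 1 ≤ L := by
    rw [hL]
    refine (one_le_inv₀ hsη).2 ?_
    exact Real.sqrt_le_one.2 hη1.le
  have hL2 : (L ^ 2)⁻¹ = η := by
    rw [hL, inv_pow, inv_inv, Real.sq_sqrt hη.le]
  set G1 : ℕ → Hgt → ℂ := fun n h => ((X1 n h * gl (nW (δ n) ρ1 0) L h : ℝ) : ℂ) *
    Complex.exp (Complex.I * ((evK (Wd (δ n) g' 0) (lat (δ n) b.K1) h : ℝ) : ℂ)) with hG1
  set G2 : ℕ → Hgt → ℂ := fun n h => ((X2 n h : ℝ) : ℂ) *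
    Complex.exp (Complex.I * ((evK (Wd (δ n) g' 0) (lat (δ n) b.K2) h : ℝ) : ℂ)) with hG2
  set G3 : ℕ → Hgt → ℂ := fun n h => ((X3 n h * gl (nW (δ n) ρ4 0) L h : ℝ) : ℂ) *
    Complex.exp (Complex.I * ((evK (Wd (δ n) g' 0) (lat (δ n) b.K3) h : ℝ) : ℂ)) with hG3
  have locgl : ∀ {K : Set (ℝ × ℝ)} {ρ : ℝ × ℝ → ℝ} (n : ℕ), TestOn K ρ →
      Loc (lat (δ n) K) (gl (nW (δ n) ρ 0) L) := by
    intro K ρ n hρ
    obtain ⟨k, hk⟩ := exists_csts hρ.1 hρ.2.1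
    have hl : Loc (lat (δ n) K) (ev (Wd (δ n) ρ 0)) :=
      loc_Wd hk (fun x hx => hρ.2.2 (subset_tsupport _ hx)) (hδp n)
    have e : gl (nW (δ n) ρ 0) L = fun h => (fun r : ℝ => Real.exp (-(((mass (Wd (δ n) ρ 0))⁻¹ * r)
        ^ 2 / (2 * L ^ 2)))) (ev (Wd (δ n) ρ 0) h) := by
      funext h
      unfold gl nW
      rw [ev_smul]
    rw [e]
    exact hl.comp (fun r : ℝ => Real.exp (-(((mass (Wd (δ n) ρ 0))⁻¹ * r) ^ 2 / (2 * L ^ 2))))
  have l1 : ∀ n, Loc (lat (δ n) b.K1) (G1 n) := fun n =>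
    ((d.l1 n).comp₂ (locgl n hρ1) (fun x y => ((x * y : ℝ) : ℂ))).comp₂ (loc_evK _ _)
      (fun x y => x * Complex.exp (Complex.I * ((y : ℝ) : ℂ)))
  have l2 : ∀ n, Loc (lat (δ n) b.K2) (G2 n) := fun n =>
    (d.l2 n).comp₂ (loc_evK _ _) (fun x y => (x : ℂ) * Complex.exp (Complex.I * ((y : ℝ) : ℂ)))
  have l3 : ∀ n, Loc (lat (δ n) b.K3) (G3 n) := fun n =>
    ((d.l3 n).comp₂ (locgl n hρ4) (fun x y => ((x * y : ℝ) : ℂ))).comp₂ (loc_evK _ _)
      (fun x y => x * Complex.exp (Complex.I * ((y : ℝ) : ℂ)))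
  have b2 : ∀ n h, ‖G2 n h‖ ≤ 1 := fun n h => by
    rw [hG2]
    simp only
    rw [norm_mul, norm_expI, mul_one, Complex.norm_real, Real.norm_eq_abs,
      abs_of_nonneg (d.n2 n h).1]
    exact (d.n2 n h).2
  have b1 : ∀ n h, ‖G1 n h‖ ≤ gl (nW (δ n) ρ1 0) L h := fun n h => by
    rw [hG1]
    simp only
    have h1 := gl_pos (nW (δ n) ρ1 0) L h
    have h2 := d.n1 n h
    rw [norm_mul, norm_expI, mul_one, Complex.norm_real, Real.norm_eq_abs,
      abs_of_nonneg (mul_nonneg h2.1 h1.le)]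
    nlinarith
  have b3 : ∀ n h, ‖G3 n h‖ ≤ gl (nW (δ n) ρ4 0) L h := fun n h => by
    rw [hG3]
    simp only
    have h1 := gl_pos (nW (δ n) ρ4 0) L h
    have h2 := d.n3 n h
    rw [norm_mul, norm_expI, mul_one, Complex.norm_real, Real.norm_eq_abs,
      abs_of_nonneg (mul_nonneg h2.1 h1.le)]
    nlinarith
  have hfa := fa_box hP hA0 hA hclt hδ b d.he hf0' hψ' hχ iχ hψχ' hρ1 iρ1 hρ4 iρ4
    (lt_of_lt_of_le one_pos hL1) G1 G2 G3 l1 l2 l3 b2 b1 b3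
  rw [eα] at hfa
  -- the functionals
  set V : ℕ → Hgt → ℝ := fun n h => Lf (δ n) (fun x => f0 x + g x) h with hVd
  set U : ℕ → Hgt → ℝ := fun n h => Lf (δ n) (fun x => -lap ψ x) h with hUd
  set m : ℕ → ℝ := fun n => mass (Wd (δ n) (fun x => -lap ψ x) 0) with hm
  set Φ : ℕ → Hgt → ℝ := fun n h => ev (nW (δ n) χ 0) h with hΦ
  set pp : ℕ → Hgt → ℝ := fun n h => gl (nW (δ n) ρ1 0) L h * gl (nW (δ n) ρ4 0) L h with hpp
  have hprod : ∀ n h, Yf (Wd (δ n) f0' 0) (zW (δ n) (fun x => -lap ψ' x) χ 0) α h *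
      G1 n h * G2 n h * G3 n h =
      (X n h : ℂ) * (((pp n h : ℝ) : ℂ) * (Complex.exp (Complex.I * ((t * V n h : ℝ) : ℂ)) *
        (Complex.exp (Complex.I * ((s * U n h - s * m n * Φ n h : ℝ) : ℂ)) - (α : ℂ)))) := by
    intro n h
    have e1 : ev (Wd (δ n) f0' 0) h + ev (Wd (δ n) g' 0) h = t * V n h := by
      rw [hVd]
      simp only [Lf]
      rw [Wd_add kf0 kg kfg (hδp n), ev_add, Wd_smul kf0 kf0' (hδp n),
        Wd_smul kg kg' (hδp n), ev_smul, ev_smul]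
      ring
    have e2 := ev_arms d.he kg' hg'K (hδp n) h
    have e3 : ev (zW (δ n) (fun x => -lap ψ' x) χ 0) h = s * U n h - s * m n * Φ n h := by
      have e4 : (fun x => -lap ψ' x) = fun x => s * (-lap ψ x) := by
        funext x
        rw [hψ'd, lap_smul ψ hψ.1]
        ring
      rw [e4]
      unfold zW
      rw [Wd_smul kV kV' (hδp n), ev_sub, ev_smul, ev_smul, mass_smul']
      rfl
    rw [e2] at e1
    have e5 : Complex.exp (Complex.I * ((t * V n h : ℝ) : ℂ)) =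
        Complex.exp (Complex.I * ((ev (Wd (δ n) f0' 0) h : ℝ) : ℂ)) *
        Complex.exp (Complex.I * ((evK (Wd (δ n) g' 0) (lat (δ n) b.K1) h : ℝ) : ℂ)) *
        Complex.exp (Complex.I * ((evK (Wd (δ n) g' 0) (lat (δ n) b.K2) h : ℝ) : ℂ)) *
        Complex.exp (Complex.I * ((evK (Wd (δ n) g' 0) (lat (δ n) b.K3) h : ℝ) : ℂ)) := by
      rw [← Complex.exp_add, ← Complex.exp_add, ← Complex.exp_add, ← e1]
      congr 1
      push_cast
      ring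
    rw [e5, d.hX n h]
    simp only [hG1, hG2, hG3, hpp, Yf]
    rw [e3]
    push_cast
    ring
  simp only [hprod] at hfa
  set An : ℕ → ℂ := fun n => ∫ h, (X n h : ℂ) * (((pp n h : ℝ) : ℂ) *
    (Complex.exp (Complex.I * ((t * V n h : ℝ) : ℂ)) *
        (Complex.exp (Complex.I * ((s * U n h - s * m n * Φ n h : ℝ) : ℂ)) - (α : ℂ))))
    ∂(mu0 P) with hAn
  have hmn : Tendsto m atTop (𝓝 0) := by
    have h1 : Tendsto (fun n => AV * δ n) atTop (𝓝 0) := by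
      have := h0.const_mul AV
      rwa [mul_zero] at this
    refine squeeze_zero_norm' ?_ h1
    filter_upwards [h0.eventually (ge_mem_nhds one_pos)] with n hn
    have := maV (δ n) (hδp n) hn
    rw [hV0, sub_zero] at this
    exact this
  refine ⟨fun n => ‖An n‖ / c0 + |s| * |m n| * (2 * Cχ), ?_, ?_⟩
  · have a1 := (hfa.norm).div_const c0
    have a2 := (hmn.norm.const_mul |s|).mul_const (2 * Cχ)
    rw [norm_zero, zero_div] at a1
    rw [norm_zero, mul_zero, zero_mul] at a2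
    have := a1.add a2
    rw [add_zero] at this
    exact this
  · have hms : ∀ {A : ℝ}, 0 ≤ A → ∀ᶠ n in atTop, A * δ n ≤ 1 / 2 := by
      intro A hA
      have h1 : Tendsto (fun n => A * δ n) atTop (𝓝 0) := by
        have := h0.const_mul A
        rwa [mul_zero] at this
      exact h1.eventually (ge_mem_nhds (by norm_num))
    filter_upwards [h0.eventually (ge_mem_nhds one_pos), hms hA1, hms hA4, hms hAχ, m1, m4, mχ,
      d.int, hpos] with n hn1 q1 q4 qχ w1 w4 wχ hXi hIc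
    have hIpos : 0 < ∫ h, X n h ∂(mu0 P) := lt_of_lt_of_le hc0 hIc
    set In : ℝ := ∫ h, X n h ∂(mu0 P) with hIn
    have v1 := nW_bound iρ1 (ma1 (δ n) (hδp n) hn1) q1
    have v4 := nW_bound iρ4 (ma4 (δ n) (hδp n) hn1) q4
    have vχ := nW_bound iχ (maχ (δ n) (hδp n) hn1) qχ
    have hfin := est (μ := mu0 P) (Y := X n) (U := U n) (V := V n) (Φ := Φ n) (pp := pp n)
      (r1 := Lf (δ n) ρ1) (r4 := Lf (δ n) ρ4) (rχ := Lf (δ n) χ) (s := s) (t := t) (m := m n)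
      (α := α) (η := η) (Cχ := Cχ) (C1 := C1) (C4 := C4) (I0 := In)
      (measurable_Lf _ _) (measurable_Lf _ _) (measurable_ev _)
      ((measurable_gl _ _).mul (measurable_gl _ _)) (d.X_nonneg n) hXi
      (fun h => ⟨mul_nonneg (gl_pos _ _ _).le (gl_pos _ _ _).le,
        mul_le_one₀ (gl_le_one _ _ _) (gl_pos _ _ _).le (gl_le_one _ _ _)⟩) hη.le vχ
      (fun h => pp_bound hL2 hη.le (v1 h) (v4 h)) wχ w1 w4
    rw [norm_div, Complex.norm_real, Real.norm_eq_abs, abs_of_pos hIpos, div_le_iff₀ hIpos]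
    refine hfin.trans ?_
    have h9 : ‖An n‖ ≤ ‖An n‖ / c0 * In := by
      rw [div_mul_eq_mul_div, le_div_iff₀ hc0]
      exact mul_le_mul_of_nonneg_left hIc (norm_nonneg _)
    rw [show (‖An n‖ / c0 + |s| * |m n| * (2 * Cχ) + (1 + |α|) * (4 * (C1 + C4)) * η) * In =
      ‖An n‖ / c0 * In + (|s| * |m n| * (2 * Cχ) + (1 + |α|) * (4 * (C1 + C4)) * η) * In by ring]
    exact add_le_add h9 le_rfl

/-- The normalised measure. -/
noncomputable def MX (P : Measure Fld) (X : Hgt → ℝ) : Measure Hgt :=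
  (mu0 P).withDensity fun h => ENNReal.ofReal (X h / ∫ h, X h ∂(mu0 P))

lemma MX_int {E : Type*} [NormedAddCommGroup E] [NormedSpace ℝ E] {X : Hgt → ℝ}
    (hXm : Measurable X) (hX0 : ∀ h, 0 ≤ X h) (F : Hgt → E) :
    ∫ h, F h ∂(MX P X) = (∫ h, X h ∂(mu0 P))⁻¹ • ∫ h, X h • F h ∂(mu0 P) := by
  have hI : 0 ≤ ∫ h, X h ∂(mu0 P) := integral_nonneg hX0
  have hm : Measurable fun h => ENNReal.ofReal (X h / ∫ h, X h ∂(mu0 P)) :=
    ENNReal.measurable_ofReal.comp (hXm.div_const _)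
  unfold MX
  rw [integral_withDensity_eq_integral_toReal_smul hm
    (Eventually.of_forall fun h => ENNReal.ofReal_lt_top), ← integral_smul]
  refine integral_congr_ae (Eventually.of_forall fun h => ?_)
  simp only
  rw [ENNReal.toReal_ofReal (div_nonneg (hX0 h) hI), smul_smul, div_eq_inv_mul]

lemma MX_integrable {X : Hgt → ℝ} (hXm : Measurable X) (hX0 : ∀ h, 0 ≤ X h) {F : Hgt → ℝ}
    (hF : Integrable (fun h => F h * X h) (mu0 P)) : Integrable F (MX P X) := by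
  have hI : 0 ≤ ∫ h, X h ∂(mu0 P) := integral_nonneg hX0
  have hm : Measurable fun h => ENNReal.ofReal (X h / ∫ h, X h ∂(mu0 P)) :=
    ENNReal.measurable_ofReal.comp (hXm.div_const _)
  unfold MX
  rw [integrable_withDensity_iff_integrable_smul' hm
    (Eventually.of_forall fun h => ENNReal.ofReal_lt_top)]
  refine (hF.const_mul (∫ h, X h ∂(mu0 P))⁻¹).congr (Eventually.of_forall fun h => ?_)
  simp only [smul_eq_mul]
  rw [ENNReal.toReal_ofReal (div_nonneg (hX0 h) hI), div_eq_inv_mul]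
  ring

lemma MX_finite {X : Hgt → ℝ} : IsFiniteMeasure (MX P X) := by
  unfold MX
  by_cases hXi : Integrable X (mu0 P)
  · exact isFiniteMeasure_withDensity_ofReal (hXi.div_const _).2
  · rw [integral_undef hXi]
    simp only [div_zero, ENNReal.ofReal_zero]
    rw [show (fun _ : Hgt => (0 : ENNReal)) = 0 from rfl, withDensity_zero]
    infer_instance

lemma Dat.bm (d : Dat P δ b D X1 X2 X3 X) {f : ℝ × ℝ → ℝ} (hf : TestOn D f) :
    BM (fun n => MX P (X n)) (fun n => Lf (δ n) f) := by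
  refine ⟨fun n => measurable_Lf _ _, fun k => ?_⟩
  obtain ⟨C, hC, hm⟩ := d.mom f hf k
  obtain ⟨c0, hc0, hpos⟩ := d.pos
  refine ⟨C, hC, ?_⟩
  filter_upwards [hm, hpos] with n h1 h2
  have hI : 0 < ∫ h, X n h ∂(mu0 P) := lt_of_lt_of_le hc0 h2
  refine ⟨MX_integrable (d.X_meas n) (d.X_nonneg n) h1.1, ?_⟩
  rw [MX_int (d.X_meas n) (d.X_nonneg n), smul_eq_mul, inv_mul_le_iff₀ hI]
  refine le_trans (le_of_eq ?_) (h1.2.trans (le_of_eq (mul_comm _ _)))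
  refine integral_congr_ae (Eventually.of_forall fun h => ?_)
  simp only [smul_eq_mul]
  ring

end Vale.Agent.P153.F.SD
end

section

/-!
P153, block F-SD: the Schwinger-Dyson equations for the moments, hypotheses for large `n` only and
even moments only.
-/

namespace Vale.Agent.P153.F.SD

open Finset Filter Topology MeasureTheory
open Vale.Agent.P145.PT (Sm TestOn lap)
open Vale.Agent.P153.GFF (Csts pos var2)
open Vale.Agent.P153.F.Top (c1 c2 cell)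

/-- Hypotheses on the three factors and on the even moments, for large `n`. -/
structure DatE (P : Measure Fld) (δ : ℕ → ℝ) (b : PW) (D : Set (ℝ × ℝ))
    (X1 X2 X3 X : ℕ → Hgt → ℝ) : Prop where
  hb : b.x0 + b.y0 < b.s0
  he : 0 < b.e
  hbD : b.box ⊆ D
  l1 : ∀ᶠ n in atTop, Loc (lat (δ n) b.K1) (X1 n)
  l2 : ∀ᶠ n in atTop, Loc (lat (δ n) b.K2) (X2 n)
  l3 : ∀ᶠ n in atTop, Loc (lat (δ n) b.K3) (X3 n)
  n1 : ∀ᶠ n in atTop, ∀ h, 0 ≤ X1 n h ∧ X1 n h ≤ 1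
  n2 : ∀ᶠ n in atTop, ∀ h, 0 ≤ X2 n h ∧ X2 n h ≤ 1
  n3 : ∀ᶠ n in atTop, ∀ h, 0 ≤ X3 n h ∧ X3 n h ≤ 1
  hX : ∀ᶠ n in atTop, ∀ h, X n h = X1 n h * X2 n h * X3 n h
  int : ∀ᶠ n in atTop, Integrable (X n) (mu0 P)
  pos : ∃ c0 : ℝ, 0 < c0 ∧ ∀ᶠ n in atTop, c0 ≤ ∫ h, X n h ∂(mu0 P)
  mom : ∀ f, TestOn D f → ∀ k : ℕ, ∃ C : ℝ, ∀ᶠ n in atTop,
    Integrable (fun h => Lf (δ n) f h ^ (2 * k) * X n h) (mu0 P) ∧
    ∫ h, Lf (δ n) f h ^ (2 * k) * X n h ∂(mu0 P) ≤ C * ∫ h, X n h ∂(mu0 P)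
  r1 : ∃ ρ : ℝ × ℝ → ℝ, TestOn (b.K1 ∩ D) ρ ∧ ∫ x, ρ x = 1
  r3 : ∃ ρ : ℝ × ℝ → ℝ, TestOn (b.K3 ∩ D) ρ ∧ ∫ x, ρ x = 1

variable {P : Measure Fld} {δ : ℕ → ℝ} {b : PW} {D : Set (ℝ × ℝ)}
  {X1 X2 X3 X : ℕ → Hgt → ℝ}

lemma psi_g {ψ g : ℝ × ℝ → ℝ} (he : 0 < b.e) (hψ : TestOn b.box ψ)
    (hgK : ∀ x, g x ≠ 0 → x ∈ b.K1 ∨ x ∈ b.K2 ∨ x ∈ b.K3) (x : ℝ × ℝ) :
    ψ x * g x = 0 := by
  by_cases h1 : ψ x = 0
  · rw [h1, zero_mul]
  by_cases h2 : g x = 0
  · rw [h2, mul_zero]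
  exfalso
  obtain ⟨a1, a2, a3⟩ := hψ.2.2 (subset_tsupport _ h1)
  rcases hgK x h2 with h | h | h
  · have := h.1; linarith
  · have := h.1; linarith
  · have := h.1; linarith

theorem DatE.dat (d : DatE P δ b D X1 X2 X3 X) : ∃ Y1 Y2 Y3 Y : ℕ → Hgt → ℝ,
    Dat P δ b D Y1 Y2 Y3 Y ∧ ∀ᶠ n in atTop, Y n = X n := by
  classical
  obtain ⟨N, hN⟩ := eventually_atTop.1 (d.l1.and (d.l2.and (d.l3.and (d.n1.and
    (d.n2.and (d.n3.and d.hX))))))
  set Y1 : ℕ → Hgt → ℝ := fun n => if N ≤ n then X1 n else fun _ => 0 with hY1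
  set Y2 : ℕ → Hgt → ℝ := fun n => if N ≤ n then X2 n else fun _ => 0 with hY2
  set Y3 : ℕ → Hgt → ℝ := fun n => if N ≤ n then X3 n else fun _ => 0 with hY3
  set Y : ℕ → Hgt → ℝ := fun n => if N ≤ n then X n else fun _ => 0 with hY
  have hc : ∀ A : Set (ℤ × ℤ), Loc A (fun _ : Hgt => (0 : ℝ)) := fun A =>
    ⟨∅, fun q hq => absurd hq (Finset.notMem_empty q), fun _ _ _ => rfl⟩
  have hYX : ∀ᶠ n in atTop, Y n = X n := by
    filter_upwards [eventually_ge_atTop N] with n hn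
    simp only [hY, if_pos hn]
  refine ⟨Y1, Y2, Y3, Y, ?_, hYX⟩
  · refine ⟨d.hb, d.he, d.hbD, ?_, ?_, ?_, ?_, ?_, ?_, ?_, ?_, ?_, ?_, ?_, ?_⟩
    · intro n
      by_cases hn : N ≤ n
      · simp only [hY1, if_pos hn]; exact (hN n hn).1
      · simp only [hY1, if_neg hn]; exact hc _
    · intro n
      by_cases hn : N ≤ n
      · simp only [hY2, if_pos hn]; exact (hN n hn).2.1
      · simp only [hY2, if_neg hn]; exact hc _
    · intro n
      by_cases hn : N ≤ n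
      · simp only [hY3, if_pos hn]; exact (hN n hn).2.2.1
      · simp only [hY3, if_neg hn]; exact hc _
    · intro n h
      by_cases hn : N ≤ n
      · simp only [hY1, if_pos hn]; exact (hN n hn).2.2.2.1 h
      · simp only [hY1, if_neg hn]; norm_num
    · intro n h
      by_cases hn : N ≤ n
      · simp only [hY2, if_pos hn]; exact (hN n hn).2.2.2.2.1 h
      · simp only [hY2, if_neg hn]; norm_num
    · intro n h
      by_cases hn : N ≤ n
      · simp only [hY3, if_pos hn]; exact (hN n hn).2.2.2.2.2.1 h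
      · simp only [hY3, if_neg hn]; norm_num
    · intro n h
      by_cases hn : N ≤ n
      · simp only [hY, hY1, hY2, hY3, if_pos hn]; exact (hN n hn).2.2.2.2.2.2 h
      · simp only [hY, hY1, hY2, hY3, if_neg hn]; norm_num
    · filter_upwards [d.int, hYX] with n h1 h2
      rw [h2]; exact h1
    · obtain ⟨c0, hc0, h⟩ := d.pos
      refine ⟨c0, hc0, ?_⟩
      filter_upwards [h, hYX] with n h1 h2
      rw [h2]; exact h1
    · intro f hf k
      obtain ⟨C, hC⟩ := d.mom f hf k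
      obtain ⟨c0, hc0, hpos⟩ := d.pos
      refine ⟨1 + |C|, by positivity, ?_⟩
      filter_upwards [hC, hpos, hYX, d.int, eventually_ge_atTop N] with n h1 h2 h3 h4 h5
      rw [h3]
      have hI : 0 < ∫ h, X n h ∂(mu0 P) := lt_of_lt_of_le hc0 h2
      have hX0 : ∀ h, 0 ≤ X n h := by
        intro h
        obtain ⟨-, -, -, e1, e2, e3, e5⟩ := hN n h5
        rw [e5 h]
        exact mul_nonneg (mul_nonneg (e1 h).1 (e2 h).1) (e3 h).1
      have key : ∀ h, |Lf (δ n) f h| ^ k * X n h ≤ X n h + Lf (δ n) f h ^ (2 * k) * X n h := by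
        intro h
        have e1 : Lf (δ n) f h ^ (2 * k) = (|Lf (δ n) f h| ^ k) ^ 2 := by
          rw [← pow_mul, mul_comm k 2, pow_mul |Lf (δ n) f h|, sq_abs, ← pow_mul]
        rw [e1]
        have e2 : |Lf (δ n) f h| ^ k ≤ 1 + (|Lf (δ n) f h| ^ k) ^ 2 := by
          nlinarith [sq_nonneg (|Lf (δ n) f h| ^ k - 1), sq_nonneg (|Lf (δ n) f h| ^ k)]
        nlinarith [hX0 h]
      have hi2 : Integrable (fun h => X n h + Lf (δ n) f h ^ (2 * k) * X n h) (mu0 P) :=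
        h4.add h1.1
      have hi : Integrable (fun h => |Lf (δ n) f h| ^ k * X n h) (mu0 P) := by
        refine hi2.mono' ?_ (Eventually.of_forall fun h => ?_)
        · have m1 : Measurable (fun h => |Lf (δ n) f h| ^ k) := by
            have := measurable_Lf (δ n) f
            fun_prop
          exact m1.aestronglyMeasurable.mul h4.1
        · rw [Real.norm_eq_abs, abs_of_nonneg (mul_nonneg (by positivity) (hX0 h))]
          exact key h
      refine ⟨hi, (integral_mono hi hi2 key).trans ?_⟩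
      rw [integral_add h4 h1.1, add_mul, one_mul]
      refine add_le_add le_rfl (h1.2.trans ?_)
      exact mul_le_mul_of_nonneg_right (le_abs_self C) hI.le
    · obtain ⟨ρ, h1, h2⟩ := d.r1
      exact ⟨ρ, h1.mono Set.inter_subset_left, h1.mono Set.inter_subset_right, h2⟩
    · obtain ⟨ρ, h1, h2⟩ := d.r3
      exact ⟨ρ, h1.mono Set.inter_subset_left, h1.mono Set.inter_subset_right, h2⟩

end Vale.Agent.P153.F.SD
end

section

/-!
P153, block F-SD: the Schwinger-Dyson equations for the moments of the odd heights (measure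
`muT P`).
-/

namespace Vale.Agent.P153.F.SD

open Finset Filter Topology MeasureTheory Complex
open Vale.Agent.P145.PT (Sm TestOn lap)
open Vale.Agent.P145.FA (SDdat int_lap)
open Vale.Agent.P145.FA.Use (BM moments norm_expI expI_sub_one)
open Vale.Agent.P153.GFF (Csts pos var2)
open Vale.Agent.P153.F.Top (c1 c2 cell)

/-! ### Shift of the limit -/

section shift
variable {Ω : Type*} [MeasurableSpace Ω] {M : ℕ → Measure Ω} {U V : ℕ → Ω → ℝ}

/-- Bounded moments are stable under bounded shifts. -/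
lemma bm_shift [∀ n, IsFiniteMeasure (M n)] (hU : BM M U) {c : ℕ → ℝ} {A : ℝ}
    (hc : ∀ᶠ n in atTop, |c n| ≤ A) : BM M (fun n ω => U n ω - c n) := by
  refine ⟨fun n => (hU.1 n).sub_const _, fun k => ?_⟩
  obtain ⟨C, hC, h1⟩ := hU.2 k
  obtain ⟨C0, hC0, h0⟩ := hU.2 0
  refine ⟨2 ^ (k - 1) * (C + |A| ^ k * C0), by positivity, ?_⟩
  filter_upwards [h1, h0, hc] with n e1 e0 ec
  have key : ∀ ω, |U n ω - c n| ^ k ≤ 2 ^ (k - 1) * (|U n ω| ^ k + |A| ^ k * |U n ω| ^ 0) := by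
    intro ω
    have a1 : |U n ω - c n| ≤ |U n ω| + |A| :=
      (abs_sub _ _).trans (add_le_add le_rfl (ec.trans (le_abs_self A)))
    rw [pow_zero, mul_one]
    exact (pow_le_pow_left₀ (abs_nonneg _) a1 k).trans
      (add_pow_le (abs_nonneg _) (abs_nonneg _) k)
  have i1 : Integrable (fun ω => 2 ^ (k - 1) * (|U n ω| ^ k + |A| ^ k * |U n ω| ^ 0)) (M n) :=
    (e1.1.add (e0.1.const_mul _)).const_mul _
  have mU := hU.1 n
  have m1 : Measurable fun ω => |U n ω - c n| ^ k := by fun_prop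
  have i2 : Integrable (fun ω => |U n ω - c n| ^ k) (M n) := by
    refine i1.mono' m1.aestronglyMeasurable (Eventually.of_forall fun ω => ?_)
    rw [Real.norm_eq_abs, abs_of_nonneg (by positivity)]
    exact key ω
  refine ⟨i2, (integral_mono i2 i1 key).trans ?_⟩
  rw [integral_const_mul, integral_add e1.1 (e0.1.const_mul _), integral_const_mul]
  refine mul_le_mul_of_nonneg_left ?_ (by positivity)
  exact add_le_add e1.2 (mul_le_mul_of_nonneg_left e0.2 (by positivity))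

/-- The limit of the characteristic functions is stable under shifts. -/
lemma char_shift [∀ n, IsFiniteMeasure (M n)] (mU : ∀ n, Measurable (U n))
    (mV : ∀ n, Measurable (V n)) {u v : ℕ → ℝ} (hu : Tendsto u atTop (𝓝 0)) {C : ℝ}
    (hM : ∀ᶠ n in atTop, (M n).real Set.univ ≤ C) {s t α : ℝ}
    (h : Tendsto (fun n => ∫ ω, cexp (I * ((t * V n ω : ℝ) : ℂ)) *
      (cexp (I * ((s * U n ω : ℝ) : ℂ)) - (α : ℂ)) ∂(M n)) atTop (𝓝 0)) :
    Tendsto (fun n => ∫ ω, cexp (I * ((t * (V n ω - v n) : ℝ) : ℂ)) *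
      (cexp (I * ((s * (U n ω - u n) : ℝ) : ℂ)) - (α : ℂ)) ∂(M n)) atTop (𝓝 0) := by
  have hb : Tendsto (fun n => ‖∫ ω, cexp (I * ((t * V n ω : ℝ) : ℂ)) *
      (cexp (I * ((s * U n ω : ℝ) : ℂ)) - (α : ℂ)) ∂(M n)‖ + |α| * (|s| * |u n|) * C)
      atTop (𝓝 0) := by
    have h1 := h.norm
    have h2 := ((hu.abs.const_mul |s|).const_mul |α|).mul_const C
    rw [abs_zero, mul_zero, mul_zero, zero_mul] at h2
    rw [norm_zero] at h1
    have := h1.add h2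
    rwa [add_zero] at this
  refine squeeze_zero_norm' ?_ hb
  filter_upwards [hM] with n hn
  have mUn := mU n
  have mVn := mV n
  have i1 : Integrable (fun ω => cexp (I * ((t * V n ω : ℝ) : ℂ)) *
      (cexp (I * ((s * U n ω : ℝ) : ℂ)) - (α : ℂ))) (M n) := by
    refine Integrable.of_bound (C := 1 + |α|) ?_ (Eventually.of_forall fun ω => ?_)
    · have : Measurable fun ω => cexp (I * ((t * V n ω : ℝ) : ℂ)) *
        (cexp (I * ((s * U n ω : ℝ) : ℂ)) - (α : ℂ)) := by fun_prop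
      exact this.aestronglyMeasurable
    · rw [norm_mul, norm_expI, one_mul]
      refine (norm_sub_le _ _).trans ?_
      rw [norm_expI, Complex.norm_real, Real.norm_eq_abs]
  have i2 : Integrable (fun ω => cexp (I * ((t * V n ω : ℝ) : ℂ))) (M n) := by
    refine Integrable.of_bound (C := 1) ?_ (Eventually.of_forall fun ω => ?_)
    · have : Measurable fun ω => cexp (I * ((t * V n ω : ℝ) : ℂ)) := by fun_prop
      exact this.aestronglyMeasurable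
    · rw [norm_expI]
  set E1 : ℂ := cexp (I * ((-(t * v n) : ℝ) : ℂ)) with hE1
  set E2 : ℂ := cexp (I * ((-(s * u n) : ℝ) : ℂ)) with hE2
  have key : ∀ ω, cexp (I * ((t * (V n ω - v n) : ℝ) : ℂ)) *
      (cexp (I * ((s * (U n ω - u n) : ℝ) : ℂ)) - (α : ℂ)) =
      E1 * (E2 * (cexp (I * ((t * V n ω : ℝ) : ℂ)) * (cexp (I * ((s * U n ω : ℝ) : ℂ)) - (α : ℂ))) +
        (α : ℂ) * (E2 - 1) * cexp (I * ((t * V n ω : ℝ) : ℂ))) := by
    intro ω
    have a1 : cexp (I * ((t * (V n ω - v n) : ℝ) : ℂ)) = E1 * cexp (I * ((t * V n ω : ℝ) : ℂ)) := by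
      rw [hE1, ← Complex.exp_add]
      congr 1
      push_cast
      ring
    have a2 : cexp (I * ((s * (U n ω - u n) : ℝ) : ℂ)) = E2 * cexp (I * ((s * U n ω : ℝ) : ℂ)) := by
      rw [hE2, ← Complex.exp_add]
      congr 1
      push_cast
      ring
    rw [a1, a2]
    ring
  simp only [key]
  rw [integral_const_mul, integral_add (i1.const_mul _) (i2.const_mul _), integral_const_mul,
    integral_const_mul, norm_mul]
  have n1 : ‖E1‖ = 1 := norm_expI _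
  have n2 : ‖E2‖ = 1 := norm_expI _
  have n3 : ‖E2 - 1‖ ≤ |s| * |u n| := by
    refine (expI_sub_one _).trans (le_of_eq ?_)
    rw [abs_neg, abs_mul]
  rw [n1, one_mul]
  refine (norm_add_le _ _).trans (add_le_add ?_ ?_)
  · rw [norm_mul, n2, one_mul]
  · rw [norm_mul, norm_mul, Complex.norm_real, Real.norm_eq_abs]
    have n4 : ‖∫ ω, cexp (I * ((t * V n ω : ℝ) : ℂ)) ∂(M n)‖ ≤ C := by
      refine (norm_integral_le_of_norm_le_const (C := 1) (Eventually.of_forall fun ω => ?_)).trans ?_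
      · rw [norm_expI]
      · rw [one_mul]; exact hn
    exact mul_le_mul (mul_le_mul_of_nonneg_left n3 (abs_nonneg _)) n4 (norm_nonneg _)
      (by positivity)

end shift

/-! ### Odd heights -/

/-- Shift of the heights by `-1`. -/
def sh (h : Hgt) : Hgt := fun q => h q - 1

lemma measurable_sh : Measurable sh := by
  refine measurable_pi_iff.2 fun x => ?_
  exact measurable_from_top (f := fun n : ℤ => n - 1).comp (measurable_pi_apply x)

/-- The law of the odd heights is the image of the law of the even heights. -/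
lemma muT_eq (P : Measure Fld) : muT P = (mu0 P).map sh := by
  have hm : ∀ k : ℤ, Measurable fun (φ : Fld) (q : ℤ × ℤ) => pth φ q + 2 * k := by
    intro k
    refine measurable_pi_iff.2 fun x => ?_
    exact measurable_from_top (f := fun n : ℤ => 2 * n + 2 * k).comp (measurable_pi_apply x)
  unfold F.muT mu0
  rw [Measure.map_sum measurable_sh.aemeasurable]
  congr 1
  funext k
  rw [Measure.map_map measurable_sh (hm k)]
  rfl

lemma Loc.sh {R : Type} {A : Set (ℤ × ℤ)} {F : Hgt → R} (hF : Loc A F) :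
    Loc A (fun h => F (sh h)) := by
  obtain ⟨Λ, h1, h2⟩ := hF
  refine ⟨Λ, h1, fun h h' hh => h2 _ _ fun q hq => ?_⟩
  unfold SD.sh
  rw [hh q hq]

lemma ev_sh (w : (ℤ × ℤ) →₀ ℝ) (h : Hgt) : ev w (sh h) = ev w h - mass w := by
  unfold ev mass SD.sh
  rw [← Finsupp.sum_sub]
  refine Finsupp.sum_congr fun q _ => ?_
  push_cast
  ring

lemma int_muT {P : Measure Fld} {E : Type*} [NormedAddCommGroup E] [NormedSpace ℝ E]
    {F : Hgt → E} (hF : StronglyMeasurable F) :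
    ∫ h, F h ∂(muT P) = ∫ h, F (sh h) ∂(mu0 P) := by
  rw [muT_eq, integral_map measurable_sh.aemeasurable hF.aestronglyMeasurable]

lemma integrable_muT {P : Measure Fld} {F : Hgt → ℝ} (hF : Measurable F) :
    Integrable F (muT P) ↔ Integrable (fun h => F (sh h)) (mu0 P) := by
  rw [muT_eq, integrable_map_measure hF.aestronglyMeasurable measurable_sh.aemeasurable]
  rfl

/-- Hypotheses on the three factors and on the even moments, for large `n`; odd heights. -/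
structure DatM (P : Measure Fld) (δ : ℕ → ℝ) (b : PW) (D : Set (ℝ × ℝ))
    (X1 X2 X3 X : ℕ → Hgt → ℝ) : Prop where
  hb : b.x0 + b.y0 < b.s0
  he : 0 < b.e
  hbD : b.box ⊆ D
  l1 : ∀ᶠ n in atTop, Loc (lat (δ n) b.K1) (X1 n)
  l2 : ∀ᶠ n in atTop, Loc (lat (δ n) b.K2) (X2 n)
  l3 : ∀ᶠ n in atTop, Loc (lat (δ n) b.K3) (X3 n)
  n1 : ∀ᶠ n in atTop, ∀ h, 0 ≤ X1 n h ∧ X1 n h ≤ 1
  n2 : ∀ᶠ n in atTop, ∀ h, 0 ≤ X2 n h ∧ X2 n h ≤ 1
  n3 : ∀ᶠ n in atTop, ∀ h, 0 ≤ X3 n h ∧ X3 n h ≤ 1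
  hX : ∀ᶠ n in atTop, ∀ h, X n h = X1 n h * X2 n h * X3 n h
  int : ∀ᶠ n in atTop, Integrable (X n) (muT P)
  pos : ∃ c0 : ℝ, 0 < c0 ∧ ∀ᶠ n in atTop, c0 ≤ ∫ h, X n h ∂(muT P)
  mom : ∀ f, TestOn D f → ∀ k : ℕ, ∃ C : ℝ, ∀ᶠ n in atTop,
    Integrable (fun h => Lf (δ n) f h ^ (2 * k) * X n h) (muT P) ∧
    ∫ h, Lf (δ n) f h ^ (2 * k) * X n h ∂(muT P) ≤ C * ∫ h, X n h ∂(muT P)
  r1 : ∃ ρ : ℝ × ℝ → ℝ, TestOn (b.K1 ∩ D) ρ ∧ ∫ x, ρ x = 1
  r3 : ∃ ρ : ℝ × ℝ → ℝ, TestOn (b.K3 ∩ D) ρ ∧ ∫ x, ρ x = 1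

variable {P : Measure Fld} {δ : ℕ → ℝ} {b : PW} {D : Set (ℝ × ℝ)}
  {X1 X2 X3 X : ℕ → Hgt → ℝ}

lemma Lf_sh (δ : ℝ) (f : ℝ × ℝ → ℝ) (h : Hgt) :
    Lf δ f (sh h) = Lf δ f h - mass (Wd δ f 0) := ev_sh _ _

/-- The mass converges to the integral. -/
lemma mass_lim {f : ℝ × ℝ → ℝ} (hf : Sm f) (cf : HasCompactSupport f) (hδp : ∀ n, 0 < δ n)
    (hδ : Tendsto δ atTop (𝓝[>] 0)) :
    Tendsto (fun n => mass (Wd (δ n) f 0)) atTop (𝓝 (∫ x, f x)) := by
  obtain ⟨K, hK⟩ := exists_csts hf cf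
  have h0 : Tendsto δ atTop (𝓝 0) := hδ.mono_right nhdsWithin_le_nhds
  rw [← tendsto_sub_nhds_zero_iff]
  have h1 : Tendsto (fun n => 2 * K * (4 * K + 15) ^ 2 * δ n) atTop (𝓝 0) := by
    have := h0.const_mul (2 * K * (4 * K + 15) ^ 2)
    rwa [mul_zero] at this
  refine squeeze_zero_norm' ?_ h1
  filter_upwards [h0.eventually (ge_mem_nhds one_pos)] with n hn
  exact mass_Wd hK (hδp n) hn 0

lemma DatM.X_meas (d : DatM P δ b D X1 X2 X3 X) : ∀ᶠ n in atTop, Measurable (X n) := by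
  filter_upwards [d.l1, d.l2, d.l3, d.hX] with n a1 a2 a3 a4
  have e : X n = fun h => X1 n h * X2 n h * X3 n h := funext fun h => a4 h
  rw [e]
  exact (a1.measS.mul a2.measS).mul a3.measS

lemma DatM.datE (d : DatM P δ b D X1 X2 X3 X) (hδp : ∀ n, 0 < δ n)
    (hδ : Tendsto δ atTop (𝓝[>] 0)) :
    DatE P δ b D (fun n h => X1 n (sh h)) (fun n h => X2 n (sh h)) (fun n h => X3 n (sh h))
      (fun n h => X n (sh h)) := by
  have hXm := d.X_meas
  refine ⟨d.hb, d.he, d.hbD, d.l1.mono fun n h => h.sh, d.l2.mono fun n h => h.sh,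
    d.l3.mono fun n h => h.sh, d.n1.mono fun n h g => h _, d.n2.mono fun n h g => h _,
    d.n3.mono fun n h g => h _, d.hX.mono fun n h g => h _, ?_, ?_, ?_, d.r1, d.r3⟩
  · filter_upwards [d.int, hXm] with n h1 h2
    exact (integrable_muT h2).1 h1
  · obtain ⟨c0, hc0, h⟩ := d.pos
    refine ⟨c0, hc0, ?_⟩
    filter_upwards [h, hXm] with n h1 h2
    rwa [int_muT h2.stronglyMeasurable] at h1
  · intro f hf k
    obtain ⟨C, hC⟩ := d.mom f hf k
    have hm := mass_lim hf.1 hf.2.1 hδp hδ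
    have hmb : ∀ᶠ n in atTop, |mass (Wd (δ n) f 0)| ≤ |∫ x, f x| + 1 := by
      have := hm.abs.eventually (ge_mem_nhds (show |∫ x, f x| < |∫ x, f x| + 1 by linarith))
      exact this
    set A : ℝ := |∫ x, f x| + 1 with hA
    refine ⟨2 ^ (2 * k - 1) * (C + A ^ (2 * k)), ?_⟩
    filter_upwards [hC, hmb, hXm, d.int, d.n1, d.n2, d.n3, d.hX] with n e1 e2 e3 e4 e5 e6 e7 e8
    have hX0 : ∀ h, 0 ≤ X n h := by
      intro h
      rw [e8 h]
      exact mul_nonneg (mul_nonneg (e5 h).1 (e6 h).1) (e7 h).1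
    have mL : Measurable (Lf (δ n) f) := measurable_Lf _ _
    have mLX : Measurable fun h => Lf (δ n) f h ^ (2 * k) * X n h := (mL.pow_const _).mul e3
    obtain ⟨g1, g2⟩ := e1
    rw [integrable_muT mLX] at g1
    rw [int_muT mLX.stronglyMeasurable, int_muT e3.stronglyMeasurable] at g2
    rw [integrable_muT e3] at e4
    have key : ∀ h, Lf (δ n) f h ^ (2 * k) * X n (sh h) ≤ 2 ^ (2 * k - 1) *
        (Lf (δ n) f (sh h) ^ (2 * k) * X n (sh h) + A ^ (2 * k) * X n (sh h)) := by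
      intro h
      have a1 : |Lf (δ n) f h| ≤ |Lf (δ n) f (sh h)| + A := by
        have a2 : Lf (δ n) f h = Lf (δ n) f (sh h) + mass (Wd (δ n) f 0) := by
          rw [Lf_sh]; ring
        rw [a2]
        exact (abs_add_le _ _).trans (add_le_add le_rfl e2)
      have a3 := (pow_le_pow_left₀ (abs_nonneg _) a1 (2 * k)).trans
        (add_pow_le (abs_nonneg _) (by positivity) (2 * k))
      rw [Even.pow_abs (even_two_mul k), Even.pow_abs (even_two_mul k)] at a3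
      have a4 := mul_le_mul_of_nonneg_right a3 (hX0 (sh h))
      refine a4.trans (le_of_eq ?_)
      ring
    have i1 : Integrable (fun h => 2 ^ (2 * k - 1) *
        (Lf (δ n) f (sh h) ^ (2 * k) * X n (sh h) + A ^ (2 * k) * X n (sh h))) (mu0 P) :=
      (g1.add (e4.const_mul _)).const_mul _
    have i2 : Integrable (fun h => Lf (δ n) f h ^ (2 * k) * X n (sh h)) (mu0 P) := by
      refine i1.mono' ?_ (Eventually.of_forall fun h => ?_)
      · exact ((mL.pow_const _).mul (e3.comp measurable_sh)).aestronglyMeasurable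
      · rw [Real.norm_eq_abs, abs_of_nonneg]
        · exact key h
        · exact mul_nonneg (Even.pow_nonneg (even_two_mul k) _) (hX0 _)
    refine ⟨i2, (integral_mono i2 i1 key).trans ?_⟩
    rw [integral_const_mul, integral_add g1 (e4.const_mul _), integral_const_mul, mul_assoc]
    refine mul_le_mul_of_nonneg_left ?_ (by positivity)
    rw [add_mul]
    exact add_le_add g2 le_rfl

/-- **Schwinger-Dyson equations for the moments of the odd heights.** -/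
theorem useM (hP : GFF.Plane P) {A0 : ℝ} (hA0 : 0 ≤ A0)
    (hA : ∀ x : ℤ × ℤ, var2 P x ≤ A0 * (1 + |(x.1 : ℝ)| + |(x.2 : ℝ)|)) {κ : ℝ}
    (hclt : CLT P κ) (hδp : ∀ n, 0 < δ n) (hδ : Tendsto δ atTop (𝓝[>] 0))
    (d : DatM P δ b D X1 X2 X3 X) {ψ f0 g : ℝ × ℝ → ℝ} (hψ : TestOn b.box ψ)
    (hf0 : TestOn b.box f0) (hg : TestOn D g)
    (hgK : ∀ x, g x ≠ 0 → x ∈ b.K1 ∨ x ∈ b.K2 ∨ x ∈ b.K3) (k : ℕ) :
    Tendsto (fun n => (∫ h, Lf (δ n) (lap ψ) h * Lf (δ n) (fun x => f0 x + g x) h ^ (k + 1) *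
        X n h ∂(muT P) +
      κ * (k + 1) * (∫ x, ψ x * (f0 x + g x)) *
        ∫ h, Lf (δ n) (fun x => f0 x + g x) h ^ k * X n h ∂(muT P)) /
          ∫ h, X n h ∂(muT P)) atTop (𝓝 0) := by
  obtain ⟨Y1, Y2, Y3, Y, dd, hYX⟩ := (d.datE hδp hδ).dat
  have hf : TestOn D (fun x => f0 x + g x) := (hf0.mono d.hbD).add hg
  have hV : TestOn D (fun x => -lap ψ x) := (hψ.lap.neg).mono d.hbD
  have hfin : ∀ n, IsFiniteMeasure (MX P (Y n)) := fun n => MX_finite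
  obtain ⟨_, kl⟩ := exists_csts hψ.lap.1 hψ.lap.2.1
  obtain ⟨_, kl'⟩ := exists_csts (hψ.lap.smul (-1)).1 (hψ.lap.smul (-1)).2.1
  set u : ℕ → ℝ := fun n => mass (Wd (δ n) (fun x => -lap ψ x) 0) with hu
  set v : ℕ → ℝ := fun n => mass (Wd (δ n) (fun x => f0 x + g x) 0) with hv
  have hV0 : ∫ x, -lap ψ x = 0 := by rw [integral_neg, int_lap hψ.1 hψ.2.1, neg_zero]
  have hut : Tendsto u atTop (𝓝 0) := by
    have := mass_lim hV.1 hV.2.1 hδp hδ
    rwa [hV0] at this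
  have hvt : Tendsto v atTop (𝓝 (∫ x, f0 x + g x)) := mass_lim hf.1 hf.2.1 hδp hδ
  have hub : ∀ᶠ n in atTop, |u n| ≤ 1 := by
    have := hut.abs
    rw [abs_zero] at this
    exact this.eventually (ge_mem_nhds one_pos)
  have hvb : ∀ᶠ n in atTop, |v n| ≤ |∫ x, f0 x + g x| + 1 :=
    hvt.abs.eventually (ge_mem_nhds (by linarith))
  obtain ⟨C0, hC0, hmass⟩ := (dd.bm hV).2 0
  have hM : ∀ᶠ n in atTop, (MX P (Y n)).real Set.univ ≤ C0 := by
    filter_upwards [hmass] with n hn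
    have := hn.2
    simp only [pow_zero, integral_const, smul_eq_mul, mul_one] at this
    exact this
  have h1 := moments (M := fun n => MX P (Y n))
    (U := fun n h => Lf (δ n) (fun x => -lap ψ x) h - u n)
    (V := fun n h => Lf (δ n) (fun x => f0 x + g x) h - v n) (κ := κ) (p := ∫ x, ψ x * f0 x)
    (q := ∫ x, ψ x * (-lap ψ x)) (bm_shift (dd.bm hV) hub) (bm_shift (dd.bm hf) hvb)
    (fun s t => ?_) (k + 1)
  · have h2 := h1.neg
    rw [neg_zero] at h2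
    refine h2.congr' ?_
    filter_upwards [hYX, d.X_meas] with n hn hXm
    have e1 : ∀ h, Lf (δ n) (fun x => -lap ψ x) h - u n = - Lf (δ n) (lap ψ) (sh h) := by
      intro h
      have e2 : (fun x => -lap ψ x) = fun x => (-1) * lap ψ x := by funext x; ring
      rw [hu]
      simp only
      rw [← Lf_sh]
      unfold Lf
      rw [e2, Wd_smul kl kl' (hδp n), ev_smul]
      ring
    have e1' : ∀ h, Lf (δ n) (fun x => f0 x + g x) h - v n =
        Lf (δ n) (fun x => f0 x + g x) (sh h) := fun h => (Lf_sh _ _ _).symm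
    have e0 : ∀ h, Y n h = X n (sh h) := fun h => by rw [hn]
    rw [MX_int (dd.X_meas n) (dd.X_nonneg n), MX_int (dd.X_meas n) (dd.X_nonneg n), smul_eq_mul,
      smul_eq_mul, Nat.add_sub_cancel]
    simp only [e1, e1', e0, smul_eq_mul]
    have mL : ∀ f : ℝ × ℝ → ℝ, Measurable (Lf (δ n) f) := fun f => measurable_Lf _ _
    have mA : Measurable fun h => Lf (δ n) (fun x => f0 x + g x) h ^ k * X n h :=
      ((mL _).pow_const _).mul hXm
    have mB : Measurable fun h => Lf (δ n) (lap ψ) h *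
        Lf (δ n) (fun x => f0 x + g x) h ^ (k + 1) * X n h :=
      ((mL _).mul ((mL _).pow_const _)).mul hXm
    rw [int_muT hXm.stronglyMeasurable, int_muT mA.stronglyMeasurable,
      int_muT mB.stronglyMeasurable]
    have e3 : ∫ h, X n (sh h) * (-Lf (δ n) (lap ψ) (sh h) *
        Lf (δ n) (fun x => f0 x + g x) (sh h) ^ (k + 1)) ∂(mu0 P) =
        - ∫ h, Lf (δ n) (lap ψ) (sh h) * Lf (δ n) (fun x => f0 x + g x) (sh h) ^ (k + 1) *
        X n (sh h) ∂(mu0 P) := by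
      rw [← integral_neg]
      refine integral_congr_ae (Eventually.of_forall fun h => ?_)
      simp only
      ring
    have e4 : ∫ h, X n (sh h) * Lf (δ n) (fun x => f0 x + g x) (sh h) ^ k ∂(mu0 P) =
        ∫ h, Lf (δ n) (fun x => f0 x + g x) (sh h) ^ k * X n (sh h) ∂(mu0 P) := by
      refine integral_congr_ae (Eventually.of_forall fun h => ?_)
      simp only
      ring
    have e5 : ∫ x, ψ x * (f0 x + g x) = ∫ x, ψ x * f0 x := by
      refine integral_congr_ae (Eventually.of_forall fun x => ?_)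
      simp only
      rw [mul_add, psi_g d.he hψ hgK, add_zero]
    rw [e3, e4, e5, add_div]
    push_cast
    ring
  · refine char_shift (fun n => measurable_Lf _ _) (fun n => measurable_Lf _ _) hut hM ?_
    have h3 := char_lim hP hA0 hA hclt hδp hδ dd hψ hf0 hg hgK s t
    refine h3.congr fun n => ?_
    rw [MX_int (dd.X_meas n) (dd.X_nonneg n)]
    rw [← Complex.coe_smul, smul_eq_mul, div_eq_inv_mul]
    push_cast
    simp only [Complex.real_smul]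

end Vale.Agent.P153.F.SD
end

section

/-!
P153-F, block X: functionals of the heights; moments; product decomposition (mirror of
`P145.X.SdA`, `P145.X.SdProd`).
-/

namespace Vale.Agent.P153.F.X.Sdx

open Filter Topology Set MeasureTheory
open Vale.Agent.P153
open Vale.Agent.P153.F.SD (Hgt Wd Lf lat PW)
open Vale.Agent.P153.F.Top
open Vale.Agent.P145.PT

theorem dp_pos (δ : ℝ) (v : ℤ × ℤ) : dp δ v = δ • GFF.pos v := by
  unfold dp GFF.pos
  simp only [Prod.smul_mk, smul_eq_mul]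
  exact Prod.ext (by simp only) (by simp only; ring)

/-- `hv` in terms of the functionals of the block SD. -/
theorem hv_vm {δ : ℝ} (hδ : 0 < δ) {f : ℝ × ℝ → ℝ} (hs : Sm f) (hf : HasCompactSupport f)
    (h : Hg) : hv δ f (vm h) = Lf δ f h := by
  obtain ⟨K, hK⟩ := SD.exists_csts hs hf
  unfold hv SD.Lf
  rw [SD.ev_tsum]
  have e : ∀ v : ℤ × ℤ, Wd δ f 0 v * (h v : ℝ) =
      δ ^ 2 * (vm h v * tl f (δ * v.1, δ * v.2)) := by
    intro v
    rw [SD.Wd_apply hK hδ, add_zero, tl_eq, dp_pos]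
    unfold vm
    ring
  simp only [e]
  rw [tsum_mul_left, tsum_eq_finsum]
  obtain ⟨R, hR⟩ := hf.isCompact.isBounded.subset_ball (0 : ℝ × ℝ)
  refine (lat_finite hδ R).subset fun v hv => ?_
  have h1 := right_ne_zero_of_mul hv
  rw [tl_eq] at h1
  exact hR (subset_tsupport _ (right_ne_zero_of_mul h1))

/-- `hv δ f` is a polynomial. -/
theorem alg_hv {δ : ℝ} (hδ : 0 < δ) {f : ℝ × ℝ → ℝ} (hf : HasCompactSupport f) :
    Alg (hv δ f) := by
  obtain ⟨R, hR⟩ := hf.isCompact.isBounded.subset_ball (0 : ℝ × ℝ)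
  obtain ⟨B, hB⟩ := hv_eq_hB (R := R) hδ
  exact alg_hB.of_eq fun ω => (hB f (fun z hz => hR (subset_tsupport _ hz)) ω).symm

theorem hv_sub' {δ : ℝ} (hδ : 0 < δ) {f g : ℝ × ℝ → ℝ} (hf : HasCompactSupport f)
    (hg : HasCompactSupport g) (ω : Om) : hv δ (fun z => f z - g z) ω = hv δ f ω - hv δ g ω := by
  obtain ⟨R, hR⟩ := hf.isCompact.isBounded.subset_ball (0 : ℝ × ℝ)
  obtain ⟨R', hR'⟩ := hg.isCompact.isBounded.subset_ball (0 : ℝ × ℝ)
  obtain ⟨B, hB⟩ := hv_eq_hB (R := max R R') hδ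
  have h1 : ∀ z, f z ≠ 0 → z ∈ Metric.ball (0 : ℝ × ℝ) (max R R') := fun z hz =>
    Metric.ball_subset_ball (le_max_left _ _) (hR (subset_tsupport _ hz))
  have h2 : ∀ z, g z ≠ 0 → z ∈ Metric.ball (0 : ℝ × ℝ) (max R R') := fun z hz =>
    Metric.ball_subset_ball (le_max_right _ _) (hR' (subset_tsupport _ hz))
  rw [hB f h1, hB g h2, hB (fun z => f z - g z) ?_, hB_sub]
  intro z hz
  by_cases h3 : f z = 0
  · refine h2 z fun h4 => hz ?_
    simp [h3, h4]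
  · exact h1 z h3

theorem even_sub_le (x y : ℝ) (k : ℕ) :
    (x - y) ^ (2 * k) ≤ 4 ^ k * (x ^ (2 * k) + y ^ (2 * k)) := by
  have h1 : (x - y) ^ 2 ≤ 4 * max (x ^ 2) (y ^ 2) := by
    have a1 := le_max_left (x ^ 2) (y ^ 2)
    have a2 := le_max_right (x ^ 2) (y ^ 2)
    nlinarith [sq_nonneg (x + y)]
  have h2 : 0 ≤ max (x ^ 2) (y ^ 2) := le_trans (sq_nonneg x) (le_max_left _ _)
  rw [pow_mul, pow_mul, pow_mul]
  calc ((x - y) ^ 2) ^ k ≤ (4 * max (x ^ 2) (y ^ 2)) ^ k := pow_le_pow_left₀ (sq_nonneg _) h1 k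
    _ = 4 ^ k * max (x ^ 2) (y ^ 2) ^ k := mul_pow _ _ _
    _ ≤ 4 ^ k * ((x ^ 2) ^ k + (y ^ 2) ^ k) := by
        refine mul_le_mul_of_nonneg_left ?_ (by positivity)
        rcases le_total (x ^ 2) (y ^ 2) with h | h
        · rw [max_eq_right h]
          have : 0 ≤ (x ^ 2) ^ k := by positivity
          linarith
        · rw [max_eq_left h]
          have : 0 ≤ (y ^ 2) ^ k := by positivity
          linarith

/-- The even moments of a test function of any sign. -/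
theorem mom_signed {P : Measure (Pt → ℤ)} {δ : ℕ → ℝ} (hδ : ∀ n, 0 < δ n) {D : Set (ℝ × ℝ)}
    (hD : IsOpen D) (hb : Bornology.IsBounded D) {G : ℕ → Set Pt → ℝ} (hi : S_int P)
    (hG : ∀ᶠ n in atTop, LocS univ (G n) ∧ G n ∅ = 0 ∧ ∀ B, 0 ≤ G n B)
    (hmom : ∀ f, TestOn D f → (∀ z, 0 ≤ f z) → ∀ k : ℕ, ∃ C : ℝ, ∀ᶠ n in atTop,
      II P (G n) (fun ω => hv (δ n) f ω ^ (2 * k)) ≤ C * II P (G n) (fun _ => 1))
    {f : ℝ × ℝ → ℝ} (hf : TestOn D f) (k : ℕ) : ∃ C : ℝ, ∀ᶠ n in atTop,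
      II P (G n) (fun ω => hv (δ n) f ω ^ (2 * k)) ≤ C * II P (G n) (fun _ => 1) := by
  obtain ⟨F, hF, hFf, -⟩ := exists_dom hD hb hf one_pos
  have hF0 : ∀ z, 0 ≤ F z := fun z => (abs_nonneg _).trans (hFf z)
  have hFs : TestOn D (fun z => F z - f z) := hF.sub hf
  obtain ⟨C1, h1⟩ := hmom F hF hF0 k
  obtain ⟨C2, h2⟩ := hmom (fun z => F z - f z) hFs
    (fun z => sub_nonneg.2 ((le_abs_self _).trans (hFf z))) k
  refine ⟨4 ^ k * (C1 + C2), ?_⟩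
  filter_upwards [h1, h2, hG] with n g1 g2 hGn
  obtain ⟨l1, l2, l3⟩ := hGn
  have a1 : Alg (fun ω => hv (δ n) F ω ^ (2 * k)) := (alg_hv (hδ n) hF.cs).pow _
  have a2 : Alg (fun ω => hv (δ n) (fun z => F z - f z) ω ^ (2 * k)) :=
    (alg_hv (hδ n) hFs.cs).pow _
  have a3 : Alg (fun ω => hv (δ n) f ω ^ (2 * k)) := (alg_hv (hδ n) hf.cs).pow _
  have i1 := hi (G n) _ l1 l2 a1
  have i2 := hi (G n) _ l1 l2 a2
  have i3 := hi (G n) _ l1 l2 a3
  have key : II P (G n) (fun ω => hv (δ n) f ω ^ (2 * k)) ≤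
      4 ^ k * (II P (G n) (fun ω => hv (δ n) F ω ^ (2 * k)) +
        II P (G n) (fun ω => hv (δ n) (fun z => F z - f z) ω ^ (2 * k))) := by
    unfold II
    rw [← integral_add i1 i2, ← integral_const_mul]
    refine integral_mono i3 ((i1.add i2).const_mul _) fun x => ?_
    have e : hv (δ n) f (vm x) = hv (δ n) F (vm x) -
        hv (δ n) (fun z => F z - f z) (vm x) := by
      rw [hv_sub' (hδ n) hF.cs hf.cs]; ring
    have h5 := even_sub_le (hv (δ n) F (vm x)) (hv (δ n) (fun z => F z - f z) (vm x)) k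
    rw [← e] at h5
    have h6 := mul_le_mul_of_nonneg_left h5 (l3 (bl x))
    simp only [Pi.add_apply]
    linarith
  refine key.trans ?_
  have h4 : (0 : ℝ) ≤ 4 ^ k := by positivity
  calc _ ≤ 4 ^ k * (C1 * II P (G n) (fun _ => 1) + C2 * II P (G n) (fun _ => 1)) :=
        mul_le_mul_of_nonneg_left (add_le_add g1 g2) h4
    _ = _ := by ring

/-! ### Product decomposition -/

theorem bl_congr {h h' : Hg} {w : Pt} (H : ∀ x y, Adj x y → w = x + y → h x = h' x) :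
    w ∈ bl h ↔ w ∈ bl h' := by
  constructor
  · rintro ⟨x, y, h1, h2, h3, h4⟩
    refine ⟨x, y, h1, h2, ?_, ?_⟩
    · rw [← H x y h1 h2]; exact h3
    · rw [← H y x (Up.adj_symm h1) (by rw [h2, add_comm])]; exact h4
  · rintro ⟨x, y, h1, h2, h3, h4⟩
    refine ⟨x, y, h1, h2, ?_, ?_⟩
    · rw [H x y h1 h2]; exact h3
    · rw [H y x (Up.adj_symm h1) (by rw [h2, add_comm])]; exact h4

/-- A local function of the blocked edges is a local function of the heights. -/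
theorem loc_bl {A : Set Pt} {g : Set Pt → ℝ} (hg : LocS A g) {δ : ℝ} {K : Set (ℝ × ℝ)}
    (hA : FinT δ A K) : SD.Loc (lat δ K) (fun h : Hgt => g (bl h)) := by
  classical
  obtain ⟨Λ, h1, h2⟩ := hg
  refine ⟨(Λ.biUnion Up.nb).filter fun x => ∃ y, Adj x y ∧ x + y ∈ Λ, fun q hq => ?_,
    fun h h' hh => h2 _ _ fun w hw => bl_congr fun x y hxy e => hh x ?_⟩
  · obtain ⟨-, y, h3, h4⟩ := Finset.mem_filter.1 hq
    have h5 := hA _ (h1 _ h4) q y h3 rfl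
    rw [dp_pos] at h5
    exact h5
  · rw [e] at hw
    exact Finset.mem_filter.2 ⟨Finset.mem_biUnion.2 ⟨_, hw, Up.mem_nb hxy⟩, y, hxy, hw⟩

/-- The events of the circuits of `T`. -/
def AllZ (T : Finset ((ℤ × ℤ) × ℤ)) (B : Set Pt) : Prop := ∀ s ∈ T, Zr s.1 s.2 B

theorem locS_allZ (hL : S_loc) {A : Set Pt} (T : Finset ((ℤ × ℤ) × ℤ))
    (hT : ∀ s ∈ T, 1 ≤ s.2 ∧ iE (bx s.1 (2 * s.2)) ⊆ A) : LocS A (ind (AllZ T)) := by
  classical
  have h1 : ∀ s ∈ T, ∃ Λ : Finset Pt, (∀ w ∈ Λ, w ∈ A) ∧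
      ∀ B B' : Set Pt, (∀ w ∈ Λ, w ∈ B ↔ w ∈ B') → (Zr s.1 s.2 B ↔ Zr s.1 s.2 B') := by
    intro s hs
    obtain ⟨Λ, h2, h3⟩ := (hL s.1 s.2 (hT s hs).1).2.loc
    refine ⟨Λ, fun w hw => (hT s hs).2 (h2 w hw).1, fun B B' hB => ?_⟩
    have h4 := h3 B B' hB
    unfold ind at h4
    by_cases p : Zr s.1 s.2 B <;> by_cases p' : Zr s.1 s.2 B' <;> simp_all
  choose! Λ h2 h3 using h1
  refine ⟨T.biUnion Λ, fun w hw => ?_, fun B B' hB => ?_⟩
  · obtain ⟨s, hs, hw⟩ := Finset.mem_biUnion.1 hw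
    exact h2 s hs w hw
  · have h4 : AllZ T B ↔ AllZ T B' := by
      refine forall₂_congr fun s hs => h3 s hs B B' fun w hw => hB w ?_
      exact Finset.mem_biUnion.2 ⟨s, hs, hw⟩
    unfold ind
    simp only [h4]

theorem sd_ind_nonneg (Q : Set Pt → Prop) (B : Set Pt) : 0 ≤ ind Q B := by
  unfold ind; split_ifs <;> norm_num

theorem sd_ind_le_one (Q : Set Pt → Prop) (B : Set Pt) : ind Q B ≤ 1 := by
  unfold ind; split_ifs <;> norm_num

theorem allZ_empty (hL : S_loc) {T : Finset ((ℤ × ℤ) × ℤ)} (hne : T.Nonempty)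
    (hT : ∀ s ∈ T, 1 ≤ s.2) : ind (AllZ T) ∅ = 0 := by
  obtain ⟨s, hs⟩ := hne
  have h1 := (hL s.1 s.2 (hT s hs)).2.pin
  unfold ind at h1 ⊢
  have h2 : ¬ Zr s.1 s.2 ∅ := by
    intro h3
    rw [if_pos h3] at h1
    norm_num at h1
  rw [if_neg fun h3 => h2 (h3 s hs)]

/-- **Product decomposition.** -/
theorem exists_prod (hL : S_loc) {a b c e δ R : ℝ} (T : Finset ((ℤ × ℤ) × ℤ))
    (hT : ∀ s ∈ T, 1 ≤ s.2 ∧ (∃ i, FinT δ (iE (bx s.1 (2 * s.2))) (Kq a b c e i)) ∧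
      FinT δ (iE (bx s.1 (2 * s.2))) {z | |c1 z| ≤ R ∧ |c2 z| ≤ R}) :
    ∃ X1 X2 X3 : Hgt → ℝ,
      (SD.Loc (lat δ (PW.K1 ⟨a, b, c, e, R⟩)) X1 ∧ SD.Loc (lat δ (PW.K2 ⟨a, b, c, e, R⟩)) X2 ∧
        SD.Loc (lat δ (PW.K3 ⟨a, b, c, e, R⟩)) X3) ∧
      ((∀ h, 0 ≤ X1 h ∧ X1 h ≤ 1) ∧ (∀ h, 0 ≤ X2 h ∧ X2 h ≤ 1) ∧ (∀ h, 0 ≤ X3 h ∧ X3 h ≤ 1)) ∧
      ∀ h, ind (AllZ T) (bl h) = X1 h * X2 h * X3 h := by
  classical
  have hi : ∀ s ∈ T, ∃ i, FinT δ (iE (bx s.1 (2 * s.2))) (Kq a b c e i) :=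
    fun s hs => (hT s hs).2.1
  choose! i hi using hi
  let Tj : Fin 3 → Finset ((ℤ × ℤ) × ℤ) := fun j => T.filter fun s => i s = j
  have hprod : ∀ B, ind (AllZ T) B = ind (AllZ (Tj 0)) B * ind (AllZ (Tj 1)) B *
      ind (AllZ (Tj 2)) B := by
    intro B
    have key : AllZ T B ↔ (AllZ (Tj 0) B ∧ AllZ (Tj 1) B ∧ AllZ (Tj 2) B) := by
      constructor
      · intro h
        exact ⟨fun s hs => h s (Finset.mem_filter.1 hs).1,
          fun s hs => h s (Finset.mem_filter.1 hs).1, fun s hs => h s (Finset.mem_filter.1 hs).1⟩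
      · rintro ⟨h0, h1, h2⟩ s hs
        have hj : ∀ j, i s = j → s ∈ Tj j := fun j hj => Finset.mem_filter.2 ⟨hs, hj⟩
        have hcase : i s = 0 ∨ i s = 1 ∨ i s = 2 := by
          generalize i s = k
          fin_cases k <;> simp
        rcases hcase with h | h | h
        · exact h0 s (hj _ h)
        · exact h1 s (hj _ h)
        · exact h2 s (hj _ h)
    unfold ind
    by_cases h0 : AllZ (Tj 0) B <;> by_cases h1 : AllZ (Tj 1) B <;>
      by_cases h2 : AllZ (Tj 2) B <;> simp [key, h0, h1, h2]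
  have hloc : ∀ j (K : Set (ℝ × ℝ)),
      (∀ z, z ∈ Kq a b c e j → |c1 z| ≤ R → |c2 z| ≤ R → z ∈ K) →
      SD.Loc (lat δ K) (fun h : Hgt => ind (AllZ (Tj j)) (bl h)) := by
    intro j K hK
    have hA : LocS {w | ∀ x y : Pt, Adj x y → w = x + y → dp δ x ∈ K} (ind (AllZ (Tj j))) := by
      refine locS_allZ hL _ fun s hs => ?_
      obtain ⟨hs1, hs2⟩ := Finset.mem_filter.1 hs
      refine ⟨(hT s hs1).1, fun w hw x y hxy hwe => ?_⟩
      have h1 := hi s hs1 w hw x y hxy hwe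
      rw [hs2] at h1
      have h2 := (hT s hs1).2.2 w hw x y hxy hwe
      exact hK _ h1 h2.1 h2.2
    exact loc_bl hA fun w hw => hw
  refine ⟨fun h => ind (AllZ (Tj 0)) (bl h), fun h => ind (AllZ (Tj 1)) (bl h),
    fun h => ind (AllZ (Tj 2)) (bl h), ⟨hloc 0 _ ?_, hloc 1 _ ?_, hloc 2 _ ?_⟩,
    ⟨fun h => ⟨sd_ind_nonneg _ _, sd_ind_le_one _ _⟩, fun h => ⟨sd_ind_nonneg _ _,
      sd_ind_le_one _ _⟩, fun h => ⟨sd_ind_nonneg _ _, sd_ind_le_one _ _⟩⟩, fun h => hprod _⟩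
  · intro z h1 h2 h3
    simp only [Kq, Set.mem_ofPred_eq] at h1
    rcases h1 with ⟨-, p⟩ | ⟨p, -⟩ | ⟨p, -⟩
    · exact ⟨p, h2, h3⟩
    all_goals exact absurd p (by decide)
  · intro z h1 h2 h3
    simp only [Kq, Set.mem_ofPred_eq] at h1
    rcases h1 with ⟨p, -⟩ | ⟨-, p, q⟩ | ⟨p, -⟩
    · exact absurd p (by decide)
    · exact ⟨q, p, h2, h3⟩
    all_goals exact absurd p (by decide)
  · intro z h1 h2 h3
    simp only [Kq, Set.mem_ofPred_eq] at h1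
    rcases h1 with ⟨p, -⟩ | ⟨p, -⟩ | ⟨-, p, q, r⟩
    · exact absurd p (by decide)
    · exact absurd p (by decide)
    · exact ⟨r, p, q, h2, h3⟩

end Vale.Agent.P153.F.X.Sdx
end

section

/-!
P153-F, block X: the Schwinger-Dyson half (mirror of `P145.X.SdX`, `P145.X.SdH`).
-/

namespace Vale.Agent.P153.F.X

open Filter Topology Set MeasureTheory
open Vale.Agent.P153
open Vale.Agent.P153.GFF (var2)
open Vale.Agent.P153.F.SD (Hgt Wd Lf lat PW DatM useM CLT)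
open Vale.Agent.P153.F.Top
open Vale.Agent.P145.PT

namespace Sdx

/-! ### Geometry -/

theorem c_le (z q : ℝ × ℝ) : |c1 z - c1 q| ≤ 2 * dist z q ∧ |c2 z - c2 q| ≤ 2 * dist z q := by
  have h3 : (1 : ℝ) ≤ √3 := by rw [Real.one_le_sqrt]; norm_num
  have h30 : (0 : ℝ) < √3 := by positivity
  have d1 : |z.1 - q.1| ≤ dist z q := by rw [Prod.dist_eq, ← Real.dist_eq]; exact le_max_left _ _
  have d2 : |z.2 - q.2| ≤ dist z q := by rw [Prod.dist_eq, ← Real.dist_eq]; exact le_max_right _ _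
  have d3 : |z.2 - q.2| / √3 ≤ |z.2 - q.2| := div_le_self (abs_nonneg _) h3
  constructor
  · have e : c1 z - c1 q = (z.1 - q.1) - (z.2 - q.2) / √3 := by unfold c1; ring
    rw [e]
    refine (abs_sub _ _).trans ?_
    rw [abs_div, abs_of_pos h30]
    linarith
  · have e : c2 z - c2 q = 2 * ((z.2 - q.2) / √3) := by unfold c2; ring
    rw [e, abs_mul, abs_two, abs_div, abs_of_pos h30]
    linarith

/-- The point with lattice coordinates `u`, `v`. -/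
noncomputable def pc (u v : ℝ) : ℝ × ℝ := (u + v / 2, v * (√3 / 2))

theorem c1_pc (u v : ℝ) : c1 (pc u v) = u := by
  have h3 : (0 : ℝ) < √3 := by positivity
  unfold c1 pc
  simp only
  field_simp
  ring

theorem c2_pc (u v : ℝ) : c2 (pc u v) = v := by
  have h3 : (0 : ℝ) < √3 := by positivity
  unfold c2 pc
  simp only
  field_simp

theorem sc_bd {ε δ : ℝ} (hδ : 0 < δ) (i : ℕ) : δ * (sc ε δ i : ℝ) ≤ 4 ^ i * ε := by
  unfold sc
  push_cast
  have h1 : ((⌊ε / δ⌋ : ℤ) : ℝ) ≤ ε / δ := Int.floor_le _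
  calc δ * (4 ^ i * ((⌊ε / δ⌋ : ℤ) : ℝ)) = 4 ^ i * (δ * ((⌊ε / δ⌋ : ℤ) : ℝ)) := by ring
    _ ≤ 4 ^ i * (δ * (ε / δ)) := by gcongr
    _ = 4 ^ i * ε := by rw [mul_div_cancel₀ _ hδ.ne']

theorem sc_pos {ε δ : ℝ} (hδ : 0 < δ) (h : δ ≤ ε) (i : ℕ) : 1 ≤ sc ε δ i := by
  have h1 : 1 ≤ ⌊ε / δ⌋ := Int.le_floor.2 (by rw [Int.cast_one, le_div_iff₀ hδ]; linarith)
  have h2 : (1 : ℤ) ≤ 4 ^ i := one_le_pow₀ (by norm_num)
  unfold sc
  nlinarith

theorem finT_bd {δ : ℝ} (hδ : 0 < δ) {w : ℤ} {M : ℝ} (hM : δ * (w : ℝ) ≤ M) {K : ℤ} (hK : 0 ≤ K)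
    {p : ℤ × ℤ} {r : ℤ} (h : |p.1| + |p.2| + r ≤ w * K) {R : ℝ} (hR : M * K ≤ R) :
    FinT δ (iE (bx p r)) {z | |c1 z| ≤ R ∧ |c2 z| ≤ R} := by
  rintro w' ⟨x', hx', y', hy', hxy', rfl⟩ x y hxy e
  have hx : x ∈ bx p r := by
    rcases Up.adj_mid hxy' hxy e with ⟨e1, -⟩ | ⟨e1, -⟩
    · rw [e1]; exact hx'
    · rw [e1]; exact hy'
  obtain ⟨h1, h2⟩ := hx
  have hK' : (0 : ℝ) ≤ K := by exact_mod_cast hK
  have key : ∀ u : ℤ, |u| ≤ |p.1| + |p.2| + r → |δ * (u : ℝ)| ≤ R := by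
    intro u hu
    have h3 : ((|u| : ℤ) : ℝ) ≤ ((w * K : ℤ) : ℝ) := by exact_mod_cast hu.trans h
    rw [abs_mul, abs_of_pos hδ]
    push_cast at h3
    calc δ * |(u : ℝ)| ≤ δ * (w * K) := mul_le_mul_of_nonneg_left h3 hδ.le
      _ = δ * w * K := by ring
      _ ≤ M * K := mul_le_mul_of_nonneg_right hM hK'
      _ ≤ R := hR
  have b1 : |x.1| ≤ |p.1| + |p.2| + r := by
    have := abs_sub_abs_le_abs_sub x.1 p.1
    have := abs_nonneg p.2
    linarith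
  have b2 : |x.2| ≤ |p.1| + |p.2| + r := by
    have := abs_sub_abs_le_abs_sub x.2 p.2
    have := abs_nonneg p.1
    linarith
  show |c1 (dp δ x)| ≤ R ∧ |c2 (dp δ x)| ≤ R
  rw [dp_pos, SD.c1_pos, SD.c2_pos]
  exact ⟨key _ b1, key _ b2⟩

theorem finT_mono {δ : ℝ} {A : Set Pt} {K K' : Set (ℝ × ℝ)} (h : FinT δ A K) (hK : K ⊆ K') :
    FinT δ A K' := fun w hw x y hxy e => hK (h w hw x y hxy e)

theorem Kq_mono {a b c e e' : ℝ} (he : e' ≤ e) (i : Fin 3) : Kq a b c e i ⊆ Kq a b c e' i := by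
  intro z hz
  rcases hz with ⟨h, h1⟩ | ⟨h, h1, h2⟩ | ⟨h, h1, h2, h3⟩
  · exact Or.inl ⟨h, by linarith⟩
  · exact Or.inr (Or.inl ⟨h, h1, by linarith⟩)
  · exact Or.inr (Or.inr ⟨h, h1, h2, by linarith⟩)

/-- The family of circuits as a list of centres and radii. -/
noncomputable def TT (w : ℤ) (Y : Finset (ℤ × ℤ)) (p : ℤ × ℤ) (r : ℤ) :
    Finset ((ℤ × ℤ) × ℤ) := by
  classical
  exact insert (p, r) (Y.image fun y => (ce w y, w))

theorem allZ_TT {w : ℤ} {Y : Finset (ℤ × ℤ)} {p : ℤ × ℤ} {r : ℤ} {B : Set Pt} :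
    AllZ (TT w Y p r) B ↔ Fy w Y p r B := by
  classical
  unfold AllZ TT Fy
  simp only [Finset.mem_insert, Finset.mem_image, forall_eq_or_imp, forall_exists_index, and_imp,
    forall_apply_eq_imp_iff₂]
  exact and_comm

theorem ind_TT {w : ℤ} {Y : Finset (ℤ × ℤ)} {p : ℤ × ℤ} {r : ℤ} :
    ind (AllZ (TT w Y p r)) = ind (Fy w Y p r) := by
  have e : AllZ (TT w Y p r) = Fy w Y p r := funext fun _ => propext allZ_TT
  rw [e]

/-! ### Bumps in the arms -/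

theorem exists_rho1 {D : Set (ℝ × ℝ)} (hD : IsOpen D) {a b c m : ℝ} (hp : pc a m ∈ D) :
    ∃ e R : ℝ, 0 < e ∧ 0 < R ∧ ∀ e' R' : ℝ, e' ≤ e → R ≤ R' →
      ∃ ρ : ℝ × ℝ → ℝ, TestOn (PW.K1 ⟨a, b, c, e', R'⟩ ∩ D) ρ ∧ ∫ x, ρ x = 1 := by
  obtain ⟨s, hs, hball⟩ := Metric.isOpen_iff.1 hD _ hp
  refine ⟨s / 4, |a| + |m| + s, by linarith, by positivity, fun e' R' he hR => ?_⟩
  have hs8 : 0 < s / 8 := by linarith
  refine ⟨bump (s / 8) (pc (a - s / 2) m), bump_test hs8 fun z hz => ?_, bump_int hs8 _⟩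
  rw [Metric.mem_closedBall] at hz
  obtain ⟨h1, h2⟩ := c_le z (pc (a - s / 2) m)
  rw [c1_pc, abs_le] at h1
  rw [c2_pc, abs_le] at h2
  have c1' := le_abs_self a
  have c2' := neg_abs_le a
  have c3 := le_abs_self m
  have c4 := neg_abs_le m
  refine ⟨⟨?_, ?_, ?_⟩, hball ?_⟩
  · show c1 z ≤ a - e'
    linarith
  · show |c1 z| ≤ R'
    rw [abs_le]; constructor <;> linarith [abs_nonneg m]
  · show |c2 z| ≤ R'
    rw [abs_le]; constructor <;> linarith [abs_nonneg a]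
  · rw [Metric.mem_ball]
    have e1 : dist (pc (a - s / 2) m) (pc a m) ≤ s / 2 := by
      unfold pc
      rw [Prod.dist_eq, max_le_iff, Real.dist_eq, Real.dist_eq]
      simp only [sub_self, abs_zero]
      refine ⟨?_, by linarith⟩
      rw [show a - s / 2 + m / 2 - (a + m / 2) = -(s / 2) by ring, abs_neg, abs_of_pos (by linarith)]
    linarith [dist_triangle z (pc (a - s / 2) m) (pc a m)]

theorem exists_rho3 {D : Set (ℝ × ℝ)} (hD : IsOpen D) {a b c : ℝ} (habc : a + b < c)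
    (hp : pc ((a + c - b) / 2) b ∈ D) :
    ∃ e R : ℝ, 0 < e ∧ 0 < R ∧ ∀ e' R' : ℝ, e' ≤ e → R ≤ R' →
      ∃ ρ : ℝ × ℝ → ℝ, TestOn (PW.K3 ⟨a, b, c, e', R'⟩ ∩ D) ρ ∧ ∫ x, ρ x = 1 := by
  obtain ⟨s, hs, hball⟩ := Metric.isOpen_iff.1 hD _ hp
  set m : ℝ := (a + c - b) / 2 with hm
  refine ⟨s / 4, |m| + |b| + |c| + s, by linarith, by positivity, fun e' R' he hR => ?_⟩
  set s8 : ℝ := min (s / 16) ((c - b - a) / 8) with hs8d
  have hs8 : 0 < s8 := lt_min (by linarith) (by linarith)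
  have m1 : s8 ≤ s / 16 := min_le_left _ _
  have m2 : s8 ≤ (c - b - a) / 8 := min_le_right _ _
  refine ⟨bump s8 (pc m (b - s / 2)), bump_test hs8 fun z hz => ?_, bump_int hs8 _⟩
  rw [Metric.mem_closedBall] at hz
  obtain ⟨h1, h2⟩ := c_le z (pc m (b - s / 2))
  rw [c1_pc, abs_le] at h1
  rw [c2_pc, abs_le] at h2
  have c1' := le_abs_self m
  have c2' := neg_abs_le m
  have c3 := le_abs_self b
  have c4 := neg_abs_le b
  refine ⟨⟨?_, ?_, ?_, ?_, ?_⟩, hball ?_⟩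
  · show c2 z ≤ b - e'
    linarith
  · show a ≤ c1 z
    linarith
  · show c1 z + c2 z ≤ c
    linarith
  · show |c1 z| ≤ R'
    rw [abs_le]; constructor <;> linarith [abs_nonneg b, abs_nonneg c]
  · show |c2 z| ≤ R'
    rw [abs_le]; constructor <;> linarith [abs_nonneg m, abs_nonneg c]
  · rw [Metric.mem_ball]
    have e1 : dist (pc m (b - s / 2)) (pc m b) ≤ s / 2 := by
      have h3 : √3 / 2 ≤ 1 := by linarith [GFF.sqrt3_le]
      have h30 : 0 ≤ √3 / 2 := by positivity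
      unfold pc
      rw [Prod.dist_eq, max_le_iff, Real.dist_eq, Real.dist_eq]
      simp only
      rw [show m + (b - s / 2) / 2 - (m + b / 2) = -(s / 4) by ring,
        show (b - s / 2) * (√3 / 2) - b * (√3 / 2) = -(s / 2 * (√3 / 2)) by ring, abs_neg, abs_neg,
        abs_of_nonneg (by linarith), abs_of_nonneg (by positivity)]
      constructor
      · linarith
      · nlinarith
    linarith [dist_triangle z (pc m (b - s / 2)) (pc m b)]

/-- The geometric conditions. -/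
def Gd (δ ε : ℝ) (j N : ℕ) (a b c e1 : ℝ) (Y : Finset (ℤ × ℤ)) (y0 : ℤ × ℤ) (l : ℤ) : Prop :=
  (∀ y ∈ Y, |y.1| ≤ N ∧ |y.2| ≤ N ∧
    ∃ i, FinT δ (iE (bx (ce (sc ε δ (j + 1)) y) (2 * sc ε δ (j + 1)))) (Kq a b c e1 i)) ∧
  1 ≤ l ∧ |y0.1| + 8 * l ≤ N ∧ |y0.2| + 8 * l ≤ N ∧
  FinT δ (iE (bx (ce (sc ε δ (j + 1)) y0) (8 * (l * sc ε δ (j + 1))))) {z | c1 z ≤ a - 1}

/-- The product decomposition of the family. -/
theorem exists_X (hL : S_loc) {δ ε : ℝ} (hδ : 0 < δ) (hδε : δ ≤ ε) {j N : ℕ} {a b c e1 e R : ℝ}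
    (hee : e ≤ e1) (he1 : e ≤ 1) (hR : 4 ^ (j + 1) * ε * (2 * N + 2) ≤ R)
    {Y : Finset (ℤ × ℤ)} {y0 : ℤ × ℤ} {l : ℤ} (h : Gd δ ε j N a b c e1 Y y0 l) :
    (LocS univ (ind (QQ (sc ε δ (j + 1)) Y y0 l)) ∧ ind (QQ (sc ε δ (j + 1)) Y y0 l) ∅ = 0) ∧
    ∃ X1 X2 X3 : Hgt → ℝ,
      (SD.Loc (lat δ (PW.K1 ⟨a, b, c, e, R⟩)) X1 ∧ SD.Loc (lat δ (PW.K2 ⟨a, b, c, e, R⟩)) X2 ∧
        SD.Loc (lat δ (PW.K3 ⟨a, b, c, e, R⟩)) X3) ∧
      ((∀ h, 0 ≤ X1 h ∧ X1 h ≤ 1) ∧ (∀ h, 0 ≤ X2 h ∧ X2 h ≤ 1) ∧ (∀ h, 0 ≤ X3 h ∧ X3 h ≤ 1)) ∧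
      ∀ h, ind (QQ (sc ε δ (j + 1)) Y y0 l) (bl h) = X1 h * X2 h * X3 h := by
  classical
  obtain ⟨hY, hl, hy1, hy2, hfar⟩ := h
  set w : ℤ := sc ε δ (j + 1) with hw
  have hw1 : 1 ≤ w := sc_pos hδ hδε _
  have hM : δ * (w : ℝ) ≤ 4 ^ (j + 1) * ε := sc_bd hδ _
  have hlw : 1 ≤ l * w := by nlinarith
  have hN : (0 : ℤ) ≤ N := Int.natCast_nonneg N
  have hR' : 4 ^ (j + 1) * ε * ((2 * (N : ℤ) + 2 : ℤ) : ℝ) ≤ R := by push_cast; exact hR
  have hT : ∀ s ∈ TT w Y (ce w y0) (4 * (l * w)), 1 ≤ s.2 ∧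
      (∃ i, FinT δ (iE (bx s.1 (2 * s.2))) (Kq a b c e i)) ∧
      FinT δ (iE (bx s.1 (2 * s.2))) {z | |c1 z| ≤ R ∧ |c2 z| ≤ R} := by
    intro s hs
    unfold TT at hs
    rcases Finset.mem_insert.1 hs with rfl | hs
    · refine ⟨by simp only; linarith, ⟨0, ?_⟩, ?_⟩
      · have e8 : 2 * (4 * (l * w)) = 8 * (l * w) := by ring
        simp only
        rw [e8]
        refine finT_mono hfar fun z hz => Or.inl ⟨rfl, ?_⟩
        have : c1 z ≤ a - 1 := hz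
        linarith
      · refine finT_bd hδ hM (K := 2 * (N : ℤ) + 2) (by linarith) ?_ hR'
        simp only [ce]
        rw [abs_mul, abs_mul, abs_of_pos (by linarith : (0 : ℤ) < w)]
        nlinarith
    · obtain ⟨y, hy, rfl⟩ := Finset.mem_image.1 hs
      obtain ⟨h1, h2, i, h3⟩ := hY y hy
      refine ⟨hw1, ⟨i, finT_mono h3 (Kq_mono hee i)⟩, ?_⟩
      refine finT_bd hδ hM (K := 2 * (N : ℤ) + 2) (by linarith) ?_ hR'
      simp only [ce]
      rw [abs_mul, abs_mul, abs_of_pos (by linarith : (0 : ℤ) < w)]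
      nlinarith
  have hne : (TT w Y (ce w y0) (4 * (l * w))).Nonempty := by
    unfold TT
    exact Finset.insert_nonempty _ _
  have hloc := locS_allZ hL (A := univ) _ fun s hs => ⟨(hT s hs).1, subset_univ _⟩
  have hemp := allZ_empty hL hne fun s hs => (hT s hs).1
  obtain ⟨X1, X2, X3, h1, h2, h3⟩ := exists_prod hL _ hT
  rw [ind_TT] at hloc hemp h3
  exact ⟨⟨hloc, hemp⟩, X1, X2, X3, h1, h2, h3⟩

end Sdx

open Sdx in
/-- **The Schwinger-Dyson half of the frame.** -/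
theorem sdH_of {κ : ℝ} {P : Measure (Pt → ℤ)} (hP : GFF.Plane P) {A0 : ℝ} (hA0 : 0 ≤ A0)
    (hA : ∀ x : ℤ × ℤ, var2 P x ≤ A0 * (1 + |(x.1 : ℝ)| + |(x.2 : ℝ)|)) (hclt : CLT P κ)
    (hi : S_int P) (hL : S_loc) {δ : ℕ → ℝ} (hδ : ∀ n, 0 < δ n) (hδ0 : Tendsto δ atTop (𝓝 0)) :
    SdH κ P δ := by
  classical
  intro D hD hDb a b c habc hcell e he ψ f0 g k hψ hf0 hg hgP ε hε j N e1 he1 Y y0 l hY
    c0 hc0 hpos hmom
  set G : ℕ → Set Pt → ℝ := fun n => ind (QQ (sc ε (δ n) (j + 1)) (Y n) (y0 n) (l n)) with hGd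
  have hcc : ∀ z, z ∈ ccell a b c → z ∈ D := fun z hz => hcell hz
  obtain ⟨s1, R1, hs1, hR1, hρ1⟩ := exists_rho1 (b := b) (c := c) (m := (b + c - a) / 2) hD
    (hcc _ ⟨by rw [c1_pc], by rw [c2_pc]; linarith, by rw [c1_pc, c2_pc]; linarith⟩)
  obtain ⟨s3, R3, hs3, hR3, hρ3⟩ := exists_rho3 hD habc
    (hcc _ ⟨by rw [c1_pc]; linarith, by rw [c2_pc], by rw [c1_pc, c2_pc]; linarith⟩)
  obtain ⟨Rg, hRg⟩ := hg.cs.isCompact.isBounded.subset_ball (0 : ℝ × ℝ)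
  set E : ℝ := min (min e e1) (min (min s1 s3) 1) with hE
  have hE0 : 0 < E := lt_min (lt_min he he1) (lt_min (lt_min hs1 hs3) one_pos)
  have hEe : E ≤ e := (min_le_left _ _).trans (min_le_left _ _)
  have hEe1 : E ≤ e1 := (min_le_left _ _).trans (min_le_right _ _)
  have hEs1 : E ≤ s1 := (min_le_right _ _).trans ((min_le_left _ _).trans (min_le_left _ _))
  have hEs3 : E ≤ s3 := (min_le_right _ _).trans ((min_le_left _ _).trans (min_le_right _ _))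
  have hE1 : E ≤ 1 := (min_le_right _ _).trans (min_le_right _ _)
  set R : ℝ := R1 + R3 + 2 * |Rg| + 4 ^ (j + 1) * ε * (2 * N + 2) with hR
  have hRN : 0 ≤ 4 ^ (j + 1) * ε * (2 * (N : ℝ) + 2) := by positivity
  have hRR1 : R1 ≤ R := by rw [hR]; linarith [abs_nonneg Rg]
  have hRR3 : R3 ≤ R := by rw [hR]; linarith [abs_nonneg Rg]
  have hRRg : 2 * Rg ≤ R := by rw [hR]; linarith [le_abs_self Rg]
  have hRRN : 4 ^ (j + 1) * ε * (2 * (N : ℝ) + 2) ≤ R := by rw [hR]; linarith [abs_nonneg Rg]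
  -- the three factors
  have key : ∀ n, ∃ X1 X2 X3 : Hgt → ℝ, δ n ≤ ε →
      Gd (δ n) ε j N a b c e1 (Y n) (y0 n) (l n) →
      (LocS univ (G n) ∧ G n ∅ = 0) ∧
      (SD.Loc (lat (δ n) (PW.K1 ⟨a, b, c, E, R⟩)) X1 ∧
        SD.Loc (lat (δ n) (PW.K2 ⟨a, b, c, E, R⟩)) X2 ∧
        SD.Loc (lat (δ n) (PW.K3 ⟨a, b, c, E, R⟩)) X3) ∧
      ((∀ h, 0 ≤ X1 h ∧ X1 h ≤ 1) ∧ (∀ h, 0 ≤ X2 h ∧ X2 h ≤ 1) ∧ (∀ h, 0 ≤ X3 h ∧ X3 h ≤ 1)) ∧
      ∀ h, G n (bl h) = X1 h * X2 h * X3 h := by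
    intro n
    by_cases hn : δ n ≤ ε ∧ Gd (δ n) ε j N a b c e1 (Y n) (y0 n) (l n)
    · obtain ⟨h0, X1, X2, X3, h⟩ := exists_X hL (hδ n) hn.1 hEe1 hE1 hRRN hn.2
      exact ⟨X1, X2, X3, fun _ _ => ⟨h0, h⟩⟩
    · exact ⟨0, 0, 0, fun h1 h2 => absurd ⟨h1, h2⟩ hn⟩
  choose X1 X2 X3 hX using key
  have hε' : ∀ᶠ n in atTop, δ n ≤ ε := hδ0.eventually (ge_mem_nhds hε)
  have hall : ∀ᶠ n in atTop, (LocS univ (G n) ∧ G n ∅ = 0) ∧
      (SD.Loc (lat (δ n) (PW.K1 ⟨a, b, c, E, R⟩)) (X1 n) ∧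
        SD.Loc (lat (δ n) (PW.K2 ⟨a, b, c, E, R⟩)) (X2 n) ∧
        SD.Loc (lat (δ n) (PW.K3 ⟨a, b, c, E, R⟩)) (X3 n)) ∧
      ((∀ h, 0 ≤ X1 n h ∧ X1 n h ≤ 1) ∧ (∀ h, 0 ≤ X2 n h ∧ X2 n h ≤ 1) ∧
        (∀ h, 0 ≤ X3 n h ∧ X3 n h ≤ 1)) ∧
      ∀ h, G n (bl h) = X1 n h * X2 n h * X3 n h := by
    filter_upwards [hε', hY] with n h1 h2
    exact hX n h1 h2
  set X : ℕ → Hgt → ℝ := fun n h => G n (bl h) with hXd
  have hG0 : ∀ n B, 0 ≤ G n B := fun n B => sd_ind_nonneg _ _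
  have hI1 : ∀ n, ∫ h, X n h ∂(muT P) = II P (G n) (fun _ => 1) := by
    intro n
    unfold II
    refine integral_congr_ae (Eventually.of_forall fun h => ?_)
    simp only [hXd, mul_one]
  have hms := fun {f : ℝ × ℝ → ℝ} (hf : TestOn D f) (k : ℕ) => mom_signed (P := P) hδ hD
    hDb hi (G := G) (hall.mono fun n h => ⟨h.1.1, h.1.2, hG0 n⟩) hmom hf k
  have hbox : PW.box ⟨a, b, c, E, R⟩ = cell a b c := rfl
  have d : DatM P δ ⟨a, b, c, E, R⟩ D X1 X2 X3 X :=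
    { hb := habc
      he := hE0
      hbD := fun z hz => hcc z ⟨hz.1.le, hz.2.1.le, hz.2.2.le⟩
      l1 := hall.mono fun n h => h.2.1.1
      l2 := hall.mono fun n h => h.2.1.2.1
      l3 := hall.mono fun n h => h.2.1.2.2
      n1 := hall.mono fun n h => h.2.2.1.1
      n2 := hall.mono fun n h => h.2.2.1.2.1
      n3 := hall.mono fun n h => h.2.2.1.2.2
      hX := hall.mono fun n h => h.2.2.2
      int := by
        filter_upwards [hall] with n h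
        have h1 := hi (G n) (fun _ => 1) h.1.1 h.1.2 Pol.one
        simp only [mul_one] at h1
        exact h1
      pos := by
        refine ⟨c0, hc0, ?_⟩
        filter_upwards [hpos] with n h
        rw [hI1]
        exact h
      mom := by
        intro f hf k
        obtain ⟨C, hC⟩ := hms hf k
        refine ⟨C, ?_⟩
        filter_upwards [hall, hC] with n h1 h3
        have hAlg : Alg (fun ω => hv (δ n) f ω ^ (2 * k)) := (alg_hv (hδ n) hf.cs).pow _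
        have h4 := hi (G n) _ h1.1.1 h1.1.2 hAlg
        have h5 : ∀ h, Lf (δ n) f h ^ (2 * k) * X n h =
            G n (bl h) * (fun ω => hv (δ n) f ω ^ (2 * k)) (vm h) := by
          intro h
          simp only
          rw [hv_vm (hδ n) hf.1 hf.cs]
          ring
        simp only [h5]
        refine ⟨h4, ?_⟩
        rw [hI1]
        exact h3
      r1 := hρ1 E R hEs1 hRR1
      r3 := hρ3 E R hEs3 hRR3 }
  have hgK : ∀ x, g x ≠ 0 → x ∈ PW.K1 ⟨a, b, c, E, R⟩ ∨ x ∈ PW.K2 ⟨a, b, c, E, R⟩ ∨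
      x ∈ PW.K3 ⟨a, b, c, E, R⟩ := by
    intro x hx
    have h1 := hRg (subset_tsupport _ hx)
    rw [Metric.mem_ball] at h1
    obtain ⟨b1, b2⟩ := c_le x 0
    have e1 : c1 (0 : ℝ × ℝ) = 0 := by unfold c1; simp
    have e2 : c2 (0 : ℝ × ℝ) = 0 := by unfold c2; simp
    rw [e1, sub_zero] at b1
    rw [e2, sub_zero] at b2
    have b1' : |c1 x| ≤ R := by linarith
    have b2' : |c2 x| ≤ R := by linarith
    have h2 := hgP _ hx
    simp only [Pin, Set.mem_ofPred_eq] at h2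
    rcases h2 with h2 | ⟨h2, h3⟩ | ⟨h2, h3, h4⟩
    · exact Or.inl ⟨by simp only; linarith, b1', b2'⟩
    · exact Or.inr (Or.inl ⟨by simp only; linarith, h2, b1', b2'⟩)
    · exact Or.inr (Or.inr ⟨by simp only; linarith, h2, h3, b1', b2'⟩)
  have hδ' : Tendsto δ atTop (𝓝[>] 0) :=
    tendsto_nhdsWithin_iff.2 ⟨hδ0, Eventually.of_forall hδ⟩
  have hmain := useM hP hA0 hA hclt hδ hδ' d hψ hf0 hg hgK k
  refine hmain.congr' ?_
  filter_upwards [hall] with n hr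
  have hf : TestOn D (fun x => f0 x + g x) :=
    (hf0.mono fun z hz => hcc z ⟨hz.1.le, hz.2.1.le, hz.2.2.le⟩).add hg
  have i1 : ∫ h, Lf (δ n) (lap ψ) h * Lf (δ n) (fun x => f0 x + g x) h ^ (k + 1) *
      X n h ∂(muT P) =
        II P (G n) (fun ω => hv (δ n) (lap ψ) ω * hv (δ n) (fun z => f0 z + g z) ω ^ (k + 1)) := by
    unfold II
    refine integral_congr_ae (Eventually.of_forall fun h => ?_)
    simp only
    rw [hv_vm (hδ n) hψ.lap.1 hψ.lap.cs, hv_vm (hδ n) hf.1 hf.cs]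
    ring
  have i2 : ∫ h, Lf (δ n) (fun x => f0 x + g x) h ^ k * X n h ∂(muT P) =
      II P (G n) (fun ω => hv (δ n) (fun z => f0 z + g z) ω ^ k) := by
    unfold II
    refine integral_congr_ae (Eventually.of_forall fun h => ?_)
    simp only
    rw [hv_vm (hδ n) hf.1 hf.cs]
    ring
  rw [i1, i2, hI1]

end Vale.Agent.P153.F.X
end

section

/-!
P153-F: all inputs of `key_of` from the plane theorem and the X-level.
-/

set_option autoImplicit false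

namespace Vale.Agent.P153.F

open Filter Topology MeasureTheory
open Vale.Agent.P153.F.X

/-- What the X-level needs from the probabilistic blocks. -/
structure Lvl (P : Measure (Pt → ℤ)) : Prop where
  rsw : S_rsw P
  low : S_low P
  ext : S_ext P
  lowc : S_lowc P
  mom : S_mom P
  mm : ∀ δ : ℕ → ℝ, (∀ n, 0 < δ n) → Tendsto δ atTop (𝓝 0) → S_mm P δ
  momJ : MomJ P
  pos : S_pos P

theorem inputs_of {P : Measure (Pt → ℤ)} {κ' : ℝ} (hP : GFF.Plane P) (hS : GFF.SpecOut P κ')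
    (hC : GFF.RowCLT P κ') (hκ : 0 < κ') (L : Lvl P) {δ : ℕ → ℝ} (hδ : ∀ n, 0 < δ n)
    (hlim : Tendsto δ atTop (𝓝 0)) : Top.Inputs (4 * κ' / √3) δ := by
  have h3 : (0 : ℝ) < √3 := by positivity
  have hprob := hP.prob
  obtain ⟨hclt, A, hA0, hA⟩ := SD.clt_of hP hS hC
  have hint : S_int P := s_int hP
  have hup : S_up P := s_up hP hint
  have hgeom : S_geom := s_geom s_conf
  have hcnt : S_cnt P := s_cnt hP.shift L.rsw L.momJ
  have hgap : S_gap P := s_gap L.ext hcnt s_conf s_loc hint L.rsw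
  have hemom : S_emom P := s_emom L.ext s_conf s_loc
  have hmm := L.mm δ hδ hlim
  have hmb : Top.S_mb δ := s_mb hδ hlim L.low hmm L.rsw s_loc
  have hl2 : Top.S_l2 δ := s_l2 hδ hlim L.low hmm L.rsw s_loc
  have hdec : Top.S_dec δ := s_dec hint L.low L.lowc hgap L.mom L.rsw s_loc s_conf hδ hlim hmb
  have hsd : SdH (4 * κ' / √3) P δ := sdH_of hP hA0 hA hclt hint s_loc hδ hlim
  have h0 := xst0_of' hδ hlim Top.s_mono hint L.low hup s_loc L.rsw hgap L.pos hemom hmm hgeom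
    far hsd
  exact ⟨by positivity, hδ, hlim, Top.s_mono, hmb, hl2, hdec,
    xst_of_xst0 hδ Top.s_mono hmb hl2 h0⟩

theorem key_all {P : Measure (Pt → ℤ)} {κ' : ℝ} (hP : GFF.Plane P) (hS : GFF.SpecOut P κ')
    (hC : GFF.RowCLT P κ') (hκ : 0 < κ') (L : Lvl P) {δ : ℕ → ℝ} (hδ : ∀ n, 0 < δ n)
    (hlim : Tendsto δ atTop (𝓝 0)) : Top.S_key (4 * κ' / √3) δ :=
  Top.key_of (inputs_of hP hS hC hκ L hδ hlim) Top.exists_cells Top.exists_dom Top.exists_big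
    Top.pos_part

end Vale.Agent.P153.F
end

section

/-!
# P153-F, block X: the Riemann sums `hv` and the smeared field
-/

namespace Vale.Agent.P153.F.X

open Filter Topology Set MeasureTheory
open Vale.Agent.P153
open Vale.Agent.P153.F.Top (Om hv tl)
open Vale.Agent.P153.GFF (smear box pos ker Test Plane SpecOut ker_eq_zero ker_nonneg integral_ker
  integrable_ker g3wt_int g3radius wt_zero_of_box)

lemma ker_neg (u : ℝ × ℝ) : ker (-u) = ker u := by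
  unfold GFF.ker GFF.hat
  simp only [Prod.fst_neg, Prod.snd_neg]
  have e1 : -u.1 - -u.2 / √3 = -(u.1 - u.2 / √3) := by ring
  have e2 : 2 * -u.2 / √3 = -(2 * u.2 / √3) := by ring
  rw [e1, e2, abs_neg, abs_neg, ← neg_add, abs_neg]

/-- The weights and the values at the vertices. -/
lemma ker_second {f : ℝ × ℝ → ℝ} (hf : Smo f) {M : ℝ} (hM0 : 0 ≤ M)
    (hM : ∀ x y, |f (x + y) - 2 * f x + f (x - y)| ≤ M * ‖y‖ ^ 2) {δ : ℝ} (hδ : 0 < δ) (v : Pt) :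
    |(∫ u : ℝ × ℝ, ker u * f (δ • (u + pos v))) - √3 / 2 * f (δ • pos v)| ≤ 2 * M * δ ^ 2 := by
  have hH : (volume : Measure (ℝ × ℝ)).IsAddHaarMeasure :=
    Measure.prod.instIsAddHaarMeasure volume volume
  set A := ∫ u : ℝ × ℝ, ker u * f (δ • (u + pos v)) with hA
  have i1 : Integrable fun u : ℝ × ℝ => ker u * f (δ • (u + pos v)) :=
    g3wt_int hδ hf.cont hf.2 v
  have i2 : Integrable fun u : ℝ × ℝ => ker u * f (δ • (-u + pos v)) := by
    have := i1.comp_neg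
    refine this.congr (Eventually.of_forall fun u => ?_)
    simp only [ker_neg]
  have e1 : A = ∫ u : ℝ × ℝ, ker u * f (δ • (-u + pos v)) := by
    rw [hA, ← integral_neg_eq_self]
    simp only [ker_neg]
  have i3 : Integrable fun u : ℝ × ℝ => 2 * f (δ • pos v) * ker u := integrable_ker.const_mul _
  have e2 : ∫ u : ℝ × ℝ, ker u * (f (δ • pos v + δ • u) - 2 * f (δ • pos v) +
      f (δ • pos v - δ • u)) = 2 * (A - √3 / 2 * f (δ • pos v)) := by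
    have e3 : (fun u : ℝ × ℝ => ker u * (f (δ • pos v + δ • u) - 2 * f (δ • pos v) +
        f (δ • pos v - δ • u))) = fun u : ℝ × ℝ => (ker u * f (δ • (u + pos v)) -
          2 * f (δ • pos v) * ker u) + ker u * f (δ • (-u + pos v)) := by
      funext u
      have h1 : δ • pos v + δ • u = δ • (u + pos v) := by rw [smul_add, add_comm]
      have h2 : δ • pos v - δ • u = δ • (-u + pos v) := by
        rw [smul_add, smul_neg, neg_add_eq_sub]
      rw [h1, h2]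
      ring
    have i4 : Integrable fun u : ℝ × ℝ => ker u * f (δ • (u + pos v)) -
        2 * f (δ • pos v) * ker u := i1.sub i3
    have e4 : ∫ u : ℝ × ℝ, 2 * f (δ • pos v) * ker u = 2 * f (δ • pos v) * (√3 / 2) := by
      rw [integral_const_mul, integral_ker]
    rw [e3, integral_add i4 i2, integral_sub i1 i3, e4, ← e1, ← hA]
    ring
  have h3 : |2 * (A - √3 / 2 * f (δ • pos v))| ≤ 4 * M * δ ^ 2 := by
    rw [← e2]
    have h4 : ∀ u : ℝ × ℝ, ‖ker u * (f (δ • pos v + δ • u) - 2 * f (δ • pos v) +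
        f (δ • pos v - δ • u))‖ ≤ 4 * M * δ ^ 2 * ker u := by
      intro u
      rw [norm_mul, Real.norm_eq_abs, Real.norm_eq_abs, abs_of_nonneg (ker_nonneg u)]
      by_cases hk : ker u = 0
      · rw [hk, zero_mul, mul_zero]
      · have h5 : ¬(2 < |u.1| ∨ 1 < |u.2|) := fun h => hk (ker_eq_zero h)
        rw [not_or, not_lt, not_lt] at h5
        have h6 : ‖u‖ ≤ 2 := by
          rw [Prod.norm_def, max_le_iff, Real.norm_eq_abs, Real.norm_eq_abs]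
          exact ⟨h5.1, by linarith [h5.2]⟩
        have h7 : ‖δ • u‖ ^ 2 ≤ 4 * δ ^ 2 := by
          rw [norm_smul, Real.norm_eq_abs, abs_of_pos hδ, mul_pow]
          have : ‖u‖ ^ 2 ≤ 4 := by nlinarith [norm_nonneg u]
          nlinarith [sq_nonneg δ]
        have h8 := hM (δ • pos v) (δ • u)
        have h9 : M * ‖δ • u‖ ^ 2 ≤ M * (4 * δ ^ 2) := mul_le_mul_of_nonneg_left h7 hM0
        rw [mul_comm]
        refine mul_le_mul_of_nonneg_right ?_ (ker_nonneg u)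
        linarith
    refine (norm_integral_le_of_norm_le (integrable_ker.const_mul _)
      (Eventually.of_forall h4)).trans ?_
    rw [integral_const_mul, integral_ker]
    have h5 : √3 / 2 ≤ 1 := by linarith [sq3.2]
    have h6 : 0 ≤ 4 * M * δ ^ 2 := by positivity
    calc 4 * M * δ ^ 2 * (√3 / 2) ≤ 4 * M * δ ^ 2 * 1 := mul_le_mul_of_nonneg_left h5 h6
      _ = _ := mul_one _
  rw [abs_mul, abs_two] at h3
  linarith

/-! ### Riemann weights -/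

lemma tl_pos (f : ℝ × ℝ → ℝ) (δ : ℝ) (v : Pt) :
    tl f (δ * v.1, δ * v.2) = √3 / 2 * f (δ • pos v) := by
  unfold tl pos
  congr 2
  ext
  · simp only [Prod.smul_fst, smul_eq_mul]
    ring
  · simp only [Prod.smul_snd, smul_eq_mul]
    ring

lemma pos_box {δ R : ℝ} (hδ : 0 < δ) (hR : 0 ≤ R) {f : ℝ × ℝ → ℝ}
    (hf : ∀ z : ℝ × ℝ, (R < |z.1| ∨ R < |z.2|) → f z = 0) {v : Pt} (hv : v ∉ box δ R) :
    f (δ • pos v) = 0 := by
  have h := GFF.ker_zero_of_box hδ hR hf hv (pos v)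
  rw [sub_self] at h
  rcases mul_eq_zero.1 h with h0 | h0
  · exfalso
    have : ker (0 : ℝ × ℝ) = 1 := by
      unfold GFF.ker GFF.hat
      simp
    rw [this] at h0
    exact one_ne_zero h0
  · exact h0

lemma HW_fin {f : ℝ × ℝ → ℝ} (cf : HasCompactSupport f) {δ : ℝ} (hδ : 0 < δ) :
    (Function.support fun v : Pt => δ ^ 2 * tl f (δ * v.1, δ * v.2)).Finite := by
  obtain ⟨R, hR, h⟩ := g3radius cf
  refine (box δ R).finite_toSet.subset fun v hv => ?_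
  by_contra hv'
  apply hv
  simp only
  rw [tl_pos, pos_box hδ hR h hv', mul_zero, mul_zero]

open Classical in
/-- The Riemann weights. -/
noncomputable def HW (δ : ℝ) (f : ℝ × ℝ → ℝ) : Pt →₀ ℝ :=
  if h : (Function.support fun v : Pt => δ ^ 2 * tl f (δ * v.1, δ * v.2)).Finite then
    Finsupp.ofSupportFinite _ h else 0

lemma HW_apply {f : ℝ × ℝ → ℝ} (cf : HasCompactSupport f) {δ : ℝ} (hδ : 0 < δ) (v : Pt) :
    HW δ f v = δ ^ 2 * tl f (δ * v.1, δ * v.2) := by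
  unfold HW
  rw [dif_pos (HW_fin cf hδ)]
  rfl

lemma hv_HW {f : ℝ × ℝ → ℝ} (cf : HasCompactSupport f) {δ : ℝ} (hδ : 0 < δ) (h : Hg) :
    hv δ f (vm h) = evT (HW δ f) h := by
  unfold hv evT
  rw [finsum_eq_sum_of_support_subset (s := (HW δ f).support), Finset.mul_sum]
  · unfold Finsupp.sum
    refine Finset.sum_congr rfl fun v _ => ?_
    rw [HW_apply cf hδ]
    unfold vm
    ring
  · intro v hv
    rw [Finset.mem_coe, Finsupp.mem_support_iff, HW_apply cf hδ]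
    exact mul_ne_zero (by positivity) (right_ne_zero_of_mul hv)

lemma sum_box {w : Pt →₀ ℝ} {B : Finset Pt} (hB : ∀ v, v ∉ B → w v = 0) (g : Pt → ℝ → ℝ)
    (hg : ∀ v, g v 0 = 0) : w.sum g = ∑ v ∈ B, g v (w v) := by
  refine Finsupp.sum_of_support_subset w (fun v hv => ?_) g fun v _ => hg v
  by_contra h
  exact (Finsupp.mem_support_iff.1 hv) (hB v h)

/-- Size of the box. -/
lemma box_size {δ R : ℝ} (hδ : 0 < δ) (hδ1 : δ ≤ 1) (hR : 0 ≤ R) :
    ((box δ R).card : ℝ) ≤ ((4 * R + 15) / δ) ^ 2 ∧ ∀ v ∈ box δ R,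
      ((|v.1| + |v.2| : ℤ) : ℝ) ≤ (4 * R + 15) / δ := by
  set m : ℤ := ⌈2 * (R / δ) + 6⌉ with hm
  have h1 : (m : ℝ) ≤ 2 * (R / δ) + 7 := by
    have := Int.ceil_lt_add_one (2 * (R / δ) + 6)
    linarith
  have h2 : (1 : ℝ) ≤ 1 / δ := by rw [le_div_iff₀ hδ]; linarith
  have h0 : (0 : ℝ) ≤ m := by
    have h3 := Int.le_ceil (2 * (R / δ) + 6)
    have : 0 ≤ R / δ := by positivity
    linarith
  have h3 : 2 * (m : ℝ) + 1 ≤ (4 * R + 15) / δ := by
    have e : (4 * R + 15) / δ = 4 * (R / δ) + 15 * (1 / δ) := by ring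
    rw [e]
    linarith
  constructor
  · have h4 : ((box δ R).card : ℝ) = (2 * m + 1) ^ 2 := by
      unfold GFF.box
      rw [Finset.card_product, Int.card_Icc]
      have e : m + 1 - -m = 2 * m + 1 := by ring
      rw [← hm, e]
      push_cast
      have h5 : (((2 * m + 1).toNat : ℕ) : ℝ) = 2 * m + 1 := by
        have h6 : (0 : ℤ) ≤ m := by exact_mod_cast h0
        have h7 : (((2 * m + 1).toNat : ℕ) : ℤ) = 2 * m + 1 := Int.toNat_of_nonneg (by omega)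
        have h8 : ((((2 * m + 1).toNat : ℕ) : ℤ) : ℝ) = ((2 * m + 1 : ℤ) : ℝ) := by rw [h7]
        push_cast at h8
        exact h8
      rw [h5]
      ring
    rw [h4]
    exact pow_le_pow_left₀ (by linarith) h3 2
  · intro v hv
    unfold GFF.box at hv
    rw [Finset.mem_product, Finset.mem_Icc, Finset.mem_Icc, ← hm, ← abs_le, ← abs_le] at hv
    have h5 : ((|v.1| + |v.2| : ℤ) : ℝ) ≤ ((2 * m : ℤ) : ℝ) := by
      refine Int.cast_le.2 ?_
      linarith [hv.1, hv.2]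
    push_cast at h5 ⊢
    linarith

/-- The Riemann weights are close to the weights of the smeared field. -/
lemma HW_close {f : ℝ × ℝ → ℝ} (hf : Smo f) {R : ℝ} (hR : 0 ≤ R)
    (hz : ∀ z : ℝ × ℝ, (R < |z.1| ∨ R < |z.2|) → f z = 0) : ∃ C : ℝ, 0 ≤ C ∧
    ∀ δ : ℝ, 0 < δ → δ ≤ 1 → |massT (HW δ f) - ∫ z, f z| ≤ C * δ ^ 2 ∧
      ∀ φ : Pt → ℤ, (∀ v, |φ v| ≤ |v.1| + |v.2|) →
        |evT (HW δ f) φ - evT (WT δ f) φ| ≤ C * δ := by
  obtain ⟨M, hM0, hM⟩ := GFF.second_diff (by exact_mod_cast contDiff_infty.1 hf.1 2) hf.2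
  refine ⟨2 * M * (4 * R + 15) ^ 3, by positivity, fun δ hδ hδ1 => ?_⟩
  obtain ⟨c1, c2⟩ := box_size hδ hδ1 hR
  set N : ℝ := (4 * R + 15) / δ with hN
  have hN0 : 0 < N := by positivity
  have hd : ∀ v, |HW δ f v - WT δ f v| ≤ 2 * M * δ ^ 4 := by
    intro v
    rw [HW_apply hf.2 hδ, WT_apply hf.2 hδ, tl_pos]
    unfold GFF.wt
    rw [← mul_sub, abs_mul, abs_of_pos (by positivity : (0 : ℝ) < δ ^ 2), abs_sub_comm]
    have := ker_second hf hM0 hM hδ v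
    calc δ ^ 2 * |(∫ u : ℝ × ℝ, ker u * f (δ • (u + pos v))) - √3 / 2 * f (δ • pos v)|
        ≤ δ ^ 2 * (2 * M * δ ^ 2) := mul_le_mul_of_nonneg_left this (by positivity)
      _ = 2 * M * δ ^ 4 := by ring
  have hB1 : ∀ v, v ∉ box δ R → HW δ f v = 0 := by
    intro v hv
    rw [HW_apply hf.2 hδ, tl_pos, pos_box hδ hR hz hv, mul_zero, mul_zero]
  have hB2 : ∀ v, v ∉ box δ R → WT δ f v = 0 := by
    intro v hv
    rw [WT_apply hf.2 hδ, wt_zero_of_box hδ hR hz hv]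
  constructor
  · rw [← mass_WT hf hδ]
    unfold massT
    rw [sum_box hB1 _ fun _ => rfl, sum_box hB2 _ fun _ => rfl, ← Finset.sum_sub_distrib]
    calc |∑ v ∈ box δ R, (HW δ f v - WT δ f v)| ≤ ∑ v ∈ box δ R, |HW δ f v - WT δ f v| :=
          Finset.abs_sum_le_sum_abs _ _
      _ ≤ ∑ _v ∈ box δ R, 2 * M * δ ^ 4 := Finset.sum_le_sum fun v _ => hd v
      _ = (box δ R).card * (2 * M * δ ^ 4) := by rw [Finset.sum_const, nsmul_eq_mul]
      _ ≤ N ^ 2 * (2 * M * δ ^ 4) := mul_le_mul_of_nonneg_right c1 (by positivity)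
      _ = 2 * M * (4 * R + 15) ^ 2 * δ ^ 2 := by
          rw [hN]
          field_simp
      _ ≤ 2 * M * (4 * R + 15) ^ 3 * δ ^ 2 := by
          refine mul_le_mul_of_nonneg_right (mul_le_mul_of_nonneg_left ?_ (by positivity))
            (by positivity)
          exact pow_le_pow_right₀ (by linarith) (by norm_num)
  · intro φ hφ
    unfold evT
    rw [sum_box hB1 _ fun _ => by simp, sum_box hB2 _ fun _ => by simp, ← Finset.sum_sub_distrib]
    calc |∑ v ∈ box δ R, (HW δ f v * (φ v : ℝ) - WT δ f v * (φ v : ℝ))|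
        ≤ ∑ v ∈ box δ R, |HW δ f v * (φ v : ℝ) - WT δ f v * (φ v : ℝ)| :=
          Finset.abs_sum_le_sum_abs _ _
      _ ≤ ∑ _v ∈ box δ R, 2 * M * δ ^ 4 * N := by
          refine Finset.sum_le_sum fun v hv => ?_
          rw [← sub_mul, abs_mul]
          refine mul_le_mul (hd v) ?_ (abs_nonneg _) (by positivity)
          rw [← Int.cast_abs]
          exact (Int.cast_le.2 (hφ v)).trans (c2 v hv)
      _ = (box δ R).card * (2 * M * δ ^ 4 * N) := by rw [Finset.sum_const, nsmul_eq_mul]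
      _ ≤ N ^ 2 * (2 * M * δ ^ 4 * N) := mul_le_mul_of_nonneg_right c1 (by positivity)
      _ = 2 * M * (4 * R + 15) ^ 3 * δ := by
          rw [hN]
          field_simp

/-- Crude bound of the smeared field. -/
lemma evT_crude {f : ℝ × ℝ → ℝ} (hf : Smo f) {R : ℝ} (hR : 0 ≤ R)
    (hz : ∀ z : ℝ × ℝ, (R < |z.1| ∨ R < |z.2|) → f z = 0) {δ : ℝ} (hδ : 0 < δ) (hδ1 : δ ≤ 1)
    {φ : Pt → ℤ} (hφ : ∀ v, |φ v| ≤ |v.1| + |v.2|) :
    |evT (WT δ f) φ| ≤ (∫ z, |f z|) * ((4 * R + 15) / δ) := by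
  obtain ⟨c1, c2⟩ := box_size hδ hδ1 hR
  set N : ℝ := (4 * R + 15) / δ with hN
  have hN0 : 0 < N := by positivity
  have hB2 : ∀ v, v ∉ box δ R → WT δ f v = 0 := by
    intro v hv
    rw [WT_apply hf.2 hδ, wt_zero_of_box hδ hR hz hv]
  unfold evT
  rw [sum_box hB2 _ fun _ => by simp]
  calc |∑ v ∈ box δ R, WT δ f v * (φ v : ℝ)|
      ≤ ∑ v ∈ box δ R, |WT δ f v * (φ v : ℝ)| := Finset.abs_sum_le_sum_abs _ _
    _ ≤ ∑ v ∈ box δ R, |WT δ f v| * N := by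
        refine Finset.sum_le_sum fun v hv => ?_
        rw [abs_mul]
        refine mul_le_mul_of_nonneg_left ?_ (abs_nonneg _)
        rw [← Int.cast_abs]
        exact (Int.cast_le.2 (hφ v)).trans (c2 v hv)
    _ = (∑ v ∈ box δ R, |GFF.wt δ f v|) * N := by
        rw [Finset.sum_mul]
        exact Finset.sum_congr rfl fun v _ => by rw [WT_apply hf.2 hδ]
    _ ≤ _ := mul_le_mul_of_nonneg_right (MN.sum_abs_wt hδ hR hf.cont hf.2 hz) hN0.le

end Vale.Agent.P153.F.X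
end

section

/-!
# P153-F, block X: moments of the heights given a macroscopic circuit at level `0` (`S_mm`)
-/

namespace Vale.Agent.P153.F.X

open Filter Topology Set MeasureTheory
open Vale.Agent.P153
open Vale.Agent.P153.F.Top (Om hv tl)
open Vale.Agent.P153.GFF (smear box pos Test Plane SpecOut g3radius)
open Vale.Agent.P145.PT (TestOn)

lemma massT_smul (c : ℝ) (a : Pt →₀ ℝ) : massT (c • a) = c * massT a := by
  unfold massT
  rw [Finsupp.sum_smul_index' (fun _ => rfl), Finsupp.mul_sum]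
  rfl

lemma mv_zero (w : Pt →₀ ℝ) : mv 0 w = w := by
  ext v
  rw [mv_apply, sub_zero]

/-- Real geometry: inner weights. -/
lemma in_box {i : ℝ × ℝ → ℝ} (ci : HasCompactSupport i) {z : ℝ × ℝ} {ρ δ : ℝ} (hδ : 0 < δ)
    (hi : ∀ x, i x ≠ 0 → |x.1 - z.1| ≤ ρ ∧ |x.2 - z.2| ≤ ρ) {p v : Pt} {s : ℤ}
    (h1 : |δ * (p.1 + p.2 / 2) - z.1| ≤ ρ) (h2 : |δ * (p.2 * (√3 / 2)) - z.2| ≤ ρ)
    (hs : 4 * ρ + 3 * δ ≤ δ * s) (hv : WT δ i v ≠ 0) : v ∈ bx p s := by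
  obtain ⟨u, u1, u2, u3⟩ := WT_ne ci hδ hv
  obtain ⟨a1, a2⟩ := hi _ u3
  simp only [Prod.smul_fst, Prod.smul_snd, Prod.fst_add, Prod.snd_add, pos, smul_eq_mul] at a1 a2
  have hρ : 0 ≤ ρ := le_trans (abs_nonneg _) h1
  set X : ℝ := ((v.1 - p.1 : ℤ) : ℝ) with hX
  set Y : ℝ := ((v.2 - p.2 : ℤ) : ℝ) with hY
  have eX : (v.1 : ℝ) = p.1 + X := by rw [hX]; push_cast; ring
  have eY : (v.2 : ℝ) = p.2 + Y := by rw [hY]; push_cast; ring
  have b2 : |δ * (u.2 + Y * (√3 / 2))| ≤ 2 * ρ := by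
    have e : δ * (u.2 + Y * (√3 / 2)) = (δ * (u.2 + v.2 * (√3 / 2)) - z.2) -
        (δ * (p.2 * (√3 / 2)) - z.2) := by rw [eY]; ring
    rw [e]
    exact (abs_sub _ _).trans (by linarith)
  have b1 : |δ * (u.1 + (X + Y / 2))| ≤ 2 * ρ := by
    have e : δ * (u.1 + (X + Y / 2)) = (δ * (u.1 + (v.1 + v.2 / 2)) - z.1) -
        (δ * (p.1 + p.2 / 2) - z.1) := by rw [eX, eY]; ring
    rw [e]
    exact (abs_sub _ _).trans (by linarith)
  have c2 : δ * |Y| ≤ 4 * ρ + 2 * δ := by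
    have d1 : |δ * (Y * (√3 / 2))| ≤ 2 * ρ + δ := by
      have e : δ * (Y * (√3 / 2)) = δ * (u.2 + Y * (√3 / 2)) - δ * u.2 := by ring
      rw [e]
      refine (abs_sub _ _).trans ?_
      rw [abs_mul δ u.2, abs_of_pos hδ]
      nlinarith
    rw [abs_mul, abs_mul, abs_of_pos hδ, abs_of_pos (by positivity : (0 : ℝ) < √3 / 2)] at d1
    have d2 : δ * |Y| * (1 / 2) ≤ δ * (|Y| * (√3 / 2)) := by
      have : 0 ≤ δ * |Y| := by positivity
      nlinarith [sq3.1]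
    linarith
  have c1 : δ * |X| ≤ 4 * ρ + 3 * δ := by
    have e : δ * X = δ * (u.1 + (X + Y / 2)) - δ * u.1 - δ * (Y / 2) := by ring
    have d1 : |δ * X| ≤ 2 * ρ + 2 * δ + δ * |Y| / 2 := by
      rw [e]
      refine (abs_sub _ _).trans ?_
      have d2 := abs_sub (δ * (u.1 + (X + Y / 2))) (δ * u.1)
      have d3 : |δ * u.1| ≤ 2 * δ := by
        rw [abs_mul, abs_of_pos hδ]
        nlinarith
      have d4 : |δ * (Y / 2)| = δ * |Y| / 2 := by
        rw [abs_mul, abs_of_pos hδ, abs_div, abs_two]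
        ring
      rw [d4]
      linarith
    rw [abs_mul, abs_of_pos hδ] at d1
    linarith
  have f1 : |X| ≤ s := le_of_mul_le_mul_left (c1.trans hs) hδ
  have f2 : |Y| ≤ s := le_of_mul_le_mul_left ((by linarith : δ * |Y| ≤ 4 * ρ + 3 * δ).trans hs) hδ
  refine ⟨?_, ?_⟩
  · rw [hX] at f1
    have : |v.1 - p.1| ≤ s := by exact_mod_cast f1
    exact this
  · rw [hY] at f2
    have : |v.2 - p.2| ≤ s := by exact_mod_cast f2
    exact this

/-- Real geometry: outer weights. -/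
lemma out_box {o : ℝ × ℝ → ℝ} (co : HasCompactSupport o) {R δ : ℝ} (hδ : 0 < δ) (hδ1 : δ ≤ 1)
    (ho : ∀ x, o x ≠ 0 → |x.1 - (3 * R + 6)| ≤ 1 ∧ |x.2 - 0| ≤ 1) {p v : Pt} {s : ℤ}
    (h1 : |δ * p.1| ≤ R) (h2 : δ * s ≤ R) (hv : WT δ o v ≠ 0) : v ∉ bx p (2 * s) := by
  intro hmem
  obtain ⟨u, u1, u2, u3⟩ := WT_ne co hδ hv
  obtain ⟨a1, a2⟩ := ho _ u3
  simp only [Prod.smul_fst, Prod.smul_snd, Prod.fst_add, Prod.snd_add, pos, smul_eq_mul,
    sub_zero] at a1 a2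
  have c2 : δ * |(v.2 : ℝ)| ≤ 4 := by
    have d1 : |δ * ((v.2 : ℝ) * (√3 / 2))| ≤ 1 + δ := by
      have e : δ * ((v.2 : ℝ) * (√3 / 2)) = δ * (u.2 + v.2 * (√3 / 2)) - δ * u.2 := by ring
      rw [e]
      refine (abs_sub _ _).trans ?_
      rw [abs_mul δ u.2, abs_of_pos hδ]
      nlinarith
    rw [abs_mul, abs_mul, abs_of_pos hδ, abs_of_pos (by positivity : (0 : ℝ) < √3 / 2)] at d1
    have d2 : δ * |(v.2 : ℝ)| * (1 / 2) ≤ δ * (|(v.2 : ℝ)| * (√3 / 2)) := by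
      have : 0 ≤ δ * |(v.2 : ℝ)| := by positivity
      nlinarith [sq3.1]
    linarith
  have c1 : 3 * R + 1 ≤ δ * v.1 := by
    have d1 := (abs_le.1 a1).1
    have d2 : δ * u.1 ≤ 2 * δ := by nlinarith [(abs_le.1 u1).2]
    have d3 : δ * ((v.2 : ℝ) / 2) ≤ 2 := by
      have := le_abs_self (v.2 : ℝ)
      nlinarith
    have e : δ * (u.1 + ((v.1 : ℝ) + v.2 / 2)) = δ * u.1 + δ * v.1 + δ * ((v.2 : ℝ) / 2) := by ring
    rw [e] at d1
    linarith
  have m1 : |v.1 - p.1| ≤ 2 * s := hmem.1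
  have m2 : ((v.1 - p.1 : ℤ) : ℝ) ≤ ((2 * s : ℤ) : ℝ) := Int.cast_le.2 (abs_le.1 m1).2
  push_cast at m2
  have m3 : δ * ((v.1 : ℝ) - p.1) ≤ δ * (2 * s) := mul_le_mul_of_nonneg_left m2 hδ.le
  have m4 := (abs_le.1 h1).2
  linarith

/-- Perturbation of a functional by a bounded quantity. -/
lemma plane_part {P : Measure (Pt → ℤ)} [IsProbabilityMeasure P] {w g : Pt →₀ ℝ} {k : ℕ}
    {B W : ℝ} (hB : 0 ≤ B) (hW : 0 ≤ W)
    (h : ∀ᵐ φ ∂P, (2 * (evT w φ - evT g φ)) ^ 2 ≤ W)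
    (h1 : ∫⁻ φ, ENNReal.ofReal ((2 * evT g φ) ^ (2 * k)) ∂P ≤ ENNReal.ofReal B) :
    ∫⁻ φ, ENNReal.ofReal ((2 * evT w φ) ^ (2 * k)) ∂P ≤
      ENNReal.ofReal (2 ^ (2 * k) * (B + W ^ k)) := by
  have hae : ∀ᵐ φ ∂P, (2 * evT w φ) ^ (2 * k) ≤ 2 ^ (2 * k) * ((2 * evT g φ) ^ (2 * k) + W ^ k) := by
    filter_upwards [h] with φ hφ
    have h2 : 2 * evT w φ = 2 * evT g φ + 2 * (evT w φ - evT g φ) := by ring
    rw [h2]
    refine (pow_add_two _ _ k).trans (mul_le_mul_of_nonneg_left ?_ (by positivity))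
    have h3 : (2 * (evT w φ - evT g φ)) ^ (2 * k) ≤ W ^ k := by
      rw [pow_mul]
      exact pow_le_pow_left₀ (sq_nonneg _) hφ k
    linarith
  calc ∫⁻ φ, ENNReal.ofReal ((2 * evT w φ) ^ (2 * k)) ∂P
      ≤ ∫⁻ φ, (ENNReal.ofReal (2 ^ (2 * k)) * (ENNReal.ofReal
          ((2 * evT g φ) ^ (2 * k)) + ENNReal.ofReal (W ^ k))) ∂P := by
        refine lintegral_mono_ae ?_
        filter_upwards [hae] with φ hφ
        rw [← ENNReal.ofReal_add (Even.pow_nonneg (even_two_mul k) _) (by positivity),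
          ← ENNReal.ofReal_mul (by positivity)]
        exact ENNReal.ofReal_le_ofReal hφ
    _ = ENNReal.ofReal (2 ^ (2 * k)) * (∫⁻ φ, ENNReal.ofReal
          ((2 * evT g φ) ^ (2 * k)) ∂P + ENNReal.ofReal (W ^ k)) := by
        rw [lintegral_const_mul' _ _ ENNReal.ofReal_ne_top,
          lintegral_add_right _ measurable_const, lintegral_const, measure_univ, mul_one]
    _ ≤ ENNReal.ofReal (2 ^ (2 * k)) * (ENNReal.ofReal B + ENNReal.ofReal (W ^ k)) := by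
        gcongr
    _ = ENNReal.ofReal (2 ^ (2 * k) * (B + W ^ k)) := by
        rw [← ENNReal.ofReal_add hB (by positivity), ← ENNReal.ofReal_mul (by positivity)]

/-- The error. -/
lemma err_le {f i : ℝ × ℝ → ℝ} (hf : Smo f) (hi : Smo i) {δ Cf m m0 N : ℝ} (hδ : 0 < δ)
    (hCf : 0 ≤ Cf) (d1 : |m - m0| ≤ Cf * δ ^ 2) {φ : Pt → ℤ}
    (h3 : |evT (HW δ f) φ - evT (WT δ f) φ| ≤ Cf * δ)
    (h4 : |evT (WT δ i) φ| ≤ (∫ z, |i z|) * (N / δ)) :
    |evT (HW δ f - m • WT δ i) φ - evT (WT δ fun x => f x - m0 * i x) φ| ≤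
      (Cf + Cf * ((∫ z, |i z|) * N)) * δ := by
  have h5 : evT (HW δ f - m • WT δ i) φ - evT (WT δ fun x => f x - m0 * i x) φ =
      (evT (HW δ f) φ - evT (WT δ f) φ) + (m0 - m) * evT (WT δ i) φ := by
    rw [WT_sub hf (hi.mul m0) hδ, WT_smul hi.2 hδ, evT_sub, evT_sub, evT_smul, evT_smul]
    ring
  rw [h5]
  refine (abs_add_le _ _).trans ?_
  rw [abs_mul, abs_sub_comm m0]
  have h7 : |m - m0| * |evT (WT δ i) φ| ≤ (Cf * δ ^ 2) * ((∫ z, |i z|) * (N / δ)) :=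
    mul_le_mul d1 h4 (abs_nonneg _) (by positivity)
  have h8 : (Cf * δ ^ 2) * ((∫ z, |i z|) * (N / δ)) = Cf * ((∫ z, |i z|) * N) * δ := by
    field_simp
  rw [h8] at h7
  linarith

/-- The final arithmetic. -/
lemma final_le {k : ℕ} {m R cz C W Bo A : ℝ} (hW : 0 ≤ W) (hBo : 0 ≤ Bo)
    (hmk : m ^ (2 * k) ≤ (8 * R ^ 2 + 1) ^ k * W ^ k)
    (hA : 2 ^ (2 * k) * (3 * (2 ^ (2 * k) * (C * (2 + 8 * R ^ 2 * cz) ^ k + 1)) +
      (8 * R ^ 2 + 1) ^ k * (3 * Bo)) ≤ A) :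
    2 ^ (2 * k) * (3 * (2 ^ (2 * k) * (C * ((2 + 8 * R ^ 2 * cz) * W) ^ k + W ^ k)) +
      m ^ (2 * k) * (3 * Bo)) ≤ A * W ^ k := by
  refine le_trans ?_ (mul_le_mul_of_nonneg_right hA (pow_nonneg hW k))
  have h6 : m ^ (2 * k) * (3 * Bo) ≤ (8 * R ^ 2 + 1) ^ k * W ^ k * (3 * Bo) :=
    mul_le_mul_of_nonneg_right hmk (by positivity)
  rw [mul_pow]
  have h7 : 2 ^ (2 * k) * (3 * (2 ^ (2 * k) * (C * (2 + 8 * R ^ 2 * cz) ^ k + 1)) +
      (8 * R ^ 2 + 1) ^ k * (3 * Bo)) * W ^ k =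
      2 ^ (2 * k) * (3 * (2 ^ (2 * k) * (C * ((2 + 8 * R ^ 2 * cz) ^ k * W ^ k) + W ^ k)) +
        (8 * R ^ 2 + 1) ^ k * W ^ k * (3 * Bo)) := by ring
  rw [h7]
  exact mul_le_mul_of_nonneg_left (by linarith) (by positivity)

/-- The estimate for a fixed mesh. -/
lemma mm_point {P : Measure (Pt → ℤ)} (hP : Plane P) {k : ℕ} {R ρ δ C Cf c Bo W m0 : ℝ}
    {f i o : ℝ × ℝ → ℝ} {z : ℝ × ℝ} (hR : 1 ≤ R) (hρR : 8 * ρ = R⁻¹) (hδ : 0 < δ) (hδ1 : δ ≤ 1)
    (hδρ : 3 * δ ≤ 4 * ρ) (hf : Smo f) (hi : Smo i) (ho : Smo o) (hi1 : ∫ x, i x = 1)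
    (ho1 : ∫ x, o x = 1) (his : ∀ x, i x ≠ 0 → |x.1 - z.1| ≤ ρ ∧ |x.2 - z.2| ≤ ρ)
    (hiz : ∀ w : ℝ × ℝ, (2 * R + 1 < |w.1| ∨ 2 * R + 1 < |w.2|) → i w = 0)
    (hos : ∀ x, o x ≠ 0 → |x.1 - (3 * R + 6)| ≤ 1 ∧ |x.2 - 0| ≤ 1)
    (hC : 0 ≤ C) (hc : 0 ≤ c) (hBo : 0 ≤ Bo) (hW : 0 ≤ W) (hCf : 0 ≤ Cf)
    (d1 : |massT (HW δ f) - m0| ≤ Cf * δ ^ 2)
    (d2 : ∀ φ : Pt → ℤ, (∀ v, |φ v| ≤ |v.1| + |v.2|) →
      |evT (HW δ f) φ - evT (WT δ f) φ| ≤ Cf * δ)
    (e1 : ∫⁻ φ, ENNReal.ofReal ((2 * evT (WT δ fun x => f x - m0 * i x) φ) ^ (2 * k)) ∂P ≤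
      ENNReal.ofReal (C * ((2 + 8 * R ^ 2 * c) * W) ^ k))
    (e2 : ∫⁻ φ, ENNReal.ofReal ((2 * evT (WT δ fun x => i x - o x) φ) ^ (2 * k)) ∂P ≤
      ENNReal.ofReal Bo)
    (e3 : (2 * ((Cf + Cf * ((∫ x, |i x|) * (4 * (2 * R + 1) + 15))) * δ)) ^ 2 ≤ W)
    {p : Pt} {s : ℤ} (hp1 : |δ * p.1| ≤ R) (hs1 : R⁻¹ ≤ δ * s) (hs2 : δ * s ≤ R)
    (hz1 : |δ * (p.1 + p.2 / 2) - z.1| ≤ ρ) (hz2 : |δ * (p.2 * (√3 / 2)) - z.2| ≤ ρ) :
    II P (ind (Zr p s)) (fun ω => hv δ f ω ^ (2 * k)) ≤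
      2 ^ (2 * k) * (3 * (2 ^ (2 * k) * (C * ((2 + 8 * R ^ 2 * c) * W) ^ k + W ^ k)) +
        massT (HW δ f) ^ (2 * k) * (3 * Bo)) := by
  have := hP.prob
  have hR0 : 0 < R := by linarith
  have hs0 : 0 < s := by
    have h1 : 0 < δ * s := lt_of_lt_of_le (by positivity) hs1
    have h2 : (0 : ℝ) < s := (mul_pos_iff_of_pos_left hδ).1 h1
    exact_mod_cast h2
  have ma : massT (WT δ i) = 1 := by rw [mass_WT hi hδ, hi1]
  have mb : massT (WT δ o) = 1 := by rw [mass_WT ho hδ, ho1]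
  have hm0' : 0 ≤ massT (HW δ f) ^ (2 * k) := Even.pow_nonneg (even_two_mul k) _
  have hb10 : 0 ≤ 2 ^ (2 * k) * (C * ((2 + 8 * R ^ 2 * c) * W) ^ k + W ^ k) := by positivity
  have hpl : ∫⁻ φ, ENNReal.ofReal
      ((2 * evT (HW δ f - massT (HW δ f) • WT δ i) φ) ^ (2 * k)) ∂P ≤
      ENNReal.ofReal (2 ^ (2 * k) * (C * ((2 + 8 * R ^ 2 * c) * W) ^ k + W ^ k)) := by
    refine plane_part (by positivity) hW ?_ e1
    filter_upwards [hP.zero, hP.lip] with φ hφ0 hφ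
    have hφb : ∀ v : Pt, |φ v| ≤ |v.1| + |v.2| := by
      intro v
      have h1 := Strip.lip_bound hφ v
      have h2 : φ (0, 0) = 0 := hφ0
      rwa [h2, sub_zero] at h1
    have h6 := err_le hf hi hδ hCf d1 (d2 φ hφb)
      (evT_crude hi (by linarith : (0 : ℝ) ≤ 2 * R + 1) hiz hδ hδ1 hφb)
    refine le_trans ?_ e3
    rw [← sq_abs, abs_mul, abs_two]
    exact pow_le_pow_left₀ (by positivity) (by linarith) 2
  refine II_le (by omega) (fun ω => Even.pow_nonneg (even_two_mul k) _) (by positivity) ?_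
  simp only [hv_HW hf.2 hδ]
  refine core (Vale.Agent.P153.F.gb_of_plane hP) (by omega : 1 ≤ s) (w := HW δ f)
    (a := WT δ i) (b := WT δ o) (m := massT (HW δ f)) (p := p)
    (fun v hv => in_box hi.2 hδ his hz1 hz2 (by linarith) (Finsupp.mem_support_iff.1 hv))
    (fun v hv => out_box ho.2 hδ hδ1 hos hp1 hs2 (Finsupp.mem_support_iff.1 hv))
    (by rw [massT_sub, massT_smul, ma]; ring) (by rw [massT_sub, ma, mb, sub_self]) k hb10
    hBo hpl ?_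
  rw [← WT_sub hi ho hδ]
  exact e2

lemma centre_mem {δ R : ℝ} (hR : 0 ≤ R) {p : Pt} (hp1 : |δ * p.1| ≤ R) (hp2 : |δ * p.2| ≤ R) :
    ((δ * ((p.1 : ℝ) + p.2 / 2), δ * ((p.2 : ℝ) * (√3 / 2))) : ℝ × ℝ) ∈
      Metric.closedBall (0 : ℝ × ℝ) (2 * R) := by
  rw [mem_closedBall_zero_iff, Prod.norm_def, max_le_iff, Real.norm_eq_abs, Real.norm_eq_abs]
  constructor
  · have e : δ * ((p.1 : ℝ) + p.2 / 2) = δ * p.1 + δ * p.2 / 2 := by ring
    simp only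
    rw [e]
    refine (abs_add_le _ _).trans ?_
    rw [abs_div (δ * (p.2 : ℝ)), abs_two]
    linarith
  · have e : δ * ((p.2 : ℝ) * (√3 / 2)) = (δ * p.2) * (√3 / 2) := by ring
    simp only
    rw [e, abs_mul, abs_of_pos (by positivity : (0 : ℝ) < √3 / 2)]
    nlinarith [sq3.2, abs_nonneg (δ * (p.2 : ℝ))]

lemma mass_pow_le {k : ℕ} {m m0 Cf δ R F ε : ℝ} (hCf : 0 ≤ Cf) (hδ : 0 < δ) (hδ1 : δ ≤ 1)
    (d1 : |m - m0| ≤ Cf * δ ^ 2) (hcs : m0 ^ 2 ≤ 4 * R ^ 2 * F) (hF : 0 ≤ F) (hε : 0 ≤ ε)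
    (f3 : 2 * (Cf * δ) ^ 2 ≤ ε) : m ^ (2 * k) ≤ (8 * R ^ 2 + 1) ^ k * (F + ε) ^ k := by
  have h1 : (m - m0) ^ 2 ≤ (Cf * δ) ^ 2 := by
    rw [← sq_abs]
    refine pow_le_pow_left₀ (abs_nonneg _) (d1.trans ?_) 2
    have : δ ^ 2 ≤ δ := by nlinarith
    exact mul_le_mul_of_nonneg_left this hCf
  have h2 : m ^ 2 ≤ 2 * m0 ^ 2 + 2 * (m - m0) ^ 2 := by nlinarith [sq_nonneg (m - 2 * m0)]
  have hm2 : m ^ 2 ≤ (8 * R ^ 2 + 1) * (F + ε) := by
    have h3 : 0 ≤ R ^ 2 * ε := mul_nonneg (sq_nonneg R) hε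
    nlinarith
  rw [pow_mul, ← mul_pow]
  exact pow_le_pow_left₀ (sq_nonneg _) hm2 k

/-- **MM**, the statement of `X/Stmt.lean`. -/
theorem s_mm {P : Measure (Pt → ℤ)} {κ : ℝ} (hP : Plane P) (hS : SpecOut P κ) {δ : ℕ → ℝ}
    (hδ : ∀ n, 0 < δ n) (hlim : Tendsto δ atTop (𝓝 0)) : S_mm P δ := by
  intro R hR1 k
  have := hP.prob
  have hR : 0 < R := by linarith
  set ρ : ℝ := 1 / (8 * R) with hρ
  have hρ0 : 0 < ρ := by positivity
  have hρ1 : ρ ≤ 1 := by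
    rw [hρ, div_le_one (by positivity)]
    linarith
  -- the outer bump
  obtain ⟨o, ho, ho1, hos⟩ := exists_bump ((3 * R + 6, 0) : ℝ × ℝ) one_pos
  -- the inner bumps
  obtain ⟨T, hTs, hTf, hTc⟩ :=
    (isCompact_closedBall (0 : ℝ × ℝ) (2 * R)).finite_cover_balls hρ0
  choose i hi hi1 his using fun z : ℝ × ℝ => exists_bump z hρ0
  have hlimW : Tendsto δ atTop (𝓝[>] 0) := by
    rw [tendsto_nhdsWithin_iff]
    exact ⟨hlim, Eventually.of_forall hδ⟩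
  set R₀ : ℝ := 4 * R + 10 with hR₀
  obtain ⟨C, hC, hneu⟩ := neutral_mv hP hS (R := R₀) (by linarith) k
  have hiR : ∀ z ∈ T, ∀ x, i z x ≠ 0 → |x.1| ≤ 2 * R + 1 ∧ |x.2| ≤ 2 * R + 1 := by
    intro z hz x hx
    have hzR := hTs hz
    rw [mem_closedBall_zero_iff, Prod.norm_def, max_le_iff, Real.norm_eq_abs,
      Real.norm_eq_abs] at hzR
    obtain ⟨h1, h2⟩ := his z x hx
    have a1 := abs_sub_abs_le_abs_sub x.1 z.1
    have a2 := abs_sub_abs_le_abs_sub x.2 z.2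
    constructor <;> linarith [hzR.1, hzR.2]
  have hoR : ∀ x, o x ≠ 0 → |x.1| ≤ R₀ ∧ |x.2| ≤ R₀ := by
    intro x hx
    obtain ⟨h1, h2⟩ := hos x hx
    simp only [sub_zero] at h1 h2
    have a1 := abs_sub_abs_le_abs_sub x.1 (3 * R + 6)
    rw [abs_of_pos (by positivity : (0 : ℝ) < 3 * R + 6)] at a1
    constructor <;> linarith
  -- constants
  set c : ℝ × ℝ → ℝ := fun z => ∫ x, i z x ^ 2 with hc
  have hc0 : ∀ z, 0 ≤ c z := fun z => integral_nonneg fun x => sq_nonneg _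
  set Bo : ℝ × ℝ → ℝ := fun z => C * ((∫ x, (i z x - o x) ^ 2) + 1) ^ k with hBo
  have hBo0 : ∀ z, 0 ≤ Bo z := fun z => by
    have : 0 ≤ ∫ x, (i z x - o x) ^ 2 := integral_nonneg fun x => sq_nonneg _
    simp only [hBo]
    positivity
  set A : ℝ × ℝ → ℝ := fun z => 2 ^ (2 * k) * (3 * (2 ^ (2 * k) *
    (C * (2 + 8 * R ^ 2 * c z) ^ k + 1)) + (8 * R ^ 2 + 1) ^ k * (3 * Bo z)) with hA
  have hA0 : ∀ z, 0 ≤ A z := fun z => by
    have h1 := hc0 z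
    have h2 := hBo0 z
    simp only [hA]
    positivity
  refine ⟨∑ z ∈ hTf.toFinset, A z, Finset.sum_nonneg fun z _ => hA0 z, fun f hf ε hε => ?_⟩
  have hfS : Smo f := ⟨hf.1, hf.2.1⟩
  have hsupp : ∀ x, f x ≠ 0 → |x.1| ≤ R ∧ |x.2| ≤ R := by
    intro x hx
    have h1 : x ∈ Metric.ball (0 : ℝ × ℝ) R := hf.2.2 (subset_tsupport f hx)
    rw [Metric.mem_ball, dist_zero_right, Prod.norm_def, max_lt_iff, Real.norm_eq_abs,
      Real.norm_eq_abs] at h1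
    exact ⟨h1.1.le, h1.2.le⟩
  have hz : ∀ z : ℝ × ℝ, (R < |z.1| ∨ R < |z.2|) → f z = 0 := by
    intro z hz
    by_contra hne
    obtain ⟨h1, h2⟩ := hsupp z hne
    rcases hz with h | h <;> linarith
  have hq0 : 0 ≤ ∫ z, f z ^ 2 := integral_nonneg fun x => sq_nonneg _
  set m0 : ℝ := ∫ z, f z with hm0
  set W : ℝ := (∫ z, f z ^ 2) + ε with hW
  have hW0 : 0 < W := by linarith
  have hcs : m0 ^ 2 ≤ 4 * R ^ 2 * ∫ z, f z ^ 2 := by
    have h1 := MN.cs_box hR hfS.cont hfS.2 hsupp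
    have h2 : m0 ^ 2 ≤ (∫ z, |f z|) ^ 2 := by
      rw [← sq_abs m0]
      exact pow_le_pow_left₀ (abs_nonneg _) (abs_integral_le_integral_abs) 2
    refine h2.trans (h1.trans (le_of_eq ?_))
    ring
  obtain ⟨Cf, hCf, hclose⟩ := HW_close hfS hR.le hz
  -- the events
  have E1 : ∀ z ∈ T, ∀ᶠ n in atTop, ∀ p : Pt,
      ∫⁻ φ, ENNReal.ofReal ((2 * evT (mv p (WT (δ n) fun x => f x - m0 * i z x)) φ) ^ (2 * k)) ∂P ≤
        ENNReal.ofReal (C * ((2 + 8 * R ^ 2 * c z) * W) ^ k) := by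
    intro z hzT
    have g1 : Smo fun x => f x - m0 * i z x := hfS.sub ((hi z).mul m0)
    have g2 : ∫ x, (f x - m0 * i z x) = 0 := by
      have hIi : ∫ x, m0 * i z x = m0 := by rw [integral_const_mul, hi1, mul_one]
      rw [integral_sub hfS.int ((hi z).mul m0).int, hIi, hm0, sub_self]
    have g3 : ∀ x, f x - m0 * i z x ≠ 0 → |x.1| ≤ R₀ ∧ |x.2| ≤ R₀ := by
      intro x hx
      by_cases h1 : f x = 0
      · have h2 : i z x ≠ 0 := by
          intro h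
          apply hx
          rw [h1, h, mul_zero, sub_zero]
        obtain ⟨h3, h4⟩ := hiR z hzT x h2
        constructor <;> linarith
      · obtain ⟨h3, h4⟩ := hsupp x h1
        constructor <;> linarith
    filter_upwards [hlimW.eventually (hneu _ g1 g2 g3 ε hε)] with n hn p
    refine (hn p).trans (ENNReal.ofReal_le_ofReal (mul_le_mul_of_nonneg_left ?_ hC))
    have h1 : ∫ x, (f x - m0 * i z x) ^ 2 ≤ 2 * (∫ x, f x ^ 2) + 2 * m0 ^ 2 * c z := by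
      have i1 := MN.sq_int hfS.cont hfS.2
      have i2 := MN.sq_int (hi z).cont (hi z).2
      have i3 := MN.sq_int g1.cont g1.2
      rw [hc, ← integral_const_mul, ← integral_const_mul, ← integral_add (i1.const_mul _)
        (i2.const_mul _)]
      refine integral_mono i3 ((i1.const_mul _).add (i2.const_mul _)) fun x => ?_
      simp only
      nlinarith [sq_nonneg (f x + m0 * i z x)]
    have h2 : 2 * m0 ^ 2 * c z ≤ 8 * R ^ 2 * c z * ∫ x, f x ^ 2 := by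
      have := mul_le_mul_of_nonneg_right hcs (hc0 z)
      linarith
    have h3 : 0 ≤ 8 * R ^ 2 * c z := by
      have := hc0 z
      positivity
    refine pow_le_pow_left₀ (add_nonneg (integral_nonneg fun x => sq_nonneg _) hε.le) ?_ k
    rw [hW]
    nlinarith [mul_nonneg h3 hε.le]
  have E2 : ∀ z ∈ T, ∀ᶠ n in atTop, ∀ p : Pt,
      ∫⁻ φ, ENNReal.ofReal ((2 * evT (mv p (WT (δ n) fun x => i z x - o x)) φ) ^ (2 * k)) ∂P ≤
        ENNReal.ofReal (Bo z) := by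
    intro z hzT
    have g1 : Smo fun x => i z x - o x := (hi z).sub ho
    have g2 : ∫ x, (i z x - o x) = 0 := by
      rw [integral_sub (hi z).int ho.int, hi1, ho1, sub_self]
    have g3 : ∀ x, i z x - o x ≠ 0 → |x.1| ≤ R₀ ∧ |x.2| ≤ R₀ := by
      intro x hx
      by_cases h1 : i z x = 0
      · have h2 : o x ≠ 0 := by
          intro h
          apply hx
          rw [h1, h, sub_zero]
        exact hoR x h2
      · obtain ⟨h3, h4⟩ := hiR z hzT x h1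
        constructor <;> linarith
    exact hlimW.eventually (hneu _ g1 g2 g3 1 one_pos)
  set Ce : ℝ × ℝ → ℝ := fun z => Cf + Cf * ((∫ x, |i z x|) * (4 * (2 * R + 1) + 15)) with hCe
  have hCe0 : ∀ z, 0 ≤ Ce z := fun z => by
    have : 0 ≤ ∫ x, |i z x| := integral_nonneg fun x => abs_nonneg _
    simp only [hCe]
    positivity
  have E3 : ∀ z ∈ T, ∀ᶠ n in atTop, (2 * (Ce z * δ n)) ^ 2 ≤ ε := by
    intro z _
    have l1 : Tendsto (fun n => (2 * (Ce z * δ n)) ^ 2) atTop (𝓝 ((2 * (Ce z * 0)) ^ 2)) :=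
      (((hlim.const_mul _).const_mul 2).pow 2)
    exact l1.eventually_le_const (by simpa using hε)
  have E4 : ∀ᶠ n in atTop, 3 * δ n ≤ 4 * ρ ∧ δ n ≤ 1 ∧ 2 * (Cf * δ n) ^ 2 ≤ ε := by
    have l1 : ∀ᶠ n in atTop, 3 * δ n ≤ 4 * ρ :=
      (hlim.const_mul 3).eventually_le_const (by simpa using hρ0)
    have l2 : ∀ᶠ n in atTop, δ n ≤ 1 := hlim.eventually_le_const one_pos
    have l3 : ∀ᶠ n in atTop, 2 * (Cf * δ n) ^ 2 ≤ ε := by
      have l4 : Tendsto (fun n => 2 * (Cf * δ n) ^ 2) atTop (𝓝 (2 * (Cf * 0) ^ 2)) :=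
        ((hlim.const_mul _).pow 2).const_mul 2
      exact l4.eventually_le_const (by simpa using hε)
    exact l1.and (l2.and l3)
  have E : ∀ᶠ n in atTop, ∀ z ∈ T, _ := (hTf.eventually_all).2 fun z hz =>
    (E1 z hz).and ((E2 z hz).and (E3 z hz))
  filter_upwards [E, E4] with n hn hn4
  intro p s hp1 hp2 hs1 hs2
  obtain ⟨f1, f2, f3⟩ := hn4
  have hδn := hδ n
  have hs0 : 0 < s := by
    have h1 : 0 < δ n * s := lt_of_lt_of_le (by positivity) hs1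
    have h2 : (0 : ℝ) < s := (mul_pos_iff_of_pos_left hδn).1 h1
    exact_mod_cast h2
  -- the centre of the net
  have hpc : ((δ n * ((p.1 : ℝ) + p.2 / 2), δ n * ((p.2 : ℝ) * (√3 / 2))) : ℝ × ℝ) ∈
      Metric.closedBall (0 : ℝ × ℝ) (2 * R) := centre_mem hR.le hp1 hp2
  obtain ⟨z, hzT, hzd⟩ := Set.mem_iUnion₂.1 (hTc hpc)
  rw [Metric.mem_ball, dist_eq_norm, Prod.norm_def, max_lt_iff, Real.norm_eq_abs,
    Real.norm_eq_abs] at hzd
  simp only [Prod.fst_sub, Prod.snd_sub] at hzd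
  obtain ⟨e1, e2, e3⟩ := hn z hzT
  obtain ⟨d1, d2⟩ := hclose (δ n) hδn f2
  have hiz : ∀ w : ℝ × ℝ, (2 * R + 1 < |w.1| ∨ 2 * R + 1 < |w.2|) → i z w = 0 := by
    intro w hw
    by_contra hne
    obtain ⟨h1, h2⟩ := hiR z hzT w hne
    rcases hw with h | h <;> linarith
  have e1' := e1 0
  have e2' := e2 0
  rw [mv_zero] at e1' e2'
  have hmk : massT (HW (δ n) f) ^ (2 * k) ≤ (8 * R ^ 2 + 1) ^ k * W ^ k :=
    mass_pow_le hCf hδn f2 d1 hcs hq0 hε.le f3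
  refine (mm_point hP hR1 (by rw [hρ]; field_simp) hδn f2 f1 hfS (hi z) ho (hi1 z) ho1 (his z)
    hiz hos hC (hc0 z) (hBo0 z) hW0.le hCf d1 d2 e1' e2' (e3.trans (by linarith)) hp1 hs1 hs2
    hzd.1.le hzd.2.le).trans ?_
  have h5 : A z ≤ ∑ z ∈ hTf.toFinset, A z :=
    Finset.single_le_sum (f := A) (fun z _ => hA0 z) (hTf.mem_toFinset.2 hzT)
  exact final_le hW0.le (hBo0 z) hmk h5

end Vale.Agent.P153.F.X
end

section

/-!
# P153, block F-B, (R1): circuits and crossings of closed edges at all scales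
-/

namespace Vale.Agent.P153.F.RSW

open MeasureTheory Filter Topology Relation
open Vale.Agent.P153 Vale.Agent.P153.Topo Vale.Agent.P153.A

/-- **(R1)**, circuits of closed edges around every centre, at all large scales. -/
theorem r1_ann {Q : Measure Om} (hQ : IsQ Q) (hac : AcT (Q.map rc)) :
    ∃ c : ℝ, 0 < c ∧ ∃ r0 : ℤ, ∀ r : ℤ, r0 ≤ r → ∀ p q : ℤ, c ≤ pW Q (Ann p q r) := by
  obtain ⟨c, hc, h1, h2⟩ := base s_sym hQ (ptQ hQ) rfl
  exact PT.rsw_ann (ptQ hQ) geo hc 1 (fun n hn => h1 n (by exact_mod_cast hn))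
    (fun n hn => h2 n (by exact_mod_cast hn)) (harm hQ hac)

end Vale.Agent.P153.F.RSW
end

section

/-!
P153-F: the scaling limit of the uniform Lipschitz heights in every Jordan domain.
-/

namespace Vale.Agent.P153.F

open Filter Topology MeasureTheory
open Vale.Agent.P153.F.X

variable {Q : Measure A.Om} {κ' : ℝ}

/-- The probabilistic inputs of the X-level. -/
theorem lvl_of (hQ : A.IsQ Q) (hP : GFF.Plane (Q.map A.rc)) (hS : GFF.SpecOut (Q.map A.rc) κ')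
    (hC : GFF.RowCLT (Q.map A.rc) κ') (hκ : 0 < κ') : Lvl (Q.map A.rc) := by
  have hint : S_int (Q.map A.rc) := s_int hP
  have hlow : S_low (Q.map A.rc) := s_low hP hint
  have hR := RSW.r1_ann hQ (RSW.AC.acT hP hS hC hκ)
  exact
    { rsw := PosT.s_rsw hQ hint hR
      low := hlow
      ext := s_ext hP hint
      lowc := fun F Y Θ h1 h2 h3 h4 => s_lowc hP F Y Θ h1 h2 h3 h4
      mom := s_mom hP hS hlow hint
      mm := fun δ hδ hlim => s_mm hP hS hδ hlim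
      momJ := momJ_of hP (logT hP hS hκ.le)
      pos := PosT.s_pos hQ hint hR }

/-- **Convergence in every Jordan domain.** -/
theorem jordan (hQ : A.IsQ Q) (hP : GFF.Plane (Q.map A.rc)) (hS : GFF.SpecOut (Q.map A.rc) κ')
    (hC : GFF.RowCLT (Q.map A.rc) κ') (hκ : 0 < κ') {D : Set (ℝ × ℝ)}
    (hD : Dom.JordanDomain D) : Dom.Conv (4 * κ' / √3) D :=
  Top.conv_of_key (by positivity) Top.s_mono
    (fun _ hδ hlim => key_all hP hS hC hκ (lvl_of hQ hP hS hC hκ) hδ hlim)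
    Dom.s_law Dom.s_in Dom.s_out Dom.s_fldO hD

end Vale.Agent.P153.F
end

section

/-!
# P153-F: the final theorem
-/

namespace Vale.Agent.P153.JG

theorem main : JordanShape :=
  shape_of fun _ _ a b c d e _ hD => F.jordan a b c d e hD

end Vale.Agent.P153.JG
end

section

/-!
# P153-F: prescribed boundary values `±1` (in particular the two arcs of Q1)

The uniform heights with prescribed boundary values `ξ ∈ {1, -1}` can be coupled to the uniform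
heights with free boundary values `±1` such that the two differ by at most two everywhere: the
single-site dynamics driven by the same updates preserves this relation, and the joint laws on
pairs at distance at most two contain one with uniform marginals (it minimises the sum of the
squares of the marginals).
-/

set_option autoImplicit false

open MeasureTheory ProbabilityTheory Filter Topology

namespace Vale.Agent.P153.F.Dom.Arcs


open Vale.Agent.P145.PT (V TestOn)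

variable {n : ℕ} {p : ZMod n → ℤ × ℤ} {S : Finset ((ℤ × ℤ) × Bool)} {ξ : ZMod n → ℤ}

/-- The heights with the values `ξ` on the polygon. -/
def HeightsB {n : ℕ} (p : ZMod n → ℤ × ℤ) (S : Finset ((ℤ × ℤ) × Bool)) (ξ : ZMod n → ℤ) :
    Set (ℤ × ℤ → ℤ) := {h | h ∈ Heights p S ∧ ∀ i, h (p i) = ξ i}

/-- Odd Lipschitz heights on the vertices of `S`, zero elsewhere. -/
def Ok (S : Finset ((ℤ × ℤ) × Bool)) (h : ℤ × ℤ → ℤ) : Prop :=
  (∀ v ∈ verts S, Odd (h v)) ∧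
    (∀ v ∈ verts S, ∀ w ∈ verts S, GFF.Adj v w → |h v - h w| ≤ 2) ∧ ∀ v, v ∉ verts S → h v = 0

theorem par {a b : ℤ} (ha : Odd a) (hb : Odd b) : (|a - b| = 0 ∨ |a - b| = 2) ↔ |a - b| ≤ 2 := by
  obtain ⟨x, rfl⟩ := ha
  obtain ⟨y, rfl⟩ := hb
  constructor
  · rintro (h | h) <;> rw [h]
    norm_num
  · intro h
    have h0 := abs_le.1 h
    have : x = y ∨ x = y + 1 ∨ x = y - 1 := by omega
    rcases this with rfl | rfl | rfl
    · left; simp
    · right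
      rw [show 2 * (y + 1) + 1 - (2 * y + 1) = 2 by ring]; rfl
    · right
      rw [show 2 * (y - 1) + 1 - (2 * y + 1) = -2 by ring]; rfl

theorem mem_heights {h : ℤ × ℤ → ℤ} :
    h ∈ Heights p S ↔ Ok S h ∧ ∀ i, h (p i) = 1 ∨ h (p i) = -1 := by
  constructor
  · rintro ⟨h1, h2, h3, h4⟩
    exact ⟨⟨h1, fun v hv w hw a => (par (h1 v hv) (h1 w hw)).1 (h3 v hv w hw a), h4⟩, h2⟩
  · rintro ⟨⟨h1, h3, h4⟩, h2⟩
    exact ⟨h1, h2, fun v hv w hw a => (par (h1 v hv) (h1 w hw)).2 (h3 v hv w hw a), h4⟩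

theorem Ok.inf {a b : ℤ × ℤ → ℤ} (ha : Ok S a) (hb : Ok S b) : Ok S (a ⊓ b) := by
  refine ⟨fun v hv => ?_, fun v hv w hw h => ?_, fun v hv => ?_⟩
  · rw [Pi.inf_apply]
    rcases min_choice (a v) (b v) with h | h
    · rw [h]; exact ha.1 v hv
    · rw [h]; exact hb.1 v hv
  · have h1 := abs_le.1 (ha.2.1 v hv w hw h)
    have h2 := abs_le.1 (hb.2.1 v hv w hw h)
    rw [Pi.inf_apply, Pi.inf_apply, abs_le]
    constructor <;> omega
  · rw [Pi.inf_apply, ha.2.2 v hv, hb.2.2 v hv, inf_idem]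

theorem Ok.sup {a b : ℤ × ℤ → ℤ} (ha : Ok S a) (hb : Ok S b) : Ok S (a ⊔ b) := by
  refine ⟨fun v hv => ?_, fun v hv w hw h => ?_, fun v hv => ?_⟩
  · rw [Pi.sup_apply]
    rcases max_choice (a v) (b v) with h | h
    · rw [h]; exact ha.1 v hv
    · rw [h]; exact hb.1 v hv
  · have h1 := abs_le.1 (ha.2.1 v hv w hw h)
    have h2 := abs_le.1 (hb.2.1 v hv w hw h)
    rw [Pi.sup_apply, Pi.sup_apply, abs_le]
    constructor <;> omega
  · rw [Pi.sup_apply, ha.2.2 v hv, hb.2.2 v hv, sup_idem]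

theorem heightsB_ne (hp : IsPolygon p) (hS : Encloses p S) (hξ : ∀ i, ξ i = 1 ∨ ξ i = -1) :
    (HeightsB p S ξ).Nonempty := by
  classical
  set g : ℤ × ℤ → ℤ := fun v => if hv : ∃ i, p i = v then ξ hv.choose else
    if v ∈ verts S then 1 else 0 with hg
  have h1 : ∀ v ∈ verts S, g v = 1 ∨ g v = -1 := by
    intro v hv
    by_cases h : ∃ i, p i = v
    · rw [hg]
      simp only [dif_pos h]
      exact hξ _
    · left
      rw [hg]
      simp only [dif_neg h, if_pos hv]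
  have h2 : ∀ i, g (p i) = ξ i := by
    intro i
    have h : ∃ j, p j = p i := ⟨i, rfl⟩
    rw [hg]
    simp only [dif_pos h]
    rw [hp.2.1 h.choose_spec]
  refine ⟨g, mem_heights.2 ⟨⟨fun v hv => ?_, fun v hv w hw _ => ?_, fun v hv => ?_⟩, fun i => ?_⟩,
    h2⟩
  · rcases h1 v hv with h | h <;> rw [h] <;> decide
  · rcases h1 v hv with h | h <;> rcases h1 w hw with h' | h' <;> rw [h, h'] <;> decide
  · have h : ¬ ∃ i, p i = v := by
      rintro ⟨i, rfl⟩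
      exact hv (dl_poly hp hS i)
    rw [hg]
    simp only [dif_neg h, if_neg hv]
  · rw [h2]
    exact hξ i

/-! ### Single-site moves on a finite set of functions -/

section Move

variable {v w : ℤ × ℤ} {c : ℤ} {h a b : ℤ × ℤ → ℤ} {A : Finset (ℤ × ℤ → ℤ)}

/-- Change the height at `v` by `c`. -/
def bump (v : ℤ × ℤ) (c : ℤ) (h : ℤ × ℤ → ℤ) : ℤ × ℤ → ℤ := Function.update h v (h v + c)

theorem bump_self : bump v c h v = h v + c := Function.update_self ..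

theorem bump_ne (hw : w ≠ v) : bump v c h w = h w := Function.update_of_ne hw ..

theorem bump_bump (v : ℤ × ℤ) (c : ℤ) (h : ℤ × ℤ → ℤ) : bump v (-c) (bump v c h) = h := by
  funext w
  by_cases hw : w = v
  · subst hw
    rw [bump_self, bump_self]
    ring
  · rw [bump_ne hw, bump_ne hw]

theorem bump_bump' (v : ℤ × ℤ) (c : ℤ) (h : ℤ × ℤ → ℤ) : bump v c (bump v (-c) h) = h := by
  have := bump_bump v (-c) h
  rwa [neg_neg] at this

open Classical in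
/-- Move the height at `v` by `c` if this is allowed. -/
noncomputable def mv (A : Finset (ℤ × ℤ → ℤ)) (v : ℤ × ℤ) (c : ℤ) (h : ℤ × ℤ → ℤ) : ℤ × ℤ → ℤ :=
  if bump v c h ∈ A then bump v c h else h

theorem mv_pos (hh : bump v c h ∈ A) : mv A v c h = bump v c h := by
  classical
  exact if_pos hh

theorem mv_neg (hh : bump v c h ∉ A) : mv A v c h = h := by
  classical
  exact if_neg hh

theorem mv_mem (hh : h ∈ A) : mv A v c h ∈ A := by
  by_cases hb : bump v c h ∈ A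
  · rwa [mv_pos hb]
  · rwa [mv_neg hb]

theorem mv_ne (hw : w ≠ v) : mv A v c h w = h w := by
  by_cases hb : bump v c h ∈ A
  · rw [mv_pos hb, bump_ne hw]
  · rw [mv_neg hb]

open Classical in
theorem mv_pre1 (v : ℤ × ℤ) (c : ℤ) (ha : a ∈ A) (W : (ℤ × ℤ → ℤ) → ℝ) :
    (∑ x ∈ A, if mv A v c x = a then W x else 0) =
      (if bump v (-c) a ∈ A then W (bump v (-c) a) else 0) + if bump v c a ∈ A then 0 else W a := by
  have h1 : ∀ x ∈ A, (if mv A v c x = a then W x else 0) =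
      (if x = bump v (-c) a then W x else 0) +
        if x = a then (if bump v c a ∈ A then 0 else W x) else 0 := by
    intro x _
    by_cases hb : bump v c x ∈ A
    · rw [mv_pos hb]
      have e1 : bump v c x = a ↔ x = bump v (-c) a := by
        constructor
        · rintro rfl
          rw [bump_bump]
        · rintro rfl
          rw [bump_bump']
      have e2 : (if x = a then (if bump v c a ∈ A then (0 : ℝ) else W x) else 0) = 0 := by
        split_ifs with h2 h3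
        · rfl
        · exact absurd (h2 ▸ hb) h3
        · rfl
      rw [e2, add_zero]
      simp only [e1]
    · rw [mv_neg hb]
      have e1 : (if x = bump v (-c) a then W x else 0) = 0 := by
        rw [if_neg]
        rintro rfl
        rw [bump_bump'] at hb
        exact hb ha
      rw [e1, zero_add]
      by_cases hx : x = a
      · subst hx
        rw [if_pos rfl, if_pos rfl, if_neg hb]
      · rw [if_neg hx, if_neg hx]
  rw [Finset.sum_congr rfl h1, Finset.sum_add_distrib, Finset.sum_ite_eq', Finset.sum_ite_eq',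
    if_pos ha]

open Classical in
theorem mv_pre (v : ℤ × ℤ) (c : ℤ) (ha : a ∈ A) (W : (ℤ × ℤ → ℤ) → ℝ) :
    (∑ x ∈ A, if mv A v c x = a then W x else 0) + (∑ x ∈ A, if mv A v (-c) x = a then W x else 0)
      = W (mv A v c a) + W (mv A v (-c) a) := by
  rw [mv_pre1 v c ha, mv_pre1 v (-c) ha, neg_neg]
  unfold mv
  split_ifs <;> ring

/-- The uniform measure is invariant. -/
theorem mv_sum (v : ℤ × ℤ) (c : ℤ) (W : (ℤ × ℤ → ℤ) → ℝ) :
    (∑ x ∈ A, W (mv A v c x)) + ∑ x ∈ A, W (mv A v (-c) x) = 2 * ∑ x ∈ A, W x := by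
  classical
  have h1 : ∀ c : ℤ, ∑ x ∈ A, W x = ∑ a ∈ A, ∑ x ∈ A, if mv A v c x = a then W x else 0 := by
    intro c
    rw [Finset.sum_comm]
    refine Finset.sum_congr rfl fun x hx => ?_
    rw [Finset.sum_ite_eq, if_pos (mv_mem hx)]
  have h2 := h1 c
  have h3 := h1 (-c)
  have h4 : (∑ x ∈ A, W (mv A v c x)) + ∑ x ∈ A, W (mv A v (-c) x) =
      (∑ a ∈ A, ∑ x ∈ A, if mv A v c x = a then W x else 0) +
      ∑ a ∈ A, ∑ x ∈ A, if mv A v (-c) x = a then W x else 0 := by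
    rw [← Finset.sum_add_distrib, ← Finset.sum_add_distrib]
    exact Finset.sum_congr rfl fun a ha => (mv_pre v c ha W).symm
  rw [h4, ← h2, ← h3]
  ring

/-- A function invariant under the moves is constant, if the set is connected. -/
theorem const_of (hinf : ∀ a ∈ A, ∀ b ∈ A, a ⊓ b ∈ A)
    (hup : ∀ a ∈ A, ∀ b ∈ A, a ≤ b → a ≠ b → ∃ v, bump v 2 a ∈ A ∧ bump v 2 a ≤ b)
    {W : (ℤ × ℤ → ℤ) → ℝ} (hW : ∀ v, ∀ a ∈ A, W (mv A v 2 a) = W a) :
    ∀ a ∈ A, ∀ b ∈ A, W a = W b := by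
  classical
  have key : ∀ k : ℕ, ∀ a ∈ A, ∀ b ∈ A, a ≤ b → (A.filter fun x => a ≤ x).card ≤ k →
      W a = W b := by
    intro k
    induction k with
    | zero =>
      intro a ha b _ _ hk
      rw [Nat.le_zero, Finset.card_eq_zero] at hk
      have : a ∈ A.filter fun x => a ≤ x := Finset.mem_filter.2 ⟨ha, le_rfl⟩
      rw [hk] at this
      exact absurd this (Finset.notMem_empty _)
    | succ k ih =>
      intro a ha b hb hab hk
      by_cases he : a = b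
      · rw [he]
      · obtain ⟨v, h1, h2⟩ := hup a ha b hb hab he
        have h3 : W (bump v 2 a) = W a := by
          rw [← mv_pos h1]
          exact hW v a ha
        rw [← h3]
        refine ih _ h1 b hb h2 ?_
        have h4 : a ≤ bump v 2 a := by
          intro w
          by_cases hw : w = v
          · rw [hw, bump_self]
            exact le_add_of_nonneg_right (by norm_num)
          · rw [bump_ne hw]
        have h5 : (A.filter fun x => bump v 2 a ≤ x) ⊂ A.filter fun x => a ≤ x := by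
          refine Finset.ssubset_iff_subset_ne.2 ⟨fun x hx => ?_, fun hne => ?_⟩
          · rw [Finset.mem_filter] at hx ⊢
            exact ⟨hx.1, h4.trans hx.2⟩
          · have : a ∈ A.filter fun x => bump v 2 a ≤ x := by
              rw [hne]
              exact Finset.mem_filter.2 ⟨ha, le_rfl⟩
            have h6 : bump v 2 a v ≤ a v := (Finset.mem_filter.1 this).2 v
            rw [bump_self] at h6
            linarith
        have := Finset.card_lt_card h5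
        omega
  intro a ha b hb
  rw [← key _ _ (hinf a ha b hb) a ha inf_le_left le_rfl,
    ← key _ _ (hinf a ha b hb) b hb inf_le_right le_rfl]

end Move

/-! ### The coupled chain -/

section Couple

variable {A B : Finset (ℤ × ℤ → ℤ)} {P : Finset ((ℤ × ℤ → ℤ) × (ℤ × ℤ → ℤ))}

open Classical in
/-- The first marginal. -/
noncomputable def m1 (w : ↥P → ℝ) (a : ℤ × ℤ → ℤ) : ℝ := ∑ q : ↥P, if q.1.1 = a then w q else 0

open Classical in
/-- The second marginal. -/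
noncomputable def m2 (w : ↥P → ℝ) (a : ℤ × ℤ → ℤ) : ℝ := ∑ q : ↥P, if q.1.2 = a then w q else 0

open Classical in
/-- The image of a weight. -/
noncomputable def push (f : ↥P → ↥P) (w : ↥P → ℝ) : ↥P → ℝ :=
  fun q => ∑ x : ↥P, if f x = q then w x else 0

theorem push_mem {f : ↥P → ↥P} {w : ↥P → ℝ} (hw : w ∈ stdSimplex ℝ ↥P) :
    push f w ∈ stdSimplex ℝ ↥P := by
  classical
  refine ⟨fun q => Finset.sum_nonneg fun x _ => ?_, ?_⟩
  · split_ifs
    · exact hw.1 x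
    · exact le_rfl
  · unfold push
    rw [Finset.sum_comm]
    rw [← hw.2]
    refine Finset.sum_congr rfl fun x _ => ?_
    rw [Finset.sum_ite_eq, if_pos (Finset.mem_univ _)]

open Classical in
theorem m1_push (f : ↥P → ↥P) (w : ↥P → ℝ) (g : (ℤ × ℤ → ℤ) → (ℤ × ℤ → ℤ))
    (hg : ∀ q : ↥P, (f q).1.1 = g q.1.1) (hP : ∀ q ∈ P, q.1 ∈ A) (a : ℤ × ℤ → ℤ) :
    m1 (push f w) a = ∑ x ∈ A, if g x = a then m1 w x else 0 := by
  unfold m1 push
  have e1 : ∀ q : ↥P, (if q.1.1 = a then ∑ x : ↥P, (if f x = q then w x else 0) else 0) =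
      ∑ x : ↥P, if f x = q then (if q.1.1 = a then w x else 0) else 0 := by
    intro q
    split_ifs with h
    · rfl
    · simp
  have e2 : ∀ x ∈ A, (if g x = a then ∑ q : ↥P, (if q.1.1 = x then w q else 0) else 0) =
      ∑ q : ↥P, if x = q.1.1 then (if g x = a then w q else 0) else 0 := by
    intro x _
    split_ifs with h
    · exact Finset.sum_congr rfl fun q _ => by simp only [eq_comm]
    · simp
  rw [Finset.sum_congr rfl fun q _ => e1 q, Finset.sum_congr rfl e2, Finset.sum_comm,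
    Finset.sum_comm (s := A)]
  refine Finset.sum_congr rfl fun q _ => ?_
  rw [Finset.sum_ite_eq, if_pos (Finset.mem_univ _), Finset.sum_ite_eq', if_pos (hP _ q.2), hg]

open Classical in
theorem m2_push (f : ↥P → ↥P) (w : ↥P → ℝ) (g : (ℤ × ℤ → ℤ) → (ℤ × ℤ → ℤ))
    (hg : ∀ q : ↥P, (f q).1.2 = g q.1.2) (hP : ∀ q ∈ P, q.2 ∈ A) (a : ℤ × ℤ → ℤ) :
    m2 (push f w) a = ∑ x ∈ A, if g x = a then m2 w x else 0 := by
  unfold m2 push
  have e1 : ∀ q : ↥P, (if q.1.2 = a then ∑ x : ↥P, (if f x = q then w x else 0) else 0) =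
      ∑ x : ↥P, if f x = q then (if q.1.2 = a then w x else 0) else 0 := by
    intro q
    split_ifs with h
    · rfl
    · simp
  have e2 : ∀ x ∈ A, (if g x = a then ∑ q : ↥P, (if q.1.2 = x then w q else 0) else 0) =
      ∑ q : ↥P, if x = q.1.2 then (if g x = a then w q else 0) else 0 := by
    intro x _
    split_ifs with h
    · exact Finset.sum_congr rfl fun q _ => by simp only [eq_comm]
    · simp
  rw [Finset.sum_congr rfl fun q _ => e1 q, Finset.sum_congr rfl e2, Finset.sum_comm,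
    Finset.sum_comm (s := A)]
  refine Finset.sum_congr rfl fun q _ => ?_
  rw [Finset.sum_ite_eq, if_pos (Finset.mem_univ _), Finset.sum_ite_eq', if_pos (hP _ q.2), hg]

end Couple


/-! ### The move keeps the distance at most two -/

section Pres

variable {n : ℕ} {p : ZMod n → ℤ × ℤ} {S : Finset ((ℤ × ℤ) × Bool)} {ξ : ZMod n → ℤ}
  {A B : Finset (ℤ × ℤ → ℤ)}

theorem adj_symm {v w : ℤ × ℤ} (h : GFF.Adj v w) : GFF.Adj w v := by
  obtain ⟨v1, v2⟩ := v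
  obtain ⟨w1, w2⟩ := w
  unfold GFF.Adj at h ⊢
  simp only [Set.mem_insert_iff, Set.mem_singleton_iff, Prod.mk.injEq] at h ⊢
  rcases h with h | h | h | h | h | h <;> omega

theorem Ok.bump_aux {h : ℤ × ℤ → ℤ} {v : ℤ × ℤ} {c : ℤ} (hc : Even c) (h2 : Ok S h)
    (hv : v ∈ verts S)
    (hm : ∀ w ∈ verts S, GFF.Adj v w → |h v + c - h w| ≤ 2) : Ok S (bump v c h) := by
  refine ⟨fun u hu => ?_, fun u hu w hw huw => ?_, fun u hu => ?_⟩
  · by_cases h' : u = v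
    · rw [h', bump_self]
      exact (h2.1 v hv).add_even hc
    · rw [bump_ne h']
      exact h2.1 u hu
  · by_cases h' : u = v
    · by_cases h'' : w = v
      · rw [h', h'', sub_self]
        norm_num
      · rw [h', bump_self, bump_ne h'']
        exact hm w hw (h' ▸ huw)
    · by_cases h'' : w = v
      · rw [h'', bump_self, bump_ne h', abs_sub_comm]
        exact hm u hu (h'' ▸ adj_symm huw)
      · rw [bump_ne h', bump_ne h'']
        exact h2.2.1 u hu w hw huw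
  · have hne : u ≠ v := fun e => hu (by rw [e]; exact hv)
    rw [bump_ne hne, h2.2.2 u hu]

theorem Ok.bump_of {h h' : ℤ × ℤ → ℤ} {v : ℤ × ℤ} {c : ℤ} (hc : c = 2 ∨ c = -2) (h1 : Ok S h)
    (h2 : Ok S h') (hd : ∀ w ∈ verts S, |h w - h' w| ≤ 2) (hv : v ∈ verts S)
    (hb : Ok S (bump v c h)) (hbad : 2 < |h v + c - h' v|) : Ok S (bump v c h') := by
  refine h2.bump_aux (by rcases hc with rfl | rfl <;> decide) hv fun w hw hvw => ?_
  by_cases hwv : w = v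
  · have := (h1.2.1 v hv w hw hvw)
    rw [hwv]
    rcases hc with rfl | rfl
    · rw [add_sub_cancel_left]; rfl
    · rw [add_sub_cancel_left]; rfl
  have a1 := hb.2.1 v hv w hw hvw
  rw [bump_self, bump_ne hwv] at a1
  have a2 := hd v hv
  have a3 := hd w hw
  have a4 := h2.2.1 v hv w hw hvw
  obtain ⟨x, hx⟩ := h1.1 v hv
  obtain ⟨y, hy⟩ := h2.1 v hv
  rw [abs_le] at a1 a2 a3 a4 ⊢
  rcases hc with rfl | rfl <;> rcases lt_abs.1 hbad with h5 | h5 <;> constructor <;> omega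

theorem pres (hξ : ∀ i, ξ i = 1 ∨ ξ i = -1) (hA : ∀ h, h ∈ A ↔ h ∈ HeightsB p S ξ)
    (hB : ∀ h, h ∈ B ↔ h ∈ Heights p S) {v : ℤ × ℤ} {c : ℤ} (hc : c = 2 ∨ c = -2)
    {a b : ℤ × ℤ → ℤ} (ha : a ∈ A) (hb : b ∈ B) (hd : ∀ w ∈ verts S, |a w - b w| ≤ 2) :
    ∀ w ∈ verts S, |mv A v c a w - mv B v c b w| ≤ 2 := by
  intro w hw
  by_cases hwv : w = v
  · by_cases hi : ∃ i, p i = w
    · obtain ⟨i, rfl⟩ := hi
      have e1 := ((hA _).1 (mv_mem (v := v) (c := c) ha)).2 i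
      have e2 := (mem_heights.1 ((hB _).1 (mv_mem (v := v) (c := c) hb))).2 i
      have e3 := hξ i
      rw [e1, abs_le]
      constructor <;> omega
    · subst hwv
      have hi' : ∀ i, p i ≠ w := fun i h => hi ⟨i, h⟩
      have ha1 := (hA _).1 ha
      have ha2 := mem_heights.1 ha1.1
      have hb2 := mem_heights.1 ((hB _).1 hb)
      by_contra hbad
      by_cases ma : bump w c a ∈ A <;> by_cases mb : bump w c b ∈ B
      · rw [mv_pos ma, mv_pos mb, bump_self, bump_self, add_sub_add_right_eq_sub] at hbad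
        exact hbad (hd w hw)
      · rw [mv_pos ma, mv_neg mb, bump_self, not_le] at hbad
        refine mb ((hB _).2 (mem_heights.2 ⟨Ok.bump_of hc ha2.1 hb2.1 hd hw
          (mem_heights.1 ((hA _).1 ma).1).1 hbad, fun i => ?_⟩))
        rw [bump_ne (hi' i)]
        exact hb2.2 i
      · rw [mv_neg ma, mv_pos mb, bump_self, not_le, abs_sub_comm] at hbad
        refine ma ((hA _).2 ⟨mem_heights.2 ⟨Ok.bump_of hc hb2.1 ha2.1
          (fun u hu => by rw [abs_sub_comm]; exact hd u hu) hw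
          (mem_heights.1 ((hB _).1 mb)).1 hbad, fun i => ?_⟩, fun i => ?_⟩)
        · rw [bump_ne (hi' i)]
          exact ha2.2 i
        · rw [bump_ne (hi' i)]
          exact ha1.2 i
      · rw [mv_neg ma, mv_neg mb] at hbad
        exact hbad (hd w hw)
  · rw [mv_ne hwv, mv_ne hwv]
    exact hd w hw

theorem conn {a b : ℤ × ℤ → ℤ} (ha : Ok S a) (hb : Ok S b) (hab : a ≤ b) (hne : a ≠ b) :
    ∃ v ∈ verts S, a v < b v ∧ Ok S (bump v 2 a) ∧ bump v 2 a ≤ b := by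
  classical
  obtain ⟨u, hu⟩ : ∃ u, a u ≠ b u := by
    by_contra hc
    push Not at hc
    exact hne (funext hc)
  have huv : u ∈ verts S := by
    by_contra hn
    rw [ha.2.2 u hn, hb.2.2 u hn] at hu
    exact hu rfl
  have hT : ((verts S).filter fun v => a v < b v).Nonempty :=
    ⟨u, Finset.mem_filter.2 ⟨huv, lt_of_le_of_ne (hab u) hu⟩⟩
  obtain ⟨v, hv, hmin⟩ := Finset.exists_min_image _ (fun v => a v) hT
  rw [Finset.mem_filter] at hv
  obtain ⟨x, hx⟩ := ha.1 v hv.1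
  obtain ⟨y, hy⟩ := hb.1 v hv.1
  have hgap : a v + 2 ≤ b v := by
    have := hv.2
    omega
  refine ⟨v, hv.1, hv.2, ha.bump_aux even_two hv.1 fun w hw hvw => ?_, fun w => ?_⟩
  · have a1 := abs_le.1 (ha.2.1 v hv.1 w hw hvw)
    have a2 := abs_le.1 (hb.2.1 v hv.1 w hw hvw)
    have a3 : a w ≤ b w := hab w
    have a4 : a w < b w → a v ≤ a w := fun h => hmin w (Finset.mem_filter.2 ⟨hw, h⟩)
    rw [abs_le]
    constructor <;> omega
  · by_cases hwv : w = v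
    · rw [hwv, bump_self]
      exact hgap
    · rw [bump_ne hwv]
      exact hab w

end Pres

/-! ### The minimisation -/

section Min

variable {A B : Finset (ℤ × ℤ → ℤ)} {P : Finset ((ℤ × ℤ → ℤ) × (ℤ × ℤ → ℤ))}

theorem m1_cont (a : ℤ × ℤ → ℤ) : Continuous fun w : ↥P → ℝ => m1 w a := by
  classical
  unfold m1
  refine continuous_finsetSum _ fun q _ => ?_
  split_ifs
  · exact continuous_apply q
  · exact continuous_const

theorem m2_cont (a : ℤ × ℤ → ℤ) : Continuous fun w : ↥P → ℝ => m2 w a := by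
  classical
  unfold m2
  refine continuous_finsetSum _ fun q _ => ?_
  split_ifs
  · exact continuous_apply q
  · exact continuous_const

theorem m1_total (hP : ∀ q ∈ P, q.1 ∈ A) {w : ↥P → ℝ} (hw : w ∈ stdSimplex ℝ ↥P) :
    ∑ a ∈ A, m1 w a = 1 := by
  classical
  unfold m1
  rw [Finset.sum_comm, ← hw.2]
  refine Finset.sum_congr rfl fun q _ => ?_
  rw [Finset.sum_ite_eq, if_pos (hP _ q.2)]

theorem m2_total (hP : ∀ q ∈ P, q.2 ∈ A) {w : ↥P → ℝ} (hw : w ∈ stdSimplex ℝ ↥P) :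
    ∑ a ∈ A, m2 w a = 1 := by
  classical
  unfold m2
  rw [Finset.sum_comm, ← hw.2]
  refine Finset.sum_congr rfl fun q _ => ?_
  rw [Finset.sum_ite_eq, if_pos (hP _ q.2)]

/-- The quadratic functional decreases. -/
theorem sq_dec (v : ℤ × ℤ) (c : ℤ) (W W' : (ℤ × ℤ → ℤ) → ℝ)
    (hW : ∀ a ∈ A, W' a = (W a + (W (mv A v c a) + W (mv A v (-c) a))) / 3) :
    ∑ a ∈ A, W' a ^ 2 + (∑ a ∈ A, (W a - W (mv A v c a)) ^ 2) / 9 ≤ ∑ a ∈ A, W a ^ 2 := by
  have h1 := mv_sum (A := A) v c fun a => W a ^ 2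
  have h2 : ∑ a ∈ A, W a ^ 2 = ∑ a ∈ A, (W a ^ 2 + (W (mv A v c a) ^ 2 +
      W (mv A v (-c) a) ^ 2)) / 3 := by
    rw [← Finset.sum_div, Finset.sum_add_distrib, Finset.sum_add_distrib, h1]
    ring
  rw [h2, Finset.sum_div, ← Finset.sum_add_distrib]
  refine Finset.sum_le_sum fun a ha => ?_
  rw [hW a ha]
  nlinarith [sq_nonneg (W a - W (mv A v (-c) a)), sq_nonneg (W (mv A v c a) - W (mv A v (-c) a))]

theorem exists_w (hP1 : ∀ q ∈ P, q.1 ∈ A) (hP2 : ∀ q ∈ P, q.2 ∈ B) (hne : P.Nonempty)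
    (hmv : ∀ (v : ℤ × ℤ) (c : ℤ), (c = 2 ∨ c = -2) → ∀ q ∈ P,
      ((mv A v c q.1, mv B v c q.2) : (ℤ × ℤ → ℤ) × (ℤ × ℤ → ℤ)) ∈ P)
    (hA1 : ∀ a ∈ A, ∀ b ∈ A, a ⊓ b ∈ A)
    (hA2 : ∀ a ∈ A, ∀ b ∈ A, a ≤ b → a ≠ b → ∃ v, bump v 2 a ∈ A ∧ bump v 2 a ≤ b)
    (hB1 : ∀ a ∈ B, ∀ b ∈ B, a ⊓ b ∈ B)
    (hB2 : ∀ a ∈ B, ∀ b ∈ B, a ≤ b → a ≠ b → ∃ v, bump v 2 a ∈ B ∧ bump v 2 a ≤ b) :
    ∃ w ∈ stdSimplex ℝ ↥P, (∀ a ∈ A, m1 w a = (A.card : ℝ)⁻¹) ∧
      ∀ b ∈ B, m2 w b = (B.card : ℝ)⁻¹ := by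
  classical
  obtain ⟨q0, hq0⟩ := hne
  have hcont : Continuous fun w : ↥P → ℝ => ∑ a ∈ A, m1 w a ^ 2 + ∑ b ∈ B, m2 w b ^ 2 :=
    (continuous_finsetSum _ fun a _ => (m1_cont a).pow 2).add
      (continuous_finsetSum _ fun a _ => (m2_cont a).pow 2)
  obtain ⟨w, hw, hmin⟩ := (isCompact_stdSimplex ℝ ↥P).exists_isMinOn
    ⟨Pi.single (⟨q0, hq0⟩ : ↥P) 1, single_mem_stdSimplex ℝ _⟩ hcont.continuousOn
  have key : ∀ v, (∀ a ∈ A, m1 w (mv A v 2 a) = m1 w a) ∧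
      ∀ b ∈ B, m2 w (mv B v 2 b) = m2 w b := by
    intro v
    set f : ↥P → ↥P := fun q => ⟨(mv A v 2 q.1.1, mv B v 2 q.1.2), hmv v 2 (Or.inl rfl) _ q.2⟩
      with hf
    set g : ↥P → ↥P := fun q =>
      ⟨(mv A v (-2) q.1.1, mv B v (-2) q.1.2), hmv v (-2) (Or.inr rfl) _ q.2⟩ with hg
    set w' : ↥P → ℝ := fun q => (w q + (push f w q + push g w q)) / 3 with hw'
    have hfm := push_mem (f := f) hw
    have hgm := push_mem (f := g) hw
    have hw'm : w' ∈ stdSimplex ℝ ↥P := by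
      refine ⟨fun q => ?_, ?_⟩
      · have h1 := hw.1 q
        have h2 := hfm.1 q
        have h3 := hgm.1 q
        rw [hw']
        positivity
      · rw [hw']
        rw [← Finset.sum_div, Finset.sum_add_distrib, Finset.sum_add_distrib, hw.2, hfm.2, hgm.2]
        norm_num
    have e1 : ∀ a ∈ A, m1 w' a = (m1 w a + (m1 w (mv A v 2 a) + m1 w (mv A v (-2) a))) / 3 := by
      intro a ha
      have h1 : m1 w' a = (m1 w a + (m1 (push f w) a + m1 (push g w) a)) / 3 := by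
        unfold m1
        rw [← Finset.sum_add_distrib, ← Finset.sum_add_distrib, Finset.sum_div]
        refine Finset.sum_congr rfl fun q _ => ?_
        split_ifs <;> simp [hw']
      rw [h1, m1_push f w (mv A v 2) (fun _ => rfl) hP1, m1_push g w (mv A v (-2)) (fun _ => rfl) hP1,
        mv_pre v 2 ha]
    have e2 : ∀ a ∈ B, m2 w' a = (m2 w a + (m2 w (mv B v 2 a) + m2 w (mv B v (-2) a))) / 3 := by
      intro a ha
      have h1 : m2 w' a = (m2 w a + (m2 (push f w) a + m2 (push g w) a)) / 3 := by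
        unfold m2
        rw [← Finset.sum_add_distrib, ← Finset.sum_add_distrib, Finset.sum_div]
        refine Finset.sum_congr rfl fun q _ => ?_
        split_ifs <;> simp [hw']
      rw [h1, m2_push f w (mv B v 2) (fun _ => rfl) hP2, m2_push g w (mv B v (-2)) (fun _ => rfl) hP2,
        mv_pre v 2 ha]
    have k1 := sq_dec v 2 (m1 w) (m1 w') e1
    have k2 := sq_dec v 2 (m2 w) (m2 w') e2
    have k3 : ∑ a ∈ A, m1 w a ^ 2 + ∑ b ∈ B, m2 w b ^ 2 ≤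
      ∑ a ∈ A, m1 w' a ^ 2 + ∑ b ∈ B, m2 w' b ^ 2 := hmin hw'm
    have s1 : 0 ≤ ∑ a ∈ A, (m1 w a - m1 w (mv A v 2 a)) ^ 2 := Finset.sum_nonneg fun _ _ => sq_nonneg _
    have s2 : 0 ≤ ∑ a ∈ B, (m2 w a - m2 w (mv B v 2 a)) ^ 2 := Finset.sum_nonneg fun _ _ => sq_nonneg _
    have z1 : ∑ a ∈ A, (m1 w a - m1 w (mv A v 2 a)) ^ 2 = 0 := by linarith
    have z2 : ∑ a ∈ B, (m2 w a - m2 w (mv B v 2 a)) ^ 2 = 0 := by linarith
    rw [Finset.sum_eq_zero_iff_of_nonneg fun _ _ => sq_nonneg _] at z1 z2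
    refine ⟨fun a ha => ?_, fun a ha => ?_⟩
    · have := pow_eq_zero_iff (two_ne_zero) |>.1 (z1 a ha)
      linarith
    · have := pow_eq_zero_iff (two_ne_zero) |>.1 (z2 a ha)
      linarith
  have c1 := const_of hA1 hA2 fun v => (key v).1
  have c2 := const_of hB1 hB2 fun v => (key v).2
  have hAne : A.Nonempty := ⟨_, hP1 _ hq0⟩
  have hBne : B.Nonempty := ⟨_, hP2 _ hq0⟩
  refine ⟨w, hw, fun a ha => ?_, fun b hb => ?_⟩
  · have h1 := m1_total hP1 hw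
    rw [Finset.sum_congr rfl fun x hx => c1 x hx a ha, Finset.sum_const, nsmul_eq_mul] at h1
    have h2 : (A.card : ℝ) ≠ 0 := by
      have := hAne.card_pos
      positivity
    field_simp
    linarith
  · have h1 := m2_total hP2 hw
    rw [Finset.sum_congr rfl fun x hx => c2 x hx b hb, Finset.sum_const, nsmul_eq_mul] at h1
    have h2 : (B.card : ℝ) ≠ 0 := by
      have := hBne.card_pos
      positivity
    field_simp
    linarith

end Min


/-! ### The coupling -/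

section Final

variable {n : ℕ} {p : ZMod n → ℤ × ℤ} {S : Finset ((ℤ × ℤ) × Bool)} {ξ : ZMod n → ℤ}

open Classical in
theorem sum_ofReal {P : Finset ((ℤ × ℤ → ℤ) × (ℤ × ℤ → ℤ))} {A : Finset (ℤ × ℤ → ℤ)}
    {w : ↥P → ℝ} (hw : ∀ q, 0 ≤ w q) (g : (ℤ × ℤ → ℤ) × (ℤ × ℤ → ℤ) → (ℤ × ℤ → ℤ))
    (hP : ∀ q ∈ P, g q ∈ A) (hA : A.Nonempty)
    (hm : ∀ a ∈ A, (∑ q : ↥P, if g q.1 = a then w q else 0) = (A.card : ℝ)⁻¹)
    (t : Set (ℤ × ℤ → ℤ)) :
    ∑ q : ↥P, ENNReal.ofReal (w q) * t.indicator 1 (g q.1) =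
      ((A.card : ENNReal))⁻¹ * ∑ a ∈ A, t.indicator 1 a := by
  have h1 : ∀ a ∈ A, ((A.card : ENNReal))⁻¹ * t.indicator 1 a =
      ∑ q : ↥P, if g q.1 = a then ENNReal.ofReal (w q) * t.indicator 1 (g q.1) else 0 := by
    intro a ha
    have h0 : (A.card : ℝ) ≠ 0 := by
      have := hA.card_pos
      positivity
    have h2 : ((A.card : ENNReal))⁻¹ = ∑ q : ↥P, if g q.1 = a then ENNReal.ofReal (w q) else 0 := by
      have h3 : ((A.card : ENNReal))⁻¹ = ENNReal.ofReal ((A.card : ℝ)⁻¹) := by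
        rw [ENNReal.ofReal_inv_of_pos (by have := hA.card_pos; positivity), ENNReal.ofReal_natCast]
      rw [h3, ← hm a ha, ENNReal.ofReal_sum_of_nonneg]
      · refine Finset.sum_congr rfl fun q _ => ?_
        split_ifs
        · rfl
        · exact ENNReal.ofReal_zero
      · intro q _
        split_ifs
        · exact hw q
        · exact le_rfl
    rw [h2, Finset.sum_mul]
    refine Finset.sum_congr rfl fun q _ => ?_
    split_ifs with h
    · rw [h]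
    · rw [zero_mul]
  rw [Finset.mul_sum, Finset.sum_congr rfl h1, Finset.sum_comm]
  refine Finset.sum_congr rfl fun q _ => ?_
  rw [Finset.sum_ite_eq, if_pos (hP _ q.2)]

theorem unif_apply {A : Finset (ℤ × ℤ → ℤ)} {t : Set (ℤ × ℤ → ℤ)} (ht : MeasurableSet t) :
    uniformOn (A : Set (ℤ × ℤ → ℤ)) t = ((A.card : ENNReal))⁻¹ * ∑ a ∈ A, t.indicator 1 a := by
  classical
  rw [← JG.sum_dirac_unif A.finite_toSet, Measure.smul_apply, finsum_mem_coe_finset,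
    Measure.finsetSum_apply, Set.ncard_coe_finset, smul_eq_mul]
  congr 1
  exact Finset.sum_congr rfl fun a _ => Measure.dirac_apply' a ht

/-- The heights with prescribed boundary values `ξ ∈ {1, -1}` can be coupled to the heights with
free boundary values `±1` such that the difference is at most two everywhere. -/
theorem coupling {n : ℕ} (p : ZMod n → ℤ × ℤ) (S : Finset ((ℤ × ℤ) × Bool)) (hp : IsPolygon p)
    (hS : Encloses p S) (ξ : ZMod n → ℤ) (hξ : ∀ i, ξ i = 1 ∨ ξ i = -1) :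
    ∃ Q : Measure ((ℤ × ℤ → ℤ) × (ℤ × ℤ → ℤ)),
      Q.map Prod.fst = uniformOn {h | h ∈ Heights p S ∧ ∀ i, h (p i) = ξ i} ∧
      Q.map Prod.snd = uniformOn (Heights p S) ∧ ∀ᵐ q ∂Q, ∀ v, |q.1 v - q.2 v| ≤ 2 := by
  classical
  obtain ⟨hfin, -, -⟩ := s_law p S hp hS
  have hfinB : (HeightsB p S ξ).Finite := hfin.subset fun h hh => hh.1
  set A := hfinB.toFinset with hAd
  set B := hfin.toFinset with hBd
  have hA : ∀ h, h ∈ A ↔ h ∈ HeightsB p S ξ := fun h => hfinB.mem_toFinset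
  have hB : ∀ h, h ∈ B ↔ h ∈ Heights p S := fun h => hfin.mem_toFinset
  set P : Finset ((ℤ × ℤ → ℤ) × (ℤ × ℤ → ℤ)) :=
    (A ×ˢ B).filter fun q => ∀ v ∈ verts S, |q.1 v - q.2 v| ≤ 2 with hP
  have hP1 : ∀ q ∈ P, q.1 ∈ A := fun q hq => (Finset.mem_product.1 (Finset.mem_filter.1 hq).1).1
  have hP2 : ∀ q ∈ P, q.2 ∈ B := fun q hq => (Finset.mem_product.1 (Finset.mem_filter.1 hq).1).2
  have hP3 : ∀ q ∈ P, ∀ v ∈ verts S, |q.1 v - q.2 v| ≤ 2 := fun q hq => (Finset.mem_filter.1 hq).2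
  have hne : P.Nonempty := by
    obtain ⟨g, hg⟩ := heightsB_ne hp hS hξ
    refine ⟨(g, g), Finset.mem_filter.2 ⟨Finset.mem_product.2 ⟨(hA g).2 hg, (hB g).2 hg.1⟩,
      fun v _ => ?_⟩⟩
    simp
  have hmv : ∀ (v : ℤ × ℤ) (c : ℤ), (c = 2 ∨ c = -2) → ∀ q ∈ P,
      ((mv A v c q.1, mv B v c q.2) : (ℤ × ℤ → ℤ) × (ℤ × ℤ → ℤ)) ∈ P := by
    intro v c hc q hq
    exact Finset.mem_filter.2 ⟨Finset.mem_product.2 ⟨mv_mem (hP1 q hq), mv_mem (hP2 q hq)⟩,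
      pres hξ hA hB hc (hP1 q hq) (hP2 q hq) (hP3 q hq)⟩
  have hA1 : ∀ a ∈ A, ∀ b ∈ A, a ⊓ b ∈ A := by
    intro a ha b hb
    rw [hA] at ha hb ⊢
    have h1 := mem_heights.1 ha.1
    have h2 := mem_heights.1 hb.1
    have hv : ∀ i, (a ⊓ b) (p i) = ξ i := fun i => by
      rw [Pi.inf_apply, ha.2 i, hb.2 i, inf_idem]
    exact ⟨mem_heights.2 ⟨h1.1.inf h2.1, fun i => by rw [hv i]; exact hξ i⟩, hv⟩
  have hA2 : ∀ a ∈ A, ∀ b ∈ A, a ≤ b → a ≠ b → ∃ v, bump v 2 a ∈ A ∧ bump v 2 a ≤ b := by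
    intro a ha b hb hab hn
    rw [hA] at ha hb
    have h1 := mem_heights.1 ha.1
    have h2 := mem_heights.1 hb.1
    obtain ⟨v, -, k2, k3, k4⟩ := conn h1.1 h2.1 hab hn
    have hne' : ∀ i, p i ≠ v := by
      rintro i rfl
      rw [ha.2 i, hb.2 i] at k2
      exact lt_irrefl _ k2
    have hv : ∀ i, bump v 2 a (p i) = ξ i := fun i => by rw [bump_ne (hne' i)]; exact ha.2 i
    exact ⟨v, (hA _).2 ⟨mem_heights.2 ⟨k3, fun i => by rw [hv i]; exact hξ i⟩, hv⟩, k4⟩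
  have hB1 : ∀ a ∈ B, ∀ b ∈ B, a ⊓ b ∈ B := by
    intro a ha b hb
    rw [hB, mem_heights] at ha hb ⊢
    refine ⟨ha.1.inf hb.1, fun i => ?_⟩
    have h1 := ha.2 i
    have h2 := hb.2 i
    rw [Pi.inf_apply]
    omega
  have hB2 : ∀ a ∈ B, ∀ b ∈ B, a ≤ b → a ≠ b → ∃ v, bump v 2 a ∈ B ∧ bump v 2 a ≤ b := by
    intro a ha b hb hab hn
    rw [hB, mem_heights] at ha hb
    obtain ⟨v, -, k2, k3, k4⟩ := conn ha.1 hb.1 hab hn
    refine ⟨v, (hB _).2 (mem_heights.2 ⟨k3, fun i => ?_⟩), k4⟩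
    have h1 := ha.2 i
    have h2 := hb.2 i
    have h3 : bump v 2 a (p i) ≤ b (p i) := k4 (p i)
    have h4 : a (p i) ≤ bump v 2 a (p i) := by
      by_cases hw : p i = v
      · rw [hw, bump_self]
        exact le_add_of_nonneg_right (by norm_num)
      · rw [bump_ne hw]
    have h5 : Odd (bump v 2 a (p i)) := k3.1 _ (dl_poly hp hS i)
    obtain ⟨x, hx⟩ := h5
    omega
  obtain ⟨w, hw, hw1, hw2⟩ := exists_w hP1 hP2 hne hmv hA1 hA2 hB1 hB2
  have hAne : A.Nonempty := by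
    obtain ⟨q, hq⟩ := hne
    exact ⟨_, hP1 q hq⟩
  have hBne : B.Nonempty := by
    obtain ⟨q, hq⟩ := hne
    exact ⟨_, hP2 q hq⟩
  refine ⟨∑ q : ↥P, ENNReal.ofReal (w q) • Measure.dirac q.1, ?_, ?_, ?_⟩
  · refine Measure.ext fun t ht => ?_
    have e : ({h | h ∈ Heights p S ∧ ∀ i, h (p i) = ξ i} : Set (ℤ × ℤ → ℤ)) = (A : Set _) :=
      hfinB.coe_toFinset.symm
    rw [e, unif_apply ht, Measure.map_apply measurable_fst ht, Measure.finsetSum_apply,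
      ← sum_ofReal hw.1 Prod.fst hP1 hAne hw1]
    refine Finset.sum_congr rfl fun q _ => ?_
    rw [Measure.smul_apply, Measure.dirac_apply' _ (measurable_fst ht), smul_eq_mul]
    rfl
  · refine Measure.ext fun t ht => ?_
    have e : Heights p S = (B : Set _) := hfin.coe_toFinset.symm
    rw [e, unif_apply ht, Measure.map_apply measurable_snd ht, Measure.finsetSum_apply,
      ← sum_ofReal hw.1 Prod.snd hP2 hBne hw2]
    refine Finset.sum_congr rfl fun q _ => ?_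
    rw [Measure.smul_apply, Measure.dirac_apply' _ (measurable_snd ht), smul_eq_mul]
    rfl
  · have hm : MeasurableSet {q : (ℤ × ℤ → ℤ) × (ℤ × ℤ → ℤ) | ¬ ∀ v, |q.1 v - q.2 v| ≤ 2} := by
      have e : {q : (ℤ × ℤ → ℤ) × (ℤ × ℤ → ℤ) | ¬ ∀ v, |q.1 v - q.2 v| ≤ 2} =
          ⋃ v, (fun q : (ℤ × ℤ → ℤ) × (ℤ × ℤ → ℤ) => q.1 v - q.2 v) ⁻¹' {x | ¬ |x| ≤ 2} := by
        ext q
        simp
      rw [e]
      exact MeasurableSet.iUnion fun v => (by fun_prop : Measurable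
        fun q : (ℤ × ℤ → ℤ) × (ℤ × ℤ → ℤ) => q.1 v - q.2 v) MeasurableSet.of_discrete
    rw [ae_iff, Measure.finsetSum_apply]
    refine Finset.sum_eq_zero fun q _ => ?_
    rw [Measure.smul_apply, Measure.dirac_apply' _ hm, Set.indicator_of_notMem, smul_zero]
    rw [Set.mem_ofPred_eq, not_not]
    intro v
    by_cases hv : v ∈ verts S
    · exact hP3 _ q.2 v hv
    · have h1 := (mem_heights.1 ((hA _).1 (hP1 _ q.2)).1).1.2.2 v hv
      have h2 := (mem_heights.1 ((hB _).1 (hP2 _ q.2))).1.2.2 v hv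
      rw [h1, h2]
      norm_num

end Final

end Vale.Agent.P153.F.Dom.Arcs
end

section

/-!
# P153: the strong form of the plane theorem, in the shape used by the hand-in
-/

open MeasureTheory ProbabilityTheory Filter Topology

namespace Vale.Agent.P153.GFF

/-- Convergence in law to the Gaussian free field under `μ δ`. -/
def ConvS (κ : ℝ) (μ : ℝ → Measure (ℤ × ℤ → ℤ)) (_ : ∀ δ, IsProbabilityMeasure (μ δ)) : Prop :=
  ∀ (m : ℕ) (f : Fin m → ℝ × ℝ → ℝ), (∀ j, Test (f j)) →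
    (Matrix.of (fun i j => κ * gffCov (f i) (f j))).PosSemidef ∧
    TendstoInDistribution (fun (δ : ℝ) (h : ℤ × ℤ → ℤ) =>
      (WithLp.toLp 2 (fun j => smear h δ (f j)) : EuclideanSpace ℝ (Fin m))) (𝓝[>] 0)
      (id : EuclideanSpace ℝ (Fin m) → EuclideanSpace ℝ (Fin m)) μ
      (multivariateGaussian 0 (Matrix.of (fun i j => κ * gffCov (f i) (f j))))

/-- Bounded measurable even functions of the heights in `B`. -/
def EvenLocS (B : Finset (ℤ × ℤ)) (W : (ℤ × ℤ → ℤ) → ℝ) : Prop :=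
  Measurable W ∧ (∃ M, ∀ h, |W h| ≤ M) ∧ (∀ h, W (-h) = W h) ∧
    ∀ h h', (∀ x ∈ B, h x = h' x) → W h = W h'

/-- The strong form of the final theorem. -/
def MainShape : Prop := ∃ P : Measure (ℤ × ℤ → ℤ), ∃ hP : IsProbabilityMeasure P,
    (∀ᵐ h ∂P, h 0 = 0) ∧
    (∀ D : ℕ → Finset (ℤ × ℤ), (∀ n, CoConn (D n)) → (∀ x, ∀ᶠ n in atTop, x ∈ D n) →
      OddLim P D) ∧
    OddGibbs P ∧
    (∀ t, P.map (shift t) = P) ∧ P.map (fun h x => h (rot x)) = P ∧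
    P.map (fun h x => h (x.2, x.1)) = P ∧
    (∀ B W W', EvenLocS B W → EvenLocS B W' →
      Tendsto (fun t => ∫ h, W h * W' (shift t h) ∂P) cofinite
        (𝓝 ((∫ h, W h ∂P) * ∫ h, W' h ∂P))) ∧
    ∃ κ : ℝ, 0 ≤ κ ∧
      Tendsto (fun x : ℤ × ℤ => (∫ h, ((h x : ℤ) : ℝ) ^ 2 ∂P) / Real.log (len x)) cofinite
        (𝓝 (κ / Real.pi)) ∧
      ConvS κ (fun _ => P) (fun _ => hP) ∧
      ∃ hU : ∀ D : Finset (ℤ × ℤ), IsProbabilityMeasure (uniformOn (Odd2 D)),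
      ∃ R : ℝ → Finset (ℤ × ℤ),
      ∀ D : ℝ → Finset (ℤ × ℤ), (∀ δ, R δ ⊆ D δ) → (∀ δ, CoConn (D δ)) →
        ConvS κ (fun δ => uniformOn (Odd2 (D δ))) (fun δ => hU (D δ))

theorem main_shape : MainShape := by
  obtain ⟨P, hP, h1, h2, h3, h4, h5, h6, h7, κ, hκ, h8, h9, hU, R, h10⟩ := main_plus
  exact ⟨P, hP, h1, h2, h3, h4, h5, h6, fun B W W' a b => h7 B W W' a.1 b.1 a.2.1 b.2.1 a.2.2.1
    b.2.2.1 a.2.2.2 b.2.2.2, κ, hκ, h8, h9, hU, R, fun D hD hC m f hf =>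
    ⟨(h9 m f hf).1, h10 D hD hC m f hf⟩⟩

end Vale.Agent.P153.GFF
end
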