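import Mathlib
import Vale.Agent.P153.Bd5.B29
import Vale.Agent.P153.Bd5.B27

set_option linter.all false

section
/-!
# P153-F: Jordan domains, prescribed boundary values and the logarithmic growth of the variance
-/

set_option autoImplicit false

open MeasureTheory ProbabilityTheory Filter Topology

namespace Vale.Agent.P153.JG

open Vale.Agent.P153.GFF

/-- The heights with the values `ξ` on the polygon. -/
def HeightsB {n : ℕ} (p : ZMod n → ℤ × ℤ) (S : Finset ((ℤ × ℤ) × Bool)) (ξ : ZMod n → ℤ) :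
    Set (ℤ × ℤ → ℤ) := {h ∈ F.Dom.Heights p S | ∀ i, h (p i) = ξ i}

/-- The functions which differ by at most `2` from an element of `A`. -/
def Near (A : Set (ℤ × ℤ → ℤ)) : Set (ℤ × ℤ → ℤ) := {g | ∃ h ∈ A, ∀ v, |h v - g v| ≤ 2}

theorem unif_real {s A : Set (ℤ × ℤ → ℤ)} (hs : s.Finite) :
    (uniformOn s).real (s ∩ A) = ((s ∩ A).ncard : ℝ) / s.ncard := by
  classical
  have hms : MeasurableSet s := hs.measurableSet
  unfold uniformOn Measure.real
  rw [cond_apply hms, Measure.count_apply_finite s hs,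
    Measure.count_apply_finite (s ∩ (s ∩ A)) (hs.inter_of_left _), ENNReal.toReal_mul,
    ENNReal.toReal_inv, ENNReal.toReal_natCast, ENNReal.toReal_natCast,
    Set.ncard_eq_toFinset_card s hs, Set.ncard_eq_toFinset_card (s ∩ A) (hs.inter_of_left _),
    div_eq_inv_mul]
  congr 3
  ext h
  simp

theorem near_le {n : ℕ} (p : ZMod n → ℤ × ℤ) (S : Finset ((ℤ × ℤ) × Bool)) (ξ : ZMod n → ℤ)
    (A : Set (ℤ × ℤ → ℤ)) (hp : F.Dom.IsPolygon p) (hS : F.Dom.Encloses p S)
    (hξ : ∀ i, |ξ i| = 1) :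
    ((HeightsB p S ξ ∩ A).ncard : ℝ) / (HeightsB p S ξ).ncard ≤
      ((F.Dom.Heights p S ∩ Near A).ncard : ℝ) / (F.Dom.Heights p S).ncard := by
  obtain ⟨hf, hne, -⟩ := F.Dom.s_law p S hp hS
  have hfB : (HeightsB p S ξ).Finite := hf.subset fun h hh => hh.1
  obtain ⟨Q, h1, h2, h3⟩ := F.Dom.Arcs.coupling p S hp hS ξ fun i => by
    rcases abs_cases (ξ i) with h | h <;> have := hξ i <;> omega
  have h1' : Q.map Prod.fst = uniformOn (HeightsB p S ξ) := h1
  rw [← unif_real hfB, ← unif_real hf, ← h1', ← h2]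
  have hm1 : MeasurableSet (HeightsB p S ξ ∩ A) := (hfB.inter_of_left _).measurableSet
  have hm2 : MeasurableSet (F.Dom.Heights p S ∩ Near A) := (hf.inter_of_left _).measurableSet
  have hpr : IsProbabilityMeasure (Q.map Prod.snd) := by
    rw [h2]
    exact isProbabilityMeasure_uniformOn hf hne
  have hfin : IsFiniteMeasure Q := by
    constructor
    have e : Q.map Prod.snd Set.univ = Q Set.univ := by
      rw [Measure.map_apply measurable_snd MeasurableSet.univ, Set.preimage_univ]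
    rw [← e]
    exact measure_lt_top _ _
  unfold Measure.real
  rw [Measure.map_apply measurable_fst hm1, Measure.map_apply measurable_snd hm2]
  refine ENNReal.toReal_mono (measure_ne_top _ _) (measure_mono_ae ?_)
  have h4 : ∀ᵐ q ∂Q, q.2 ∈ F.Dom.Heights p S := by
    have h5 : ∀ᵐ h ∂(Q.map Prod.snd), h ∈ F.Dom.Heights p S := by
      rw [h2]
      exact ae_cond_mem hf.measurableSet
    exact ae_of_ae_map measurable_snd.aemeasurable h5
  filter_upwards [h3, h4] with q a b hq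
  exact ⟨b, q.1, hq.2, a⟩

/-- The theorem with the logarithmic growth and with prescribed boundary values. -/
def JordanShape2 : Prop := ∃ P : Measure (ℤ × ℤ → ℤ), ∃ _ : IsProbabilityMeasure P,
    (∀ᵐ h ∂P, h 0 = 0) ∧
    (∀ D : ℕ → Finset (ℤ × ℤ), (∀ n, CoConn (D n)) → (∀ x, ∀ᶠ n in atTop, x ∈ D n) →
      OddLim P D) ∧
    ∃ κ : ℝ, 0 ≤ κ ∧
      Tendsto (fun x : ℤ × ℤ => (∫ h, (h x : ℝ) ^ 2 ∂P) / Real.log (len x)) cofinite
        (𝓝 (κ / Real.pi)) ∧
      ((∃ c > 0, ∀ (D : Finset (ℤ × ℤ)) (n : ℕ), CoConn D → (∀ x, len x ≤ n → x ∈ D) →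
        c * Real.log n ≤ ∫ h, (h 0 : ℝ) ^ 2 ∂uniformOn {h : ℤ × ℤ → ℤ |
          (∀ x, x ∉ D → h x = 0) ∧ ∀ x y, GFF.Adj x y → |h x - h y| ≤ 1}) → 0 < κ) ∧
      (0 < κ → JordanPart κ) ∧
      ∀ (n : ℕ) (p : ZMod n → ℤ × ℤ) (S : Finset ((ℤ × ℤ) × Bool)) (ξ : ZMod n → ℤ)
        (A : Set (ℤ × ℤ → ℤ)), F.Dom.IsPolygon p → F.Dom.Encloses p S → (∀ i, |ξ i| = 1) →
        ((HeightsB p S ξ ∩ A).ncard : ℝ) / (HeightsB p S ξ).ncard ≤
          ((F.Dom.Heights p S ∩ Near A).ncard : ℝ) / (F.Dom.Heights p S).ncard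

theorem shape2_of (hJ : ∀ (Q : Measure A.Om) (κ' : ℝ), A.IsQ Q → Plane (Q.map A.rc) →
    SpecOut (Q.map A.rc) κ' → RowCLT (Q.map A.rc) κ' → 0 < κ' → ∀ D, F.Dom.JordanDomain D →
      F.Dom.Conv (4 * κ' / √3) D) : JordanShape2 := by
  obtain ⟨Q, κ', hQ, hP, hS, hC, hκ, hpr, ⟨h1, h2, _, _, _, _, _, h4, h5⟩, h6, _⟩ :=
    F.exists_all
  have h30 : (0 : ℝ) < √3 := by positivity
  refine ⟨(Q.map A.rc).map dbl, hpr, h1, h2, 4 * κ' / √3, h4, h5, F.GM.pos_of_gm hP h4 h5,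
    fun hk => jordanPart_of (hJ Q κ' hQ hP hS hC ?_), fun n p S ξ A a b c => near_le p S ξ A a b c⟩
  by_contra hn
  have h0 : κ' = 0 := le_antisymm (not_lt.1 hn) hκ
  rw [h0] at hk
  simp at hk

end Vale.Agent.P153.JG
end

section
/-!
# P153-F: the final theorem with the logarithmic growth and with prescribed boundary values
-/

namespace Vale.Agent.P153.JG

theorem main2 : JordanShape2 :=
  shape2_of fun _ _ a b c d e _ hD => F.jordan a b c d e hD

end Vale.Agent.P153.JG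
end

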